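import Crest.Agent.R239.Gau6
import Crest.Agent.R239.LineGauss

/-! R239 (helper142): comparison of Gaussian measures under linear maps (CMP of doc 2400). -/

set_option autoImplicit false
set_option linter.unusedSectionVars false
open MeasureTheory ProbabilityTheory Set Filter Topology
open scoped RealInnerProductSpace ENNReal NNReal InnerProduct

namespace Crest.Agent.R239.Cmp142

open Crest.Agent.R239 Crest.Agent.Lib.PrekopaLeindler

variable {E : Type*} [NormedAddCommGroup E] [InnerProductSpace ℝ E] [FiniteDimensional ℝ E]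
  [MeasurableSpace E] [BorelSpace E]
variable {F : Type*} [NormedAddCommGroup F] [InnerProductSpace ℝ F] [FiniteDimensional ℝ F]
  [MeasurableSpace F] [BorelSpace F]

/-- Prékopa–Leindler for sets. -/
theorem pl_sets {t : ℝ} (ht0 : 0 < t) (ht1 : t < 1) {A B C : Set E} (hA : MeasurableSet A)
    (hB : MeasurableSet B) (hC : MeasurableSet C)
    (h : ∀ x ∈ A, ∀ y ∈ B, (1 - t) • x + t • y ∈ C) :
    stdGaussian E A ^ (1 - t) * stdGaussian E B ^ t ≤ stdGaussian E C := by
  have h1 := PL_std (E := E) t ht0 ht1 (A.indicator 1) (B.indicator 1) (C.indicator 1)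
    (measurable_one.indicator hA) (measurable_one.indicator hB) (measurable_one.indicator hC) (by
      intro x y
      by_cases hx : x ∈ A
      · by_cases hy : y ∈ B
        · rw [indicator_of_mem hx, indicator_of_mem hy, indicator_of_mem (h x hx y hy)]
          simp
        · rw [indicator_of_notMem hy, ENNReal.zero_rpow_of_pos ht0, mul_zero]
          exact bot_le
      · rw [indicator_of_notMem hx, ENNReal.zero_rpow_of_pos (by linarith), zero_mul]
        exact bot_le)
  rw [lintegral_indicator_one hA, lintegral_indicator_one hB, lintegral_indicator_one hC] at h1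
  exact h1

/-- the standard Gaussian is even -/
theorem std_neg {A : Set E} (hA : MeasurableSet A) :
    stdGaussian E {x | -x ∈ A} = stdGaussian E A := by
  have h : gau (-ContinuousLinearMap.id ℝ E) = gau (ContinuousLinearMap.id ℝ E) := by
    apply gau_ext
    intro t
    rw [map_neg]
    simp
  have h1 := congrArg (fun μ : Measure E => μ A) h
  simp only [gau_apply _ hA] at h1
  exact h1

/-- Anderson's inequality for images of the standard Gaussian. -/
theorem anderson (S : F →L[ℝ] E) {K : Set E} (mK : MeasurableSet K) (cK : Convex ℝ K)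
    (sK : ∀ x ∈ K, -x ∈ K) (x : E) :
    stdGaussian F {y | x + S y ∈ K} ≤ stdGaussian F {y | S y ∈ K} := by
  have mA : MeasurableSet {y : F | x + S y ∈ K} :=
    (by fun_prop : Measurable fun y : F => x + S y) mK
  have mC : MeasurableSet {y : F | S y ∈ K} := (by fun_prop : Measurable fun y : F => S y) mK
  have mB : MeasurableSet {y : F | -y ∈ {y : F | x + S y ∈ K}} :=
    (by fun_prop : Measurable fun y : F => -y) mA
  have h := pl_sets (t := 1 / 2) (by norm_num) (by norm_num) mA mB mC (by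
    intro y hy z hz
    simp only [mem_ofPred_eq] at hy hz ⊢
    have hz' := sK _ hz
    have := cK hy hz' (a := 1 / 2) (b := 1 / 2) (by norm_num) (by norm_num) (by norm_num)
    convert this using 1
    simp only [map_add, map_smul, map_neg]
    module)
  rw [std_neg mA] at h
  have h2 : (1 : ℝ) - 1 / 2 = 1 / 2 := by norm_num
  rw [h2, ← ENNReal.rpow_add_of_nonneg _ _ (by norm_num) (by norm_num)] at h
  norm_num at h
  exact h

/-- Contractions only increase the measure of symmetric convex sets. -/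
theorem contraction (R : E →L[ℝ] F) (hR : ∀ g, ‖R g‖ ≤ ‖g‖) {K : Set F} (mK : MeasurableSet K)
    (cK : Convex ℝ K) (sK : ∀ x ∈ K, -x ∈ K) :
    stdGaussian F K ≤ stdGaussian E (R ⁻¹' K) := by
  have hadj : ∀ t, ‖R.adjoint t‖ ≤ ‖(ContinuousLinearMap.id ℝ F).adjoint t‖ := by
    intro t
    have h1 : ‖R.adjoint t‖ ≤ ‖R.adjoint‖ * ‖t‖ := R.adjoint.le_opNorm t
    have h2 : ‖R.adjoint‖ ≤ 1 := by
      rw [LinearIsometryEquiv.norm_map]
      exact R.opNorm_le_bound (by norm_num) (fun x => by simpa using hR x)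
    have h3 : (ContinuousLinearMap.id ℝ F).adjoint t = t := by simp
    rw [h3]
    nlinarith [norm_nonneg t]
  obtain ⟨D, hD⟩ := exists_complement R (ContinuousLinearMap.id ℝ F) hadj
  have hD' : ∀ t, ‖D.adjoint t‖ ^ 2 + ‖R.adjoint t‖ ^ 2
      = ‖(ContinuousLinearMap.id ℝ F).adjoint t‖ ^ 2 := fun t => by rw [← hD t]; ring
  have h1 := gau_mix hD' mK
  rw [gau_id] at h1
  rw [h1]
  calc ∫⁻ x, gau R {z | D x + z ∈ K} ∂(stdGaussian F)
      ≤ ∫⁻ _x, stdGaussian E (R ⁻¹' K) ∂(stdGaussian F) := by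
        apply lintegral_mono
        intro x
        have mz : MeasurableSet {z : F | D x + z ∈ K} :=
          (by fun_prop : Measurable fun z : F => D x + z) mK
        show gau R {z | D x + z ∈ K} ≤ _
        rw [gau_apply R mz]
        exact anderson R mK cK sK (D x)
    _ = stdGaussian E (R ⁻¹' K) := by simp

/-! ### Tilting by one square -/

lemma tilt_real {l : ℝ} (hl : 0 ≤ l) {f : ℝ → ℝ≥0∞} (hf : Measurable f) :
    ∫⁻ s, f s * ENNReal.ofReal (Real.exp (-(l * s ^ 2) / 2)) ∂(gaussianReal 0 1)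
      = ENNReal.ofReal (√(1 + l))⁻¹ * ∫⁻ s, f ((√(1 + l))⁻¹ * s) ∂(gaussianReal 0 1) := by
  set c : ℝ := (√(1 + l))⁻¹ with hc
  have h1l : (0 : ℝ) < 1 + l := by linarith
  have hc0 : 0 < c := by rw [hc]; positivity
  have hcc : c ^ 2 = (1 + l)⁻¹ := by rw [hc, inv_pow, Real.sq_sqrt h1l.le]
  obtain ⟨v, hv⟩ : ∃ v : ℝ≥0, (v : ℝ) = c ^ 2 :=
    ⟨Real.toNNReal (c ^ 2), Real.coe_toNNReal _ (sq_nonneg _)⟩
  have hm : (gaussianReal 0 1).map (fun s => c * s) = gaussianReal 0 v := by
    have h := gaussianReal_map_const_mul (μ := 0) (v := 1) c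
    rw [mul_zero, mul_one] at h
    have h' : NNReal.mk (c ^ 2) (sq_nonneg c) = v := by
      ext
      exact hv.symm
    rw [h'] at h
    exact h
  have hne : v ≠ 0 := by
    intro h
    rw [h] at hv
    simp at hv
    exact (pow_pos hc0 2).ne' hv.symm
  have h2 : ∫⁻ s, f (c * s) ∂(gaussianReal 0 1) = ∫⁻ s, f s ∂(gaussianReal 0 v) := by
    rw [← hm, lintegral_map hf (by fun_prop)]
  rw [h2, gaussianReal_of_var_ne_zero 0 one_ne_zero, gaussianReal_of_var_ne_zero 0 hne,
    lintegral_withDensity_eq_lintegral_mul _ (measurable_gaussianPDF 0 1) (by fun_prop),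
    lintegral_withDensity_eq_lintegral_mul _ (measurable_gaussianPDF _ _) hf,
    ← lintegral_const_mul _ ((measurable_gaussianPDF _ _).mul hf)]
  refine lintegral_congr fun s => ?_
  simp only [Pi.mul_apply, gaussianPDF]
  have h3 : gaussianPDFReal 0 1 s * Real.exp (-(l * s ^ 2) / 2)
      = c * gaussianPDFReal 0 v s := by
    simp only [gaussianPDFReal, NNReal.coe_one, mul_one, sub_zero, hv]
    have h4 : √(2 * Real.pi * c ^ 2) = √(2 * Real.pi) * c := by
      rw [Real.sqrt_mul (by positivity), Real.sqrt_sq hc0.le]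
    have h5 : -s ^ 2 / (2 * c ^ 2) = -s ^ 2 / 2 + -(l * s ^ 2) / 2 := by
      rw [hcc]
      field_simp
      ring
    rw [h4, h5, Real.exp_add]
    have h6 : √(2 * Real.pi) ≠ 0 := by positivity
    field_simp
  calc ENNReal.ofReal (gaussianPDFReal 0 1 s) * (f s * ENNReal.ofReal (Real.exp (-(l * s ^ 2) / 2)))
      = f s * (ENNReal.ofReal (gaussianPDFReal 0 1 s)
          * ENNReal.ofReal (Real.exp (-(l * s ^ 2) / 2))) := by ring
    _ = f s * ENNReal.ofReal (c * gaussianPDFReal 0 v s) := by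
        rw [← ENNReal.ofReal_mul (gaussianPDFReal_nonneg _ _ _), h3]
    _ = _ := by rw [ENNReal.ofReal_mul hc0.le]; ring

/-- For every `w` there is a linear contraction `C` with `‖C x‖² + ⟪w, C x⟫² = ‖x‖²` carrying
the standard Gaussian to the (unnormalised) tilt `exp (-⟪w, ·⟫² / 2) γ`. -/
theorem exists_tilt (w : E) : ∃ C : E →L[ℝ] E, (∀ x, ‖C x‖ ^ 2 + ⟪w, C x⟫ ^ 2 = ‖x‖ ^ 2) ∧
    (∀ u, ‖C.adjoint u‖ ≤ ‖u‖) ∧
    (∀ f : E → ℝ≥0∞, Measurable f →
      ∫⁻ x, f x * ENNReal.ofReal (Real.exp (-⟪w, x⟫ ^ 2 / 2)) ∂(stdGaussian E)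
        = ENNReal.ofReal (√(1 + ‖w‖ ^ 2))⁻¹ * ∫⁻ x, f (C x) ∂(stdGaussian E)) := by
  by_cases hw : w = 0
  · refine ⟨ContinuousLinearMap.id ℝ E, by simp [hw], by simp, fun f hf => by simp [hw]⟩
  have hwn : 0 < ‖w‖ := norm_pos_iff.2 hw
  set l : ℝ := ‖w‖ ^ 2 with hl
  have hl0 : 0 ≤ l := sq_nonneg _
  have h1l : (0 : ℝ) < 1 + l := by linarith
  set c : ℝ := (√(1 + l))⁻¹ with hc
  have hc0 : 0 < c := by rw [hc]; positivity
  have hcc : c ^ 2 * (1 + l) = 1 := by
    rw [hc, inv_pow, Real.sq_sqrt h1l.le]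
    field_simp
  have hc1 : c ≤ 1 := by
    by_contra h
    rw [not_le] at h
    nlinarith
  set e : E := ‖w‖⁻¹ • w with he
  have hen : ‖e‖ = 1 := by
    rw [he, norm_smul, norm_inv, norm_norm]
    field_simp
  have hwe : w = ‖w‖ • e := by rw [he, smul_smul, mul_inv_cancel₀ hwn.ne', one_smul]
  have hwx : ∀ x, ⟪w, x⟫ ^ 2 = l * ⟪e, x⟫ ^ 2 := by
    intro x
    conv_lhs => rw [hwe, inner_smul_left]
    simp only [conj_trivial]
    rw [mul_pow]
  let C : E →L[ℝ] E := ContinuousLinearMap.id ℝ E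
    - (1 - c) • ((ContinuousLinearMap.toSpanSingleton ℝ e) ∘L (innerSL ℝ e))
  have hC : ∀ x, C x = x - ((1 - c) * ⟪e, x⟫) • e := by
    intro x
    simp only [C, sub_apply, smul_apply, ContinuousLinearMap.comp_apply, innerSL_apply_apply,
      ContinuousLinearMap.toSpanSingleton_apply, smul_smul, ContinuousLinearMap.id_apply]
  have hee : ⟪e, e⟫ = 1 := by rw [real_inner_self_eq_norm_sq, hen]; norm_num
  have heC : ∀ x, ⟪e, C x⟫ = c * ⟪e, x⟫ := by
    intro x
    rw [hC, inner_sub_right, inner_smul_right, hee]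
    ring
  have hCn : ∀ x, ‖C x‖ ^ 2 = ‖x‖ ^ 2 - (1 - c ^ 2) * ⟪e, x⟫ ^ 2 := by
    intro x
    rw [hC, norm_sub_sq_real, inner_smul_right, norm_smul, hen, real_inner_comm x e, mul_one,
      Real.norm_eq_abs, sq_abs]
    rw [real_inner_comm e x]
    ring
  have hCadj : C.adjoint = C := by
    symm
    rw [ContinuousLinearMap.eq_adjoint_iff]
    intro x y
    rw [hC, hC, inner_sub_left, inner_sub_right, inner_smul_left, inner_smul_right,
      real_inner_comm x e]
    simp only [conj_trivial]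
    ring
  refine ⟨C, fun x => ?_, fun u => ?_, fun f hf => ?_⟩
  · rw [hwx, heC, hCn]
    have : (c * ⟪e, x⟫) ^ 2 = c ^ 2 * ⟪e, x⟫ ^ 2 := by ring
    rw [this]
    linear_combination ⟪e, x⟫ ^ 2 * hcc
  · rw [hCadj]
    have h1 := hCn u
    have h2 : ‖C u‖ ^ 2 ≤ ‖u‖ ^ 2 := by
      rw [h1]
      nlinarith [sq_nonneg ⟪e, u⟫]
    exact abs_le_of_sq_le_sq' h2 (norm_nonneg _) |>.2
  · have hfC : Measurable fun x => f (C x) := hf.comp C.continuous.measurable
    have hL := line_lintegral hen hfC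
    rw [line_lintegral hen (by fun_prop), hL,
      ← lintegral_const_mul _ (by
        exact (hfC.comp (measurable_line e)).lintegral_prod_left')]
    refine lintegral_congr fun y => ?_
    have h1 : ∀ s : ℝ, ⟪e, s • e + proj e y⟫ = s := by
      intro s
      rw [inner_add_right, inner_smul_right, hee, inner_proj hen]
      ring
    have h2 : ∀ s : ℝ, C (s • e + proj e y) = (c * s) • e + proj e y := by
      intro s
      rw [hC, h1]
      module
    simp only [h2]
    have h3 := tilt_real hl0 (f := fun s => f (s • e + proj e y)) (by fun_prop)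
    rw [← hc] at h3
    rw [← h3]
    refine lintegral_congr fun s => ?_
    rw [hwx, h1]

lemma exp_le_inv_sqrt {l : ℝ} (hl : 0 ≤ l) : Real.exp (-l / 2) ≤ (√(1 + l))⁻¹ := by
  have h1 : (0 : ℝ) < 1 + l := by linarith
  rw [Real.exp_eq_exp_ℝ, ← Real.exp_eq_exp_ℝ]
  have h2 : √(1 + l) ≤ Real.exp (l / 2) := by
    rw [Real.sqrt_le_left (Real.exp_pos _).le, ← Real.exp_nat_mul]
    have := Real.add_one_le_exp l
    have h3 : ((2 : ℕ) : ℝ) * (l / 2) = l := by push_cast; ring
    rw [h3]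
    linarith
  have h3 : Real.exp (-l / 2) = (Real.exp (l / 2))⁻¹ := by
    rw [← Real.exp_neg]
    congr 1
    ring
  rw [h3]
  exact inv_anti₀ (by positivity) h2

theorem tilt_measure (w : E) : ∃ C : E →L[ℝ] E, (∀ x, ‖C x‖ ^ 2 + ⟪w, C x⟫ ^ 2 = ‖x‖ ^ 2) ∧
    (∀ u, ‖C.adjoint u‖ ≤ ‖u‖) ∧
    (∀ A : Set E, MeasurableSet A →
      ENNReal.ofReal (Real.exp (-‖w‖ ^ 2 / 2)) * stdGaussian E (C ⁻¹' A) ≤ stdGaussian E A) := by
  obtain ⟨C, h1, h2, h3⟩ := exists_tilt w
  refine ⟨C, h1, h2, fun A hA => ?_⟩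
  have h4 := h3 (A.indicator 1) (measurable_one.indicator hA)
  have h5 : ∫⁻ x, A.indicator 1 (C x) ∂(stdGaussian E) = stdGaussian E (C ⁻¹' A) := by
    have : (fun x => A.indicator (1 : E → ℝ≥0∞) (C x)) = (C ⁻¹' A).indicator 1 := by
      rfl
    rw [this, lintegral_indicator_one (C.continuous.measurable hA)]
  rw [h5] at h4
  calc ENNReal.ofReal (Real.exp (-‖w‖ ^ 2 / 2)) * stdGaussian E (C ⁻¹' A)
      ≤ ENNReal.ofReal (√(1 + ‖w‖ ^ 2))⁻¹ * stdGaussian E (C ⁻¹' A) := by
        gcongr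
        exact exp_le_inv_sqrt (sq_nonneg _)
    _ = ∫⁻ x, A.indicator 1 x * ENNReal.ofReal (Real.exp (-⟪w, x⟫ ^ 2 / 2)) ∂(stdGaussian E) :=
        h4.symm
    _ ≤ ∫⁻ x, A.indicator 1 x ∂(stdGaussian E) := by
        apply lintegral_mono
        intro x
        calc A.indicator 1 x * ENNReal.ofReal (Real.exp (-⟪w, x⟫ ^ 2 / 2))
            ≤ A.indicator 1 x * 1 := by
              gcongr
              rw [← ENNReal.ofReal_one]
              apply ENNReal.ofReal_le_ofReal
              rw [Real.exp_le_one_iff]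
              have := sq_nonneg ⟪w, x⟫
              linarith
          _ = _ := mul_one _
    _ = stdGaussian E A := lintegral_indicator_one hA

/-- **(CMP)** for finite sums of squares. -/
theorem cmp_sum {ι : Type*} [DecidableEq ι] {K : Set F} (mK : MeasurableSet K)
    (cK : Convex ℝ K) (sK : ∀ x ∈ K, -x ∈ K) (s : Finset ι) :
    ∀ (R : E →L[ℝ] F) (w : ι → E), (∀ g, ‖R g‖ ^ 2 ≤ ‖g‖ ^ 2 + ∑ k ∈ s, ⟪w k, g⟫ ^ 2) →
      ENNReal.ofReal (Real.exp (-(∑ k ∈ s, ‖w k‖ ^ 2) / 2)) * stdGaussian F K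
        ≤ stdGaussian E (R ⁻¹' K) := by
  induction s using Finset.induction_on with
  | empty =>
    intro R w h
    simp only [Finset.sum_empty, neg_zero, zero_div, Real.exp_zero, ENNReal.ofReal_one, one_mul]
    refine contraction R (fun g => ?_) mK cK sK
    have := h g
    simp only [Finset.sum_empty, add_zero] at this
    exact abs_le_of_sq_le_sq' this (norm_nonneg _) |>.2
  | insert a s has ih =>
    intro R w h
    obtain ⟨C, hC1, hC2, hC3⟩ := tilt_measure (w a)
    have h1 := ih (R ∘L C) (fun k => C.adjoint (w k)) (by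
      intro g
      have := h (C g)
      rw [Finset.sum_insert has] at this
      have h2 : ∑ k ∈ s, ⟪C.adjoint (w k), g⟫ ^ 2 = ∑ k ∈ s, ⟪w k, C g⟫ ^ 2 := by
        refine Finset.sum_congr rfl fun k _ => ?_
        rw [ContinuousLinearMap.adjoint_inner_left]
      rw [h2, ContinuousLinearMap.comp_apply]
      have := hC1 g
      linarith)
    have h2 : ∑ k ∈ s, ‖C.adjoint (w k)‖ ^ 2 ≤ ∑ k ∈ s, ‖w k‖ ^ 2 := by
      refine Finset.sum_le_sum fun k _ => ?_
      have := hC2 (w k)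
      have h0 := norm_nonneg (C.adjoint (w k))
      nlinarith
    rw [Finset.sum_insert has]
    have h3 : Real.exp (-(‖w a‖ ^ 2 + ∑ k ∈ s, ‖w k‖ ^ 2) / 2)
        = Real.exp (-‖w a‖ ^ 2 / 2) * Real.exp (-(∑ k ∈ s, ‖w k‖ ^ 2) / 2) := by
      rw [← Real.exp_add]
      congr 1
      ring
    rw [h3, ENNReal.ofReal_mul (Real.exp_pos _).le, mul_assoc]
    refine le_trans ?_ (hC3 (R ⁻¹' K) (R.continuous.measurable mK))
    gcongr
    refine le_trans ?_ h1
    gcongr

/-- **(CMP)**, real form. -/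
theorem cmp_sum_real {ι : Type*} {K : Set F} (mK : MeasurableSet K)
    (cK : Convex ℝ K) (sK : ∀ x ∈ K, -x ∈ K) (s : Finset ι) (R : E →L[ℝ] F) (w : ι → E)
    (h : ∀ g, ‖R g‖ ^ 2 ≤ ‖g‖ ^ 2 + ∑ k ∈ s, ⟪w k, g⟫ ^ 2) :
    Real.exp (-(∑ k ∈ s, ‖w k‖ ^ 2) / 2) * (stdGaussian F).real K
      ≤ (stdGaussian E).real (R ⁻¹' K) := by
  classical
  have h1 := cmp_sum mK cK sK s R w h
  have h2 := ENNReal.toReal_mono (measure_ne_top _ _) h1
  rw [ENNReal.toReal_mul, ENNReal.toReal_ofReal (Real.exp_pos _).le] at h2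
  exact h2

end Crest.Agent.R239.Cmp142
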