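import Mathlib
import Crest.Agent.R239.FDef
import Crest.Agent.R239.F6core_696
import Crest.Agent.R239.Cmp_142
import Crest.Agent.R239.FlagAlg_557

/-! R239, block F6 (one level comparison), helper606: the cap is a compact convex symmetric body,
admissibility of the pulled back body and of the half sum, `Eh` and `gau` of the half sum. -/

set_option autoImplicit false
set_option linter.unusedSectionVars false
open MeasureTheory ProbabilityTheory Set Filter Topology Pointwise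
open scoped RealInnerProductSpace

namespace Crest.Agent.R239.AdmHalf606

open Crest.Agent.R239 Crest.Agent.R239.FD
open Crest.Agent.R239.F6core696 (mix mem_mix mix_compact mix_nonempty mix_convex mix_neg mix_subset)

variable {E : Type*} [NormedAddCommGroup E] [InnerProductSpace ℝ E] [FiniteDimensional ℝ E]
  [MeasurableSpace E] [BorelSpace E]

lemma th_pos : (0 : ℝ) < th := by norm_num [th]
lemma th_lt_one : th < (1 : ℝ) := by norm_num [th]
lemma one_le_thinv : (1 : ℝ) ≤ th⁻¹ := by norm_num [th]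

/-! ### the form `N` and the cap -/

section cap

variable (V : Flag E) (i : ℕ)

lemma N_nonneg (x : E) : 0 ≤ V.N i x :=
  Finset.sum_nonneg fun j _ => mul_nonneg (pow_nonneg (by norm_num [th]) _) (sq_nonneg _)

lemma N_zero : V.N i (0 : E) = 0 := by simp [Flag.N]

lemma N_neg (x : E) : V.N i (-x) = V.N i x := by simp [Flag.N]

lemma continuous_N : Continuous (V.N i) := by
  unfold Flag.N
  fun_prop

lemma N_convex {a b : ℝ} (ha : 0 ≤ a) (hb : 0 ≤ b) (hab : a + b = 1) (x y : E) :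
    V.N i (a • x + b • y) ≤ a * V.N i x + b * V.N i y := by
  unfold Flag.N
  rw [Finset.mul_sum, Finset.mul_sum, ← Finset.sum_add_distrib]
  apply Finset.sum_le_sum
  intro j _
  have hc : (0 : ℝ) ≤ (th⁻¹) ^ (j - i) := pow_nonneg (by norm_num [th]) _
  have h1 : ‖V.Q j (a • x + b • y)‖ ≤ a * ‖V.Q j x‖ + b * ‖V.Q j y‖ := by
    rw [map_add, map_smul, map_smul]
    refine (norm_add_le _ _).trans ?_
    rw [norm_smul, norm_smul, Real.norm_of_nonneg ha, Real.norm_of_nonneg hb]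
  have h2 : ‖V.Q j (a • x + b • y)‖ ^ 2 ≤ a * ‖V.Q j x‖ ^ 2 + b * ‖V.Q j y‖ ^ 2 := by
    have h3 : ‖V.Q j (a • x + b • y)‖ ^ 2 ≤ (a * ‖V.Q j x‖ + b * ‖V.Q j y‖) ^ 2 :=
      pow_le_pow_left₀ (norm_nonneg _) h1 2
    have hb' : b = 1 - a := by linarith
    subst hb'
    nlinarith [mul_nonneg (mul_nonneg ha hb) (sq_nonneg (‖V.Q j x‖ - ‖V.Q j y‖))]
  nlinarith [mul_le_mul_of_nonneg_left h2 hc]

/-- decomposition of a vector of `M i` in blocks -/
lemma sum_Q_of_mem {x : E} (hx : x ∈ V.M i) : ∑ j ∈ Finset.Ico i V.n, V.Q j x = x := by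
  by_cases h : i ≤ V.n
  · have h1 := FlagAlg557.sum_Q (M := V.M) V.anti i V.n h x
    have h2 : FlagAlg557.P V.M i x = x := FlagAlg557.P_of_mem (M := V.M) hx
    have h3 : FlagAlg557.P V.M V.n x = 0 := FlagAlg557.P_eq_zero (M := V.M) (V.bot _ le_rfl) x
    rw [h2, h3, sub_zero] at h1
    exact h1
  · have h0 : V.M i = ⊥ := V.bot i (by omega)
    rw [h0, Submodule.mem_bot] at hx
    subst hx
    simp

lemma norm_sq_Q_le_N {j : ℕ} (hj : j ∈ Finset.Ico i V.n) (x : E) : ‖V.Q j x‖ ^ 2 ≤ V.N i x := by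
  have h1 : (th⁻¹) ^ (j - i) * ‖V.Q j x‖ ^ 2 ≤ V.N i x :=
    Finset.single_le_sum (f := fun j => (th⁻¹) ^ (j - i) * ‖V.Q j x‖ ^ 2)
      (fun j _ => mul_nonneg (pow_nonneg (by norm_num [th]) _) (sq_nonneg _)) hj
  have h2 : (1 : ℝ) ≤ (th⁻¹) ^ (j - i) := one_le_pow₀ one_le_thinv
  nlinarith [sq_nonneg ‖V.Q j x‖]

lemma norm_le_of_mem {x : E} (hx : x ∈ V.M i) : ‖x‖ ≤ (V.n : ℝ) * Real.sqrt (V.N i x) := by
  have h := sum_Q_of_mem V i hx
  calc ‖x‖ = ‖∑ j ∈ Finset.Ico i V.n, V.Q j x‖ := by rw [h]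
    _ ≤ ∑ j ∈ Finset.Ico i V.n, ‖V.Q j x‖ := norm_sum_le _ _
    _ ≤ ∑ _j ∈ Finset.Ico i V.n, Real.sqrt (V.N i x) := by
        apply Finset.sum_le_sum
        intro j hj
        exact Real.le_sqrt_of_sq_le (norm_sq_Q_le_N V i hj x)
    _ = ((V.n - i : ℕ) : ℝ) * Real.sqrt (V.N i x) := by simp
    _ ≤ (V.n : ℝ) * Real.sqrt (V.N i x) := by
        apply mul_le_mul_of_nonneg_right _ (Real.sqrt_nonneg _)
        exact_mod_cast Nat.sub_le _ _

lemma cap_closed (rho : ℝ) : IsClosed (V.cap rho i) := by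
  have h1 : IsClosed (V.M i : Set E) := Submodule.closed_of_finiteDimensional _
  exact h1.inter (isClosed_le (continuous_N V i) continuous_const)

lemma cap_convex (rho : ℝ) : Convex ℝ (V.cap rho i) := by
  rintro x ⟨hx1, hx2⟩ y ⟨hy1, hy2⟩ a b ha hb hab
  refine ⟨(V.M i).add_mem ((V.M i).smul_mem _ hx1) ((V.M i).smul_mem _ hy1), ?_⟩
  have h := N_convex V i ha hb hab x y
  have h2 : a * V.N i x + b * V.N i y ≤ a * (rho ^ 2 * V.rr i) + b * (rho ^ 2 * V.rr i) :=
    add_le_add (mul_le_mul_of_nonneg_left hx2 ha) (mul_le_mul_of_nonneg_left hy2 hb)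
  have h3 : a * (rho ^ 2 * V.rr i) + b * (rho ^ 2 * V.rr i) = rho ^ 2 * V.rr i := by
    rw [← add_mul, hab, one_mul]
  linarith

lemma cap_neg (rho : ℝ) {x : E} (hx : x ∈ V.cap rho i) : -x ∈ V.cap rho i :=
  ⟨(V.M i).neg_mem hx.1, by rw [N_neg]; exact hx.2⟩

lemma cap_compact (rho : ℝ) : IsCompact (V.cap rho i) := by
  apply Metric.isCompact_of_isClosed_isBounded (cap_closed V i rho)
  apply (Metric.isBounded_closedBall (x := (0 : E))
    (r := (V.n : ℝ) * Real.sqrt (rho ^ 2 * V.rr i))).subset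
  intro x hx
  rw [mem_closedBall_zero_iff]
  refine (norm_le_of_mem V i hx.1).trans ?_
  exact mul_le_mul_of_nonneg_left (Real.sqrt_le_sqrt hx.2) (Nat.cast_nonneg _)

end cap

/-! ### admissible bodies -/

section adm

variable {p : Par} {V : Flag E} {i : ℕ} {K : Set E}

lemma adm_compact (h : Adm p V i K) : IsCompact K :=
  (cap_compact V i p.rho).of_isClosed_subset h.1 h.2.2.2.1

lemma adm_measurable (h : Adm p V i K) : MeasurableSet K := h.1.measurableSet

lemma adm_nonempty (h : Adm p V i K) : K.Nonempty := by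
  by_contra hne
  rw [Set.not_nonempty_iff_eq_empty] at hne
  have h1 := h.2.2.2.2
  rw [hne] at h1
  simp at h1

lemma adm_zero (h : Adm p V i K) : (0 : E) ∈ K := by
  obtain ⟨x, hx⟩ := adm_nonempty h
  have h1 : (1 / 2 : ℝ) • x + (1 / 2 : ℝ) • (-x) ∈ K :=
    h.2.1 hx (h.2.2.1 x hx) (by norm_num) (by norm_num) (by norm_num)
  have h2 : (1 / 2 : ℝ) • x + (1 / 2 : ℝ) • (-x) = 0 := by simp
  rwa [h2] at h1

/-- the half sum in `x`-space -/
def half (K Q : Set E) : Set E := mix (1 / 2) K Q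

lemma mem_half {K Q : Set E} {x : E} :
    x ∈ half K Q ↔ ∃ k ∈ K, ∃ q ∈ Q, x = (1 / 2 : ℝ) • k + (1 / 2 : ℝ) • q := by
  unfold half
  rw [mem_mix]
  norm_num

lemma gau_half_pos {H : E →L[ℝ] E} {K Q : Set E} (hK : IsCompact K) (hQ : IsCompact Q)
    (hK0 : 0 < (gau H).real K) (hQ0 : 0 < (gau H).real Q) : 0 < (gau H).real (half K Q) := by
  have hW : IsCompact (half K Q) := mix_compact hK hQ
  rw [gau_real_apply H hK.measurableSet] at hK0
  rw [gau_real_apply H hQ.measurableSet] at hQ0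
  rw [gau_real_apply H hW.measurableSet]
  have h := Cmp142.pl_sets (E := E) (t := 1 / 2) (by norm_num) (by norm_num)
    (A := H ⁻¹' K) (B := H ⁻¹' Q) (C := H ⁻¹' (half K Q))
    (H.continuous.measurable hK.measurableSet) (H.continuous.measurable hQ.measurableSet)
    (H.continuous.measurable hW.measurableSet) (by
      intro x hx y hy
      rw [mem_preimage, mem_half]
      exact ⟨H x, hx, H y, hy, by rw [map_add, map_smul, map_smul]; norm_num⟩)
  have h1 : 0 < stdGaussian E (H ⁻¹' K) := by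
    rw [pos_iff_ne_zero]; intro h0; simp [Measure.real, h0] at hK0
  have h2 : 0 < stdGaussian E (H ⁻¹' Q) := by
    rw [pos_iff_ne_zero]; intro h0; simp [Measure.real, h0] at hQ0
  have h3 : 0 < stdGaussian E (H ⁻¹' (half K Q)) := by
    refine lt_of_lt_of_le ?_ h
    have a1 : 0 < stdGaussian E (H ⁻¹' K) ^ (1 - 1 / 2 : ℝ) :=
      ENNReal.rpow_pos h1 (measure_ne_top _ _)
    have a2 : 0 < stdGaussian E (H ⁻¹' Q) ^ (1 / 2 : ℝ) :=
      ENNReal.rpow_pos h2 (measure_ne_top _ _)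
    exact ENNReal.mul_pos a1.ne' a2.ne'
  exact ENNReal.toReal_pos h3.ne' (measure_ne_top _ _)

/-- the half sum of two admissible bodies is admissible -/
theorem adm_half {K Q : Set E} (hK : Adm p V i K) (hQ : Adm p V i Q) :
    Adm p V i (half K Q) := by
  have cK := adm_compact hK
  have cQ := adm_compact hQ
  refine ⟨(mix_compact cK cQ).isClosed, mix_convex hK.2.1 hQ.2.1,
    mix_neg hK.2.2.1 hQ.2.2.1,
    mix_subset (by norm_num) (by norm_num) (cap_convex V i p.rho) hK.2.2.2.1 hQ.2.2.2.1, ?_⟩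
  exact gau_half_pos cK cQ hK.2.2.2.2 hQ.2.2.2.2

/-- `Eh` of the half sum -/
theorem Eh_half {K Q : Set E} (hK : Adm p V i K) (hQ : Adm p V i Q) (μ : Multiset E) :
    Eh (half K Q) μ = (Eh K μ + Eh Q μ) / 2 := by
  have h := F6core696.Eh_mix (a := 1 / 2) (by norm_num) (by norm_num) (adm_compact hK)
    (adm_compact hQ) (adm_nonempty hK) (adm_nonempty hQ) μ
  have h' : Eh (half K Q) μ = (1 - 1 / 2) * Eh K μ + 1 / 2 * Eh Q μ := h
  rw [h']
  ring

end adm

/-! ### `Ts` -/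

section Ts

variable {v : E} {s : ℝ}

lemma H_mem (V : Flag E) (i : ℕ) (g : E) : V.H i g ∈ V.M i := by
  have h := FlagAlg557.comb_mem (M := V.M) V.anti (i := i) (n := V.n) (fun j => th ^ (j - i)) g
  exact h

lemma H_eq (V : Flag E) (i : ℕ) : V.H i = FlagAlg557.H V.M th V.n i := rfl

lemma Hi_eq (V : Flag E) (i : ℕ) : V.Hi i = FlagAlg557.Hi V.M th V.n i := by
  unfold Flag.Hi FlagAlg557.Hi FlagAlg557.comb
  refine Finset.sum_congr rfl fun j _ => ?_
  rw [inv_pow]
  rfl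

/-- `H' R = T H` for `R = Hi' T H`. -/
lemma HR_eq (V : Flag E) (v : E) (s : ℝ) {i : ℕ} (hi : i ≤ V.n) (g : E) :
    (V.rot v s).H i (((V.rot v s).Hi i) (Ts v s (V.H i g))) = Ts v s (V.H i g) := by
  have hmem : Ts v s (V.H i g) ∈ (V.rot v s).M i :=
    Submodule.mem_map_of_mem (f := (Ts v s).toLinearMap) (H_mem V i g)
  rw [H_eq, Hi_eq]
  have h := FlagAlg557.H_Hi (M := (V.rot v s).M) (V.rot v s).anti th_pos
    (show i ≤ (V.rot v s).n from hi) ((V.rot v s).bot _ le_rfl) (Ts v s (V.H i g))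
  rw [h]
  exact FlagAlg557.P_of_mem (M := (V.rot v s).M) hmem

end Ts

end Crest.Agent.R239.AdmHalf606
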