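import Crest.Agent.R239.ProjRot_557

/-!
# R239 (S0370): POINTWISE comparison of `H_i` and `H^s_i` in 614's rank-one form (helper411)

`M` antitone sequence of subspaces, `M n = ⊥`, `Q j = P_j - P_{j+1}`,
`H i = Σ_{j ∈ Ico i n} th^(j-i) Q_j`, `Hi i = Σ_{j ∈ Ico i n} (th^(j-i))⁻¹ Q_j`,
`M^s_j = (M j).map (Tr v s)`, `R = Hi^s i ∘ Tr v s ∘ H i`.

* `H_R` : `H^s i (R g) = Tr v s (H i g)`
* `norm_R_sq` : the exact formula for `‖R g‖²`
* `norm_R_sq_le` : `‖R g‖² ≤ ‖g‖² - (sb/2) ⟪Q_i v, g⟫² + Σ (squares)`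
* bounds of the norms of the vectors in the squares.
-/

set_option autoImplicit false
set_option linter.unusedSectionVars false

open scoped RealInnerProductSpace
open Submodule Finset

namespace Crest.Agent.R239.Point411

open Crest.Agent.R239.ProjRot557

variable {E : Type*} [NormedAddCommGroup E] [InnerProductSpace ℝ E] [FiniteDimensional ℝ E]

/-- block projection -/
noncomputable def Q (M : ℕ → Submodule ℝ E) (j : ℕ) : E →L[ℝ] E :=
  (M j).starProjection - (M (j + 1)).starProjection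

/-- weighted sum of the block projections -/
noncomputable def wH (M : ℕ → Submodule ℝ E) (w : ℕ → ℝ) (i n : ℕ) : E →L[ℝ] E :=
  ∑ j ∈ Ico i n, w j • Q M j

variable {M : ℕ → Submodule ℝ E}

lemma Q_apply (M : ℕ → Submodule ℝ E) (j : ℕ) (x : E) :
    Q M j x = (M j).starProjection x - (M (j + 1)).starProjection x := rfl

lemma wH_apply (M : ℕ → Submodule ℝ E) (w : ℕ → ℝ) (i n : ℕ) (x : E) :
    wH M w i n x = ∑ j ∈ Ico i n, w j • Q M j x := by
  simp [wH]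

lemma Q_mem (hM : Antitone M) (j : ℕ) (x : E) : Q M j x ∈ M j :=
  (M j).sub_mem ((M j).starProjection_apply_mem x)
    (hM (Nat.le_succ j) ((M (j + 1)).starProjection_apply_mem x))

lemma P_Q_le (hM : Antitone M) {j k : ℕ} (h : k ≤ j) (x : E) :
    (M k).starProjection (Q M j x) = Q M j x :=
  starProjection_eq_self_iff.2 (hM h (Q_mem hM j x))

lemma P_Q_gt (hM : Antitone M) {j k : ℕ} (h : j < k) (x : E) :
    (M k).starProjection (Q M j x) = 0 := by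
  rw [Q_apply, map_sub, P_P_of_le (hM h.le), P_P_of_le (hM h), sub_self]

lemma Q_Q (hM : Antitone M) (j : ℕ) (x : E) : Q M j (Q M j x) = Q M j x := by
  rw [Q_apply M j (Q M j x), P_Q_le hM le_rfl, P_Q_gt hM (Nat.lt_succ_self j), sub_zero]

lemma Q_Q_ne (hM : Antitone M) {j k : ℕ} (h : j ≠ k) (x : E) : Q M j (Q M k x) = 0 := by
  rcases lt_or_gt_of_ne h with h | h
  · rw [Q_apply M j (Q M k x), P_Q_le hM h.le, P_Q_le hM h, sub_self]
  · rw [Q_apply M j (Q M k x), P_Q_gt hM h, P_Q_gt hM (by omega), sub_self]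

lemma inner_Q_comm (M : ℕ → Submodule ℝ E) (j : ℕ) (x y : E) : ⟪Q M j x, y⟫ = ⟪x, Q M j y⟫ := by
  rw [Q_apply, Q_apply, inner_sub_left, inner_sub_right, inner_P_comm, inner_P_comm]

lemma inner_Q_Q_ne (hM : Antitone M) {j k : ℕ} (h : j ≠ k) (x y : E) :
    ⟪Q M j x, Q M k y⟫ = 0 := by
  rw [inner_Q_comm, Q_Q_ne hM h, inner_zero_right]

lemma norm_Q_sq (hM : Antitone M) (j : ℕ) (x : E) :
    ‖Q M j x‖ ^ 2 = ‖(M j).starProjection x‖ ^ 2 - ‖(M (j + 1)).starProjection x‖ ^ 2 := by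
  rw [← real_inner_self_eq_norm_sq, inner_Q_comm, Q_Q hM, Q_apply, inner_sub_right, norm_P_sq,
    norm_P_sq, inner_P_comm, inner_P_comm]

lemma inner_wH_comm (M : ℕ → Submodule ℝ E) (w : ℕ → ℝ) (i n : ℕ) (x y : E) :
    ⟪wH M w i n x, y⟫ = ⟪x, wH M w i n y⟫ := by
  rw [wH_apply, wH_apply, sum_inner, inner_sum]
  refine sum_congr rfl fun j _ => ?_
  rw [inner_smul_left, inner_smul_right, inner_Q_comm, RCLike.conj_to_real]

lemma Q_wH (hM : Antitone M) (w : ℕ → ℝ) {i n l : ℕ} (hl : l ∈ Ico i n) (x : E) :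
    Q M l (wH M w i n x) = w l • Q M l x := by
  rw [wH_apply, map_sum, sum_eq_single_of_mem l hl]
  · rw [map_smul, Q_Q hM]
  · intro j _ hj
    rw [map_smul, Q_Q_ne hM (Ne.symm hj), smul_zero]

lemma wH_mul (hM : Antitone M) (w w' : ℕ → ℝ) (i n : ℕ) (x : E) :
    wH M w i n (wH M w' i n x) = wH M (fun j => w j * w' j) i n x := by
  rw [wH_apply M w, wH_apply M (fun j => w j * w' j)]
  refine sum_congr rfl fun j hj => ?_
  rw [Q_wH hM w' hj, smul_smul]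

lemma wH_congr {w w' : ℕ → ℝ} {i n : ℕ} (h : ∀ j ∈ Ico i n, w j = w' j) (x : E) :
    wH M w i n x = wH M w' i n x := by
  rw [wH_apply, wH_apply]
  exact sum_congr rfl fun j hj => by rw [h j hj]

lemma sum_Q (M : ℕ → Submodule ℝ E) {i n : ℕ} (h : i ≤ n) (x : E) :
    ∑ j ∈ Ico i n, Q M j x = (M i).starProjection x - (M n).starProjection x := by
  induction n, h using Nat.le_induction with
  | base => simp
  | succ n hn ih =>
    rw [sum_Ico_succ_top hn, ih, Q_apply]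
    abel

lemma starProjection_bot_apply' {N : Submodule ℝ E} (h : N = ⊥) (x : E) :
    N.starProjection x = 0 := by
  subst h; simp

lemma M_bot (hM : Antitone M) {n i : ℕ} (hn : M n = ⊥) (h : n ≤ i) : M i = ⊥ :=
  le_bot_iff.1 (hn ▸ hM h)

lemma wH_one (hM : Antitone M) {n : ℕ} (hn : M n = ⊥) (i : ℕ) (x : E) :
    wH M (fun _ => 1) i n x = (M i).starProjection x := by
  rw [wH_apply]
  simp only [one_smul]
  rcases le_total i n with h | h
  · rw [sum_Q M h, starProjection_bot_apply' hn, sub_zero]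
  · rw [Ico_eq_empty (by omega), sum_empty, starProjection_bot_apply' (M_bot hM hn h)]

lemma P_wH (hM : Antitone M) (w : ℕ → ℝ) (i n : ℕ) (x : E) :
    (M i).starProjection (wH M w i n x) = wH M w i n x := by
  rw [wH_apply, map_sum]
  refine sum_congr rfl fun j hj => ?_
  rw [map_smul, P_Q_le hM (mem_Ico.1 hj).1]

lemma wH_mem (hM : Antitone M) (w : ℕ → ℝ) (i n : ℕ) (x : E) : wH M w i n x ∈ M i :=
  starProjection_eq_self_iff.1 (P_wH hM w i n x)

lemma wH_P (hM : Antitone M) (w : ℕ → ℝ) (i n : ℕ) (x : E) :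
    wH M w i n ((M i).starProjection x) = wH M w i n x := by
  rw [wH_apply, wH_apply]
  refine sum_congr rfl fun j hj => ?_
  have h := (mem_Ico.1 hj).1
  rw [Q_apply, Q_apply, P_P_of_le (hM h), P_P_of_le (hM (h.trans (Nat.le_succ j)))]

lemma norm_wH_sq (hM : Antitone M) (w : ℕ → ℝ) (i n : ℕ) (x : E) :
    ‖wH M w i n x‖ ^ 2 = ∑ j ∈ Ico i n, w j ^ 2 * ‖Q M j x‖ ^ 2 := by
  rw [← real_inner_self_eq_norm_sq, inner_wH_comm, wH_mul hM, wH_apply, inner_sum]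
  refine sum_congr rfl fun j _ => ?_
  rw [inner_smul_right, ← Q_Q hM j x, ← inner_Q_comm, Q_Q hM, real_inner_self_eq_norm_sq]
  ring

/-- Abel summation -/
lemma abel_sum (t : ℝ) (p : ℕ → ℝ) {i n : ℕ} (h : i < n) :
    ∑ j ∈ Ico i n, t ^ (j - i) * (p j - p (j + 1))
      = p i + ∑ j ∈ Ico (i + 1) n, (t ^ (j - i) - t ^ (j - i - 1)) * p j
        - t ^ (n - 1 - i) * p n := by
  induction n, h using Nat.le_induction with
  | base => simp
  | succ n hn ih =>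
    have hn' : i < n := hn
    rw [sum_Ico_succ_top (by omega), ih, sum_Ico_succ_top hn]
    have e1 : n + 1 - 1 - i = n - i := by omega
    have e2 : n - i - 1 = n - 1 - i := by omega
    rw [e1, e2]
    ring

/-- precision identity -/
lemma norm_wH_inv_sq (hM : Antitone M) {n : ℕ} (hn : M n = ⊥) {th : ℝ} (i : ℕ) (x : E) :
    ‖wH M (fun j => (th ^ (j - i))⁻¹) i n x‖ ^ 2
      = ‖(M i).starProjection x‖ ^ 2
        + ∑ j ∈ Ico (i + 1) n, (((th ^ 2)⁻¹) ^ (j - i) - ((th ^ 2)⁻¹) ^ (j - i - 1))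
            * ‖(M j).starProjection x‖ ^ 2 := by
  rw [norm_wH_sq hM]
  rcases lt_or_ge i n with h | h
  · have h1 : ∑ j ∈ Ico i n, ((th ^ (j - i))⁻¹) ^ 2 * ‖Q M j x‖ ^ 2
        = ∑ j ∈ Ico i n, ((th ^ 2)⁻¹) ^ (j - i) * (‖(M j).starProjection x‖ ^ 2
            - ‖(M (j + 1)).starProjection x‖ ^ 2) := by
      refine sum_congr rfl fun j _ => ?_
      rw [norm_Q_sq hM, inv_pow, inv_pow, ← pow_mul, ← pow_mul, mul_comm 2]
    rw [h1, abel_sum _ (fun j => ‖(M j).starProjection x‖ ^ 2) h]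
    simp only [starProjection_bot_apply' hn]
    simp
  · rw [Ico_eq_empty (by omega), Ico_eq_empty (by omega),
      starProjection_bot_apply' (M_bot hM hn h)]
    simp

/-! ### the map `R` -/

/-- `H_i` -/
noncomputable def Hf (M : ℕ → Submodule ℝ E) (th : ℝ) (i n : ℕ) : E →L[ℝ] E :=
  wH M (fun j => th ^ (j - i)) i n

/-- `H_i⁻¹` (on `M i`) -/
noncomputable def Hif (M : ℕ → Submodule ℝ E) (th : ℝ) (i n : ℕ) : E →L[ℝ] E :=
  wH M (fun j => (th ^ (j - i))⁻¹) i n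

lemma Hf_Hif (hM : Antitone M) {n : ℕ} (hn : M n = ⊥) {th : ℝ} (hth : th ≠ 0) (i : ℕ) (x : E) :
    Hf M th i n (Hif M th i n x) = (M i).starProjection x := by
  rw [Hf, Hif, wH_mul hM, ← wH_one hM hn]
  refine wH_congr (fun j _ => ?_) x
  exact mul_inv_cancel₀ (pow_ne_zero _ hth)

lemma Hif_Hf (hM : Antitone M) {n : ℕ} (hn : M n = ⊥) {th : ℝ} (hth : th ≠ 0) (i : ℕ) (x : E) :
    Hif M th i n (Hf M th i n x) = (M i).starProjection x := by
  rw [Hf, Hif, wH_mul hM, ← wH_one hM hn]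
  refine wH_congr (fun j _ => ?_) x
  exact inv_mul_cancel₀ (pow_ne_zero _ hth)

/-- the rotated flag -/
noncomputable def Ms (M : ℕ → Submodule ℝ E) (v : E) (s : ℝ) (j : ℕ) : Submodule ℝ E :=
  (M j).map (Tr v s : E →ₗ[ℝ] E)

lemma Ms_anti (hM : Antitone M) (v : E) (s : ℝ) : Antitone (Ms M v s) :=
  fun _ _ h => Submodule.map_mono (hM h)

lemma Ms_bot {n : ℕ} (hn : M n = ⊥) (v : E) (s : ℝ) : Ms M v s n = ⊥ := by
  rw [Ms, hn, Submodule.map_bot]

/-- `R = (H^s_i)⁻¹ T_s H_i` -/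
noncomputable def Rf (M : ℕ → Submodule ℝ E) (v : E) (s th : ℝ) (i n : ℕ) : E →L[ℝ] E :=
  Hif (Ms M v s) th i n ∘L Tr v s ∘L Hf M th i n

lemma Rf_apply (M : ℕ → Submodule ℝ E) (v : E) (s th : ℝ) (i n : ℕ) (g : E) :
    Rf M v s th i n g = Hif (Ms M v s) th i n (Tr v s (Hf M th i n g)) := rfl

lemma Tr_mem (M : ℕ → Submodule ℝ E) (v : E) (s : ℝ) {i : ℕ} {x : E} (hx : x ∈ M i) :
    Tr v s x ∈ Ms M v s i := Submodule.mem_map_of_mem hx

/-- (a) -/
theorem H_R (hM : Antitone M) {n : ℕ} (hn : M n = ⊥) {th : ℝ} (hth : th ≠ 0) (v : E) (s : ℝ)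
    (i : ℕ) (g : E) :
    Hf (Ms M v s) th i n (Rf M v s th i n g) = Tr v s (Hf M th i n g) := by
  rw [Rf_apply, Hf_Hif (Ms_anti hM v s) (Ms_bot hn v s) hth]
  exact starProjection_eq_self_iff.2 (Tr_mem M v s (wH_mem hM _ i n g))

/-- `om_m = th^(-2m) (1 - th²)` (`m ≥ 1`) -/
noncomputable def om (th : ℝ) (m : ℕ) : ℝ := ((th ^ 2)⁻¹) ^ m - ((th ^ 2)⁻¹) ^ (m - 1)

lemma om_eq {th : ℝ} (hth : th ≠ 0) {m : ℕ} (hm : 1 ≤ m) :
    om th m = ((th ^ 2)⁻¹) ^ m * (1 - th ^ 2) := by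
  obtain ⟨k, rfl⟩ : ∃ k, m = k + 1 := ⟨m - 1, by omega⟩
  rw [om, Nat.add_sub_cancel, pow_succ]
  have : th ^ 2 ≠ 0 := pow_ne_zero _ hth
  field_simp

lemma om_nonneg {th : ℝ} (h0 : 0 < th) (h1 : th ≤ 1) (m : ℕ) : 0 ≤ om th m := by
  rcases Nat.eq_zero_or_pos m with rfl | hm
  · simp [om]
  · rw [om_eq h0.ne' hm]
    have : 0 ≤ 1 - th ^ 2 := by nlinarith
    positivity

/-- exact formula for `‖R g‖²`. -/
theorem norm_R_sq (hM : Antitone M) {n : ℕ} (hn : M n = ⊥) {th : ℝ} (hth : th ≠ 0) {v : E}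
    (hv : ‖v‖ = 1) {s : ℝ} (i : ℕ)
    (hb : ∀ j, i < j → sbar s * ‖(M j).starProjection v‖ ^ 2 < 1) (g : E) :
    ‖Rf M v s th i n g‖ ^ 2 = ‖(M i).starProjection g‖ ^ 2
      - sbar s * ⟪Hf M th i n v, g⟫ ^ 2
      - sbar s * ∑ j ∈ Ico (i + 1) n, om th (j - i) * (⟪Hf M th i n v, g⟫ ^ 2
        - ⟪Hf M th i n ((M i).starProjection v - (M j).starProjection v), g⟫ ^ 2
          / (1 - sbar s * ‖(M j).starProjection v‖ ^ 2)) := by
  set x := Hf M th i n g with hx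
  have hxi : x ∈ M i := wH_mem hM _ i n g
  have e0 : ∀ z : E, ⟪Hf M th i n z, g⟫ = ⟪z, x⟫ := fun z => inner_wH_comm M _ i n z g
  have e1 : ‖(M i).starProjection g‖ ^ 2
      = ‖(M i).starProjection x‖ ^ 2
        + ∑ j ∈ Ico (i + 1) n, om th (j - i) * ‖(M j).starProjection x‖ ^ 2 := by
    rw [← Hif_Hf hM hn hth i g, ← hx, Hif, norm_wH_inv_sq hM hn i x]
    rfl
  have e2 : ‖(Ms M v s i).starProjection (Tr v s x)‖ ^ 2
      = ‖(M i).starProjection x‖ ^ 2 - sbar s * ⟪v, x⟫ ^ 2 := by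
    rw [starProjection_eq_self_iff.2 (Tr_mem M v s hxi), starProjection_eq_self_iff.2 hxi,
      norm_Tr_sq hv]
  have e3 : ∀ j ∈ Ico (i + 1) n, ‖(Ms M v s j).starProjection (Tr v s x)‖ ^ 2
      = ‖(M j).starProjection x‖ ^ 2 - sbar s * ⟪v, x⟫ ^ 2
        + sbar s * ⟪(M i).starProjection v - (M j).starProjection v, x⟫ ^ 2
          / (1 - sbar s * ‖(M j).starProjection v‖ ^ 2) := by
    intro j hj
    rw [Ms, norm_P_map_Tr_sq (M j) hv (hb j (by have := (mem_Ico.1 hj).1; omega))]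
    have : ⟪(M i).starProjection v - (M j).starProjection v, x⟫
        = ⟪v, x⟫ - ⟪(M j).starProjection v, x⟫ := by
      rw [inner_sub_left, inner_P_left (M i) v x hxi]
    rw [this]
  rw [Rf_apply, ← hx, Hif, norm_wH_inv_sq (Ms_anti hM v s) (Ms_bot hn v s) i, e2, e1]
  rw [sum_congr rfl (fun j hj => by rw [e3 j hj] :
    ∀ j ∈ Ico (i + 1) n, (((th ^ 2)⁻¹) ^ (j - i) - ((th ^ 2)⁻¹) ^ (j - i - 1))
            * ‖(Ms M v s j).starProjection (Tr v s x)‖ ^ 2 = _)]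
  simp only [e0]
  rw [mul_sum, add_sub_right_comm, add_sub_assoc, ← sum_sub_distrib]
  congr 1
  refine sum_congr rfl fun j _ => ?_
  rw [om]
  ring

/-- the weights -/
noncomputable def c1 (th sb bi bj : ℝ) (m : ℕ) : ℝ := th ^ m * √(bj / bi) + 2 * sb * bj
noncomputable def c2 (th bi bj : ℝ) (m : ℕ) : ℝ := (th ^ m)⁻¹ * √(bi / bj)

lemma weight_ineq {th sb bi bj : ℝ} {m : ℕ} (hth : 0 < th) (hsb : 0 ≤ sb) (hbj : 0 ≤ bj)
    (hji : bj ≤ bi) (hhalf : sb * bj ≤ 1 / 2) (xi a ze : ℝ) (hxi : xi = a + ze)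
    (hz : bj = 0 → ze = 0) :
    a ^ 2 / (1 - sb * bj) - xi ^ 2 ≤ c1 th sb bi bj m * a ^ 2 + c2 th bi bj m * ze ^ 2 := by
  subst hxi
  have h1 : a ^ 2 / (1 - sb * bj) ≤ a ^ 2 * (1 + 2 * (sb * bj)) := by
    rw [div_le_iff₀ (by linarith)]
    have h0 : 0 ≤ sb * bj := mul_nonneg hsb hbj
    nlinarith [mul_nonneg (mul_nonneg h0 (by linarith : (0:ℝ) ≤ 1 - 2 * (sb * bj))) (sq_nonneg a)]
  rcases hbj.eq_or_lt with h0 | hpos
  · have hz0 := hz h0.symm
    subst hz0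
    rw [← h0, c1, c2]
    simp
  · have hi : 0 < bi := hpos.trans_le hji
    set r := √(bj / bi) with hr
    have hr0 : 0 < r := Real.sqrt_pos.2 (div_pos hpos hi)
    have hri : √(bi / bj) = r⁻¹ := by
      rw [hr, ← Real.sqrt_inv, inv_div]
    rw [c1, c2, hri, ← hr]
    set e := th ^ m * r with he
    have he0 : 0 < e := mul_pos (pow_pos hth _) hr0
    have hinv : (th ^ m)⁻¹ * r⁻¹ = e⁻¹ := by rw [he, mul_inv]
    rw [hinv]
    have h2 : -(2 * a * ze) ≤ e * a ^ 2 + e⁻¹ * ze ^ 2 := by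
      have : 0 ≤ e * (a + e⁻¹ * ze) ^ 2 := by positivity
      have h3 : e * (a + e⁻¹ * ze) ^ 2 = e * a ^ 2 + 2 * a * ze + e⁻¹ * ze ^ 2 := by
        field_simp
        ring
      linarith
    nlinarith [sq_nonneg ze]

/-- POINTWISE, exact majorant -/
theorem norm_R_sq_le (hM : Antitone M) {n : ℕ} (hn : M n = ⊥) {th : ℝ} (hth : 0 < th)
    (hth1 : th ≤ 1) {v : E} (hv : ‖v‖ = 1) {s : ℝ} (i : ℕ) (hsb : 0 ≤ sbar s)
    (hb : ∀ j, i < j → sbar s * ‖(M j).starProjection v‖ ^ 2 ≤ 1 / 2) (g : E) :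
    ‖Rf M v s th i n g‖ ^ 2 ≤ ‖(M i).starProjection g‖ ^ 2
      - sbar s * ⟪Hf M th i n v, g⟫ ^ 2
      + sbar s * ∑ j ∈ Ico (i + 1) n, om th (j - i) *
        (c1 th (sbar s) (‖(M i).starProjection v‖ ^ 2) (‖(M j).starProjection v‖ ^ 2) (j - i)
            * ⟪Hf M th i n ((M i).starProjection v - (M j).starProjection v), g⟫ ^ 2
          + c2 th (‖(M i).starProjection v‖ ^ 2) (‖(M j).starProjection v‖ ^ 2) (j - i)
            * ⟪Hf M th i n ((M j).starProjection v), g⟫ ^ 2) := by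
  rw [norm_R_sq hM hn hth.ne' hv i (fun j hj => by linarith [hb j hj]) g]
  rw [sub_eq_add_neg _ (sbar s * ∑ j ∈ Ico (i + 1) n, _)]
  refine add_le_add_right ?_ _
  rw [← mul_neg, ← sum_neg_distrib]
  refine mul_le_mul_of_nonneg_left (sum_le_sum fun j hj => ?_) hsb
  have hij : i < j := by have := (mem_Ico.1 hj).1; omega
  rw [← mul_neg]
  refine mul_le_mul_of_nonneg_left ?_ (om_nonneg hth hth1 _)
  rw [neg_sub]
  have hle : ‖(M j).starProjection v‖ ≤ ‖(M i).starProjection v‖ := by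
    rw [← P_P_of_le (hM hij.le) v]
    exact Submodule.norm_starProjection_apply_le _ _
  refine weight_ineq hth hsb (sq_nonneg _) (pow_le_pow_left₀ (norm_nonneg _) hle 2) (hb j hij) _ _ _
    ?_ ?_
  · rw [← inner_add_left, ← map_add, sub_add_cancel, Hf, wH_P hM]
  · intro h0
    have : (M j).starProjection v = 0 := by
      rw [← norm_eq_zero]; exact pow_eq_zero_iff (two_ne_zero) |>.1 h0
    rw [this, map_zero, inner_zero_left]

end Crest.Agent.R239.Point411
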