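import Crest.Agent.R239.FDef
import Crest.Agent.R239.Point_411

/-!
# R239 (S0370): interface F5 → F6 over `FDef` (helper411)

`f5_R`, `f5_N` in the literal of helper336 (208's rank-one majorant).
-/

set_option autoImplicit false
set_option linter.unusedSectionVars false

open scoped RealInnerProductSpace
open Submodule Finset

namespace Crest.Agent.R239.F5411

open Crest.Agent.R239.FD Crest.Agent.R239.Point411 Crest.Agent.R239.ProjRot557

variable {E : Type*} [NormedAddCommGroup E] [InnerProductSpace ℝ E] [FiniteDimensional ℝ E]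
  [MeasurableSpace E] [BorelSpace E]

lemma th_pos : 0 < th := by norm_num [th]
lemma th_ne : th ≠ 0 := th_pos.ne'
lemma th_le : th ≤ 1 := by norm_num [th]

lemma H_eq (V : Flag E) (i : ℕ) : V.H i = Hf V.M th i V.n := rfl

lemma Hi_eq (V : Flag E) (i : ℕ) : V.Hi i = Hif V.M th i V.n := by
  ext x
  simp only [Flag.Hi, Hif, wH, inv_pow]
  rfl

lemma Ts_eq (v : E) (s : ℝ) : Ts v s = Tr v s := by
  ext x
  rw [Ts_apply, Tr_apply]

lemma rot_M (V : Flag E) (v : E) (s : ℝ) : (V.rot v s).M = Ms V.M v s := by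
  funext j
  show (V.M j).map (Ts v s).toLinearMap = (V.M j).map (Tr v s : E →ₗ[ℝ] E)
  rw [Ts_eq]

lemma rot_Hi_Ts_H (V : Flag E) (v : E) (s : ℝ) (i : ℕ) (g : E) :
    (V.rot v s).Hi i (Ts v s (V.H i g)) = Rf V.M v s th i V.n g := by
  rw [Hi_eq, rot_M, H_eq, Ts_eq, Rf_apply]
  rfl

/-- `H^s_i (R g) = T_s (H_i g)` -/
theorem f5_R (V : Flag E) (v : E) (s : ℝ) (i : ℕ) (g : E) :
    (V.rot v s).H i ((V.rot v s).Hi i (Ts v s (V.H i g))) = Ts v s (V.H i g) := by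
  rw [rot_Hi_Ts_H, H_eq, rot_M, H_eq, Ts_eq]
  exact H_R V.anti (V.bot V.n le_rfl) th_ne v s i g

/-! ### sums of squares -/

/-- `f ≤ Σ ⟪u k, ·⟫²` with `Σ ‖u k‖² ≤ c` -/
def SOS (f : E → ℝ) (c : ℝ) : Prop :=
  ∃ (N : ℕ) (u : ℕ → E), (∀ g, f g ≤ ∑ k ∈ range N, ⟪u k, g⟫ ^ 2) ∧
    ∑ k ∈ range N, ‖u k‖ ^ 2 ≤ c

lemma SOS.mono {f f' : E → ℝ} {c c' : ℝ} (h : SOS f c) (hf : ∀ g, f' g ≤ f g) (hc : c ≤ c') :
    SOS f' c' := by
  obtain ⟨N, u, h1, h2⟩ := h
  exact ⟨N, u, fun g => (hf g).trans (h1 g), h2.trans hc⟩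

lemma SOS.zero : SOS (fun _ : E => 0) 0 := ⟨0, fun _ => 0, by simp, by simp⟩

lemma SOS.add {f f' : E → ℝ} {c c' : ℝ} (h : SOS f c) (h' : SOS f' c') :
    SOS (fun g => f g + f' g) (c + c') := by
  obtain ⟨N, u, h1, h2⟩ := h
  obtain ⟨N', u', h1', h2'⟩ := h'
  refine ⟨N + N', fun k => if k < N then u k else u' (k - N), fun g => ?_, ?_⟩
  · rw [sum_range_add]
    refine add_le_add ((h1 g).trans (le_of_eq ?_)) ((h1' g).trans (le_of_eq ?_))
    · exact sum_congr rfl fun k hk => by simp [mem_range.1 hk]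
    · exact sum_congr rfl fun k _ => by simp
  · rw [sum_range_add]
    refine add_le_add (le_trans (le_of_eq ?_) h2) (le_trans (le_of_eq ?_) h2')
    · exact sum_congr rfl fun k hk => by simp [mem_range.1 hk]
    · exact sum_congr rfl fun k _ => by simp

lemma SOS.sq (w : E) {a : ℝ} (ha : 0 ≤ a) : SOS (fun g : E => a * ⟪w, g⟫ ^ 2) (a * ‖w‖ ^ 2) := by
  refine ⟨1, fun _ => √a • w, fun g => le_of_eq ?_, le_of_eq ?_⟩
  · rw [sum_range_one, inner_smul_left, mul_pow, RCLike.conj_to_real, Real.sq_sqrt ha]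
  · rw [sum_range_one, norm_smul, mul_pow, Real.norm_eq_abs, sq_abs, Real.sq_sqrt ha]

lemma SOS.sum {ι : Type*} (s : Finset ι) (f : ι → E → ℝ) (c : ι → ℝ)
    (h : ∀ j ∈ s, SOS (f j) (c j)) : SOS (fun g => ∑ j ∈ s, f j g) (∑ j ∈ s, c j) := by
  classical
  induction s using Finset.induction_on with
  | empty => simpa using SOS.zero
  | insert a s ha ih =>
    have h1 := (h a (mem_insert_self _ _)).add (ih fun j hj => h j (mem_insert_of_mem hj))
    refine h1.mono (fun g => ?_) ?_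
    · rw [sum_insert ha]
    · rw [sum_insert ha]

/-! ### the vectors -/

/-- `Σ_{i<j≤l} om_{j-i} = th^(-2(l-i)) - 1` -/
lemma sum_om (i l : ℕ) (h : i ≤ l) :
    ∑ j ∈ Ico (i + 1) (l + 1), Point411.om th (j - i) = ((th ^ 2)⁻¹) ^ (l - i) - 1 := by
  induction l, h using Nat.le_induction with
  | base => simp
  | succ l hl ih =>
    rw [sum_Ico_succ_top (by omega), ih, Point411.om]
    have : l + 1 - i - 1 = l - i := by omega
    rw [this]
    ring

lemma Q_P_le {M : ℕ → Submodule ℝ E} (hM : Antitone M) {l j : ℕ} (h : j ≤ l) (x : E) :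
    Point411.Q M l ((M j).starProjection x) = Point411.Q M l x := by
  rw [Point411.Q_apply, Point411.Q_apply, P_P_of_le (hM h), P_P_of_le (hM (h.trans (Nat.le_succ l)))]

lemma Q_P_gt {M : ℕ → Submodule ℝ E} (hM : Antitone M) {l j : ℕ} (h : l < j) (x : E) :
    Point411.Q M l ((M j).starProjection x) = 0 := by
  rw [Point411.Q_apply, P_P_of_le' (hM h.le), P_P_of_le' (hM h), sub_self]

/-- blocks of `Σ_{j>i} om_{j-i} P_j v` -/
lemma Q_sum_om {M : ℕ → Submodule ℝ E} (hM : Antitone M) {i n l : ℕ} (hl : l ∈ Ico i n) (v : E) :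
    Point411.Q M l (∑ j ∈ Ico (i + 1) n, Point411.om th (j - i) • (M j).starProjection v)
      = (((th ^ 2)⁻¹) ^ (l - i) - 1) • Point411.Q M l v := by
  rw [map_sum]
  have hl' := mem_Ico.1 hl
  rw [← sum_Ico_consecutive _ (show i + 1 ≤ l + 1 by omega) (show l + 1 ≤ n by omega)]
  have h1 : ∀ j ∈ Ico (i + 1) (l + 1), Point411.Q M l (Point411.om th (j - i) •
      (M j).starProjection v) = Point411.om th (j - i) • Point411.Q M l v := by
    intro j hj
    rw [map_smul, Q_P_le hM (by have := (mem_Ico.1 hj).2; omega)]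
  have h2 : ∀ j ∈ Ico (l + 1) n, Point411.Q M l (Point411.om th (j - i) •
      (M j).starProjection v) = 0 := by
    intro j hj
    rw [map_smul, Q_P_gt hM (by have := (mem_Ico.1 hj).1; omega), smul_zero]
  rw [sum_congr rfl h1, sum_congr rfl h2, sum_const_zero, add_zero, ← sum_smul, sum_om i l hl'.1]

section N

variable (V : Flag E) (v : E) (i : ℕ)

/-- `Σ_{j>i} om_{j-i} P_j v` -/
noncomputable def zv : E := ∑ j ∈ Ico (i + 1) V.n, Point411.om th (j - i) • V.P j v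

lemma hwt (m : ℕ) : (1 : ℝ) ≤ ((th ^ 2)⁻¹) ^ m := by
  apply one_le_pow₀
  norm_num [th]

lemma H_apply' (x : E) : V.H i x = ∑ j ∈ Ico i V.n, th ^ (j - i) • Point411.Q V.M j x := by
  rw [H_eq, Hf, wH_apply]

lemma norm_H_sq (x : E) : ‖V.H i x‖ ^ 2
    = ∑ j ∈ Ico i V.n, (th ^ 2) ^ (j - i) * ‖Point411.Q V.M j x‖ ^ 2 := by
  rw [H_eq, Hf, norm_wH_sq V.anti]
  refine sum_congr rfl fun j _ => ?_
  rw [← pow_mul, ← pow_mul, mul_comm 2]

lemma normQ_le (j : ℕ) (x : E) : ‖Point411.Q V.M j x‖ ^ 2 ≤ V.b x j := by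
  rw [norm_Q_sq V.anti]
  have : (0:ℝ) ≤ ‖(V.M (j + 1)).starProjection x‖ ^ 2 := sq_nonneg _
  have h : V.b x j = ‖(V.M j).starProjection x‖ ^ 2 := rfl
  linarith

lemma b_nonneg (j : ℕ) : 0 ≤ V.b v j := sq_nonneg _

lemma b_anti {j k : ℕ} (h : j ≤ k) : V.b v k ≤ V.b v j := by
  have hle : ‖V.P k v‖ ≤ ‖V.P j v‖ := by
    show ‖(V.M k).starProjection v‖ ≤ ‖(V.M j).starProjection v‖
    rw [← P_P_of_le (V.anti h) v]
    exact Submodule.norm_starProjection_apply_le _ _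
  exact pow_le_pow_left₀ (norm_nonneg _) hle 2

lemma b_le (hv : ‖v‖ = 1) (j : ℕ) : V.b v j ≤ 1 := by
  have hle : ‖V.P j v‖ ≤ ‖v‖ := Submodule.norm_starProjection_apply_le _ _
  have : ‖V.P j v‖ ^ 2 ≤ 1 ^ 2 := pow_le_pow_left₀ (norm_nonneg _) (hle.trans hv.le) 2
  simpa [Flag.b] using this

/-- `‖H_i (zv)‖² ≤ Σ (th^(-2m) - 34/25) b_{i+m}` -/
lemma norm_H_zv_sq : ‖V.H i (zv V v i)‖ ^ 2
    ≤ ∑ j ∈ Ico (i + 1) V.n, (((th ^ 2)⁻¹) ^ (j - i) - 34 / 25) * V.b v j := by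
  rw [norm_H_sq]
  have h0 : ∀ j ∈ Ico i V.n, (th ^ 2) ^ (j - i) * ‖Point411.Q V.M j (zv V v i)‖ ^ 2
      = (th ^ 2) ^ (j - i) * (((th ^ 2)⁻¹) ^ (j - i) - 1) ^ 2 * ‖Point411.Q V.M j v‖ ^ 2 := by
    intro j hj
    have : Point411.Q V.M j (zv V v i) = (((th ^ 2)⁻¹) ^ (j - i) - 1) • Point411.Q V.M j v :=
      Q_sum_om V.anti hj v
    rw [this, norm_smul, mul_pow, Real.norm_eq_abs, sq_abs]
    ring
  rw [sum_congr rfl h0]
  rcases lt_or_ge i V.n with hi | hi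
  · rw [sum_eq_sum_Ico_succ_bot hi]
    simp only [Nat.sub_self, pow_zero, sub_self, ne_eq, OfNat.ofNat_ne_zero, not_false_eq_true,
      zero_pow, mul_zero, zero_mul, zero_add]
    refine sum_le_sum fun j hj => ?_
    have hm : 1 ≤ j - i := by have := (mem_Ico.1 hj).1; omega
    set m := j - i with hmdef
    set x := ((th ^ 2)⁻¹) ^ m with hx
    have hx1 : 1 ≤ x := hwt m
    have hxy : (th ^ 2) ^ m * x = 1 := by
      rw [hx, inv_pow]
      exact mul_inv_cancel₀ (pow_ne_zero _ (pow_ne_zero _ th_ne))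
    have hy : (th ^ 2) ^ m ≤ 16 / 25 := by
      calc (th ^ 2) ^ m ≤ (th ^ 2) ^ 1 :=
            pow_le_pow_of_le_one (by positivity) (by norm_num [th]) hm
        _ = 16 / 25 := by norm_num [th]
    have e : (th ^ 2) ^ m * (x - 1) ^ 2 = x - 2 + (th ^ 2) ^ m := by
      have : (th ^ 2) ^ m * (x - 1) ^ 2 = ((th ^ 2) ^ m * x) * x - 2 * ((th ^ 2) ^ m * x)
          + (th ^ 2) ^ m := by ring
      rw [this, hxy]; ring
    rw [e]
    have h1 : x - 2 + (th ^ 2) ^ m ≤ x - 34 / 25 := by linarith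
    have h2 : (0:ℝ) ≤ x - 34 / 25 := by
      have : (((th ^ 2)⁻¹) ^ 1 : ℝ) ≤ x := pow_le_pow_right₀ (by norm_num [th]) hm
      have h3 : (((th ^ 2)⁻¹) ^ 1 : ℝ) = 25 / 16 := by norm_num [th]
      rw [h3] at this
      linarith
    exact mul_le_mul h1 (normQ_le V j v) (sq_nonneg _) h2
  · rw [Ico_eq_empty (by omega), Ico_eq_empty (by omega)]
    simp

/-- the remainder vector of `l` -/
lemma norm_rem_sq : ‖V.H i v + V.H i (zv V v i) - V.Q i v‖ ^ 2
    ≤ ∑ j ∈ Ico (i + 1) V.n, ((th ^ 2)⁻¹) ^ (j - i) * V.b v j := by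
  rcases lt_or_ge i V.n with hi | hi
  · have e : V.H i v + V.H i (zv V v i) - V.Q i v
        = wH V.M (fun j => (th ^ (j - i))⁻¹) (i + 1) V.n v := by
      rw [H_apply', H_apply', ← sum_add_distrib, sum_eq_sum_Ico_succ_bot hi, wH_apply]
      have h0 : Point411.Q V.M i (zv V v i) = 0 := by
        have : Point411.Q V.M i (zv V v i) = (((th ^ 2)⁻¹) ^ (i - i) - 1) • Point411.Q V.M i v :=
          Q_sum_om V.anti (mem_Ico.2 ⟨le_rfl, hi⟩) v
        rw [this]; simp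
      have h1 : Point411.Q V.M i v = V.Q i v := rfl
      rw [h0, h1]
      simp only [Nat.sub_self, pow_zero, one_smul, smul_zero, add_zero]
      rw [add_sub_cancel_left]
      refine sum_congr rfl fun j hj => ?_
      have hj' := mem_Ico.1 hj
      have h2 : Point411.Q V.M j (zv V v i) = (((th ^ 2)⁻¹) ^ (j - i) - 1) • Point411.Q V.M j v :=
        Q_sum_om V.anti (mem_Ico.2 ⟨by omega, hj'.2⟩) v
      rw [h2, smul_smul, ← add_smul]
      congr 1
      have h3 : th ^ (j - i) * ((th ^ 2)⁻¹) ^ (j - i) = (th ^ (j - i))⁻¹ := by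
        rw [inv_pow, ← pow_mul, mul_comm 2, pow_mul]
        have : th ^ (j - i) ≠ 0 := pow_ne_zero _ th_ne
        field_simp
      rw [mul_sub, h3]
      ring
    rw [e, norm_wH_sq V.anti]
    refine sum_le_sum fun j _ => ?_
    have h4 : ((th ^ (j - i))⁻¹) ^ 2 = ((th ^ 2)⁻¹) ^ (j - i) := by
      rw [inv_pow, inv_pow, ← pow_mul, ← pow_mul, mul_comm 2]
    rw [h4]
    exact mul_le_mul_of_nonneg_left (normQ_le V j v) (by positivity)
  · have h1 : V.Q i v = 0 := by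
      have : Point411.Q V.M i v = 0 := by
        rw [Point411.Q_apply, starProjection_bot_apply' (V.bot i hi),
          starProjection_bot_apply' (V.bot (i + 1) (by omega)), sub_self]
      exact this
    rw [h1, H_apply', H_apply', Ico_eq_empty (by omega), Ico_eq_empty (by omega)]
    simp

lemma norm_H_P_sq {j : ℕ} (hij : i ≤ j) : ‖V.H i (V.P j v)‖ ^ 2 ≤ (th ^ 2) ^ (j - i) * V.b v j := by
  rw [norm_H_sq]
  have h0 : ∀ l ∈ Ico i V.n, (th ^ 2) ^ (l - i) * ‖Point411.Q V.M l (V.P j v)‖ ^ 2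
      ≤ (th ^ 2) ^ (j - i) * ‖Point411.Q V.M l (V.P j v)‖ ^ 2 := by
    intro l _
    rcases lt_or_ge l j with h | h
    · have : Point411.Q V.M l (V.P j v) = 0 := Q_P_gt V.anti h v
      rw [this]; simp
    · refine mul_le_mul_of_nonneg_right ?_ (sq_nonneg _)
      exact pow_le_pow_of_le_one (by positivity) (by norm_num [th]) (by omega)
  refine (sum_le_sum h0).trans ?_
  rw [← mul_sum]
  refine mul_le_mul_of_nonneg_left ?_ (by positivity)
  have h1 : ∑ l ∈ Ico i V.n, ‖Point411.Q V.M l (V.P j v)‖ ^ 2 = ‖wH V.M (fun _ => 1) i V.n (V.P j v)‖ ^ 2 := by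
    rw [norm_wH_sq V.anti]; simp
  rw [h1, wH_one V.anti (V.bot V.n le_rfl)]
  exact pow_le_pow_left₀ (norm_nonneg _) (Submodule.norm_starProjection_apply_le _ _) 2

lemma norm_H_le (x : E) : ‖V.H i x‖ ^ 2 ≤ V.b x i := by
  have h := norm_H_P_sq V x i (le_refl i)
  rw [Nat.sub_self, pow_zero, one_mul] at h
  have h2 : V.H i (V.P i x) = V.H i x := wH_P V.anti _ i V.n x
  rwa [h2] at h

lemma norm_H_sub_sq {j : ℕ} (hij : i ≤ j) : ‖V.H i (V.P i v - V.P j v)‖ ^ 2 ≤ V.b v i := by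
  refine (norm_H_le V i _).trans ?_
  have e : V.P i (V.P i v - V.P j v) = V.P i v - V.P j v := by
    rw [map_sub]
    have h1 : V.P i (V.P i v) = V.P i v := P_P_of_le' le_rfl v
    have h2 : V.P i (V.P j v) = V.P j v := P_P_of_le' (V.anti hij) v
    rw [h1, h2]
  rw [Flag.b, e]
  have h3 : V.P j v = (V.M j).starProjection (V.P i v) := (P_P_of_le (V.anti hij) v).symm
  rw [h3, norm_P_sub_sq]
  have : (0:ℝ) ≤ ‖(V.M j).starProjection (V.P i v)‖ ^ 2 := sq_nonneg _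
  simp only [Flag.b]
  linarith

end N

/-- **(N)**: 208's rank-one majorant in the literal of helper336. -/
theorem f5_N' (V : Flag E) {v : E} (hv : ‖v‖ = 1) {s : ℝ} (hs0 : 0 < s) (hs1 : s < 1)
    (hsb : 2 * s - s ^ 2 ≤ 1 / 2) (i : ℕ) :
    SOS (fun g => ‖(V.rot v s).Hi i (Ts v s (V.H i g))‖ ^ 2
      + (2 * s - s ^ 2) / 2 * ⟪V.Q i v, g⟫ ^ 2 - ‖g‖ ^ 2) ((2 * s - s ^ 2) * BB V v i) := by
  have hsb0 : 0 < 2 * s - s ^ 2 := by nlinarith
  set sb := 2 * s - s ^ 2 with hsbd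
  have hsbar : sbar s = sb := rfl
  have hbs : ∀ j, sb * V.b v j ≤ 1 / 2 := fun j => by
    nlinarith [b_le V v hv j, b_nonneg V v j]
  -- the squares
  have S1 : SOS (fun g : E => sb * ⟪V.H i v + V.H i (zv V v i) - V.Q i v, g⟫ ^ 2)
      (sb * ∑ j ∈ Ico (i + 1) V.n, ((th ^ 2)⁻¹) ^ (j - i) * V.b v j) :=
    (SOS.sq _ hsb0.le).mono (fun _ => le_rfl)
      (mul_le_mul_of_nonneg_left (norm_rem_sq V v i) hsb0.le)
  have S2 : SOS (fun g : E => sb * ⟪V.H i (zv V v i), g⟫ ^ 2)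
      (sb * ∑ j ∈ Ico (i + 1) V.n, (((th ^ 2)⁻¹) ^ (j - i) - 34 / 25) * V.b v j) :=
    (SOS.sq _ hsb0.le).mono (fun _ => le_rfl)
      (mul_le_mul_of_nonneg_left (norm_H_zv_sq V v i) hsb0.le)
  have S3 : SOS (fun g : E => ∑ j ∈ Ico (i + 1) V.n,
      ((sb * Point411.om th (j - i)) * ⟪V.H i (V.P j v), g⟫ ^ 2
        + (sb * Point411.om th (j - i) * (2 * sb * V.b v j))
          * ⟪V.H i (V.P i v - V.P j v), g⟫ ^ 2))
      (∑ j ∈ Ico (i + 1) V.n, sb * (9 / 25 * V.b v j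
        + 9 / 25 * ((th ^ 2)⁻¹) ^ (j - i) * V.b v j)) := by
    refine SOS.sum _ _ _ fun j hj => ?_
    have hm : 1 ≤ j - i := by have := (mem_Ico.1 hj).1; omega
    have hij : i ≤ j := by have := (mem_Ico.1 hj).1; omega
    have hom : 0 ≤ Point411.om th (j - i) := om_nonneg th_pos th_le _
    have ome : Point411.om th (j - i) = ((th ^ 2)⁻¹) ^ (j - i) * (9 / 25) := by
      rw [om_eq th_ne hm]; norm_num [th]
    have hb0 := b_nonneg V v j
    refine ((SOS.sq (V.H i (V.P j v)) (mul_nonneg hsb0.le hom)).add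
      (SOS.sq (V.H i (V.P i v - V.P j v))
        (mul_nonneg (mul_nonneg hsb0.le hom) (by positivity : 0 ≤ 2 * sb * V.b v j)))).mono
      (fun _ => le_rfl) ?_
    rw [mul_add]
    refine add_le_add ?_ ?_
    · calc sb * Point411.om th (j - i) * ‖V.H i (V.P j v)‖ ^ 2
          ≤ sb * Point411.om th (j - i) * ((th ^ 2) ^ (j - i) * V.b v j) :=
            mul_le_mul_of_nonneg_left (norm_H_P_sq V v i hij) (mul_nonneg hsb0.le hom)
        _ = sb * (9 / 25 * V.b v j) := by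
            rw [ome]
            have hxy : ((th ^ 2)⁻¹) ^ (j - i) * (th ^ 2) ^ (j - i) = 1 := by
              rw [inv_pow]
              exact inv_mul_cancel₀ (pow_ne_zero _ (pow_ne_zero _ th_ne))
            calc sb * (((th ^ 2)⁻¹) ^ (j - i) * (9 / 25)) * ((th ^ 2) ^ (j - i) * V.b v j)
                = sb * (9 / 25 * V.b v j) * (((th ^ 2)⁻¹) ^ (j - i) * (th ^ 2) ^ (j - i)) := by ring
              _ = _ := by rw [hxy, mul_one]
    · have h1 : ‖V.H i (V.P i v - V.P j v)‖ ^ 2 ≤ 1 :=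
        (norm_H_sub_sq V v i hij).trans (b_le V v hv i)
      calc sb * Point411.om th (j - i) * (2 * sb * V.b v j) * ‖V.H i (V.P i v - V.P j v)‖ ^ 2
          ≤ sb * Point411.om th (j - i) * (2 * sb * V.b v j) * 1 :=
            mul_le_mul_of_nonneg_left h1
              (mul_nonneg (mul_nonneg hsb0.le hom) (by positivity : 0 ≤ 2 * sb * V.b v j))
        _ = (2 * sb) * (sb * (Point411.om th (j - i) * V.b v j)) := by ring
        _ ≤ 1 * (sb * (Point411.om th (j - i) * V.b v j)) :=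
            mul_le_mul_of_nonneg_right (by linarith)
              (mul_nonneg hsb0.le (mul_nonneg hom hb0))
        _ = sb * (9 / 25 * ((th ^ 2)⁻¹) ^ (j - i) * V.b v j) := by rw [ome]; ring
  refine ((S1.add S2).add S3).mono (fun g => ?_) ?_
  · -- pointwise
    have hex := norm_R_sq V.anti (V.bot V.n le_rfl) th_ne hv (s := s) i
      (fun j _ => by rw [hsbar]; exact lt_of_le_of_lt (hbs j) (by norm_num)) g
    rw [rot_Hi_Ts_H, hex, hsbar]
    have hP : ‖(V.M i).starProjection g‖ ^ 2 ≤ ‖g‖ ^ 2 :=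
      pow_le_pow_left₀ (norm_nonneg _) (Submodule.norm_starProjection_apply_le _ _) 2
    set xi := ⟪Hf V.M th i V.n v, g⟫ with hxi
    have hxi' : ⟪V.H i v, g⟫ = xi := rfl
    set Z := ⟪V.H i (zv V v i), g⟫ with hZ
    set q0 := ⟪V.Q i v, g⟫ with hq0
    have hr : ⟪V.H i v + V.H i (zv V v i) - V.Q i v, g⟫ = xi + Z - q0 := by
      rw [inner_sub_left, inner_add_left]
      rfl
    have hZs : Z = ∑ j ∈ Ico (i + 1) V.n, Point411.om th (j - i) * ⟪V.H i (V.P j v), g⟫ := by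
      rw [hZ, zv, map_sum, sum_inner]
      refine sum_congr rfl fun j _ => ?_
      rw [map_smul, inner_smul_left, RCLike.conj_to_real]
    have key : ∀ j ∈ Ico (i + 1) V.n, -(sb * (Point411.om th (j - i) * (xi ^ 2
        - ⟪Hf V.M th i V.n ((V.M i).starProjection v - (V.M j).starProjection v), g⟫ ^ 2
          / (1 - sb * ‖(V.M j).starProjection v‖ ^ 2))))
        ≤ -(2 * sb * xi * (Point411.om th (j - i) * ⟪V.H i (V.P j v), g⟫))
          + ((sb * Point411.om th (j - i)) * ⟪V.H i (V.P j v), g⟫ ^ 2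
            + (sb * Point411.om th (j - i) * (2 * sb * V.b v j))
              * ⟪V.H i (V.P i v - V.P j v), g⟫ ^ 2) := by
      intro j _
      have hom : 0 ≤ Point411.om th (j - i) := om_nonneg th_pos th_le _
      set a := ⟪Hf V.M th i V.n ((V.M i).starProjection v - (V.M j).starProjection v), g⟫ with ha
      have ha' : ⟪V.H i (V.P i v - V.P j v), g⟫ = a := rfl
      set ze := ⟪V.H i (V.P j v), g⟫ with hze
      have hsum : xi = a + ze := by
        have : ze = ⟪Hf V.M th i V.n ((V.M j).starProjection v), g⟫ := rfl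
        rw [ha, this, ← inner_add_left, ← map_add, sub_add_cancel, Hf, wH_P V.anti]
        rfl
      have hbj : ‖(V.M j).starProjection v‖ ^ 2 = V.b v j := rfl
      rw [ha', hbj]
      have h1 : a ^ 2 / (1 - sb * V.b v j) ≤ a ^ 2 * (1 + 2 * (sb * V.b v j)) := by
        rw [div_le_iff₀ (by linarith [hbs j])]
        have h0 : 0 ≤ sb * V.b v j := mul_nonneg hsb0.le (b_nonneg V v j)
        nlinarith [mul_nonneg (mul_nonneg h0
          (by linarith [hbs j] : (0:ℝ) ≤ 1 - 2 * (sb * V.b v j))) (sq_nonneg a)]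
      have h2 : -(xi ^ 2 - a ^ 2 / (1 - sb * V.b v j))
          ≤ -(2 * xi * ze) + ze ^ 2 + 2 * sb * V.b v j * a ^ 2 := by
        have : xi ^ 2 - a ^ 2 = 2 * xi * ze - ze ^ 2 := by rw [hsum]; ring
        nlinarith
      calc -(sb * (Point411.om th (j - i) * (xi ^ 2 - a ^ 2 / (1 - sb * V.b v j))))
          = (sb * Point411.om th (j - i)) * (-(xi ^ 2 - a ^ 2 / (1 - sb * V.b v j))) := by ring
        _ ≤ (sb * Point411.om th (j - i)) *
            (-(2 * xi * ze) + ze ^ 2 + 2 * sb * V.b v j * a ^ 2) :=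
            mul_le_mul_of_nonneg_left h2 (mul_nonneg hsb0.le hom)
        _ = _ := by ring
    have key2 := sum_le_sum key
    rw [sum_neg_distrib, ← mul_sum, sum_add_distrib, sum_neg_distrib, ← mul_sum, ← hZs] at key2
    have h4 : -(sb * xi ^ 2) - 2 * sb * xi * Z + sb / 2 * q0 ^ 2
        ≤ sb * (xi + Z - q0) ^ 2 + sb * Z ^ 2 := by
      nlinarith [mul_nonneg hsb0.le (sq_nonneg (2 * (xi + Z) - q0)),
        mul_nonneg hsb0.le (sq_nonneg (xi + Z - q0)), mul_nonneg hsb0.le (sq_nonneg (q0)),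
        mul_nonneg hsb0.le (sq_nonneg (xi + Z))]
    show _ ≤ sb * _ ^ 2 + sb * _ ^ 2 + ∑ j ∈ Ico (i + 1) V.n, _
    rw [hr]
    linarith
  · -- constants
    rw [mul_sum, mul_sum, ← sum_add_distrib, ← sum_add_distrib, BB, mul_sum]
    refine sum_le_sum fun j hj => ?_
    have hm : 1 ≤ j - i := by have := (mem_Ico.1 hj).1; omega
    have hb0 := b_nonneg V v j
    obtain ⟨k, hk⟩ : ∃ k, j - i = k + 1 := ⟨j - i - 1, by omega⟩
    rw [hk]
    have hth : (th ^ 2)⁻¹ = 25 / 16 := by norm_num [th]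
    rw [hth]
    have e2 : (25 / 8 : ℝ) ^ (k + 1) = 2 ^ (k + 1) * (25 / 16) ^ (k + 1) := by
      rw [← mul_pow]; norm_num
    have hx : (25 / 16 : ℝ) ≤ (25 / 16) ^ (k + 1) := by
      calc (25 / 16 : ℝ) = (25 / 16) ^ 1 := by norm_num
        _ ≤ (25 / 16) ^ (k + 1) := pow_le_pow_right₀ (by norm_num) (by omega)
    have h2 : (59 / 25 : ℝ) * (25 / 16) ^ (k + 1) - 1 ≤ 2 ^ (k + 1) * (25 / 16) ^ (k + 1) := by
      rcases Nat.eq_zero_or_pos k with rfl | hk0
      · norm_num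
      · have h3 : (4:ℝ) ≤ 2 ^ (k + 1) := by
          calc (4:ℝ) = 2 ^ 2 := by norm_num
            _ ≤ 2 ^ (k + 1) := pow_le_pow_right₀ (by norm_num) (by omega)
        nlinarith
    have h5 : sb * ((25 / 16) ^ (k + 1) * V.b v j) + sb * (((25 / 16) ^ (k + 1) - 34 / 25) * V.b v j)
        + sb * (9 / 25 * V.b v j + 9 / 25 * (25 / 16) ^ (k + 1) * V.b v j)
        = sb * (((59 / 25 : ℝ) * (25 / 16) ^ (k + 1) - 1) * V.b v j) := by ring
    rw [h5, e2]
    exact mul_le_mul_of_nonneg_left (mul_le_mul_of_nonneg_right h2 hb0) hsb0.le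

/-- **f5_N**, literal of helper336. -/
theorem f5_N (V : Flag E) {v : E} (hv : ‖v‖ = 1) {s : ℝ} (hs0 : 0 < s) (hs1 : s < 1)
    (hsb : 2 * s - s ^ 2 ≤ 1 / 2) (i : ℕ) :
    ∃ (J : Finset ℕ) (u : ℕ → E),
      (∀ g, ‖(V.rot v s).Hi i (Ts v s (V.H i g))‖ ^ 2
        + (2 * s - s ^ 2) / 2 * ⟪V.Q i v, g⟫ ^ 2 ≤ ‖g‖ ^ 2 + ∑ k ∈ J, ⟪u k, g⟫ ^ 2) ∧
      ∑ k ∈ J, ‖u k‖ ^ 2 ≤ (2 * s - s ^ 2) * BB V v i := by
  obtain ⟨N, u, h1, h2⟩ := f5_N' V hv hs0 hs1 hsb i
  exact ⟨range N, u, fun g => by linarith [h1 g], h2⟩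

end Crest.Agent.R239.F5411
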