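import Mathlib
import Crest.Agent.R239.FDef
import Crest.Agent.R239.F6core_696
import Crest.Agent.R239.Cmp_142

/-! R239, block F6b (one level comparison over FDef), helper696: flag algebra needed for the level
comparison, the map `Rm = Hi' ∘ T ∘ H`, pull back of a competitor body of the tilted flag, half sums,
and the two final inequalities (direct form and half sum form).  Cap agnostic. -/


set_option autoImplicit false
set_option linter.unusedSectionVars false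
open MeasureTheory ProbabilityTheory Set Filter Topology Pointwise
open scoped RealInnerProductSpace

namespace Crest.Agent.R239.F6b696

open Crest.Agent.R239 (gau gau_real_apply)
open Crest.Agent.R239.FD
open Crest.Agent.R239.F6core696 (mix mem_mix mix_compact mix_nonempty mix_convex mix_neg mix_subset
  mix_preimage_subset Eh_mix Eh_pullback)

variable {E : Type*} [NormedAddCommGroup E] [InnerProductSpace ℝ E] [FiniteDimensional ℝ E]
  [MeasurableSpace E] [BorelSpace E]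

lemma hs_eq : (FD.hs : Set E → E → ℝ) = F6core696.hs := rfl

lemma gau_isProb (H : E →L[ℝ] E) : IsProbabilityMeasure (gau H) := by
  unfold gau
  exact Measure.isProbabilityMeasure_map H.continuous.measurable.aemeasurable

/-! ### elementary flag algebra -/

variable (V : Flag E)

lemma P_mem (j : ℕ) (x : E) : V.P j x ∈ V.M j := by
  unfold Flag.P
  exact Submodule.starProjection_apply_mem _ _

lemma P_of_mem {j : ℕ} {x : E} (hx : x ∈ V.M j) : V.P j x = x := by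
  unfold Flag.P
  exact Submodule.starProjection_eq_self_iff.2 hx

lemma Q_apply (j : ℕ) (x : E) : V.Q j x = V.P j x - V.P (j + 1) x := rfl

lemma H_apply (i : ℕ) (x : E) : V.H i x = ∑ j ∈ Finset.Ico i V.n, th ^ (j - i) • V.Q j x := by
  simp only [Flag.H, _root_.sum_apply, _root_.smul_apply]

lemma Hi_apply (i : ℕ) (x : E) :
    V.Hi i x = ∑ j ∈ Finset.Ico i V.n, (th⁻¹) ^ (j - i) • V.Q j x := by
  simp only [Flag.Hi, _root_.sum_apply, _root_.smul_apply]

lemma Q_mem {i j : ℕ} (hij : i ≤ j) (x : E) : V.Q j x ∈ V.M i := by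
  rw [Q_apply]
  exact (V.M i).sub_mem (V.anti hij (P_mem V j x)) (V.anti (hij.trans (Nat.le_succ j)) (P_mem V _ x))

lemma H_mem (i : ℕ) (g : E) : V.H i g ∈ V.M i := by
  rw [H_apply]
  refine Submodule.sum_mem _ fun j hj => ?_
  exact (V.M i).smul_mem _ (Q_mem V (Finset.mem_Ico.1 hj).1 g)

lemma P_P_of_le {i j : ℕ} (h : i ≤ j) (x : E) : V.P j (V.P i x) = V.P j x := by
  have h1 : V.P j (x - V.P i x) = 0 := by
    unfold Flag.P
    rw [Submodule.starProjection_apply_eq_zero_iff]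
    have h2 : x - (V.M i).starProjection x ∈ (V.M i)ᗮ := Submodule.sub_starProjection_mem_orthogonal x
    exact Submodule.orthogonal_le (V.anti h) h2
  rw [map_sub, sub_eq_zero] at h1
  exact h1.symm

lemma P_P_of_le' {i j : ℕ} (h : i ≤ j) (x : E) : V.P i (V.P j x) = V.P j x :=
  P_of_mem V (V.anti h (P_mem V j x))

lemma P_of_n_le {i : ℕ} (h : V.n ≤ i) (x : E) : V.P i x = 0 := by
  have := P_mem V i x
  rw [V.bot i h] at this
  simpa using this

lemma Q_Q_self (j : ℕ) (x : E) : V.Q j (V.Q j x) = V.Q j x := by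
  simp only [Q_apply, map_sub]
  rw [P_P_of_le V le_rfl, P_P_of_le V (Nat.le_succ j), P_P_of_le' V (Nat.le_succ j),
    P_P_of_le V le_rfl]
  abel

lemma Q_Q_ne {j l : ℕ} (h : j ≠ l) (x : E) : V.Q j (V.Q l x) = 0 := by
  rcases lt_or_gt_of_ne h with h | h
  · -- j < l
    have h1 : V.Q l x ∈ V.M (j + 1) := Q_mem V h x
    rw [Q_apply, P_of_mem V (V.anti (Nat.le_succ j) h1), P_of_mem V h1, sub_self]
  · simp only [Q_apply, map_sub]
    rw [P_P_of_le V h.le, P_P_of_le V (show l + 1 ≤ j from h), P_P_of_le V (show l ≤ j + 1 by omega),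
      P_P_of_le V (show l + 1 ≤ j + 1 by omega)]
    abel

lemma sum_Q (i : ℕ) (x : E) : ∑ j ∈ Finset.Ico i V.n, V.Q j x = V.P i x := by
  have key : ∀ m, i ≤ m → ∑ j ∈ Finset.Ico i m, V.Q j x = V.P i x - V.P m x := by
    intro m hm
    induction m, hm using Nat.le_induction with
    | base => simp
    | succ m hm ih =>
      rw [Finset.sum_Ico_succ_top hm, ih, Q_apply]; abel
  rcases le_total i V.n with h | h
  · rw [key _ h, P_of_n_le V le_rfl, sub_zero]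
  · rw [Finset.Ico_eq_empty (by omega), P_of_n_le V h]; simp

lemma th_pos : (0 : ℝ) < th := by unfold th; norm_num

lemma H_Hi (i : ℕ) (x : E) : V.H i (V.Hi i x) = V.P i x := by
  rw [H_apply, ← sum_Q V i x]
  refine Finset.sum_congr rfl fun j hj => ?_
  rw [Hi_apply, map_sum, Finset.sum_eq_single_of_mem j hj]
  · rw [map_smul, Q_Q_self, smul_smul, ← mul_pow, mul_inv_cancel₀ th_pos.ne', one_pow, one_smul]
  · intro l _ hl
    rw [map_smul, Q_Q_ne V (Ne.symm hl), smul_zero]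

lemma Hi_H (i : ℕ) (x : E) : V.Hi i (V.H i x) = V.P i x := by
  rw [Hi_apply, ← sum_Q V i x]
  refine Finset.sum_congr rfl fun j hj => ?_
  rw [H_apply, map_sum, Finset.sum_eq_single_of_mem j hj]
  · rw [map_smul, Q_Q_self, smul_smul, ← mul_pow, inv_mul_cancel₀ th_pos.ne', one_pow, one_smul]
  · intro l _ hl
    rw [map_smul, Q_Q_ne V (Ne.symm hl), smul_zero]

lemma norm_P_le (i : ℕ) (x : E) : ‖V.P i x‖ ≤ ‖x‖ := by
  unfold Flag.P
  exact Submodule.norm_starProjection_apply_le _ _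

/-! ### the tilt -/

variable {v : E} {s : ℝ}

lemma inner_v_Ts (hv : ‖v‖ = 1) (x : E) : ⟪v, Ts v s x⟫ = (1 - s) * ⟪v, x⟫ := by
  rw [Ts_apply, inner_sub_right, inner_smul_right, real_inner_self_eq_norm_sq, hv]
  ring

lemma Ts_mem (i : ℕ) {x : E} (hx : x ∈ V.M i) : Ts v s x ∈ (V.rot v s).M i :=
  Submodule.mem_map_of_mem hx

/-- the comparison map of level `i` -/
noncomputable def Rm (V : Flag E) (v : E) (s : ℝ) (i : ℕ) : E →L[ℝ] E :=
  (V.rot v s).Hi i ∘L Ts v s ∘L V.H i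

lemma Rm_apply (i : ℕ) (g : E) : Rm V v s i g = (V.rot v s).Hi i (Ts v s (V.H i g)) := rfl

/-- `T H g = H' R g` -/
lemma Ts_H (i : ℕ) (g : E) : Ts v s (V.H i g) = (V.rot v s).H i (Rm V v s i g) := by
  rw [Rm_apply, H_Hi, P_of_mem _ (Ts_mem V i (H_mem V i g))]

lemma norm_Rm (hrot : P_ROT E) (hv : ‖v‖ = 1) (h0 : 0 < s) (h1 : s < 1) (i : ℕ) (g : E) :
    ‖Rm V v s i g‖ ^ 2 = ‖V.P i g‖ ^ 2 - qf V v (2 * s - s ^ 2) i (V.H i g) := by
  rw [Rm_apply, hrot V v s i _ hv h0 h1 (H_mem V i g), Hi_H]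

lemma norm_Rm_le (hrot : P_ROT E) (hv : ‖v‖ = 1) (h0 : 0 < s) (h1 : s < 1) (i : ℕ) (g : E) :
    ‖Rm V v s i g‖ ^ 2 ≤ ‖g‖ ^ 2 - qf V v (2 * s - s ^ 2) i (V.H i g) := by
  rw [norm_Rm V hrot hv h0 h1]
  have := norm_P_le V i g
  have : ‖V.P i g‖ ^ 2 ≤ ‖g‖ ^ 2 := pow_le_pow_left₀ (norm_nonneg _) this 2
  linarith

/-! ### values -/

lemma gau_real_le_one (H : E →L[ℝ] E) (A : Set E) : (gau H).real A ≤ 1 := by
  have := gau_isProb H
  exact measureReal_le_one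

lemma zero_mem_of_adm {p : Par} {V : Flag E} {i : ℕ} {K : Set E} (h : Adm p V i K) : (0 : E) ∈ K := by
  obtain ⟨_, hc, hsym, _, hpos⟩ := h
  have hne : K.Nonempty := by
    by_contra hcon
    rw [Set.not_nonempty_iff_eq_empty] at hcon
    rw [hcon] at hpos
    simp at hpos
  obtain ⟨x, hx⟩ := hne
  have := hc hx (hsym x hx) (show (0 : ℝ) ≤ 1 / 2 by norm_num) (show (0 : ℝ) ≤ 1 / 2 by norm_num)
    (by norm_num)
  simpa using this

lemma hs_nonneg {K : Set E} (h0 : (0 : E) ∈ K) (z : E) : 0 ≤ hs K z := by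
  unfold hs
  by_cases hb : BddAbove ((fun x : E => ⟪x, z⟫) '' K)
  · exact le_csSup hb ⟨0, h0, by simp⟩
  · rw [Real.sSup_of_not_bddAbove hb]

lemma Eh_nonneg {K : Set E} (h0 : (0 : E) ∈ K) (μ : Multiset E) : 0 ≤ Eh K μ := by
  unfold Eh
  apply Multiset.sum_nonneg
  intro y hy
  obtain ⟨z, _, rfl⟩ := Multiset.mem_map.1 hy
  exact hs_nonneg h0 z

lemma val_nonneg {p : Par} (hlam : ∀ i, 0 ≤ p.lam i) {V : Flag E} {i : ℕ} {μ : Multiset E}
    {K : Set E} (h : Adm p V i K) : 0 ≤ val p V i μ K := by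
  unfold val
  have h1 := Eh_nonneg (zero_mem_of_adm h) μ
  have h2 : Real.log ((gau (V.H i)).real K) ≤ 0 :=
    Real.log_nonpos measureReal_nonneg (gau_real_le_one _ _)
  nlinarith [hlam i]

lemma D_le_val {p : Par} (hlam : ∀ i, 0 ≤ p.lam i) {V : Flag E} {i : ℕ} {μ : Multiset E}
    {K : Set E} (h : Adm p V i K) : D p V i μ ≤ val p V i μ K := by
  unfold D
  refine csInf_le ⟨0, ?_⟩ ⟨K, h, rfl⟩
  rintro _ ⟨K', h', rfl⟩
  exact val_nonneg hlam h'

/-! ### half sums -/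

lemma gau_mix_pos {H : E →L[ℝ] E} {K Q : Set E} (hK : IsCompact K) (hQ : IsCompact Q)
    (hKp : 0 < (gau H).real K) (hQp : 0 < (gau H).real Q) :
    0 < (gau H).real (mix (1 / 2) K Q) := by
  have hW : IsCompact (mix (1 / 2 : ℝ) K Q) := mix_compact hK hQ
  rw [gau_real_apply H hK.measurableSet] at hKp
  rw [gau_real_apply H hQ.measurableSet] at hQp
  rw [gau_real_apply H hW.measurableSet]
  have hm := H.continuous.measurable
  have h := Cmp142.pl_sets (E := E) (t := (1 / 2 : ℝ)) (by norm_num) (by norm_num)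
    (hm hK.measurableSet) (hm hQ.measurableSet) (hm hW.measurableSet) (fun x hx y hy =>
      mix_preimage_subset H K Q (mem_mix.2 ⟨x, hx, y, hy, rfl⟩))
  have h1 : (stdGaussian E) (H ⁻¹' K) ≠ 0 := fun h0 => by
    rw [measureReal_def, h0] at hKp; simp at hKp
  have h2 : (stdGaussian E) (H ⁻¹' Q) ≠ 0 := fun h0 => by
    rw [measureReal_def, h0] at hQp; simp at hQp
  have h3 : (stdGaussian E) (H ⁻¹' (mix (1 / 2 : ℝ) K Q)) ≠ 0 := by
    intro h0
    rw [h0, nonpos_iff_eq_zero, mul_eq_zero] at h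
    rcases h with h | h
    · exact absurd h (ENNReal.rpow_pos (pos_iff_ne_zero.2 h1) (measure_ne_top _ _)).ne'
    · exact absurd h (ENNReal.rpow_pos (pos_iff_ne_zero.2 h2) (measure_ne_top _ _)).ne'
  rw [measureReal_def]
  exact ENNReal.toReal_pos h3 (measure_ne_top _ _)

lemma Adm_mix {p : Par} {V : Flag E} {i : ℕ} (hcapC : IsCompact (V.cap p.rho i))
    (hcapV : Convex ℝ (V.cap p.rho i)) {K Q : Set E} (hK : Adm p V i K) (hQ : Adm p V i Q) :
    Adm p V i (mix (1 / 2) K Q) := by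
  have hKc : IsCompact K := hcapC.of_isClosed_subset hK.1 hK.2.2.2.1
  have hQc : IsCompact Q := hcapC.of_isClosed_subset hQ.1 hQ.2.2.2.1
  refine ⟨(mix_compact hKc hQc).isClosed, mix_convex hK.2.1 hQ.2.1, mix_neg hK.2.2.1 hQ.2.2.1,
    mix_subset (by norm_num) (by norm_num) hcapV hK.2.2.2.1 hQ.2.2.2.1, ?_⟩
  exact gau_mix_pos hKc hQc hK.2.2.2.2 hQ.2.2.2.2

/-! ### the pulled back body -/

/-- `T_s⁻¹ K2 ∩ M_i` -/
def Qb (V : Flag E) (v : E) (s : ℝ) (i : ℕ) (K2 : Set E) : Set E :=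
  Ts v s ⁻¹' K2 ∩ (V.M i : Set E)

lemma Qb_real (V : Flag E) (v : E) (s : ℝ) (i : ℕ) {K2 : Set E} (h2c : IsClosed K2) :
    (gau (V.H i)).real (Qb V v s i K2)
      = (stdGaussian E).real (Rm V v s i ⁻¹' ((V.rot v s).H i ⁻¹' K2)) := by
  unfold Qb
  rw [F6core696.gau_real_inter_range (H_mem V i)
      ((Ts v s).continuous.measurable h2c.measurableSet),
    F6core696.gau_preimage_eq (Ts_H V i) h2c.measurableSet]

lemma H_preimage_Qb (V : Flag E) (v : E) (s : ℝ) (i : ℕ) (K2 : Set E) :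
    V.H i ⁻¹' (Qb V v s i K2) = Rm V v s i ⁻¹' ((V.rot v s).H i ⁻¹' K2) := by
  ext g
  simp only [Qb, mem_preimage, mem_inter_iff, SetLike.mem_coe, H_mem V i g, and_true, Ts_H V i g]

/-- all the properties of the pulled back body except the measure -/
theorem Qb_props {p : Par} {V : Flag E} {i : ℕ} (hcapC : IsCompact (V.cap p.rho i)) {s : ℝ} {v : E}
    (h0 : 0 ≤ s) {K' K2 : Set E} (hK' : IsCompact K') (h2c : IsClosed K2) (h2v : Convex ℝ K2)
    (h2s : ∀ x ∈ K2, -x ∈ K2) (h2n : (0 : E) ∈ K2) (h2K : K2 ⊆ K') {t : ℝ}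
    (hslab : ∀ x ∈ V.M i, Ts v s x ∈ K2 → |⟪v, x⟫| ≤ t)
    (hcap : ∀ x ∈ V.M i, Ts v s x ∈ K2 → x ∈ V.cap p.rho i) (μ : Multiset E) :
    IsCompact (Qb V v s i K2) ∧ Convex ℝ (Qb V v s i K2) ∧
    (∀ x ∈ Qb V v s i K2, -x ∈ Qb V v s i K2) ∧ Qb V v s i K2 ⊆ V.cap p.rho i ∧
    Eh (Qb V v s i K2) μ ≤ Eh K' μ + s * t * S μ v := by
  have hMc : IsClosed (V.M i : Set E) := Submodule.closed_of_finiteDimensional _
  have hcl : IsClosed (Qb V v s i K2) := (h2c.preimage (Ts v s).continuous).inter hMc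
  have hsub : Qb V v s i K2 ⊆ V.cap p.rho i := fun x hx => hcap x hx.2 hx.1
  have h0' : (0 : E) ∈ Qb V v s i K2 := ⟨by simpa using h2n, (V.M i).zero_mem⟩
  refine ⟨hcapC.of_isClosed_subset hcl hsub, ?_, ?_, hsub, ?_⟩
  · exact (h2v.linear_preimage (Ts v s).toLinearMap).inter (V.M i).convex
  · rintro x ⟨hx, hxM⟩
    refine ⟨?_, (V.M i).neg_mem hxM⟩
    simp only [mem_preimage, map_neg]
    exact h2s _ hx
  · exact Eh_pullback hK' ⟨0, h0'⟩ h0 (fun x => Ts_apply v s x) (fun x hx => h2K hx.1)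
      (fun x hx => hslab x hx.2 hx.1) μ

/-- the pulled back body is admissible as soon as it has positive measure -/
theorem Qb_adm {p : Par} {V : Flag E} {i : ℕ} (hcapC : IsCompact (V.cap p.rho i)) {s : ℝ} {v : E}
    (h0 : 0 ≤ s) {K' K2 : Set E} (hK' : IsCompact K') (h2c : IsClosed K2) (h2v : Convex ℝ K2)
    (h2s : ∀ x ∈ K2, -x ∈ K2) (h2n : (0 : E) ∈ K2) (h2K : K2 ⊆ K') {t : ℝ}
    (hslab : ∀ x ∈ V.M i, Ts v s x ∈ K2 → |⟪v, x⟫| ≤ t)
    (hcap : ∀ x ∈ V.M i, Ts v s x ∈ K2 → x ∈ V.cap p.rho i)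
    (hpos : 0 < (gau (V.H i)).real (Qb V v s i K2)) :
    Adm p V i (Qb V v s i K2) := by
  obtain ⟨hc, hv, hn, hsub, _⟩ := Qb_props hcapC h0 hK' h2c h2v h2s h2n h2K hslab hcap 0
  exact ⟨hc.isClosed, hv, hn, hsub, hpos⟩

lemma zero_mem_of_pos {H : E →L[ℝ] E} {K2 : Set E} (h2v : Convex ℝ K2) (h2s : ∀ x ∈ K2, -x ∈ K2)
    (h2p : 0 < (gau H).real K2) : (0 : E) ∈ K2 := by
  have hne : K2.Nonempty := by
    by_contra hcon
    rw [Set.not_nonempty_iff_eq_empty] at hcon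
    rw [hcon] at h2p
    simp at h2p
  obtain ⟨x, hx⟩ := hne
  have := h2v hx (h2s x hx) (show (0 : ℝ) ≤ 1 / 2 by norm_num) (show (0 : ℝ) ≤ 1 / 2 by norm_num)
    (by norm_num)
  simpa using this

/-- **F6b, direct form** (no gain, no near-optimal body): comparison of the level `i` of `V` with a
competitor body of the tilted flag, `c = exp(-e/2)` the (CMP) constant. -/
theorem lev_direct {p : Par} (hlam : ∀ i, 0 ≤ p.lam i) {V : Flag E} {i : ℕ}
    (hcapC : IsCompact (V.cap p.rho i)) {s : ℝ} {v : E}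
    (h0 : 0 ≤ s) {K' K2 : Set E} (hK' : IsCompact K') (h2c : IsClosed K2) (h2v : Convex ℝ K2)
    (h2s : ∀ x ∈ K2, -x ∈ K2) (h2p : 0 < (gau ((V.rot v s).H i)).real K2) (h2K : K2 ⊆ K') {t : ℝ}
    (hslab : ∀ x ∈ V.M i, Ts v s x ∈ K2 → |⟪v, x⟫| ≤ t)
    (hcap : ∀ x ∈ V.M i, Ts v s x ∈ K2 → x ∈ V.cap p.rho i) {e : ℝ}
    (hcmp : Real.exp (-e / 2) * (stdGaussian E).real ((V.rot v s).H i ⁻¹' K2)
      ≤ (stdGaussian E).real (Rm V v s i ⁻¹' ((V.rot v s).H i ⁻¹' K2))) (μ : Multiset E) :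
    D p V i μ ≤ Eh K' μ + s * t * S μ v
      - p.lam i * Real.log ((gau ((V.rot v s).H i)).real K2) + p.lam i * (e / 2) := by
  have h2n := zero_mem_of_pos h2v h2s h2p
  obtain ⟨_, _, _, _, hE⟩ := Qb_props hcapC h0 hK' h2c h2v h2s h2n h2K hslab hcap μ
  rw [← Qb_real V v s i h2c, ← gau_real_apply _ h2c.measurableSet] at hcmp
  have hpos : 0 < (gau (V.H i)).real (Qb V v s i K2) :=
    lt_of_lt_of_le (by positivity) hcmp
  have hadm := Qb_adm hcapC h0 hK' h2c h2v h2s h2n h2K hslab hcap hpos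
  have h1 := D_le_val (μ := μ) hlam hadm
  have h2 := F6core696.log_cost_le (hlam i) h2p hcmp
  unfold val at h1
  nlinarith

/-- **F6b, half sum form**: `K` near-optimal at `V`, `K2` the cut competitor of the tilted flag, `hone`
the one-body inequality (gain `G`) applied to `K_g = H⁻¹ K` and `Q_g = R⁻¹ H'⁻¹ K2`. -/
theorem lev_half {p : Par} (hlam : ∀ i, 0 ≤ p.lam i) {V : Flag E} {i : ℕ}
    (hcapC : IsCompact (V.cap p.rho i)) (hcapV : Convex ℝ (V.cap p.rho i)) {s : ℝ} {v : E}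
    (h0 : 0 ≤ s) {K K' K2 : Set E} {sl : ℝ} {μ : Multiset E} (hK : NearOpt p V i μ K sl)
    (hK' : IsCompact K') (h2c : IsClosed K2) (h2v : Convex ℝ K2)
    (h2s : ∀ x ∈ K2, -x ∈ K2) (h2p : 0 < (gau ((V.rot v s).H i)).real K2) (h2K : K2 ⊆ K') {t : ℝ}
    (hslab : ∀ x ∈ V.M i, Ts v s x ∈ K2 → |⟪v, x⟫| ≤ t)
    (hcap : ∀ x ∈ V.M i, Ts v s x ∈ K2 → x ∈ V.cap p.rho i)
    (hQp : 0 < (stdGaussian E).real (Rm V v s i ⁻¹' ((V.rot v s).H i ⁻¹' K2))) {G : ℝ}
    (hone : ∀ W : Set E, IsClosed W → (∀ x ∈ V.H i ⁻¹' K,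
      ∀ y ∈ Rm V v s i ⁻¹' ((V.rot v s).H i ⁻¹' K2), (1 / 2 : ℝ) • x + (1 / 2 : ℝ) • y ∈ W) →
      Real.log ((stdGaussian E).real (V.H i ⁻¹' K))
        + Real.log ((stdGaussian E).real ((V.rot v s).H i ⁻¹' K2)) + G
        ≤ 2 * Real.log ((stdGaussian E).real W)) :
    D p V i μ ≤ Eh K' μ + s * t * S μ v
      - p.lam i * Real.log ((gau ((V.rot v s).H i)).real K2) - p.lam i * G + sl := by
  have h2n := zero_mem_of_pos h2v h2s h2p
  obtain ⟨hQc, _, _, _, hE⟩ := Qb_props hcapC h0 hK' h2c h2v h2s h2n h2K hslab hcap μ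
  have hpos : 0 < (gau (V.H i)).real (Qb V v s i K2) := by rw [Qb_real V v s i h2c]; exact hQp
  have hQ := Qb_adm hcapC h0 hK' h2c h2v h2s h2n h2K hslab hcap hpos
  have hW := Adm_mix hcapC hcapV hK.1 hQ
  have hKc : IsCompact K := hcapC.of_isClosed_subset hK.1.1 hK.1.2.2.2.1
  have h1 := D_le_val (μ := μ) hlam hW
  have hEm : Eh (mix (1 / 2) K (Qb V v s i K2)) μ
      = (1 - 1 / 2) * Eh K μ + 1 / 2 * Eh (Qb V v s i K2) μ :=
    Eh_mix (by norm_num) (by norm_num) hKc hQc ⟨0, zero_mem_of_adm hK.1⟩ ⟨0, zero_mem_of_adm hQ⟩ μ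
  have hWcl : IsClosed (mix (1 / 2) K (Qb V v s i K2)) := hW.1
  have h3 := hone (V.H i ⁻¹' mix (1 / 2) K (Qb V v s i K2)) (hWcl.preimage (V.H i).continuous)
    (fun x hx y hy => by
      rw [← H_preimage_Qb] at hy
      apply mix_preimage_subset (V.H i) K (Qb V v s i K2)
      exact mem_mix.2 ⟨x, hx, y, hy, by norm_num⟩)
  rw [← gau_real_apply _ hKc.measurableSet, ← gau_real_apply _ h2c.measurableSet,
    ← gau_real_apply _ hWcl.measurableSet] at h3
  have h4 := hK.2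
  unfold val at h1 h4
  rw [hEm] at h1
  have h5 : p.lam i * (Real.log ((gau (V.H i)).real K)
      + Real.log ((gau ((V.rot v s).H i)).real K2) + G)
      ≤ p.lam i * (2 * Real.log ((gau (V.H i)).real (mix (1 / 2) K (Qb V v s i K2)))) :=
    mul_le_mul_of_nonneg_left h3 (hlam i)
  linarith

end Crest.Agent.R239.F6b696
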