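import Crest.Agent.R239.FDef

/-! R239 (helper350): assembly of the insurance line T1-B (174 / 472 / 406): gain at `V^s`, single
demotion of `V^s`. `target_T1B : Target_DOT → Target_LEVB → Target_T1`. -/

set_option autoImplicit false
set_option linter.unusedSectionVars false
open MeasureTheory ProbabilityTheory
open scoped RealInnerProductSpace

namespace Crest.Agent.R239.T1B350

open Crest.Agent.R239 (gau)
open Crest.Agent.R239.FD

variable {E : Type*} [NormedAddCommGroup E] [InnerProductSpace ℝ E] [FiniteDimensional ℝ E]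
  [MeasurableSpace E] [BorelSpace E]

/-- (DOT) demotion or thin: at every level `≥ 1` a flag is thin or can be improved by
`kap lam_i / 2` by a demotion. -/
def P_DOT (E : Type*) [NormedAddCommGroup E] [InnerProductSpace ℝ E] [FiniteDimensional ℝ E]
    [MeasurableSpace E] [BorelSpace E] (p : Par) (c' dl : ℝ) : Prop :=
  ∀ (W : Flag E) (μ : Multiset E) (i : ℕ), 1 ≤ i →
    ThinAt p W μ i c' dl ∨ ∃ W' : Flag E, J p W μ + p.kap / 2 * p.lam i ≤ J p W' μ

/-- target of (DOT) -/
def Target_DOT : Prop := ∀ kap : ℝ, 0 < kap → kap ≤ 1 → ∃ c' dl rho0 : ℝ, 0 < c' ∧ c' < 1 ∧ 0 < dl ∧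
  ∀ (d : ℕ) (p : Par), p.Ok → p.kap = kap → rho0 ≤ p.rho → P_DOT (EuclideanSpace ℝ (Fin d)) p c' dl

/-- one-level comparison above `I`, gain only if `V^s` is thin at level `i` -/
def P_LEVB (E : Type*) [NormedAddCommGroup E] [InnerProductSpace ℝ E] [FiniteDimensional ℝ E]
    [MeasurableSpace E] [BorelSpace E] (p : Par) (s c' dl c9 e9 C9 : ℝ) : Prop :=
  ∀ (V : Flag E) (μ : Multiset E) (v : E) (I i : ℕ), ‖v‖ = 1 → S μ v ≤ p.lam I → I < i →
    i < V.n →
    (D p V i μ - p.lam i * (e9 * V.b v i + C9 * BB V v i) - C9 * p.lam I * (1 / 2) ^ (i - I)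
      ≤ D p (V.rot v s) i μ) ∧
    (ThinAt p (V.rot v s) μ i c' dl →
      D p V i μ + p.lam i * (c9 * V.b v i - C9 * BB V v i) - C9 * p.lam I * (1 / 2) ^ (i - I)
        ≤ D p (V.rot v s) i μ)

/-- the tilt: `sb = 2 s0 - s0^2 = 1/2` -/
noncomputable def s0 : ℝ := 1 - √(1 / 2)

lemma s0_lt_one : s0 < 1 := by
  unfold s0
  have : 0 < √(1 / 2 : ℝ) := by positivity
  linarith

lemma s0_pos : 0 < s0 := by
  unfold s0
  have : √(1 / 2 : ℝ) < 1 := by
    rw [Real.sqrt_lt' one_pos]
    norm_num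
  linarith

lemma two_s0_sub : 2 * s0 - s0 ^ 2 = 1 / 2 := by
  unfold s0
  have : √(1 / 2 : ℝ) ^ 2 = 1 / 2 := Real.sq_sqrt (by norm_num)
  linear_combination -this

/-- target of (LEVB) (174's literal) -/
def Target_LEVB : Prop := ∀ c' dl : ℝ, 0 < c' → c' < 1 → 0 < dl →
  ∃ c9 : ℝ, 0 < c9 ∧ ∀ nu : ℝ, 0 < nu → ∃ C9 rho0 : ℝ, 0 < C9 ∧
    ∀ (d : ℕ) (p : Par), p.Ok → rho0 ≤ p.rho →
      ∀ (V : Flag (EuclideanSpace ℝ (Fin d))) (μ : Multiset (EuclideanSpace ℝ (Fin d)))
        (v : EuclideanSpace ℝ (Fin d)) (I i : ℕ), ‖v‖ = 1 → S μ v ≤ p.lam I → i < V.n →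
        (I < i → ThinAt p (V.rot v s0) μ i c' dl →
          D p V i μ + p.lam i * (c9 * V.b v i - C9 * BB V v i) - C9 * p.lam I * (1 / 2) ^ (i - I)
            ≤ D p (V.rot v s0) i μ) ∧
        (I < i →
          D p V i μ - p.lam i * (nu * V.b v i + C9 * BB V v i) - C9 * p.lam I * (1 / 2) ^ (i - I)
            ≤ D p (V.rot v s0) i μ) ∧
        (i ≤ I →
          D p V i μ - p.lam i * C9 * BB V v i - C9 * p.lam I * (1 / 2) ^ (I - i)
            ≤ D p (V.rot v s0) i μ)

/-! ### numbers -/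

lemma lam_pos {p : Par} (hp : p.Ok) (i : ℕ) : 0 < p.lam i := by
  have h1 := hp.tau_pos
  have h2 := hp.A_ge
  unfold Par.lam
  positivity

lemma lam_succ (p : Par) (i : ℕ) : p.lam (i + 1) = p.A * p.lam i := by
  unfold Par.lam
  rw [pow_succ]
  ring

lemma lam_mono {p : Par} (hp : p.Ok) : Monotone p.lam := by
  refine monotone_nat_of_le_succ fun i => ?_
  rw [lam_succ]
  have h1 := lam_pos hp i
  have h2 := hp.A_ge
  nlinarith

lemma sum_lam {p : Par} (hp : p.Ok) (m : ℕ) : ∑ i ∈ Finset.range (m + 1), p.lam i ≤ 2 * p.lam m := by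
  induction m with
  | zero =>
    have := lam_pos hp 0
    simp
    linarith
  | succ m ih =>
    rw [Finset.sum_range_succ]
    have h1 := lam_pos hp m
    have h2 := hp.A_ge
    rw [lam_succ]
    nlinarith

lemma b_nonneg (V : Flag E) (v : E) (i : ℕ) : 0 ≤ V.b v i := sq_nonneg _

lemma b_le_one (V : Flag E) {v : E} (hv : ‖v‖ = 1) (i : ℕ) : V.b v i ≤ 1 := by
  have h : ‖V.P i v‖ ≤ ‖v‖ := Submodule.norm_starProjection_apply_le (V.M i) v
  rw [hv] at h
  unfold Flag.b
  nlinarith [norm_nonneg (V.P i v)]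

lemma tail_sum {p : Par} (hp : p.Ok) (j : ℕ) :
    ∑ i ∈ Finset.range j, p.lam i * (25 / 8 : ℝ) ^ (j - i) ≤ 4 / p.A * p.lam j := by
  have hA := hp.A_ge
  induction j with
  | zero =>
    have := lam_pos hp 0
    simp
    positivity
  | succ j ih =>
    rw [Finset.sum_range_succ]
    have h1 : ∑ i ∈ Finset.range j, p.lam i * (25 / 8 : ℝ) ^ (j + 1 - i)
        = 25 / 8 * ∑ i ∈ Finset.range j, p.lam i * (25 / 8 : ℝ) ^ (j - i) := by
      rw [Finset.mul_sum]
      refine Finset.sum_congr rfl fun i hi => ?_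
      have : j + 1 - i = (j - i) + 1 := by
        have := Finset.mem_range.1 hi
        omega
      rw [this, pow_succ]
      ring
    have h2 : j + 1 - j = 1 := by omega
    rw [h1, h2, pow_one, lam_succ]
    have h3 := lam_pos hp j
    have h4 : 4 / p.A * (p.A * p.lam j) = 4 * p.lam j := by
      field_simp
    have h5 : 4 / p.A * p.lam j ≤ 1 / 4 * p.lam j := by
      apply mul_le_mul_of_nonneg_right _ h3.le
      rw [div_le_div_iff₀ (by linarith) (by norm_num)]
      linarith
    rw [h4]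
    nlinarith

lemma sum_BB {p : Par} (hp : p.Ok) (V : Flag E) (v : E) :
    ∑ i ∈ Finset.range V.n, p.lam i * BB V v i
      ≤ 4 / p.A * ∑ j ∈ Finset.range V.n, p.lam j * V.b v j := by
  have h1 : ∑ i ∈ Finset.range V.n, p.lam i * BB V v i
      = ∑ j ∈ Finset.range V.n, ∑ i ∈ Finset.range j, p.lam i * ((25 / 8 : ℝ) ^ (j - i) * V.b v j) := by
    simp only [BB, Finset.mul_sum]
    refine Finset.sum_comm' ?_
    intro i j
    simp only [Finset.mem_range, Finset.mem_Ico]
    omega
  rw [h1, Finset.mul_sum]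
  refine Finset.sum_le_sum fun j _ => ?_
  have h2 := tail_sum hp j
  have h3 := b_nonneg V v j
  calc ∑ i ∈ Finset.range j, p.lam i * ((25 / 8 : ℝ) ^ (j - i) * V.b v j)
      = (∑ i ∈ Finset.range j, p.lam i * (25 / 8 : ℝ) ^ (j - i)) * V.b v j := by
        rw [Finset.sum_mul]
        refine Finset.sum_congr rfl fun i _ => by ring
    _ ≤ (4 / p.A * p.lam j) * V.b v j := by gcongr
    _ = _ := by ring

lemma half_sum_hi (I n : ℕ) : ∑ i ∈ Finset.Ico (I + 1) n, (1 / 2 : ℝ) ^ (i - I) ≤ 1 := by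
  induction n with
  | zero => simp
  | succ n ih =>
    have key : ∀ m : ℕ, ∑ i ∈ Finset.Ico (I + 1) (I + 1 + m), (1 / 2 : ℝ) ^ (i - I)
        = 1 - (1 / 2) ^ m := by
      intro m
      induction m with
      | zero => simp
      | succ m ihm =>
        rw [← Nat.add_assoc, Finset.sum_Ico_succ_top (by omega), ihm]
        have : I + 1 + m - I = m + 1 := by omega
        rw [this, pow_succ]
        ring
    by_cases h : I + 1 ≤ n + 1
    · obtain ⟨m, hm⟩ := Nat.exists_eq_add_of_le h
      rw [hm, key]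
      have : (0 : ℝ) ≤ (1 / 2) ^ m := by positivity
      linarith
    · rw [Finset.Ico_eq_empty (by omega)]
      simp

lemma half_sum_lo (I : ℕ) : ∑ i ∈ Finset.range (I + 1), (1 / 2 : ℝ) ^ (I - i) ≤ 2 := by
  induction I with
  | zero => simp
  | succ I ih =>
    rw [Finset.sum_range_succ]
    have h1 : ∑ i ∈ Finset.range (I + 1), (1 / 2 : ℝ) ^ (I + 1 - i)
        = 1 / 2 * ∑ i ∈ Finset.range (I + 1), (1 / 2 : ℝ) ^ (I - i) := by
      rw [Finset.mul_sum]
      refine Finset.sum_congr rfl fun i hi => ?_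
      have : I + 1 - i = (I - i) + 1 := by
        have := Finset.mem_range.1 hi
        omega
      rw [this, pow_succ]
      ring
    rw [h1, Nat.sub_self, pow_zero]
    linarith

/-! ### dimensions do not change under `T_s` -/

lemma Ts_injective {v : E} (hv : ‖v‖ = 1) {s : ℝ} (hs1 : s < 1) :
    Function.Injective (Ts v s) := by
  intro x y hxy
  have h0 : Ts v s (x - y) = 0 := by rw [map_sub, hxy, sub_self]
  rw [Ts_apply] at h0
  have h1 : ⟪v, (x - y) - (s * ⟪v, x - y⟫) • v⟫ = 0 := by rw [h0, inner_zero_right]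
  rw [inner_sub_right, inner_smul_right, real_inner_self_eq_norm_sq, hv] at h1
  have h2 : (1 - s) * ⟪v, x - y⟫ = 0 := by linarith
  have h3 : ⟪v, x - y⟫ = 0 := by
    rcases mul_eq_zero.1 h2 with h | h
    · linarith
    · exact h
  rw [h3, mul_zero, zero_smul, sub_zero] at h0
  exact sub_eq_zero.1 h0

lemma rot_k (V : Flag E) {v : E} (hv : ‖v‖ = 1) {s : ℝ} (hs1 : s < 1) (i : ℕ) :
    (V.rot v s).k i = V.k i := by
  have h : ∀ j, Module.finrank ℝ ((V.rot v s).M j) = Module.finrank ℝ (V.M j) :=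
    fun j => (Submodule.equivMapOfInjective _ (Ts_injective hv hs1) (V.M j)).finrank_eq.symm
  unfold Flag.k
  rw [h, h]

lemma J_rot (p : Par) (V : Flag E) (μ : Multiset E) {v : E} (hv : ‖v‖ = 1) {s : ℝ} (hs1 : s < 1) :
    J p V μ - J p (V.rot v s) μ
      = ∑ i ∈ Finset.range V.n, (D p V i μ - D p (V.rot v s) i μ) := by
  have hn : (V.rot v s).n = V.n := rfl
  unfold J
  rw [hn, ← Finset.sum_sub_distrib]
  refine Finset.sum_congr rfl fun i _ => ?_
  rw [rot_k V hv hs1]
  ring

/-! ### the sum -/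

theorem t1b_num {E : Type*} [NormedAddCommGroup E] [InnerProductSpace ℝ E] [FiniteDimensional ℝ E]
    [MeasurableSpace E] [BorelSpace E] {p : Par} (hp : p.Ok) {s c' dl c9 e9 C9 : ℝ}
    (hs1 : s < 1) (hc9 : 0 < c9) (hC9 : 0 < C9)
    (he9k : e9 ≤ p.kap / 8) (hA : 16 * (2 / c9 + 8 / p.kap) * C9 ≤ p.A)
    (hdot : P_DOT E p c' dl) (hlev : P_LEVB E p s c' dl c9 e9 C9) (hlo : P_LEVlo E p s C9)
    (V : Flag E) (μ : Multiset E) (I : ℕ) (v : E) (hv : ‖v‖ = 1) (hS : S μ v ≤ p.lam I)
    (hmax : NearMax p V μ p.tau) :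
    (∑ i ∈ Finset.Ico (I + 1) V.n, p.lam i * V.b v i)
      ≤ (2 * (2 / c9 + 8 / p.kap) * (1 + 5 * C9)) * p.lam I := by
  classical
  set n := V.n with hn
  set W := V.rot v s with hW
  set Z := 2 / c9 + 8 / p.kap with hZ
  have hkap := hp.kap_pos
  have hZ0 : 0 < Z := by positivity
  have hA16 := hp.A_ge
  have hlI := lam_pos hp I
  -- the loss
  set Y := J p V μ - J p W μ with hY
  have hYe : -p.tau ≤ Y := by
    have := hmax W
    linarith
  have htau : p.tau ≤ p.lam I := by
    have h := lam_mono hp (Nat.zero_le I)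
    have h0 : p.lam 0 = p.tau := by simp [Par.lam]
    rw [h0] at h
    exact h
  -- splitting of the levels
  set Hi := Finset.Ico (I + 1) n with hHi
  set G := ∑ i ∈ Hi.filter (fun i => ThinAt p W μ i c' dl), p.lam i * V.b v i with hG
  set N := ∑ i ∈ Hi.filter (fun i => ¬ ThinAt p W μ i c' dl), p.lam i * V.b v i with hN
  set X := ∑ i ∈ Hi, p.lam i * V.b v i with hX
  have hXGN : X = G + N := (Finset.sum_filter_add_sum_filter_not Hi _ _).symm
  have hterm : ∀ i, 0 ≤ p.lam i * V.b v i := fun i =>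
    mul_nonneg (lam_pos hp i).le (b_nonneg V v i)
  have hG0 : 0 ≤ G := Finset.sum_nonneg fun i _ => hterm i
  have hN0 : 0 ≤ N := Finset.sum_nonneg fun i _ => hterm i
  set SB := ∑ i ∈ Finset.range n, p.lam i * BB V v i with hSB
  have hBB0 : ∀ i, 0 ≤ BB V v i := fun i =>
    Finset.sum_nonneg fun j _ => mul_nonneg (by positivity) (b_nonneg V v j)
  -- bound of SB
  have hSBle : SB ≤ 4 / p.A * (X + 2 * p.lam I) := by
    refine (sum_BB hp V v).trans ?_
    have h4A : 0 ≤ 4 / p.A := by positivity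
    apply mul_le_mul_of_nonneg_left _ h4A
    have h1 : ∑ j ∈ Finset.range V.n, p.lam j * V.b v j
        ≤ ∑ j ∈ Finset.range (I + 1), p.lam j * V.b v j + X := by
      rw [hX, hHi]
      have hsub : Finset.range V.n ⊆ Finset.range (I + 1) ∪ Finset.Ico (I + 1) n := by
        intro j hj
        simp only [Finset.mem_union, Finset.mem_range, Finset.mem_Ico] at hj ⊢
        omega
      refine (Finset.sum_le_sum_of_subset_of_nonneg hsub fun j _ _ => hterm j).trans ?_
      rw [Finset.sum_union]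
      rw [Finset.disjoint_left]
      intro j hj hj'
      simp only [Finset.mem_range, Finset.mem_Ico] at hj hj'
      omega
    have h2 : ∑ j ∈ Finset.range (I + 1), p.lam j * V.b v j ≤ 2 * p.lam I := by
      refine le_trans (Finset.sum_le_sum fun j _ => ?_) (sum_lam hp I)
      have := b_le_one V hv j
      have := lam_pos hp j
      nlinarith
    linarith
  -- bound of Y
  have hYle : Y ≤ C9 * SB + 3 * C9 * p.lam I - c9 * G + e9 * N := by
    have h1 : Y = ∑ i ∈ Finset.range n, (D p V i μ - D p W i μ) := J_rot p V μ hv hs1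
    have h2 : Finset.range n = (Finset.range n).filter (fun i => i ≤ I) ∪ Hi := by
      ext j
      simp only [Finset.mem_union, Finset.mem_range, Finset.mem_filter, hHi, Finset.mem_Ico]
      omega
    have hdis : Disjoint ((Finset.range n).filter (fun i => i ≤ I)) Hi := by
      rw [Finset.disjoint_left]
      intro j hj hj'
      simp only [hHi, Finset.mem_filter, Finset.mem_range, Finset.mem_Ico] at hj hj'
      omega
    have h3 : ∑ i ∈ (Finset.range n).filter (fun i => i ≤ I), (D p V i μ - D p W i μ)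
        ≤ ∑ i ∈ (Finset.range n).filter (fun i => i ≤ I),
          (C9 * (p.lam i * BB V v i) + C9 * p.lam I * (1 / 2) ^ (I - i)) := by
      refine Finset.sum_le_sum fun i hi => ?_
      simp only [Finset.mem_filter, Finset.mem_range] at hi
      have := hlo V μ v I i hv hS hi.2 hi.1
      linarith
    have h4 : ∑ i ∈ Hi, (D p V i μ - D p W i μ)
        ≤ ∑ i ∈ Hi, (C9 * (p.lam i * BB V v i) + C9 * p.lam I * (1 / 2) ^ (i - I)
          + (if ThinAt p W μ i c' dl then -c9 * (p.lam i * V.b v i) else e9 * (p.lam i * V.b v i))) := by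
      refine Finset.sum_le_sum fun i hi => ?_
      simp only [hHi, Finset.mem_Ico] at hi
      obtain ⟨h5, h6⟩ := hlev V μ v I i hv hS (by omega) hi.2
      split_ifs with ht
      · have := h6 ht
        linarith
      · linarith
    have h7 : ∑ i ∈ Hi, (if ThinAt p W μ i c' dl then -c9 * (p.lam i * V.b v i)
        else e9 * (p.lam i * V.b v i)) = -c9 * G + e9 * N := by
      rw [Finset.sum_ite, hG, hN, Finset.mul_sum, Finset.mul_sum]
    have h8 : ∑ i ∈ (Finset.range n).filter (fun i => i ≤ I), C9 * p.lam I * (1 / 2 : ℝ) ^ (I - i)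
        ≤ C9 * p.lam I * 2 := by
      rw [← Finset.mul_sum]
      apply mul_le_mul_of_nonneg_left _ (by positivity)
      refine le_trans ?_ (half_sum_lo I)
      refine Finset.sum_le_sum_of_subset_of_nonneg ?_ fun j _ _ => by positivity
      intro j hj
      simp only [Finset.mem_filter, Finset.mem_range] at hj ⊢
      omega
    have h9 : ∑ i ∈ Hi, C9 * p.lam I * (1 / 2 : ℝ) ^ (i - I) ≤ C9 * p.lam I * 1 := by
      rw [← Finset.mul_sum]
      exact mul_le_mul_of_nonneg_left (half_sum_hi I n) (by positivity)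
    have h10 : ∑ i ∈ (Finset.range n).filter (fun i => i ≤ I), C9 * (p.lam i * BB V v i)
        + ∑ i ∈ Hi, C9 * (p.lam i * BB V v i) = C9 * SB := by
      rw [← Finset.sum_union hdis, ← h2, ← Finset.mul_sum]
    rw [h1, h2, Finset.sum_union hdis]
    rw [Finset.sum_add_distrib] at h3
    rw [Finset.sum_add_distrib, Finset.sum_add_distrib, h7] at h4
    linarith
  -- non-thin levels
  have hNle : N ≤ 4 / p.kap * (p.tau + Y) := by
    by_cases hemp : (Hi.filter (fun i => ¬ ThinAt p W μ i c' dl)).Nonempty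
    · set m := (Hi.filter (fun i => ¬ ThinAt p W μ i c' dl)).max' hemp with hm
      have hmm : m ∈ Hi.filter (fun i => ¬ ThinAt p W μ i c' dl) := Finset.max'_mem _ _
      have hmm' := hmm
      simp only [Finset.mem_filter, hHi, Finset.mem_Ico] at hmm'
      have h1 : p.kap / 2 * p.lam m ≤ p.tau + Y := by
        rcases hdot W μ m (by omega) with h | ⟨W', h⟩
        · exact absurd h hmm'.2
        · have := hmax W'
          linarith
      have h2 : N ≤ 2 * p.lam m := by
        refine le_trans ?_ (sum_lam hp m)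
        calc N ≤ ∑ i ∈ Hi.filter (fun i => ¬ ThinAt p W μ i c' dl), p.lam i := by
              refine Finset.sum_le_sum fun j _ => ?_
              have := b_le_one V hv j
              have := lam_pos hp j
              nlinarith
          _ ≤ _ := by
              refine Finset.sum_le_sum_of_subset_of_nonneg ?_ fun j _ _ => (lam_pos hp j).le
              intro j hj
              have := Finset.le_max' _ j hj
              rw [← hm] at this
              exact Finset.mem_range.2 (by omega)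
      have h3 : 4 / p.kap * (p.tau + Y) ≥ 4 / p.kap * (p.kap / 2 * p.lam m) := by
        apply mul_le_mul_of_nonneg_left h1 (by positivity)
      have h4 : 4 / p.kap * (p.kap / 2 * p.lam m) = 2 * p.lam m := by
        field_simp
        ring
      linarith
    · have h0 : N = 0 := by
        rw [hN, Finset.not_nonempty_iff_eq_empty.1 hemp, Finset.sum_empty]
      rw [h0]
      have : 0 ≤ p.tau + Y := by linarith
      positivity
  -- end
  set Er := p.tau + C9 * SB + 3 * C9 * p.lam I with hEr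
  have hSB0 : 0 ≤ SB := Finset.sum_nonneg fun i _ => mul_nonneg (lam_pos hp i).le (hBB0 i)
  have hEr0 : 0 ≤ Er := by
    have := hp.tau_pos
    positivity
  have hN1 : N ≤ 8 / p.kap * Er := by
    have h1 : 4 / p.kap * (p.tau + Y) ≤ 4 / p.kap * (Er + e9 * N) := by
      apply mul_le_mul_of_nonneg_left _ (by positivity)
      have : 0 ≤ c9 * G := by positivity
      linarith
    have h2 : 4 / p.kap * (e9 * N) ≤ N / 2 := by
      have h3 : 4 / p.kap * e9 ≤ 1 / 2 := by
        rw [div_mul_eq_mul_div, div_le_iff₀ hkap]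
        linarith
      calc 4 / p.kap * (e9 * N) = (4 / p.kap * e9) * N := by ring
        _ ≤ 1 / 2 * N := by gcongr
        _ = N / 2 := by ring
    have h4 : N ≤ 4 / p.kap * Er + N / 2 := by
      calc N ≤ 4 / p.kap * (Er + e9 * N) := hNle.trans h1
        _ = 4 / p.kap * Er + 4 / p.kap * (e9 * N) := by ring
        _ ≤ _ := by linarith
    have h5 : 8 / p.kap * Er = 2 * (4 / p.kap * Er) := by ring
    linarith
  have hG1 : c9 * G ≤ Er + e9 * N := by linarith
  have hG2 : c9 * G ≤ 2 * Er := by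
    have h1 : e9 * N ≤ Er := by
      calc e9 * N ≤ p.kap / 8 * (8 / p.kap * Er) := by gcongr
        _ = Er := by field_simp
    linarith
  have hG3 : G ≤ 2 / c9 * Er := by
    rw [div_mul_eq_mul_div, le_div_iff₀ hc9]
    linarith
  have hX1 : X ≤ Z * Er := by
    rw [hXGN, hZ, add_mul]
    linarith
  have hEr1 : Er ≤ p.lam I + C9 * (4 / p.A * (X + 2 * p.lam I)) + 3 * C9 * p.lam I := by
    rw [hEr]
    have : C9 * SB ≤ C9 * (4 / p.A * (X + 2 * p.lam I)) := by gcongr
    linarith
  have hAp : 0 < p.A := by linarith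
  have hX0 : 0 ≤ X := by rw [hXGN]; positivity
  have h16 : Z * (C9 * (4 / p.A * X)) ≤ X / 4 := by
    have h1 : Z * C9 * (4 / p.A) ≤ 1 / 4 := by
      rw [mul_div_assoc', div_le_div_iff₀ hAp (by norm_num)]
      linarith
    calc Z * (C9 * (4 / p.A * X)) = (Z * C9 * (4 / p.A)) * X := by ring
      _ ≤ 1 / 4 * X := by gcongr
      _ = X / 4 := by ring
  have h17 : 4 / p.A ≤ 1 / 4 := by
    rw [div_le_div_iff₀ hAp (by norm_num)]
    linarith
  have h18 : Z * (C9 * (4 / p.A * (2 * p.lam I))) ≤ Z * (C9 * (1 / 4 * (2 * p.lam I))) := by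
    gcongr
  have h19 : X ≤ X / 4 + Z * (p.lam I + C9 * (1 / 4 * (2 * p.lam I)) + 3 * C9 * p.lam I) := by
    calc X ≤ Z * Er := hX1
      _ ≤ Z * (p.lam I + C9 * (4 / p.A * (X + 2 * p.lam I)) + 3 * C9 * p.lam I) := by gcongr
      _ = Z * (C9 * (4 / p.A * X)) + Z * (C9 * (4 / p.A * (2 * p.lam I)))
          + Z * (p.lam I + 3 * C9 * p.lam I) := by ring
      _ ≤ X / 4 + Z * (C9 * (1 / 4 * (2 * p.lam I))) + Z * (p.lam I + 3 * C9 * p.lam I) := by
          linarith
      _ = _ := by ring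
  have h20 : 0 ≤ Z * C9 * p.lam I := by positivity
  have h21 : 0 ≤ Z * p.lam I := by positivity
  nlinarith

/-- **T1 from demotion-or-thin and the one-level comparison at `V^s`** -/
theorem target_T1B (h1 : Target_DOT) (h2 : Target_LEVB) : Target_T1 := by
  intro kap hk0 hk1
  obtain ⟨c', dl, rho1, hc'0, hc'1, hdl, hdot⟩ := h1 kap hk0 hk1
  obtain ⟨c9, hc9, hlev'⟩ := h2 c' dl hc'0 hc'1 hdl
  obtain ⟨C9, rho2, hC9, hlev⟩ := hlev' (kap / 8) (by positivity)
  refine ⟨2 * (2 / c9 + 8 / kap) * (1 + 5 * C9), 1, max rho1 rho2,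
    16 * (2 / c9 + 8 / kap) * C9, by positivity, one_pos, ?_⟩
  intro d p hp hpk hrho hA V μ I v hv hS hmax
  rw [one_mul] at hmax
  have hl := hlev d p hp ((le_max_right _ _).trans hrho)
  have hl1 : P_LEVB (EuclideanSpace ℝ (Fin d)) p s0 c' dl c9 (kap / 8) C9 := by
    intro V μ v I i hv hS hI hi
    obtain ⟨ha, hb, _⟩ := hl V μ v I i hv hS hi
    exact ⟨hb hI, ha hI⟩
  have hl2 : P_LEVlo (EuclideanSpace ℝ (Fin d)) p s0 C9 := by
    intro V μ v I i hv hS hI hi
    exact (hl V μ v I i hv hS hi).2.2 hI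
  have := t1b_num hp s0_lt_one hc9 hC9 (by rw [hpk]) (by rw [hpk]; exact hA)
    (hdot d p hp hpk ((le_max_left _ _).trans hrho)) hl1 hl2 V μ I v hv hS hmax
  rw [hpk] at this
  exact this

end Crest.Agent.R239.T1B350
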