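import Crest.Agent.R239.FlagAlg_557
import Crest.Agent.R239.F5_411
import Crest.Agent.R239.F6b_696
import Crest.Agent.R239.T1B_350

/-!
# R239 / T1-B: the algebra input `AlgB` of `LevB` (helper287)

Own-block unit vector `w` of the tilted flag, `al^2 ⟪w, T x⟫^2 ≤ ⟪Q_i v, x⟫^2`, and
`|R g|^2 + (1/4) |Q_i v|^2 ⟪w, R g⟫^2 ≤ |g|^2 + Σ ⟪u k, g⟫^2`, `Σ |u k|^2 ≤ BB` at `s = s0`.
-/

set_option autoImplicit false
set_option linter.unusedSectionVars false
set_option linter.unusedVariables false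

open scoped RealInnerProductSpace
open Submodule Finset MeasureTheory ProbabilityTheory

namespace Crest.Agent.R239.AlgB287

open Crest.Agent.R239.ProjRot557 Crest.Agent.R239.FlagAlg557

section pre

variable {E : Type*} [NormedAddCommGroup E] [InnerProductSpace ℝ E] [FiniteDimensional ℝ E]

/-! ### the own-block direction -/

section block

/-- unnormalised own-block direction of the tilted flag (before `T`) -/
noncomputable def yh (s : ℝ) (v : E) (M N : Submodule ℝ E) : E :=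
  (M.starProjection v - N.starProjection v) +
    (sbar s * (‖M.starProjection v‖ ^ 2 - ‖N.starProjection v‖ ^ 2) /
      (1 - sbar s * ‖N.starProjection v‖ ^ 2)) • N.starProjection v

variable {v : E} (hv : ‖v‖ = 1) {s : ℝ} {M N : Submodule ℝ E} (hNM : N ≤ M)

include hNM in
lemma norm_sub_proj_sq : ‖M.starProjection v - N.starProjection v‖ ^ 2
    = ‖M.starProjection v‖ ^ 2 - ‖N.starProjection v‖ ^ 2 := by
  have h := norm_P_sub_sq N (M.starProjection v)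
  rw [P_P_of_le hNM] at h
  exact h

include hNM in
lemma inner_sub_proj_N (u : E) (hu : u ∈ N) : ⟪M.starProjection v - N.starProjection v, u⟫ = 0 := by
  rw [inner_sub_left, inner_P_left M v u (hNM hu), inner_P_left N v u hu, sub_self]

include hNM in
lemma yh_mem : yh s v M N ∈ M :=
  M.add_mem (M.sub_mem (M.starProjection_apply_mem v) (hNM (N.starProjection_apply_mem v)))
    (M.smul_mem _ (hNM (N.starProjection_apply_mem v)))

include hNM in
lemma inner_v_yh (hB : 1 - sbar s * ‖N.starProjection v‖ ^ 2 ≠ 0) :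
    ⟪v, yh s v M N⟫ = (‖M.starProjection v‖ ^ 2 - ‖N.starProjection v‖ ^ 2)
      / (1 - sbar s * ‖N.starProjection v‖ ^ 2) := by
  have h1 : ⟪v, M.starProjection v⟫ = ‖M.starProjection v‖ ^ 2 := by
    rw [norm_P_sq, real_inner_comm]
  have h2 : ⟪v, N.starProjection v⟫ = ‖N.starProjection v‖ ^ 2 := by
    rw [norm_P_sq, real_inner_comm]
  rw [yh, inner_add_right, inner_sub_right, inner_smul_right, h1, h2]
  generalize ‖M.starProjection v‖ ^ 2 = b1 at *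
  generalize ‖N.starProjection v‖ ^ 2 = b2 at *
  obtain ⟨B, hBd⟩ : ∃ B, B = 1 - sbar s * b2 := ⟨_, rfl⟩
  have hb : sbar s * b2 = 1 - B := by linarith
  rw [← hBd] at hB ⊢
  have h3 : sbar s * (b1 - b2) / B * b2 = (b1 - b2) * (sbar s * b2) / B := by ring
  rw [h3, hb]
  field_simp
  ring

include hv hNM in
lemma inner_Tyh (hB : 1 - sbar s * ‖N.starProjection v‖ ^ 2 ≠ 0) (x : E) (hx : x ∈ M) :
    ⟪Tr v s (yh s v M N), Tr v s x⟫
      = (1 - sbar s * ‖M.starProjection v‖ ^ 2) / (1 - sbar s * ‖N.starProjection v‖ ^ 2)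
        * ⟪M.starProjection v - N.starProjection v, x⟫ := by
  have h1 : ⟪M.starProjection v, x⟫ = ⟪v, x⟫ := inner_P_left M v x hx
  rw [inner_Tr_Tr hv, inner_v_yh hNM hB, yh, inner_add_left, inner_smul_left, inner_sub_left, h1]
  simp only [RCLike.conj_to_real]
  generalize ‖M.starProjection v‖ ^ 2 = b1 at *
  generalize ‖N.starProjection v‖ ^ 2 = b2 at *
  generalize ⟪N.starProjection v, x⟫ = z at *
  generalize ⟪v, x⟫ = w at *
  obtain ⟨B, hBd⟩ : ∃ B, B = 1 - sbar s * b2 := ⟨_, rfl⟩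
  have hb1 : 1 - sbar s * b1 = B - sbar s * (b1 - b2) := by rw [hBd]; ring
  rw [hb1]
  rw [← hBd] at hB ⊢
  field_simp
  ring

include hv hNM in
lemma norm_Tyh_sq (hB : 1 - sbar s * ‖N.starProjection v‖ ^ 2 ≠ 0) :
    ‖Tr v s (yh s v M N)‖ ^ 2
      = (‖M.starProjection v‖ ^ 2 - ‖N.starProjection v‖ ^ 2) *
        ((1 - sbar s * ‖M.starProjection v‖ ^ 2) / (1 - sbar s * ‖N.starProjection v‖ ^ 2)) := by
  rw [← real_inner_self_eq_norm_sq, inner_Tyh hv hNM hB _ (yh_mem hNM)]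
  have h1 : ⟪M.starProjection v - N.starProjection v, yh s v M N⟫
      = ‖M.starProjection v‖ ^ 2 - ‖N.starProjection v‖ ^ 2 := by
    rw [yh, inner_add_right, inner_smul_right,
      inner_sub_proj_N hNM _ (N.starProjection_apply_mem v), real_inner_self_eq_norm_sq,
      norm_sub_proj_sq hNM]
    ring
  rw [h1]
  ring

/-- the own-block unit vector of the tilted flag -/
noncomputable def mdir (s : ℝ) (v : E) (M N : Submodule ℝ E) : E :=
  ‖Tr v s (yh s v M N)‖⁻¹ • Tr v s (yh s v M N)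

/-- hypotheses: `0 ≤ sb < 1`, nonzero block component -/
structure BlockOk (s : ℝ) (v : E) (M N : Submodule ℝ E) : Prop where
  sb0 : 0 ≤ sbar s
  sb1 : sbar s ≤ 1 / 2
  al : ‖N.starProjection v‖ ^ 2 < ‖M.starProjection v‖ ^ 2

lemma norm_proj_sq_le (hv : ‖v‖ = 1) (M : Submodule ℝ E) : ‖M.starProjection v‖ ^ 2 ≤ 1 := by
  have := M.norm_starProjection_apply_le v
  rw [hv] at this
  have h0 := norm_nonneg (M.starProjection v)
  nlinarith

lemma B_ge (hv : ‖v‖ = 1) (M : Submodule ℝ E) (h0 : 0 ≤ sbar s) (h1 : sbar s ≤ 1 / 2) :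
    1 / 2 ≤ 1 - sbar s * ‖M.starProjection v‖ ^ 2 := by
  have h2 := norm_proj_sq_le hv M
  have h3 := sq_nonneg ‖M.starProjection v‖
  nlinarith

include hv hNM in
lemma norm_Tyh_pos (h : BlockOk s v M N) : 0 < ‖Tr v s (yh s v M N)‖ := by
  have hB1 := B_ge hv M h.sb0 h.sb1
  have hB2 := B_ge hv N h.sb0 h.sb1
  have h1 := norm_Tyh_sq hv hNM (s := s) (by linarith)
  have h2 : 0 < ‖Tr v s (yh s v M N)‖ ^ 2 := by
    rw [h1]
    have := h.al
    apply mul_pos (by linarith)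
    apply div_pos <;> linarith
  rcases (norm_nonneg (Tr v s (yh s v M N))).lt_or_eq with h' | h'
  · exact h'
  · rw [← h'] at h2; norm_num at h2

include hv hNM in
lemma norm_mdir (h : BlockOk s v M N) : ‖mdir s v M N‖ = 1 := by
  rw [mdir, norm_smul, norm_inv, norm_norm, inv_mul_cancel₀ (norm_Tyh_pos hv hNM h).ne']

include hNM in
lemma mdir_mem : mdir s v M N ∈ M.map (Tr v s : E →ₗ[ℝ] E) :=
  Submodule.smul_mem _ _ (Submodule.mem_map_of_mem (yh_mem hNM))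

include hv hNM in
lemma mdir_orth (h : BlockOk s v M N) (y : E) (hy : y ∈ N.map (Tr v s : E →ₗ[ℝ] E)) :
    ⟪mdir s v M N, y⟫ = 0 := by
  obtain ⟨u, hu, rfl⟩ := hy
  have hB2 := B_ge hv N h.sb0 h.sb1
  change ⟪mdir s v M N, Tr v s u⟫ = 0
  rw [mdir, inner_smul_left, inner_Tyh hv hNM (by linarith) u (hNM hu),
    inner_sub_proj_N hNM u hu]
  simp

include hv hNM in
/-- `al² ⟪m, T x⟫² ≤ ⟪Q v, x⟫²` for `x ∈ M`. -/
lemma mdir_inner_le (h : BlockOk s v M N) (x : E) (hx : x ∈ M) :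
    (‖M.starProjection v‖ ^ 2 - ‖N.starProjection v‖ ^ 2) * ⟪mdir s v M N, Tr v s x⟫ ^ 2
      ≤ ⟪M.starProjection v - N.starProjection v, x⟫ ^ 2 := by
  have hB1 := B_ge hv M h.sb0 h.sb1
  have hB2 := B_ge hv N h.sb0 h.sb1
  have hp := norm_Tyh_pos hv hNM h
  have h1 := norm_Tyh_sq hv hNM (s := s) (by linarith)
  rw [mdir, inner_smul_left, inner_Tyh hv hNM (by linarith) x hx]
  simp only [RCLike.conj_to_real]
  set q := ⟪M.starProjection v - N.starProjection v, x⟫ with hq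
  set B1 := 1 - sbar s * ‖M.starProjection v‖ ^ 2 with hB1d
  set B2 := 1 - sbar s * ‖N.starProjection v‖ ^ 2 with hB2d
  set al := ‖M.starProjection v‖ ^ 2 - ‖N.starProjection v‖ ^ 2 with hal
  have hal0 : 0 < al := by have := h.al; linarith
  have hB12 : B1 ≤ B2 := by
    rw [hB1d, hB2d]
    have := h.al
    have := mul_nonneg h.sb0 hal0.le
    rw [hal] at this
    nlinarith
  have hB1p : 0 < B1 := by linarith
  have hB2p : 0 < B2 := by linarith
  have h2 : al * (‖Tr v s (yh s v M N)‖⁻¹ * (B1 / B2 * q)) ^ 2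
      = al * (B1 / B2 * q) ^ 2 / ‖Tr v s (yh s v M N)‖ ^ 2 := by
    field_simp
  rw [h2, h1]
  have h3 : al * (B1 / B2 * q) ^ 2 / (al * (B1 / B2)) = B1 / B2 * q ^ 2 := by
    field_simp
  rw [h3]
  have h4 : B1 / B2 ≤ 1 := (div_le_one hB2p).2 hB12
  nlinarith [sq_nonneg q]

end block

end pre

open Crest.Agent.R239.FD Crest.Agent.R239.F6b696
open Crest.Agent.R239.T1B350 (s0 s0_pos s0_lt_one two_s0_sub)

variable {E : Type*} [NormedAddCommGroup E] [InnerProductSpace ℝ E] [FiniteDimensional ℝ E]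
  [MeasurableSpace E] [BorelSpace E]

lemma Ts_eq (v : E) (s : ℝ) : Ts v s = Tr v s := by
  ext x
  rw [Ts_apply, Tr_apply]

lemma rot_M (V : Flag E) (v : E) (s : ℝ) (j : ℕ) :
    (V.rot v s).M j = (V.M j).map (Tr v s : E →ₗ[ℝ] E) := by
  show (V.M j).map (Ts v s).toLinearMap = (V.M j).map (Tr v s : E →ₗ[ℝ] E)
  rw [Ts_eq]

/-- `⟪w, Q_i y⟫ = ⟪w, y⟫` for `w` in the block `i` -/
lemma inner_Q_of_mem (V : Flag E) {i : ℕ} {w : E} (hw : V.Q i w = w) (y : E) :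
    ⟪w, V.Q i y⟫ = ⟪w, y⟫ := by
  have hs : ∀ j, ∀ a b : E, ⟪V.P j a, b⟫ = ⟪a, V.P j b⟫ := fun j a b =>
    Submodule.inner_starProjection_left_eq_right (V.M j) a b
  have h1 : ⟪V.Q i w, y⟫ = ⟪w, V.Q i y⟫ := by
    rw [F6b696.Q_apply, F6b696.Q_apply, inner_sub_left, inner_sub_right, hs, hs]
  rw [← h1, hw]

lemma Q_Hi (V : Flag E) {i : ℕ} (hi : i < V.n) (y : E) : V.Q i (V.Hi i y) = V.Q i y := by
  rw [Hi_apply, map_sum, Finset.sum_eq_single i]
  · simp [F6b696.Q_Q_self]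
  · intro j hj hne
    rw [map_smul, Q_Q_ne V (Ne.symm hne), smul_zero]
  · intro h
    exact absurd (Finset.mem_Ico.2 ⟨le_rfl, hi⟩) h

lemma Q_H (V : Flag E) {i : ℕ} (hi : i < V.n) (y : E) : V.Q i (V.H i y) = V.Q i y := by
  rw [H_apply, map_sum, Finset.sum_eq_single i]
  · simp [F6b696.Q_Q_self]
  · intro j hj hne
    rw [map_smul, Q_Q_ne V (Ne.symm hne), smul_zero]
  · intro h
    exact absurd (Finset.mem_Ico.2 ⟨le_rfl, hi⟩) h

/-- the own-block vector of the tilted flag -/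
theorem own_vec (V : Flag E) {v : E} (hv : ‖v‖ = 1) {s : ℝ} (hs0 : 0 < s) (hs1 : s < 1)
    (hsb : 2 * s - s ^ 2 ≤ 1 / 2) {i : ℕ} (hi : i < V.n) (hQ : V.Q i v ≠ 0) :
    ∃ w : E, ‖w‖ = 1 ∧ (V.rot v s).Q i w = w ∧
      ∀ g, ‖V.Q i v‖ ^ 2 * ⟪w, Rm V v s i g⟫ ^ 2 ≤ ⟪V.Q i v, g⟫ ^ 2 := by
  have hNM : V.M (i + 1) ≤ V.M i := V.anti (Nat.le_succ i)
  have hQv : V.Q i v = (V.M i).starProjection v - (V.M (i + 1)).starProjection v := rfl
  have hal : ‖V.Q i v‖ ^ 2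
      = ‖(V.M i).starProjection v‖ ^ 2 - ‖(V.M (i + 1)).starProjection v‖ ^ 2 := by
    rw [hQv, norm_sub_proj_sq hNM]
  have hsb' : sbar s = 2 * s - s ^ 2 := rfl
  have hbk : BlockOk s v (V.M i) (V.M (i + 1)) := by
    refine ⟨?_, ?_, ?_⟩
    · rw [hsb']; nlinarith
    · rw [hsb']; exact hsb
    · have : 0 < ‖V.Q i v‖ ^ 2 := by positivity
      linarith
  set w := mdir s v (V.M i) (V.M (i + 1)) with hw
  have hw1 : ‖w‖ = 1 := norm_mdir hv hNM hbk
  have hwM : w ∈ (V.rot v s).M i := by rw [rot_M]; exact mdir_mem hNM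
  have hwN : ∀ y ∈ (V.rot v s).M (i + 1), ⟪w, y⟫ = 0 := by
    intro y hy
    rw [rot_M] at hy
    exact mdir_orth hv hNM hbk y hy
  have hwQ : (V.rot v s).Q i w = w := by
    have h1 : (V.rot v s).P i w = w := P_of_mem _ hwM
    have h2 : (V.rot v s).P (i + 1) w = 0 := by
      rw [Flag.P, Submodule.starProjection_apply_eq_zero_iff, Submodule.mem_orthogonal]
      intro y hy
      rw [real_inner_comm]
      exact hwN y hy
    rw [F6b696.Q_apply, h1, h2, sub_zero]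
  refine ⟨w, hw1, hwQ, fun g => ?_⟩
  have hi' : i < (V.rot v s).n := hi
  have e1 : ⟪w, Rm V v s i g⟫ = ⟪w, Tr v s (V.H i g)⟫ := by
    rw [← inner_Q_of_mem _ hwQ, Rm_apply, Q_Hi _ hi', inner_Q_of_mem _ hwQ, Ts_eq]
  have e2 : ⟪V.Q i v, V.H i g⟫ = ⟪V.Q i v, g⟫ := by
    have hQQ : V.Q i (V.Q i v) = V.Q i v := F6b696.Q_Q_self V i v
    rw [← inner_Q_of_mem V hQQ, Q_H V hi, inner_Q_of_mem V hQQ]
  have h3 := mdir_inner_le hv hNM hbk (V.H i g) (H_mem V i g)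
  rw [e1, hal, ← e2, hQv]
  exact h3

/-- input of `LevB_350` -/
def AlgB (E : Type*) [NormedAddCommGroup E] [InnerProductSpace ℝ E] [FiniteDimensional ℝ E]
    [MeasurableSpace E] [BorelSpace E] : Prop :=
  ∀ (V : Flag E) (v : E) (i : ℕ), ‖v‖ = 1 → i < V.n → ∃ (J : Finset ℕ) (u : ℕ → E) (w : E),
    (V.Q i v ≠ 0 → ‖w‖ = 1 ∧ (V.rot v s0).Q i w = w) ∧
    (∀ g, ‖Rm V v s0 i g‖ ^ 2 + (1 / 4) * ‖V.Q i v‖ ^ 2 * ⟪w, Rm V v s0 i g⟫ ^ 2
      ≤ ‖g‖ ^ 2 + ∑ k ∈ J, ⟪u k, g⟫ ^ 2) ∧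
    ∑ k ∈ J, ‖u k‖ ^ 2 ≤ BB V v i

theorem algB : AlgB E := by
  intro V v i hv hi
  have hsb : 2 * s0 - s0 ^ 2 ≤ 1 / 2 := two_s0_sub.le
  obtain ⟨J, u, h1, h2⟩ := F5411.f5_N V hv s0_pos s0_lt_one hsb i
  have hB0 : 0 ≤ BB V v i := by
    unfold BB
    refine Finset.sum_nonneg fun j _ => mul_nonneg (by positivity) (sq_nonneg _)
  have h2' : ∑ k ∈ J, ‖u k‖ ^ 2 ≤ BB V v i := by
    rw [two_s0_sub] at h2
    linarith
  by_cases hQ : V.Q i v = 0
  · refine ⟨J, u, 0, fun h => absurd hQ h, fun g => ?_, h2'⟩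
    have := h1 g
    rw [two_s0_sub, hQ] at this
    rw [Rm_apply, hQ]
    simpa using this
  · obtain ⟨w, hw1, hwQ, hw⟩ := own_vec V hv s0_pos s0_lt_one hsb hi hQ
    refine ⟨J, u, w, fun _ => ⟨hw1, hwQ⟩, fun g => ?_, h2'⟩
    have h3 := h1 g
    rw [two_s0_sub] at h3
    have h4 := hw g
    rw [Rm_apply] at h4 ⊢
    nlinarith [h3, h4]

end Crest.Agent.R239.AlgB287
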