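import Crest.Agent.R239.Gau6
import Crest.Agent.R239.LineGauss

/-! R239 (helper853): Anderson inequality and covariance monotonicity for symmetric convex bodies. -/

set_option autoImplicit false
set_option linter.unusedSectionVars false
open MeasureTheory ProbabilityTheory Set Filter Topology Metric
open scoped RealInnerProductSpace ENNReal NNReal InnerProduct Pointwise

namespace Crest.Agent.R239.AnSym853

open Crest.Agent.Lib.PrekopaLeindler

variable {E : Type*} [NormedAddCommGroup E] [InnerProductSpace ℝ E] [FiniteDimensional ℝ E]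
  [MeasurableSpace E] [BorelSpace E]
variable {F : Type*} [NormedAddCommGroup F] [InnerProductSpace ℝ F] [FiniteDimensional ℝ F]
  [MeasurableSpace F] [BorelSpace F]
variable {G : Type*} [NormedAddCommGroup G] [InnerProductSpace ℝ G] [FiniteDimensional ℝ G]
  [MeasurableSpace G] [BorelSpace G]

lemma std_neg {A : Set F} (hA : MeasurableSet A) :
    stdGaussian F {x | -x ∈ A} = stdGaussian F A := by
  have h := gau_ext (A := -(ContinuousLinearMap.id ℝ F)) (B := ContinuousLinearMap.id ℝ F)
    (by intro t; simp)
  have h2 := congrArg (fun μ => μ A) h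
  simp only [gau_id] at h2
  rw [gau_apply _ hA] at h2
  exact h2

/-- Anderson's inequality for the standard Gaussian. -/
lemma anderson {S : F →L[ℝ] E} {K : Set E} (hK : IsClosed K) (cK : Convex ℝ K)
    (sK : ∀ x ∈ K, -x ∈ K) (u : E) :
    gau S {z | u + z ∈ K} ≤ gau S K := by
  have hm : ∀ v : E, MeasurableSet {g : F | v + S g ∈ K} := fun v =>
    (by fun_prop : Measurable fun g : F => v + S g) hK.measurableSet
  have e1 : ∀ v : E, gau S {z | v + z ∈ K} = stdGaussian F {g | v + S g ∈ K} := fun v =>
    gau_apply S ((by fun_prop : Measurable fun z : E => v + z) hK.measurableSet)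
  have e0 : gau S K = stdGaussian F {g | S g ∈ K} := gau_apply S hK.measurableSet
  rw [e1, e0]
  have hsym : stdGaussian F {g | -u + S g ∈ K} = stdGaussian F {g | u + S g ∈ K} := by
    rw [← std_neg (hm u)]
    congr 1
    ext g
    simp only [mem_ofPred_eq, map_neg]
    constructor
    · intro h
      have := sK _ h
      rwa [neg_add, neg_neg] at this
    · intro h
      have := sK _ h
      rwa [neg_add, neg_neg] at this
  have h := PL_std (E := F) (1/2) (by norm_num) (by norm_num)
    (indicator {g | u + S g ∈ K} 1) (indicator {g | -u + S g ∈ K} 1) (indicator {g | S g ∈ K} 1)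
    (measurable_one.indicator (hm u)) (measurable_one.indicator (hm (-u)))
    (measurable_one.indicator ((by simpa using hm 0 : MeasurableSet {g | S g ∈ K}))) (by
      intro x y
      by_cases hx : u + S x ∈ K
      · by_cases hy : -u + S y ∈ K
        · have hz : S ((1 - (1/2:ℝ)) • x + (1/2:ℝ) • y) ∈ K := by
            have := cK hx hy (a := 1/2) (b := 1/2) (by norm_num) (by norm_num) (by norm_num)
            convert this using 1
            simp only [map_add, map_smul, smul_add, smul_neg]
            norm_num
            abel
          have e1 : (indicator {g : F | u + S g ∈ K} 1 x : ℝ≥0∞) = 1 := by simp [indicator, hx]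
          have e2 : (indicator {g : F | -u + S g ∈ K} 1 y : ℝ≥0∞) = 1 := by simp [indicator, hy]
          have e3 : (indicator {g : F | S g ∈ K} 1 ((1 - (1/2:ℝ)) • x + (1/2:ℝ) • y) : ℝ≥0∞) = 1 := by
            rw [indicator, if_pos (show _ ∈ {g : F | S g ∈ K} from hz)]
            rfl
          rw [e1, e2, e3]
          simp
        · have : (indicator {g | -u + S g ∈ K} 1 y : ℝ≥0∞) = 0 := by
            simp [indicator, hy]
          rw [this, ENNReal.zero_rpow_of_pos (by norm_num)]
          simp
      · have : (indicator {g | u + S g ∈ K} 1 x : ℝ≥0∞) = 0 := by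
          simp [indicator, hx]
        rw [this, ENNReal.zero_rpow_of_pos (by norm_num)]
        simp)
  rw [lintegral_indicator_one (hm u), lintegral_indicator_one (hm (-u)),
    lintegral_indicator_one (by simpa using hm 0 : MeasurableSet {g | S g ∈ K}), hsym] at h
  rw [← ENNReal.rpow_add_of_nonneg _ _ (by norm_num) (by norm_num)] at h
  norm_num at h
  exact h

/-- **Anderson / covariance monotonicity** for symmetric closed convex bodies. -/
theorem gau_mono_symm {S : F →L[ℝ] E} {C : G →L[ℝ] E} (h : ∀ t, ‖S.adjoint t‖ ≤ ‖C.adjoint t‖)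
    {K : Set E} (hK : IsClosed K) (cK : Convex ℝ K) (sK : ∀ x ∈ K, -x ∈ K) :
    gau C K ≤ gau S K := by
  obtain ⟨D, hD⟩ := exists_complement S C h
  have h1 := gau_mix (A := D) (B := S) (C := C) (fun t => by rw [add_comm]; exact hD t)
    hK.measurableSet
  rw [h1]
  calc ∫⁻ x, gau S {z | D x + z ∈ K} ∂(stdGaussian E)
      ≤ ∫⁻ x, gau S K ∂(stdGaussian E) := lintegral_mono fun x => anderson hK cK sK _
    _ = gau S K := by simp

end Crest.Agent.R239.AnSym853
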