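import Crest.Agent.R239.FDef
import Crest.Agent.R239.L0_942

/-!
R239 (S0370), last step for LINE D / one-step (U3) (docs 2444, 2447): finitely many bases.

`P_U3d p C1 eta c`: growth of `Ut p` for letters with `lam I ≤ C1 eta s' < 2 lam I`.
`concl_of_bases`: `P_U3d` for the grids `2^k (2^m)^i`, `k < m`, together with (U1), (U2), (U0)
gives the literal conclusion of S0370 (potential `Σ_{k<m} Ut (grid k)`).
-/

set_option autoImplicit false
open MeasureTheory ProbabilityTheory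
open scoped RealInnerProductSpace

namespace Crest.Agent.R239.Bases743

open Crest.Agent.R239.FD

section gen

variable {E : Type*} [NormedAddCommGroup E] [InnerProductSpace ℝ E] [FiniteDimensional ℝ E]
  [MeasurableSpace E] [BorelSpace E]

/-- growth for letters which fit the grid within a factor `2` -/
def P_U3d (E : Type*) [NormedAddCommGroup E] [InnerProductSpace ℝ E] [FiniteDimensional ℝ E]
    [MeasurableSpace E] [BorelSpace E] (p : Par) (C1 eta c : ℝ) : Prop :=
  ∀ (I : ℕ) (v : E) (s : Multiset (E × E)), ‖v‖ = 1 →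
    2 * S (s.map fun q => q.1 + q.2) v < S (s.map Prod.fst + s.map Prod.snd) v →
    p.lam I ≤ C1 * eta * S (s.map Prod.fst + s.map Prod.snd) v →
    C1 * eta * S (s.map Prod.fst + s.map Prod.snd) v < 2 * p.lam I →
    Ut p (s.map fun q => q.1 + q.2) + c * S (s.map Prod.fst + s.map Prod.snd) v
      ≤ Ut p (s.map Prod.fst + s.map Prod.snd)

theorem J_le {p : Par} {C : ℝ} (h0 : P_J0 E p) (h2 : P_U2 E p C) (V : Flag E) (μ : Multiset E) :
    J p V μ ≤ C * Real.sqrt (Module.finrank ℝ E) * (μ.map fun z => ‖z‖).sum := by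
  induction μ using Multiset.induction with
  | empty => simpa using h0 V
  | cons z μ ih =>
    have := h2 V z μ
    rw [Multiset.map_cons, Multiset.sum_cons]
    calc J p V (z ::ₘ μ) ≤ J p V μ + C * Real.sqrt (Module.finrank ℝ E) * ‖z‖ := this
      _ ≤ _ := by linarith [ih]

theorem bdd {p : Par} {C : ℝ} (h0 : P_J0 E p) (h2 : P_U2 E p C) (μ : Multiset E) :
    BddAbove (Set.range fun V : Flag E => J p V μ) := by
  refine ⟨C * Real.sqrt (Module.finrank ℝ E) * (μ.map fun z => ‖z‖).sum, ?_⟩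
  rintro _ ⟨V, rfl⟩
  exact J_le h0 h2 V μ

/-- the trivial flag -/
def trivFlag : Flag E := ⟨0, fun _ => ⊥, antitone_const, fun _ _ => rfl⟩

instance : Nonempty (Flag E) := ⟨trivFlag⟩

theorem J_triv (p : Par) (μ : Multiset E) : J p (trivFlag : Flag E) μ = 0 := by
  simp [J, trivFlag]

theorem Ut_nonneg {p : Par} {C : ℝ} (h0 : P_J0 E p) (h2 : P_U2 E p C) (μ : Multiset E) :
    0 ≤ Ut p μ := by
  rw [← J_triv (E := E) p μ]
  exact le_csSup (bdd h0 h2 μ) ⟨trivFlag, rfl⟩

theorem J_le_Ut {p : Par} {C : ℝ} (h0 : P_J0 E p) (h2 : P_U2 E p C) (V : Flag E)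
    (μ : Multiset E) : J p V μ ≤ Ut p μ :=
  le_csSup (bdd h0 h2 μ) ⟨V, rfl⟩

theorem J_mono {p : Par} (h1 : P_D_mono E p) (V : Flag E) (s : Multiset (E × E)) :
    J p V (s.map fun q => q.1 + q.2) ≤ J p V (s.map Prod.fst + s.map Prod.snd) := by
  unfold J
  refine Finset.sum_le_sum fun i _ => ?_
  have := h1 V i s
  linarith

theorem Ut_mono {p : Par} {C : ℝ} (h0 : P_J0 E p) (h2 : P_U2 E p C) (h1 : P_D_mono E p)
    (s : Multiset (E × E)) :
    Ut p (s.map fun q => q.1 + q.2) ≤ Ut p (s.map Prod.fst + s.map Prod.snd) := by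
  refine csSup_le (Set.range_nonempty _) ?_
  rintro _ ⟨V, rfl⟩
  exact (J_mono h1 V s).trans (J_le_Ut h0 h2 V _)

theorem Ut_cons {p : Par} {C : ℝ} (h0 : P_J0 E p) (h2 : P_U2 E p C) (z : E) (μ : Multiset E) :
    Ut p (z ::ₘ μ) ≤ Ut p μ + C * Real.sqrt (Module.finrank ℝ E) * ‖z‖ := by
  refine csSup_le (Set.range_nonempty _) ?_
  rintro _ ⟨V, rfl⟩
  have := h2 V z μ
  have := J_le_Ut h0 h2 V μ
  simp only
  linarith

end gen

/-- the grid with base `2^k` and ratio `2^m` -/
noncomputable def grid (rho kap : ℝ) (m k : ℕ) : Par := ⟨rho, kap, 2 ^ m, 2 ^ k⟩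

theorem grid_lam (rho kap : ℝ) (m k i : ℕ) : (grid rho kap m k).lam i = 2 ^ (k + m * i) := by
  simp [grid, Par.lam, pow_add, pow_mul]

theorem S_nonneg {E : Type*} [NormedAddCommGroup E] [InnerProductSpace ℝ E] (m : Multiset E)
    (v : E) : 0 ≤ S m v := L0.S_nonneg m v

/-- **last step**: bases `2^k`, `k < m`. -/
theorem concl_of_bases {C1 eta c rho kap : ℝ} {m : ℕ} (hm : 0 < m) (hC1 : 0 < C1) (heta : 0 < eta)
    (hc : 0 < c)
    (hU2 : ∀ k < m, ∃ C : ℝ, 0 ≤ C ∧ ∀ d : ℕ,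
      P_U2 (EuclideanSpace ℝ (Fin d)) (grid rho kap m k) C ∧
      P_J0 (EuclideanSpace ℝ (Fin d)) (grid rho kap m k) ∧
      P_D_mono (EuclideanSpace ℝ (Fin d)) (grid rho kap m k))
    (hU3 : ∀ k < m, ∀ d : ℕ, P_U3d (EuclideanSpace ℝ (Fin d)) (grid rho kap m k) C1 eta c) :
    ∃ C : ℝ, ∀ (d N : ℕ) (v : Fin N → EuclideanSpace ℝ (Fin d)),
      (∀ i, ‖v i‖ ≤ 1) →
      ∃ ε : Fin N → ℤ, (∀ i, ε i = 1 ∨ ε i = -1) ∧
        ∀ k : ℕ, k ≤ N →
          ‖∑ i ∈ Finset.univ.filter (fun i : Fin N => (i : ℕ) < k), (ε i : ℝ) • v i‖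
            ≤ C * Real.sqrt d := by
  choose! CC hCC0 hCC using hU2
  refine L0.S0370_of_U (∑ k ∈ Finset.range m, CC k) c (c / (C1 * eta)) hc
    (fun d μ => ∑ k ∈ Finset.range m, Ut (grid rho kap m k) μ) ?_ ?_ ?_ ?_
  · intro d μ
    refine Finset.sum_nonneg fun k hk => ?_
    have h := hCC k (Finset.mem_range.1 hk) d
    exact Ut_nonneg h.2.1 h.1 μ
  · intro d s
    refine Finset.sum_le_sum fun k hk => ?_
    have h := hCC k (Finset.mem_range.1 hk) d
    exact Ut_mono h.2.1 h.1 h.2.2 s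
  · intro d z μ
    rw [Finset.sum_mul, Finset.sum_mul, ← Finset.sum_add_distrib]
    refine Finset.sum_le_sum fun k hk => ?_
    have h := hCC k (Finset.mem_range.1 hk) d
    have := Ut_cons h.2.1 h.1 z μ
    simpa using this
  · intro d v s hv
    have hmono : ∀ k ∈ Finset.range m, Ut (grid rho kap m k) (L0.mrg s)
        ≤ Ut (grid rho kap m k) (L0.spl s) := fun k hk => by
      have h := hCC k (Finset.mem_range.1 hk) d
      exact Ut_mono h.2.1 h.1 h.2.2 s
    have hdl : 0 < c / (C1 * eta) := by positivity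
    have hsum0 : ∑ k ∈ Finset.range m, Ut (grid rho kap m k) (L0.mrg s)
        ≤ ∑ k ∈ Finset.range m, Ut (grid rho kap m k) (L0.spl s) := Finset.sum_le_sum hmono
    set s1 := L0.S (L0.spl s) v with hs1
    set s0 := L0.S (L0.mrg s) v with hs0
    have hs00 : 0 ≤ s0 := L0.S_nonneg _ _
    have hs10 : 0 ≤ s1 := L0.S_nonneg _ _
    rcases le_or_gt s1 (2 * s0) with h1 | h1
    · have : c * (s1 - 2 * s0) ≤ 0 := mul_nonpos_of_nonneg_of_nonpos hc.le (by linarith)
      linarith
    rcases lt_or_ge (C1 * eta * s1) 1 with h2 | h2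
    · have h3 : s1 ≤ 1 / (C1 * eta) := by
        rw [le_div_iff₀ (by positivity)]; linarith
      have h4 : c * (s1 - 2 * s0) ≤ c * (1 / (C1 * eta)) :=
        mul_le_mul_of_nonneg_left (by linarith) hc.le
      have h5 : c * (1 / (C1 * eta)) = c / (C1 * eta) := by ring
      linarith
    · obtain ⟨j, hj1, hj2⟩ : ∃ j : ℕ, (2 : ℝ) ^ j ≤ C1 * eta * s1 ∧ C1 * eta * s1 < 2 ^ (j + 1) :=
        exists_nat_pow_near h2 (by norm_num)
      have hjm : j % m + m * (j / m) = j := Nat.mod_add_div j m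
      have hk : j % m < m := Nat.mod_lt _ hm
      have hlam : (grid rho kap m (j % m)).lam (j / m) = 2 ^ j := by rw [grid_lam, hjm]
      have key := hU3 (j % m) hk d (j / m) v s hv h1 (by rw [hlam]; exact hj1)
        (by rw [hlam]; calc C1 * eta * s1 < 2 ^ (j + 1) := hj2
              _ = 2 * 2 ^ j := by ring)
      have key' : Ut (grid rho kap m (j % m)) (L0.mrg s) + c * s1
          ≤ Ut (grid rho kap m (j % m)) (L0.spl s) := key
      have h6 : c * s1 ≤ ∑ k ∈ Finset.range m, (Ut (grid rho kap m k) (L0.spl s)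
          - Ut (grid rho kap m k) (L0.mrg s)) := by
        have h7 : Ut (grid rho kap m (j % m)) (L0.spl s) - Ut (grid rho kap m (j % m)) (L0.mrg s)
            ≤ ∑ k ∈ Finset.range m, (Ut (grid rho kap m k) (L0.spl s)
              - Ut (grid rho kap m k) (L0.mrg s)) :=
          Finset.single_le_sum (f := fun k => Ut (grid rho kap m k) (L0.spl s)
              - Ut (grid rho kap m k) (L0.mrg s))
            (fun k hk => sub_nonneg.2 (hmono k hk)) (Finset.mem_range.2 hk)
        linarith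
      rw [Finset.sum_sub_distrib] at h6
      have h8 : c * (s1 - 2 * s0) ≤ c * s1 := mul_le_mul_of_nonneg_left (by linarith) hc.le
      linarith

end Crest.Agent.R239.Bases743
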