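import Mathlib
import Crest.Agent.R239.LineGauss

/-!
# R239 block G5 (helper949): the one-dimensional part of the benefit lemma

`one_dim`: an even function `G` on `ℝ`, antitone on `[0,∞)`, log-concave: if the law `G g1` has
almost the full second moment then `∫ √(G (2 s)) dg1 ≥ e^{-κ} √(∫ G dg1)`.
-/

set_option autoImplicit false
open MeasureTheory ProbabilityTheory Set
open scoped ENNReal NNReal

namespace Crest.Agent.R239.Ben949

open Crest.Agent.R239

theorem integrable_sq : Integrable (fun s : ℝ => s ^ 2) g1 :=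
  (memLp_id_gaussianReal (μ := 0) (v := 1) 2).integrable_sq

theorem int_sq : ∫ s : ℝ, s ^ 2 ∂g1 = 1 := by
  have h := variance_of_integral_eq_zero (μ := g1) (X := id) aemeasurable_id (by simp)
  have h2 : Var[id; g1] = 1 := by
    rw [variance_id_gaussianReal]; simp
  rw [h2] at h
  simpa using h.symm

/-- even, nonnegative, bounded by one, antitone on `[0,∞)`, doubling log-concavity -/
structure Prof (G : ℝ → ℝ) : Prop where
  meas : Measurable G
  nn : ∀ s, 0 ≤ G s
  le1 : ∀ s, G s ≤ 1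
  even : ∀ s, G (-s) = G s
  anti : ∀ s t, 0 ≤ s → s ≤ t → G t ≤ G s
  dbl : ∀ s, 0 ≤ s → G (2 * s) * G 0 ≤ G s ^ 2

lemma Prof.abs {G : ℝ → ℝ} (h : Prof G) (s : ℝ) : G |s| = G s := by
  rcases abs_choice s with h' | h' <;> rw [h']
  exact h.even s

lemma Prof.integrable {G : ℝ → ℝ} (h : Prof G) : Integrable G g1 := by
  refine Integrable.mono' (integrable_const (1:ℝ)) h.meas.aestronglyMeasurable
    (Filter.Eventually.of_forall fun s => ?_)
  rw [Real.norm_eq_abs, abs_of_nonneg (h.nn s)]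
  exact h.le1 s

lemma Prof.integrable_sq_mul {G : ℝ → ℝ} (h : Prof G) : Integrable (fun s => s ^ 2 * G s) g1 := by
  refine Integrable.mono' integrable_sq
    ((measurable_id.pow_const 2).mul h.meas).aestronglyMeasurable
    (Filter.Eventually.of_forall fun s => ?_)
  rw [norm_mul, Real.norm_eq_abs, Real.norm_eq_abs, abs_of_nonneg (h.nn s),
    abs_of_nonneg (sq_nonneg s)]
  exact mul_le_of_le_one_right (sq_nonneg s) (h.le1 s)

lemma Prof.le_zero {G : ℝ → ℝ} (h : Prof G) (s : ℝ) : G s ≤ G 0 := by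
  rw [← h.abs s]
  exact h.anti 0 |s| le_rfl (abs_nonneg s)

/-- the thinness constant -/
noncomputable def cc (R δ : ℝ) : ℝ :=
  min (1 / 4) (min (9 / 32 * (gaussianReal 0 1).real (Icc (-(1/2)) (1/2)))
    ((4 * R ^ 2 - 1) * (δ / 16) * (gaussianReal 0 1).real (Ici (2 * R))))

lemma gain_eq {G : ℝ → ℝ} (h : Prof G) :
    ∫ s, (1 - s ^ 2) * (G s - G 1) ∂g1 = ∫ s, G s ∂g1 - ∫ s, s ^ 2 * G s ∂g1 := by
  have e : (fun s => (1 - s ^ 2) * (G s - G 1))
      = fun s => (G s - s ^ 2 * G s) - (G 1 - G 1 * s ^ 2) := by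
    ext s; ring
  have h1 : Integrable (fun s => G s - s ^ 2 * G s) g1 := h.integrable.sub h.integrable_sq_mul
  have h2 : Integrable (fun s : ℝ => G 1 - G 1 * s ^ 2) g1 :=
    (integrable_const _).sub (integrable_sq.const_mul _)
  rw [e, integral_sub h1 h2, integral_sub h.integrable h.integrable_sq_mul,
    integral_sub (integrable_const _) (integrable_sq.const_mul _), integral_const_mul, int_sq]
  simp

lemma gain_nonneg {G : ℝ → ℝ} (h : Prof G) (s : ℝ) : 0 ≤ (1 - s ^ 2) * (G s - G 1) := by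
  rcases le_total |s| 1 with h1 | h1
  · have h2 : s ^ 2 ≤ 1 := by rw [← sq_abs]; nlinarith [abs_nonneg s]
    have h3 : G 1 ≤ G s := by
      rw [← h.abs s]; exact h.anti _ _ (abs_nonneg s) h1
    exact mul_nonneg (by linarith) (by linarith)
  · have h2 : 1 ≤ s ^ 2 := by rw [← sq_abs]; nlinarith [abs_nonneg s]
    have h3 : G s ≤ G 1 := by
      rw [← h.abs s]; exact h.anti _ _ zero_le_one h1
    exact mul_nonneg_of_nonpos_of_nonpos (by linarith) (by linarith)

lemma integrable_gain {G : ℝ → ℝ} (h : Prof G) :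
    Integrable (fun s => (1 - s ^ 2) * (G s - G 1)) g1 := by
  have e : (fun s => (1 - s ^ 2) * (G s - G 1))
      = fun s => (G s - s ^ 2 * G s) - (G 1 - G 1 * s ^ 2) := by
    ext s; ring
  rw [e]
  exact (h.integrable.sub h.integrable_sq_mul).sub
    ((integrable_const _).sub (integrable_sq.const_mul _))

/-- lower bound of the gain by the gain on a set -/
lemma gain_ge {G : ℝ → ℝ} (h : Prof G) {S : Set ℝ} (hS : MeasurableSet S) {a : ℝ}
    (ha : ∀ s ∈ S, a ≤ (1 - s ^ 2) * (G s - G 1)) :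
    a * (gaussianReal 0 1).real S ≤ ∫ s, G s ∂g1 - ∫ s, s ^ 2 * G s ∂g1 := by
  rw [← gain_eq h]
  calc a * (gaussianReal 0 1).real S = ∫ s in S, a ∂g1 := by
        rw [setIntegral_const, smul_eq_mul, mul_comm]
    _ ≤ ∫ s in S, (1 - s ^ 2) * (G s - G 1) ∂g1 :=
        setIntegral_mono_on (integrable_const _).integrableOn (integrable_gain h).integrableOn hS ha
    _ ≤ ∫ s, (1 - s ^ 2) * (G s - G 1) ∂g1 :=
        setIntegral_le_integral (integrable_gain h)
          (Filter.Eventually.of_forall fun s => gain_nonneg h s)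

lemma thin1 {G : ℝ → ℝ} (h : Prof G) {R δ : ℝ} (hR : 1 ≤ R) (hδ : 0 < δ) (hδ1 : δ ≤ 1)
    (hdrop : G R < (1 - δ) * G 0) :
    ∫ s, s ^ 2 * G s ∂g1 ≤ (1 - cc R δ) * ∫ s, G s ∂g1 := by
  set m := ∫ s, G s ∂g1 with hm
  have hm0 : 0 ≤ m := integral_nonneg h.nn
  have hG0 : 0 < G 0 := by
    by_contra hc
    have : G 0 = 0 := le_antisymm (not_lt.1 hc) (h.nn 0)
    rw [this, mul_zero] at hdrop
    exact absurd (h.nn R) (not_le.2 hdrop)
  have c1 : cc R δ ≤ 1 / 4 := min_le_left _ _
  have c2 : cc R δ ≤ 9 / 32 * (gaussianReal 0 1).real (Icc (-(1/2)) (1/2)) :=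
    (min_le_right _ _).trans (min_le_left _ _)
  have c3 : cc R δ ≤ (4 * R ^ 2 - 1) * (δ / 16) * (gaussianReal 0 1).real (Ici (2 * R)) :=
    (min_le_right _ _).trans (min_le_right _ _)
  by_cases hA : δ / 16 * m ≤ G 1 - G (2 * R)
  · have hg := gain_ge h (S := Ici (2 * R)) measurableSet_Ici
      (a := (4 * R ^ 2 - 1) * (δ / 16 * m)) (by
        intro s hs
        have hs' : 2 * R ≤ s := hs
        have e1 : G s ≤ G (2 * R) := h.anti _ _ (by linarith) hs'
        have e2 : 4 * R ^ 2 ≤ s ^ 2 := by nlinarith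
        have e3 : (1 - s ^ 2) * (G s - G 1) = (s ^ 2 - 1) * (G 1 - G s) := by ring
        rw [e3]
        apply mul_le_mul (by linarith) (by linarith) (by positivity) (by nlinarith))
    rw [← hm] at hg
    have h2 := mul_le_mul_of_nonneg_right c3 hm0
    nlinarith
  · push Not at hA
    have e1 : G (2 * R) ≤ (1 - δ) * G R := by
      have h1 := h.dbl R (by linarith)
      have h2 : G R ^ 2 ≤ G R * ((1 - δ) * G 0) := by
        rw [sq]; exact mul_le_mul_of_nonneg_left hdrop.le (h.nn R)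
      have h3 : G (2 * R) * G 0 ≤ ((1 - δ) * G R) * G 0 := by linarith
      exact le_of_mul_le_mul_right h3 hG0
    have e2 : G R ≤ G 1 := h.anti _ _ zero_le_one hR
    have e3 : G (2 * R) ≤ G R := h.anti _ _ (by linarith) (by linarith)
    have e4 : G R ≤ m / 16 := by
      have : δ * G R ≤ δ * (m / 16) := by nlinarith
      exact le_of_mul_le_mul_left this hδ
    have e5 : G 1 ≤ m / 8 := by nlinarith
    by_cases hB : m / 2 ≤ G (1 / 2)
    · have hg := gain_ge h (S := Icc (-(1/2)) (1/2)) measurableSet_Icc (a := 9 / 32 * m) (by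
        intro s hs
        have hs' : |s| ≤ 1 / 2 := abs_le.2 hs
        have e6 : G (1 / 2) ≤ G s := by
          rw [← h.abs s]; exact h.anti _ _ (abs_nonneg s) hs'
        have e7 : s ^ 2 ≤ 1 / 4 := by rw [← sq_abs]; nlinarith [abs_nonneg s]
        have e8 : 3 / 8 * m ≤ G s - G 1 := by linarith
        have e9 : (3:ℝ) / 4 ≤ 1 - s ^ 2 := by linarith
        calc 9 / 32 * m = 3 / 4 * (3 / 8 * m) := by ring
          _ ≤ (1 - s ^ 2) * (G s - G 1) := mul_le_mul e9 e8 (by positivity) (by linarith))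
      rw [← hm] at hg
      have h2 := mul_le_mul_of_nonneg_right c2 hm0
      nlinarith
    · push Not at hB
      have h3 : ∫ s, s ^ 2 * G s ∂g1 ≤ ∫ s, (1 / 4 * G s + m / 2 * s ^ 2) ∂g1 := by
        refine integral_mono h.integrable_sq_mul
          ((h.integrable.const_mul _).add (integrable_sq.const_mul _)) fun s => ?_
        have hs2 := sq_nonneg s
        rcases le_total |s| (1/2) with h4 | h4
        · have e7 : s ^ 2 ≤ 1 / 4 := by rw [← sq_abs]; nlinarith [abs_nonneg s]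
          have := mul_le_mul_of_nonneg_right e7 (h.nn s)
          have : 0 ≤ m / 2 * s ^ 2 := by positivity
          simp only
          linarith
        · have e6 : G s ≤ G (1 / 2) := by
            rw [← h.abs s]; exact h.anti _ _ (by norm_num) h4
          have := mul_le_mul_of_nonneg_left (e6.trans hB.le) hs2
          have := h.nn s
          simp only
          nlinarith
      rw [integral_add (h.integrable.const_mul _) (integrable_sq.const_mul _), integral_const_mul,
        integral_const_mul, int_sq, ← hm] at h3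
      have h2 := mul_le_mul_of_nonneg_right c1 hm0
      nlinarith

lemma cc_pos {R δ : ℝ} (hR : 1 ≤ R) (hδ : 0 < δ) : 0 < cc R δ := by
  have hp : ∀ S : Set ℝ, volume S ≠ 0 → 0 < (gaussianReal 0 1).real S := by
    intro S hS
    rw [Measure.real, ENNReal.toReal_pos_iff]
    refine ⟨pos_iff_ne_zero.2 fun h0 => hS ?_, measure_lt_top _ _⟩
    exact gaussianReal_absolutelyContinuous' 0 (one_ne_zero) h0
  have h1 := hp (Icc (-(1/2)) (1/2)) (by simp)
  have h2 := hp (Ici (2 * R)) (by simp)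
  unfold cc
  refine lt_min (by norm_num) (lt_min (by positivity) ?_)
  have : 0 < 4 * R ^ 2 - 1 := by nlinarith
  positivity

lemma cc_le (R δ : ℝ) : cc R δ ≤ 1 / 4 := min_le_left _ _

/-- Chebyshev -/
lemma cheb {r : ℝ} (hr : 0 < r) : 1 - 1 / r ^ 2 ≤ (gaussianReal 0 1).real (Icc (-r) r) := by
  have h1 := mul_meas_ge_le_integral_of_nonneg (μ := g1) (f := fun s : ℝ => s ^ 2)
    (Filter.Eventually.of_forall fun s => sq_nonneg s) integrable_sq (r ^ 2)
  rw [int_sq] at h1
  have h2 : (Icc (-r) r)ᶜ ⊆ {x : ℝ | r ^ 2 ≤ x ^ 2} := by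
    intro x hx
    simp only [mem_compl_iff, mem_Icc, ← abs_le, not_le] at hx
    simp only [mem_ofPred_eq]
    rw [← sq_abs x]
    exact pow_le_pow_left₀ hr.le hx.le 2
  have h3 : (gaussianReal 0 1).real (Icc (-r) r)ᶜ ≤ 1 / r ^ 2 := by
    refine (measureReal_mono h2 (measure_ne_top _ _)).trans ?_
    rw [le_div_iff₀ (by positivity), mul_comm]
    exact h1
  have h4 := probReal_compl_eq_one_sub (μ := g1) (s := Icc (-r) r) measurableSet_Icc
  rw [h4] at h3
  linarith

/-- **one-dimensional part of the benefit lemma** -/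
theorem one_dim {κ : ℝ} (hκ : 0 < κ) : ∃ c : ℝ, 0 < c ∧ c ≤ 1 / 4 ∧ ∀ G : ℝ → ℝ, Prof G →
    (1 - c) * (∫ s, G s ∂g1) < ∫ s, s ^ 2 * G s ∂g1 →
    Real.exp (-κ) * √(∫ s, G s ∂g1) ≤ ∫ s, √(G (2 * s)) ∂g1 := by
  have hε : 0 < 1 - Real.exp (-(κ / 2)) := by
    have : Real.exp (-(κ / 2)) < 1 := by
      rw [Real.exp_lt_one_iff]; linarith
    linarith
  obtain ⟨R, hR1, hR2⟩ : ∃ R : ℝ, 1 ≤ R ∧ 1 / (R / 2) ^ 2 ≤ 1 - Real.exp (-(κ / 2)) := by
    refine ⟨max 1 (4 / (1 - Real.exp (-(κ / 2)))), le_max_left _ _, ?_⟩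
    set ε := 1 - Real.exp (-(κ / 2)) with hεd
    set M := max 1 (4 / ε) with hM
    have h1 : 1 ≤ M := le_max_left _ _
    have h2 : 4 / ε ≤ M := le_max_right _ _
    rw [div_le_iff₀ (by positivity)]
    rw [div_le_iff₀ hε] at h2
    nlinarith
  set δ := 1 - Real.exp (-κ) with hδd
  have hδ : 0 < δ := by
    have : Real.exp (-κ) < 1 := by
      rw [Real.exp_lt_one_iff]; linarith
    linarith
  have hδ1 : δ ≤ 1 := by have := Real.exp_pos (-κ); linarith
  refine ⟨cc R δ, cc_pos hR1 hδ, cc_le R δ, fun G h hG => ?_⟩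
  by_cases hd : G R < (1 - δ) * G 0
  · exact absurd (thin1 h hR1 hδ hδ1 hd) (not_le.2 hG)
  push Not at hd
  have e1 : 1 - δ = Real.exp (-κ) := by rw [hδd]; ring
  rw [e1] at hd
  have hm : ∫ s, G s ∂g1 ≤ G 0 := by
    calc ∫ s, G s ∂g1 ≤ ∫ _, G 0 ∂g1 :=
          integral_mono h.integrable (integrable_const _) fun s => h.le_zero s
      _ = G 0 := by simp
  have hint : Integrable (fun s => √(G (2 * s))) g1 := by
    refine Integrable.mono' (integrable_const (1:ℝ))
      (h.meas.comp (measurable_const_mul 2)).sqrt.aestronglyMeasurable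
      (Filter.Eventually.of_forall fun s => ?_)
    rw [Real.norm_eq_abs, abs_of_nonneg (Real.sqrt_nonneg _)]
    exact Real.sqrt_le_one.2 (h.le1 _)
  have hch := cheb (r := R / 2) (by linarith)
  have h5 : Real.exp (-(κ / 2)) ≤ (gaussianReal 0 1).real (Icc (-(R/2)) (R/2)) := by linarith
  have h6 : ∀ s ∈ Icc (-(R/2)) (R/2), Real.exp (-(κ / 2)) * √(G 0) ≤ √(G (2 * s)) := by
    intro s hs
    have hs' : |s| ≤ R / 2 := abs_le.2 hs
    have e2 : G R ≤ G (2 * s) := by
      rw [← h.abs (2 * s)]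
      refine h.anti _ _ (abs_nonneg _) ?_
      rw [abs_mul, abs_two]; linarith
    have e3 : Real.exp (-(κ / 2)) = √(Real.exp (-κ)) := by
      rw [show -κ = -(κ/2) + -(κ/2) by ring, Real.exp_add, Real.sqrt_mul_self (Real.exp_pos _).le]
    rw [e3, ← Real.sqrt_mul (Real.exp_pos _).le]
    exact Real.sqrt_le_sqrt (hd.trans e2)
  have h7 : Real.exp (-(κ / 2)) * √(G 0) * (gaussianReal 0 1).real (Icc (-(R/2)) (R/2))
      ≤ ∫ s, √(G (2 * s)) ∂g1 := by
    calc _ = ∫ s in Icc (-(R/2)) (R/2), Real.exp (-(κ / 2)) * √(G 0) ∂g1 := by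
          rw [setIntegral_const, smul_eq_mul, mul_comm]
      _ ≤ ∫ s in Icc (-(R/2)) (R/2), √(G (2 * s)) ∂g1 :=
          setIntegral_mono_on (integrable_const _).integrableOn hint.integrableOn
            measurableSet_Icc h6
      _ ≤ _ := setIntegral_le_integral hint
          (Filter.Eventually.of_forall fun s => Real.sqrt_nonneg _)
  refine le_trans ?_ h7
  have h8 : √(∫ s, G s ∂g1) ≤ √(G 0) := Real.sqrt_le_sqrt hm
  have h9 : Real.exp (-κ) = Real.exp (-(κ / 2)) * Real.exp (-(κ / 2)) := by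
    rw [← Real.exp_add]; congr 1; ring
  have e0 := Real.exp_pos (-(κ / 2))
  calc Real.exp (-κ) * √(∫ s, G s ∂g1)
      ≤ Real.exp (-(κ / 2)) * Real.exp (-(κ / 2)) * √(G 0) := by
        rw [h9]; gcongr
    _ = Real.exp (-(κ / 2)) * √(G 0) * Real.exp (-(κ / 2)) := by ring
    _ ≤ _ := by gcongr

end Crest.Agent.R239.Ben949
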