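import Crest.Agent.R239.Ben1_949
import Crest.Agent.R239.Gau4
import Crest.Agent.R239.FDef

/-!
# R239 block G5 (helper949): the benefit lemma (removable or thin), `target_BEN`
-/

set_option autoImplicit false
set_option linter.unusedSectionVars false
open MeasureTheory ProbabilityTheory Set
open scoped ENNReal NNReal RealInnerProductSpace

namespace Crest.Agent.R239.Ben949

open Crest.Agent.R239 Crest.Agent.Lib.PrekopaLeindler

variable {E : Type*} [NormedAddCommGroup E] [InnerProductSpace ℝ E] [FiniteDimensional ℝ E]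
  [MeasurableSpace E] [BorelSpace E]

/-- Prekopa–Leindler for sets, real form -/
lemma pl_set {A B C : Set E} (hA : MeasurableSet A) (hB : MeasurableSet B) (hC : MeasurableSet C)
    {l : ℝ} (hl0 : 0 < l) (hl1 : l < 1) (H : ∀ a ∈ A, ∀ b ∈ B, (1 - l) • a + l • b ∈ C) :
    (stdGaussian E).real A ^ (1 - l) * (stdGaussian E).real B ^ l ≤ (stdGaussian E).real C := by
  have h := PL_std (E := E) l hl0 hl1 (A.indicator 1) (B.indicator 1) (C.indicator 1)
    (measurable_one.indicator hA) (measurable_one.indicator hB) (measurable_one.indicator hC) (by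
      intro x y
      by_cases hx : x ∈ A
      · by_cases hy : y ∈ B
        · rw [indicator_of_mem hx, indicator_of_mem hy, indicator_of_mem (H x hx y hy)]
          simp
        · rw [indicator_of_notMem hy, ENNReal.zero_rpow_of_pos hl0, mul_zero]
          exact zero_le
      · rw [indicator_of_notMem hx, ENNReal.zero_rpow_of_pos (by linarith), zero_mul]
        exact zero_le)
  rw [lintegral_indicator_one hA, lintegral_indicator_one hB, lintegral_indicator_one hC] at h
  have h2 := ENNReal.toReal_mono (measure_ne_top _ _) h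
  rwa [ENNReal.toReal_mul, ← ENNReal.toReal_rpow, ← ENNReal.toReal_rpow] at h2

/-- the section at height `s` in direction `w` -/
def sec (w : E) (K : Set E) (s : ℝ) : Set E := {y | s • w + proj w y ∈ K}

lemma meas_sec (w : E) {K : Set E} (hK : MeasurableSet K) (s : ℝ) : MeasurableSet (sec w K s) := by
  have : Measurable fun y : E => s • w + proj w y := by fun_prop
  exact this hK

/-- measure of the section -/
noncomputable def G (w : E) (K : Set E) (s : ℝ) : ℝ := (stdGaussian E).real (sec w K s)

lemma meas_G (w : E) {K : Set E} (hK : MeasurableSet K) : Measurable (G w K) :=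
  (measurable_measure_prodMk_left (measurable_line w hK)).ennreal_toReal

lemma G_nonneg (w : E) (K : Set E) (s : ℝ) : 0 ≤ G w K s := measureReal_nonneg

lemma G_le_one (w : E) (K : Set E) (s : ℝ) : G w K s ≤ 1 := measureReal_le_one

lemma gamma_neg {K : Set E} (hK : MeasurableSet K) :
    (stdGaussian E).real {x | -x ∈ K} = (stdGaussian E).real K := by
  have h : gau (-ContinuousLinearMap.id ℝ E) = gau (ContinuousLinearMap.id ℝ E) := by
    apply gau_ext
    intro t
    have : (-ContinuousLinearMap.id ℝ E).adjoint = -ContinuousLinearMap.id ℝ E := by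
      rw [map_neg]
      congr 1
      apply ContinuousLinearMap.ext
      intro x
      apply ext_inner_right ℝ
      intro y
      rw [ContinuousLinearMap.adjoint_inner_left]
      simp
    have h2 : (ContinuousLinearMap.id ℝ E).adjoint = ContinuousLinearMap.id ℝ E := by
      apply ContinuousLinearMap.ext
      intro x
      apply ext_inner_right ℝ
      intro y
      rw [ContinuousLinearMap.adjoint_inner_left]
      simp
    rw [this, h2]
    simp
  have h1 : (gau (-ContinuousLinearMap.id ℝ E)).real K
      = (gau (ContinuousLinearMap.id ℝ E)).real K := by rw [h]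
  rw [gau_real_apply _ hK, gau_real_apply _ hK] at h1
  exact h1

lemma G_even {w : E} {K : Set E} (hK : MeasurableSet K) (sK : ∀ x ∈ K, -x ∈ K) (s : ℝ) :
    G w K (-s) = G w K s := by
  unfold G
  rw [← gamma_neg (meas_sec w hK s)]
  congr 1
  ext y
  simp only [sec, mem_ofPred_eq]
  have e : (-s) • w + proj w y = -(s • w + proj w (-y)) := by
    rw [map_neg]; module
  rw [e]
  constructor
  · intro h
    have := sK _ h
    rwa [neg_neg] at this
  · intro h
    exact sK _ h

lemma G_pl {w : E} {A B C : Set E} (hA : MeasurableSet A) (hB : MeasurableSet B)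
    (hC : MeasurableSet C) {l : ℝ} (hl0 : 0 < l) (hl1 : l < 1)
    (H : ∀ a ∈ A, ∀ b ∈ B, (1 - l) • a + l • b ∈ C) (s t : ℝ) :
    G w A s ^ (1 - l) * G w B t ^ l ≤ G w C ((1 - l) * s + l * t) := by
  refine pl_set (meas_sec w hA s) (meas_sec w hB t) (meas_sec w hC _) hl0 hl1 fun a ha b hb => ?_
  have := H _ ha _ hb
  simp only [sec, mem_ofPred_eq] at this ⊢
  convert this using 1
  rw [map_add, map_smul, map_smul]
  module

lemma prof_G {w : E} {K : Set E} (hK : MeasurableSet K) (cK : Convex ℝ K) (sK : ∀ x ∈ K, -x ∈ K) :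
    Prof (G w K) where
  meas := meas_G w hK
  nn := G_nonneg w K
  le1 := G_le_one w K
  even := G_even hK sK
  anti := by
    intro s t hs hst
    rcases eq_or_lt_of_le hst with h | h
    · rw [h]
    have ht : 0 < t := hs.trans_lt h
    have hc : ∀ l : ℝ, 0 < l → l < 1 → ∀ a ∈ K, ∀ b ∈ K, (1 - l) • a + l • b ∈ K :=
      fun l h0 h1 a ha b hb => cK ha hb (by linarith) h0.le (by ring)
    set l := (1 - s / t) / 2 with hl
    have h1 : s / t < 1 := by rw [div_lt_one ht]; exact h
    have h2 : 0 ≤ s / t := by positivity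
    have hl0 : 0 < l := by rw [hl]; linarith
    have hl1 : l < 1 := by rw [hl]; linarith
    have h3 := G_pl (w := w) hK hK hK hl0 hl1 (hc l hl0 hl1) t (-t)
    rw [G_even hK sK] at h3
    have e1 : (1 - l) * t + l * -t = s := by
      rw [hl]; field_simp; ring
    rw [e1] at h3
    rcases (G_nonneg w K t).eq_or_lt with h0 | h0
    · rw [← h0]; exact G_nonneg w K s
    · rw [← Real.rpow_add h0] at h3
      simpa using h3
  dbl := by
    intro s _
    have h3 := G_pl (w := w) hK hK hK (l := 1 / 2) (by norm_num) (by norm_num)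
      (fun a ha b hb => cK ha hb (by norm_num) (by norm_num) (by norm_num)) (2 * s) 0
    have e1 : (1 - 1 / 2) * (2 * s) + 1 / 2 * 0 = s := by ring
    rw [e1, show (1:ℝ) - 1 / 2 = 1 / 2 by norm_num, ← Real.sqrt_eq_rpow, ← Real.sqrt_eq_rpow,
      ← Real.sqrt_mul (G_nonneg w K _)] at h3
    have h4 := Real.sqrt_nonneg (G w K (2 * s) * G w K 0)
    have h5 := Real.mul_self_sqrt (mul_nonneg (G_nonneg w K (2 * s)) (G_nonneg w K 0))
    nlinarith [G_nonneg w K s]

lemma gamma_eq {w : E} (hw : ‖w‖ = 1) {K : Set E} (hK : MeasurableSet K) :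
    (stdGaussian E).real K = ∫ s, G w K s ∂g1 := by
  have h1 : stdGaussian E K = ∫⁻ s, stdGaussian E (sec w K s) ∂g1 := by
    conv_lhs => rw [← line_decomp hw]
    rw [Measure.map_apply (measurable_line w) hK, Measure.prod_apply (measurable_line w hK)]
    rfl
  rw [Measure.real, h1, integral_eq_lintegral_of_nonneg_ae
    (Filter.Eventually.of_forall fun s => G_nonneg w K s) (meas_G w hK).aestronglyMeasurable]
  congr 1
  refine lintegral_congr fun x => ?_
  rw [G, Measure.real, ENNReal.ofReal_toReal (measure_ne_top _ _)]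

lemma inner_line {w : E} (hw : ‖w‖ = 1) (s : ℝ) (y : E) : ⟪w, s • w + proj w y⟫ = s := by
  rw [inner_add_right, inner_proj hw, inner_smul_right, real_inner_self_eq_norm_sq, hw]
  ring

lemma gamma_sq_eq {w : E} (hw : ‖w‖ = 1) {K : Set E} (hK : MeasurableSet K) :
    ∫ x in K, ⟪w, x⟫ ^ 2 ∂(stdGaussian E) = ∫ s, s ^ 2 * G w K s ∂g1 := by
  rw [← integral_indicator hK]
  have hm : Measurable (K.indicator fun x : E => ⟪w, x⟫ ^ 2) :=
    (by fun_prop : Measurable fun x : E => ⟪w, x⟫ ^ 2).indicator hK
  conv_lhs => rw [← line_decomp hw]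
  rw [integral_map (measurable_line w).aemeasurable hm.aestronglyMeasurable]
  have e : (fun p : ℝ × E => K.indicator (fun x : E => ⟪w, x⟫ ^ 2) (p.1 • w + proj w p.2))
      = ({p : ℝ × E | p.1 • w + proj w p.2 ∈ K}).indicator fun p => p.1 ^ 2 := by
    ext p
    by_cases hp : p.1 • w + proj w p.2 ∈ K
    · rw [indicator_of_mem hp, indicator_of_mem (by exact hp), inner_line hw]
    · rw [indicator_of_notMem hp, indicator_of_notMem (by exact hp)]
  rw [e]
  have hS : MeasurableSet {p : ℝ × E | p.1 • w + proj w p.2 ∈ K} := measurable_line w hK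
  have hint : Integrable (({p : ℝ × E | p.1 • w + proj w p.2 ∈ K}).indicator fun p => p.1 ^ 2)
      (g1.prod (stdGaussian E)) := by
    apply Integrable.indicator _ hS
    exact (integrable_sq.comp_fst (stdGaussian E))
  rw [integral_prod _ hint]
  congr 1
  ext s
  have e2 : (fun y : E => ({p : ℝ × E | p.1 • w + proj w p.2 ∈ K}).indicator
      (fun p => p.1 ^ 2) (s, y)) = (sec w K s).indicator fun _ => s ^ 2 := by
    ext y
    by_cases hp : s • w + proj w y ∈ K
    · rw [indicator_of_mem (by exact hp), indicator_of_mem (by exact hp)]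
    · rw [indicator_of_notMem (by exact hp), indicator_of_notMem (by exact hp)]
  rw [e2, integral_indicator_const _ (meas_sec w hK s), smul_eq_mul, mul_comm]
  rfl

/-- **benefit lemma, general space** -/
theorem ben {dl c : ℝ} (hc : ∀ G : ℝ → ℝ, Prof G →
    (1 - c) * (∫ s, G s ∂g1) < ∫ s, s ^ 2 * G s ∂g1 →
    Real.exp (-dl) * √(∫ s, G s ∂g1) ≤ ∫ s, √(G (2 * s)) ∂g1) : FD.P_BEN E dl c := by
  intro w hw K K' C cl cK sK cl' _ _ clC hcyl H
  have hK := cl.measurableSet
  have hK' := cl'.measurableSet
  have hC := clC.measurableSet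
  by_cases ht : (∫ g in K, ⟪w, g⟫ ^ 2 ∂(stdGaussian E)) ≤ (1 - c) * (stdGaussian E).real K
  · exact Or.inl ht
  right
  push Not at ht
  have P := prof_G (w := w) hK cK sK
  rw [gamma_sq_eq hw hK, gamma_eq hw hK] at ht
  have h1 := hc _ P ht
  rw [← gamma_eq hw hK] at h1
  have h2 : ∀ s, √(G w K (2 * s)) * √((stdGaussian E).real K') ≤ G w C s := by
    intro s
    have h3 := pl_set (meas_sec w hK (2 * s)) hK' (meas_sec w hC s) (l := 1 / 2) (by norm_num)
      (by norm_num) (by
        intro a ha b hb
        have h4 := H _ ha _ ((hcyl b).1 hb) (by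
          rw [← proj_apply]; exact inner_proj hw b)
        simp only [sec, mem_ofPred_eq]
        convert h4 using 1
        rw [map_add, map_smul, map_smul, ← proj_apply w b]
        module)
    rw [show (1:ℝ) - 1 / 2 = 1 / 2 by norm_num, ← Real.sqrt_eq_rpow, ← Real.sqrt_eq_rpow] at h3
    exact h3
  have i1 : Integrable (fun s => √(G w K (2 * s)) * √((stdGaussian E).real K')) g1 := by
    apply Integrable.mul_const
    refine Integrable.mono' (integrable_const (1:ℝ))
      ((meas_G w hK).comp (measurable_const_mul 2)).sqrt.aestronglyMeasurable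
      (Filter.Eventually.of_forall fun s => ?_)
    rw [Real.norm_eq_abs, abs_of_nonneg (Real.sqrt_nonneg _)]
    exact Real.sqrt_le_one.2 (G_le_one w K _)
  have i2 : Integrable (G w C) g1 := by
    refine Integrable.mono' (integrable_const (1:ℝ)) (meas_G w hC).aestronglyMeasurable
      (Filter.Eventually.of_forall fun s => ?_)
    rw [Real.norm_eq_abs, abs_of_nonneg (G_nonneg w C s)]
    exact G_le_one w C s
  have h5 := integral_mono i1 i2 h2
  rw [integral_mul_const, ← gamma_eq hw hC] at h5
  refine le_trans ?_ h5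
  rw [Real.sqrt_mul measureReal_nonneg, ← mul_assoc]
  exact mul_le_mul_of_nonneg_right h1 (Real.sqrt_nonneg _)

/-- **G5** -/
theorem target_BEN : FD.Target_BEN := by
  intro dl hdl
  obtain ⟨c, h0, h1, h2⟩ := one_dim hdl
  exact ⟨c, h0, by linarith, fun d => ben h2⟩

end Crest.Agent.R239.Ben949
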