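import Crest.Agent.R239.Ben_331
import Crest.Agent.R239.FDef

/-! R239, block G5 (helper331): `target_BEN`. -/

set_option autoImplicit false

open MeasureTheory ProbabilityTheory Set
open scoped RealInnerProductSpace

namespace Crest.Agent.R239.Ben331

open Crest.Agent.R239.FD

/-- target of G5 -/
theorem target_BEN : Target_BEN := by
  intro dl hdl
  obtain ⟨c, hc, H⟩ := benefit.{0} dl hdl
  refine ⟨min c (1/2), lt_min hc (by norm_num), lt_of_le_of_lt (min_le_right _ _) (by norm_num),
    fun d => ?_⟩
  intro w hw K K' C hK cK sK hK' _ _ hC hcyl hKC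
  by_cases hthin : (∫ g in K, ⟪w, g⟫ ^ 2 ∂(stdGaussian (EuclideanSpace ℝ (Fin d))))
      ≤ (1 - min c (1/2)) * (stdGaussian (EuclideanSpace ℝ (Fin d))).real K
  · exact Or.inl hthin
  · right
    push Not at hthin
    have hK0 : 0 ≤ (stdGaussian (EuclideanSpace ℝ (Fin d))).real K := measureReal_nonneg
    have hK0' : 0 ≤ (stdGaussian (EuclideanSpace ℝ (Fin d))).real K' := measureReal_nonneg
    have h1 := H (EuclideanSpace ℝ (Fin d)) w hw K K' C hK.measurableSet hK'.measurableSet
      hC.measurableSet cK sK hKC (by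
        refine le_trans ?_ hthin.le
        apply mul_le_mul_of_nonneg_right _ hK0
        linarith [min_le_left c (1/2)])
    have h2 : {x | x - ⟪w, x⟫ • w ∈ K'} = K' := by
      ext x; exact (hcyl x).symm
    rw [h2] at h1
    have h3 : √((stdGaussian (EuclideanSpace ℝ (Fin d))).real K *
        (stdGaussian (EuclideanSpace ℝ (Fin d))).real K')
        ≤ Real.exp dl * (stdGaussian (EuclideanSpace ℝ (Fin d))).real C := by
      apply Real.sqrt_le_iff.2
      refine ⟨by positivity, h1.trans (le_of_eq ?_)⟩
      rw [mul_pow, ← Real.exp_nat_mul]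
      norm_num
    calc _ ≤ Real.exp (-dl) * (Real.exp dl * (stdGaussian (EuclideanSpace ℝ (Fin d))).real C) :=
          mul_le_mul_of_nonneg_left h3 (Real.exp_pos _).le
      _ = _ := by rw [← mul_assoc, ← Real.exp_add]; simp

end Crest.Agent.R239.Ben331
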