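import Crest.Agent.R239.LineGauss
import Crest.Agent.R239.Gau4

/-!
# R239, block G5 (helper331): the benefit of a direction

* `one_dim` : 1-D lemma.  `g` even, antitone on `[0, ∞)`, midpoint log-concave at `0, 1`, and
  `(1 - c) ∫ g ≤ ∫ t² g` (standard Gaussian): then `exp (-δ) √(g 0) ≤ ∫ √(g (2t))`.
* `benefit` : for a unit vector `n`, a symmetric convex `A` with `E[⟨n,x⟩² | A] ≥ 1 - c`, and any
  `B`, every `C ⊇ (1/2) A + (1/2) (B ∩ n^⊥)` has `γ(A) γ(B') ≤ exp (2 δ) γ(C)²`,
  `B' = {x | x - ⟨n,x⟩ n ∈ B}`.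
-/

set_option autoImplicit false

open MeasureTheory ProbabilityTheory Set
open scoped RealInnerProductSpace ENNReal

namespace Crest.Agent.R239.Ben331

/-- the standard normal law -/
noncomputable abbrev μ : Measure ℝ := gaussianReal 0 1

/-- the shape of a section function -/
structure Shape (g : ℝ → ℝ) : Prop where
  meas : Measurable g
  nn : ∀ t, 0 ≤ g t
  even : ∀ t, g (-t) = g t
  anti : ∀ s t, 0 ≤ s → s ≤ t → g t ≤ g s
  mid : g 0 * g 1 ≤ g (1/2) ^ 2

lemma Shape.le_abs {g : ℝ → ℝ} (h : Shape g) {s t : ℝ} (hst : |s| ≤ |t|) : g t ≤ g s := by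
  have e : ∀ t, g |t| = g t := fun t => by
    rcases abs_cases t with ⟨h1, _⟩ | ⟨h1, _⟩ <;> rw [h1]
    exact h.even t
  rw [← e t, ← e s]
  exact h.anti _ _ (abs_nonneg _) hst

lemma Shape.le_zero {g : ℝ → ℝ} (h : Shape g) (t : ℝ) : g t ≤ g 0 :=
  h.le_abs (by simp)

lemma integrable_sq : Integrable (fun t : ℝ => t ^ 2) μ :=
  (memLp_id_gaussianReal 2).integrable_sq

lemma integral_sq : ∫ t : ℝ, t ^ 2 ∂μ = 1 := by
  have h := variance_eq_sub (X := (id : ℝ → ℝ)) (μ := gaussianReal 0 1) (memLp_id_gaussianReal 2)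
  rw [variance_id_gaussianReal] at h
  simp at h
  exact h.symm

lemma Shape.integrable {g : ℝ → ℝ} (h : Shape g) : Integrable g μ :=
  Integrable.of_bound h.meas.aestronglyMeasurable (g 0) (Filter.Eventually.of_forall fun t => by
    rw [Real.norm_eq_abs, abs_of_nonneg (h.nn t)]; exact h.le_zero t)

lemma Shape.integrable_sq_mul {g : ℝ → ℝ} (h : Shape g) : Integrable (fun t => t ^ 2 * g t) μ := by
  refine (integrable_sq.mul_const (g 0)).mono'
    ((measurable_id.pow_const 2).mul h.meas).aestronglyMeasurable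
    (Filter.Eventually.of_forall fun t => ?_)
  rw [Real.norm_eq_abs, abs_of_nonneg (mul_nonneg (sq_nonneg _) (h.nn t))]
  exact mul_le_mul_of_nonneg_left (h.le_zero t) (sq_nonneg _)


lemma pos_of_volume {S : Set ℝ} (h : volume S ≠ 0) : 0 < μ.real S := by
  have h1 : μ S ≠ 0 := fun h0 => h (gaussianReal_absolutelyContinuous' 0 one_ne_zero h0)
  exact ENNReal.toReal_pos h1 (measure_ne_top _ _)

lemma pos_ball {r : ℝ} (hr : 0 < r) : 0 < μ.real {t : ℝ | |t| ≤ r} := by
  apply pos_of_volume
  have : {t : ℝ | |t| ≤ r} = Icc (-r) r := by ext t; simp [abs_le]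
  rw [this, Real.volume_Icc]
  simp
  linarith

/-- the centred second moment outside of `[-M, M]` is positive -/
lemma pos_tail {M : ℝ} (hM : 1 ≤ M) : 0 < ∫ t in {t : ℝ | M < |t|}, (t ^ 2 - 1) ∂μ := by
  have hS : MeasurableSet {t : ℝ | M < |t|} := measurableSet_lt measurable_const
    (measurable_id.abs)
  rw [setIntegral_pos_iff_support_of_nonneg_ae]
  · have hsub : Icc (M+1) (M+2) ⊆ Function.support (fun t : ℝ => t ^ 2 - 1) ∩ {t : ℝ | M < |t|} := by
      intro t ht
      refine ⟨?_, ?_⟩
      · simp only [Function.mem_support]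
        have := ht.1
        nlinarith
      · simp only [mem_setOf_eq]
        exact lt_of_lt_of_le (by linarith [ht.1]) (le_abs_self t)
    refine lt_of_lt_of_le ?_ (measure_mono hsub)
    rw [pos_iff_ne_zero]
    intro h0
    have := gaussianReal_absolutelyContinuous' 0 one_ne_zero h0
    rw [Real.volume_Icc] at this
    simp at this
  · refine (ae_restrict_iff' hS).2 (Filter.Eventually.of_forall fun t ht => ?_)
    simp only [mem_setOf_eq] at ht
    simp only [Pi.zero_apply]
    have : 1 < |t| := lt_of_le_of_lt hM ht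
    have h2 : 1 < |t| ^ 2 := by nlinarith
    rw [sq_abs] at h2
    linarith
  · exact (integrable_sq.sub (integrable_const 1)).integrableOn

lemma exists_big {δ : ℝ} (hδ : 0 < δ) : ∃ M : ℝ, 1 ≤ M ∧
    Real.exp (-δ) ≤ μ.real {t : ℝ | |t| ≤ M / 2} := by
  have h1 : Filter.Tendsto (fun n : ℕ => μ.real {t : ℝ | |t| ≤ (n : ℝ)}) Filter.atTop
      (nhds (μ.real (⋃ n : ℕ, {t : ℝ | |t| ≤ (n : ℝ)}))) := by
    have := tendsto_measure_iUnion_atTop (μ := μ) (s := fun n : ℕ => {t : ℝ | |t| ≤ (n : ℝ)})
      (fun a b hab t ht => le_trans (show |t| ≤ (a : ℝ) from ht) (by exact_mod_cast hab))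
    exact (ENNReal.tendsto_toReal (measure_ne_top _ _)).comp this
  have h2 : (⋃ n : ℕ, {t : ℝ | |t| ≤ (n : ℝ)}) = univ := by
    apply eq_univ_of_forall
    intro t
    obtain ⟨n, hn⟩ := exists_nat_ge |t|
    exact mem_iUnion.2 ⟨n, hn⟩
  rw [h2] at h1
  have h3 : μ.real (univ : Set ℝ) = 1 := by simp
  rw [h3] at h1
  have h4 := (h1.eventually (lt_mem_nhds (show Real.exp (-δ) < 1 by
    rw [Real.exp_lt_one_iff]; linarith))).and (Filter.eventually_ge_atTop 1)
  obtain ⟨n, hn, hn1⟩ := h4.exists
  refine ⟨2 * n, ?_, ?_⟩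
  · have : (1:ℝ) ≤ n := by exact_mod_cast hn1
    linarith
  · rw [mul_div_cancel_left₀ _ (two_ne_zero' ℝ)]
    exact hn.le

/-- arithmetic heart of the 1-D lemma -/
lemma arith {p q c Y g0 g1 gh gM Z N : ℝ} (hp : 0 < p) (hp1 : p ≤ 1) (hq : 0 < q) (hc : 0 < c)
    (hcp : c * (1 + 1 / p) ≤ 1 / 4) (hcp2 : 2 * c / p ≤ 1) (hcq : c / q ≤ 1)
    (h0 : 0 ≤ g1) (h1h : g1 ≤ gh) (hM1 : gM ≤ g1) (hg0' : 0 ≤ g0)
    (hN : 3 / 4 * Y + (g1 - gM) * q ≤ N) (hNZ : N ≤ c * Z) (hZ : Z ≤ Y + gh)
    (hY : p * (gh - g1) ≤ Y) (hmid : g0 * g1 ≤ gh ^ 2) (hZpos : 0 < Z) :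
    (1 - c / q - 4 * c / p) * g0 ≤ gM := by
  have hghY : gh ≤ Y / p + g1 := by
    rw [div_add' _ _ _ hp.ne', le_div_iff₀ hp]
    nlinarith
  have hY0 : 0 ≤ Y := le_trans (mul_nonneg hp.le (sub_nonneg.2 h1h)) hY
  have key : 3 / 4 * Y + (g1 - gM) * q ≤ c * (1 + 1 / p) * Y + c * g1 := by
    calc _ ≤ c * Z := le_trans hN hNZ
      _ ≤ c * (Y + (Y / p + g1)) := by
        apply mul_le_mul_of_nonneg_left _ hc.le
        linarith
      _ = _ := by ring
  have key2 : 1 / 2 * Y + (g1 - gM) * q ≤ c * g1 := by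
    have := mul_le_mul_of_nonneg_right hcp hY0
    linarith
  have hq2 : 0 ≤ (g1 - gM) * q := mul_nonneg (sub_nonneg.2 hM1) hq.le
  have hY2 : Y ≤ 2 * c * g1 := by linarith
  have hq3 : (g1 - gM) * q ≤ c * g1 := by linarith
  have hgh : gh ≤ (1 + 2 * c / p) * g1 := by
    have : Y / p ≤ 2 * c * g1 / p := div_le_div_of_nonneg_right hY2 hp.le
    calc gh ≤ Y / p + g1 := hghY
      _ ≤ 2 * c * g1 / p + g1 := by linarith
      _ = _ := by ring
  have hg1 : 0 < g1 := by
    rcases h0.lt_or_eq with h | h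
    · exact h
    · exfalso
      rw [← h] at hY2 hgh
      linarith
  set x := 2 * c / p with hx
  have hx0 : 0 < x := by positivity
  have hg0 : g0 ≤ (1 + x) ^ 2 * g1 := by
    have h1 : gh ^ 2 ≤ ((1 + x) * g1) ^ 2 := by
      apply pow_le_pow_left₀ (h0.trans h1h) hgh
    have h2 : g0 * g1 ≤ ((1 + x) ^ 2 * g1) * g1 := by
      calc g0 * g1 ≤ gh ^ 2 := hmid
        _ ≤ _ := h1
        _ = _ := by ring
    exact le_of_mul_le_mul_right h2 hg1
  have hgM : (1 - c / q) * g1 ≤ gM := by
    have : g1 - gM ≤ c * g1 / q := by rw [le_div_iff₀ hq]; exact hq3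
    have h3 : c * g1 / q = c / q * g1 := by ring
    rw [h3] at this
    linarith
  have h12 : (1 - 2 * x) * g0 ≤ g1 := by
    by_cases hx2 : 1 - 2 * x ≤ 0
    · exact le_trans (mul_nonpos_of_nonpos_of_nonneg hx2 hg0') h0
    · push Not at hx2
      calc (1 - 2 * x) * g0 ≤ (1 - 2 * x) * ((1 + x) ^ 2 * g1) :=
            mul_le_mul_of_nonneg_left hg0 hx2.le
        _ = ((1 - 2 * x) * (1 + x) ^ 2) * g1 := by ring
        _ ≤ 1 * g1 := by
            apply mul_le_mul_of_nonneg_right _ h0
            nlinarith [sq_nonneg x, mul_nonneg hx0.le (sq_nonneg x)]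
        _ = g1 := one_mul _
  have hcq0 : 0 ≤ 1 - c / q := by linarith
  have hfin : (1 - c / q - 4 * c / p) * g0 ≤ (1 - c / q) * ((1 - 2 * x) * g0) := by
    have e1 : 4 * c / p = 2 * x := by rw [hx]; ring
    rw [e1]
    have : 0 ≤ c / q * (2 * x) * g0 := by positivity
    nlinarith
  exact hfin.trans ((mul_le_mul_of_nonneg_left h12 hcq0).trans hgM)

/-- **1-D lemma.** -/
theorem one_dim (δ : ℝ) (hδ : 0 < δ) : ∃ c : ℝ, 0 < c ∧ ∀ g : ℝ → ℝ, Shape g →
    (1 - c) * ∫ t, g t ∂μ ≤ ∫ t, t ^ 2 * g t ∂μ → 0 < ∫ t, g t ∂μ →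
    Real.exp (-δ) * √(g 0) ≤ ∫ t, √(g (2 * t)) ∂μ := by
  obtain ⟨M, hM1, hM⟩ := exists_big (half_pos hδ)
  set p := μ.real {t : ℝ | |t| ≤ 1 / 2} with hp_def
  have hp : 0 < p := pos_ball (by norm_num)
  have hp1 : p ≤ 1 := measureReal_le_one
  set q := ∫ t in {t : ℝ | M < |t|}, (t ^ 2 - 1) ∂μ with hq_def
  have hq : 0 < q := pos_tail hM1
  have hex : Real.exp (-δ) < 1 := by rw [Real.exp_lt_one_iff]; linarith
  obtain ⟨c, hc, hc1, hc2, hc3, hc4⟩ : ∃ c : ℝ, 0 < c ∧ c * (1 + 1 / p) ≤ 1 / 4 ∧ 2 * c / p ≤ 1 ∧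
      c / q ≤ 1 ∧ Real.exp (-δ) ≤ 1 - c / q - 4 * c / p := by
    have t : ∀ k : ℝ, Filter.Tendsto (fun c : ℝ => c * k) (nhdsWithin 0 (Ioi 0)) (nhds 0) := by
      intro k
      have : Filter.Tendsto (fun c : ℝ => c * k) (nhds 0) (nhds (0 * k)) :=
        (continuous_id.mul continuous_const).tendsto 0
      rw [zero_mul] at this
      exact this.mono_left nhdsWithin_le_nhds
    have e1 := (t (1 + 1 / p)).eventually (gt_mem_nhds (show (0:ℝ) < 1 / 4 by norm_num))
    have e2 := (t (2 / p)).eventually (gt_mem_nhds (show (0:ℝ) < 1 by norm_num))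
    have e3 := (t (1 / q)).eventually (gt_mem_nhds (show (0:ℝ) < 1 by norm_num))
    have e4 := (t (1 / q + 4 / p)).eventually
      (gt_mem_nhds (show (0:ℝ) < 1 - Real.exp (-δ) by linarith))
    have e5 : ∀ᶠ c : ℝ in nhdsWithin 0 (Ioi 0), 0 < c := eventually_mem_nhdsWithin
    obtain ⟨c, ⟨⟨⟨h1, h2⟩, h3⟩, h4⟩, h5⟩ := (((e1.and e2).and e3).and e4 |>.and e5).exists
    refine ⟨c, h5, h1.le, ?_, ?_, ?_⟩
    · have : 2 * c / p = c * (2 / p) := by ring
      rw [this]; exact h2.le
    · have : c / q = c * (1 / q) := by ring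
      rw [this]; exact h3.le
    · have : c / q + 4 * c / p = c * (1 / q + 4 / p) := by ring
      linarith
  refine ⟨c, hc, fun g hg hvar hZpos => ?_⟩
  have hgi := hg.integrable
  have hg2 := hg.integrable_sq_mul
  have hB : MeasurableSet {t : ℝ | |t| ≤ 1 / 2} := measurableSet_le measurable_id.abs
    measurable_const
  have hS : MeasurableSet {t : ℝ | M < |t|} := measurableSet_lt measurable_const
    measurable_id.abs
  have habs : |(1:ℝ)| = 1 := abs_one
  have hhalf : |(1/2:ℝ)| = 1/2 := abs_of_pos (by norm_num)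
  have hMa : |M| = M := abs_of_pos (by linarith)
  -- the quantities
  set Y := ∫ t in {t : ℝ | |t| ≤ 1 / 2}, (g t - g 1) ∂μ with hY_def
  have hN0 : ∫ t, (1 - t ^ 2) * (g t - g 1) ∂μ = ∫ t, g t ∂μ - ∫ t, t ^ 2 * g t ∂μ := by
    have : ∀ t : ℝ, (1 - t ^ 2) * (g t - g 1) = (g t - t ^ 2 * g t) - (g 1 - t ^ 2 * g 1) :=
      fun t => by ring
    have i1 : Integrable (fun t => g t - t ^ 2 * g t) μ := hgi.sub hg2
    have i2 : Integrable (fun t : ℝ => t ^ 2 * g 1) μ := integrable_sq.mul_const _
    have i3 : Integrable (fun t : ℝ => g 1 - t ^ 2 * g 1) μ := (integrable_const _).sub i2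
    simp_rw [this]
    rw [integral_sub i1 i3, integral_sub hgi hg2, integral_sub (integrable_const _) i2,
      integral_mul_const, integral_sq]
    simp
  have hYi : Integrable ({t : ℝ | |t| ≤ 1 / 2}.indicator (fun t => g t - g 1)) μ :=
    (hgi.sub (integrable_const _)).indicator hB
  have hqi : Integrable ({t : ℝ | M < |t|}.indicator (fun t => (t ^ 2 - 1))) μ :=
    (integrable_sq.sub (integrable_const _)).indicator hS
  have hN : 3 / 4 * Y + (g 1 - g M) * q ≤ ∫ t, (1 - t ^ 2) * (g t - g 1) ∂μ := by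
    rw [hY_def, hq_def, ← integral_indicator hB, ← integral_indicator hS, ← integral_const_mul,
      ← integral_const_mul, ← integral_add (hYi.const_mul _) (hqi.const_mul _)]
    refine integral_mono ((hYi.const_mul _).add (hqi.const_mul _)) ?_ fun t => ?_
    · have : (fun t : ℝ => (1 - t ^ 2) * (g t - g 1))
          = fun t => (g t - t ^ 2 * g t) - (g 1 - t ^ 2 * g 1) := by
        ext t; ring
      rw [this]
      exact (hgi.sub hg2).sub ((integrable_const _).sub (integrable_sq.mul_const _))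
    · simp only [indicator, mem_setOf_eq]
      by_cases h1 : |t| ≤ 1 / 2
      · have h2 : ¬ M < |t| := by push Not; linarith
        rw [if_pos h1, if_neg h2]
        have h3 : g 1 ≤ g t := hg.le_abs (by rw [habs]; linarith)
        have h4 : t ^ 2 ≤ 1 / 4 := by
          rw [← sq_abs]; nlinarith [abs_nonneg t]
        nlinarith
      · rw [if_neg h1]
        push Not at h1
        by_cases h2 : M < |t|
        · rw [if_pos h2]
          have h3 : g t ≤ g M := hg.le_abs (by rw [hMa]; exact h2.le)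
          have h4 : 1 < t ^ 2 := by
            rw [← sq_abs]; nlinarith [abs_nonneg t]
          nlinarith
        · rw [if_neg h2]
          push Not at h2
          by_cases h5 : |t| ≤ 1
          · have h3 : g 1 ≤ g t := hg.le_abs (by rw [habs]; linarith)
            have h4 : t ^ 2 ≤ 1 := by
              rw [← sq_abs]; nlinarith [abs_nonneg t]
            nlinarith
          · push Not at h5
            have h3 : g t ≤ g 1 := hg.le_abs (by rw [habs]; linarith)
            have h4 : 1 < t ^ 2 := by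
              rw [← sq_abs]; nlinarith [abs_nonneg t]
            nlinarith
  have hZ : ∫ t, g t ∂μ ≤ Y + g (1 / 2) := by
    have : g (1 / 2) = ∫ _t : ℝ, g (1/2) ∂μ := by simp
    rw [this, hY_def, ← integral_indicator hB, ← integral_add hYi (integrable_const _)]
    refine integral_mono hgi (hYi.add (integrable_const _)) fun t => ?_
    simp only [indicator, mem_setOf_eq]
    by_cases h1 : |t| ≤ 1 / 2
    · rw [if_pos h1]
      have h3 : g 1 ≤ g (1/2) := hg.le_abs (by rw [habs, hhalf]; norm_num)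
      linarith
    · rw [if_neg h1]
      push Not at h1
      have h3 : g t ≤ g (1/2) := hg.le_abs (by rw [hhalf]; exact h1.le)
      linarith
  have hY : p * (g (1 / 2) - g 1) ≤ Y := by
    have : p * (g (1/2) - g 1) = ∫ _t in {t : ℝ | |t| ≤ 1 / 2}, (g (1/2) - g 1) ∂μ := by
      rw [setIntegral_const, smul_eq_mul]
    rw [this]
    refine setIntegral_mono_on (integrable_const _).integrableOn
      (hgi.sub (integrable_const _)).integrableOn hB fun t ht => ?_
    have : g (1/2) ≤ g t := hg.le_abs (by rw [hhalf]; exact ht)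
    linarith
  have hgM := arith hp hp1 hq hc hc1 hc2 hc3 (hg.nn 1)
    (hg.le_abs (by rw [habs, hhalf]; norm_num) : g 1 ≤ g (1/2))
    (hg.le_abs (by rw [habs, hMa]; exact hM1) : g M ≤ g 1) (hg.nn 0)
    hN (by rw [hN0]; linarith) hZ hY hg.mid hZpos
  have hgM2 : Real.exp (-δ) * g 0 ≤ g M :=
    le_trans (mul_le_mul_of_nonneg_right hc4 (hg.nn 0)) hgM
  -- lower bound of the integral
  have hR : MeasurableSet {t : ℝ | |t| ≤ M / 2} := measurableSet_le measurable_id.abs
    measurable_const
  have hroot : Integrable (fun t => √(g (2 * t))) μ := by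
    refine Integrable.of_bound (C := √(g 0))
      (hg.meas.comp (measurable_const.mul measurable_id)).sqrt.aestronglyMeasurable
      (Filter.Eventually.of_forall fun t => ?_)
    rw [Real.norm_eq_abs, abs_of_nonneg (Real.sqrt_nonneg _)]
    exact Real.sqrt_le_sqrt (hg.le_zero _)
  calc Real.exp (-δ) * √(g 0)
      = Real.exp (-(δ/2)) * √(Real.exp (-δ) * g 0) := by
        rw [Real.sqrt_mul (Real.exp_pos _).le, ← Real.exp_half]
        rw [← mul_assoc, ← Real.exp_add]
        congr 2
        ring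
    _ ≤ μ.real {t : ℝ | |t| ≤ M / 2} * √(g M) :=
        mul_le_mul hM (Real.sqrt_le_sqrt hgM2) (Real.sqrt_nonneg _) measureReal_nonneg
    _ = ∫ _t in {t : ℝ | |t| ≤ M / 2}, √(g M) ∂μ := by rw [setIntegral_const, smul_eq_mul]
    _ ≤ ∫ t in {t : ℝ | |t| ≤ M / 2}, √(g (2 * t)) ∂μ := by
        refine setIntegral_mono_on (integrable_const _).integrableOn hroot.integrableOn hR
          fun t ht => Real.sqrt_le_sqrt (hg.le_abs ?_)
        rw [hMa, abs_mul, abs_two]
        have : |t| ≤ M / 2 := ht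
        linarith
    _ ≤ ∫ t, √(g (2 * t)) ∂μ := setIntegral_le_integral hroot
        (Filter.Eventually.of_forall fun t => Real.sqrt_nonneg _)


/-! ### the `n`-dimensional part -/

variable {E : Type*} [NormedAddCommGroup E] [InnerProductSpace ℝ E] [FiniteDimensional ℝ E]
  [MeasurableSpace E] [BorelSpace E]

open Crest.Agent.Lib.PrekopaLeindler

/-- Prékopa–Leindler for sets. -/
lemma pk {A B C : Set E} (hA : MeasurableSet A) (hB : MeasurableSet B) (hC : MeasurableSet C)
    {l : ℝ} (h0 : 0 < l) (h1 : l < 1)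
    (h : ∀ a ∈ A, ∀ b ∈ B, (1 - l) • a + l • b ∈ C) :
    (stdGaussian E).real A ^ (1 - l) * (stdGaussian E).real B ^ l ≤ (stdGaussian E).real C := by
  have := PL_std (E := E) l h0 h1 (A.indicator 1) (B.indicator 1) (C.indicator 1)
    (measurable_one.indicator hA) (measurable_one.indicator hB) (measurable_one.indicator hC) (by
      intro x y
      by_cases hx : x ∈ A
      · by_cases hy : y ∈ B
        · simp [hx, hy, h x hx y hy]
        · simp [hy, ENNReal.zero_rpow_of_pos h0]
      · simp [hx, ENNReal.zero_rpow_of_pos (show 0 < 1 - l by linarith)])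
  rw [lintegral_indicator_one hA, lintegral_indicator_one hB, lintegral_indicator_one hC] at this
  have h2 := ENNReal.toReal_mono (measure_ne_top _ _) this
  rw [ENNReal.toReal_mul, ← ENNReal.toReal_rpow, ← ENNReal.toReal_rpow] at h2
  exact h2

lemma pk_half {A B C : Set E} (hA : MeasurableSet A) (hB : MeasurableSet B) (hC : MeasurableSet C)
    (h : ∀ a ∈ A, ∀ b ∈ B, (1/2 : ℝ) • a + (1/2 : ℝ) • b ∈ C) :
    √((stdGaussian E).real A) * √((stdGaussian E).real B) ≤ (stdGaussian E).real C := by
  have := pk hA hB hC (l := 1/2) (by norm_num) (by norm_num) (by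
    intro a ha b hb
    have e : (1 - 1/2 : ℝ) = 1/2 := by norm_num
    rw [e]; exact h a ha b hb)
  have e : (1 - 1/2 : ℝ) = 1/2 := by norm_num
  rw [e] at this
  rw [Real.sqrt_eq_rpow, Real.sqrt_eq_rpow]
  exact this

/-- the section at height `t` in the direction `n` (a cylinder) -/
def sec (n : E) (A : Set E) (t : ℝ) : Set E := {y | t • n + proj n y ∈ A}

lemma measurableSet_sec (n : E) {A : Set E} (hA : MeasurableSet A) (t : ℝ) :
    MeasurableSet (sec n A t) :=
  hA.preimage (by fun_prop)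

lemma measurable_sec (n : E) {A : Set E} (hA : MeasurableSet A) :
    Measurable fun t => (stdGaussian E).real (sec n A t) :=
  (measurable_measure_prodMk_left (measurable_line n hA)).ennreal_toReal

/-- Fubini along `n`. -/
lemma sec_integral {n : E} (hn : ‖n‖ = 1) {A : Set E} (hA : MeasurableSet A) :
    (stdGaussian E).real A = ∫ t, (stdGaussian E).real (sec n A t) ∂μ := by
  rw [integral_eq_lintegral_of_nonneg_ae (Filter.Eventually.of_forall fun x => measureReal_nonneg)
    (measurable_sec n hA).aestronglyMeasurable]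
  rw [Measure.real]
  congr 1
  conv_lhs => rw [← line_decomp hn]
  rw [Measure.map_apply (measurable_line n) hA, Measure.prod_apply (measurable_line n hA)]
  refine lintegral_congr fun x => ?_
  rw [Measure.real, ENNReal.ofReal_toReal (measure_ne_top _ _)]
  rfl

lemma sec_integral_sq {n : E} (hn : ‖n‖ = 1) {A : Set E} (hA : MeasurableSet A) :
    ∫ x in A, ⟪n, x⟫ ^ 2 ∂(stdGaussian E)
      = ∫ t, t ^ 2 * (stdGaussian E).real (sec n A t) ∂μ := by
  rw [← integral_indicator hA, integral_eq_lintegral_of_nonneg_ae, integral_eq_lintegral_of_nonneg_ae]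
  · congr 1
    conv_lhs => rw [← line_decomp hn]
    rw [lintegral_map _ (measurable_line n), lintegral_prod]
    · refine lintegral_congr fun t => ?_
      rw [Measure.real, ENNReal.ofReal_mul (sq_nonneg _), ENNReal.ofReal_toReal (measure_ne_top _ _),
        ← lintegral_indicator_one (measurableSet_sec n hA t), ← lintegral_const_mul]
      · refine lintegral_congr fun y => ?_
        have h1 : ⟪n, t • n + proj n y⟫ = t := by
          rw [inner_add_right, inner_smul_right, inner_proj hn, real_inner_self_eq_norm_sq, hn]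
          ring
        by_cases hy : y ∈ sec n A t
        · have hy' : t • n + proj n y ∈ A := hy
          rw [indicator_of_mem hy', indicator_of_mem hy, h1]
          simp
        · have hy' : t • n + proj n y ∉ A := hy
          rw [indicator_of_notMem hy', indicator_of_notMem hy]
          simp
      · exact measurable_one.indicator (measurableSet_sec n hA t)
    · exact (Measurable.comp (ENNReal.measurable_ofReal.comp
        ((Measurable.indicator (by fun_prop) hA))) (measurable_line n)).aemeasurable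
    · exact ENNReal.measurable_ofReal.comp (Measurable.indicator (by fun_prop) hA)
  · exact Filter.Eventually.of_forall fun t => mul_nonneg (sq_nonneg _) measureReal_nonneg
  · exact ((measurable_id.pow_const 2).mul (measurable_sec n hA)).aestronglyMeasurable
  · exact Filter.Eventually.of_forall fun t => indicator_nonneg (fun x _ => sq_nonneg _) _
  · exact (Measurable.indicator (by fun_prop) hA).aestronglyMeasurable

lemma std_neg : (stdGaussian E).map (-ContinuousLinearMap.id ℝ E) = stdGaussian E := by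
  have h := gau_ext (A := -ContinuousLinearMap.id ℝ E) (B := ContinuousLinearMap.id ℝ E) (by
    intro t
    rw [adjoint_id', map_neg, adjoint_id']
    simp)
  rw [gau_id] at h
  exact h

lemma shape_sec {n : E} {A : Set E} (hA : MeasurableSet A) (cA : Convex ℝ A)
    (sA : ∀ x ∈ A, -x ∈ A) : Shape fun t => (stdGaussian E).real (sec n A t) := by
  have hneg : ∀ t, (stdGaussian E).real (sec n A (-t)) = (stdGaussian E).real (sec n A t) := by
    intro t
    have h1 : sec n A (-t) = (-ContinuousLinearMap.id ℝ E) ⁻¹' (sec n A t) := by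
      ext y
      have h3 : -t • n + proj n y = -(t • n + proj n (-y)) := by
        rw [map_neg]; module
      constructor
      · intro hy
        have hy' : -t • n + proj n y ∈ A := hy
        have := sA _ hy'
        rw [h3, neg_neg] at this
        exact this
      · intro hy
        have hy' : t • n + proj n (-y) ∈ A := hy
        have := sA _ hy'
        rw [← h3] at this
        exact this
    rw [h1]
    conv_rhs => rw [← std_neg]
    rw [Measure.real, Measure.real, Measure.map_apply (ContinuousLinearMap.measurable _)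
      (measurableSet_sec n hA t)]
  have hlc : ∀ (s t l : ℝ), 0 < l → l < 1 → (stdGaussian E).real (sec n A s) ^ (1 - l) *
      (stdGaussian E).real (sec n A t) ^ l ≤
        (stdGaussian E).real (sec n A ((1 - l) * s + l * t)) := by
    intro s t l h0 h1
    refine pk (measurableSet_sec n hA _) (measurableSet_sec n hA _) (measurableSet_sec n hA _)
      h0 h1 fun a ha b hb => ?_
    have h2 := cA (show s • n + proj n a ∈ A from ha) (show t • n + proj n b ∈ A from hb)
      (show 0 ≤ 1 - l by linarith) h0.le (by ring)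
    show ((1 - l) * s + l * t) • n + proj n ((1 - l) • a + l • b) ∈ A
    have h3 : ((1 - l) * s + l * t) • n + proj n ((1 - l) • a + l • b)
        = (1 - l) • (s • n + proj n a) + l • (t • n + proj n b) := by
      rw [map_add, map_smul, map_smul]
      module
    rw [h3]; exact h2
  refine ⟨measurable_sec n hA, fun t => measureReal_nonneg, hneg, ?_, ?_⟩
  · intro s t hs hst
    rcases hst.eq_or_lt with rfl | hst'
    · exact le_rfl
    have ht : 0 < t := lt_of_le_of_lt hs hst'
    have h0 : 0 < (t - s) / (2 * t) := div_pos (by linarith) (by linarith)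
    have h1 : (t - s) / (2 * t) < 1 := by rw [div_lt_one (by linarith)]; linarith
    have h := hlc t (-t) _ h0 h1
    have e : (1 - (t - s) / (2 * t)) * t + (t - s) / (2 * t) * -t = s := by
      field_simp
      ring
    rw [e, hneg] at h
    show (stdGaussian E).real (sec n A t) ≤ (stdGaussian E).real (sec n A s)
    rcases (measureReal_nonneg (μ := stdGaussian E) (s := sec n A t)).lt_or_eq with hp | hp
    · rw [← Real.rpow_add hp] at h
      simpa using h
    · rw [← hp]; exact measureReal_nonneg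
  · show (stdGaussian E).real (sec n A 0) * (stdGaussian E).real (sec n A 1) ≤
      (stdGaussian E).real (sec n A (1/2)) ^ 2
    have h := hlc 0 1 (1/2) (by norm_num) (by norm_num)
    have e : (1 - 1/2 : ℝ) = 1/2 := by norm_num
    have e2 : (1 - 1/2 : ℝ) * 0 + 1/2 * 1 = 1/2 := by norm_num
    rw [e2, e, ← Real.sqrt_eq_rpow, ← Real.sqrt_eq_rpow, ← Real.sqrt_mul measureReal_nonneg] at h
    rwa [Real.sqrt_le_left measureReal_nonneg] at h

/-- **Benefit lemma.** -/
theorem benefit (δ : ℝ) (hδ : 0 < δ) : ∃ c : ℝ, 0 < c ∧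
    ∀ (E : Type*) [NormedAddCommGroup E] [InnerProductSpace ℝ E] [FiniteDimensional ℝ E]
      [MeasurableSpace E] [BorelSpace E] (n : E), ‖n‖ = 1 → ∀ A B C : Set E,
      MeasurableSet A → MeasurableSet B → MeasurableSet C → Convex ℝ A → (∀ x ∈ A, -x ∈ A) →
      (∀ a ∈ A, ∀ b ∈ B, ⟪n, b⟫ = 0 → (1/2 : ℝ) • a + (1/2 : ℝ) • b ∈ C) →
      (1 - c) * (stdGaussian E).real A ≤ ∫ x in A, ⟪n, x⟫ ^ 2 ∂(stdGaussian E) →
      (stdGaussian E).real A * (stdGaussian E).real {x | x - ⟪n, x⟫ • n ∈ B}
        ≤ Real.exp (2 * δ) * (stdGaussian E).real C ^ 2 := by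
  obtain ⟨c, hc, H⟩ := one_dim δ hδ
  refine ⟨c, hc, ?_⟩
  intro E _ _ _ _ _ n hn A B C hA hB hC cA sA hABC hvar
  set g : ℝ → ℝ := fun t => (stdGaussian E).real (sec n A t) with hg_def
  have hg : Shape g := shape_sec hA cA sA
  have hB' : MeasurableSet {x | x - ⟪n, x⟫ • n ∈ B} := hB.preimage (by fun_prop)
  set β := (stdGaussian E).real {x | x - ⟪n, x⟫ • n ∈ B} with hβ
  have hβ0 : 0 ≤ β := measureReal_nonneg
  have hAg : (stdGaussian E).real A = ∫ t, g t ∂μ := sec_integral hn hA
  have hA0 : 0 ≤ (stdGaussian E).real A := measureReal_nonneg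
  rcases hA0.lt_or_eq with hpos | hzero
  swap
  · rw [← hzero, zero_mul]; positivity
  have hle : (stdGaussian E).real A ≤ g 0 := by
    rw [hAg]
    calc ∫ t, g t ∂μ ≤ ∫ _t : ℝ, g 0 ∂μ :=
          integral_mono hg.integrable (integrable_const _) fun t => hg.le_zero t
      _ = g 0 := by simp
  have h1 := H g hg (by rw [← hAg]; rw [sec_integral_sq hn hA] at hvar; exact hvar)
    (by rw [← hAg]; exact hpos)
  have hsec : ∀ t, √(g (2 * t)) * √β ≤ (stdGaussian E).real (sec n C t) := by
    intro t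
    refine pk_half (measurableSet_sec n hA _) hB' (measurableSet_sec n hC _) fun a ha b hb => ?_
    have ha' : (2 * t) • n + proj n a ∈ A := ha
    have hb' : proj n b ∈ B := by rw [proj_apply]; exact hb
    have h2 := hABC _ ha' _ hb' (inner_proj hn b)
    show t • n + proj n ((1/2 : ℝ) • a + (1/2 : ℝ) • b) ∈ C
    have h3 : t • n + proj n ((1/2 : ℝ) • a + (1/2 : ℝ) • b)
        = (1/2 : ℝ) • ((2 * t) • n + proj n a) + (1/2 : ℝ) • proj n b := by
      rw [map_add, map_smul, map_smul]
      module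
    rw [h3]; exact h2
  have hroot : Integrable (fun t => √(g (2 * t))) μ := by
    refine Integrable.of_bound (C := √(g 0))
      (hg.meas.comp (measurable_const.mul measurable_id)).sqrt.aestronglyMeasurable
      (Filter.Eventually.of_forall fun t => ?_)
    rw [Real.norm_eq_abs, abs_of_nonneg (Real.sqrt_nonneg _)]
    exact Real.sqrt_le_sqrt (hg.le_zero _)
  have hCi : Integrable (fun t => (stdGaussian E).real (sec n C t)) μ := by
    refine Integrable.of_bound (C := 1) (measurable_sec n hC).aestronglyMeasurable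
      (Filter.Eventually.of_forall fun t => ?_)
    rw [Real.norm_eq_abs, abs_of_nonneg measureReal_nonneg]
    exact measureReal_le_one
  have hC1 : (∫ t, √(g (2 * t)) ∂μ) * √β ≤ (stdGaussian E).real C := by
    rw [sec_integral hn hC, ← integral_mul_const]
    exact integral_mono (hroot.mul_const _) hCi hsec
  have hC2 : Real.exp (-δ) * √((stdGaussian E).real A) * √β ≤ (stdGaussian E).real C := by
    refine le_trans (mul_le_mul_of_nonneg_right ?_ (Real.sqrt_nonneg _)) hC1
    exact le_trans (mul_le_mul_of_nonneg_left (Real.sqrt_le_sqrt hle) (Real.exp_pos _).le) h1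
  have hC3 : (Real.exp (-δ) * √((stdGaussian E).real A) * √β) ^ 2 ≤
      (stdGaussian E).real C ^ 2 := pow_le_pow_left₀ (by positivity) hC2 2
  have e1 : (Real.exp (-δ) * √((stdGaussian E).real A) * √β) ^ 2
      = Real.exp (-(2 * δ)) * ((stdGaussian E).real A * β) := by
    rw [mul_pow, mul_pow, Real.sq_sqrt hA0, Real.sq_sqrt hβ0, ← Real.exp_nat_mul]
    have : ((2:ℕ) : ℝ) * -δ = -(2 * δ) := by push_cast; ring
    rw [this]; ring
  rw [e1] at hC3
  calc (stdGaussian E).real A * β
      = Real.exp (2 * δ) * (Real.exp (-(2 * δ)) * ((stdGaussian E).real A * β)) := by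
        rw [← mul_assoc, ← Real.exp_add]
        simp
    _ ≤ _ := mul_le_mul_of_nonneg_left hC3 (Real.exp_pos _).le

end Crest.Agent.R239.Ben331
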