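import Mathlib
import Crest.Agent.R285.Gauss
import Crest.Agent.R239.Gau6

/-! BRIDGE between the ratio-of-integrals Gaussians and `stdGaussian` (helper371). -/

set_option autoImplicit false
open MeasureTheory ProbabilityTheory Set Real
open scoped RealInnerProductSpace ENNReal NNReal

namespace Crest.Agent.R239.Bridge371

variable {F : Type*} [NormedAddCommGroup F] [InnerProductSpace ℝ F] [FiniteDimensional ℝ F]
  [MeasurableSpace F] [BorelSpace F]
variable {G : Type*} [NormedAddCommGroup G] [InnerProductSpace ℝ G] [FiniteDimensional ℝ G]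
  [MeasurableSpace G] [BorelSpace G]

/-- `∫ exp (-|x|²/2)` is integrable. -/
theorem integrable_exp_half : Integrable (fun x : F => rexp (-(‖x‖ ^ 2) / 2)) := by
  refine (Crest.Agent.R285.integrable_exp_neg_sq (V := F) (b := 1 / 2) (by norm_num)).congr
    (ae_of_all _ fun x => ?_)
  simp only
  congr 1
  ring

/-- The normalising constant. -/
theorem Z_eq : (∫ x : F, rexp (-(‖x‖ ^ 2) / 2)) = ((2 * π) ^ (-(Module.finrank ℝ F : ℝ) / 2))⁻¹ := by
  have h := Crest.Agent.R285.integral_stdGaussian (V := F) (fun _ => (1 : ℝ))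
  simp only [integral_const, probReal_univ, smul_eq_mul, mul_one,
    Crest.Agent.R285.gdens] at h
  rw [integral_const_mul] at h
  have hne : ((2 * π) ^ (-(Module.finrank ℝ F : ℝ) / 2)) ≠ 0 := by positivity
  rw [eq_comm, mul_comm] at h
  exact eq_inv_of_mul_eq_one_left h

theorem Z_pos : 0 < ∫ x : F, rexp (-(‖x‖ ^ 2) / 2) := by
  rw [Z_eq]; positivity

/-- Integrals against the standard Gaussian as a ratio. -/
theorem integral_ratio (f : F → ℝ) :
    ∫ x, f x ∂(stdGaussian F) =
      (∫ x, f x * rexp (-(‖x‖ ^ 2) / 2)) / (∫ x : F, rexp (-(‖x‖ ^ 2) / 2)) := by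
  rw [Crest.Agent.R285.integral_stdGaussian, Z_eq, div_inv_eq_mul, mul_comm, ← integral_const_mul]
  refine integral_congr_ae (ae_of_all _ fun x => ?_)
  simp only [Crest.Agent.R285.gdens, smul_eq_mul]
  ring

/-- Set integrals against the standard Gaussian as a ratio. -/
theorem setIntegral_ratio (f : F → ℝ) {K : Set F} (hK : MeasurableSet K) :
    ∫ x in K, f x ∂(stdGaussian F) =
      (∫ x in K, f x * rexp (-(‖x‖ ^ 2) / 2)) / (∫ x : F, rexp (-(‖x‖ ^ 2) / 2)) := by
  rw [← integral_indicator hK, integral_ratio, ← integral_indicator hK]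
  congr 1
  refine integral_congr_ae (ae_of_all _ fun x => ?_)
  by_cases hx : x ∈ K <;> simp [hx]

/-- Measures of sets as a ratio. -/
theorem real_ratio {K : Set F} (hK : MeasurableSet K) :
    (stdGaussian F).real K =
      (∫ x in K, rexp (-(‖x‖ ^ 2) / 2)) / (∫ x : F, rexp (-(‖x‖ ^ 2) / 2)) := by
  have h := setIntegral_ratio (F := F) (fun _ => (1 : ℝ)) hK
  simpa using h

/-- Volume is mapped to a multiple of volume by a linear equivalence. -/
theorem map_volume (T : F ≃L[ℝ] G) :
    ∃ c : ℝ≥0, 0 < c ∧ (volume : Measure F).map T = c • (volume : Measure G) := by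
  have hH : ((volume : Measure F).map T).IsAddHaarMeasure :=
    T.isAddHaarMeasure_map volume
  refine ⟨Measure.addHaarScalarFactor ((volume : Measure F).map T) (volume : Measure G), ?_, ?_⟩
  · exact Measure.addHaarScalarFactor_pos_of_isAddHaarMeasure _ _
  · exact Measure.isAddLeftInvariant_eq_smul _ _

/-- Change of variables in a ratio. -/
theorem ratio_equiv (T : F ≃L[ℝ] G) (f g : G → ℝ) :
    (∫ x, f (T x)) / (∫ x, g (T x)) = (∫ y, f y) / (∫ y, g y) := by
  obtain ⟨c, hc, hT⟩ := map_volume T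
  have key : ∀ h : G → ℝ, ∫ x, h (T x) = (c : ℝ) * ∫ y, h y := by
    intro h
    have h1 : ∫ y, h y ∂((volume : Measure F).map T) = ∫ x, h (T x) :=
      T.toHomeomorph.measurableEmbedding.integral_map h
    rw [← h1, hT, integral_smul_nnreal_measure]
    rfl
  rw [key, key, mul_div_mul_left _ _ (by exact_mod_cast hc.ne')]

/-- The ratio Gaussian of the form `‖T x‖²` is the image of the standard Gaussian. -/
theorem setIntegral_ratio_equiv (T : F ≃L[ℝ] G) (f : F → ℝ) {K : Set F} (hK : MeasurableSet K) :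
    (∫ x in K, f x * rexp (-(‖T x‖ ^ 2) / 2)) / (∫ x : F, rexp (-(‖T x‖ ^ 2) / 2)) =
      ∫ y in T.symm ⁻¹' K, f (T.symm y) ∂(stdGaussian G) := by
  have hK' : MeasurableSet (T.symm ⁻¹' K) := T.symm.continuous.measurable hK
  rw [setIntegral_ratio _ hK', ← integral_indicator hK, ← integral_indicator hK',
    ← ratio_equiv T]
  congr 1
  refine integral_congr_ae (ae_of_all _ fun x => ?_)
  by_cases hx : x ∈ K
  · have : T x ∈ T.symm ⁻¹' K := by simpa using hx
    simp [hx, this]
  · have : T x ∉ T.symm ⁻¹' K := by simpa using hx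
    simp [hx, this]

theorem integral_ratio_equiv (T : F ≃L[ℝ] G) (f : F → ℝ) :
    (∫ x, f x * rexp (-(‖T x‖ ^ 2) / 2)) / (∫ x : F, rexp (-(‖T x‖ ^ 2) / 2)) =
      ∫ y, f (T.symm y) ∂(stdGaussian G) := by
  have h := setIntegral_ratio_equiv T f MeasurableSet.univ
  simpa using h

theorem real_ratio_equiv (T : F ≃L[ℝ] G) {K : Set F} (hK : MeasurableSet K) :
    (∫ x in K, rexp (-(‖T x‖ ^ 2) / 2)) / (∫ x : F, rexp (-(‖T x‖ ^ 2) / 2)) =
      (stdGaussian G).real (T.symm ⁻¹' K) := by
  have h := setIntegral_ratio_equiv T (fun _ => (1 : ℝ)) hK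
  simpa using h

/-- In the notation of `Gau1`. -/
theorem real_ratio_gau (T : F ≃L[ℝ] G) {K : Set F} (hK : MeasurableSet K) :
    (∫ x in K, rexp (-(‖T x‖ ^ 2) / 2)) / (∫ x : F, rexp (-(‖T x‖ ^ 2) / 2)) =
      (gau (T.symm : G →L[ℝ] F)).real K := by
  rw [real_ratio_equiv T hK, gau_real_apply _ hK]
  rfl

/-- A positive definite form is `‖T x‖²`. -/
theorem exists_equiv (P : QuadraticForm ℝ F) (hP : P.PosDef) :
    ∃ T : F ≃L[ℝ] F, ∀ x, P x = ‖T x‖ ^ 2 := by
  classical
  -- the operator of the form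
  let B : F →ₗ[ℝ] F →ₗ[ℝ] ℝ := (QuadraticMap.associated (R := ℝ) P : LinearMap.BilinMap ℝ F ℝ)
  have hBs : ∀ x y, B x y = B y x := by
    intro x y
    exact (QuadraticForm.associated_isSymm ℝ P).eq x y
  have hBP : ∀ x, B x x = P x := fun x => QuadraticMap.associated_eq_self_apply ℝ P x
  let S : F →L[ℝ] F := LinearMap.toContinuousLinearMap
    ((InnerProductSpace.toDual ℝ F).symm.toLinearEquiv.toLinearMap ∘ₗ
      (LinearMap.toContinuousLinearMap (𝕜 := ℝ) (E := F) (F' := ℝ)).toLinearMap ∘ₗ B)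
  have hS : ∀ x y, ⟪S x, y⟫ = B x y := by
    intro x y
    simp [S]
  obtain ⟨D, hD⟩ := exists_root S (fun x y => by
      rw [hS, real_inner_comm, hS, hBs]) (fun x => by
      rw [hS, hBP]
      by_cases hx : x = 0
      · simp [hx]
      · exact (hP x hx).le)
  have hinj : Function.Injective (D.adjoint : F →ₗ[ℝ] F) := by
    rw [injective_iff_map_eq_zero]
    intro x hx
    by_contra hne
    have h1 := hD x
    have hx' : D.adjoint x = 0 := hx
    rw [hx', norm_zero, hS, hBP] at h1
    have := hP x hne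
    norm_num at h1
    linarith
  let T0 : F ≃ₗ[ℝ] F := LinearEquiv.ofInjectiveEndo (D.adjoint : F →ₗ[ℝ] F) hinj
  refine ⟨T0.toContinuousLinearEquiv, fun x => ?_⟩
  have h1 := hD x
  rw [hS, hBP] at h1
  rw [← h1]
  rfl

end Crest.Agent.R239.Bridge371
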