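import Crest.Agent.R239.Gau4

/-! helper161 (R239): contraction along one direction and the resulting gain.
`SCALE1` : `γ (W '' K) = √(1-s₁) ∫_K exp (s₁ ⟪n,x⟫² / 2)`, and `γ (W '' K) ≤ exp (-s₁ c'/4) γ K` for thin `K`.
`GAINCMP` : comparison with gain, from (CMP). -/

set_option autoImplicit false
set_option linter.unusedSectionVars false
open MeasureTheory ProbabilityTheory Set Filter Topology Metric
open scoped RealInnerProductSpace ENNReal NNReal InnerProduct Pointwise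

namespace Crest.Agent.R239.Gain161

open Crest.Agent.R239

variable {E : Type*} [NormedAddCommGroup E] [InnerProductSpace ℝ E] [FiniteDimensional ℝ E]
  [MeasurableSpace E] [BorelSpace E]

/-- scaling by `r` along `n` -/
noncomputable def scl (r : ℝ) (n : E) : E →L[ℝ] E :=
  r • (innerSL ℝ n : E →L[ℝ] ℝ).smulRight n + proj n

lemma scl_apply (r : ℝ) (n x : E) : scl r n x = (r * ⟪n, x⟫) • n + proj n x := by
  simp [scl, smul_smul]

lemma inner_scl {n : E} (hn : ‖n‖ = 1) (r : ℝ) (x : E) : ⟪n, scl r n x⟫ = r * ⟪n, x⟫ := by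
  rw [scl_apply, inner_add_right, inner_proj hn, inner_smul_right, real_inner_self_eq_norm_sq, hn]
  ring

lemma proj_self {n : E} (hn : ‖n‖ = 1) : proj n n = 0 := by
  rw [proj_apply, real_inner_self_eq_norm_sq, hn]; simp

lemma proj_proj {n : E} (hn : ‖n‖ = 1) (x : E) : proj n (proj n x) = proj n x := by
  rw [proj_apply n (proj n x), inner_proj hn]; simp

lemma proj_scl {n : E} (hn : ‖n‖ = 1) (r : ℝ) (x : E) : proj n (scl r n x) = proj n x := by
  rw [scl_apply, map_add, map_smul, proj_self hn, proj_proj hn]; simp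

lemma scl_line {n : E} (hn : ‖n‖ = 1) (r s : ℝ) (y : E) :
    scl r n (s • n + proj n y) = (r * s) • n + proj n y := by
  rw [scl_apply, map_add, map_smul, proj_self hn, proj_proj hn, inner_add_right, inner_proj hn,
    inner_smul_right, real_inner_self_eq_norm_sq, hn]
  simp

lemma scl_scl {n : E} (hn : ‖n‖ = 1) (r t : ℝ) (x : E) : scl r n (scl t n x) = scl (r * t) n x := by
  rw [scl_apply r, inner_scl hn, proj_scl hn, scl_apply, mul_assoc]

lemma scl_one (n x : E) : scl 1 n x = x := by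
  rw [scl_apply, one_mul, proj_add_inner]

lemma norm_scl_sq {n : E} (hn : ‖n‖ = 1) (r : ℝ) (x : E) :
    ‖scl r n x‖ ^ 2 = ‖x‖ ^ 2 - (1 - r ^ 2) * ⟪n, x⟫ ^ 2 := by
  have h1 : ‖proj n x‖ ^ 2 = ‖x‖ ^ 2 - ⟪n, x⟫ ^ 2 := by
    rw [proj_apply, norm_sub_sq_real, norm_smul, inner_smul_right, hn, real_inner_comm,
      Real.norm_eq_abs, mul_one, sq_abs]
    ring
  rw [scl_apply, norm_add_sq_real, inner_smul_left, inner_proj hn, norm_smul, hn, h1,
    Real.norm_eq_abs, mul_one, sq_abs]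
  simp only [mul_zero, add_zero]
  ring

lemma gaussianPDF_scale {r s₁ : ℝ} (h : r ^ 2 = 1 - s₁) (s : ℝ) :
    gaussianPDF 0 1 (r * s) = ENNReal.ofReal (Real.exp (s₁ * s ^ 2 / 2)) * gaussianPDF 0 1 s := by
  unfold gaussianPDF
  rw [← ENNReal.ofReal_mul (Real.exp_pos _).le]
  congr 1
  unfold gaussianPDFReal
  rw [mul_left_comm, ← Real.exp_add]
  congr 2
  simp only [NNReal.coe_one, mul_one, sub_zero]
  have : (r * s) ^ 2 = (1 - s₁) * s ^ 2 := by rw [mul_pow, h]
  rw [this]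
  ring

lemma scale_1d {r s₁ : ℝ} (hr : 0 < r) (h : r ^ 2 = 1 - s₁) {f : ℝ → ℝ≥0∞} (hf : Measurable f) :
    ∫⁻ s, f s ∂(gaussianReal 0 1)
      = ∫⁻ s, f (r * s) * ENNReal.ofReal (r * Real.exp (s₁ * s ^ 2 / 2)) ∂(gaussianReal 0 1) := by
  have key : ∀ g : ℝ → ℝ≥0∞, Measurable g →
      ∫⁻ s, g s = ENNReal.ofReal r * ∫⁻ s, g (r * s) := by
    intro g hg
    have h1 : ∫⁻ s, g (r * s) = ENNReal.ofReal |r⁻¹| * ∫⁻ s, g s := by
      rw [← lintegral_map hg (measurable_const_mul r), Real.map_volume_mul_left hr.ne',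
        lintegral_smul_measure]
      rfl
    rw [h1, ← mul_assoc, ← ENNReal.ofReal_mul hr.le, abs_of_pos (inv_pos.2 hr),
      mul_inv_cancel₀ hr.ne', ENNReal.ofReal_one, one_mul]
  rw [gaussianReal_of_var_ne_zero _ one_ne_zero,
    lintegral_withDensity_eq_lintegral_mul _ (measurable_gaussianPDF _ _) (by fun_prop),
    lintegral_withDensity_eq_lintegral_mul _ (measurable_gaussianPDF _ _) (by fun_prop)]
  rw [key _ ((measurable_gaussianPDF _ _).mul hf), ← lintegral_const_mul _ (by fun_prop)]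
  refine lintegral_congr fun s => ?_
  simp only [Pi.mul_apply]
  rw [gaussianPDF_scale h, ENNReal.ofReal_mul hr.le]
  ring

/-- SCALE1, exact formula -/
theorem scale_measure {n : E} (hn : ‖n‖ = 1) {r s₁ : ℝ} (hr : 0 < r) (h : r ^ 2 = 1 - s₁)
    {B : Set E} (hB : MeasurableSet B) :
    stdGaussian E B
      = ∫⁻ x in (scl r n) ⁻¹' B, ENNReal.ofReal (r * Real.exp (s₁ * ⟪n, x⟫ ^ 2 / 2))
          ∂(stdGaussian E) := by
  have hK : MeasurableSet ((scl r n) ⁻¹' B) := hB.preimage (scl r n).continuous.measurable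
  rw [← lintegral_indicator hK, line_lintegral hn (by
    exact Measurable.indicator (by fun_prop) hK)]
  have e0 : stdGaussian E B = ∫⁻ x, B.indicator 1 x ∂(stdGaussian E) := by
    rw [lintegral_indicator_one hB]
  rw [e0, line_lintegral hn (measurable_one.indicator hB)]
  refine lintegral_congr fun y => ?_
  rw [scale_1d hr h (f := fun s => B.indicator 1 (s • n + proj n y))
    ((measurable_one.indicator hB).comp (by fun_prop))]
  refine lintegral_congr fun s => ?_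
  have e1 : (s • n + proj n y ∈ (scl r n) ⁻¹' B) ↔ ((r * s) • n + proj n y ∈ B) := by
    rw [mem_preimage, scl_line hn]
  have e2 : ⟪n, s • n + proj n y⟫ = s := by
    rw [inner_add_right, inner_proj hn, inner_smul_right, real_inner_self_eq_norm_sq, hn]; simp
  by_cases hm : (r * s) • n + proj n y ∈ B
  · rw [indicator_of_mem (e1.2 hm), indicator_of_mem hm, e2]; simp
  · rw [indicator_of_notMem (fun hh => hm (e1.1 hh)), indicator_of_notMem hm]; simp

/-- stochastic domination: `∫_K exp (3/8 ⟪n,x⟫²) ≤ 2 γ K` from the slab inequality -/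
theorem dom_exp {n : E} (hn : ‖n‖ = 1) {K : Set E} (hK : MeasurableSet K)
    (hSl : ∀ u : ℝ, 0 ≤ u → (stdGaussian E).real K * (stdGaussian E).real {x : E | |⟪n, x⟫| ≤ u}
      ≤ (stdGaussian E).real (K ∩ {x : E | |⟪n, x⟫| ≤ u})) :
    ∫⁻ x in K, ENNReal.ofReal (Real.exp (3 / 4 * ⟪n, x⟫ ^ 2 / 2)) ∂(stdGaussian E)
      ≤ ENNReal.ofReal (2 * (stdGaussian E).real K) := by
  set μ := stdGaussian E with hμ
  set f : E → ℝ := fun x => Real.exp (3 / 4 * ⟪n, x⟫ ^ 2 / 2) with hf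
  have hfm : Measurable f := by fun_prop
  have hf0 : ∀ x, 0 ≤ f x := fun x => (Real.exp_pos _).le
  have hslab : ∀ u : ℝ, MeasurableSet {x : E | |⟪n, x⟫| ≤ u} := fun u =>
    measurableSet_le (by fun_prop) measurable_const
  -- tails
  have htail : ∀ t : ℝ, 0 < t → μ.restrict K {x | t < f x} ≤ μ K * μ {x | t < f x} := by
    intro t ht
    rw [Measure.restrict_apply (measurableSet_lt measurable_const hfm)]
    rcases lt_or_ge t 1 with h1 | h1
    · have : {x : E | t < f x} = univ := by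
        ext x
        simp only [mem_ofPred_eq, mem_univ, iff_true]
        exact h1.trans_le (Real.one_le_exp (by positivity))
      rw [this]
      simp
    · set u := Real.sqrt (8 / 3 * Real.log t) with hu
      have hlog : 0 ≤ Real.log t := Real.log_nonneg h1
      have hu2 : u ^ 2 = 8 / 3 * Real.log t := Real.sq_sqrt (by positivity)
      have e : {x : E | t < f x} = {x : E | |⟪n, x⟫| ≤ u}ᶜ := by
        ext x
        simp only [mem_ofPred_eq, mem_compl_iff, not_le, hf]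
        rw [← Real.log_lt_iff_lt_exp ht]
        constructor
        · intro hh
          refine lt_of_pow_lt_pow_left₀ 2 (abs_nonneg _) ?_
          rw [hu2, sq_abs]; linarith
        · intro hh
          have := pow_lt_pow_left₀ hh (Real.sqrt_nonneg _) (two_ne_zero)
          rw [hu2, sq_abs] at this
          linarith
      rw [e]
      have hs := hSl u (Real.sqrt_nonneg _)
      have hfin : ∀ A : Set E, μ A ≠ ⊤ := fun A => measure_ne_top _ _
      have hsum : μ.real K = μ.real (K ∩ {x : E | |⟪n, x⟫| ≤ u})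
          + μ.real ({x : E | |⟪n, x⟫| ≤ u}ᶜ ∩ K) := by
        rw [inter_comm _ K]
        have := measureReal_inter_add_sdiff (μ := μ) (s := K) (hslab u)
        rw [← this, sdiff_eq]
      have hc : μ.real ({x : E | |⟪n, x⟫| ≤ u}ᶜ) = 1 - μ.real {x : E | |⟪n, x⟫| ≤ u} := by
        rw [measureReal_compl (hslab u)]
        simp
      have hreal : μ.real ({x : E | |⟪n, x⟫| ≤ u}ᶜ ∩ K) ≤ μ.real K * μ.real ({x : E | |⟪n, x⟫| ≤ u}ᶜ) := by
        rw [hc, mul_sub, mul_one]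
        linarith
      have h3 : ENNReal.ofReal (μ.real ({x : E | |⟪n, x⟫| ≤ u}ᶜ ∩ K))
          ≤ ENNReal.ofReal (μ.real K * μ.real ({x : E | |⟪n, x⟫| ≤ u}ᶜ)) :=
        ENNReal.ofReal_le_ofReal hreal
      rwa [ENNReal.ofReal_mul measureReal_nonneg, ofReal_measureReal, ofReal_measureReal,
        ofReal_measureReal] at h3
  -- layer cake
  have lc1 := lintegral_eq_lintegral_meas_lt (μ.restrict K) (f := f)
    (Eventually.of_forall hf0) hfm.aemeasurable
  have lc2 := lintegral_eq_lintegral_meas_lt μ (f := f)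
    (Eventually.of_forall hf0) hfm.aemeasurable
  have hval : ∫⁻ x, ENNReal.ofReal (f x) ∂μ = ENNReal.ofReal 2 := by
    have h1 : ∫⁻ x, ENNReal.ofReal (f x) ∂μ
        = ∫⁻ s, ENNReal.ofReal (Real.exp (3 / 4 * s ^ 2 / 2)) ∂(gaussianReal 0 1) := by
      rw [line_lintegral hn (by fun_prop)]
      have : ∀ y : E, ∫⁻ s, ENNReal.ofReal (f (s • n + proj n y)) ∂(gaussianReal 0 1)
          = ∫⁻ s, ENNReal.ofReal (Real.exp (3 / 4 * s ^ 2 / 2)) ∂(gaussianReal 0 1) := by
        intro y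
        refine lintegral_congr fun s => ?_
        simp only [hf]
        rw [inner_add_right, inner_proj hn, inner_smul_right, real_inner_self_eq_norm_sq, hn]
        simp
      simp_rw [this]
      simp
    rw [h1, ← ofReal_integral_eq_lintegral_ofReal (integrable_exp_sq_1d (by norm_num))
      (Eventually.of_forall fun s => (Real.exp_pos _).le), integral_exp_sq_1d (by norm_num)]
    congr 1
    have : (1 - 3 / 4 : ℝ) = ((2 : ℝ) ^ (2 : ℝ))⁻¹ := by norm_num
    rw [this, ← Real.rpow_neg (by norm_num), ← Real.rpow_mul (by norm_num)]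
    norm_num
  calc ∫⁻ x in K, ENNReal.ofReal (f x) ∂μ
      = ∫⁻ t in Ioi 0, μ.restrict K {a | t < f a} := lc1
    _ ≤ ∫⁻ t in Ioi (0:ℝ), μ K * μ {a | t < f a} := by
        refine setLIntegral_mono' measurableSet_Ioi fun t ht => htail t ht
    _ = μ K * ∫⁻ t in Ioi (0:ℝ), μ {a | t < f a} := by
        rw [lintegral_const_mul' _ _ (measure_ne_top _ _)]
    _ = μ K * ENNReal.ofReal 2 := by rw [← lc2, hval]
    _ = ENNReal.ofReal (2 * μ.real K) := by
        rw [ENNReal.ofReal_mul (by norm_num), ofReal_measureReal, mul_comm]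

lemma exp_pt {s₁ t : ℝ} (h0 : 0 ≤ s₁) (h1 : s₁ ≤ 1 / 2) :
    Real.exp (s₁ * t ^ 2 / 2) ≤ 1 + s₁ / 2 * t ^ 2 + 32 * s₁ ^ 2 * Real.exp (3 / 4 * t ^ 2 / 2) := by
  set x := s₁ * t ^ 2 / 2 with hx
  have hx0 : 0 ≤ x := by positivity
  have ht2 : 0 ≤ t ^ 2 := sq_nonneg t
  have e1 : Real.exp x ≤ 1 + x + x ^ 2 * Real.exp x := by
    have hneg : 1 - x ≤ Real.exp (-x) := by
      have := Real.add_one_le_exp (-x); linarith
    have h2 : (1 - x ^ 2) ≤ (1 + x) * Real.exp (-x) := by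
      nlinarith [mul_le_mul_of_nonneg_left hneg (by linarith : 0 ≤ 1 + x)]
    have h3 := mul_le_mul_of_nonneg_right h2 (Real.exp_pos x).le
    rw [mul_assoc, ← Real.exp_add] at h3
    simp only [neg_add_cancel, Real.exp_zero, mul_one] at h3
    linarith
  have e2 : Real.exp x ≤ Real.exp (t ^ 2 / 4) := by
    refine Real.exp_le_exp.2 ?_
    rw [hx]; nlinarith
  have e3 : (t ^ 2) ^ 2 ≤ 128 * Real.exp (t ^ 2 / 8) := by
    have hq := Real.quadratic_le_exp_of_nonneg (x := t ^ 2 / 8) (by positivity)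
    nlinarith
  have e4 : Real.exp (3 / 4 * t ^ 2 / 2) = Real.exp (t ^ 2 / 8) * Real.exp (t ^ 2 / 4) := by
    rw [← Real.exp_add]; congr 1; ring
  have e5 : x ^ 2 * Real.exp x ≤ 32 * s₁ ^ 2 * Real.exp (3 / 4 * t ^ 2 / 2) := by
    have hx2 : x ^ 2 = s₁ ^ 2 / 4 * (t ^ 2) ^ 2 := by rw [hx]; ring
    calc x ^ 2 * Real.exp x ≤ x ^ 2 * Real.exp (t ^ 2 / 4) :=
          mul_le_mul_of_nonneg_left e2 (sq_nonneg x)
      _ = s₁ ^ 2 / 4 * (t ^ 2) ^ 2 * Real.exp (t ^ 2 / 4) := by rw [hx2]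
      _ ≤ s₁ ^ 2 / 4 * (128 * Real.exp (t ^ 2 / 8)) * Real.exp (t ^ 2 / 4) := by gcongr
      _ = 32 * s₁ ^ 2 * Real.exp (3 / 4 * t ^ 2 / 2) := by rw [e4]; ring
  have e6 : x = s₁ / 2 * t ^ 2 := by rw [hx]; ring
  linarith

/-- SCALE1, inequality: `B` = contraction of the thin body `K = W⁻¹ B` -/
theorem scale_le {n : E} (hn : ‖n‖ = 1) {r s₁ c : ℝ} (hr : 0 < r) (h : r ^ 2 = 1 - s₁)
    (h0 : 0 ≤ s₁) (h1 : s₁ ≤ 1 / 2) (hc : s₁ ≤ c / 256)
    {B : Set E} (hB : MeasurableSet B)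
    (hSl : ∀ u : ℝ, 0 ≤ u → (stdGaussian E).real ((scl r n) ⁻¹' B)
        * (stdGaussian E).real {x : E | |⟪n, x⟫| ≤ u}
      ≤ (stdGaussian E).real (((scl r n) ⁻¹' B) ∩ {x : E | |⟪n, x⟫| ≤ u}))
    (hthin : ∫ x in (scl r n) ⁻¹' B, ⟪n, x⟫ ^ 2 ∂(stdGaussian E)
      ≤ (1 - c) * (stdGaussian E).real ((scl r n) ⁻¹' B)) :
    (stdGaussian E).real B
      ≤ Real.exp (-(s₁ * c / 4)) * (stdGaussian E).real ((scl r n) ⁻¹' B) := by
  set K := (scl r n) ⁻¹' B with hKdef
  have hK : MeasurableSet K := hB.preimage (scl r n).continuous.measurable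
  set μ := stdGaussian E with hμ
  have hdom := dom_exp hn hK hSl
  -- integrability
  have hI1 : Integrable (fun x : E => ⟪n, x⟫ ^ 2) μ := by
    have := integrable_exp_norm_sq (E := E) (l := 1 / 2) (by norm_num)
    refine (this.const_mul 4).mono' (by fun_prop) (Eventually.of_forall fun x => ?_)
    rw [Real.norm_eq_abs, abs_of_nonneg (sq_nonneg _)]
    have hcs : ⟪n, x⟫ ^ 2 ≤ ‖x‖ ^ 2 := by
      have := abs_real_inner_le_norm n x
      rw [hn, one_mul] at this
      rw [← sq_abs]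
      exact pow_le_pow_left₀ (abs_nonneg _) this 2
    have he := Real.add_one_le_exp (1 / 2 * ‖x‖ ^ 2 / 2)
    nlinarith [sq_nonneg ‖x‖]
  have hfm : Measurable (fun x : E => Real.exp (3 / 4 * ⟪n, x⟫ ^ 2 / 2)) := by fun_prop
  have hI2 : Integrable (fun x : E => Real.exp (3 / 4 * ⟪n, x⟫ ^ 2 / 2)) (μ.restrict K) := by
    refine ⟨hfm.aestronglyMeasurable, ?_⟩
    rw [hasFiniteIntegral_iff_ofReal (Eventually.of_forall fun x => (Real.exp_pos _).le)]
    exact hdom.trans_lt ENNReal.ofReal_lt_top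
  have hval2 : ∫ x in K, Real.exp (3 / 4 * ⟪n, x⟫ ^ 2 / 2) ∂μ ≤ 2 * μ.real K := by
    rw [integral_eq_lintegral_of_nonneg_ae (Eventually.of_forall fun x => (Real.exp_pos _).le)
      hfm.aestronglyMeasurable]
    exact ENNReal.toReal_le_of_le_ofReal (by positivity) hdom
  have hm3 : Measurable (fun x : E => Real.exp (s₁ * ⟪n, x⟫ ^ 2 / 2)) := by fun_prop
  have hI1' : Integrable (fun x : E => s₁ / 2 * ⟪n, x⟫ ^ 2) (μ.restrict K) :=
    (hI1.integrableOn (s := K)).const_mul _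
  have hA : Integrable (fun x : E => 1 + s₁ / 2 * ⟪n, x⟫ ^ 2) (μ.restrict K) :=
    (integrable_const (1 : ℝ)).add hI1'
  have hI2' : Integrable (fun x : E => 32 * s₁ ^ 2 * Real.exp (3 / 4 * ⟪n, x⟫ ^ 2 / 2))
      (μ.restrict K) := hI2.const_mul _
  have hrhs : Integrable (fun x : E => 1 + s₁ / 2 * ⟪n, x⟫ ^ 2
      + 32 * s₁ ^ 2 * Real.exp (3 / 4 * ⟪n, x⟫ ^ 2 / 2)) (μ.restrict K) := hA.add hI2'
  have hI3 : Integrable (fun x : E => Real.exp (s₁ * ⟪n, x⟫ ^ 2 / 2)) (μ.restrict K) := by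
    refine hrhs.mono' hm3.aestronglyMeasurable (Eventually.of_forall fun x => ?_)
    rw [Real.norm_eq_abs, abs_of_pos (Real.exp_pos _)]
    exact exp_pt h0 h1
  have hexp : ∫ x in K, Real.exp (s₁ * ⟪n, x⟫ ^ 2 / 2) ∂μ
      ≤ (1 + s₁ / 2 * (1 - c) + 64 * s₁ ^ 2) * μ.real K := by
    calc ∫ x in K, Real.exp (s₁ * ⟪n, x⟫ ^ 2 / 2) ∂μ
        ≤ ∫ x in K, (1 + s₁ / 2 * ⟪n, x⟫ ^ 2
            + 32 * s₁ ^ 2 * Real.exp (3 / 4 * ⟪n, x⟫ ^ 2 / 2)) ∂μ :=
          integral_mono hI3 hrhs fun x => exp_pt h0 h1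
      _ = μ.real K + s₁ / 2 * ∫ x in K, ⟪n, x⟫ ^ 2 ∂μ
            + 32 * s₁ ^ 2 * ∫ x in K, Real.exp (3 / 4 * ⟪n, x⟫ ^ 2 / 2) ∂μ := by
          rw [integral_add hA hI2', integral_add (integrable_const (1 : ℝ)) hI1',
            integral_const_mul, integral_const_mul, integral_const]
          simp
      _ ≤ μ.real K + s₁ / 2 * ((1 - c) * μ.real K) + 32 * s₁ ^ 2 * (2 * μ.real K) := by
          gcongr
      _ = (1 + s₁ / 2 * (1 - c) + 64 * s₁ ^ 2) * μ.real K := by ring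
  -- exact formula
  have hform : μ.real B = r * ∫ x in K, Real.exp (s₁ * ⟪n, x⟫ ^ 2 / 2) ∂μ := by
    rw [Measure.real, scale_measure hn hr h hB, ← hKdef, ← integral_const_mul,
      integral_eq_lintegral_of_nonneg_ae (Eventually.of_forall fun x => by positivity)
      (by fun_prop)]
  rw [hform]
  have hr1 : r ≤ Real.exp (-(s₁ / 2)) := by
    have h5 : r ≤ 1 - s₁ / 2 := by
      by_contra hcon
      have hcon' := not_le.1 hcon
      nlinarith
    have h6 := Real.add_one_le_exp (-(s₁ / 2))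
    linarith
  have hμK : 0 ≤ μ.real K := measureReal_nonneg
  calc r * ∫ x in K, Real.exp (s₁ * ⟪n, x⟫ ^ 2 / 2) ∂μ
      ≤ Real.exp (-(s₁ / 2)) * ((1 + s₁ / 2 * (1 - c) + 64 * s₁ ^ 2) * μ.real K) := by
        refine mul_le_mul hr1 hexp ?_ (Real.exp_pos _).le
        exact integral_nonneg fun x => (Real.exp_pos _).le
    _ ≤ Real.exp (-(s₁ / 2)) * (Real.exp (s₁ / 2 * (1 - c) + 64 * s₁ ^ 2) * μ.real K) := by
        gcongr
        have := Real.add_one_le_exp (s₁ / 2 * (1 - c) + 64 * s₁ ^ 2)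
        linarith
    _ = Real.exp (-(s₁ / 2) + (s₁ / 2 * (1 - c) + 64 * s₁ ^ 2)) * μ.real K := by
        rw [← mul_assoc, ← Real.exp_add]
    _ ≤ Real.exp (-(s₁ * c / 4)) * μ.real K := by
        gcongr
        nlinarith

end Crest.Agent.R239.Gain161
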