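import Crest.Agent.R239.CMPc_825
import Crest.Agent.R239.Gain_161

/-!
# R239: comparison in covariance form WITH GAIN (CG), helper319

* `gain_std`: removing the variance `τ` along a direction `n` in which the body `B` is thin
  (`∫_B ⟪n,x⟫² ≤ (1-c) γ B`) multiplies the measure by at least `exp (τ c / 4)`.
* `cg_sum`: if `‖A† t‖² + τ ⟪n, H† t⟫² ≤ ‖H† t‖² + Σ w_k ⟪a_k, H† t⟫²` and `H⁻¹ K` is thin in the direction `n`
  then `exp (τ c / 4 - Σ w_k ‖a_k‖²) * gau H K ≤ gau A K`.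
-/

set_option autoImplicit false

open MeasureTheory ProbabilityTheory Set
open scoped ENNReal NNReal RealInnerProductSpace

namespace Crest.Agent.R239.CG319

open Crest.Agent.R239 Crest.Agent.R239.Gain161

variable {E : Type*} [NormedAddCommGroup E] [InnerProductSpace ℝ E] [FiniteDimensional ℝ E]
  [MeasurableSpace E] [BorelSpace E]
variable {F : Type*} [NormedAddCommGroup F] [InnerProductSpace ℝ F] [FiniteDimensional ℝ F]
  [MeasurableSpace F] [BorelSpace F]
variable {G : Type*} [NormedAddCommGroup G] [InnerProductSpace ℝ G] [FiniteDimensional ℝ G]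
  [MeasurableSpace G] [BorelSpace G]

lemma integrable_inner_sq (n : G) : Integrable (fun x : G => ⟪n, x⟫ ^ 2) (stdGaussian G) := by
  have := CMPc825.integrable_norm_sq (E := ℝ) (innerSL ℝ n)
  simpa using this

/-- **gain**: contraction of the variable along a thin direction -/
theorem gain_std {n : G} (hn : ‖n‖ = 1) {τ c : ℝ} (h0 : 0 ≤ τ) (hτ : τ ≤ c / 2) (hc : c ≤ 1)
    {B : Set G} (hB : MeasurableSet B)
    (hthin : ∫ x in B, ⟪n, x⟫ ^ 2 ∂(stdGaussian G) ≤ (1 - c) * (stdGaussian G).real B) :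
    Real.exp (τ * c / 4) * (stdGaussian G).real B
      ≤ (stdGaussian G).real ((scl (Real.sqrt (1 - τ)) n) ⁻¹' B) := by
  set μ := stdGaussian G with hμ
  have hτ1 : 0 < 1 - τ := by linarith
  set r := Real.sqrt (1 - τ) with hr
  have hr0 : 0 < r := Real.sqrt_pos.2 hτ1
  have hr2 : r ^ 2 = 1 - τ := Real.sq_sqrt hτ1.le
  set τ' := τ / (1 - τ) with hτ'
  have hτ'0 : 0 ≤ τ' := div_nonneg h0 hτ1.le
  set m := τ' * (1 - c) / 2 with hm
  have hrinv : (r⁻¹) ^ 2 = 1 - (-τ') := by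
    rw [inv_pow, hr2, hτ']
    field_simp
    ring
  have hset : (scl r⁻¹ n) ⁻¹' ((scl r n) ⁻¹' B) = B := by
    ext x
    simp only [mem_preimage]
    rw [scl_scl hn, mul_inv_cancel₀ hr0.ne', scl_one]
  have hBm : MeasurableSet ((scl r n) ⁻¹' B) := hB.preimage (scl r n).continuous.measurable
  have hform : μ.real ((scl r n) ⁻¹' B) = r⁻¹ * ∫ x in B, Real.exp (-τ' * ⟪n, x⟫ ^ 2 / 2) ∂μ := by
    rw [Measure.real, scale_measure hn (inv_pos.2 hr0) hrinv hBm, hset, ← integral_const_mul,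
      integral_eq_lintegral_of_nonneg_ae (Filter.Eventually.of_forall fun x => by positivity)
      (by fun_prop)]
  have hexpint : Integrable (fun x => Real.exp (-τ' * ⟪n, x⟫ ^ 2 / 2)) (μ.restrict B) := by
    refine (integrable_const (1:ℝ)).mono' (by fun_prop) (ae_of_all _ fun x => ?_)
    rw [Real.norm_of_nonneg (Real.exp_pos _).le]
    apply Real.exp_le_one_iff.2
    have := mul_nonneg hτ'0 (sq_nonneg ⟪n, x⟫)
    linarith
  have hi := (integrable_inner_sq n).integrableOn (s := B)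
  have hlow : Real.exp (-m) * μ.real B ≤ ∫ x in B, Real.exp (-τ' * ⟪n, x⟫ ^ 2 / 2) ∂μ := by
    calc Real.exp (-m) * μ.real B
        ≤ Real.exp (-m) * ((1 + m) * μ.real B - τ' / 2 * ∫ x in B, ⟪n, x⟫ ^ 2 ∂μ) := by
          apply mul_le_mul_of_nonneg_left _ (Real.exp_pos _).le
          have := mul_le_mul_of_nonneg_left hthin (by positivity : 0 ≤ τ' / 2)
          rw [hm]
          linarith
      _ = ∫ x in B, Real.exp (-m) * ((1 + m) - τ' / 2 * ⟪n, x⟫ ^ 2) ∂μ := by
          rw [integral_const_mul, integral_sub (integrable_const _) (hi.const_mul _),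
            integral_const_mul, integral_const]
          simp only [measureReal_restrict_apply_univ, smul_eq_mul]
          ring
      _ ≤ ∫ x in B, Real.exp (-τ' * ⟪n, x⟫ ^ 2 / 2) ∂μ := by
          apply integral_mono _ hexpint
          · intro x
            have e : Real.exp (-τ' * ⟪n, x⟫ ^ 2 / 2)
                = Real.exp (-m) * Real.exp (m - τ' / 2 * ⟪n, x⟫ ^ 2) := by
              rw [← Real.exp_add]; congr 1; ring
            simp only
            rw [e]
            apply mul_le_mul_of_nonneg_left _ (Real.exp_pos _).le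
            have := Real.add_one_le_exp (m - τ' / 2 * ⟪n, x⟫ ^ 2)
            linarith
          · exact ((integrable_const _).sub (hi.const_mul _)).const_mul _
  have hrinv1 : Real.exp (τ / 2) ≤ r⁻¹ := by
    have h1 : r ≤ Real.exp (-(τ / 2)) := by
      apply le_of_sq_le_sq _ (Real.exp_pos _).le
      rw [hr2, ← Real.exp_nat_mul]
      have := Real.add_one_le_exp (-τ)
      have e : ((2:ℕ):ℝ) * -(τ / 2) = -τ := by push_cast; ring
      rw [e]
      linarith
    rw [le_inv_comm₀ (Real.exp_pos _) hr0, ← Real.exp_neg]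
    exact h1
  have hexpo : τ * c / 4 ≤ τ / 2 - m := by
    have e : τ / 2 - m = τ * (c - τ) / (2 * (1 - τ)) := by
      rw [hm, hτ']
      field_simp
      ring
    rw [e, le_div_iff₀ (by positivity)]
    have h1 : 0 ≤ τ * (c - τ) := mul_nonneg h0 (by linarith)
    have h2 : 0 ≤ τ * c := mul_nonneg h0 (by linarith)
    nlinarith
  rw [hform]
  calc Real.exp (τ * c / 4) * μ.real B ≤ Real.exp (τ / 2 - m) * μ.real B := by
        gcongr
    _ = Real.exp (τ / 2) * (Real.exp (-m) * μ.real B) := by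
        rw [← mul_assoc, ← Real.exp_add]; ring_nf
    _ ≤ r⁻¹ * ∫ x in B, Real.exp (-τ' * ⟪n, x⟫ ^ 2 / 2) ∂μ := by
        gcongr

/-- the same, for `gau H K` -/
theorem gain_gau (H : G →L[ℝ] E) {n : G} (hn : ‖n‖ = 1) {τ c : ℝ} (h0 : 0 ≤ τ) (hτ : τ ≤ c / 2)
    (hc : c ≤ 1) {K : Set E} (hK : MeasurableSet K)
    (hthin : ∫ x in H ⁻¹' K, ⟪n, x⟫ ^ 2 ∂(stdGaussian G) ≤ (1 - c) * (stdGaussian G).real (H ⁻¹' K)) :
    Real.exp (τ * c / 4) * (gau H).real K ≤ (gau (H ∘L scl (Real.sqrt (1 - τ)) n)).real K := by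
  have hB : MeasurableSet (H ⁻¹' K) := H.continuous.measurable hK
  have := gain_std hn h0 hτ hc hB hthin
  rw [Measure.real, Measure.real, gau_apply _ hK, gau_apply _ hK]
  exact this

lemma scl_adjoint {n : G} (r : ℝ) : (scl r n).adjoint = scl r n := by
  symm
  rw [ContinuousLinearMap.eq_adjoint_iff]
  intro x y
  simp only [scl_apply, proj_apply, inner_add_left, inner_add_right, inner_sub_left,
    inner_sub_right, real_inner_smul_left, real_inner_smul_right]
  rw [real_inner_comm x n]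
  ring

/-- **(CG)**: comparison in covariance form with gain in a thin direction. -/
theorem cg_sum {A : F →L[ℝ] E} (H : G →L[ℝ] E) {ι : Type*} (s : Finset ι) (w : ι → ℝ)
    (hw : ∀ k ∈ s, 0 ≤ w k) (a : ι → G) {n : G} (hn : ‖n‖ = 1) {τ c : ℝ} (h0 : 0 ≤ τ)
    (hτ : τ ≤ c / 2) (hc : c ≤ 1)
    (h : ∀ t, ‖A.adjoint t‖ ^ 2 + τ * ⟪n, H.adjoint t⟫ ^ 2
      ≤ ‖H.adjoint t‖ ^ 2 + ∑ k ∈ s, w k * ⟪a k, H.adjoint t⟫ ^ 2)
    {K : Set E} (hK : IsClosed K) (cK : Convex ℝ K) (sK : ∀ x ∈ K, -x ∈ K)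
    (hthin : ∫ x in H ⁻¹' K, ⟪n, x⟫ ^ 2 ∂(stdGaussian G) ≤ (1 - c) * (stdGaussian G).real (H ⁻¹' K)) :
    Real.exp (τ * c / 4 - ∑ k ∈ s, w k * ‖a k‖ ^ 2) * (gau H).real K ≤ (gau A).real K := by
  have hτ1 : 0 < 1 - τ := by linarith
  set r := Real.sqrt (1 - τ) with hr
  have hr0 : 0 < r := Real.sqrt_pos.2 hτ1
  have hr2 : r ^ 2 = 1 - τ := Real.sq_sqrt hτ1.le
  have hadj : ∀ t, (H ∘L scl r n).adjoint t = scl r n (H.adjoint t) := by
    intro t
    rw [ContinuousLinearMap.adjoint_comp, ContinuousLinearMap.comp_apply, scl_adjoint]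
  have hinner : ∀ x y : G, ⟪scl r⁻¹ n x, scl r n y⟫ = ⟪x, y⟫ := by
    intro x y
    have : scl r⁻¹ n (scl r n y) = y := by
      rw [scl_scl hn, inv_mul_cancel₀ hr0.ne', scl_one]
    rw [← ContinuousLinearMap.adjoint_inner_right, scl_adjoint, this]
  have h1 := CMPc825.cmpc_sum (A := A) (H ∘L scl r n) s w hw (fun k => scl r⁻¹ n (a k)) (by
    intro t
    simp only [hadj, hinner]
    rw [norm_scl_sq hn, hr2]
    have := h t
    linarith) hK cK sK
  have h2 := gain_gau H hn h0 hτ hc hK.measurableSet hthin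
  rw [← hr] at h2
  have h3 : (∑ k ∈ s, w k * ‖scl r⁻¹ n (a k)‖ ^ 2) / 2 ≤ ∑ k ∈ s, w k * ‖a k‖ ^ 2 := by
    rw [Finset.sum_div]
    apply Finset.sum_le_sum
    intro k hk
    rw [mul_div_assoc]
    apply mul_le_mul_of_nonneg_left _ (hw k hk)
    rw [norm_scl_sq hn, inv_pow, hr2]
    have h5 : ⟪n, a k⟫ ^ 2 ≤ ‖a k‖ ^ 2 := by
      have := abs_real_inner_le_norm n (a k)
      rw [hn, one_mul] at this
      rw [← sq_abs]
      exact pow_le_pow_left₀ (abs_nonneg _) this 2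
    have h6 : (1 - τ)⁻¹ ≤ 2 := by
      rw [inv_le_comm₀ hτ1 (by norm_num)]
      linarith
    have h7 : 1 ≤ (1 - τ)⁻¹ := by
      rw [one_le_inv₀ hτ1]; linarith
    nlinarith [sq_nonneg ⟪n, a k⟫]
  calc Real.exp (τ * c / 4 - ∑ k ∈ s, w k * ‖a k‖ ^ 2) * (gau H).real K
      = Real.exp (-∑ k ∈ s, w k * ‖a k‖ ^ 2) * (Real.exp (τ * c / 4) * (gau H).real K) := by
        rw [← mul_assoc, ← Real.exp_add]; ring_nf
    _ ≤ Real.exp (-((∑ k ∈ s, w k * ‖scl r⁻¹ n (a k)‖ ^ 2) / 2))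
        * (gau (H ∘L scl r n)).real K := by
        gcongr
    _ ≤ (gau A).real K := h1

end Crest.Agent.R239.CG319
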