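import Mathlib
import Crest.Agent.R239.Gau6
import Crest.Agent.R239.LineGauss

/-!
# R239: the covariance form of the comparison (CMPc)

`gau A K ≥ exp (-(∫ ‖D ξ‖²)/2) * gau H K` as soon as `‖A† t‖² ≤ ‖H† t‖² + ‖D† (H† t)‖²`
for `K` closed, convex, symmetric.
-/

set_option autoImplicit false

open MeasureTheory ProbabilityTheory Set
open scoped ENNReal NNReal RealInnerProductSpace

namespace Crest.Agent.R239.CMPc825

open Crest.Agent.R239 Crest.Agent.Lib.PrekopaLeindler

variable {E : Type*} [NormedAddCommGroup E] [InnerProductSpace ℝ E] [FiniteDimensional ℝ E]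
  [MeasurableSpace E] [BorelSpace E]
variable {F : Type*} [NormedAddCommGroup F] [InnerProductSpace ℝ F] [FiniteDimensional ℝ F]
  [MeasurableSpace F] [BorelSpace F]
variable {G : Type*} [NormedAddCommGroup G] [InnerProductSpace ℝ G] [FiniteDimensional ℝ G]
  [MeasurableSpace G] [BorelSpace G]

/-- Prekopa for sets, standard Gaussian. -/
lemma pl_sets {A B C : Set E} (hA : MeasurableSet A) (hB : MeasurableSet B) (hC : MeasurableSet C)
    {t : ℝ} (ht0 : 0 < t) (ht1 : t < 1) (h : ∀ x ∈ A, ∀ y ∈ B, (1 - t) • x + t • y ∈ C) :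
    stdGaussian E A ^ (1 - t) * stdGaussian E B ^ t ≤ stdGaussian E C := by
  have := PL_std (E := E) t ht0 ht1 (A.indicator 1) (B.indicator 1) (C.indicator 1)
    (measurable_one.indicator hA) (measurable_one.indicator hB) (measurable_one.indicator hC) ?_
  · rw [lintegral_indicator_one hA, lintegral_indicator_one hB, lintegral_indicator_one hC] at this
    exact this
  · intro x y
    by_cases hx : x ∈ A
    · by_cases hy : y ∈ B
      · rw [indicator_of_mem hx, indicator_of_mem hy, indicator_of_mem (h x hx y hy)]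
        simp
      · rw [indicator_of_notMem hy, ENNReal.zero_rpow_of_pos ht0, mul_zero]
        exact bot_le
    · rw [indicator_of_notMem hx, ENNReal.zero_rpow_of_pos (by linarith), zero_mul]
      exact bot_le

lemma gau_neg (A : F →L[ℝ] E) {K : Set E} (hK : MeasurableSet K) :
    gau A {x | -x ∈ K} = gau A K := by
  have h1 : gau (-A) K = gau A K := by
    have : gau (-A) = gau A := by
      apply gau_ext
      intro t
      rw [map_neg, neg_apply, norm_neg]
    rw [this]
  rw [← h1, gau_apply _ hK, gau_apply _ (show MeasurableSet {x : E | -x ∈ K} from measurable_neg hK)]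
  rfl

/-- Anderson's inequality for `gau`. -/
theorem anderson (A : F →L[ℝ] E) {K : Set E} (hK : IsClosed K) (cK : Convex ℝ K)
    (sK : ∀ x ∈ K, -x ∈ K) (y : E) : gau A {x | y + x ∈ K} ≤ gau A K := by
  have m1 : MeasurableSet {x : E | y + x ∈ K} := (isClosed_shift hK y).measurableSet
  have m2 : MeasurableSet {x : E | -y + x ∈ K} := (isClosed_shift hK (-y)).measurableSet
  have e1 : gau A {x | -y + x ∈ K} = gau A {x | y + x ∈ K} := by
    rw [← gau_neg A m1]
    congr 1
    ext x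
    simp only [mem_setOf_eq]
    constructor
    · intro h
      have := sK _ h
      rwa [show -(-y + x) = y + -x by abel] at this
    · intro h
      have := sK _ h
      rwa [show -(y + -x) = -y + x by abel] at this
  have key : stdGaussian F (A ⁻¹' {x | y + x ∈ K}) ^ (1 - (1/2:ℝ)) *
      stdGaussian F (A ⁻¹' {x | -y + x ∈ K}) ^ (1/2:ℝ) ≤ stdGaussian F (A ⁻¹' K) := by
    apply pl_sets (A.continuous.measurable m1) (A.continuous.measurable m2)
      (A.continuous.measurable hK.measurableSet) (by norm_num) (by norm_num)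
    intro u hu w hw
    simp only [mem_preimage, mem_setOf_eq, map_add, map_smul] at *
    have := cK hu hw (show (0:ℝ) ≤ 1/2 by norm_num) (show (0:ℝ) ≤ 1/2 by norm_num) (by norm_num)
    convert this using 1
    module
  rw [← gau_apply _ m1, ← gau_apply _ m2, ← gau_apply _ hK.measurableSet, e1] at key
  rw [← ENNReal.rpow_add_of_nonneg _ _ (by norm_num) (by norm_num)] at key
  norm_num at key
  exact key

/-- smaller covariance, larger measure (all symmetric bodies). -/
theorem gau_mono_sym {S : F →L[ℝ] E} {C : G →L[ℝ] E} (h : ∀ t, ‖S.adjoint t‖ ≤ ‖C.adjoint t‖)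
    {K : Set E} (hK : IsClosed K) (cK : Convex ℝ K) (sK : ∀ x ∈ K, -x ∈ K) :
    gau C K ≤ gau S K := by
  obtain ⟨D, hD⟩ := exists_complement S C h
  have h2 : ∀ t, ‖D.adjoint t‖ ^ 2 + ‖S.adjoint t‖ ^ 2 = ‖C.adjoint t‖ ^ 2 := by
    intro t; rw [← hD t]; ring
  rw [gau_mix h2 hK.measurableSet]
  calc ∫⁻ x, gau S {z | D x + z ∈ K} ∂(stdGaussian E)
      ≤ ∫⁻ _, gau S K ∂(stdGaussian E) := lintegral_mono fun x => anderson S hK cK sK (D x)
    _ = gau S K := by simp

/-- translation of a symmetric set costs at most `exp (-|h|²/2)`. -/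
theorem shift_sym {K : Set E} (hK : MeasurableSet K) (sK : ∀ x ∈ K, -x ∈ K) (h : E) :
    ENNReal.ofReal (Real.exp (-(‖h‖ ^ 2 / 2))) * stdGaussian E K ≤ stdGaussian E {x | x + h ∈ K} := by
  have e1 := cameron_martin_measure h hK
  have e2 := cameron_martin_measure (-h) hK
  have e3 : stdGaussian E {x | x + -h ∈ K} = stdGaussian E {x | x + h ∈ K} := by
    have m1 : MeasurableSet {x : E | x + h ∈ K} := (measurable_add_const h) hK
    have := gau_neg (ContinuousLinearMap.id ℝ E) m1
    rw [gau_id] at this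
    rw [← this]
    congr 1
    ext x
    simp only [mem_setOf_eq]
    constructor
    · intro hx
      have := sK _ hx
      rwa [show -(x + -h) = -x + h by abel] at this
    · intro hx
      have := sK _ hx
      rwa [show -(-x + h) = x + -h by abel] at this
  have mf : Measurable fun x : E => ENNReal.ofReal (Real.exp (⟪h, x⟫ - ‖h‖ ^ 2 / 2)) := by fun_prop
  have e4 : stdGaussian E {x | x + h ∈ K} + stdGaussian E {x | x + h ∈ K}
      = ∫⁻ x in K, (ENNReal.ofReal (Real.exp (⟪h, x⟫ - ‖h‖ ^ 2 / 2))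
        + ENNReal.ofReal (Real.exp (⟪-h, x⟫ - ‖-h‖ ^ 2 / 2))) ∂(stdGaussian E) := by
    rw [lintegral_add_left mf, ← e1, ← e2, e3]
  have e5 : 2 * (ENNReal.ofReal (Real.exp (-(‖h‖ ^ 2 / 2))) * stdGaussian E K)
      ≤ 2 * stdGaussian E {x | x + h ∈ K} := by
    rw [two_mul (stdGaussian E {x | x + h ∈ K}), e4, ← mul_assoc, ← setLIntegral_const]
    apply setLIntegral_mono' hK
    intro x _
    rw [← ENNReal.ofReal_add (Real.exp_pos _).le (Real.exp_pos _).le,
      show (2:ℝ≥0∞) = ENNReal.ofReal 2 by simp, ← ENNReal.ofReal_mul (by norm_num)]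
    apply ENNReal.ofReal_le_ofReal
    rw [norm_neg, inner_neg_left]
    set a := (⟪h, x⟫ : ℝ)
    have h1 : Real.exp (a - ‖h‖ ^ 2 / 2) = Real.exp a * Real.exp (-(‖h‖ ^ 2 / 2)) := by
      rw [← Real.exp_add]; ring_nf
    have h2 : Real.exp (-a - ‖h‖ ^ 2 / 2) = Real.exp (-a) * Real.exp (-(‖h‖ ^ 2 / 2)) := by
      rw [← Real.exp_add]; ring_nf
    rw [h1, h2, ← add_mul]
    apply mul_le_mul_of_nonneg_right _ (Real.exp_pos _).le
    have := Real.one_le_cosh a
    rw [Real.cosh_eq] at this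
    linarith
  exact (ENNReal.mul_le_mul_iff_right (by norm_num) (by norm_num)).1 e5

omit [FiniteDimensional ℝ E] [MeasurableSpace E] [BorelSpace E] in
lemma integrable_norm_sq (D : F →L[ℝ] E) :
    Integrable (fun x => ‖D x‖ ^ 2) (stdGaussian F) := by
  have h := (IsGaussian.memLp_id (stdGaussian F) 2 (by simp))
  have h1 : MemLp (fun x => D x) 2 (stdGaussian F) := by
    simpa using D.comp_memLp' h
  exact h1.integrable_norm_pow (by norm_num)

/-- Jensen -/
lemma jensen_exp (D : F →L[ℝ] E) :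
    ENNReal.ofReal (Real.exp (-((∫ x, ‖D x‖ ^ 2 ∂(stdGaussian F)) / 2)))
      ≤ ∫⁻ x, ENNReal.ofReal (Real.exp (-(‖D x‖ ^ 2 / 2))) ∂(stdGaussian F) := by
  set c := ∫ x, ‖D x‖ ^ 2 ∂(stdGaussian F) with hc
  have hi := integrable_norm_sq (E := E) D
  have hm : Measurable fun x : F => ‖D x‖ ^ 2 := by fun_prop
  have hexp : Integrable (fun x => Real.exp (-(‖D x‖ ^ 2 / 2))) (stdGaussian F) := by
    refine (integrable_const (1:ℝ)).mono' (by fun_prop) (ae_of_all _ fun x => ?_)
    rw [Real.norm_of_nonneg (Real.exp_pos _).le]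
    apply Real.exp_le_one_iff.2
    have := sq_nonneg ‖D x‖
    linarith
  rw [← ofReal_integral_eq_lintegral_ofReal hexp (ae_of_all _ fun x => (Real.exp_pos _).le)]
  apply ENNReal.ofReal_le_ofReal
  have h1 : ∫ x, (Real.exp (-(c / 2)) * (1 - (‖D x‖ ^ 2 - c) / 2)) ∂(stdGaussian F)
      = Real.exp (-(c / 2)) := by
    have i1 : Integrable (fun x => ‖D x‖ ^ 2 - c) (stdGaussian F) := hi.sub (integrable_const c)
    have i2 : Integrable (fun x => (‖D x‖ ^ 2 - c) / 2) (stdGaussian F) := i1.div_const 2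
    rw [integral_const_mul, integral_sub (integrable_const (1:ℝ)) i2, integral_div,
      integral_sub hi (integrable_const c), ← hc]
    simp
  rw [← h1]
  apply integral_mono _ hexp
  · intro x
    have h2 : Real.exp (-(‖D x‖ ^ 2 / 2)) = Real.exp (-(c / 2)) * Real.exp (-((‖D x‖ ^ 2 - c) / 2)) := by
      rw [← Real.exp_add]; ring_nf
    simp only
    rw [h2]
    apply mul_le_mul_of_nonneg_left _ (Real.exp_pos _).le
    have := Real.add_one_le_exp (-((‖D x‖ ^ 2 - c) / 2))
    linarith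
  · have i1 : Integrable (fun x => ‖D x‖ ^ 2 - c) (stdGaussian F) := hi.sub (integrable_const c)
    have i2 : Integrable (fun x => (‖D x‖ ^ 2 - c) / 2) (stdGaussian F) := i1.div_const 2
    exact ((integrable_const (1:ℝ)).sub i2).const_mul _

/-- **(CMPc)**: comparison in covariance form (ENNReal). -/
theorem cmpc_enn {A : G →L[ℝ] E} (H : F →L[ℝ] E) {D : F →L[ℝ] F}
    (h : ∀ t, ‖A.adjoint t‖ ^ 2 ≤ ‖H.adjoint t‖ ^ 2 + ‖D.adjoint (H.adjoint t)‖ ^ 2)
    {K : Set E} (hK : IsClosed K) (cK : Convex ℝ K) (sK : ∀ x ∈ K, -x ∈ K) :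
    ENNReal.ofReal (Real.exp (-((∫ x, ‖D x‖ ^ 2 ∂(stdGaussian F)) / 2))) * gau H K ≤ gau A K := by
  have l1 : ∀ (B : F →L[ℝ] E) (x y : E), ⟪B (B.adjoint x), y⟫ = ⟪B.adjoint x, B.adjoint y⟫ :=
    fun B x y => (ContinuousLinearMap.adjoint_inner_right B _ _).symm
  have l2 : ∀ (B : F →L[ℝ] E) (x y : E), ⟪x, B (B.adjoint y)⟫ = ⟪B.adjoint x, B.adjoint y⟫ :=
    fun B x y => (ContinuousLinearMap.adjoint_inner_left B _ _).symm
  have l3 : ∀ (B : F →L[ℝ] E) (x y : E), ⟪(B ∘L B.adjoint) x, y⟫ = ⟪x, (B ∘L B.adjoint) y⟫ :=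
    fun B x y => by rw [ContinuousLinearMap.comp_apply, ContinuousLinearMap.comp_apply, l1, l2]
  -- the larger Gaussian
  obtain ⟨C, hC⟩ := exists_root (E := E) (H ∘L H.adjoint + (H ∘L D) ∘L (H ∘L D).adjoint)
    (by
      intro x y
      rw [add_apply, add_apply, inner_add_left, inner_add_right, l3, l3])
    (by
      intro x
      rw [add_apply, inner_add_left, ← norm_adjoint_sq H x, ← norm_adjoint_sq (H ∘L D) x]
      positivity)
  have hC' : ∀ t, ‖(H ∘L D).adjoint t‖ ^ 2 + ‖H.adjoint t‖ ^ 2 = ‖C.adjoint t‖ ^ 2 := by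
    intro t
    rw [hC t, norm_adjoint_sq H t, norm_adjoint_sq (H ∘L D) t, add_apply, inner_add_left]
    ring
  have h1 : gau C K ≤ gau A K := by
    apply gau_mono_sym _ hK cK sK
    intro t
    apply le_of_sq_le_sq _ (norm_nonneg _)
    rw [← hC' t]
    have := h t
    rw [ContinuousLinearMap.adjoint_comp, ContinuousLinearMap.comp_apply]
    linarith
  refine le_trans ?_ h1
  rw [gau_mix hC' hK.measurableSet]
  have mK : MeasurableSet (H ⁻¹' K) := H.continuous.measurable hK.measurableSet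
  have sK' : ∀ x ∈ H ⁻¹' K, -x ∈ H ⁻¹' K := by
    intro x hx
    simp only [mem_preimage, map_neg] at *
    exact sK _ hx
  calc ENNReal.ofReal (Real.exp (-((∫ x, ‖D x‖ ^ 2 ∂(stdGaussian F)) / 2))) * gau H K
      ≤ (∫⁻ x, ENNReal.ofReal (Real.exp (-(‖D x‖ ^ 2 / 2))) ∂(stdGaussian F)) * gau H K :=
        mul_le_mul_left (jensen_exp D) _
    _ = ∫⁻ x, ENNReal.ofReal (Real.exp (-(‖D x‖ ^ 2 / 2))) * gau H K ∂(stdGaussian F) := by
        rw [lintegral_mul_const _ (by fun_prop)]
    _ ≤ ∫⁻ x, gau H {z | (H ∘L D) x + z ∈ K} ∂(stdGaussian F) := by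
        apply lintegral_mono
        intro x
        simp only
        rw [gau_apply H hK.measurableSet, gau_apply H (isClosed_shift hK _).measurableSet]
        refine le_trans (shift_sym mK sK' (D x)) (le_of_eq ?_)
        congr 1
        ext g
        simp only [mem_preimage, mem_setOf_eq, map_add, ContinuousLinearMap.comp_apply]
        rw [add_comm]

/-- **(CMPc)**, real form. -/
theorem cmpc {A : G →L[ℝ] E} (H : F →L[ℝ] E) {D : F →L[ℝ] F}
    (h : ∀ t, ‖A.adjoint t‖ ^ 2 ≤ ‖H.adjoint t‖ ^ 2 + ‖D.adjoint (H.adjoint t)‖ ^ 2)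
    {K : Set E} (hK : IsClosed K) (cK : Convex ℝ K) (sK : ∀ x ∈ K, -x ∈ K) :
    Real.exp (-((∫ x, ‖D x‖ ^ 2 ∂(stdGaussian F)) / 2)) * (gau H).real K ≤ (gau A).real K := by
  have := ENNReal.toReal_mono (measure_ne_top _ _) (cmpc_enn H h hK cK sK)
  rwa [ENNReal.toReal_mul, ENNReal.toReal_ofReal (Real.exp_pos _).le] at this

/-- **(CMPc)** for a finite family of directions. -/
theorem cmpc_sum {A : G →L[ℝ] E} (H : F →L[ℝ] E) {ι : Type*} (s : Finset ι) (w : ι → ℝ)
    (hw : ∀ k ∈ s, 0 ≤ w k) (a : ι → F)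
    (h : ∀ t, ‖A.adjoint t‖ ^ 2 ≤ ‖H.adjoint t‖ ^ 2 + ∑ k ∈ s, w k * ⟪a k, H.adjoint t⟫ ^ 2)
    {K : Set E} (hK : IsClosed K) (cK : Convex ℝ K) (sK : ∀ x ∈ K, -x ∈ K) :
    Real.exp (-((∑ k ∈ s, w k * ‖a k‖ ^ 2) / 2)) * (gau H).real K ≤ (gau A).real K := by
  obtain ⟨D, hD⟩ := exists_root (E := F) (∑ k ∈ s, w k • (innerSL ℝ (a k)).smulRight (a k))
    (by
      intro x y
      simp only [sum_apply, sum_inner, inner_sum]
      refine Finset.sum_congr rfl fun k _ => ?_
      have : (w k • (innerSL ℝ (a k)).smulRight (a k) : F →L[ℝ] F) x = (w k * ⟪a k, x⟫) • a k := by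
        simp [smul_smul]
      rw [this]
      have : (w k • (innerSL ℝ (a k)).smulRight (a k) : F →L[ℝ] F) y = (w k * ⟪a k, y⟫) • a k := by
        simp [smul_smul]
      rw [this, real_inner_smul_left, real_inner_smul_right, real_inner_comm x (a k)]
      ring)
    (by
      intro x
      simp only [sum_apply, sum_inner]
      refine Finset.sum_nonneg fun k hk => ?_
      have : (w k • (innerSL ℝ (a k)).smulRight (a k) : F →L[ℝ] F) x = (w k * ⟪a k, x⟫) • a k := by
        simp [smul_smul]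
      rw [this, real_inner_smul_left, mul_assoc]
      exact mul_nonneg (hw k hk) (mul_self_nonneg _))
  have hD' : ∀ t, ‖D.adjoint t‖ ^ 2 = ∑ k ∈ s, w k * ⟪a k, t⟫ ^ 2 := by
    intro t
    rw [hD t]
    simp only [sum_apply, sum_inner]
    refine Finset.sum_congr rfl fun k _ => ?_
    have : (w k • (innerSL ℝ (a k)).smulRight (a k) : F →L[ℝ] F) t = (w k * ⟪a k, t⟫) • a k := by
      simp [smul_smul]
    rw [this, real_inner_smul_left]
    ring
  have hint : ∫ x, ‖D x‖ ^ 2 ∂(stdGaussian F) = ∑ k ∈ s, w k * ‖a k‖ ^ 2 := by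
    have b := stdOrthonormalBasis ℝ F
    have e1 : ∀ x, ‖D x‖ ^ 2 = ∑ i, ⟪D.adjoint (b i), x⟫ ^ 2 := by
      intro x
      rw [← b.sum_sq_inner_right (D x)]
      refine Finset.sum_congr rfl fun i _ => ?_
      rw [ContinuousLinearMap.adjoint_inner_left]
    have e2 : ∀ u : F, ∫ x, ⟪u, x⟫ ^ 2 ∂(stdGaussian F) = ‖u‖ ^ 2 := by
      intro u
      have := integral_norm_sq_gau (ContinuousLinearMap.id ℝ F) u
      rwa [gau_id, adjoint_id'] at this
    simp_rw [e1]
    rw [integral_finset_sum]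
    · simp_rw [e2, hD']
      rw [Finset.sum_comm]
      refine Finset.sum_congr rfl fun k _ => ?_
      rw [← Finset.mul_sum, b.sum_sq_inner_left]
    · intro i _
      have := integrable_norm_sq (E := ℝ) (innerSL ℝ (D.adjoint (b i)))
      simpa using this
  have := cmpc H (D := D) (A := A) (by intro t; rw [hD']; exact h t) hK cK sK
  rwa [hint] at this

end Crest.Agent.R239.CMPc825
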