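import Crest.Agent.R239.Gau4
import Crest.Agent.R239.LineGauss

/-!
# R239, block G1 (helper640): Gaussian tools for symmetric convex sets

For `γ = stdGaussian E`, `K` a measurable symmetric convex set:
* `pr` : Prekopa for sets;
* `slab` : Sidak's slab lemma `γ K * γ {|⟪w,x⟫| ≤ s} ≤ γ (K ∩ {|⟪w,x⟫| ≤ s})`;
* `dom_tail`, `dom_sq`, `dom_norm_sq` : domination of the conditional law given `K`;
* `cut` : cutting by `‖B x‖ ≤ r` costs at most the factor `1 - E‖B x‖²/r²`.
-/

set_option autoImplicit false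
set_option linter.unusedSectionVars false
open MeasureTheory ProbabilityTheory Set Filter Topology
open scoped RealInnerProductSpace ENNReal NNReal Pointwise

namespace Crest.Agent.R239.Dom640

open Crest.Agent.R239 Crest.Agent.Lib.PrekopaLeindler

variable {E : Type*} [NormedAddCommGroup E] [InnerProductSpace ℝ E] [FiniteDimensional ℝ E]
  [MeasurableSpace E] [BorelSpace E]
variable {H : Type*} [NormedAddCommGroup H] [InnerProductSpace ℝ H] [FiniteDimensional ℝ H]

/-- **Prekopa–Leindler for sets.** -/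
theorem pr {t : ℝ} (ht0 : 0 < t) (ht1 : t < 1) {A B C : Set E} (hA : MeasurableSet A)
    (hB : MeasurableSet B) (hC : MeasurableSet C)
    (h : ∀ x ∈ A, ∀ y ∈ B, (1 - t) • x + t • y ∈ C) :
    (stdGaussian E A) ^ (1 - t) * (stdGaussian E B) ^ t ≤ stdGaussian E C := by
  have h1 := PL_std (E := E) t ht0 ht1 (A.indicator 1) (B.indicator 1) (C.indicator 1)
    (measurable_one.indicator hA) (measurable_one.indicator hB) (measurable_one.indicator hC) ?_
  · rwa [lintegral_indicator_one hA, lintegral_indicator_one hB, lintegral_indicator_one hC] at h1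
  · intro x y
    by_cases hx : x ∈ A
    · by_cases hy : y ∈ B
      · have := h x hx y hy
        simp [hx, hy, this]
      · simp [hy, ENNReal.zero_rpow_of_pos ht0]
    · simp [hx, ENNReal.zero_rpow_of_pos (sub_pos.2 ht1)]

/-- Real form of `pr`. -/
theorem pr_real {t : ℝ} (ht0 : 0 < t) (ht1 : t < 1) {A B C : Set E} (hA : MeasurableSet A)
    (hB : MeasurableSet B) (hC : MeasurableSet C)
    (h : ∀ x ∈ A, ∀ y ∈ B, (1 - t) • x + t • y ∈ C) :
    ((stdGaussian E).real A) ^ (1 - t) * ((stdGaussian E).real B) ^ t ≤ (stdGaussian E).real C := by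
  have h1 := pr ht0 ht1 hA hB hC h
  have h2 := ENNReal.toReal_mono (measure_ne_top _ _) h1
  rw [ENNReal.toReal_mul, ← ENNReal.toReal_rpow, ← ENNReal.toReal_rpow] at h2
  exact h2

/-- symmetry of the standard Gaussian -/
lemma map_neg_std : (stdGaussian E).map (fun x => -x) = stdGaussian E := by
  have h := gau_ext (A := -ContinuousLinearMap.id ℝ E) (B := ContinuousLinearMap.id ℝ E)
    (by intro t; simp)
  rw [gau_id] at h
  have h2 : gau (-ContinuousLinearMap.id ℝ E) = (stdGaussian E).map (fun x => -x) := rfl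
  rw [← h2, h]

lemma measure_neg_std {K : Set E} (hK : MeasurableSet K) :
    stdGaussian E {x | -x ∈ K} = stdGaussian E K := by
  conv_rhs => rw [← map_neg_std]
  rw [Measure.map_apply measurable_neg hK]
  rfl

/-- section function along the unit vector `n` -/
noncomputable def sec (n : E) (K : Set E) (s : ℝ) : ℝ≥0∞ := stdGaussian E {y | s • n + proj n y ∈ K}

lemma measurableSet_sec (n : E) {K : Set E} (hK : MeasurableSet K) (s : ℝ) :
    MeasurableSet {y : E | s • n + proj n y ∈ K} := by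
  have : Measurable fun y : E => s • n + proj n y := by fun_prop
  exact this hK

lemma measurable_sec (n : E) {K : Set E} (hK : MeasurableSet K) : Measurable (sec n K) :=
  measurable_measure_prodMk_left (measurable_line n hK)

lemma sec_le_one (n : E) (K : Set E) (s : ℝ) : sec n K s ≤ 1 := prob_le_one

/-- sections of a symmetric set are symmetric -/
lemma sec_neg (n : E) {K : Set E} (hK : MeasurableSet K) (hs : ∀ x ∈ K, -x ∈ K) (s : ℝ) :
    sec n K (-s) = sec n K s := by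
  unfold sec
  rw [← measure_neg_std (measurableSet_sec n hK s)]
  congr 1
  ext y
  simp only [mem_ofPred_eq, map_neg]
  constructor
  · intro h
    have := hs _ h
    have e : -(-s • n + proj n y) = s • n + -proj n y := by
      rw [neg_smul]; abel
    rwa [e] at this
  · intro h
    have := hs _ h
    have e : -(s • n + -proj n y) = -s • n + proj n y := by
      rw [neg_smul]; abel
    rwa [e] at this

/-- sections of a symmetric convex set decrease away from the centre -/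
lemma sec_anti (n : E) {K : Set E} (hK : MeasurableSet K) (cK : Convex ℝ K)
    (hs : ∀ x ∈ K, -x ∈ K) {s t : ℝ} (hst : |s| ≤ |t|) : sec n K t ≤ sec n K s := by
  rcases eq_or_lt_of_le hst with h | h
  · rcases abs_eq_abs.1 h with h' | h'
    · rw [h']
    · rw [h', sec_neg n hK hs]
  · -- |s| < |t|
    have ht : 0 < |t| := lt_of_le_of_lt (abs_nonneg _) h
    have ht' : t ≠ 0 := abs_pos.1 ht
    -- s = (1 - a) t + a (-t), a = (1 - s/t)/2
    set a : ℝ := (1 - s / t) / 2 with ha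
    have hq : |s / t| < 1 := by rw [abs_div]; exact (div_lt_one ht).2 h
    have ha0 : 0 < a := by have := (abs_lt.1 hq).2; rw [ha]; linarith
    have ha1 : a < 1 := by have := (abs_lt.1 hq).1; rw [ha]; linarith
    have hsa : (1 - a) * t + a * (-t) = s := by
      have : s = s / t * t := by field_simp
      rw [ha]; rw [this]; field_simp; ring
    have h1 := pr (E := E) ha0 ha1 (measurableSet_sec n hK t) (measurableSet_sec n hK (-t))
      (measurableSet_sec n hK s) (by
        intro x hx y hy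
        simp only [mem_ofPred_eq] at hx hy ⊢
        have := cK hx hy (by linarith : (0:ℝ) ≤ 1 - a) ha0.le (by ring)
        convert this using 1
        rw [map_add, map_smul, map_smul, ← hsa]
        module)
    change (sec n K t) ^ (1 - a) * (sec n K (-t)) ^ a ≤ sec n K s at h1
    rw [sec_neg n hK hs, ← ENNReal.rpow_add_of_nonneg _ _ (by linarith) ha0.le] at h1
    simpa using h1

lemma sec_univ (n : E) (s : ℝ) : sec n (univ : Set E) s = 1 := by
  simp [sec]

/-- measure by sections -/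
lemma measure_eq_sec {n : E} (hn : ‖n‖ = 1) {K : Set E} (hK : MeasurableSet K) :
    stdGaussian E K = ∫⁻ s, sec n K s ∂(gaussianReal 0 1) := by
  conv_lhs => rw [← line_decomp hn]
  rw [Measure.map_apply (measurable_line n) hK, Measure.prod_apply (measurable_line n hK)]
  rfl

lemma measure_inter_eq_sec {n : E} (hn : ‖n‖ = 1) {K : Set E} (hK : MeasurableSet K)
    {I : Set ℝ} (hI : MeasurableSet I) :
    stdGaussian E (K ∩ {x | ⟪n, x⟫ ∈ I}) = ∫⁻ s in I, sec n K s ∂(gaussianReal 0 1) := by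
  have hm : MeasurableSet {x : E | ⟪n, x⟫ ∈ I} := by
    have : Measurable fun x : E => ⟪n, x⟫ := by fun_prop
    exact this hI
  rw [measure_eq_sec hn (hK.inter hm), ← lintegral_indicator hI]
  refine lintegral_congr fun s => ?_
  have hin : ∀ y, ⟪n, s • n + proj n y⟫ = s := by
    intro y
    rw [inner_add_right, inner_smul_right, inner_proj hn, real_inner_self_eq_norm_sq, hn]
    ring
  by_cases h : s ∈ I
  · rw [indicator_of_mem h]
    unfold sec
    congr 1
    ext y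
    simp only [mem_inter_iff, mem_ofPred_eq, hin, h, and_true]
  · rw [indicator_of_notMem h]
    unfold sec
    have : {y : E | s • n + proj n y ∈ K ∩ {x | ⟪n, x⟫ ∈ I}} = ∅ := by
      ext y
      simp only [mem_inter_iff, mem_ofPred_eq, hin, h, and_false, mem_empty_iff_false]
    rw [this, measure_empty]

/-- one dimensional association: `f` decreasing away from `0`. -/
lemma assoc {f : ℝ → ℝ≥0∞} (hf : Measurable f) (h : ∀ s t, |s| ≤ |t| → f t ≤ f s) (r : ℝ)
    (μ : Measure ℝ) [IsProbabilityMeasure μ] :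
    (∫⁻ s, f s ∂μ) * μ {s | |s| ≤ r} ≤ ∫⁻ s in {s | |s| ≤ r}, f s ∂μ := by
  set I : Set ℝ := {s | |s| ≤ r} with hI
  have mI : MeasurableSet I := measurableSet_le (by fun_prop) measurable_const
  rcases le_or_gt 0 r with hr | hr
  · have e1 : ∫⁻ s, f s ∂μ = ∫⁻ s in I, f s ∂μ + ∫⁻ s in Iᶜ, f s ∂μ :=
      (lintegral_add_compl f mI).symm
    have h2 : ∫⁻ s in Iᶜ, f s ∂μ ≤ f r * μ Iᶜ := by
      calc ∫⁻ s in Iᶜ, f s ∂μ ≤ ∫⁻ _ in Iᶜ, f r ∂μ := by
            refine setLIntegral_mono measurable_const fun s hs => h r s ?_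
            simp only [hI, mem_compl_iff, mem_ofPred_eq, not_le] at hs
            rw [abs_of_nonneg hr]; exact hs.le
        _ = _ := by rw [setLIntegral_const]
    have h3 : f r * μ I ≤ ∫⁻ s in I, f s ∂μ := by
      rw [← setLIntegral_const]
      refine setLIntegral_mono hf fun s hs => h s r ?_
      rw [abs_of_nonneg hr]; exact hs
    have h4 : μ I + μ Iᶜ = 1 := by rw [measure_add_measure_compl mI]; exact measure_univ
    have h5 : (∫⁻ s in Iᶜ, f s ∂μ) * μ I ≤ (f r * μ I) * μ Iᶜ := by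
      calc (∫⁻ s in Iᶜ, f s ∂μ) * μ I ≤ (f r * μ Iᶜ) * μ I := by gcongr
        _ = _ := by rw [mul_assoc, mul_assoc, mul_comm (μ Iᶜ)]
    calc (∫⁻ s, f s ∂μ) * μ I = (∫⁻ s in I, f s ∂μ) * μ I + (∫⁻ s in Iᶜ, f s ∂μ) * μ I := by
          rw [e1, add_mul]
      _ ≤ (∫⁻ s in I, f s ∂μ) * μ I + (f r * μ I) * μ Iᶜ := add_le_add le_rfl h5
      _ ≤ (∫⁻ s in I, f s ∂μ) * μ I + (∫⁻ s in I, f s ∂μ) * μ Iᶜ := by gcongr
      _ = ∫⁻ s in I, f s ∂μ := by rw [← mul_add, h4, mul_one]
  · have : I = ∅ := by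
      ext s
      simp only [hI, mem_ofPred_eq, mem_empty_iff_false, iff_false, not_le]
      exact lt_of_lt_of_le hr (abs_nonneg s)
    simp [this]

/-- Sidak's slab lemma, unit normal. -/
lemma slab_unit {n : E} (hn : ‖n‖ = 1) {K : Set E} (hK : MeasurableSet K) (cK : Convex ℝ K)
    (hs : ∀ x ∈ K, -x ∈ K) (r : ℝ) :
    stdGaussian E K * stdGaussian E {x | |⟪n, x⟫| ≤ r}
      ≤ stdGaussian E (K ∩ {x | |⟪n, x⟫| ≤ r}) := by
  have mI : MeasurableSet {s : ℝ | |s| ≤ r} := measurableSet_le (by fun_prop) measurable_const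
  have h1 := measure_inter_eq_sec hn hK mI
  have h2 := measure_inter_eq_sec hn (K := (univ : Set E)) MeasurableSet.univ mI
  have h3 : stdGaussian E {x | |⟪n, x⟫| ≤ r} = gaussianReal 0 1 {s : ℝ | |s| ≤ r} := by
    simp only [univ_inter, mem_ofPred_eq, sec_univ, lintegral_one, Measure.restrict_apply_univ] at h2
    exact h2
  have h4 : stdGaussian E (K ∩ {x | |⟪n, x⟫| ≤ r})
      = ∫⁻ s in {s : ℝ | |s| ≤ r}, sec n K s ∂(gaussianReal 0 1) := h1
  rw [h3, h4, measure_eq_sec hn hK]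
  exact assoc (measurable_sec n hK) (fun s t hst => sec_anti n hK cK hs hst) r _

/-- **Sidak's slab lemma.** -/
theorem slab {K : Set E} (hK : MeasurableSet K) (cK : Convex ℝ K) (hs : ∀ x ∈ K, -x ∈ K)
    (w : E) (r : ℝ) :
    stdGaussian E K * stdGaussian E {x | |⟪w, x⟫| ≤ r}
      ≤ stdGaussian E (K ∩ {x | |⟪w, x⟫| ≤ r}) := by
  rcases eq_or_ne w 0 with rfl | hw
  · simp only [inner_zero_left, abs_zero]
    by_cases hr : 0 ≤ r
    · simp [hr]
    · simp [hr]
  · have hw' : 0 < ‖w‖ := norm_pos_iff.2 hw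
    have hn : ‖(‖w‖⁻¹ • w : E)‖ = 1 := by
      rw [norm_smul, norm_inv, norm_norm, inv_mul_cancel₀ hw'.ne']
    have e : ∀ x : E, |⟪w, x⟫| ≤ r ↔ |⟪(‖w‖⁻¹ • w : E), x⟫| ≤ ‖w‖⁻¹ * r := by
      intro x
      rw [real_inner_smul_left, abs_mul, abs_of_pos (inv_pos.2 hw')]
      exact (mul_le_mul_iff_right₀ (inv_pos.2 hw')).symm
    simp only [e]
    exact slab_unit hn hK cK hs _

/-- **Sidak's slab lemma**, real form. -/
theorem slab_real {K : Set E} (hK : MeasurableSet K) (cK : Convex ℝ K) (hs : ∀ x ∈ K, -x ∈ K)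
    (w : E) (r : ℝ) :
    (stdGaussian E).real K * (stdGaussian E).real {x | |⟪w, x⟫| ≤ r}
      ≤ (stdGaussian E).real (K ∩ {x | |⟪w, x⟫| ≤ r}) := by
  have h := ENNReal.toReal_mono (measure_ne_top _ _) (slab hK cK hs w r)
  rwa [ENNReal.toReal_mul] at h

lemma measurableSet_slab (w : E) (r : ℝ) : MeasurableSet {x : E | |⟪w, x⟫| ≤ r} :=
  measurableSet_le (by fun_prop) measurable_const

lemma measurableSet_slab' (w : E) (r : ℝ) : MeasurableSet {x : E | r < |⟪w, x⟫|} :=
  measurableSet_lt measurable_const (by fun_prop)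

/-- **(Dom)** tail form (ENNReal). -/
theorem dom_tail {K : Set E} (hK : MeasurableSet K) (cK : Convex ℝ K) (hs : ∀ x ∈ K, -x ∈ K)
    (w : E) (r : ℝ) :
    stdGaussian E (K ∩ {x | r < |⟪w, x⟫|})
      ≤ stdGaussian E K * stdGaussian E {x | r < |⟪w, x⟫|} := by
  have h := slab hK cK hs w r
  have hc : {x : E | r < |⟪w, x⟫|} = {x : E | |⟪w, x⟫| ≤ r}ᶜ := by ext x; simp
  have h1 : stdGaussian E (K ∩ {x | |⟪w, x⟫| ≤ r}) + stdGaussian E (K ∩ {x | r < |⟪w, x⟫|})
      = stdGaussian E K := by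
    rw [hc, ← sdiff_eq]
    exact measure_inter_add_sdiff K (measurableSet_slab w r)
  have h2 : stdGaussian E {x | |⟪w, x⟫| ≤ r} + stdGaussian E {x | r < |⟪w, x⟫|} = 1 := by
    rw [hc, measure_add_measure_compl (measurableSet_slab w r)]; exact measure_univ
  have h3 : stdGaussian E (K ∩ {x | |⟪w, x⟫| ≤ r}) + stdGaussian E (K ∩ {x | r < |⟪w, x⟫|})
      ≤ stdGaussian E (K ∩ {x | |⟪w, x⟫| ≤ r}) + stdGaussian E K * stdGaussian E {x | r < |⟪w, x⟫|} := by
    rw [h1]
    calc stdGaussian E K = stdGaussian E K * (stdGaussian E {x | |⟪w, x⟫| ≤ r}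
          + stdGaussian E {x | r < |⟪w, x⟫|}) := by rw [h2, mul_one]
      _ ≤ _ := by rw [mul_add]; gcongr
  exact (ENNReal.add_le_add_iff_left (measure_ne_top _ _)).1 h3

/-- **(Dom)** tail form (real). -/
theorem dom_tail_real {K : Set E} (hK : MeasurableSet K) (cK : Convex ℝ K) (hs : ∀ x ∈ K, -x ∈ K)
    (w : E) (r : ℝ) :
    (stdGaussian E).real (K ∩ {x | r < |⟪w, x⟫|})
      ≤ (stdGaussian E).real K * (stdGaussian E).real {x | r < |⟪w, x⟫|} := by
  have h := ENNReal.toReal_mono (ENNReal.mul_ne_top (measure_ne_top _ _) (measure_ne_top _ _))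
    (dom_tail hK cK hs w r)
  rwa [ENNReal.toReal_mul] at h

/-- **(Dom)** for squares of linear forms (ENNReal). -/
theorem dom_sq_lintegral {K : Set E} (hK : MeasurableSet K) (cK : Convex ℝ K)
    (hs : ∀ x ∈ K, -x ∈ K) (w : E) :
    ∫⁻ x in K, ENNReal.ofReal (⟪w, x⟫ ^ 2) ∂(stdGaussian E)
      ≤ stdGaussian E K * ∫⁻ x, ENNReal.ofReal (⟪w, x⟫ ^ 2) ∂(stdGaussian E) := by
  have key : ∀ ν : Measure E, ∫⁻ x, ENNReal.ofReal (⟪w, x⟫ ^ 2) ∂ν
      = 2 * ∫⁻ t in Ioi (0:ℝ), ν {x | t < |⟪w, x⟫|} * ENNReal.ofReal t := by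
    intro ν
    have h := lintegral_rpow_eq_lintegral_meas_lt_mul ν (f := fun x => |⟪w, x⟫|)
      (Eventually.of_forall fun x => abs_nonneg _) (by fun_prop) (p := 2) (by norm_num)
    have e1 : ∀ x : E, ENNReal.ofReal (|⟪w, x⟫| ^ (2:ℝ)) = ENNReal.ofReal (⟪w, x⟫ ^ 2) := by
      intro x
      rw [Real.rpow_two, sq_abs]
    have e2 : ∀ t : ℝ, ENNReal.ofReal (t ^ ((2:ℝ) - 1)) = ENNReal.ofReal t := by
      intro t; norm_num
    simp only [e1, e2] at h
    rw [h]
    norm_num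
  rw [key, key]
  rw [← mul_assoc, mul_comm (stdGaussian E K) 2, mul_assoc]
  gcongr
  rw [← lintegral_const_mul' _ _ (measure_ne_top _ _)]
  refine lintegral_mono fun t => ?_
  rw [Measure.restrict_apply (measurableSet_slab' w t), inter_comm, ← mul_assoc]
  gcongr
  exact dom_tail hK cK hs w t


lemma memLp_inner (w : E) : MemLp (fun x : E => ⟪w, x⟫) 2 (stdGaussian E) :=
  IsGaussian.memLp_dual (stdGaussian E) (innerSL ℝ w) 2 (by simp)

lemma integrable_inner_sq (w : E) : Integrable (fun x : E => ⟪w, x⟫ ^ 2) (stdGaussian E) :=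
  (memLp_inner w).integrable_sq

lemma integral_inner_sq (w : E) : ∫ x, ⟪w, x⟫ ^ 2 ∂(stdGaussian E) = ‖w‖ ^ 2 := by
  have h := integral_norm_sq_gau (ContinuousLinearMap.id ℝ E) w
  rw [gau_id, adjoint_id', ContinuousLinearMap.id_apply] at h
  exact h

/-- **(Dom)** for squares of linear forms. -/
theorem dom_sq {K : Set E} (hK : MeasurableSet K) (cK : Convex ℝ K)
    (hs : ∀ x ∈ K, -x ∈ K) (w : E) :
    ∫ x in K, ⟪w, x⟫ ^ 2 ∂(stdGaussian E) ≤ (stdGaussian E).real K * ‖w‖ ^ 2 := by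
  have h := dom_sq_lintegral hK cK hs w
  rw [← ofReal_integral_eq_lintegral_ofReal (integrable_inner_sq w).restrict
    (Eventually.of_forall fun x => sq_nonneg _),
    ← ofReal_integral_eq_lintegral_ofReal (integrable_inner_sq w)
    (Eventually.of_forall fun x => sq_nonneg _), integral_inner_sq,
    ← ofReal_measureReal, ← ENNReal.ofReal_mul measureReal_nonneg] at h
  exact (ENNReal.ofReal_le_ofReal_iff (by positivity)).1 h

/-- expansion of `‖B x‖²` in an orthonormal basis -/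
lemma norm_sq_eq_sum (B : E →L[ℝ] H) (x : E) :
    ‖B x‖ ^ 2 = ∑ i, ⟪B.adjoint (stdOrthonormalBasis ℝ H i), x⟫ ^ 2 := by
  rw [← (stdOrthonormalBasis ℝ H).sum_sq_norm_inner_right (B x)]
  refine Finset.sum_congr rfl fun i _ => ?_
  rw [ContinuousLinearMap.adjoint_inner_left, Real.norm_eq_abs, sq_abs]

lemma integrable_norm_sq (B : E →L[ℝ] H) : Integrable (fun x : E => ‖B x‖ ^ 2) (stdGaussian E) := by
  simp only [norm_sq_eq_sum]
  exact integrable_finsetSum _ fun i _ => integrable_inner_sq _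

lemma integral_norm_sq (B : E →L[ℝ] H) : ∫ x, ‖B x‖ ^ 2 ∂(stdGaussian E)
    = ∑ i, ‖B.adjoint (stdOrthonormalBasis ℝ H i)‖ ^ 2 := by
  simp only [norm_sq_eq_sum]
  rw [integral_finsetSum _ fun i _ => integrable_inner_sq _]
  simp only [integral_inner_sq]

/-- **(Dom)** for the square of a linear map. -/
theorem dom_norm_sq {K : Set E} (hK : MeasurableSet K) (cK : Convex ℝ K)
    (hs : ∀ x ∈ K, -x ∈ K) (B : E →L[ℝ] H) :
    ∫ x in K, ‖B x‖ ^ 2 ∂(stdGaussian E)
      ≤ (stdGaussian E).real K * ∫ x, ‖B x‖ ^ 2 ∂(stdGaussian E) := by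
  rw [integral_norm_sq, Finset.mul_sum]
  simp only [norm_sq_eq_sum]
  rw [integral_finsetSum _ fun i _ => (integrable_inner_sq _).restrict]
  exact Finset.sum_le_sum fun i _ => dom_sq hK cK hs _

/-- **(CUT)** cutting a symmetric convex set by `‖B x‖ ≤ r`. -/
theorem cut {K : Set E} (hK : MeasurableSet K) (cK : Convex ℝ K)
    (hs : ∀ x ∈ K, -x ∈ K) (B : E →L[ℝ] H) {r : ℝ} (hr : 0 < r) :
    (1 - (∫ x, ‖B x‖ ^ 2 ∂(stdGaussian E)) / r ^ 2) * (stdGaussian E).real K
      ≤ (stdGaussian E).real (K ∩ {x | ‖B x‖ ≤ r}) := by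
  have mB : MeasurableSet {x : E | ‖B x‖ ≤ r} :=
    measurableSet_le B.continuous.norm.measurable measurable_const
  have h1 : (stdGaussian E).real (K ∩ {x | ‖B x‖ ≤ r})
      + (stdGaussian E).real (K \ {x | ‖B x‖ ≤ r}) = (stdGaussian E).real K :=
    measureReal_inter_add_sdiff mB
  have h2 : r ^ 2 * (stdGaussian E).real (K \ {x | ‖B x‖ ≤ r})
      ≤ ∫ x in K, ‖B x‖ ^ 2 ∂(stdGaussian E) := by
    have e : ∫ x in K \ {x | ‖B x‖ ≤ r}, r ^ 2 ∂(stdGaussian E)
        = r ^ 2 * (stdGaussian E).real (K \ {x | ‖B x‖ ≤ r}) := by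
      rw [setIntegral_const, smul_eq_mul, mul_comm]
    rw [← e]
    calc ∫ x in K \ {x | ‖B x‖ ≤ r}, r ^ 2 ∂(stdGaussian E)
        ≤ ∫ x in K \ {x | ‖B x‖ ≤ r}, ‖B x‖ ^ 2 ∂(stdGaussian E) := by
          refine setIntegral_mono_on (integrable_const _).integrableOn
            (integrable_norm_sq B).integrableOn (hK.diff mB) fun x hx => ?_
          have : r < ‖B x‖ := not_le.1 hx.2
          exact pow_le_pow_left₀ hr.le this.le 2
      _ ≤ _ := setIntegral_mono_set (integrable_norm_sq B).integrableOn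
          (Eventually.of_forall fun x => by positivity) (sdiff_subset.eventuallyLE)
  have h3 := h2.trans (dom_norm_sq hK cK hs B)
  have hr2 : 0 < r ^ 2 := by positivity
  have h4 : (stdGaussian E).real (K \ {x | ‖B x‖ ≤ r})
      ≤ (∫ x, ‖B x‖ ^ 2 ∂(stdGaussian E)) / r ^ 2 * (stdGaussian E).real K := by
    rw [div_mul_eq_mul_div, le_div_iff₀ hr2]
    linarith [mul_comm (r ^ 2) ((stdGaussian E).real (K \ {x | ‖B x‖ ≤ r})),
      mul_comm ((stdGaussian E).real K) (∫ x, ‖B x‖ ^ 2 ∂(stdGaussian E))]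
  linarith


/-! ### The same for `gau A` -/

section gauA

variable {F : Type*} [NormedAddCommGroup F] [InnerProductSpace ℝ F] [FiniteDimensional ℝ F]
  [MeasurableSpace F] [BorelSpace F]

lemma pre_meas (A : F →L[ℝ] E) {K : Set E} (hK : MeasurableSet K) : MeasurableSet (A ⁻¹' K) :=
  A.continuous.measurable hK

lemma pre_conv (A : F →L[ℝ] E) {K : Set E} (cK : Convex ℝ K) : Convex ℝ (A ⁻¹' K) :=
  cK.linear_preimage (A : F →ₗ[ℝ] E)

lemma pre_symm (A : F →L[ℝ] E) {K : Set E} (hs : ∀ x ∈ K, -x ∈ K) :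
    ∀ x ∈ A ⁻¹' K, -x ∈ A ⁻¹' K := by
  intro x hx
  simp only [mem_preimage, map_neg]
  exact hs _ hx

/-- **(Pr)** for `gau A`. -/
theorem gau_pr_real (A : F →L[ℝ] E) {t : ℝ} (ht0 : 0 < t) (ht1 : t < 1) {K L M : Set E}
    (hK : MeasurableSet K) (hL : MeasurableSet L) (hM : MeasurableSet M)
    (h : ∀ x ∈ K, ∀ y ∈ L, (1 - t) • x + t • y ∈ M) :
    ((gau A).real K) ^ (1 - t) * ((gau A).real L) ^ t ≤ (gau A).real M := by
  rw [gau_real_apply A hK, gau_real_apply A hL, gau_real_apply A hM]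
  refine pr_real ht0 ht1 (pre_meas A hK) (pre_meas A hL) (pre_meas A hM) fun x hx y hy => ?_
  simp only [mem_preimage, map_add, map_smul]
  exact h _ hx _ hy

/-- **(Sl)** for `gau A`. -/
theorem gau_slab_real (A : F →L[ℝ] E) {K : Set E} (hK : MeasurableSet K) (cK : Convex ℝ K)
    (hs : ∀ x ∈ K, -x ∈ K) (w : E) (r : ℝ) :
    (gau A).real K * (gau A).real {x | |⟪w, x⟫| ≤ r}
      ≤ (gau A).real (K ∩ {x | |⟪w, x⟫| ≤ r}) := by
  rw [gau_real_apply A hK, gau_real_apply A (measurableSet_slab w r),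
    gau_real_apply A (hK.inter (measurableSet_slab w r))]
  have h := slab_real (pre_meas A hK) (pre_conv A cK) (pre_symm A hs) (A.adjoint w) r
  have e : A ⁻¹' {x | |⟪w, x⟫| ≤ r} = {x | |⟪A.adjoint w, x⟫| ≤ r} := by
    ext x
    simp only [mem_preimage, mem_ofPred_eq, ContinuousLinearMap.adjoint_inner_left]
  rw [preimage_inter, e]
  exact h

/-- **(Dom)** for `gau A`, squares of linear forms. -/
theorem gau_dom_sq (A : F →L[ℝ] E) {K : Set E} (hK : MeasurableSet K) (cK : Convex ℝ K)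
    (hs : ∀ x ∈ K, -x ∈ K) (w : E) :
    ∫ x in K, ⟪w, x⟫ ^ 2 ∂(gau A) ≤ (gau A).real K * ‖A.adjoint w‖ ^ 2 := by
  have e : ∫ x in K, ⟪w, x⟫ ^ 2 ∂(gau A) = ∫ y in A ⁻¹' K, ⟪A.adjoint w, y⟫ ^ 2 ∂(stdGaussian F) := by
    unfold gau
    rw [setIntegral_map hK (by fun_prop) A.continuous.aemeasurable]
    simp only [ContinuousLinearMap.adjoint_inner_left]
  rw [e, gau_real_apply A hK]
  exact dom_sq (pre_meas A hK) (pre_conv A cK) (pre_symm A hs) _

/-- **(Dom)** for `gau A`, square of a linear map. -/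
theorem gau_dom_norm_sq (A : F →L[ℝ] E) {K : Set E} (hK : MeasurableSet K) (cK : Convex ℝ K)
    (hs : ∀ x ∈ K, -x ∈ K) (B : E →L[ℝ] H) :
    ∫ x in K, ‖B x‖ ^ 2 ∂(gau A) ≤ (gau A).real K * ∫ x, ‖B x‖ ^ 2 ∂(gau A) := by
  have e : ∫ x in K, ‖B x‖ ^ 2 ∂(gau A) = ∫ y in A ⁻¹' K, ‖(B ∘L A) y‖ ^ 2 ∂(stdGaussian F) := by
    unfold gau
    rw [setIntegral_map hK (by fun_prop) A.continuous.aemeasurable]
    rfl
  have e' : ∫ x, ‖B x‖ ^ 2 ∂(gau A) = ∫ y, ‖(B ∘L A) y‖ ^ 2 ∂(stdGaussian F) := by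
    unfold gau
    rw [integral_map A.continuous.aemeasurable (by fun_prop)]
    rfl
  rw [e, e', gau_real_apply A hK]
  exact dom_norm_sq (pre_meas A hK) (pre_conv A cK) (pre_symm A hs) _

/-- **(CUT)** for `gau A`. -/
theorem gau_cut (A : F →L[ℝ] E) {K : Set E} (hK : MeasurableSet K) (cK : Convex ℝ K)
    (hs : ∀ x ∈ K, -x ∈ K) (B : E →L[ℝ] H) {r : ℝ} (hr : 0 < r) :
    (1 - (∫ x, ‖B x‖ ^ 2 ∂(gau A)) / r ^ 2) * (gau A).real K
      ≤ (gau A).real (K ∩ {x | ‖B x‖ ≤ r}) := by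
  have e' : ∫ x, ‖B x‖ ^ 2 ∂(gau A) = ∫ y, ‖(B ∘L A) y‖ ^ 2 ∂(stdGaussian F) := by
    unfold gau
    rw [integral_map A.continuous.aemeasurable (by fun_prop)]
    rfl
  have mB : MeasurableSet {x : E | ‖B x‖ ≤ r} :=
    measurableSet_le B.continuous.norm.measurable measurable_const
  rw [e', gau_real_apply A hK, gau_real_apply A (hK.inter mB)]
  exact cut (pre_meas A hK) (pre_conv A cK) (pre_symm A hs) (B ∘L A) hr

end gauA

end Crest.Agent.R239.Dom640
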