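import Mathlib
import Crest.Agent.R239.LineGauss

/-!
# R239 : the opening loss (growth lemma of the flag potential, one-body form)

`Er K n t` = erosion, `Wd K n t h` = erosion by `t` followed by dilation by `t + h` (so
`Wd K n t 0` is the opening and `Wd K n 0 h` is the dilation).  Main result `opening_loss`:
if `γ (K + h[-n,n]) ≤ (1+k) γ K` then the opening by `t` loses at most `40 k (t/h)² γ K`.
-/

set_option autoImplicit false

open MeasureTheory ProbabilityTheory Set
open scoped ENNReal NNReal RealInnerProductSpace Pointwise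

namespace Crest.Agent.R239.Gr655

open Crest.Agent.Lib.PrekopaLeindler Crest.Agent.R239

/-! ### the normal density -/

noncomputable def p (x : ℝ) : ℝ := gaussianPDFReal 0 1 x

lemma p_eq (x : ℝ) : p x = p 0 * Real.exp (-x ^ 2 / 2) := by
  unfold p gaussianPDFReal
  simp

lemma p0_pos : 0 < p 0 := gaussianPDFReal_pos 0 1 0 one_ne_zero

lemma p_nonneg (x : ℝ) : 0 ≤ p x := gaussianPDFReal_nonneg _ _ _

lemma p_le {x y : ℝ} (h : y ^ 2 ≤ x ^ 2) : p x ≤ p y := by
  rw [p_eq x, p_eq y]
  apply mul_le_mul_of_nonneg_left _ p0_pos.le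
  apply Real.exp_le_exp.2
  linarith

lemma p_near {x : ℝ} (h : |x| ≤ 1 / 5) : 0.98 * p 0 ≤ p x := by
  rw [p_eq x]
  have h1 : x ^ 2 ≤ (1 / 5) ^ 2 := by
    rw [← sq_abs x]
    exact pow_le_pow_left₀ (abs_nonneg _) h 2
  have h2 : -x ^ 2 / 2 + 1 ≤ Real.exp (-x ^ 2 / 2) := Real.add_one_le_exp _
  nlinarith [p0_pos]

lemma g1_eq : g1 = volume.withDensity (gaussianPDF 0 1) := gaussianReal_of_var_ne_zero 0 one_ne_zero

lemma g1_le {S : Set ℝ} (hS : MeasurableSet S) {c : ℝ} (h : ∀ s ∈ S, p s ≤ c) :
    g1 S ≤ ENNReal.ofReal c * volume S := by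
  rw [g1_eq, withDensity_apply _ hS]
  calc ∫⁻ a in S, gaussianPDF 0 1 a ≤ ∫⁻ _ in S, ENNReal.ofReal c := by
        apply setLIntegral_mono measurable_const
        intro s hs
        exact ENNReal.ofReal_le_ofReal (h s hs)
    _ = _ := by rw [setLIntegral_const]

lemma g1_ge {S : Set ℝ} (hS : MeasurableSet S) {c : ℝ} (h : ∀ s ∈ S, c ≤ p s) :
    ENNReal.ofReal c * volume S ≤ g1 S := by
  rw [g1_eq, withDensity_apply _ hS]
  calc _ = ∫⁻ _ in S, ENNReal.ofReal c := by rw [setLIntegral_const]
    _ ≤ ∫⁻ a in S, gaussianPDF 0 1 a := by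
        apply setLIntegral_mono (measurable_gaussianPDF 0 1)
        intro s hs
        exact ENNReal.ofReal_le_ofReal (h s hs)

/-- comparison of the mass of a short interval with the mass of its extension -/
lemma icc_mass {a b h : ℝ} (hab : a ≤ b) (hh : 0 < h) (h1 : h ≤ 1 / 10) (hl : b - a ≤ h) :
    g1.real (Icc a b) * (0.98 * h) ≤ (b - a) * g1.real (Icc (a - h) (b + h) \ Icc a b) := by
  -- the general step
  have key : ∀ (S : Set ℝ) (c c' : ℝ), MeasurableSet S → volume S = ENNReal.ofReal h →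
      S ⊆ Icc (a - h) (b + h) \ Icc a b → 0 ≤ c' → 0.98 * c' ≤ c → (∀ s ∈ S, c ≤ p s) →
      (∀ t ∈ Icc a b, p t ≤ c') →
      g1.real (Icc a b) * (0.98 * h) ≤ (b - a) * g1.real (Icc (a - h) (b + h) \ Icc a b) := by
    intro S c c' hS hv hsub hc' hcc hlow hup
    have hc : 0 ≤ c := le_trans (by positivity) hcc
    have e1 : g1.real (Icc a b) ≤ c' * (b - a) := by
      have := g1_le measurableSet_Icc hup
      rw [Real.volume_Icc, ← ENNReal.ofReal_mul hc'] at this
      exact ENNReal.toReal_le_of_le_ofReal (mul_nonneg hc' (by linarith)) this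
    have e2 : c * h ≤ g1.real (Icc (a - h) (b + h) \ Icc a b) := by
      have h2 := g1_ge hS hlow
      rw [hv, ← ENNReal.ofReal_mul hc] at h2
      have h3 : ENNReal.ofReal (c * h) ≤ g1 (Icc (a - h) (b + h) \ Icc a b) :=
        h2.trans (measure_mono hsub)
      exact (ENNReal.ofReal_le_iff_le_toReal (measure_ne_top _ _)).1 h3
    calc g1.real (Icc a b) * (0.98 * h) ≤ c' * (b - a) * (0.98 * h) := by gcongr
      _ = (b - a) * (0.98 * c' * h) := by ring
      _ ≤ (b - a) * (c * h) := by
          apply mul_le_mul_of_nonneg_left _ (by linarith)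
          exact mul_le_mul_of_nonneg_right hcc hh.le
      _ ≤ _ := mul_le_mul_of_nonneg_left e2 (by linarith)
  rcases le_or_gt 0 a with ha | ha
  · -- the interval is on the positive side
    refine key (Ico (a - h) a) (0.98 * p a) (p a) measurableSet_Ico ?_ ?_ (p_nonneg _) le_rfl ?_ ?_
    · rw [Real.volume_Ico]; congr 1; ring
    · intro s hs
      refine ⟨⟨hs.1, by linarith [hs.2]⟩, fun h' => ?_⟩
      linarith [hs.2, h'.1]
    · intro s hs
      rcases le_or_gt (s ^ 2) (a ^ 2) with h2 | h2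
      · have := p_le h2
        nlinarith [p_nonneg a]
      · have hs1 : |s| ≤ 1 / 5 := by
          have h3 : s < 0 := by
            by_contra h4
            push Not at h4
            nlinarith [hs.2]
          rw [abs_of_neg h3]
          linarith [hs.1]
        have h4 := p_near hs1
        have h5 : p a ≤ p 0 := p_le (by nlinarith)
        linarith
    · intro t ht
      exact p_le (by nlinarith [ht.1])
  rcases le_or_gt b 0 with hb | hb
  · refine key (Ioc b (b + h)) (0.98 * p b) (p b) measurableSet_Ioc ?_ ?_ (p_nonneg _) le_rfl ?_ ?_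
    · rw [Real.volume_Ioc]; congr 1; ring
    · intro s hs
      refine ⟨⟨by linarith [hs.1], hs.2⟩, fun h' => ?_⟩
      linarith [hs.1, h'.2]
    · intro s hs
      rcases le_or_gt (s ^ 2) (b ^ 2) with h2 | h2
      · have := p_le h2
        nlinarith [p_nonneg b]
      · have hs1 : |s| ≤ 1 / 5 := by
          have h3 : 0 < s := by
            by_contra h4
            push Not at h4
            nlinarith [hs.1]
          rw [abs_of_pos h3]
          linarith [hs.2]
        have h4 := p_near hs1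
        have h5 : p b ≤ p 0 := p_le (by nlinarith)
        linarith
    · intro t ht
      exact p_le (by nlinarith [ht.2])
  · refine key (Ioc b (b + h)) (0.98 * p 0) (p 0) measurableSet_Ioc ?_ ?_ (p_nonneg _) le_rfl ?_ ?_
    · rw [Real.volume_Ioc]; congr 1; ring
    · intro s hs
      refine ⟨⟨by linarith [hs.1], hs.2⟩, fun h' => ?_⟩
      linarith [hs.1, h'.2]
    · intro s hs
      apply p_near
      rw [abs_of_pos (by linarith [hs.1])]
      linarith [hs.2]
    · intro t _
      exact p_le (by nlinarith [sq_nonneg t])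

/-- short interval: extension dominates -/
lemma icc_f1 {a b h : ℝ} (hab : a ≤ b) (hh : 0 < h) (h1 : h ≤ 1 / 10) (hl : b - a ≤ h) :
    g1.real (Icc (a - h) (b + h)) ≤ 2.1 * g1.real (Icc (a - h) (b + h) \ Icc a b) := by
  have hm := icc_mass hab hh h1 hl
  have hsub : Icc a b ⊆ Icc (a - h) (b + h) := Icc_subset_Icc (by linarith) (by linarith)
  have hd : g1.real (Icc (a - h) (b + h) \ Icc a b) = g1.real (Icc (a - h) (b + h)) - g1.real (Icc a b) :=
    measureReal_sdiff hsub measurableSet_Icc
  have h0 : 0 ≤ g1.real (Icc (a - h) (b + h) \ Icc a b) := measureReal_nonneg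
  have h2 : (b - a) * g1.real (Icc (a - h) (b + h) \ Icc a b) ≤ h * g1.real (Icc (a - h) (b + h) \ Icc a b) :=
    mul_le_mul_of_nonneg_right hl h0
  have h3 : 0.98 * g1.real (Icc a b) ≤ g1.real (Icc (a - h) (b + h) \ Icc a b) := by
    have : h * (0.98 * g1.real (Icc a b)) ≤ h * g1.real (Icc (a - h) (b + h) \ Icc a b) := by
      linarith
    exact le_of_mul_le_mul_left this hh
  nlinarith

/-- short interval: its mass is a small fraction of the mass of its extension -/
lemma icc_f2 {a b h t : ℝ} (hab : a ≤ b) (hh : 0 < h) (h1 : h ≤ 1 / 10) (hl : b - a ≤ 2 * t)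
    (ht : 2 * t ≤ h) :
    g1.real (Icc a b) ≤ 2.1 * (t / h) * g1.real (Icc (a - h) (b + h)) := by
  have hm := icc_mass hab hh h1 (hl.trans ht)
  have h0 : 0 ≤ g1.real (Icc (a - h) (b + h) \ Icc a b) := measureReal_nonneg
  have h0' : g1.real (Icc (a - h) (b + h) \ Icc a b) ≤ g1.real (Icc (a - h) (b + h)) :=
    measureReal_mono sdiff_subset
  have ht0 : 0 ≤ t := by linarith
  have h2 : (b - a) * g1.real (Icc (a - h) (b + h) \ Icc a b) ≤ 2 * t * g1.real (Icc (a - h) (b + h)) :=
    mul_le_mul hl h0' h0 (by linarith)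
  have h3 : g1.real (Icc a b) * (0.98 * h) ≤ 2 * t * g1.real (Icc (a - h) (b + h)) := hm.trans h2
  have h4 : g1.real (Icc a b) * h ≤ 2.1 * t * g1.real (Icc (a - h) (b + h)) := by
    have : 0 ≤ t * g1.real (Icc (a - h) (b + h)) := mul_nonneg ht0 measureReal_nonneg
    nlinarith
  have : 2.1 * (t / h) * g1.real (Icc (a - h) (b + h)) = (2.1 * t * g1.real (Icc (a - h) (b + h))) / h := by
    field_simp
  rw [this, le_div_iff₀ hh]
  exact h4

/-! ### erosion and dilation along a direction -/

section sets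

variable {E : Type*} [NormedAddCommGroup E] [InnerProductSpace ℝ E]

/-- erosion of `K` by the segment `t[-n,n]` -/
def Er (K : Set E) (n : E) (t : ℝ) : Set E := {y | y + t • n ∈ K ∧ y - t • n ∈ K}

/-- erosion by `t` followed by dilation by `t + h` -/
def Wd (K : Set E) (n : E) (t h : ℝ) : Set E := {x | ∃ s : ℝ, |s| ≤ t + h ∧ x + s • n ∈ Er K n t}

lemma mem_Wd {K : Set E} {n : E} {t h : ℝ} {x : E} :
    x ∈ Wd K n t h ↔ ∃ s : ℝ, |s| ≤ t + h ∧ x + s • n + t • n ∈ K ∧ x + s • n - t • n ∈ K := Iff.rfl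

lemma isClosed_Er {K : Set E} (hK : IsClosed K) (n : E) (t : ℝ) : IsClosed (Er K n t) :=
  (hK.preimage (by fun_prop : Continuous fun y : E => y + t • n)).inter
    (hK.preimage (by fun_prop : Continuous fun y : E => y - t • n))

lemma convex_Er {K : Set E} (hK : Convex ℝ K) (n : E) (t : ℝ) : Convex ℝ (Er K n t) := by
  intro x hx y hy a b ha hb hab
  refine ⟨?_, ?_⟩
  · have := hK hx.1 hy.1 ha hb hab
    have e : a • x + b • y + t • n = a • (x + t • n) + b • (y + t • n) := by
      calc a • x + b • y + t • n = a • x + b • y + (a + b) • (t • n) := by rw [hab, one_smul]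
        _ = _ := by module
    rw [e]; exact this
  · have := hK hx.2 hy.2 ha hb hab
    have e : a • x + b • y - t • n = a • (x - t • n) + b • (y - t • n) := by
      calc a • x + b • y - t • n = a • x + b • y - (a + b) • (t • n) := by rw [hab, one_smul]
        _ = _ := by module
    rw [e]; exact this

lemma Wd_eq (K : Set E) (n : E) (t h : ℝ) :
    Wd K n t h = Er K n t + (fun s : ℝ => s • n) '' Icc (-(t + h)) (t + h) := by
  ext x
  rw [Set.mem_add]
  constructor
  · rintro ⟨s, hs, hx⟩
    refine ⟨x + s • n, hx, (-s) • n, ⟨-s, ?_, rfl⟩, by module⟩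
    rw [abs_le] at hs
    exact ⟨by linarith [hs.2], by linarith [hs.1]⟩
  · rintro ⟨y, hy, _, ⟨s, hs, rfl⟩, rfl⟩
    refine ⟨-s, ?_, ?_⟩
    · rw [abs_neg, abs_le]; exact hs
    · have : y + s • n + (-s) • n = y := by module
      simpa [this] using hy

lemma isClosed_Wd {K : Set E} (hK : IsClosed K) (n : E) (t h : ℝ) : IsClosed (Wd K n t h) := by
  rw [Wd_eq]
  exact (isClosed_Er hK n t).add_right_of_isCompact
    (isCompact_Icc.image (by fun_prop : Continuous fun s : ℝ => s • n))

lemma Wd_concave {K : Set E} (hK : Convex ℝ K) (n : E) {t u h : ℝ} {a b : ℝ} (ha : 0 ≤ a) (hb : 0 ≤ b)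
    (hab : a + b = 1) {x y : E} (hx : x ∈ Wd K n t h) (hy : y ∈ Wd K n u h) :
    a • x + b • y ∈ Wd K n (a * t + b * u) h := by
  obtain ⟨s, hs, h1, h2⟩ := hx
  obtain ⟨r, hr, h3, h4⟩ := hy
  refine ⟨a * s + b * r, ?_, ?_, ?_⟩
  · calc |a * s + b * r| ≤ |a * s| + |b * r| := abs_add_le _ _
      _ = a * |s| + b * |r| := by rw [abs_mul, abs_mul, abs_of_nonneg ha, abs_of_nonneg hb]
      _ ≤ a * (t + h) + b * (u + h) := by gcongr
      _ = a * t + b * u + (a + b) * h := by ring
      _ = _ := by rw [hab, one_mul]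
  · have := hK h1 h3 ha hb hab
    have e : a • x + b • y + (a * s + b * r) • n + (a * t + b * u) • n
        = a • (x + s • n + t • n) + b • (y + r • n + u • n) := by module
    rw [e]; exact this
  · have := hK h2 h4 ha hb hab
    have e : a • x + b • y + (a * s + b * r) • n - (a * t + b * u) • n
        = a • (x + s • n - t • n) + b • (y + r • n - u • n) := by module
    rw [e]; exact this

/-- a point of a line which meets `K` in a long chord -/
lemma mem_Wd_of_long {K : Set E} (hK : Convex ℝ K) {n : E} {t : ℝ} (ht : 0 ≤ t) {x y : E} {r : ℝ}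
    (hx : x ∈ K) (hy : y ∈ Er K n t) (hxy : x = y + r • n) :
    ∃ s : ℝ, |s| ≤ t ∧ x + s • n ∈ Er K n t := by
  have hseg : ∀ c : ℝ, (∃ a b : ℝ, 0 ≤ a ∧ 0 ≤ b ∧ a + b = 1 ∧ c = a * r + b * t) → y + c • n ∈ K := by
    rintro c ⟨a, b, ha, hb, hab, rfl⟩
    have := hK hx hy.1 ha hb hab
    have e : y + (a * r + b * t) • n = a • x + b • (y + t • n) := by
      rw [hxy]
      calc y + (a * r + b * t) • n = (a + b) • y + (a * r + b * t) • n := by rw [hab, one_smul]
        _ = _ := by module
    rw [e]; exact this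
  have hseg' : ∀ c : ℝ, (∃ a b : ℝ, 0 ≤ a ∧ 0 ≤ b ∧ a + b = 1 ∧ c = a * r + b * (-t)) → y + c • n ∈ K := by
    rintro c ⟨a, b, ha, hb, hab, rfl⟩
    have := hK hx hy.2 ha hb hab
    have e : y + (a * r + b * (-t)) • n = a • x + b • (y - t • n) := by
      rw [hxy]
      calc y + (a * r + b * (-t)) • n = (a + b) • y + (a * r + b * (-t)) • n := by rw [hab, one_smul]
        _ = _ := by module
    rw [e]; exact this
  rcases le_or_gt |r| t with h | h
  · refine ⟨-r, by rwa [abs_neg], ?_⟩
    have : x + (-r) • n = y := by rw [hxy]; module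
    rw [this]; exact hy
  rcases le_or_gt 0 r with h0 | h0
  · -- `r > t` : go down by `t`
    rw [abs_of_nonneg h0] at h
    refine ⟨-t, by rw [abs_neg, abs_of_nonneg ht], ?_, ?_⟩
    · have : x + (-t) • n + t • n = x := by module
      rw [this]; exact hx
    · have e : x + (-t) • n - t • n = y + (r - 2 * t) • n := by rw [hxy]; module
      rw [e]
      apply hseg'
      refine ⟨(r - t) / (r + t), 2 * t / (r + t), ?_, ?_, ?_, ?_⟩
      · exact div_nonneg (by linarith) (by linarith)
      · exact div_nonneg (by linarith) (by linarith)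
      · have : r + t ≠ 0 := by linarith
        field_simp; ring
      · have : r + t ≠ 0 := by linarith
        field_simp; ring
  · rw [abs_of_neg h0] at h
    refine ⟨t, by rw [abs_of_nonneg ht], ?_, ?_⟩
    · have e : x + t • n + t • n = y + (r + 2 * t) • n := by rw [hxy]; module
      rw [e]
      apply hseg
      refine ⟨(t + r) / (r - t), -2 * t / (r - t), ?_, ?_, ?_, ?_⟩
      · exact div_nonneg_of_nonpos (by linarith) (by linarith)
      · exact div_nonneg_of_nonpos (by linarith) (by linarith)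
      · have : r - t ≠ 0 := by linarith
        field_simp; ring
      · have : r - t ≠ 0 := by linarith
        field_simp; ring
    · have : x + t • n - t • n = x := by module
      rw [this]; exact hx

lemma Wd_sub {K : Set E} (hK : Convex ℝ K) (n : E) {t h : ℝ} (ht : 0 ≤ t) (hh : 0 ≤ h) :
    Wd K n t h ⊆ Wd K n 0 h := by
  rintro x ⟨s, hs, h1, h2⟩
  rw [mem_Wd]
  simp only [zero_smul, add_zero, sub_zero, and_self]
  rw [abs_le] at hs
  rcases lt_or_ge t s with h3 | h3
  · refine ⟨s - t, ?_, ?_⟩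
    · rw [abs_le]; constructor <;> linarith
    · have : x + (s - t) • n = x + s • n - t • n := by module
      rw [this]; exact h2
  rcases lt_or_ge s (-t) with h4 | h4
  · refine ⟨s + t, ?_, ?_⟩
    · rw [abs_le]; constructor <;> linarith
    · have : x + (s + t) • n = x + s • n + t • n := by module
      rw [this]; exact h1
  · refine ⟨0, by simpa using hh, ?_⟩
    rcases ht.eq_or_lt with h5 | h5
    · have hs0 : s = 0 := by linarith
      rw [hs0, ← h5] at h1
      simpa using h1
    · have := hK h1 h2 (a := (t - s) / (2 * t)) (b := (t + s) / (2 * t))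
        (div_nonneg (by linarith) (by linarith)) (div_nonneg (by linarith) (by linarith))
        (by field_simp; ring)
      have e : ((t - s) / (2 * t)) • (x + s • n + t • n) + ((t + s) / (2 * t)) • (x + s • n - t • n)
          = x + (0 : ℝ) • n := by
        have e1 : ((t - s) / (2 * t)) • (x + s • n + t • n) + ((t + s) / (2 * t)) • (x + s • n - t • n)
          = ((t - s) / (2 * t) + (t + s) / (2 * t)) • x
            + (((t - s) / (2 * t)) * (s + t) + ((t + s) / (2 * t)) * (s - t)) • n := by module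
        have e2 : (t - s) / (2 * t) + (t + s) / (2 * t) = 1 := by field_simp; ring
        have e3 : ((t - s) / (2 * t)) * (s + t) + ((t + s) / (2 * t)) * (s - t) = 0 := by
          field_simp; ring
        rw [e1, e2, e3, one_smul]
      rw [← e]; exact this

end sets

/-! ### lines -/

lemma line_case {I : Set ℝ} (hc : Convex ℝ I) (hcl : IsClosed I) (t : ℝ) (ht : 0 ≤ t) :
    (∃ y, y + t ∈ I ∧ y - t ∈ I) ∨ I = ∅ ∨ ∃ a b, a ≤ b ∧ I = Icc a b ∧ b - a ≤ 2 * t := by
  by_cases h : ∃ y, y + t ∈ I ∧ y - t ∈ I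
  · exact Or.inl h
  right
  rcases I.eq_empty_or_nonempty with he | ⟨x0, hx0⟩
  · exact Or.inl he
  right
  have hoc : OrdConnected I := hc.ordConnected
  have hlt : ∀ x ∈ I, ∀ y ∈ I, y - x ≤ 2 * t := by
    intro x hx y hy
    by_contra hcon
    push Not at hcon
    apply h
    refine ⟨(x + y) / 2, hoc.out hx hy ⟨by linarith, by linarith⟩,
      hoc.out hx hy ⟨by linarith, by linarith⟩⟩
  have hbb : BddBelow I := ⟨x0 - 2 * t, fun y hy => by linarith [hlt y hy x0 hx0]⟩
  have hba : BddAbove I := ⟨x0 + 2 * t, fun y hy => by linarith [hlt x0 hx0 y hy]⟩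
  have ha : sInf I ∈ I := hcl.csInf_mem ⟨x0, hx0⟩ hbb
  have hb : sSup I ∈ I := hcl.csSup_mem ⟨x0, hx0⟩ hba
  refine ⟨sInf I, sSup I, csInf_le_csSup ⟨x0, hx0⟩ hbb hba, ?_, hlt _ ha _ hb⟩
  apply Subset.antisymm
  · intro y hy
    exact ⟨csInf_le hbb hy, le_csSup hba hy⟩
  · exact hoc.out ha hb

section lines

variable {E : Type*} [NormedAddCommGroup E] [InnerProductSpace ℝ E]

/-- fibre of `A` through `q` in direction `n` -/
def fib (n q : E) (A : Set E) : Set ℝ := {s | s • n + q ∈ A}

lemma fib_Er (K : Set E) (n q : E) (t : ℝ) (y : ℝ) :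
    y • n + q ∈ Er K n t ↔ y + t ∈ fib n q K ∧ y - t ∈ fib n q K := by
  unfold Er fib
  simp only [mem_ofPred_eq]
  have e1 : y • n + q + t • n = (y + t) • n + q := by module
  have e2 : y • n + q - t • n = (y - t) • n + q := by module
  rw [e1, e2]

lemma fib_Wd (K : Set E) (n q : E) (t h : ℝ) (x : ℝ) :
    x ∈ fib n q (Wd K n t h) ↔ ∃ y : ℝ, |y - x| ≤ t + h ∧ y + t ∈ fib n q K ∧ y - t ∈ fib n q K := by
  constructor
  · rintro ⟨s, hs, hx⟩
    refine ⟨x + s, by simpa using hs, ?_⟩
    rw [← fib_Er]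
    have : x • n + q + s • n = (x + s) • n + q := by module
    rwa [this] at hx
  · rintro ⟨y, hy, hm⟩
    refine ⟨y - x, hy, ?_⟩
    have : x • n + q + (y - x) • n = y • n + q := by module
    rw [this, fib_Er]
    exact hm

lemma fib_diff (n q : E) (A B : Set E) : fib n q (A \ B) = fib n q A \ fib n q B := rfl

lemma fib_W0_Icc {K : Set E} {n q : E} {a b h : ℝ} (hab : a ≤ b) (hI : fib n q K = Icc a b) :
    fib n q (Wd K n 0 h) = Icc (a - h) (b + h) ∨ h < 0 := by
  rcases lt_or_ge h 0 with hh | hh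
  · exact Or.inr hh
  left
  ext x
  rw [fib_Wd, hI]
  constructor
  · rintro ⟨y, hy, h1, -⟩
    rw [abs_le] at hy
    simp only [add_zero, mem_Icc] at h1
    exact ⟨by linarith [hy.2, hy.1], by linarith [hy.1, hy.2]⟩
  · rintro ⟨h1, h2⟩
    rcases le_total x a with hx | hx
    · refine ⟨a, ?_, by simp [hab], by simp [hab]⟩
      rw [abs_le]; constructor <;> linarith
    rcases le_total b x with hx' | hx'
    · refine ⟨b, ?_, by simp [hab], by simp [hab]⟩
      rw [abs_le]; constructor <;> linarith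
    · refine ⟨x, ?_, by simp [hx, hx'], by simp [hx, hx']⟩
      simp [hh]

lemma fib_closed {K : Set E} (hK : IsClosed K) (n q : E) : IsClosed (fib n q K) :=
  hK.preimage (by fun_prop : Continuous fun s : ℝ => s • n + q)

lemma fib_convex {K : Set E} (hK : Convex ℝ K) (n q : E) : Convex ℝ (fib n q K) := by
  intro x hx y hy a b ha hb hab
  have := hK hx hy ha hb hab
  have e : (a • x + b • y) • n + q = a • (x • n + q) + b • (y • n + q) := by
    calc (a • x + b • y) • n + q = (a • x + b • y) • n + (a + b) • q := by rw [hab, one_smul]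
      _ = _ := by simp only [smul_eq_mul]; module
  show (a • x + b • y) • n + q ∈ K
  rw [e]; exact this

/-- linewise `f1` -/
lemma line_f1 {K : Set E} (hK : Convex ℝ K) (hKc : IsClosed K) (n q : E) {h : ℝ} (hh : 0 < h)
    (h1 : h ≤ 1 / 10) :
    g1 (fib n q (Wd K n 0 h \ Wd K n (h / 2) h)) ≤
      ENNReal.ofReal 2.1 * g1 (fib n q (Wd K n 0 h \ K)) := by
  rw [fib_diff, fib_diff]
  rcases line_case (fib_convex hK n q) (fib_closed hKc n q) (h / 2) (by positivity) with
    ⟨y, hy⟩ | he | ⟨a, b, hab, hI, hl⟩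
  · have : fib n q (Wd K n 0 h) \ fib n q (Wd K n (h / 2) h) = ∅ := by
      rw [sdiff_eq_empty]
      intro x hx
      rw [fib_Wd] at hx
      obtain ⟨r, hr, hr1, -⟩ := hx
      rw [add_zero] at hr1
      have hx' : r • n + q ∈ K := hr1
      have hy' : y • n + q ∈ Er K n (h / 2) := (fib_Er K n q _ y).2 hy
      obtain ⟨s, hs, hs'⟩ := mem_Wd_of_long hK (by positivity : 0 ≤ h / 2) (r := r - y) hx' hy'
        (by module)
      have e : r • n + q + s • n = (r + s) • n + q := by module
      rw [e, fib_Er] at hs'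
      rw [fib_Wd]
      refine ⟨r + s, ?_, hs'⟩
      calc |r + s - x| = |s + (r - x)| := by ring_nf
        _ ≤ |s| + |r - x| := abs_add_le _ _
        _ ≤ h / 2 + (0 + h) := add_le_add hs hr
        _ = _ := by ring
    rw [this]; simp
  · have : fib n q (Wd K n 0 h) \ fib n q (Wd K n (h / 2) h) = ∅ := by
      rw [sdiff_eq_empty]
      intro x hx
      rw [fib_Wd, he] at hx
      obtain ⟨r, hr, hr1, -⟩ := hx
      exact absurd hr1 (notMem_empty _)
    rw [this]; simp
  · have hW : fib n q (Wd K n 0 h) = Icc (a - h) (b + h) :=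
      (fib_W0_Icc hab hI).resolve_right (by linarith)
    rw [hW, hI]
    have hf := icc_f1 hab hh h1 (by linarith)
    calc g1 (Icc (a - h) (b + h) \ fib n q (Wd K n (h / 2) h)) ≤ g1 (Icc (a - h) (b + h)) :=
          measure_mono sdiff_subset
      _ = ENNReal.ofReal (g1.real (Icc (a - h) (b + h))) := by
          rw [Measure.real, ENNReal.ofReal_toReal (measure_ne_top _ _)]
      _ ≤ ENNReal.ofReal (2.1 * g1.real (Icc (a - h) (b + h) \ Icc a b)) :=
          ENNReal.ofReal_le_ofReal hf
      _ = _ := by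
          rw [ENNReal.ofReal_mul (by norm_num), Measure.real,
            ENNReal.ofReal_toReal (measure_ne_top _ _)]

/-- linewise `f2` -/
lemma line_f2 {K : Set E} (hK : Convex ℝ K) (hKc : IsClosed K) (n q : E) {t h : ℝ} (ht : 0 < t)
    (hth : 2 * t ≤ h) (h1 : h ≤ 1 / 10) :
    g1 (fib n q (K \ Wd K n t 0)) ≤
      ENNReal.ofReal (2.1 * (t / h)) * g1 (fib n q (Wd K n 0 h \ Wd K n t h)) := by
  rw [fib_diff, fib_diff]
  have hh : 0 < h := by linarith
  rcases line_case (fib_convex hK n q) (fib_closed hKc n q) t ht.le with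
    ⟨y, hy⟩ | he | ⟨a, b, hab, hI, hl⟩
  · have : fib n q K \ fib n q (Wd K n t 0) = ∅ := by
      rw [sdiff_eq_empty]
      intro x hx
      have hx' : x • n + q ∈ K := hx
      have hy' : y • n + q ∈ Er K n t := (fib_Er K n q _ y).2 hy
      obtain ⟨s, hs, hs'⟩ := mem_Wd_of_long hK ht.le (r := x - y) hx' hy' (by module)
      have e : x • n + q + s • n = (x + s) • n + q := by module
      rw [e, fib_Er] at hs'
      rw [fib_Wd]
      exact ⟨x + s, by simpa using hs, hs'⟩
    rw [this]; simp
  · have : fib n q K \ fib n q (Wd K n t 0) = ∅ := by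
      rw [he, empty_sdiff]
    rw [this]; simp
  · -- either the chord has length exactly `2t` or the eroded fibre is empty
    have hW : fib n q (Wd K n 0 h) = Icc (a - h) (b + h) :=
      (fib_W0_Icc hab hI).resolve_right (by linarith)
    by_cases hex : ∃ y, y + t ∈ fib n q K ∧ y - t ∈ fib n q K
    · obtain ⟨y, hy⟩ := hex
      have : fib n q K \ fib n q (Wd K n t 0) = ∅ := by
        rw [sdiff_eq_empty]
        intro x hx
        have hx' : x • n + q ∈ K := hx
        have hy' : y • n + q ∈ Er K n t := (fib_Er K n q _ y).2 hy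
        obtain ⟨s, hs, hs'⟩ := mem_Wd_of_long hK ht.le (r := x - y) hx' hy' (by module)
        have e : x • n + q + s • n = (x + s) • n + q := by module
        rw [e, fib_Er] at hs'
        rw [fib_Wd]
        exact ⟨x + s, by simpa using hs, hs'⟩
      rw [this]; simp
    · have hemp : fib n q (Wd K n t h) = ∅ := by
        rw [eq_empty_iff_forall_notMem]
        intro x hx
        rw [fib_Wd] at hx
        obtain ⟨y, -, hy⟩ := hx
        exact hex ⟨y, hy⟩
      rw [hW, hemp, sdiff_empty]
      have hf := icc_f2 hab hh h1 hl hth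
      rw [hI]
      calc g1 (Icc a b \ fib n q (Wd K n t 0)) ≤ g1 (Icc a b) := measure_mono sdiff_subset
        _ = ENNReal.ofReal (g1.real (Icc a b)) := by
            rw [Measure.real, ENNReal.ofReal_toReal (measure_ne_top _ _)]
        _ ≤ ENNReal.ofReal (2.1 * (t / h) * g1.real (Icc (a - h) (b + h))) :=
            ENNReal.ofReal_le_ofReal hf
        _ = _ := by
            rw [ENNReal.ofReal_mul (by positivity), Measure.real,
              ENNReal.ofReal_toReal (measure_ne_top _ _)]

end lines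

/-! ### integration over lines and Prekopa–Leindler -/

section final

variable {E : Type*} [NormedAddCommGroup E] [InnerProductSpace ℝ E] [FiniteDimensional ℝ E]
  [MeasurableSpace E] [BorelSpace E]

lemma compare_lines {n : E} (hn : ‖n‖ = 1) {A B : Set E} (hA : MeasurableSet A)
    (hB : MeasurableSet B) {C : ℝ≥0∞} (h : ∀ q, g1 (fib n q A) ≤ C * g1 (fib n q B)) :
    stdGaussian E A ≤ C * stdGaussian E B := by
  obtain ⟨m, Φ, hΦ, hs⟩ := exists_line n hn
  have key : ∀ D : Set E, MeasurableSet D →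
      stdGaussian E D = ∫⁻ z, g1 (fib n (Φ (0, z)) D) ∂(gp m) := by
    intro D hD
    rw [← hΦ.measure_preimage hD.nullMeasurableSet, Measure.prod_apply_symm (hΦ.measurable hD)]
    congr 1
    ext z
    congr 1
    ext s
    simp only [mem_preimage, fib, mem_ofPred_eq]
    rw [hs s z]
  rw [key A hA, key B hB]
  have hmeas : Measurable fun z => g1 (fib n (Φ (0, z)) B) := by
    have h1 : Measurable fun z => g1 ((fun s => (s, z)) ⁻¹' (Φ ⁻¹' B)) :=
      measurable_measure_prodMk_right (hΦ.measurable hB)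
    convert h1 using 2 with z
    congr 1
    ext s
    simp only [mem_preimage, fib, mem_ofPred_eq]
    rw [hs s z]
  rw [← lintegral_const_mul _ hmeas]
  exact lintegral_mono fun z => h _

lemma real_le_of {A B : Set E} {c : ℝ} (hc : 0 ≤ c)
    (h : stdGaussian E A ≤ ENNReal.ofReal c * stdGaussian E B) :
    (stdGaussian E).real A ≤ c * (stdGaussian E).real B := by
  have h2 := ENNReal.toReal_mono (ENNReal.mul_ne_top ENNReal.ofReal_ne_top (measure_ne_top _ _)) h
  rw [ENNReal.toReal_mul, ENNReal.toReal_ofReal hc] at h2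
  exact h2

lemma W_logconcave {K : Set E} (hK : Convex ℝ K) (hKc : IsClosed K) (n : E) {t u h l : ℝ}
    (hl0 : 0 < l) (hl1 : l < 1) :
    (stdGaussian E).real (Wd K n t h) ^ (1 - l) * (stdGaussian E).real (Wd K n u h) ^ l ≤
      (stdGaussian E).real (Wd K n ((1 - l) * t + l * u) h) := by
  classical
  have h1 := (isClosed_Wd hKc n t h).measurableSet
  have h2 := (isClosed_Wd hKc n u h).measurableSet
  have h3 := (isClosed_Wd hKc n ((1 - l) * t + l * u) h).measurableSet
  have := PL_std (E := E) l hl0 hl1 ((Wd K n t h).indicator 1) ((Wd K n u h).indicator 1)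
    ((Wd K n ((1 - l) * t + l * u) h).indicator 1) (measurable_one.indicator h1)
    (measurable_one.indicator h2) (measurable_one.indicator h3) (by
      intro x y
      by_cases hx : x ∈ Wd K n t h
      · by_cases hy : y ∈ Wd K n u h
        · have := Wd_concave hK n (by linarith : 0 ≤ 1 - l) hl0.le (by ring) hx hy
          simp [hx, hy, this]
        · simp [hy, hl0]
      · have : (0:ℝ≥0∞) ^ (1 - l) = 0 := ENNReal.zero_rpow_of_pos (by linarith)
        simp [hx, this])
  rw [lintegral_indicator_one h1, lintegral_indicator_one h2, lintegral_indicator_one h3] at this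
  have h4 := ENNReal.toReal_mono (measure_ne_top _ _) this
  rw [ENNReal.toReal_mul, ← ENNReal.toReal_rpow, ← ENNReal.toReal_rpow] at h4
  exact h4

lemma one_sub_rpow {x l : ℝ} (hx0 : 0 ≤ x) (hx : x ≤ 1 / 2) (hl : 0 ≤ l) :
    1 - 2 * l * x ≤ (1 - x) ^ l := by
  have hpos : 0 < 1 - x := by linarith
  rw [Real.rpow_def_of_pos hpos]
  have h1 : 1 - (1 - x)⁻¹ ≤ Real.log (1 - x) := Real.one_sub_inv_le_log_of_pos hpos
  have h2 : -(2 * x) ≤ 1 - (1 - x)⁻¹ := by
    have : (1 - x)⁻¹ ≤ 1 + 2 * x := by
      rw [inv_le_comm₀ hpos (by positivity), ← one_div]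
      rw [div_le_iff₀ (by positivity)]
      nlinarith
    linarith
  have h3 : Real.log (1 - x) * l + 1 ≤ Real.exp (Real.log (1 - x) * l) := Real.add_one_le_exp _
  nlinarith

/-- **Opening loss.**  If dilating `K` by `h` in direction `n` gains at most a factor `1 + k`, then the
opening of `K` by the segment `t[-n,n]` loses at most `40 k (t/h)²`. -/
theorem opening_loss {K : Set E} (hK : Convex ℝ K) (hKc : IsClosed K) {n : E} (hn : ‖n‖ = 1)
    {t h k : ℝ} (ht : 0 < t) (hth : 2 * t < h) (h1 : h ≤ 1 / 10) (hk0 : 0 ≤ k) (hk : k ≤ 1 / 5)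
    (hgrow : (stdGaussian E).real (Wd K n 0 h) ≤ (1 + k) * (stdGaussian E).real K) :
    (stdGaussian E).real (K \ Wd K n t 0) ≤ 40 * k * (t / h) ^ 2 * (stdGaussian E).real K := by
  have hh : 0 < h := by linarith
  set g := (stdGaussian E).real with hg
  have mK := hKc.measurableSet
  have m0 := (isClosed_Wd hKc n 0 h).measurableSet
  have mh := (isClosed_Wd hKc n (h / 2) h).measurableSet
  have mt := (isClosed_Wd hKc n t h).measurableSet
  have mo := (isClosed_Wd hKc n t 0).measurableSet
  have hsub : K ⊆ Wd K n 0 h := by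
    intro x hx
    exact ⟨0, by simpa using hh.le, by simpa [Er] using hx⟩
  -- f1 and f2 integrated
  have F1 : g (Wd K n 0 h \ Wd K n (h / 2) h) ≤ 2.1 * g (Wd K n 0 h \ K) :=
    real_le_of (by norm_num) (compare_lines hn (m0.diff mh) (m0.diff mK)
      fun q => line_f1 hK hKc n q hh h1)
  have F2 : g (K \ Wd K n t 0) ≤ 2.1 * (t / h) * g (Wd K n 0 h \ Wd K n t h) :=
    real_le_of (by positivity) (compare_lines hn (mK.diff mo) (m0.diff mt)
      fun q => line_f2 hK hKc n q ht hth.le h1)
  have hd1 : g (Wd K n 0 h \ K) = g (Wd K n 0 h) - g K := measureReal_sdiff hsub mK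
  have hd2 : g (Wd K n 0 h \ Wd K n t h) = g (Wd K n 0 h) - g (Wd K n t h) :=
    measureReal_sdiff (Wd_sub hK n ht.le hh.le) mt
  have hd3 : g (Wd K n 0 h \ Wd K n (h / 2) h) = g (Wd K n 0 h) - g (Wd K n (h / 2) h) :=
    measureReal_sdiff (Wd_sub hK n (by positivity) hh.le) mh
  have hKW : g K ≤ g (Wd K n 0 h) := measureReal_mono hsub
  have hK0 : 0 ≤ g K := measureReal_nonneg
  rw [hd3, hd1] at F1
  rw [hd2] at F2
  set G := g K
  set G0 := g (Wd K n 0 h)
  set Gh := g (Wd K n (h / 2) h)
  set Gt := g (Wd K n t h)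
  have hG0 : 0 ≤ G0 := hK0.trans hKW
  -- lower bound for `Gh`
  have hGh : G0 * (1 - 2.1 * k) ≤ Gh := by nlinarith
  -- Prekopa–Leindler
  have hl : 0 < 2 * t / h := by positivity
  have hl1 : 2 * t / h < 1 := by rw [div_lt_one hh]; exact hth
  have hPL := W_logconcave hK hKc n (t := 0) (u := h / 2) (h := h) hl hl1
  have he : (1 - 2 * t / h) * 0 + 2 * t / h * (h / 2) = t := by field_simp; ring
  rw [he] at hPL
  have hx0 : 0 ≤ 2.1 * k := by positivity
  have hx1 : 2.1 * k ≤ 1 / 2 := by linarith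
  have hpos : 0 ≤ 1 - 2.1 * k := by linarith
  have hGt : G0 * (1 - 2 * (2 * t / h) * (2.1 * k)) ≤ Gt := by
    have h5 : G0 ^ (1 - 2 * t / h) * (G0 * (1 - 2.1 * k)) ^ (2 * t / h) ≤ Gt := by
      refine le_trans ?_ hPL
      apply mul_le_mul_of_nonneg_left _ (Real.rpow_nonneg hG0 _)
      exact Real.rpow_le_rpow (mul_nonneg hG0 hpos) hGh hl.le
    have h6 : G0 ^ (1 - 2 * t / h) * (G0 * (1 - 2.1 * k)) ^ (2 * t / h)
        = G0 * (1 - 2.1 * k) ^ (2 * t / h) := by
      rw [Real.mul_rpow hG0 hpos, ← mul_assoc, ← Real.rpow_add_of_nonneg hG0 (by linarith) hl.le]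
      have : 1 - 2 * t / h + 2 * t / h = 1 := by ring
      rw [this, Real.rpow_one]
    rw [h6] at h5
    refine le_trans ?_ h5
    exact mul_le_mul_of_nonneg_left (one_sub_rpow hx0 hx1 hl.le) hG0
  have hth0 : 0 ≤ t / h := by positivity
  have h7 : G0 - Gt ≤ 8.4 * k * (t / h) * G0 := by
    have : G0 * (1 - 2 * (2 * t / h) * (2.1 * k)) = G0 - 8.4 * k * (t / h) * G0 := by ring
    linarith
  have h8 : G0 ≤ 1.2 * G := by nlinarith
  calc g (K \ Wd K n t 0) ≤ 2.1 * (t / h) * (G0 - Gt) := F2
    _ ≤ 2.1 * (t / h) * (8.4 * k * (t / h) * (1.2 * G)) := by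
        apply mul_le_mul_of_nonneg_left _ (by positivity)
        exact h7.trans (mul_le_mul_of_nonneg_left h8 (by positivity))
    _ = 21.168 * (k * (t / h) ^ 2 * G) := by ring
    _ ≤ 40 * (k * (t / h) ^ 2 * G) := by
        apply mul_le_mul_of_nonneg_right (by norm_num) (by positivity)
    _ = _ := by ring

end final

end Crest.Agent.R239.Gr655
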