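import Mathlib
import Crest.Agent.R239.Gr1_655

/-!
# R239 : growth lemma (B1), Gaussian part : caps, hazard, loss of the opening

* `pr` : Prekopa for sets and `stdGaussian`.
* `cap_tail` : tail of a convex function on a convex set, by log-concavity.
* `loss_std` : hazard inequality inside the caps ⟹ loss of the opening.
* `loss_level` : the same for a level `H : E →L[ℝ] F` (bodies `K` in `x`-space, `Q = H ⁻¹' K`).
-/

set_option autoImplicit false

open MeasureTheory ProbabilityTheory Set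
open scoped ENNReal NNReal RealInnerProductSpace Pointwise

namespace Crest.Agent.R239.Gr655

open Crest.Agent.Lib.PrekopaLeindler Crest.Agent.R239

section std

variable {E : Type*} [NormedAddCommGroup E] [InnerProductSpace ℝ E] [FiniteDimensional ℝ E]
  [MeasurableSpace E] [BorelSpace E]

/-- Prekopa–Leindler for sets. -/
lemma pr {A B C : Set E} (hA : MeasurableSet A) (hB : MeasurableSet B) (hC : MeasurableSet C)
    {l : ℝ} (hl0 : 0 < l) (hl1 : l < 1)
    (h : ∀ x ∈ A, ∀ y ∈ B, (1 - l) • x + l • y ∈ C) :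
    (stdGaussian E).real A ^ (1 - l) * (stdGaussian E).real B ^ l ≤ (stdGaussian E).real C := by
  classical
  have := PL_std (E := E) l hl0 hl1 (A.indicator 1) (B.indicator 1) (C.indicator 1)
    (measurable_one.indicator hA) (measurable_one.indicator hB) (measurable_one.indicator hC) (by
      intro x y
      by_cases hx : x ∈ A
      · by_cases hy : y ∈ B
        · have := h x hx y hy
          simp [hx, hy, this]
        · simp [hy, hl0]
      · have : (0:ℝ≥0∞) ^ (1 - l) = 0 := ENNReal.zero_rpow_of_pos (by linarith)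
        simp [hx, this])
  rw [lintegral_indicator_one hA, lintegral_indicator_one hB, lintegral_indicator_one hC] at this
  have h4 := ENNReal.toReal_mono (measure_ne_top _ _) this
  rw [ENNReal.toReal_mul, ← ENNReal.toReal_rpow, ← ENNReal.toReal_rpow] at h4
  exact h4

/-- tail of a convex function `N` on a convex set `W` -/
lemma cap_tail {W : Set E} (hW : Convex ℝ W) (hWc : IsClosed W) {N : E → ℝ}
    (hN : ConvexOn ℝ univ N) (hNc : Continuous N) {R δ e : ℝ} (hR : 0 < R) (hδ : 0 ≤ δ)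
    (hNW : ∀ x ∈ W, N x ≤ R + δ) (he0 : 0 ≤ e) (he1 : e ≤ 1 / 2)
    (he : (stdGaussian E).real (W ∩ {x | R / 2 < N x}) ≤ e * (stdGaussian E).real W) :
    (stdGaussian E).real (W ∩ {x | R < N x}) ≤ (4 * δ * e / R) * (stdGaussian E).real W := by
  set g := (stdGaussian E).real with hg
  have hW0 : 0 ≤ g W := measureReal_nonneg
  have mle : ∀ r : ℝ, MeasurableSet {x | N x ≤ r} := fun r =>
    (isClosed_le hNc continuous_const).measurableSet
  have hsplit : ∀ r : ℝ, g (W ∩ {x | r < N x}) = g W - g (W ∩ {x | N x ≤ r}) := by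
    intro r
    have h1 : W ∩ {x | r < N x} = W \ (W ∩ {x | N x ≤ r}) := by
      ext x
      simp only [mem_inter_iff, mem_sdiff, mem_ofPred_eq, not_and, not_le]
      constructor
      · rintro ⟨h1, h2⟩; exact ⟨h1, fun _ => h2⟩
      · rintro ⟨h1, h2⟩; exact ⟨h1, h2 h1⟩
    rw [h1]
    exact measureReal_sdiff inter_subset_left (hWc.measurableSet.inter (mle r))
  rcases hδ.eq_or_lt with h0 | h0
  · have : W ∩ {x | R < N x} = ∅ := by
      rw [eq_empty_iff_forall_notMem]
      rintro x ⟨h1, h2⟩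
      have := hNW x h1
      rw [← h0, add_zero] at this
      exact absurd h2 (not_lt.2 this)
    rw [this, ← h0]
    simp [hg]
  set l := δ / (R / 2 + δ) with hl
  have hl0 : 0 < l := by positivity
  have hl1 : l < 1 := by rw [hl, div_lt_one (by positivity)]; linarith
  have hPr := pr (hWc.measurableSet) (hWc.measurableSet.inter (mle (R / 2)))
    (hWc.measurableSet.inter (mle R)) hl0 hl1 (by
      intro x hx y hy
      refine ⟨hW hx hy.1 (by linarith) hl0.le (by ring), ?_⟩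
      have h1 := hN.2 (mem_univ x) (mem_univ y) (by linarith : 0 ≤ 1 - l) hl0.le (by ring)
      have h2 := hNW x hx
      have h3 : N y ≤ R / 2 := hy.2
      have h4 : (1 - l) * (R + δ) + l * (R / 2) = R := by
        rw [hl]; field_simp; ring
      show N ((1 - l) • x + l • y) ≤ R
      calc N ((1 - l) • x + l • y) ≤ (1 - l) * N x + l * N y := by simpa using h1
        _ ≤ (1 - l) * (R + δ) + l * (R / 2) := by
            apply add_le_add
            · exact mul_le_mul_of_nonneg_left h2 (by linarith)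
            · exact mul_le_mul_of_nonneg_left h3 hl0.le
        _ = R := h4)
  have h5 : g W * (1 - e) ≤ g (W ∩ {x | N x ≤ R / 2}) := by
    have := hsplit (R / 2)
    linarith
  have h6 : g W * (1 - 2 * l * e) ≤ g (W ∩ {x | N x ≤ R}) := by
    have h7 : g W ^ (1 - l) * (g W * (1 - e)) ^ l ≤ g (W ∩ {x | N x ≤ R}) := by
      refine le_trans ?_ hPr
      apply mul_le_mul_of_nonneg_left _ (Real.rpow_nonneg hW0 _)
      exact Real.rpow_le_rpow (mul_nonneg hW0 (by linarith)) h5 hl0.le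
    have h8 : g W ^ (1 - l) * (g W * (1 - e)) ^ l = g W * (1 - e) ^ l := by
      rw [Real.mul_rpow hW0 (by linarith), ← mul_assoc, ← Real.rpow_add_of_nonneg hW0 (by linarith) hl0.le]
      have : 1 - l + l = 1 := by ring
      rw [this, Real.rpow_one]
    rw [h8] at h7
    exact le_trans (mul_le_mul_of_nonneg_left (one_sub_rpow he0 he1 hl0.le) hW0) h7
  have h9 : l ≤ 2 * δ / R := by
    rw [hl, div_le_div_iff₀ (by positivity) hR]
    nlinarith
  rw [hsplit R]
  have h10 : 2 * l * e ≤ 4 * δ * e / R := by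
    have := mul_le_mul_of_nonneg_right h9 he0
    have e1 : 4 * δ * e / R = 2 * (2 * δ / R * e) := by ring
    rw [e1]; linarith
  have h11 : g W * (2 * l * e) ≤ g W * (4 * δ * e / R) := mul_le_mul_of_nonneg_left h10 hW0
  nlinarith

/-- **Hazard inequality ⟹ loss of the opening** (standard Gaussian form).  `N j` are the caps
(radius `R j`), `h` is the size of the dilation, `t` the size of the opening. -/
theorem loss_std {ι : Type*} (s : Finset ι) {Q : Set E} (hQ : Convex ℝ Q) (hQc : IsClosed Q)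
    {n : E} (hn : ‖n‖ = 1) {t h a ε k : ℝ} (ht : 0 < t) (hth : 2 * t < h) (h1 : h ≤ 1 / 10)
    (N : ι → E → ℝ) (hN : ∀ j ∈ s, ConvexOn ℝ univ (N j)) (hNc : ∀ j ∈ s, Continuous (N j))
    (R δ e : ι → ℝ) (hR : ∀ j ∈ s, 0 < R j) (hδ : ∀ j ∈ s, 0 ≤ δ j)
    (hNW : ∀ j ∈ s, ∀ x ∈ Wd Q n 0 h, N j x ≤ R j + δ j)
    (he0 : ∀ j ∈ s, 0 ≤ e j) (he1 : ∀ j ∈ s, e j ≤ 1 / 2)
    (he : ∀ j ∈ s, (stdGaussian E).real (Wd Q n 0 h ∩ {x | R j / 2 < N j x})
      ≤ e j * (stdGaussian E).real (Wd Q n 0 h))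
    (hε : ∑ j ∈ s, 4 * δ j * e j / R j ≤ ε) (hε1 : ε < 1)
    (haz : (stdGaussian E).real (Wd Q n 0 h ∩ {x | ∀ j ∈ s, N j x ≤ R j})
      ≤ a * (stdGaussian E).real Q)
    (hk0 : 0 ≤ k) (hk : k ≤ 1 / 5) (hak : a ≤ (1 + k) * (1 - ε)) :
    (stdGaussian E).real (Q \ Wd Q n t 0) ≤ 40 * k * (t / h) ^ 2 * (stdGaussian E).real Q := by
  have hQ0 : 0 ≤ (stdGaussian E).real Q := measureReal_nonneg
  refine opening_loss hQ hQc hn ht hth h1 hk0 hk ?_
  set g := (stdGaussian E).real with hg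
  set W := Wd Q n 0 h with hWdef
  have hWcl : IsClosed W := isClosed_Wd hQc n 0 h
  have hWcv : Convex ℝ W := by
    intro x hx y hy a b ha hb hab
    have := Wd_concave hQ n ha hb hab hx hy
    simpa using this
  have hW0 : 0 ≤ g W := measureReal_nonneg
  have hcover : W ⊆ (W ∩ {x | ∀ j ∈ s, N j x ≤ R j}) ∪ ⋃ j ∈ s, (W ∩ {x | R j < N j x}) := by
    intro x hx
    by_cases hall : ∀ j ∈ s, N j x ≤ R j
    · exact Or.inl ⟨hx, hall⟩
    · push Not at hall
      obtain ⟨j, hj, hlt⟩ := hall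
      refine Or.inr ?_
      simp only [mem_iUnion]
      exact ⟨j, hj, hx, hlt⟩
  have hle : g W ≤ g (W ∩ {x | ∀ j ∈ s, N j x ≤ R j}) + ∑ j ∈ s, g (W ∩ {x | R j < N j x}) := by
    calc g W ≤ g ((W ∩ {x | ∀ j ∈ s, N j x ≤ R j}) ∪ ⋃ j ∈ s, (W ∩ {x | R j < N j x})) :=
          measureReal_mono hcover
      _ ≤ g (W ∩ {x | ∀ j ∈ s, N j x ≤ R j}) + g (⋃ j ∈ s, (W ∩ {x | R j < N j x})) :=
          measureReal_union_le _ _
      _ ≤ _ := by
          gcongr
          exact measureReal_biUnion_finset_le s _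
  have hsum : ∑ j ∈ s, g (W ∩ {x | R j < N j x}) ≤ ε * g W := by
    calc ∑ j ∈ s, g (W ∩ {x | R j < N j x}) ≤ ∑ j ∈ s, (4 * δ j * e j / R j) * g W :=
          Finset.sum_le_sum fun j hj => cap_tail hWcv hWcl (hN j hj) (hNc j hj) (hR j hj) (hδ j hj)
            (hNW j hj) (he0 j hj) (he1 j hj) (he j hj)
      _ = (∑ j ∈ s, 4 * δ j * e j / R j) * g W := by rw [Finset.sum_mul]
      _ ≤ ε * g W := mul_le_mul_of_nonneg_right hε hW0
  have h2 : (1 - ε) * g W ≤ (1 + k) * (1 - ε) * g Q := by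
    have := mul_le_mul_of_nonneg_right hak hQ0
    linarith
  have h3 : (1 - ε) * g W ≤ (1 - ε) * ((1 + k) * g Q) := by linarith
  exact le_of_mul_le_mul_left h3 (by linarith)

end std

/-! ### level form -/

section level

variable {E F G : Type*} [NormedAddCommGroup E] [InnerProductSpace ℝ E]
  [NormedAddCommGroup F] [InnerProductSpace ℝ F] [NormedAddCommGroup G] [NormedSpace ℝ G]

lemma preimage_Wd (H : E →L[ℝ] F) (K : Set F) (w : E) (t h : ℝ) :
    H ⁻¹' (Wd K (H w) t h) = Wd (H ⁻¹' K) w t h := by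
  ext x
  simp only [mem_preimage, mem_Wd, map_add, map_sub, map_smul]

lemma Wd_smul (K : Set E) (n : E) (t h : ℝ) {c : ℝ} (hc : 0 < c) :
    Wd K (c • n) t h = Wd K n (c * t) (c * h) := by
  ext x
  rw [mem_Wd, mem_Wd]
  constructor
  · rintro ⟨s, hs, h1, h2⟩
    refine ⟨c * s, ?_, ?_, ?_⟩
    · rw [abs_mul, abs_of_pos hc, ← mul_add]
      exact mul_le_mul_of_nonneg_left hs hc.le
    · simpa [smul_smul, mul_comm] using h1
    · simpa [smul_smul, mul_comm] using h2
  · rintro ⟨s, hs, h1, h2⟩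
    refine ⟨s / c, ?_, ?_, ?_⟩
    · rw [abs_div, abs_of_pos hc, div_le_iff₀ hc]
      linarith
    · have e1 : (s / c) • (c • n) = s • n := by rw [smul_smul, div_mul_cancel₀ _ hc.ne']
      have e2 : t • (c • n) = (c * t) • n := by rw [smul_smul, mul_comm]
      rw [e1, e2]; exact h1
    · have e1 : (s / c) • (c • n) = s • n := by rw [smul_smul, div_mul_cancel₀ _ hc.ne']
      have e2 : t • (c • n) = (c * t) • n := by rw [smul_smul, mul_comm]
      rw [e1, e2]; exact h2

variable [FiniteDimensional ℝ E] [MeasurableSpace E] [BorelSpace E]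

/-- **Growth lemma (B1), one level.**  `H` = the level map, `K` = the body, `v = H w`, `η v` = the
letter, caps `‖B j g‖ ≤ R j`.  The opening of `K` by `η[-v,v]` is `Wd K v η 0`, the dilation by
`T η [-v,v]` is `Wd K v 0 (T η)`. -/
theorem loss_level {ι : Type*} (s : Finset ι) (H : E →L[ℝ] F) {K : Set F} (hK : Convex ℝ K)
    (hKc : IsClosed K) {v : F} {w : E} (hw : H w = v) (hw0 : w ≠ 0) {η T a ε k : ℝ} (hη : 0 < η)
    (hT : 2 < T) (h1 : T * η * ‖w‖ ≤ 1 / 10)
    (B : ι → E →L[ℝ] G) (R e : ι → ℝ) (hR : ∀ j ∈ s, 0 < R j)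
    (hcap : ∀ j ∈ s, ∀ x, H x ∈ K → ‖B j x‖ ≤ R j)
    (he0 : ∀ j ∈ s, 0 ≤ e j) (he1 : ∀ j ∈ s, e j ≤ 1 / 2)
    (he : ∀ j ∈ s, (stdGaussian E).real (H ⁻¹' (Wd K v 0 (T * η)) ∩ {x | R j / 2 < ‖B j x‖})
      ≤ e j * (stdGaussian E).real (H ⁻¹' (Wd K v 0 (T * η))))
    (hε : ∑ j ∈ s, 4 * (T * η * ‖B j w‖) * e j / R j ≤ ε) (hε1 : ε < 1)
    (haz : (stdGaussian E).real (H ⁻¹' (Wd K v 0 (T * η)) ∩ {x | ∀ j ∈ s, ‖B j x‖ ≤ R j})
      ≤ a * (stdGaussian E).real (H ⁻¹' K))
    (hk0 : 0 ≤ k) (hk : k ≤ 1 / 5) (hak : a ≤ (1 + k) * (1 - ε)) :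
    (stdGaussian E).real (H ⁻¹' (K \ Wd K v η 0))
      ≤ 40 * k / T ^ 2 * (stdGaussian E).real (H ⁻¹' K) := by
  have hwn : 0 < ‖w‖ := norm_pos_iff.2 hw0
  set n : E := (‖w‖)⁻¹ • w with hn
  have hn1 : ‖n‖ = 1 := by
    rw [hn, norm_smul, norm_inv, norm_norm, inv_mul_cancel₀ hwn.ne']
  have hwn' : w = ‖w‖ • n := by
    rw [hn, smul_smul, mul_inv_cancel₀ hwn.ne', one_smul]
  set Q : Set E := H ⁻¹' K with hQ
  have hQcv : Convex ℝ Q := hK.linear_preimage H.toLinearMap
  have hQcl : IsClosed Q := hKc.preimage H.continuous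
  have eW : H ⁻¹' (Wd K v 0 (T * η)) = Wd Q n 0 (‖w‖ * (T * η)) := by
    rw [← hw, preimage_Wd]
    conv_lhs => rw [hwn']
    rw [Wd_smul _ _ _ _ hwn, mul_zero]
  have eO : H ⁻¹' (K \ Wd K v η 0) = Q \ Wd Q n (‖w‖ * η) 0 := by
    rw [preimage_sdiff, ← hw, preimage_Wd]
    conv_lhs => rw [hwn']
    rw [Wd_smul _ _ _ _ hwn, mul_zero]
  rw [eW] at he haz
  rw [eO]
  have hTη : 0 < T * η := by positivity
  have := loss_std s hQcv hQcl hn1 (t := ‖w‖ * η) (h := ‖w‖ * (T * η)) (a := a) (ε := ε) (k := k)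
    (by positivity) (by nlinarith [mul_pos hwn hη]) (by linarith)
    (fun j x => ‖B j x‖)
    (fun j _ => by
      have := (convexOn_norm (convex_univ : Convex ℝ (univ : Set G))).comp_linearMap (B j).toLinearMap
      exact this)
    (fun j _ => (B j).continuous.norm) R (fun j => T * η * ‖B j w‖) e hR
    (fun j _ => by positivity)
    (by
      intro j hj x hx
      obtain ⟨r, hr, hx1, -⟩ := hx
      have hx2 : x + r • n ∈ Q := by simpa using hx1
      have h2 : ‖B j (x + r • n)‖ ≤ R j := hcap j hj _ hx2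
      have h3 : ‖B j x‖ ≤ ‖B j (x + r • n)‖ + |r| * ‖B j n‖ := by
        have : B j x = B j (x + r • n) - r • B j n := by simp
        rw [this]
        calc _ ≤ ‖B j (x + r • n)‖ + ‖r • B j n‖ := norm_sub_le _ _
          _ = _ := by rw [norm_smul, Real.norm_eq_abs]
      have h4 : ‖B j w‖ = ‖w‖ * ‖B j n‖ := by
        conv_lhs => rw [hwn']
        rw [map_smul, norm_smul, norm_norm]
      have h5 : |r| * ‖B j n‖ ≤ T * η * ‖B j w‖ := by
        rw [h4]
        have : |r| ≤ ‖w‖ * (T * η) := by simpa using hr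
        nlinarith [norm_nonneg (B j n)]
      show ‖B j x‖ ≤ R j + T * η * ‖B j w‖
      linarith)
    he0 he1 he hε hε1 haz hk0 hk hak
  have e3 : (‖w‖ * η) / (‖w‖ * (T * η)) = 1 / T := by
    field_simp
  rw [e3] at this
  have e4 : 40 * k * (1 / T) ^ 2 = 40 * k / T ^ 2 := by ring
  rw [e4] at this
  exact this

end level

end Crest.Agent.R239.Gr655
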