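import Mathlib

/-!
R239 (S0370), block L13 (soft layer), part A: linear algebra of an antitone flag
`M : ℕ → Submodule ℝ E` (helper450).
`blk M j z = P_{M j} z - P_{M (j+1)} z` is the component of `z` in the block
`V_j = M_j ⊓ (M_{j+1})ᗮ`.
-/

open scoped RealInnerProductSpace BigOperators
open Finset

namespace Crest.Agent.R239.Soft450

variable {E : Type*} [NormedAddCommGroup E] [InnerProductSpace ℝ E] [FiniteDimensional ℝ E]

/-- Component of `z` in block `j` of the flag. -/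
noncomputable def blk (M : ℕ → Submodule ℝ E) (j : ℕ) (z : E) : E :=
  (M j).starProjection z - (M (j + 1)).starProjection z

/-- Dimension of block `j`. -/
noncomputable def bdim (M : ℕ → Submodule ℝ E) (j : ℕ) : ℕ :=
  Module.finrank ℝ (M j) - Module.finrank ℝ (M (j + 1))

theorem star_star_of_le {U V : Submodule ℝ E} (h : U ≤ V) (z : E) :
    U.starProjection (V.starProjection z) = U.starProjection z := by
  have := Submodule.starProjection_comp_starProjection_of_le h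
  exact DFunLike.congr_fun this z

theorem star_star_of_le' {U V : Submodule ℝ E} (h : U ≤ V) (z : E) :
    V.starProjection (U.starProjection z) = U.starProjection z :=
  Submodule.starProjection_eq_self_iff.2 (h (Submodule.starProjection_apply_mem U z))

theorem inner_star_star {U V : Submodule ℝ E} (h : U ≤ V) (y z : E) :
    ⟪V.starProjection y, U.starProjection z⟫ = ⟪y, U.starProjection z⟫ := by
  rw [Submodule.inner_starProjection_left_eq_right, star_star_of_le' h]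

theorem norm_star_sq (U : Submodule ℝ E) (z : E) :
    ‖U.starProjection z‖ ^ 2 = ⟪z, U.starProjection z⟫ := by
  rw [← real_inner_self_eq_norm_sq, inner_star_star le_rfl]

theorem norm_star_sub_sq {U V : Submodule ℝ E} (h : U ≤ V) (z : E) :
    ‖V.starProjection z - U.starProjection z‖ ^ 2
      = ‖V.starProjection z‖ ^ 2 - ‖U.starProjection z‖ ^ 2 := by
  rw [norm_sub_sq_real, inner_star_star h, ← norm_star_sq]
  ring

theorem blk_inner {M : ℕ → Submodule ℝ E} (hM : Antitone M) (j : ℕ) (y z : E) :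
    ⟪blk M j y, blk M j z⟫ = ⟪y, blk M j z⟫ := by
  unfold blk
  have h : M (j + 1) ≤ M j := hM (Nat.le_succ j)
  rw [inner_sub_left, inner_sub_right, inner_sub_right, inner_sub_right]
  rw [inner_star_star (U := M (j+1)) h, inner_star_star (U := M j) le_rfl,
    inner_star_star (U := M (j+1)) le_rfl]
  have : ⟪(M (j + 1)).starProjection y, (M j).starProjection z⟫
      = ⟪y, (M (j+1)).starProjection z⟫ := by
    rw [Submodule.inner_starProjection_left_eq_right, star_star_of_le h]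
  rw [this]
  ring

theorem norm_blk_sq {M : ℕ → Submodule ℝ E} (hM : Antitone M) (j : ℕ) (z : E) :
    ‖blk M j z‖ ^ 2 = ‖(M j).starProjection z‖ ^ 2 - ‖(M (j + 1)).starProjection z‖ ^ 2 :=
  norm_star_sub_sq (hM (Nat.le_succ j)) z

theorem sum_blk (M : ℕ → Submodule ℝ E) {i N : ℕ} (hiN : i ≤ N) (z : E) :
    ∑ j ∈ Ico i N, blk M j z = (M i).starProjection z - (M N).starProjection z := by
  unfold blk
  have := Finset.sum_Ico_sub (fun j => (M j).starProjection z) hiN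
  have h2 : ∑ j ∈ Ico i N, ((M j).starProjection z - (M (j + 1)).starProjection z)
      = - ∑ j ∈ Ico i N, ((M (j+1)).starProjection z - (M j).starProjection z) := by
    rw [← Finset.sum_neg_distrib]
    exact Finset.sum_congr rfl fun j _ => by abel
  rw [h2, this]
  abel

theorem sum_norm_blk_sq {M : ℕ → Submodule ℝ E} (hM : Antitone M) {i N : ℕ} (hiN : i ≤ N)
    (z : E) : ∑ j ∈ Ico i N, ‖blk M j z‖ ^ 2
      = ‖(M i).starProjection z‖ ^ 2 - ‖(M N).starProjection z‖ ^ 2 := by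
  have := Finset.sum_Ico_sub (fun j => -‖(M j).starProjection z‖ ^ 2) hiN
  rw [Finset.sum_congr rfl (fun j _ => norm_blk_sq hM j z)]
  calc ∑ j ∈ Ico i N, (‖(M j).starProjection z‖ ^ 2 - ‖(M (j + 1)).starProjection z‖ ^ 2)
      = ∑ j ∈ Ico i N, (-‖(M (j+1)).starProjection z‖ ^ 2 - -‖(M j).starProjection z‖ ^ 2) :=
        Finset.sum_congr rfl fun j _ => by ring
    _ = _ := by rw [this]; ring

theorem sum_norm_blk_sq_le {M : ℕ → Submodule ℝ E} (hM : Antitone M) {i N : ℕ} (hiN : i ≤ N)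
    (z : E) : ∑ j ∈ Ico i N, ‖blk M j z‖ ^ 2 ≤ ‖z‖ ^ 2 := by
  rw [sum_norm_blk_sq hM hiN]
  have h1 : ‖(M i).starProjection z‖ ≤ ‖z‖ := (M i).norm_starProjection_apply_le z
  have h2 : 0 ≤ ‖(M N).starProjection z‖ ^ 2 := by positivity
  have h3 : ‖(M i).starProjection z‖ ^ 2 ≤ ‖z‖ ^ 2 := by gcongr
  linarith

theorem finrank_anti {M : ℕ → Submodule ℝ E} (hM : Antitone M) {i j : ℕ} (h : i ≤ j) :
    Module.finrank ℝ (M j) ≤ Module.finrank ℝ (M i) :=
  Submodule.finrank_mono (hM h)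

theorem bdim_cast {M : ℕ → Submodule ℝ E} (hM : Antitone M) (j : ℕ) :
    (bdim M j : ℝ) = Module.finrank ℝ (M j) - Module.finrank ℝ (M (j + 1)) := by
  unfold bdim
  rw [Nat.cast_sub (finrank_anti hM (Nat.le_succ j))]

theorem sum_bdim {M : ℕ → Submodule ℝ E} (hM : Antitone M) {i N : ℕ} (hiN : i ≤ N) :
    ∑ j ∈ Ico i N, (bdim M j : ℝ) = Module.finrank ℝ (M i) - Module.finrank ℝ (M N) := by
  have := Finset.sum_Ico_sub (fun j => -(Module.finrank ℝ (M j) : ℝ)) hiN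
  rw [Finset.sum_congr rfl (fun j _ => bdim_cast hM j)]
  calc ∑ j ∈ Ico i N, ((Module.finrank ℝ (M j) : ℝ) - Module.finrank ℝ (M (j + 1)))
      = ∑ j ∈ Ico i N, (-(Module.finrank ℝ (M (j+1)) : ℝ) - -(Module.finrank ℝ (M j) : ℝ)) :=
        Finset.sum_congr rfl fun j _ => by ring
    _ = _ := by rw [this]; ring

theorem sum_bdim_le {M : ℕ → Submodule ℝ E} (hM : Antitone M) {i N : ℕ} (hiN : i ≤ N) :
    ∑ j ∈ Ico i N, (bdim M j : ℝ) ≤ Module.finrank ℝ E := by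
  rw [sum_bdim hM hiN]
  have h1 : Module.finrank ℝ (M i) ≤ Module.finrank ℝ E := Submodule.finrank_le (M i)
  have h2 : (0 : ℝ) ≤ Module.finrank ℝ (M N) := by positivity
  have h3 : (Module.finrank ℝ (M i) : ℝ) ≤ Module.finrank ℝ E := by exact_mod_cast h1
  linarith

/-- Cauchy–Schwarz: `∑_j √k_j |P_{V_j} z| ≤ √d |z|`. -/
theorem sum_sqrt_bdim_norm_blk_le {M : ℕ → Submodule ℝ E} (hM : Antitone M) {i N : ℕ}
    (hiN : i ≤ N) (z : E) :
    ∑ j ∈ Ico i N, Real.sqrt (bdim M j) * ‖blk M j z‖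
      ≤ Real.sqrt (Module.finrank ℝ E) * ‖z‖ := by
  have hcs := Finset.sum_mul_sq_le_sq_mul_sq (Ico i N) (fun j => Real.sqrt (bdim M j : ℝ))
    (fun j => ‖blk M j z‖)
  have h1 : ∑ j ∈ Ico i N, Real.sqrt (bdim M j : ℝ) ^ 2 ≤ Module.finrank ℝ E := by
    calc ∑ j ∈ Ico i N, Real.sqrt (bdim M j : ℝ) ^ 2 = ∑ j ∈ Ico i N, (bdim M j : ℝ) :=
          Finset.sum_congr rfl fun j _ => Real.sq_sqrt (by positivity)
      _ ≤ _ := sum_bdim_le hM hiN
  have h2 := sum_norm_blk_sq_le hM hiN z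
  have hR : 0 ≤ Real.sqrt (Module.finrank ℝ E) * ‖z‖ := by positivity
  have hL : 0 ≤ ∑ j ∈ Ico i N, Real.sqrt (bdim M j) * ‖blk M j z‖ :=
    Finset.sum_nonneg fun j _ => by positivity
  refine le_of_sq_le_sq ?_ hR
  calc (∑ j ∈ Ico i N, Real.sqrt (bdim M j) * ‖blk M j z‖) ^ 2
      ≤ (∑ j ∈ Ico i N, Real.sqrt (bdim M j : ℝ) ^ 2) * ∑ j ∈ Ico i N, ‖blk M j z‖ ^ 2 := hcs
    _ ≤ (Module.finrank ℝ E : ℝ) * ‖z‖ ^ 2 := by
        apply mul_le_mul h1 h2 (Finset.sum_nonneg fun j _ => by positivity) (by positivity)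
    _ = (Real.sqrt (Module.finrank ℝ E) * ‖z‖) ^ 2 := by
        rw [mul_pow, Real.sq_sqrt (by positivity)]

/-- geometric double sum: `∑_{i<N} ∑_{i≤j<N} θ^(j-i) a_j ≤ (1-θ)⁻¹ ∑_{j<N} a_j`. -/
theorem double_geom_le {θ : ℝ} (h0 : 0 ≤ θ) (h1 : θ < 1) (a : ℕ → ℝ) (ha : ∀ j, 0 ≤ a j)
    (N : ℕ) : ∑ i ∈ range N, ∑ j ∈ Ico i N, θ ^ (j - i) * a j
      ≤ (1 - θ)⁻¹ * ∑ j ∈ range N, a j := by
  have hswap : ∑ i ∈ range N, ∑ j ∈ Ico i N, θ ^ (j - i) * a j
      = ∑ j ∈ range N, ∑ i ∈ range (j + 1), θ ^ (j - i) * a j := by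
    apply Finset.sum_comm'
    intro i j
    simp only [mem_range, mem_Ico]
    omega
  rw [hswap, Finset.mul_sum]
  apply Finset.sum_le_sum
  intro j _
  rw [← Finset.sum_mul]
  apply mul_le_mul_of_nonneg_right _ (ha j)
  have hrefl : ∑ i ∈ range (j + 1), θ ^ (j - i) = ∑ i ∈ range (j + 1), θ ^ i := by
    have := Finset.sum_range_reflect (fun i => θ ^ i) (j + 1)
    rw [← this]
    apply Finset.sum_congr rfl
    intro i hi
    rw [mem_range] at hi
    congr 1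
  rw [hrefl]
  have hsum : HasSum (fun n : ℕ => θ ^ n) (1 - θ)⁻¹ := hasSum_geometric_of_lt_one h0 h1
  exact hsum.summable.sum_le_tsum _ (fun i _ => by positivity) |>.trans_eq hsum.tsum_eq

/-- The level-`i` cap body. -/
def capBody (ρ θ : ℝ) (M : ℕ → Submodule ℝ E) (i : ℕ) : Set E :=
  {x | x ∈ M i ∧ ∀ j, i ≤ j → ‖blk M j x‖ ≤ ρ * θ ^ (j - i) * Real.sqrt (bdim M j)}

theorem inner_le_of_mem_cap {ρ θ : ℝ} {M : ℕ → Submodule ℝ E} (hM : Antitone M) {i N : ℕ}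
    (hiN : i ≤ N) (hN : M N = ⊥) {x : E} (hx : x ∈ capBody ρ θ M i) (z : E) :
    ⟪x, z⟫ ≤ ∑ j ∈ Ico i N, ρ * θ ^ (j - i) * Real.sqrt (bdim M j) * ‖blk M j z‖ := by
  have hxi : (M i).starProjection x = x := Submodule.starProjection_eq_self_iff.2 hx.1
  have hsum : x = ∑ j ∈ Ico i N, blk M j x := by
    rw [sum_blk M hiN, hxi, hN]
    simp
  calc ⟪x, z⟫ = ⟪∑ j ∈ Ico i N, blk M j x, z⟫ := by rw [← hsum]
    _ = ∑ j ∈ Ico i N, ⟪blk M j x, z⟫ := by rw [sum_inner]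
    _ = ∑ j ∈ Ico i N, ⟪blk M j x, blk M j z⟫ := by
        refine Finset.sum_congr rfl fun j _ => ?_
        rw [real_inner_comm, ← blk_inner hM, real_inner_comm]
    _ ≤ ∑ j ∈ Ico i N, ρ * θ ^ (j - i) * Real.sqrt (bdim M j) * ‖blk M j z‖ := by
        refine Finset.sum_le_sum fun j hj => ?_
        rw [mem_Ico] at hj
        calc ⟪blk M j x, blk M j z⟫ ≤ ‖blk M j x‖ * ‖blk M j z‖ := real_inner_le_norm _ _
          _ ≤ _ := by
            apply mul_le_mul_of_nonneg_right (hx.2 j hj.1) (norm_nonneg _)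

/-- `∑_i h_{L_i}(z) ≤ (ρ/(1-θ)) √d |z|`. -/
theorem sum_cap_support_le {ρ θ : ℝ} (hρ : 0 ≤ ρ) (h0 : 0 ≤ θ) (h1 : θ < 1)
    {M : ℕ → Submodule ℝ E} (hM : Antitone M) (N : ℕ) (z : E) :
    ∑ i ∈ range N, ∑ j ∈ Ico i N, ρ * θ ^ (j - i) * Real.sqrt (bdim M j) * ‖blk M j z‖
      ≤ ρ * (1 - θ)⁻¹ * (Real.sqrt (Module.finrank ℝ E) * ‖z‖) := by
  have h := double_geom_le h0 h1 (fun j => Real.sqrt (bdim M j) * ‖blk M j z‖)
    (fun j => by positivity) N
  have hr : ∑ j ∈ range N, Real.sqrt (bdim M j) * ‖blk M j z‖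
      ≤ Real.sqrt (Module.finrank ℝ E) * ‖z‖ := by
    have := sum_sqrt_bdim_norm_blk_le hM (Nat.zero_le N) z
    rwa [← Finset.range_eq_Ico] at this
  have hinv : 0 ≤ (1 - θ)⁻¹ := by
    have : 0 < 1 - θ := by linarith
    positivity
  calc ∑ i ∈ range N, ∑ j ∈ Ico i N, ρ * θ ^ (j - i) * Real.sqrt (bdim M j) * ‖blk M j z‖
      = ρ * ∑ i ∈ range N, ∑ j ∈ Ico i N, θ ^ (j - i) * (Real.sqrt (bdim M j) * ‖blk M j z‖) := by
        rw [Finset.mul_sum]
        refine Finset.sum_congr rfl fun i _ => ?_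
        rw [Finset.mul_sum]
        exact Finset.sum_congr rfl fun j _ => by ring
    _ ≤ ρ * ((1 - θ)⁻¹ * ∑ j ∈ range N, Real.sqrt (bdim M j) * ‖blk M j z‖) := by gcongr
    _ ≤ ρ * ((1 - θ)⁻¹ * (Real.sqrt (Module.finrank ℝ E) * ‖z‖)) := by gcongr
    _ = _ := by ring

end Crest.Agent.R239.Soft450
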