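import Crest.Agent.R239.Gau4
import Crest.Agent.R239.SoftA_450

/-! R239 (S0370): second moments of the flag Gaussians (helper764).
Paper text: helper583 docs 2388/2389, helper236 doc 2408; here only Gaussian second moments.

* general: `∫ ⟪w,g⟫⟪z,g⟫ = ⟪w,z⟫`, `∫ ‖A g‖² = Σ ‖A e_i‖²`, `∫ ‖P_U g‖² = finrank U`
* flag: `Q M j = P_{M_j} - P_{M_{j+1}}`, `H θ M n i = Σ_{j∈Ico i n} θ^(j-i) • Q M j`,
  adjoint, products, norms, `P_j H_i = θ^(j-i) H_j`
* (m1) `∫ ⟪w,H_i g⟫² = Σ θ^(2(l-i)) ‖Q_l w‖²`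
* (m2) variances of `a_j = ⟪(P_i - P_j)v, H_i g⟫`, `ζ_j = ⟪P_j v, H_i g⟫`, cross term zero
* (m3) `∫ ‖Q_l H_i g‖² = θ^(2(l-i)) k_l`, `∫ (ξ² + Σ_{j>i} om_{j-i} ζ_j²) = b_i`. -/

set_option autoImplicit false
set_option linter.unusedSectionVars false
open MeasureTheory ProbabilityTheory Set Filter Topology Metric
open scoped RealInnerProductSpace ENNReal NNReal InnerProduct Pointwise BigOperators

namespace Crest.Agent.R239.Mom764

open Crest.Agent.R239 Crest.Agent.R239.Soft450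

/-! ### General second moments -/

section general

variable {E : Type*} [NormedAddCommGroup E] [InnerProductSpace ℝ E] [FiniteDimensional ℝ E]
  [MeasurableSpace E] [BorelSpace E]
variable {F : Type*} [NormedAddCommGroup F] [InnerProductSpace ℝ F] [FiniteDimensional ℝ F]
  [MeasurableSpace F] [BorelSpace F]

lemma memLp_inner (w : E) : MemLp (fun g : E => ⟪w, g⟫) 2 (stdGaussian E) := by
  have h := (IsGaussian.memLp_dual (stdGaussian E) (innerSL ℝ w) 2 (by simp))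
  simpa using h

lemma integrable_inner (w : E) : Integrable (fun g : E => ⟪w, g⟫) (stdGaussian E) :=
  (memLp_inner w).integrable (by norm_num)

lemma integrable_inner_sq (w : E) : Integrable (fun g : E => ⟪w, g⟫ ^ 2) (stdGaussian E) :=
  (memLp_inner w).integrable_sq

lemma integrable_inner_mul (w z : E) :
    Integrable (fun g : E => ⟪w, g⟫ * ⟪z, g⟫) (stdGaussian E) :=
  (memLp_inner w).integrable_mul (memLp_inner z)

lemma integral_inner_std (w : E) : ∫ g, ⟪w, g⟫ ∂(stdGaussian E) = 0 := by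
  have hm : (stdGaussian E).map (fun x : E => -x) = stdGaussian E := by
    have := stdGaussian_map (LinearIsometryEquiv.neg ℝ (E := E))
    simpa using this
  have h1 : ∫ g, ⟪w, g⟫ ∂(stdGaussian E) = ∫ g, ⟪w, -g⟫ ∂(stdGaussian E) := by
    conv_lhs => rw [← hm]
    rw [integral_map (by fun_prop) (by fun_prop)]
  simp only [inner_neg_right, integral_neg] at h1
  linarith

theorem integral_inner_sq (w : E) : ∫ g, ⟪w, g⟫ ^ 2 ∂(stdGaussian E) = ‖w‖ ^ 2 := by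
  have := integral_norm_sq_gau (ContinuousLinearMap.id ℝ E) w
  rw [gau_id] at this
  simpa using this

theorem integral_inner_mul (w z : E) :
    ∫ g, ⟪w, g⟫ * ⟪z, g⟫ ∂(stdGaussian E) = ⟪w, z⟫ := by
  have h1 := integral_inner_sq (w + z)
  have h2 : (fun g : E => ⟪w + z, g⟫ ^ 2)
      = fun g => ⟪w, g⟫ ^ 2 + (2 * (⟪w, g⟫ * ⟪z, g⟫) + ⟪z, g⟫ ^ 2) := by
    funext g; rw [inner_add_left]; ring
  have i1 : Integrable (fun g : E => 2 * (⟪w, g⟫ * ⟪z, g⟫)) (stdGaussian E) :=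
    (integrable_inner_mul w z).const_mul 2
  have i2 : Integrable (fun g : E => 2 * (⟪w, g⟫ * ⟪z, g⟫) + ⟪z, g⟫ ^ 2) (stdGaussian E) :=
    i1.add (integrable_inner_sq z)
  rw [h2, integral_add (integrable_inner_sq w) i2, integral_add i1 (integrable_inner_sq z),
    integral_const_mul, integral_inner_sq, integral_inner_sq, norm_add_sq_real] at h1
  linarith

lemma integrable_inner_map_sq (A : F →L[ℝ] E) (w : E) :
    Integrable (fun g : F => ⟪w, A g⟫ ^ 2) (stdGaussian F) := by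
  simpa only [ContinuousLinearMap.adjoint_inner_left] using integrable_inner_sq (A.adjoint w)

lemma integrable_inner_map_mul (A : F →L[ℝ] E) (w z : E) :
    Integrable (fun g : F => ⟪w, A g⟫ * ⟪z, A g⟫) (stdGaussian F) := by
  simpa only [ContinuousLinearMap.adjoint_inner_left] using
    integrable_inner_mul (A.adjoint w) (A.adjoint z)

theorem integral_inner_map_sq (A : F →L[ℝ] E) (w : E) :
    ∫ g, ⟪w, A g⟫ ^ 2 ∂(stdGaussian F) = ‖A.adjoint w‖ ^ 2 := by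
  simpa only [ContinuousLinearMap.adjoint_inner_left] using integral_inner_sq (A.adjoint w)

theorem integral_inner_map_mul (A : F →L[ℝ] E) (w z : E) :
    ∫ g, ⟪w, A g⟫ * ⟪z, A g⟫ ∂(stdGaussian F) = ⟪A.adjoint w, A.adjoint z⟫ := by
  simpa only [ContinuousLinearMap.adjoint_inner_left] using
    integral_inner_mul (A.adjoint w) (A.adjoint z)

lemma norm_sq_eq_sum {ι : Type*} [Fintype ι] (b : OrthonormalBasis ι ℝ E) (x : E) :
    ‖x‖ ^ 2 = ∑ i, ⟪b i, x⟫ ^ 2 := by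
  have := b.sum_sq_norm_inner_right x
  rw [← this]
  exact Finset.sum_congr rfl fun i _ => by rw [Real.norm_eq_abs, sq_abs]

lemma integrable_norm_sq (A : F →L[ℝ] E) :
    Integrable (fun g : F => ‖A g‖ ^ 2) (stdGaussian F) := by
  have h : (fun g : F => ‖A g‖ ^ 2)
      = fun g => ∑ i, ⟪stdOrthonormalBasis ℝ E i, A g⟫ ^ 2 := by
    funext g; exact norm_sq_eq_sum _ _
  rw [h]
  exact integrable_finsetSum _ fun i _ => integrable_inner_map_sq A _

/-- `∫ ‖A g‖² = Σ ‖A† e_i‖²` over any orthonormal basis of the target. -/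
theorem integral_norm_sq {ι : Type*} [Fintype ι] (b : OrthonormalBasis ι ℝ E) (A : F →L[ℝ] E) :
    ∫ g, ‖A g‖ ^ 2 ∂(stdGaussian F) = ∑ i, ‖A.adjoint (b i)‖ ^ 2 := by
  have h : (fun g : F => ‖A g‖ ^ 2) = fun g => ∑ i, ⟪b i, A g⟫ ^ 2 := by
    funext g; exact norm_sq_eq_sum _ _
  rw [h, integral_finsetSum _ fun i _ => integrable_inner_map_sq A _]
  exact Finset.sum_congr rfl fun i _ => integral_inner_map_sq A _

/-- trace of an orthogonal projection -/
lemma sum_norm_starProjection {ι : Type*} [Fintype ι] (b : OrthonormalBasis ι ℝ E)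
    (U : Submodule ℝ E) :
    ∑ i, ‖U.starProjection (b i)‖ ^ 2 = Module.finrank ℝ U := by
  let c := stdOrthonormalBasis ℝ U
  have h1 : ∀ i, ‖U.starProjection (b i)‖ ^ 2 = ∑ j, ⟪((c j : U) : E), b i⟫ ^ 2 := by
    intro i
    have h2 : ‖U.starProjection (b i)‖ = ‖U.orthogonalProjectionOnto (b i)‖ := by
      rw [Submodule.starProjection_apply]; rfl
    rw [h2, norm_sq_eq_sum c]
    refine Finset.sum_congr rfl fun j _ => ?_
    rw [Submodule.coe_inner, ← Submodule.starProjection_apply,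
      ← Submodule.inner_starProjection_left_eq_right,
      Submodule.starProjection_eq_self_iff.2 (c j).2]
  rw [Finset.sum_congr rfl fun i _ => h1 i, Finset.sum_comm]
  have h3 : ∀ j, ∑ i, ⟪((c j : U) : E), b i⟫ ^ 2 = 1 := by
    intro j
    have : ∑ i, ⟪((c j : U) : E), b i⟫ ^ 2 = ‖((c j : U) : E)‖ ^ 2 := by
      rw [norm_sq_eq_sum b]
      exact Finset.sum_congr rfl fun i _ => by rw [real_inner_comm]
    have h4 : ‖((c j : U) : E)‖ = 1 := by
      rw [← c.orthonormal.1 j]; rfl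
    rw [this, h4]
    norm_num
  rw [Finset.sum_congr rfl fun j _ => h3 j]
  simp

lemma adjoint_starProjection (U : Submodule ℝ E) :
    (U.starProjection : E →L[ℝ] E).adjoint = U.starProjection := by
  ext x
  apply ext_inner_right ℝ
  intro y
  rw [ContinuousLinearMap.adjoint_inner_left, Submodule.inner_starProjection_left_eq_right]

theorem integral_norm_sq_starProjection (U : Submodule ℝ E) :
    ∫ g, ‖U.starProjection g‖ ^ 2 ∂(stdGaussian E) = Module.finrank ℝ U := by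
  have h := integral_norm_sq (stdOrthonormalBasis ℝ E) (U.starProjection : E →L[ℝ] E)
  rw [adjoint_starProjection, sum_norm_starProjection] at h
  exact h

/-- transfer to the law `gau A` -/
lemma integral_gau (A : F →L[ℝ] E) {f : E → ℝ} (hf : Continuous f) :
    ∫ x, f x ∂(gau A) = ∫ g, f (A g) ∂(stdGaussian F) := by
  unfold gau
  rw [integral_map (by fun_prop) hf.aestronglyMeasurable]

lemma integrable_gau_iff (A : F →L[ℝ] E) {f : E → ℝ} (hf : Continuous f) :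
    Integrable f (gau A) ↔ Integrable (fun g => f (A g)) (stdGaussian F) := by
  unfold gau
  rw [integrable_map_measure hf.aestronglyMeasurable (by fun_prop)]
  rfl

end general

/-! ### Flag operators -/

section flag

variable {E : Type*} [NormedAddCommGroup E] [InnerProductSpace ℝ E] [FiniteDimensional ℝ E]

/-- block projection -/
noncomputable def Q (M : ℕ → Submodule ℝ E) (j : ℕ) : E →L[ℝ] E :=
  (M j).starProjection - (M (j + 1)).starProjection

/-- root of the level-`i` covariance -/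
noncomputable def H (θ : ℝ) (M : ℕ → Submodule ℝ E) (n i : ℕ) : E →L[ℝ] E :=
  ∑ j ∈ Finset.Ico i n, θ ^ (j - i) • Q M j

variable {M : ℕ → Submodule ℝ E}

lemma Q_apply (M : ℕ → Submodule ℝ E) (j : ℕ) (x : E) :
    Q M j x = (M j).starProjection x - (M (j + 1)).starProjection x := rfl

lemma Q_eq_blk (M : ℕ → Submodule ℝ E) (j : ℕ) (x : E) : Q M j x = blk M j x := rfl

lemma H_apply (θ : ℝ) (M : ℕ → Submodule ℝ E) (n i : ℕ) (x : E) :
    H θ M n i x = ∑ j ∈ Finset.Ico i n, θ ^ (j - i) • Q M j x := by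
  simp [H]

lemma inner_Q_left (j : ℕ) (x y : E) : ⟪Q M j x, y⟫ = ⟪x, Q M j y⟫ := by
  rw [Q_apply, Q_apply, inner_sub_left, inner_sub_right,
    Submodule.inner_starProjection_left_eq_right, Submodule.inner_starProjection_left_eq_right]

lemma adjoint_Q (j : ℕ) : (Q M j).adjoint = Q M j := by
  ext x
  apply ext_inner_right ℝ
  intro y
  rw [ContinuousLinearMap.adjoint_inner_left, inner_Q_left]

lemma inner_H_left (θ : ℝ) (n i : ℕ) (x y : E) : ⟪H θ M n i x, y⟫ = ⟪x, H θ M n i y⟫ := by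
  rw [H_apply, H_apply, sum_inner, inner_sum]
  exact Finset.sum_congr rfl fun j _ => by
    rw [real_inner_smul_left, real_inner_smul_right, inner_Q_left]

lemma adjoint_H (θ : ℝ) (n i : ℕ) : (H θ M n i).adjoint = H θ M n i := by
  ext x
  apply ext_inner_right ℝ
  intro y
  rw [ContinuousLinearMap.adjoint_inner_left, inner_H_left]

variable (hM : Antitone M)
include hM

lemma P_Q {i j : ℕ} (h : i ≤ j) (x : E) : (M i).starProjection (Q M j x) = Q M j x := by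
  rw [Q_apply, map_sub, star_star_of_le' (hM h), star_star_of_le' (hM (h.trans (Nat.le_succ j)))]

lemma Q_P {i j : ℕ} (h : i ≤ j) (x : E) : Q M j ((M i).starProjection x) = Q M j x := by
  rw [Q_apply, Q_apply, star_star_of_le (hM h), star_star_of_le (hM (h.trans (Nat.le_succ j)))]

lemma P_Q_zero {i j : ℕ} (h : j < i) (x : E) : (M i).starProjection (Q M j x) = 0 := by
  rw [Q_apply, map_sub, star_star_of_le (hM h.le), star_star_of_le (hM (Nat.succ_le_of_lt h)),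
    sub_self]

lemma Q_P_zero {i j : ℕ} (h : j < i) (x : E) : Q M j ((M i).starProjection x) = 0 := by
  rw [Q_apply, star_star_of_le' (hM h.le), star_star_of_le' (hM (Nat.succ_le_of_lt h)), sub_self]

lemma Q_Q (j : ℕ) (x : E) : Q M j (Q M j x) = Q M j x := by
  conv_lhs => rw [Q_apply]
  rw [P_Q hM le_rfl, P_Q_zero hM (Nat.lt_succ_self j), sub_zero]

lemma Q_Q_ne {j l : ℕ} (h : j ≠ l) (x : E) : Q M j (Q M l x) = 0 := by
  rcases lt_or_gt_of_ne h with h | h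
  · rw [Q_apply, P_Q hM h.le, P_Q hM (Nat.succ_le_of_lt h), sub_self]
  · rw [Q_apply, P_Q_zero hM h, P_Q_zero hM (h.trans (Nat.lt_succ_self j)), sub_self]

lemma inner_Q_Q_ne {j l : ℕ} (h : j ≠ l) (x y : E) : ⟪Q M j x, Q M l y⟫ = 0 := by
  rw [inner_Q_left, Q_Q_ne hM h, inner_zero_right]

lemma inner_Q_Q (j : ℕ) (x y : E) : ⟪Q M j x, Q M j y⟫ = ⟪x, Q M j y⟫ := by
  rw [inner_Q_left, Q_Q hM]

lemma norm_Q_sq (j : ℕ) (x : E) : ‖Q M j x‖ ^ 2 =
    ‖(M j).starProjection x‖ ^ 2 - ‖(M (j + 1)).starProjection x‖ ^ 2 :=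
  norm_blk_sq hM j x

lemma sum_norm_Q_sq {i N : ℕ} (h : i ≤ N) (x : E) : ∑ j ∈ Finset.Ico i N, ‖Q M j x‖ ^ 2
    = ‖(M i).starProjection x‖ ^ 2 - ‖(M N).starProjection x‖ ^ 2 :=
  sum_norm_blk_sq hM h x

omit hM in
lemma sum_Q {i N : ℕ} (h : i ≤ N) (x : E) : ∑ j ∈ Finset.Ico i N, Q M j x
    = (M i).starProjection x - (M N).starProjection x :=
  sum_blk M h x

/-- inner products of weighted block sums -/
lemma inner_sum_Q (s : Finset ℕ) (c d : ℕ → ℝ) (x y : E) :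
    ⟪∑ j ∈ s, c j • Q M j x, ∑ j ∈ s, d j • Q M j y⟫
      = ∑ j ∈ s, c j * d j * ⟪Q M j x, Q M j y⟫ := by
  rw [sum_inner]
  refine Finset.sum_congr rfl fun j hj => ?_
  rw [inner_sum, Finset.sum_eq_single_of_mem j hj]
  · rw [real_inner_smul_left, real_inner_smul_right]; ring
  · intro l _ hl
    rw [real_inner_smul_left, real_inner_smul_right, inner_Q_Q_ne hM hl.symm]; ring

lemma norm_sum_Q_sq (s : Finset ℕ) (c : ℕ → ℝ) (x : E) :
    ‖∑ j ∈ s, c j • Q M j x‖ ^ 2 = ∑ j ∈ s, c j ^ 2 * ‖Q M j x‖ ^ 2 := by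
  rw [← real_inner_self_eq_norm_sq, inner_sum_Q hM]
  exact Finset.sum_congr rfl fun j _ => by rw [real_inner_self_eq_norm_sq]; ring

lemma inner_H_H (θ : ℝ) (n i : ℕ) (x y : E) :
    ⟪H θ M n i x, H θ M n i y⟫
      = ∑ j ∈ Finset.Ico i n, θ ^ (2 * (j - i)) * ⟪Q M j x, Q M j y⟫ := by
  rw [H_apply, H_apply, inner_sum_Q hM]
  exact Finset.sum_congr rfl fun j _ => by rw [← pow_add, two_mul]

lemma norm_H_sq (θ : ℝ) (n i : ℕ) (x : E) :
    ‖H θ M n i x‖ ^ 2 = ∑ j ∈ Finset.Ico i n, θ ^ (2 * (j - i)) * ‖Q M j x‖ ^ 2 := by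
  rw [← real_inner_self_eq_norm_sq, inner_H_H hM]
  exact Finset.sum_congr rfl fun j _ => by rw [real_inner_self_eq_norm_sq]

/-- `Q_l H_i = θ^(l-i) Q_l` -/
lemma Q_H {θ : ℝ} {n i l : ℕ} (hil : i ≤ l) (hln : l < n) (x : E) :
    Q M l (H θ M n i x) = θ ^ (l - i) • Q M l x := by
  rw [H_apply, map_sum, Finset.sum_eq_single_of_mem l (Finset.mem_Ico.2 ⟨hil, hln⟩)]
  · rw [map_smul, Q_Q hM]
  · intro j _ hj
    rw [map_smul, Q_Q_ne hM hj.symm, smul_zero]

lemma Q_H_zero {θ : ℝ} {n i l : ℕ} (h : l < i ∨ n ≤ l) (x : E) :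
    Q M l (H θ M n i x) = 0 := by
  rw [H_apply, map_sum]
  refine Finset.sum_eq_zero fun j hj => ?_
  rw [Finset.mem_Ico] at hj
  rw [map_smul, Q_Q_ne hM (by omega), smul_zero]

/-- `P_j H_i = θ^(j-i) H_j` for `i ≤ j` -/
lemma P_H {θ : ℝ} {n i j : ℕ} (hij : i ≤ j) (x : E) :
    (M j).starProjection (H θ M n i x) = θ ^ (j - i) • H θ M n j x := by
  rw [H_apply, H_apply, map_sum, Finset.smul_sum]
  rcases le_or_gt n j with hnj | hnj
  · rw [Finset.Ico_eq_empty_of_le hnj, Finset.sum_empty]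
    refine Finset.sum_eq_zero fun l hl => ?_
    rw [Finset.mem_Ico] at hl
    rw [map_smul, P_Q_zero hM (by omega), smul_zero]
  · rw [← Finset.sum_Ico_consecutive _ hij hnj.le]
    rw [Finset.sum_eq_zero (s := Finset.Ico i j), zero_add]
    · refine Finset.sum_congr rfl fun l hl => ?_
      rw [Finset.mem_Ico] at hl
      rw [map_smul, P_Q hM hl.1, smul_smul, ← pow_add]
      congr 2
      omega
    · intro l hl
      rw [Finset.mem_Ico] at hl
      rw [map_smul, P_Q_zero hM hl.2, smul_zero]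

/-- `H_i P_j = θ^(j-i) H_j` for `i ≤ j` -/
lemma H_P {θ : ℝ} {n i j : ℕ} (hij : i ≤ j) (x : E) :
    H θ M n i ((M j).starProjection x) = θ ^ (j - i) • H θ M n j x := by
  apply ext_inner_right ℝ
  intro y
  rw [inner_H_left, Submodule.inner_starProjection_left_eq_right, P_H hM hij,
    real_inner_smul_left, real_inner_smul_right, inner_H_left]

/-- the range of `H_i` is in `M_i` -/
lemma H_mem (θ : ℝ) (n i : ℕ) (x : E) : H θ M n i x ∈ M i := by
  rw [H_apply]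
  refine Submodule.sum_mem _ fun j hj => Submodule.smul_mem _ _ ?_
  rw [Finset.mem_Ico] at hj
  rw [← P_Q hM hj.1 x]
  exact Submodule.starProjection_apply_mem _ _

/-- the inverse root on `M_i` -/
noncomputable def Hi (θ : ℝ) (M : ℕ → Submodule ℝ E) (n i : ℕ) : E →L[ℝ] E :=
  ∑ j ∈ Finset.Ico i n, (θ⁻¹) ^ (j - i) • Q M j

omit hM in
lemma Hi_eq_H (θ : ℝ) (M : ℕ → Submodule ℝ E) (n i : ℕ) : Hi θ M n i = H θ⁻¹ M n i := rfl

lemma Hi_H {θ : ℝ} (hθ : θ ≠ 0) {n i : ℕ} (hin : i ≤ n) (hn : M n = ⊥) (x : E) :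
    Hi θ M n i (H θ M n i x) = (M i).starProjection x := by
  rw [Hi_eq_H, H_apply]
  have h1 : ∀ j ∈ Finset.Ico i n, (θ⁻¹) ^ (j - i) • Q M j (H θ M n i x) = Q M j x := by
    intro j hj
    rw [Finset.mem_Ico] at hj
    rw [Q_H hM hj.1 hj.2, smul_smul, ← mul_pow, inv_mul_cancel₀ hθ, one_pow, one_smul]
  rw [Finset.sum_congr rfl h1, sum_Q hin, hn]
  simp

lemma H_Hi {θ : ℝ} (hθ : θ ≠ 0) {n i : ℕ} (hin : i ≤ n) (hn : M n = ⊥) (x : E) :
    H θ M n i (Hi θ M n i x) = (M i).starProjection x := by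
  have := Hi_H (θ := θ⁻¹) hM (inv_ne_zero hθ) hin hn x
  rw [Hi_eq_H] at this ⊢
  rw [inv_inv] at this
  exact this

/-- quadratic form of the precision: `‖H_i⁻¹ x‖² = ‖P_i x‖² + Σ_{j>i} (θ^(-2m) - θ^(-2(m-1))) ‖P_j x‖²`,
`m = j - i`. -/
lemma norm_Hi_sq {θ : ℝ} {n i : ℕ} (hin : i ≤ n) (hn : M n = ⊥) (x : E) :
    ‖Hi θ M n i x‖ ^ 2 = ‖(M i).starProjection x‖ ^ 2
      + ∑ j ∈ Finset.Ico (i + 1) n,
          ((θ⁻¹) ^ (2 * (j - i)) - (θ⁻¹) ^ (2 * (j - i - 1))) * ‖(M j).starProjection x‖ ^ 2 := by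
  rw [Hi_eq_H, norm_H_sq hM]
  -- Abel summation, by induction on `n - i`
  have key : ∀ N, i ≤ N → ∑ j ∈ Finset.Ico i N, (θ⁻¹) ^ (2 * (j - i)) * ‖Q M j x‖ ^ 2
      = ‖(M i).starProjection x‖ ^ 2
      + ∑ j ∈ Finset.Ico (i + 1) N,
          ((θ⁻¹) ^ (2 * (j - i)) - (θ⁻¹) ^ (2 * (j - i - 1))) * ‖(M j).starProjection x‖ ^ 2
      - (if N = i then 1 else (θ⁻¹) ^ (2 * (N - i - 1))) * ‖(M N).starProjection x‖ ^ 2 := by
    intro N hN
    induction N, hN using Nat.le_induction with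
    | base => simp
    | succ N hN ih =>
      rw [Finset.sum_Ico_succ_top hN, ih, norm_Q_sq hM, if_neg (by omega : ¬ (N + 1 = i))]
      rcases eq_or_lt_of_le hN with h | h
      · subst h
        simp
      · rw [if_neg (by omega : ¬ (N = i)), Finset.sum_Ico_succ_top (by omega : i + 1 ≤ N)]
        have e1 : N + 1 - i - 1 = N - i := by omega
        rw [e1]
        ring
  rw [key n hin, hn]
  simp

end flag

/-! ### Moments on the flag -/

section moments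

variable {E : Type*} [NormedAddCommGroup E] [InnerProductSpace ℝ E] [FiniteDimensional ℝ E]
  [MeasurableSpace E] [BorelSpace E]
variable {M : ℕ → Submodule ℝ E} (hM : Antitone M)
include hM

/-- (m1) -/
theorem integral_inner_H_sq (θ : ℝ) (n i : ℕ) (w : E) :
    ∫ g, ⟪w, H θ M n i g⟫ ^ 2 ∂(stdGaussian E)
      = ∑ l ∈ Finset.Ico i n, θ ^ (2 * (l - i)) * ‖Q M l w‖ ^ 2 := by
  rw [integral_inner_map_sq, adjoint_H, norm_H_sq hM]

theorem integral_inner_H_mul (θ : ℝ) (n i : ℕ) (w z : E) :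
    ∫ g, ⟪w, H θ M n i g⟫ * ⟪z, H θ M n i g⟫ ∂(stdGaussian E)
      = ∑ l ∈ Finset.Ico i n, θ ^ (2 * (l - i)) * ⟪Q M l w, Q M l z⟫ := by
  rw [integral_inner_map_mul, adjoint_H, inner_H_H hM]

/-- (m1) on the law -/
theorem integral_inner_gau_sq (θ : ℝ) (n i : ℕ) (w : E) :
    ∫ x, ⟪w, x⟫ ^ 2 ∂(gau (H θ M n i))
      = ∑ l ∈ Finset.Ico i n, θ ^ (2 * (l - i)) * ‖Q M l w‖ ^ 2 := by
  rw [integral_norm_sq_gau, adjoint_H, norm_H_sq hM]

theorem integral_inner_gau_mul (θ : ℝ) (n i : ℕ) (w z : E) :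
    ∫ x, ⟪w, x⟫ * ⟪z, x⟫ ∂(gau (H θ M n i))
      = ∑ l ∈ Finset.Ico i n, θ ^ (2 * (l - i)) * ⟪Q M l w, Q M l z⟫ := by
  rw [integral_gau _ (by fun_prop), integral_inner_H_mul hM]

/-- `a_j = ⟪(P_i - P_j) v, H_i g⟫`: its variance -/
theorem var_a (θ : ℝ) {n i j : ℕ} (hij : i ≤ j) (hjn : j ≤ n) (v : E) :
    ∫ g, ⟪(M i).starProjection v - (M j).starProjection v, H θ M n i g⟫ ^ 2 ∂(stdGaussian E)
      = ∑ l ∈ Finset.Ico i j, θ ^ (2 * (l - i)) * ‖Q M l v‖ ^ 2 := by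
  rw [integral_inner_H_sq hM, ← Finset.sum_Ico_consecutive _ hij hjn]
  rw [Finset.sum_eq_zero (s := Finset.Ico j n), add_zero]
  · refine Finset.sum_congr rfl fun l hl => ?_
    rw [Finset.mem_Ico] at hl
    rw [map_sub, Q_P hM hl.1, Q_P_zero hM hl.2, sub_zero]
  · intro l hl
    rw [Finset.mem_Ico] at hl
    rw [map_sub, Q_P hM (hij.trans hl.1), Q_P hM hl.1, sub_self]
    simp

/-- `E a_j² ≤ b_i - b_j` -/
theorem var_a_le {θ : ℝ} (h0 : 0 ≤ θ) (h1 : θ ≤ 1) {n i j : ℕ} (hij : i ≤ j) (hjn : j ≤ n)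
    (v : E) :
    ∫ g, ⟪(M i).starProjection v - (M j).starProjection v, H θ M n i g⟫ ^ 2 ∂(stdGaussian E)
      ≤ ‖(M i).starProjection v‖ ^ 2 - ‖(M j).starProjection v‖ ^ 2 := by
  rw [var_a hM θ hij hjn, ← sum_norm_Q_sq hM hij]
  refine Finset.sum_le_sum fun l _ => ?_
  have : θ ^ (2 * (l - i)) ≤ 1 := pow_le_one₀ h0 h1
  nlinarith [sq_nonneg ‖Q M l v‖]

/-- `ζ_j = ⟪P_j v, H_i g⟫`: its variance, `i ≤ j` -/
theorem var_zeta (θ : ℝ) {n i j : ℕ} (hij : i ≤ j) (hjn : j ≤ n) (v : E) :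
    ∫ g, ⟪(M j).starProjection v, H θ M n i g⟫ ^ 2 ∂(stdGaussian E)
      = ∑ l ∈ Finset.Ico j n, θ ^ (2 * (l - i)) * ‖Q M l v‖ ^ 2 := by
  rw [integral_inner_H_sq hM, ← Finset.sum_Ico_consecutive _ hij hjn]
  rw [Finset.sum_eq_zero (s := Finset.Ico i j), zero_add]
  · refine Finset.sum_congr rfl fun l hl => ?_
    rw [Finset.mem_Ico] at hl
    rw [Q_P hM hl.1]
  · intro l hl
    rw [Finset.mem_Ico] at hl
    rw [Q_P_zero hM hl.2]
    simp

/-- `E ζ_j² ≤ θ^(2(j-i)) b_j` -/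
theorem var_zeta_le {θ : ℝ} (h0 : 0 ≤ θ) (h1 : θ ≤ 1) {n i j : ℕ} (hij : i ≤ j) (hjn : j ≤ n)
    (v : E) :
    ∫ g, ⟪(M j).starProjection v, H θ M n i g⟫ ^ 2 ∂(stdGaussian E)
      ≤ θ ^ (2 * (j - i)) * ‖(M j).starProjection v‖ ^ 2 := by
  rw [var_zeta hM θ hij hjn]
  calc ∑ l ∈ Finset.Ico j n, θ ^ (2 * (l - i)) * ‖Q M l v‖ ^ 2
      ≤ ∑ l ∈ Finset.Ico j n, θ ^ (2 * (j - i)) * ‖Q M l v‖ ^ 2 := by
        refine Finset.sum_le_sum fun l hl => ?_
        rw [Finset.mem_Ico] at hl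
        refine mul_le_mul_of_nonneg_right ?_ (sq_nonneg _)
        exact pow_le_pow_of_le_one h0 h1 (by omega)
    _ = θ ^ (2 * (j - i)) * (‖(M j).starProjection v‖ ^ 2 - ‖(M n).starProjection v‖ ^ 2) := by
        rw [← Finset.mul_sum, sum_norm_Q_sq hM hjn]
    _ ≤ _ := by
        refine mul_le_mul_of_nonneg_left ?_ (by positivity)
        nlinarith [sq_nonneg ‖(M n).starProjection v‖]

/-- `ξ = ⟪v, H_i g⟫`: `E ξ² ≤ b_i` -/
theorem var_xi_le {θ : ℝ} (h0 : 0 ≤ θ) (h1 : θ ≤ 1) {n i : ℕ} (hin : i ≤ n) (v : E) :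
    ∫ g, ⟪v, H θ M n i g⟫ ^ 2 ∂(stdGaussian E) ≤ ‖(M i).starProjection v‖ ^ 2 := by
  have h := var_zeta_le hM h0 h1 (le_refl i) hin v
  simp only [Nat.sub_self, mul_zero, pow_zero, one_mul] at h
  have e : ∀ g : E, ⟪(M i).starProjection v, H θ M n i g⟫ = ⟪v, H θ M n i g⟫ := by
    intro g
    rw [Submodule.inner_starProjection_left_eq_right,
      Submodule.starProjection_eq_self_iff.2 (H_mem hM θ n i g)]
  simpa only [e] using h

/-- the cross term vanishes -/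
theorem cross_a_zeta (θ : ℝ) (n i j : ℕ) (v : E) :
    ∫ g, ⟪(M i).starProjection v - (M j).starProjection v, H θ M n i g⟫
        * ⟪(M j).starProjection v, H θ M n i g⟫ ∂(stdGaussian E) = 0 := by
  rw [integral_inner_H_mul hM]
  refine Finset.sum_eq_zero fun l hl => ?_
  rw [Finset.mem_Ico] at hl
  rcases lt_or_ge l j with h | h
  · rw [Q_P_zero hM h, inner_zero_right, mul_zero]
  · rw [map_sub, Q_P hM hl.1, Q_P hM h, sub_self, inner_zero_left, mul_zero]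

/-- variance of a block coordinate: if `Q_l w = w` then `E ⟪w, H_i g⟫² = θ^(2(l-i)) ‖w‖²` -/
theorem var_block (θ : ℝ) {n i l : ℕ} (hil : i ≤ l) (hln : l < n) {w : E} (hw : Q M l w = w) :
    ∫ g, ⟪w, H θ M n i g⟫ ^ 2 ∂(stdGaussian E) = θ ^ (2 * (l - i)) * ‖w‖ ^ 2 := by
  rw [integral_inner_H_sq hM, Finset.sum_eq_single_of_mem l (Finset.mem_Ico.2 ⟨hil, hln⟩)]
  · rw [hw]
  · intro j _ hj
    rw [← hw, Q_Q_ne hM hj]
    simp

omit [MeasurableSpace E] [BorelSpace E] in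
/-- trace of a block -/
lemma sum_norm_Q_basis {ι : Type*} [Fintype ι] (b : OrthonormalBasis ι ℝ E) (l : ℕ) :
    ∑ i, ‖Q M l (b i)‖ ^ 2 = Module.finrank ℝ (M l) - Module.finrank ℝ (M (l + 1)) := by
  borelize E
  rw [← sum_norm_starProjection b (M l), ← sum_norm_starProjection b (M (l + 1)),
    ← Finset.sum_sub_distrib]
  exact Finset.sum_congr rfl fun i _ => norm_Q_sq hM l _

/-- (m3) `E ‖Q_l x‖² = θ^(2(l-i)) k_l` -/
theorem integral_norm_Q_sq (θ : ℝ) {n i l : ℕ} (hil : i ≤ l) (hln : l < n) :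
    ∫ g, ‖Q M l (H θ M n i g)‖ ^ 2 ∂(stdGaussian E)
      = θ ^ (2 * (l - i)) * ((Module.finrank ℝ (M l) : ℝ) - Module.finrank ℝ (M (l + 1))) := by
  have h := integral_norm_sq (stdOrthonormalBasis ℝ E) (Q M l)
  rw [adjoint_Q, sum_norm_Q_basis hM] at h
  rw [← h, ← integral_const_mul]
  refine integral_congr_ae (Filter.Eventually.of_forall fun g => ?_)
  show ‖Q M l (H θ M n i g)‖ ^ 2 = _
  rw [Q_H hM hil hln, norm_smul, mul_pow, Real.norm_eq_abs, sq_abs, ← pow_mul, mul_comm 2]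

/-- `E ‖Q_l g‖² = k_l` -/
theorem integral_norm_Q_std_sq (l : ℕ) :
    ∫ g, ‖Q M l g‖ ^ 2 ∂(stdGaussian E)
      = (Module.finrank ℝ (M l) : ℝ) - Module.finrank ℝ (M (l + 1)) := by
  have h := integral_norm_sq (stdOrthonormalBasis ℝ E) (Q M l)
  rwa [adjoint_Q, sum_norm_Q_basis hM] at h

/-- `E ‖H_i g‖² = Σ_{l ≥ i} θ^(2(l-i)) k_l` -/
theorem integral_norm_H_sq (θ : ℝ) (n i : ℕ) :
    ∫ g, ‖H θ M n i g‖ ^ 2 ∂(stdGaussian E)
      = ∑ l ∈ Finset.Ico i n,
          θ ^ (2 * (l - i)) * ((Module.finrank ℝ (M l) : ℝ) - Module.finrank ℝ (M (l + 1))) := by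
  have h : (fun g : E => ‖H θ M n i g‖ ^ 2)
      = fun g => ∑ l ∈ Finset.Ico i n, θ ^ (2 * (l - i)) * ‖Q M l g‖ ^ 2 := by
    funext g; exact norm_H_sq hM θ n i g
  rw [h, integral_finsetSum _ fun l _ => (integrable_norm_sq (Q M l)).const_mul _]
  refine Finset.sum_congr rfl fun l _ => ?_
  rw [integral_const_mul, integral_norm_Q_std_sq hM]

/-- `E ‖P_j H_i g‖² = θ^(2(j-i)) Σ_{l ≥ j} θ^(2(l-j)) k_l` -/
theorem integral_norm_P_H_sq (θ : ℝ) {n i j : ℕ} (hij : i ≤ j) :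
    ∫ g, ‖(M j).starProjection (H θ M n i g)‖ ^ 2 ∂(stdGaussian E)
      = θ ^ (2 * (j - i)) * ∑ l ∈ Finset.Ico j n,
          θ ^ (2 * (l - j)) * ((Module.finrank ℝ (M l) : ℝ) - Module.finrank ℝ (M (l + 1))) := by
  rw [← integral_norm_H_sq hM, ← integral_const_mul]
  refine integral_congr_ae (Filter.Eventually.of_forall fun g => ?_)
  show ‖(M j).starProjection (H θ M n i g)‖ ^ 2 = _
  rw [P_H hM hij, norm_smul, mul_pow, Real.norm_eq_abs, sq_abs, ← pow_mul, mul_comm 2]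

/-- (m3) the exact identity `E [ξ² + Σ_{j>i} om_{j-i} ζ_j²] = b_i`, `om_m = θ^(-2m) (1 - θ²)`. -/
theorem exact_identity {θ : ℝ} (hθ : θ ≠ 0) {n i : ℕ} (hin : i ≤ n) (hn : M n = ⊥) (v : E) :
    ∫ g, (⟪v, H θ M n i g⟫ ^ 2 + ∑ j ∈ Finset.Ico (i + 1) n,
        ((θ⁻¹) ^ (2 * (j - i)) * (1 - θ ^ 2)) * ⟪(M j).starProjection v, H θ M n i g⟫ ^ 2)
        ∂(stdGaussian E) = ‖(M i).starProjection v‖ ^ 2 := by
  rw [integral_add (integrable_inner_map_sq _ _)
    (integrable_finsetSum _ fun j _ => (integrable_inner_map_sq _ _).const_mul _),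
    integral_finsetSum _ fun j _ => (integrable_inner_map_sq _ _).const_mul _]
  -- pointwise in `g` this is `‖Hi (H g)‖²`-like; do it on the adjoint side
  have h1 : ∀ j ∈ Finset.Ico (i + 1) n,
      ∫ g, ((θ⁻¹) ^ (2 * (j - i)) * (1 - θ ^ 2)) * ⟪(M j).starProjection v, H θ M n i g⟫ ^ 2
        ∂(stdGaussian E)
      = ((θ⁻¹) ^ (2 * (j - i)) - (θ⁻¹) ^ (2 * (j - i - 1)))
          * ‖(M j).starProjection (H θ M n i v)‖ ^ 2 := by
    intro j hj
    rw [Finset.mem_Ico] at hj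
    rw [integral_const_mul, integral_inner_map_sq, adjoint_H, H_P hM (by omega : i ≤ j),
      P_H hM (by omega : i ≤ j)]
    congr 1
    have e : 2 * (j - i) = 2 * (j - i - 1) + 2 := by omega
    rw [e, pow_add]
    field_simp
  rw [Finset.sum_congr rfl h1, integral_inner_map_sq, adjoint_H]
  have h2 := norm_Hi_sq (θ := θ) hM hin hn (H θ M n i v)
  rw [Hi_H hM hθ hin hn, Submodule.starProjection_eq_self_iff.2 (H_mem hM θ n i v)] at h2
  rw [h2]

end moments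

end Crest.Agent.R239.Mom764
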