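import Mathlib
import Crest.Agent.R239.FDef
import Crest.Agent.R239.FlagAlg_557
import Crest.Agent.R239.Dom_640
import Crest.Agent.R239.Mom_764
import Crest.Agent.R239.Gr2_655

/-! # F7 : the cap (one ellipsoid per level) under the tilt `T_s` (helper506)

* `cap_loss` : one-body cut lemma (log-concavity in the radius, no shift lemma).
* `norm_proj_Ts_ge` : `‖P_{TM} T x‖² ≥ ‖P_M x‖² - sb (2 ξ ζ - ζ²)` for every `s`.
* `N_abel`, `N_rot_ge` : `(1 - h) N_i(x) ≤ N^s_i(T_s x)`, `h = sb (2 b_i + BB_i)`, `0 ≤ s ≤ 1`.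
* `integral_N` : `∫ N_i d gau (H i) = rr i`.
* `cap_rot` : the loss of the cap of `V` on an admissible body of `V.rot v s`.
-/

set_option autoImplicit false
set_option linter.unusedSectionVars false
open MeasureTheory ProbabilityTheory Set
open scoped RealInnerProductSpace

namespace Crest.Agent.R239.Cap7_506

open Crest.Agent.R239 Crest.Agent.R239.FD

section onebody

variable {E : Type*} [NormedAddCommGroup E] [InnerProductSpace ℝ E] [FiniteDimensional ℝ E]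
  [MeasurableSpace E] [BorelSpace E]
  {F : Type*} [NormedAddCommGroup F] [InnerProductSpace ℝ F] [FiniteDimensional ℝ F]
  [MeasurableSpace F] [BorelSpace F]
  {G : Type*} [NormedAddCommGroup G] [InnerProductSpace ℝ G] [FiniteDimensional ℝ G]

/-- Cap cut by log-concavity, standard Gaussian. -/
theorem cap_loss_std {K : Set E} (hK : IsClosed K) (cK : Convex ℝ K) (sK : ∀ x ∈ K, -x ∈ K)
    (B : E →L[ℝ] G) {R h : ℝ} (hR : 0 < R) (hh0 : 0 ≤ h) (hh : h ≤ 1 / 2)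
    (hKB : ∀ x ∈ K, (1 - h) * ‖B x‖ ^ 2 ≤ R ^ 2)
    (hm : 8 * ∫ x, ‖B x‖ ^ 2 ∂(stdGaussian E) ≤ R ^ 2) :
    (1 - 16 * h * (∫ x, ‖B x‖ ^ 2 ∂(stdGaussian E)) / R ^ 2) * (stdGaussian E).real K
      ≤ (stdGaussian E).real (K ∩ {x | ‖B x‖ ≤ R}) := by
  set m := ∫ x, ‖B x‖ ^ 2 ∂(stdGaussian E) with hmdef
  have hm0 : 0 ≤ m := integral_nonneg fun x => by positivity
  have hR2 : 0 < R ^ 2 := by positivity
  have hN : ConvexOn ℝ univ (fun x => ‖B x‖) :=
    (convexOn_norm (convex_univ : Convex ℝ (univ : Set G))).comp_linearMap B.toLinearMap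
  have hNc : Continuous (fun x => ‖B x‖) := B.continuous.norm
  have hNW : ∀ x ∈ K, ‖B x‖ ≤ R + h * R := by
    intro x hx
    have h1 := hKB x hx
    by_contra hcon
    push Not at hcon
    have h2 : (R + h * R) ^ 2 < ‖B x‖ ^ 2 := pow_lt_pow_left₀ hcon (by positivity) (by norm_num)
    have h3 : (1 - h) * (R + h * R) ^ 2 < R ^ 2 := by
      have : (1 - h) * (R + h * R) ^ 2 < (1 - h) * ‖B x‖ ^ 2 :=
        mul_lt_mul_of_pos_left h2 (by linarith)
      linarith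
    have h4 : (1 - h) * (R + h * R) ^ 2 = R ^ 2 * ((1 - h) * (1 + h) ^ 2) := by ring
    have h5 : 1 ≤ (1 - h) * (1 + h) ^ 2 := by nlinarith [mul_nonneg hh0 hh0, mul_nonneg (mul_nonneg hh0 hh0) hh0]
    rw [h4] at h3
    nlinarith
  set e := 4 * m / R ^ 2 with hedef
  have he0 : 0 ≤ e := by positivity
  have he1 : e ≤ 1 / 2 := by
    rw [hedef, div_le_iff₀ hR2]; linarith
  have hcut := Dom640.cut hK.measurableSet cK sK B (by positivity : 0 < R / 2)
  have hsplit : ∀ r : ℝ, (stdGaussian E).real (K ∩ {x | ‖B x‖ ≤ r})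
      + (stdGaussian E).real (K ∩ {x | r < ‖B x‖}) = (stdGaussian E).real K := by
    intro r
    have mB : MeasurableSet {x : E | ‖B x‖ ≤ r} :=
      measurableSet_le B.continuous.norm.measurable measurable_const
    have h1 := measureReal_inter_add_sdiff (μ := stdGaussian E) (s := K) mB
    have h2 : K \ {x | ‖B x‖ ≤ r} = K ∩ {x | r < ‖B x‖} := by
      ext x; simp
    rwa [h2] at h1
  have he : (stdGaussian E).real (K ∩ {x | R / 2 < ‖B x‖}) ≤ e * (stdGaussian E).real K := by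
    have h1 := hsplit (R / 2)
    have h2 : m / (R / 2) ^ 2 = e := by rw [hedef]; field_simp; ring
    rw [h2] at hcut
    linarith
  have htail := Gr655.cap_tail cK hK hN hNc hR (by positivity : 0 ≤ h * R) hNW he0 he1 he
  have h1 := hsplit R
  have h2 : 4 * (h * R) * e / R = 16 * h * m / R ^ 2 := by
    rw [hedef]; field_simp; ring
  rw [h2] at htail
  linarith

/-- **Cap cut by log-concavity**, for `gau A`. -/
theorem cap_loss (A : F →L[ℝ] E) {K : Set E} (hK : IsClosed K) (cK : Convex ℝ K)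
    (sK : ∀ x ∈ K, -x ∈ K)
    (B : E →L[ℝ] G) {R h : ℝ} (hR : 0 < R) (hh0 : 0 ≤ h) (hh : h ≤ 1 / 2)
    (hKB : ∀ g, A g ∈ K → (1 - h) * ‖B (A g)‖ ^ 2 ≤ R ^ 2)
    (hm : 8 * ∫ x, ‖B x‖ ^ 2 ∂(gau A) ≤ R ^ 2) :
    (1 - 16 * h * (∫ x, ‖B x‖ ^ 2 ∂(gau A)) / R ^ 2) * (gau A).real K
      ≤ (gau A).real (K ∩ {x | ‖B x‖ ≤ R}) := by
  have e' : ∫ x, ‖B x‖ ^ 2 ∂(gau A) = ∫ y, ‖(B ∘L A) y‖ ^ 2 ∂(stdGaussian F) := by
    unfold gau
    rw [integral_map A.continuous.aemeasurable (by fun_prop)]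
    rfl
  have mB : MeasurableSet {x : E | ‖B x‖ ≤ R} :=
    measurableSet_le B.continuous.norm.measurable measurable_const
  rw [e'] at hm ⊢
  rw [gau_real_apply A hK.measurableSet, gau_real_apply A (hK.measurableSet.inter mB)]
  exact cap_loss_std (hK.preimage A.continuous) (Dom640.pre_conv A cK) (Dom640.pre_symm A sK)
    (B ∘L A) hR hh0 hh (fun g hg => hKB g hg) hm

end onebody

section rot

variable {E : Type*} [NormedAddCommGroup E] [InnerProductSpace ℝ E] [FiniteDimensional ℝ E]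

/-- lower bound for the projection on the tilted subspace: no division, every `s` -/
theorem norm_proj_Ts_ge {v : E} (hv : ‖v‖ = 1) (s : ℝ) (M : Submodule ℝ E) (x : E) :
    ‖M.starProjection x‖ ^ 2 - (2 * s - s ^ 2) * (2 * ⟪v, x⟫ * ⟪M.starProjection v, x⟫
        - ⟪M.starProjection v, x⟫ ^ 2)
      ≤ ‖(M.map (Ts v s).toLinearMap).starProjection (Ts v s x)‖ ^ 2 := by
  set T := Ts v s with hT
  set N := M.map T.toLinearMap with hN
  set y := T (M.starProjection x) with hy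
  have hyN : y ∈ N := Submodule.mem_map_of_mem (Submodule.starProjection_apply_mem M x)
  have h1 : ⟪T x - N.starProjection (T x), y⟫ = 0 :=
    Submodule.starProjection_inner_eq_zero _ _ hyN
  have h2 : ⟪T x, y⟫ = ⟪N.starProjection (T x), y⟫ := by
    rw [inner_sub_left] at h1; linarith
  have h3 : 0 ≤ ‖N.starProjection (T x) - y‖ ^ 2 := by positivity
  rw [norm_sub_sq_real, ← h2] at h3
  have h4 : ⟪M.starProjection v, x⟫ = ⟪v, M.starProjection x⟫ :=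
    Submodule.inner_starProjection_left_eq_right _ _ _
  have hvv : ⟪v, v⟫ = (1 : ℝ) := by rw [real_inner_self_eq_norm_sq, hv]; norm_num
  have hTT : ∀ a b : E, ⟪T a, T b⟫ = ⟪a, b⟫ - (2 * s - s ^ 2) * ⟪v, a⟫ * ⟪v, b⟫ := by
    intro a b
    rw [hT]
    simp only [Ts_apply, inner_sub_left, inner_sub_right, inner_smul_left, inner_smul_right, hvv]
    simp only [RCLike.conj_to_real, real_inner_comm v a]
    ring
  have h5 : ⟪T x, y⟫ = ‖M.starProjection x‖ ^ 2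
      - (2 * s - s ^ 2) * ⟪v, x⟫ * ⟪M.starProjection v, x⟫ := by
    rw [hy, hTT, h4]
    have : ⟪x, M.starProjection x⟫ = ‖M.starProjection x‖ ^ 2 := by
      have h6 : ⟪x - M.starProjection x, M.starProjection x⟫ = 0 :=
        Submodule.starProjection_inner_eq_zero _ _ (Submodule.starProjection_apply_mem M x)
      rw [inner_sub_left, real_inner_self_eq_norm_sq] at h6
      linarith
    rw [this]
  have h6 : ‖y‖ ^ 2 = ‖M.starProjection x‖ ^ 2
      - (2 * s - s ^ 2) * ⟪M.starProjection v, x⟫ ^ 2 := by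
    rw [← real_inner_self_eq_norm_sq, hy, hTT, h4, real_inner_self_eq_norm_sq]; ring
  rw [h5, h6] at h3
  linarith

end rot

section flag

variable {E : Type*} [NormedAddCommGroup E] [InnerProductSpace ℝ E] [FiniteDimensional ℝ E]

lemma th_pos : (0 : ℝ) < th := by unfold th; norm_num

lemma thi : (th⁻¹ : ℝ) = 5 / 4 := by unfold th; norm_num

/-- the gauge as a linear map -/
noncomputable def nB (V : Flag E) (i : ℕ) : E →L[ℝ] E :=
  ∑ j ∈ Finset.Ico i V.n, (Real.sqrt (5 / 4)) ^ (j - i) • V.Q j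

lemma sqrt_pow_sq (m : ℕ) : (Real.sqrt (5 / 4) ^ m) ^ 2 = (5 / 4 : ℝ) ^ m := by
  rw [← pow_mul, mul_comm, pow_mul, Real.sq_sqrt (by norm_num)]

lemma norm_nB_sq (V : Flag E) (i : ℕ) (x : E) : ‖nB V i x‖ ^ 2 = V.N i x := by
  have h := FlagAlg557.norm_comb_sq (M := V.M) V.anti i V.n
    (fun j => (Real.sqrt (5 / 4)) ^ (j - i)) x
  have e : nB V i x = FlagAlg557.comb V.M i V.n (fun j => (Real.sqrt (5 / 4)) ^ (j - i)) x := rfl
  rw [e, h, Flag.N]
  refine Finset.sum_congr rfl fun j _ => ?_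
  rw [sqrt_pow_sq, thi]; rfl

lemma P_apply (V : Flag E) (j : ℕ) (x : E) : V.P j x = (V.M j).starProjection x := rfl

lemma norm_Q_sq (V : Flag E) (j : ℕ) (x : E) :
    ‖V.Q j x‖ ^ 2 = ‖V.P j x‖ ^ 2 - ‖V.P (j + 1) x‖ ^ 2 :=
  FlagAlg557.norm_Q_sq' (M := V.M) V.anti j x

lemma P_of_ge (V : Flag E) {j : ℕ} (h : V.n ≤ j) (x : E) : V.P j x = 0 := by
  have := FlagAlg557.P_eq_zero (M := V.M) (V.bot j h) x
  exact this

lemma abel_sum (w f : ℕ → ℝ) {i : ℕ} : ∀ k, i ≤ k →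
    ∑ j ∈ Finset.Ico i (k + 1), w (j - i) * (f j - f (j + 1)) = w 0 * f i
      + ∑ j ∈ Finset.Ico (i + 1) (k + 1), (w (j - i) - w (j - i - 1)) * f j
      - w (k - i) * f (k + 1) := by
  intro k hk
  induction k, hk using Nat.le_induction with
  | base => simp; ring
  | succ k hk ih =>
    rw [Finset.sum_Ico_succ_top (by omega), ih, Finset.sum_Ico_succ_top (by omega : i + 1 ≤ k + 1)]
    have e : k + 1 - i - 1 = k - i := by omega
    rw [e]; ring

lemma omN_nonneg (m : ℕ) : 0 ≤ omN m := by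
  unfold omN; rw [thi]; unfold th; positivity

/-- Abel form of the gauge. -/
theorem N_abel (V : Flag E) {i : ℕ} (hi : i < V.n) (x : E) :
    V.N i x = ‖V.P i x‖ ^ 2
      + ∑ j ∈ Finset.Ico (i + 1) V.n, omN (j - i) * ‖V.P j x‖ ^ 2 := by
  obtain ⟨k, hk⟩ : ∃ k, V.n = k + 1 := ⟨V.n - 1, by omega⟩
  have h0 : V.P (k + 1) x = 0 := P_of_ge V (by omega) x
  have := abel_sum (fun m => (th⁻¹) ^ m) (fun j => ‖V.P j x‖ ^ 2) k (by omega : i ≤ k)
  rw [Flag.N, hk]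
  simp only [norm_Q_sq]
  rw [this]
  simp only [h0, norm_zero, pow_zero, one_mul]
  have e : ∑ j ∈ Finset.Ico (i + 1) (k + 1), (th⁻¹ ^ (j - i) - th⁻¹ ^ (j - i - 1)) * ‖V.P j x‖ ^ 2
      = ∑ j ∈ Finset.Ico (i + 1) (k + 1), omN (j - i) * ‖V.P j x‖ ^ 2 := by
    refine Finset.sum_congr rfl fun j hj => ?_
    have hj' := Finset.mem_Ico.1 hj
    obtain ⟨m, hm⟩ : ∃ m, j - i = m + 1 := ⟨j - i - 1, by omega⟩
    rw [hm]
    congr 1
    simp only [omN, Nat.add_sub_cancel, th, pow_succ]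
    ring
  rw [e]; ring

lemma N_nonneg (V : Flag E) (i : ℕ) (x : E) : 0 ≤ V.N i x := by
  rw [← norm_nB_sq]; positivity

/-- `|x|² ≤ N_i(x)` on `M i` (all weights are `≥ 1`). -/
lemma norm_sq_le_N (V : Flag E) {i : ℕ} (hi : i < V.n) (x : E) : ‖V.P i x‖ ^ 2 ≤ V.N i x := by
  rw [N_abel V hi]
  have : 0 ≤ ∑ j ∈ Finset.Ico (i + 1) V.n, omN (j - i) * ‖V.P j x‖ ^ 2 :=
    Finset.sum_nonneg fun j _ => mul_nonneg (omN_nonneg _) (by positivity)
  linarith

/-- `th^(-(j-i)) |P_j x|² ≤ N_i(x)`. -/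
lemma pow_norm_sq_le_N (V : Flag E) {i j : ℕ} (hij : i ≤ j) (hj : j < V.n) (x : E) :
    (5 / 4 : ℝ) ^ (j - i) * ‖V.P j x‖ ^ 2 ≤ V.N i x := by
  have h1 : ‖V.P j x‖ ^ 2 = ∑ l ∈ Finset.Ico j V.n, ‖V.Q l x‖ ^ 2 :=
    FlagAlg557.norm_P_sq_sum (M := V.M) V.anti hj.le (V.bot _ le_rfl) x
  rw [h1, Finset.mul_sum, Flag.N]
  calc ∑ l ∈ Finset.Ico j V.n, (5 / 4 : ℝ) ^ (j - i) * ‖V.Q l x‖ ^ 2
      ≤ ∑ l ∈ Finset.Ico j V.n, (th⁻¹) ^ (l - i) * ‖V.Q l x‖ ^ 2 := by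
        refine Finset.sum_le_sum fun l hl => ?_
        rw [thi]
        refine mul_le_mul_of_nonneg_right ?_ (by positivity)
        exact pow_le_pow_right₀ (by norm_num) (by have := (Finset.mem_Ico.1 hl).1; omega)
    _ ≤ ∑ l ∈ Finset.Ico i V.n, (th⁻¹) ^ (l - i) * ‖V.Q l x‖ ^ 2 := by
        refine Finset.sum_le_sum_of_subset_of_nonneg (Finset.Ico_subset_Ico hij le_rfl) ?_
        intro l _ _
        rw [thi]; positivity

lemma geom_le (i n : ℕ) : ∑ j ∈ Finset.Ico (i + 1) n, (1 / 5 : ℝ) * (4 / 5) ^ (j - i) ≤ 1 := by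
  have h : ∀ k, ∑ j ∈ Finset.Ico (i + 1) (i + 1 + k), (1 / 5 : ℝ) * (4 / 5) ^ (j - i)
      ≤ 4 / 5 - (4 / 5) ^ (k + 1) := by
    intro k
    induction k with
    | zero => simp
    | succ k ih =>
      rw [← add_assoc, Finset.sum_Ico_succ_top (by omega)]
      have e : i + 1 + k - i = k + 1 := by omega
      rw [e]
      have : (4 / 5 : ℝ) ^ (k + 1 + 1) = (4 / 5) ^ (k + 1) * (4 / 5) := pow_succ _ _
      linarith
  rcases le_or_gt n (i + 1) with hn | hn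
  · rw [Finset.Ico_eq_empty_of_le hn]; simp
  · obtain ⟨k, rfl⟩ := Nat.exists_eq_add_of_le hn.le
    have := h k
    have h2 : (0 : ℝ) ≤ (4 / 5) ^ (k + 1) := by positivity
    linarith

/-- the relative error of the gauge under the tilt -/
noncomputable def hh (V : Flag E) (v : E) (sb : ℝ) (i : ℕ) : ℝ := sb * (2 * V.b v i + BB V v i)

lemma b_nonneg (V : Flag E) (v : E) (i : ℕ) : 0 ≤ V.b v i := by unfold Flag.b; positivity

lemma BB_nonneg (V : Flag E) (v : E) (i : ℕ) : 0 ≤ BB V v i :=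
  Finset.sum_nonneg fun j _ => mul_nonneg (by positivity) (b_nonneg V v j)

/-- **pointwise comparison of the gauges**, `0 ≤ s ≤ 1` (`s = 1` is the projection). -/
theorem N_rot_ge (V : Flag E) {v : E} (hv : ‖v‖ = 1) {s : ℝ} (hs0 : 0 ≤ s) (hs1 : s ≤ 1)
    {i : ℕ} (hi : i < V.n) {x : E} (hx : x ∈ V.M i) :
    (1 - hh V v (2 * s - s ^ 2) i) * V.N i x ≤ (V.rot v s).N i (Ts v s x) := by
  set sb := 2 * s - s ^ 2 with hsb
  have hsb0 : 0 ≤ sb := by rw [hsb]; nlinarith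
  have hPx : V.P i x = x := Submodule.starProjection_eq_self_iff.2 hx
  rw [N_abel V hi, N_abel (V.rot v s) (show i < (V.rot v s).n from hi)]
  have hproj : ∀ j, ‖V.P j x‖ ^ 2 - sb * (2 * ⟪v, x⟫ * ⟪V.P j v, x⟫ - ⟪V.P j v, x⟫ ^ 2)
      ≤ ‖(V.rot v s).P j (Ts v s x)‖ ^ 2 := fun j => norm_proj_Ts_ge hv s (V.M j) x
  have hin : ∀ j, ⟪V.P j v, x⟫ = ⟪V.P j v, V.P j x⟫ := by
    intro j
    rw [P_apply, P_apply, Submodule.inner_starProjection_left_eq_right]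
    rw [Submodule.inner_starProjection_left_eq_right]
    rw [Submodule.starProjection_eq_self_iff.2 (Submodule.starProjection_apply_mem (V.M j) x)]
  have hvx : ⟪v, x⟫ = ⟪V.P i v, x⟫ := by
    rw [P_apply, Submodule.inner_starProjection_left_eq_right, ← P_apply, hPx]
  have hcs : ∀ j, ⟪V.P j v, x⟫ ^ 2 ≤ V.b v j * ‖V.P j x‖ ^ 2 := by
    intro j
    rw [hin j, Flag.b, ← mul_pow]
    have := abs_real_inner_le_norm (V.P j v) (V.P j x)
    exact sq_le_sq' (by linarith [neg_abs_le ⟪V.P j v, V.P j x⟫]) (le_trans (le_abs_self _) this)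
  set NN := V.N i x with hNN
  have hNN0 : 0 ≤ NN := N_nonneg V i x
  have hxi : ⟪v, x⟫ ^ 2 ≤ V.b v i * NN := by
    rw [hvx]
    exact (hcs i).trans (mul_le_mul_of_nonneg_left (norm_sq_le_N V hi x) (b_nonneg V v i))
  have hNe : ‖V.P i x‖ ^ 2 + ∑ j ∈ Finset.Ico (i + 1) V.n, omN (j - i) * ‖V.P j x‖ ^ 2 = NN := by
    rw [hNN, N_abel V hi]
  rw [hNe]
  have hterm : ∀ j ∈ Finset.Ico (i + 1) V.n,
      omN (j - i) * ‖V.P j x‖ ^ 2 - sb * NN * ((1 / 5 : ℝ) * (4 / 5) ^ (j - i) * V.b v i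
        + (25 / 8) ^ (j - i) * V.b v j) ≤ omN (j - i) * ‖(V.rot v s).P j (Ts v s x)‖ ^ 2 := by
    intro j hj
    have hj' := Finset.mem_Ico.1 hj
    set m := j - i with hm
    have hz : (5 / 4 : ℝ) ^ m * ⟪V.P j v, x⟫ ^ 2 ≤ V.b v j * NN := by
      calc (5 / 4 : ℝ) ^ m * ⟪V.P j v, x⟫ ^ 2 ≤ (5 / 4 : ℝ) ^ m * (V.b v j * ‖V.P j x‖ ^ 2) :=
            mul_le_mul_of_nonneg_left (hcs j) (by positivity)
        _ = V.b v j * ((5 / 4 : ℝ) ^ m * ‖V.P j x‖ ^ 2) := by ring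
        _ ≤ V.b v j * NN :=
            mul_le_mul_of_nonneg_left (pow_norm_sq_le_N V (by omega) hj'.2 x) (b_nonneg V v j)
    set X := ⟪v, x⟫ with hX
    set Z := ⟪V.P j v, x⟫ with hZ
    -- `2 X Z ≤ e X² + Z²/e`, `e = (16/25)^m`
    have hyoung : 2 * X * Z - Z ^ 2 ≤ (16 / 25 : ℝ) ^ m * X ^ 2 + (25 / 16 : ℝ) ^ m * Z ^ 2 := by
      have h1 : (16 / 25 : ℝ) ^ m * (25 / 16 : ℝ) ^ m = 1 := by
        rw [← mul_pow]; norm_num
      have h2 : (0:ℝ) < (16 / 25 : ℝ) ^ m := by positivity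
      have h3 : 0 ≤ (16 / 25 : ℝ) ^ m * (X - (25 / 16 : ℝ) ^ m * Z) ^ 2 := by positivity
      have h4 : (16 / 25 : ℝ) ^ m * (X - (25 / 16 : ℝ) ^ m * Z) ^ 2
          = (16 / 25 : ℝ) ^ m * X ^ 2 - 2 * ((16 / 25 : ℝ) ^ m * (25 / 16 : ℝ) ^ m) * X * Z
            + ((16 / 25 : ℝ) ^ m * (25 / 16 : ℝ) ^ m) * (25 / 16 : ℝ) ^ m * Z ^ 2 := by ring
      rw [h4, h1] at h3
      nlinarith [sq_nonneg Z]
    have hom : omN m = (1 / 5 : ℝ) * (5 / 4) ^ m := by
      simp only [omN, th]; ring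
    have hp := hproj j
    have e1 : (5 / 4 : ℝ) ^ m * (16 / 25 : ℝ) ^ m = (4 / 5) ^ m := by rw [← mul_pow]; norm_num
    have e2 : (25 / 16 : ℝ) ^ m ≤ (25 / 8) ^ m := pow_le_pow_left₀ (by norm_num) (by norm_num) m
    have hom0 : 0 ≤ omN m := omN_nonneg m
    have h7 : omN m * (2 * X * Z - Z ^ 2) ≤ (1 / 5 : ℝ) * (4 / 5) ^ m * (V.b v i * NN)
        + (25 / 8) ^ m * (V.b v j * NN) := by
      calc omN m * (2 * X * Z - Z ^ 2)
          ≤ omN m * ((16 / 25 : ℝ) ^ m * X ^ 2 + (25 / 16 : ℝ) ^ m * Z ^ 2) :=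
            mul_le_mul_of_nonneg_left hyoung hom0
        _ = (1 / 5 : ℝ) * ((5 / 4 : ℝ) ^ m * (16 / 25 : ℝ) ^ m) * X ^ 2
            + (1 / 5) * (25 / 16 : ℝ) ^ m * ((5 / 4 : ℝ) ^ m * Z ^ 2) := by rw [hom]; ring
        _ ≤ (1 / 5 : ℝ) * (4 / 5) ^ m * (V.b v i * NN)
            + (25 / 8) ^ m * (V.b v j * NN) := by
            rw [e1]
            have h8 : (1 / 5 : ℝ) * (4 / 5) ^ m * X ^ 2 ≤ (1 / 5 : ℝ) * (4 / 5) ^ m * (V.b v i * NN) :=
              mul_le_mul_of_nonneg_left hxi (by positivity)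
            have h9 : (1 / 5) * (25 / 16 : ℝ) ^ m * ((5 / 4 : ℝ) ^ m * Z ^ 2)
                ≤ (25 / 8) ^ m * (V.b v j * NN) := by
              have hb : 0 ≤ V.b v j * NN := mul_nonneg (b_nonneg V v j) hNN0
              calc (1 / 5) * (25 / 16 : ℝ) ^ m * ((5 / 4 : ℝ) ^ m * Z ^ 2)
                  ≤ (1 / 5) * (25 / 16 : ℝ) ^ m * (V.b v j * NN) :=
                    mul_le_mul_of_nonneg_left hz (by positivity)
                _ ≤ (25 / 8) ^ m * (V.b v j * NN) := by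
                    refine mul_le_mul_of_nonneg_right ?_ hb
                    have : (0:ℝ) < (25 / 16 : ℝ) ^ m := by positivity
                    linarith
            linarith
    have h10 : omN m * (‖V.P j x‖ ^ 2 - sb * (2 * X * Z - Z ^ 2))
        ≤ omN m * ‖(V.rot v s).P j (Ts v s x)‖ ^ 2 := mul_le_mul_of_nonneg_left hp hom0
    have h11 : sb * (omN m * (2 * X * Z - Z ^ 2)) ≤ sb * ((1 / 5 : ℝ) * (4 / 5) ^ m * (V.b v i * NN)
        + (25 / 8) ^ m * (V.b v j * NN)) := mul_le_mul_of_nonneg_left h7 hsb0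
    nlinarith
  have hsum := Finset.sum_le_sum hterm
  rw [Finset.sum_sub_distrib, ← Finset.mul_sum, Finset.sum_add_distrib, ← Finset.sum_mul] at hsum
  have hg := geom_le i V.n
  have h0 := hproj i
  have hii : ⟪V.P i v, x⟫ = ⟪v, x⟫ := hvx.symm
  rw [hii] at h0
  have hbb : ∑ j ∈ Finset.Ico (i + 1) V.n, (25 / 8 : ℝ) ^ (j - i) * V.b v j = BB V v i := rfl
  rw [hbb] at hsum
  have hb0 := b_nonneg V v i
  have h12 : sb * NN * ((∑ j ∈ Finset.Ico (i + 1) V.n, (1 / 5 : ℝ) * (4 / 5) ^ (j - i)) * V.b v i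
      + BB V v i) ≤ sb * NN * (V.b v i + BB V v i) := by
    refine mul_le_mul_of_nonneg_left ?_ (mul_nonneg hsb0 hNN0)
    have := mul_le_mul_of_nonneg_right hg hb0
    linarith
  have h13 : sb * ⟪v, x⟫ ^ 2 ≤ sb * (V.b v i * NN) := mul_le_mul_of_nonneg_left hxi hsb0
  have h14 : (V.rot v s).n = V.n := rfl
  rw [h14]
  unfold hh
  nlinarith

end flag

section moment

variable {E : Type*} [NormedAddCommGroup E] [InnerProductSpace ℝ E] [FiniteDimensional ℝ E]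
  [MeasurableSpace E] [BorelSpace E]

lemma integrable_P_sq (V : Flag E) (j : ℕ) :
    Integrable (fun g : E => ‖V.P j g‖ ^ 2) (stdGaussian E) := Dom640.integrable_norm_sq _

lemma integral_P_sq (V : Flag E) (j : ℕ) :
    ∫ g, ‖V.P j g‖ ^ 2 ∂(stdGaussian E) = Module.finrank ℝ (V.M j) :=
  Mom764.integral_norm_sq_starProjection (V.M j)

lemma integral_Q_sq (V : Flag E) (j : ℕ) :
    ∫ g, ‖V.Q j g‖ ^ 2 ∂(stdGaussian E) = V.k j := by
  simp only [norm_Q_sq]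
  rw [integral_sub (integrable_P_sq V j) (integrable_P_sq V (j + 1)), integral_P_sq, integral_P_sq,
    Flag.k, Nat.cast_sub]
  exact Submodule.finrank_mono (V.anti (Nat.le_succ j))

lemma N_H (V : Flag E) (i : ℕ) (g : E) :
    V.N i (V.H i g) = ∑ j ∈ Finset.Ico i V.n, th ^ (j - i) * ‖V.Q j g‖ ^ 2 := by
  rw [Flag.N]
  refine Finset.sum_congr rfl fun j hj => ?_
  have h := FlagAlg557.Q_comb (M := V.M) V.anti hj (fun j => th ^ (j - i)) g
  have e : V.Q j (V.H i g) = th ^ (j - i) • V.Q j g := h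
  rw [e, norm_smul, mul_pow, Real.norm_eq_abs, sq_abs, ← mul_assoc]
  congr 1
  have h1 : (th⁻¹ : ℝ) ^ (j - i) * th ^ (j - i) = 1 := by
    rw [← mul_pow, inv_mul_cancel₀ th_pos.ne', one_pow]
  calc (th⁻¹ : ℝ) ^ (j - i) * (th ^ (j - i)) ^ 2
      = ((th⁻¹ : ℝ) ^ (j - i) * th ^ (j - i)) * th ^ (j - i) := by ring
    _ = th ^ (j - i) := by rw [h1, one_mul]

/-- `E_{g_i} N_i = rr i`. -/
theorem integral_N_std (V : Flag E) (i : ℕ) :
    ∫ g, V.N i (V.H i g) ∂(stdGaussian E) = V.rr i := by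
  simp only [N_H]
  rw [integral_finsetSum _ fun j _ => (Dom640.integrable_norm_sq (V.Q j)).const_mul _, Flag.rr]
  refine Finset.sum_congr rfl fun j _ => ?_
  rw [integral_const_mul, integral_Q_sq]

theorem integral_nB (V : Flag E) (i : ℕ) :
    ∫ x, ‖nB V i x‖ ^ 2 ∂(gau (V.H i)) = V.rr i := by
  unfold gau
  rw [integral_map (V.H i).continuous.aemeasurable (by fun_prop)]
  simp only [norm_nB_sq]
  exact integral_N_std V i

lemma rr_nonneg (V : Flag E) (i : ℕ) : 0 ≤ V.rr i :=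
  Finset.sum_nonneg fun j _ => mul_nonneg (pow_nonneg th_pos.le _) (Nat.cast_nonneg _)

/-- the cap in terms of the gauge map -/
lemma cap_eq (V : Flag E) {rho : ℝ} (hr : 0 ≤ rho) (i : ℕ) :
    V.cap rho i = {x | x ∈ V.M i ∧ ‖nB V i x‖ ≤ rho * Real.sqrt (V.rr i)} := by
  ext x
  simp only [Flag.cap, Set.mem_ofPred_eq]
  have h0 : 0 ≤ rho * Real.sqrt (V.rr i) := by positivity
  have h : V.N i x ≤ rho ^ 2 * V.rr i ↔ ‖nB V i x‖ ≤ rho * Real.sqrt (V.rr i) := by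
    rw [← norm_nB_sq, ← Real.sq_sqrt (rr_nonneg V i), ← mul_pow, Real.sqrt_sq (Real.sqrt_nonneg _)]
    exact sq_le_sq₀ (norm_nonneg _) h0
  rw [h]

/-- inverse of `T_s` -/
noncomputable def Ti (v : E) (s : ℝ) : E →L[ℝ] E :=
  ContinuousLinearMap.id ℝ E + (s / (1 - s)) • (innerSL ℝ v).smulRight v

lemma Ti_apply (v : E) (s : ℝ) (x : E) : Ti v s x = x + (s / (1 - s) * ⟪v, x⟫) • v := by
  simp [Ti, smul_smul]

lemma Ti_Ts {v : E} (hv : ‖v‖ = 1) {s : ℝ} (hs : s < 1) (x : E) : Ti v s (Ts v s x) = x := by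
  have h1 : ⟪v, v⟫ = (1 : ℝ) := by rw [real_inner_self_eq_norm_sq, hv]; norm_num
  have hs' : (1 - s) ≠ 0 := by linarith
  rw [Ti_apply, Ts_apply, inner_sub_right, inner_smul_right, h1, sub_add, ← sub_smul]
  have : s * ⟪v, x⟫ - s / (1 - s) * (⟪v, x⟫ - s * ⟪v, x⟫ * 1) = 0 := by
    field_simp; ring
  rw [this, zero_smul, sub_zero]

lemma Ts_Ti {v : E} (hv : ‖v‖ = 1) {s : ℝ} (hs : s < 1) (x : E) : Ts v s (Ti v s x) = x := by
  have h1 : ⟪v, v⟫ = (1 : ℝ) := by rw [real_inner_self_eq_norm_sq, hv]; norm_num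
  have hs' : (1 - s) ≠ 0 := by linarith
  rw [Ts_apply, Ti_apply, inner_add_right, inner_smul_right, h1, add_sub_assoc, ← sub_smul]
  have : s / (1 - s) * ⟪v, x⟫ - s * (⟪v, x⟫ + s / (1 - s) * ⟪v, x⟫ * 1) = 0 := by
    field_simp; ring
  rw [this, zero_smul, add_zero]

lemma rot_k (V : Flag E) {v : E} (hv : ‖v‖ = 1) {s : ℝ} (hs : s < 1) (j : ℕ) :
    (V.rot v s).k j = V.k j := by
  have hinj : Function.Injective (Ts v s).toLinearMap := by
    intro x y h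
    have h' : Ts v s x = Ts v s y := h
    rw [← Ti_Ts hv hs x, h', Ti_Ts hv hs y]
  have h : ∀ l, Module.finrank ℝ ((V.rot v s).M l) = Module.finrank ℝ (V.M l) := fun l =>
    (LinearEquiv.finrank_eq (Submodule.equivMapOfInjective _ hinj (V.M l))).symm
  unfold Flag.k
  rw [h, h]

lemma rot_rr (V : Flag E) {v : E} (hv : ‖v‖ = 1) {s : ℝ} (hs : s < 1) (i : ℕ) :
    (V.rot v s).rr i = V.rr i := by
  unfold Flag.rr
  simp only [rot_k V hv hs]
  rfl

lemma Ti_mem (V : Flag E) {v : E} (hv : ‖v‖ = 1) {s : ℝ} (hs : s < 1) {i : ℕ} {y : E}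
    (hy : y ∈ (V.rot v s).M i) : Ti v s y ∈ V.M i := by
  obtain ⟨x, hx, rfl⟩ := Submodule.mem_map.1 hy
  have : Ti v s ((Ts v s).toLinearMap x) = x := Ti_Ts hv hs x
  rw [this]; exact hx

lemma H_mem (V : Flag E) (i : ℕ) (g : E) : V.H i g ∈ V.M i :=
  FlagAlg557.comb_mem (M := V.M) V.anti i V.n (fun j => th ^ (j - i)) g

/-- `N_i (T⁻¹ y) ≤ 2 N^s_i(y)` if `h ≤ 1/2`. -/
lemma N_Ti_le (V : Flag E) {v : E} (hv : ‖v‖ = 1) {s : ℝ} (hs0 : 0 ≤ s) (hs : s < 1)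
    {i : ℕ} (hi : i < V.n) {y : E} (hy : y ∈ (V.rot v s).M i) :
    (1 - hh V v (2 * s - s ^ 2) i) * V.N i (Ti v s y) ≤ (V.rot v s).N i y := by
  have h := N_rot_ge V hv hs0 hs.le hi (Ti_mem V hv hs hy)
  rwa [Ts_Ti hv hs] at h

/-- **(F7) loss of the cap of `V` on a symmetric convex body inside the cap of the tilted flag.** -/
theorem cap_rot (V : Flag E) {v : E} (hv : ‖v‖ = 1) {s : ℝ} (hs0 : 0 ≤ s) (hs : s < 1)
    {i : ℕ} (hi : i < V.n) {rho : ℝ} (hrho : 4 ≤ rho) (hh1 : hh V v (2 * s - s ^ 2) i ≤ 1 / 2)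
    {K : Set E} (hK : IsClosed K) (cK : Convex ℝ K) (sK : ∀ x ∈ K, -x ∈ K)
    (hKc : K ⊆ (V.rot v s).cap rho i) :
    (1 - 32 * hh V v (2 * s - s ^ 2) i / rho ^ 2) * (gau ((V.rot v s).H i)).real K
      ≤ (gau ((V.rot v s).H i)).real (K ∩ {y | ‖nB V i (Ti v s y)‖ ≤ rho * Real.sqrt (V.rr i)}) := by
  set h := hh V v (2 * s - s ^ 2) i with hdef
  have hsb0 : 0 ≤ 2 * s - s ^ 2 := by nlinarith
  have h0 : 0 ≤ h := mul_nonneg hsb0 (by have := b_nonneg V v i; have := BB_nonneg V v i; linarith)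
  have hrho0 : 0 < rho := by linarith
  have hr0 := rr_nonneg V i
  set A := (V.rot v s).H i with hA
  rcases hr0.eq_or_lt with hz | hpos
  · -- `rr = 0`
    have hsub : K ∩ {y | ‖nB V i (Ti v s y)‖ ≤ rho * Real.sqrt (V.rr i)} = K := by
      refine Set.inter_eq_left.2 fun y hy => ?_
      obtain ⟨hyM, hyN⟩ := hKc hy
      rw [rot_rr V hv hs, ← hz, mul_zero] at hyN
      have h1 := N_Ti_le V hv hs0 hs hi hyM
      have h2 : V.N i (Ti v s y) ≤ 0 := by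
        have h3 := N_nonneg V i (Ti v s y)
        nlinarith
      rw [← norm_nB_sq] at h2
      have h4 : ‖nB V i (Ti v s y)‖ = 0 := by nlinarith [norm_nonneg (nB V i (Ti v s y))]
      show ‖nB V i (Ti v s y)‖ ≤ rho * Real.sqrt (V.rr i)
      rw [h4]; positivity
    rw [hsub]
    have h5 : 0 ≤ (gau A).real K := measureReal_nonneg
    have h6 : 0 ≤ 32 * h / rho ^ 2 := by positivity
    nlinarith
  · set R := rho * Real.sqrt (V.rr i) with hR
    have hRpos : 0 < R := by positivity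
    have hR2 : R ^ 2 = rho ^ 2 * V.rr i := by rw [hR, mul_pow, Real.sq_sqrt hr0]
    have hpt : ∀ y ∈ (V.rot v s).M i, (1 - h) * ‖(nB V i ∘L Ti v s) y‖ ^ 2 ≤ (V.rot v s).N i y := by
      intro y hy
      have := N_Ti_le V hv hs0 hs hi hy
      rwa [← norm_nB_sq V i (Ti v s y)] at this
    have hKB : ∀ g, A g ∈ K → (1 - h) * ‖(nB V i ∘L Ti v s) (A g)‖ ^ 2 ≤ R ^ 2 := by
      intro g hg
      obtain ⟨hyM, hyN⟩ := hKc hg
      rw [rot_rr V hv hs] at hyN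
      rw [hR2]; exact (hpt _ hyM).trans hyN
    have hmom : ∫ x, ‖(nB V i ∘L Ti v s) x‖ ^ 2 ∂(gau A) ≤ 2 * V.rr i := by
      have e1 : ∫ x, ‖(nB V i ∘L Ti v s) x‖ ^ 2 ∂(gau A)
          = ∫ g, ‖((nB V i ∘L Ti v s) ∘L A) g‖ ^ 2 ∂(stdGaussian E) := by
        unfold gau
        rw [integral_map A.continuous.aemeasurable (by fun_prop)]
        rfl
      have e2 : ∫ g, ‖(nB (V.rot v s) i ∘L A) g‖ ^ 2 ∂(stdGaussian E) = V.rr i := by
        have h3 := integral_N_std (V.rot v s) i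
        rw [rot_rr V hv hs] at h3
        rw [← h3]
        refine integral_congr_ae (Filter.Eventually.of_forall fun g => ?_)
        exact norm_nB_sq (V.rot v s) i _
      rw [e1, ← e2, ← integral_const_mul]
      refine integral_mono (Dom640.integrable_norm_sq _) ((Dom640.integrable_norm_sq _).const_mul _) ?_
      intro g
      have h4 := hpt (A g) (H_mem (V.rot v s) i g)
      have h5 : (V.rot v s).N i (A g) = ‖(nB (V.rot v s) i ∘L A) g‖ ^ 2 :=
        (norm_nB_sq (V.rot v s) i _).symm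
      rw [h5] at h4
      have h6 : 0 ≤ ‖((nB V i ∘L Ti v s) ∘L A) g‖ ^ 2 := by positivity
      have h7 : ‖((nB V i ∘L Ti v s) ∘L A) g‖ ^ 2 = ‖(nB V i ∘L Ti v s) (A g)‖ ^ 2 := rfl
      simp only
      nlinarith
    have hm8 : 8 * ∫ x, ‖(nB V i ∘L Ti v s) x‖ ^ 2 ∂(gau A) ≤ R ^ 2 := by
      rw [hR2]
      have h16 : 16 ≤ rho ^ 2 := by nlinarith
      have := mul_le_mul_of_nonneg_right h16 hr0
      linarith
    have hmain := cap_loss A hK cK sK (nB V i ∘L Ti v s) hRpos h0 hh1 hKB hm8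
    refine le_trans ?_ hmain
    refine mul_le_mul_of_nonneg_right ?_ measureReal_nonneg
    have h8 : 16 * h * (∫ x, ‖(nB V i ∘L Ti v s) x‖ ^ 2 ∂(gau A)) / R ^ 2 ≤ 32 * h / rho ^ 2 := by
      rw [hR2, div_le_div_iff₀ (by positivity) (by positivity)]
      have h9 := mul_le_mul_of_nonneg_left hmom (by positivity : 0 ≤ 16 * h * rho ^ 2)
      nlinarith
    linarith

end moment

end Crest.Agent.R239.Cap7_506
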