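import Crest.Agent.R239.FDef
import Crest.Agent.R239.Dom_640
import Crest.Agent.R239.Mom_764
import Crest.Agent.R239.F6core_696

/-! R239 (helper824): API of the ellipsoid cap and of `Adm`, `val`, `D` over FDef. -/

set_option autoImplicit false
set_option linter.unusedSectionVars false
open MeasureTheory ProbabilityTheory Set
open scoped RealInnerProductSpace

namespace Crest.Agent.R239.CapE824

open Crest.Agent.R239.FD
open Crest.Agent.R239 (gau gau_real_apply)

variable {E : Type*} [NormedAddCommGroup E] [InnerProductSpace ℝ E] [FiniteDimensional ℝ E]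
  [MeasurableSpace E] [BorelSpace E]

lemma th_pos : 0 < th := by unfold th; norm_num
lemma th_lt : th < 1 := by unfold th; norm_num
lemma one_le_thi : 1 ≤ th⁻¹ := by unfold th; norm_num

/-- linear map with `‖BN V i x‖² = V.N i x` -/
noncomputable def BN (V : Flag E) (i : ℕ) : E →L[ℝ] E :=
  ∑ j ∈ Finset.Ico i V.n, (Real.sqrt th⁻¹) ^ (j - i) • V.Q j

lemma norm_BN_sq (V : Flag E) (i : ℕ) (x : E) : ‖BN V i x‖ ^ 2 = V.N i x := by
  have h := Mom764.norm_sum_Q_sq V.anti (Finset.Ico i V.n) (fun j => (Real.sqrt th⁻¹) ^ (j - i)) x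
  have e : BN V i x = ∑ j ∈ Finset.Ico i V.n, (Real.sqrt th⁻¹) ^ (j - i) • Mom764.Q V.M j x := by
    unfold BN
    simp only [FunLike.coe_sum, Finset.sum_apply, FunLike.coe_smul,
      Pi.smul_apply]
    rfl
  rw [e, h]
  unfold Flag.N
  refine Finset.sum_congr rfl fun j _ => ?_
  rw [← pow_mul, mul_comm (j - i) 2, pow_mul, Real.sq_sqrt (by unfold th; norm_num)]
  rfl

lemma N_nonneg (V : Flag E) (i : ℕ) (x : E) : 0 ≤ V.N i x := by
  rw [← norm_BN_sq]; positivity

lemma rr_nonneg (V : Flag E) (i : ℕ) : 0 ≤ V.rr i := by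
  unfold Flag.rr
  exact Finset.sum_nonneg fun j _ => mul_nonneg (pow_nonneg th_pos.le _) (Nat.cast_nonneg _)

lemma k_cast (V : Flag E) (j : ℕ) :
    (V.k j : ℝ) = (Module.finrank ℝ (V.M j) : ℝ) - Module.finrank ℝ (V.M (j + 1)) := by
  unfold Flag.k
  rw [Nat.cast_sub (Submodule.finrank_mono (V.anti (Nat.le_succ j)))]

lemma H_mem (V : Flag E) (i : ℕ) (g : E) : V.H i g ∈ V.M i :=
  Mom764.H_mem V.anti th V.n i g

lemma norm_sq_le_N (V : Flag E) (i : ℕ) {x : E} (hx : x ∈ V.M i) : ‖x‖ ^ 2 ≤ V.N i x := by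
  rcases le_or_gt V.n i with h | h
  · have : x = 0 := by
      have := V.bot i h
      rw [this] at hx
      exact (Submodule.mem_bot ℝ).1 hx
    subst this
    simp only [norm_zero]
    have := N_nonneg V i (0 : E)
    simpa using this
  · have h1 := Mom764.sum_norm_Q_sq V.anti h.le x
    have h2 : (V.M i).starProjection x = x := Submodule.starProjection_eq_self_iff.2 hx
    have h3 : (V.M V.n).starProjection x = 0 := by
      rw [V.bot V.n le_rfl]; simp
    rw [h2, h3, norm_zero] at h1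
    have h4 : ‖x‖ ^ 2 = ∑ j ∈ Finset.Ico i V.n, ‖Mom764.Q V.M j x‖ ^ 2 := by rw [h1]; ring
    rw [h4]
    unfold Flag.N
    refine Finset.sum_le_sum fun j _ => ?_
    have h5 : (1 : ℝ) ≤ (th⁻¹) ^ (j - i) := one_le_pow₀ one_le_thi
    have h6 : (0 : ℝ) ≤ ‖V.Q j x‖ ^ 2 := by positivity
    calc ‖Mom764.Q V.M j x‖ ^ 2 = 1 * ‖V.Q j x‖ ^ 2 := by rw [one_mul]; rfl
      _ ≤ _ := mul_le_mul_of_nonneg_right h5 h6

lemma cap_eq (V : Flag E) {rho : ℝ} (hr : 0 ≤ rho) (i : ℕ) :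
    V.cap rho i = {x | ‖BN V i x‖ ≤ rho * Real.sqrt (V.rr i)} ∩ (V.M i : Set E) := by
  ext x
  have h0 : 0 ≤ rho * Real.sqrt (V.rr i) := by positivity
  have e : (rho * Real.sqrt (V.rr i)) ^ 2 = rho ^ 2 * V.rr i := by
    rw [mul_pow, Real.sq_sqrt (rr_nonneg V i)]
  simp only [Flag.cap, mem_ofPred_eq, mem_inter_iff, SetLike.mem_coe]
  rw [and_comm, ← norm_BN_sq, ← e]
  constructor
  · rintro ⟨h1, h2⟩
    exact ⟨by nlinarith [norm_nonneg (BN V i x), abs_le_of_sq_le_sq' h1 h0], h2⟩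
  · rintro ⟨h1, h2⟩
    exact ⟨by gcongr, h2⟩

lemma isClosed_M (V : Flag E) (i : ℕ) : IsClosed (V.M i : Set E) :=
  Submodule.closed_of_finiteDimensional _

lemma cap_closed (V : Flag E) {rho : ℝ} (hr : 0 ≤ rho) (i : ℕ) : IsClosed (V.cap rho i) := by
  rw [cap_eq V hr]
  exact (isClosed_le (BN V i).continuous.norm continuous_const).inter (isClosed_M V i)

lemma cap_convex (V : Flag E) {rho : ℝ} (hr : 0 ≤ rho) (i : ℕ) : Convex ℝ (V.cap rho i) := by
  rw [cap_eq V hr]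
  have h : {x | ‖BN V i x‖ ≤ rho * Real.sqrt (V.rr i)}
      = (BN V i) ⁻¹' (Metric.closedBall 0 (rho * Real.sqrt (V.rr i))) := by
    ext x; simp
  rw [h]
  exact ((convex_closedBall _ _).linear_preimage (BN V i).toLinearMap).inter (V.M i).convex

lemma cap_symm (V : Flag E) (rho : ℝ) (i : ℕ) : ∀ x ∈ V.cap rho i, -x ∈ V.cap rho i := by
  rintro x ⟨h1, h2⟩
  refine ⟨(V.M i).neg_mem h1, ?_⟩
  rw [← norm_BN_sq, map_neg, norm_neg, norm_BN_sq]
  exact h2

lemma zero_mem_cap (V : Flag E) (rho : ℝ) (i : ℕ) : (0 : E) ∈ V.cap rho i := by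
  refine ⟨(V.M i).zero_mem, ?_⟩
  rw [← norm_BN_sq, map_zero, norm_zero]
  have h := rr_nonneg V i
  have h2 : 0 ≤ rho ^ 2 * V.rr i := by positivity
  simpa using h2

lemma cap_compact (V : Flag E) {rho : ℝ} (hr : 0 ≤ rho) (i : ℕ) : IsCompact (V.cap rho i) := by
  apply Metric.isCompact_of_isClosed_isBounded (cap_closed V hr i)
  refine (Metric.isBounded_closedBall (x := (0 : E)) (r := rho * Real.sqrt (V.rr i))).subset ?_
  rintro x ⟨h1, h2⟩
  rw [mem_closedBall_zero_iff]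
  have h0 : 0 ≤ rho * Real.sqrt (V.rr i) := by positivity
  have h3 := (norm_sq_le_N V i h1).trans h2
  have e : (rho * Real.sqrt (V.rr i)) ^ 2 = rho ^ 2 * V.rr i := by
    rw [mul_pow, Real.sq_sqrt (rr_nonneg V i)]
  rw [← e] at h3
  exact (abs_le_of_sq_le_sq' h3 h0).2

/-- `E_{g_i} N_i = rr i` -/
lemma integral_N (V : Flag E) (i : ℕ) : ∫ x, ‖BN V i x‖ ^ 2 ∂(gau (V.H i)) = V.rr i := by
  rw [Mom764.integral_gau (V.H i) (f := fun x => ‖BN V i x‖ ^ 2) (by fun_prop)]
  have h : (fun g : E => ‖BN V i (V.H i g)‖ ^ 2)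
      = fun g => ∑ j ∈ Finset.Ico i V.n, (th⁻¹) ^ (j - i) * ‖Mom764.Q V.M j (V.H i g)‖ ^ 2 := by
    funext g; rw [norm_BN_sq]; rfl
  rw [h, integral_finsetSum]
  · unfold Flag.rr
    refine Finset.sum_congr rfl fun j hj => ?_
    rw [Finset.mem_Ico] at hj
    rw [integral_const_mul]
    have h2 := Mom764.integral_norm_Q_sq V.anti th hj.1 hj.2
    have h3 : ∫ g, ‖Mom764.Q V.M j (V.H i g)‖ ^ 2 ∂(stdGaussian E)
        = th ^ (2 * (j - i)) * ((Module.finrank ℝ (V.M j) : ℝ) - Module.finrank ℝ (V.M (j + 1))) := h2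
    rw [h3, ← k_cast]
    have h4 : (th⁻¹) ^ (j - i) * th ^ (2 * (j - i)) = th ^ (j - i) := by
      rw [two_mul, pow_add, ← mul_assoc, ← mul_pow, inv_mul_cancel₀ th_pos.ne', one_pow, one_mul]
    rw [← mul_assoc, h4]
  · intro j _
    exact (Mom764.integrable_norm_sq ((Mom764.Q V.M j) ∘L (V.H i))).const_mul _

lemma integrable_N (V : Flag E) (i : ℕ) : Integrable (fun x => ‖BN V i x‖ ^ 2) (gau (V.H i)) := by
  rw [Mom764.integrable_gau_iff (V.H i) (f := fun x => ‖BN V i x‖ ^ 2) (by fun_prop)]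
  exact Mom764.integrable_norm_sq ((BN V i) ∘L (V.H i))

/-- one cut by the cap of level `i` costs the factor `1 - 1/rho^2` -/
theorem cap_cut (V : Flag E) (i : ℕ) {rho : ℝ} (hr : 0 < rho) {K : Set E} (hK : IsClosed K)
    (cK : Convex ℝ K) (sK : ∀ x ∈ K, -x ∈ K) :
    (1 - 1 / rho ^ 2) * (gau (V.H i)).real K ≤ (gau (V.H i)).real (K ∩ V.cap rho i) := by
  rw [cap_eq V hr.le, ← inter_assoc]
  have mB : MeasurableSet {x : E | ‖BN V i x‖ ≤ rho * Real.sqrt (V.rr i)} :=
    measurableSet_le (BN V i).continuous.norm.measurable measurable_const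
  rw [F6core696.gau_real_inter_range (H_mem V i) (hK.measurableSet.inter mB)]
  rcases eq_or_lt_of_le (rr_nonneg V i) with h0 | h0
  · -- rr = 0
    have h1 := integral_N V i
    rw [← h0] at h1
    rw [integral_eq_zero_iff_of_nonneg (fun x => by positivity) (integrable_N V i)] at h1
    have h2 : (gau (V.H i)).real (K ∩ {x | ‖BN V i x‖ ≤ rho * Real.sqrt (V.rr i)})
        = (gau (V.H i)).real K := by
      apply measureReal_congr
      filter_upwards [h1] with x hx
      have hx0 : ‖BN V i x‖ = 0 := by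
        have : ‖BN V i x‖ ^ 2 = 0 := hx
        exact pow_eq_zero_iff (two_ne_zero) |>.1 this
      apply propext
      constructor
      · exact fun h => h.1
      · intro h
        refine ⟨h, ?_⟩
        show ‖BN V i x‖ ≤ _
        rw [hx0]; positivity
    rw [h2]
    have h3 : 0 ≤ (gau (V.H i)).real K := measureReal_nonneg
    have h4 : 0 ≤ 1 / rho ^ 2 := by positivity
    nlinarith
  · have hpos : 0 < rho * Real.sqrt (V.rr i) := mul_pos hr (Real.sqrt_pos.2 h0)
    have h1 := Dom640.gau_cut (V.H i) hK.measurableSet cK sK (BN V i) hpos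
    rw [integral_N, mul_pow, Real.sq_sqrt h0.le] at h1
    have h2 : V.rr i / (rho ^ 2 * V.rr i) = 1 / rho ^ 2 := by
      field_simp
    rwa [h2] at h1

/-! ### `Adm`, `val`, `D` -/

section soft
variable {p : Par} {V : Flag E} {i : ℕ} {μ : Multiset E} {K : Set E}

lemma Adm.closed (h : Adm p V i K) : IsClosed K := h.1
lemma Adm.conv (h : Adm p V i K) : Convex ℝ K := h.2.1
lemma Adm.symm (h : Adm p V i K) : ∀ x ∈ K, -x ∈ K := h.2.2.1
lemma Adm.sub (h : Adm p V i K) : K ⊆ V.cap p.rho i := h.2.2.2.1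
lemma Adm.pos (h : Adm p V i K) : 0 < (gau (V.H i)).real K := h.2.2.2.2

lemma nonempty_of_pos {m : Measure E} (h : 0 < m.real K) : K.Nonempty := by
  rw [Set.nonempty_iff_ne_empty]
  rintro rfl
  simp at h

lemma zero_mem_of (cK : Convex ℝ K) (sK : ∀ x ∈ K, -x ∈ K) (hne : K.Nonempty) : (0 : E) ∈ K := by
  obtain ⟨x, hx⟩ := hne
  have := cK hx (sK x hx) (by norm_num : (0:ℝ) ≤ 1/2) (by norm_num : (0:ℝ) ≤ 1/2) (by norm_num)
  simpa using this

lemma Adm.nonempty (h : Adm p V i K) : K.Nonempty := nonempty_of_pos (Adm.pos h)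
lemma Adm.zero_mem (h : Adm p V i K) : (0 : E) ∈ K :=
  zero_mem_of (Adm.conv h) (Adm.symm h) (Adm.nonempty h)

lemma Adm.compact (hp : 0 ≤ p.rho) (h : Adm p V i K) : IsCompact K :=
  (cap_compact V hp i).of_isClosed_subset (Adm.closed h) (Adm.sub h)

instance (A : E →L[ℝ] E) : IsProbabilityMeasure (gau A) := by
  unfold gau
  exact Measure.isProbabilityMeasure_map A.continuous.aemeasurable

lemma hs_nonneg (hK : IsCompact K) (h0 : (0:E) ∈ K) (z : E) : 0 ≤ hs K z := by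
  have := F6core696.le_hs hK h0 z
  rw [inner_zero_left] at this
  exact this

lemma Eh_nonneg (hK : IsCompact K) (h0 : (0:E) ∈ K) (μ : Multiset E) : 0 ≤ Eh K μ := by
  unfold Eh
  apply Multiset.sum_nonneg
  intro y hy
  obtain ⟨z, _, rfl⟩ := Multiset.mem_map.1 hy
  exact hs_nonneg hK h0 z

lemma Eh_mono {B : Set E} (hK : IsCompact K) (hB : B.Nonempty) (h : B ⊆ K) (μ : Multiset E) :
    Eh B μ ≤ Eh K μ := by
  unfold Eh
  induction μ using Multiset.induction_on with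
  | empty => simp
  | cons z μ ih =>
    simp only [Multiset.map_cons, Multiset.sum_cons]
    have := F6core696.hs_mono hK hB h z
    exact add_le_add this ih

lemma lam_pos (hp : p.Ok) (i : ℕ) : 0 < p.lam i := by
  unfold Par.lam
  have := hp.tau_pos
  have := hp.A_ge
  positivity

lemma log_real_nonpos (m : Measure E) [IsProbabilityMeasure m] (K : Set E) :
    Real.log (m.real K) ≤ 0 :=
  Real.log_nonpos measureReal_nonneg measureReal_le_one

lemma rho_pos (hp : p.Ok) : 0 < p.rho := by linarith [hp.rho_ge]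

lemma val_nonneg (hp : p.Ok) (h : Adm p V i K) (μ : Multiset E) : 0 ≤ val p V i μ K := by
  unfold val
  have h1 := Eh_nonneg (Adm.compact (rho_pos hp).le h) (Adm.zero_mem h) μ
  have h2 := log_real_nonpos (gau (V.H i)) K
  have h3 := lam_pos hp i
  nlinarith [mul_nonpos_of_nonneg_of_nonpos h3.le h2]

lemma bddBelow_val (hp : p.Ok) (V : Flag E) (i : ℕ) (μ : Multiset E) :
    BddBelow (val p V i μ '' {K | Adm p V i K}) :=
  ⟨0, by rintro _ ⟨K, hK, rfl⟩; exact val_nonneg hp hK μ⟩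

lemma D_le (hp : p.Ok) (h : Adm p V i K) (μ : Multiset E) : D p V i μ ≤ val p V i μ K :=
  csInf_le (bddBelow_val hp V i μ) ⟨K, h, rfl⟩

lemma adm_cap (hp : p.Ok) (V : Flag E) (i : ℕ) : Adm p V i (V.cap p.rho i) := by
  have hr := rho_pos hp
  refine ⟨cap_closed V hr.le i, cap_convex V hr.le i, cap_symm V _ i, Subset.rfl, ?_⟩
  have h := cap_cut V i hr (K := univ) isClosed_univ convex_univ (fun _ _ => mem_univ _)
  rw [univ_inter, probReal_univ, mul_one] at h
  refine lt_of_lt_of_le ?_ h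
  have h1 : (1:ℝ) < p.rho ^ 2 := by nlinarith [hp.rho_ge]
  have h2 : 1 / p.rho ^ 2 < 1 := by rw [div_lt_one (by positivity)]; exact h1
  linarith

lemma image_nonempty (hp : p.Ok) (V : Flag E) (i : ℕ) (μ : Multiset E) :
    (val p V i μ '' {K | Adm p V i K}).Nonempty := ⟨_, _, adm_cap hp V i, rfl⟩

lemma le_D (hp : p.Ok) {c : ℝ} (h : ∀ K, Adm p V i K → c ≤ val p V i μ K) : c ≤ D p V i μ :=
  le_csInf (image_nonempty hp V i μ) (by rintro _ ⟨K, hK, rfl⟩; exact h K hK)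

lemma D_nonneg (hp : p.Ok) (V : Flag E) (i : ℕ) (μ : Multiset E) : 0 ≤ D p V i μ :=
  le_D hp fun _ hK => val_nonneg hp hK μ

lemma exists_near (hp : p.Ok) (V : Flag E) (i : ℕ) (μ : Multiset E) {ε : ℝ} (hε : 0 < ε) :
    ∃ K, Adm p V i K ∧ val p V i μ K < D p V i μ + ε := by
  obtain ⟨_, ⟨K, hK, rfl⟩, h⟩ := exists_lt_of_csInf_lt (image_nonempty hp V i μ)
    (lt_add_of_pos_right (D p V i μ) hε)
  exact ⟨K, hK, h⟩

end soft

end Crest.Agent.R239.CapE824
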