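import Crest.Agent.R239.PRot_711

/-! # CAPH (F7, ellipsoid cap, pointwise): `(1 - sb (2 b_i + BB_i)) N_i(x) ≤ N^s_i(T_s x)` on `M_i`,
and `rr` is invariant under the tilt (helper171). -/

set_option autoImplicit false
set_option linter.unusedSectionVars false
open Finset
open scoped RealInnerProductSpace

namespace Crest.Agent.R239.CapH171
open Crest.Agent.R239.FD Crest.Agent.R239.PRot711

variable {E : Type*} [NormedAddCommGroup E] [InnerProductSpace ℝ E] [FiniteDimensional ℝ E]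

lemma two_mul_le_of_sq {x z a b c d : ℝ} (ha : 0 ≤ a) (hb : 0 ≤ b) (hc : 0 ≤ c) (hd : 0 ≤ d)
    (h1 : x ^ 2 ≤ a * b) (h2 : z ^ 2 ≤ c * d) : 2 * (x * z) ≤ c * b + a * d := by
  have h3 : (2 * (x * z)) ^ 2 ≤ (c * b + a * d) ^ 2 := by
    have h4 : x ^ 2 * z ^ 2 ≤ (a * b) * (c * d) := mul_le_mul h1 h2 (sq_nonneg _) (by positivity)
    nlinarith [sq_nonneg (c * b - a * d)]
  exact (le_abs_self _).trans (abs_le_of_sq_le_sq h3 (by positivity))

lemma omN_le (m : ℕ) : omN m ≤ (25 / 8 : ℝ) ^ m := by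
  unfold omN
  have h1 : (th⁻¹ : ℝ) ^ m ≤ (25 / 8 : ℝ) ^ m :=
    pow_le_pow_left₀ thi_pos.le (by unfold th; norm_num) m
  have h2 : (1 : ℝ) - th ≤ 1 := by unfold th; norm_num
  have h3 : (0 : ℝ) ≤ 1 - th := by unfold th; norm_num
  calc th⁻¹ ^ m * (1 - th) ≤ (25 / 8 : ℝ) ^ m * 1 := by gcongr
    _ = _ := mul_one _

theorem N_v_le (V : Flag E) (v : E) {i : ℕ} (h : i < V.n) : V.N i v ≤ V.b v i + BB V v i := by
  rw [N_eq V h]
  unfold BB Flag.b
  gcongr with j hj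
  exact omN_le _

lemma inner_P (V : Flag E) (j : ℕ) (v x : E) : ⟪V.P j v, x⟫ = ⟪V.P j v, V.P j x⟫ := by
  unfold Flag.P
  have h : ⟪x - (V.M j).starProjection x, (V.M j).starProjection v⟫ = 0 :=
    Submodule.starProjection_inner_eq_zero _ _ (Submodule.starProjection_apply_mem _ _)
  rw [inner_sub_left] at h
  have h1 := real_inner_comm x ((V.M j).starProjection v)
  have h2 := real_inner_comm ((V.M j).starProjection x) ((V.M j).starProjection v)
  linarith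

lemma inner_P_sq_le (V : Flag E) (j : ℕ) (v x : E) :
    ⟪V.P j v, x⟫ ^ 2 ≤ V.b v j * ‖V.P j x‖ ^ 2 := by
  rw [inner_P, Flag.b, ← mul_pow, ← sq_abs]
  exact pow_le_pow_left₀ (abs_nonneg _) (abs_real_inner_le_norm _ _) 2

theorem capH (V : Flag E) {v : E} (hv : ‖v‖ = 1) {s : ℝ} (h0 : 0 < s) (h1 : s < 1) {i : ℕ} {x : E}
    (hx : x ∈ V.M i) :
    (1 - (2 * s - s ^ 2) * (2 * V.b v i + BB V v i)) * V.N i x
      ≤ (V.rot v s).N i (Ts v s x) := by
  have hPx : V.P i x = x := Submodule.starProjection_eq_self_iff.2 hx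
  rcases lt_or_ge i V.n with hi | hi
  · have hsb0 := sbar_pos h0 h1
    have hsb1 := sbar_lt_one h1
    set sb := 2 * s - s ^ 2 with hsb
    rw [N_eq (V.rot v s) (by rw [rot_n]; exact hi), rot_n]
    simp only [norm_P_rot_sq V hv h0 h1]
    rw [← hsb]
    set ξ := ⟪v, x⟫ with hξ
    have hNx := N_eq V hi x
    have hNv := N_v_le V v hi
    set Nx := V.N i x with hNxd
    set Nv := V.N i v with hNvd
    have hP0 : ∀ j, 0 ≤ ‖V.P j x‖ ^ 2 := fun j => by positivity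
    have hsum0 : 0 ≤ ∑ j ∈ Ico (i + 1) V.n, omN (j - i) * ‖V.P j x‖ ^ 2 :=
      Finset.sum_nonneg fun j _ => mul_nonneg (omN_pos _).le (hP0 j)
    have hxN : ‖V.P i x‖ ^ 2 ≤ Nx := by rw [hNx]; linarith
    have hNx0 : 0 ≤ Nx := (hP0 i).trans hxN
    have hbi0 := b_nonneg V v i
    -- `ξ = <P_i v, x>`
    have hξi : ξ = ⟪V.P i v, x⟫ := by
      rw [hξ]
      have h : ⟪v - (V.M i).starProjection v, x⟫ = 0 :=
        Submodule.starProjection_inner_eq_zero _ _ hx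
      rw [inner_sub_left] at h
      show ⟪v, x⟫ = ⟪(V.M i).starProjection v, x⟫
      linarith
    have hξ2 : ξ ^ 2 ≤ V.b v i * Nx := by
      rw [hξi]
      exact (inner_P_sq_le V i v x).trans (mul_le_mul_of_nonneg_left hxN hbi0)
    -- termwise bound
    have hterm : ∀ j, -(sb * (V.b v j * Nx + V.b v i * ‖V.P j x‖ ^ 2)) ≤
        - sb * ξ ^ 2 + sb * ⟪v - V.P j v, x⟫ ^ 2 / (1 - sb * V.b v j) := by
      intro j
      have hbj0 := b_nonneg V v j
      have hpos := one_sub_sb_pos V hv h0 h1 j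
      rw [← hsb] at hpos
      have e1 : sb * ⟪v - V.P j v, x⟫ ^ 2 ≤ sb * ⟪v - V.P j v, x⟫ ^ 2 / (1 - sb * V.b v j) := by
        rw [le_div_iff₀ hpos]
        have : 0 ≤ sb * ⟪v - V.P j v, x⟫ ^ 2 := by positivity
        nlinarith [mul_nonneg this (mul_nonneg hsb0.le hbj0)]
      have e2 : ⟪v - V.P j v, x⟫ = ξ - ⟪V.P j v, x⟫ := by rw [inner_sub_left]
      have e3 := two_mul_le_of_sq hbi0 hNx0 hbj0 (hP0 j) hξ2 (inner_P_sq_le V j v x)
      rw [e2] at e1
      rw [e2]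
      have e4 : sb * (2 * (ξ * ⟪V.P j v, x⟫)) ≤ sb * (V.b v j * Nx + V.b v i * ‖V.P j x‖ ^ 2) :=
        mul_le_mul_of_nonneg_left e3 hsb0.le
      have e5 : 0 ≤ sb * ⟪V.P j v, x⟫ ^ 2 := by positivity
      nlinarith
    -- the first term
    have hfirst : ‖V.P i x‖ ^ 2 - sb * (V.b v i * Nx + V.b v i * ‖V.P i x‖ ^ 2) ≤
        ‖V.P i x‖ ^ 2 - sb * ξ ^ 2 + sb * ⟪v - V.P i v, x⟫ ^ 2 / (1 - sb * V.b v i) := by
      have := hterm i
      linarith
    have hrest : ∑ j ∈ Ico (i + 1) V.n, omN (j - i) * ‖V.P j x‖ ^ 2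
        - sb * (Nx * ∑ j ∈ Ico (i + 1) V.n, omN (j - i) * V.b v j
          + V.b v i * ∑ j ∈ Ico (i + 1) V.n, omN (j - i) * ‖V.P j x‖ ^ 2) ≤
        ∑ j ∈ Ico (i + 1) V.n, omN (j - i) * (‖V.P j x‖ ^ 2 - sb * ξ ^ 2
          + sb * ⟪v - V.P j v, x⟫ ^ 2 / (1 - sb * V.b v j)) := by
      have h2 : ∑ j ∈ Ico (i + 1) V.n, omN (j - i) * ‖V.P j x‖ ^ 2
        - sb * (Nx * ∑ j ∈ Ico (i + 1) V.n, omN (j - i) * V.b v j
          + V.b v i * ∑ j ∈ Ico (i + 1) V.n, omN (j - i) * ‖V.P j x‖ ^ 2)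
          = ∑ j ∈ Ico (i + 1) V.n, omN (j - i) * (‖V.P j x‖ ^ 2
            - sb * (V.b v j * Nx + V.b v i * ‖V.P j x‖ ^ 2)) := by
        rw [Finset.mul_sum, Finset.mul_sum, ← Finset.sum_add_distrib, Finset.mul_sum,
          ← Finset.sum_sub_distrib]
        exact Finset.sum_congr rfl fun j _ => by ring
      rw [h2]
      refine Finset.sum_le_sum fun j _ => mul_le_mul_of_nonneg_left ?_ (omN_pos _).le
      have := hterm j
      linarith
    have hNv2 : Nv = V.b v i + ∑ j ∈ Ico (i + 1) V.n, omN (j - i) * V.b v j := N_eq V hi v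
    have htot := add_le_add hfirst hrest
    refine le_trans ?_ htot
    have h3 : sb * Nx * Nv ≤ sb * Nx * (V.b v i + BB V v i) :=
      mul_le_mul_of_nonneg_left hNv (by positivity)
    rw [hNv2] at h3
    set S1 := ∑ j ∈ Ico (i + 1) V.n, omN (j - i) * ‖V.P j x‖ ^ 2 with hS1
    set S2 := ∑ j ∈ Ico (i + 1) V.n, omN (j - i) * V.b v j with hS2
    have h4 : Nx = ‖V.P i x‖ ^ 2 + S1 := hNx
    have h5 : (1 - sb * (2 * V.b v i + BB V v i)) * Nx
        = Nx - sb * V.b v i * Nx - sb * Nx * (V.b v i + BB V v i) := by ring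
    rw [h5]
    have h6 : sb * V.b v i * Nx = sb * V.b v i * (‖V.P i x‖ ^ 2 + S1) := by rw [← h4]
    nlinarith
  · have hx0 : x = 0 := by
      have := V.bot i hi
      rw [this, Submodule.mem_bot] at hx
      exact hx
    subst hx0
    simp [Flag.N]

theorem rot_k (V : Flag E) {v : E} (hv : ‖v‖ = 1) {s : ℝ} (h1 : s < 1) (i : ℕ) :
    (V.rot v s).k i = V.k i := by
  have hinj : Function.Injective (Ts v s).toLinearMap := by
    rw [Ts_eq]
    intro x y hxy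
    have h1' : ⟪v, v⟫ = (1 : ℝ) := by rw [real_inner_self_eq_norm_sq, hv]; norm_num
    have hs' : (1 - s) ≠ 0 := by linarith
    rw [Rot203.Ts_apply, Rot203.Ts_apply] at hxy
    have h2 : (1 - s) * ⟪v, x⟫ = (1 - s) * ⟪v, y⟫ := by
      have := congrArg (fun z => ⟪v, z⟫) hxy
      simp only [inner_sub_right, inner_smul_right, h1', mul_one] at this
      linarith
    have h3 : ⟪v, x⟫ = ⟪v, y⟫ := mul_left_cancel₀ hs' h2
    rw [h3] at hxy
    exact sub_left_injective hxy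
  have h2 : ∀ j, Module.finrank ℝ ((V.rot v s).M j) = Module.finrank ℝ (V.M j) := fun j =>
    ((Submodule.equivMapOfInjective (Ts v s).toLinearMap hinj (V.M j)).finrank_eq).symm
  unfold Flag.k
  rw [h2, h2]

theorem rot_rr (V : Flag E) {v : E} (hv : ‖v‖ = 1) {s : ℝ} (h1 : s < 1) (i : ℕ) :
    (V.rot v s).rr i = V.rr i := by
  unfold Flag.rr
  rw [rot_n]
  exact Finset.sum_congr rfl fun j _ => by rw [rot_k V hv h1]

end Crest.Agent.R239.CapH171
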