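import Crest.Agent.R239.Rot_203

/-! Linear algebra of F7 (literal of helper171), helper34.

`N ≤ M`, `Q = P_M - P_N`, `Qs = P_{TM} - P_{TN}`, `B = 1 - sb ‖P_M v‖²`, `B1 = 1 - sb ‖P_N v‖²`,
`al = ‖P_M v - P_N v‖`, `n = Q v / al`, `x1 = (B ⟪n,x⟫ - sb al a) / √(B B1)`. -/

set_option autoImplicit false
set_option linter.unusedSectionVars false
open scoped RealInnerProductSpace

namespace Crest.Agent.R239.Cap34

open Crest.Agent.R239.Rot203

variable {E : Type*} [NormedAddCommGroup E] [InnerProductSpace ℝ E] [FiniteDimensional ℝ E]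

/-- Pythagoras for nested subspaces. -/
lemma norm_sub_proj_sq {M N : Submodule ℝ E} (h : N ≤ M) (x : E) :
    ‖M.starProjection x - N.starProjection x‖ ^ 2
      = ‖M.starProjection x‖ ^ 2 - ‖N.starProjection x‖ ^ 2 := by
  have hN : N.starProjection x ∈ N := Submodule.starProjection_apply_mem _ _
  have h1 : ⟪x - M.starProjection x, N.starProjection x⟫ = 0 :=
    Submodule.starProjection_inner_eq_zero _ _ (h hN)
  have h2 : ⟪x - N.starProjection x, N.starProjection x⟫ = 0 :=
    Submodule.starProjection_inner_eq_zero _ _ hN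
  rw [inner_sub_left] at h1 h2
  rw [real_inner_self_eq_norm_sq] at h2
  rw [norm_sub_sq_real]
  linarith

/-- `⟪Q v, x⟫ = ⟪Q v, Q x⟫`. -/
lemma inner_Q {M N : Submodule ℝ E} (h : N ≤ M) (v x : E) :
    ⟪M.starProjection v - N.starProjection v, M.starProjection x - N.starProjection x⟫
      = ⟪M.starProjection v - N.starProjection v, x⟫ := by
  have hv : M.starProjection v - N.starProjection v ∈ M :=
    M.sub_mem (Submodule.starProjection_apply_mem _ _) (h (Submodule.starProjection_apply_mem _ _))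
  have h1 : ⟪x - M.starProjection x, M.starProjection v - N.starProjection v⟫ = 0 :=
    Submodule.starProjection_inner_eq_zero _ _ hv
  have hNx : N.starProjection x ∈ N := Submodule.starProjection_apply_mem _ _
  have h2 : ⟪v - M.starProjection v, N.starProjection x⟫ = 0 :=
    Submodule.starProjection_inner_eq_zero _ _ (h hNx)
  have h3 : ⟪v - N.starProjection v, N.starProjection x⟫ = 0 :=
    Submodule.starProjection_inner_eq_zero _ _ hNx
  rw [real_inner_comm, inner_sub_right] at h1
  rw [inner_sub_right, inner_sub_left (M.starProjection v) (N.starProjection v)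
    (N.starProjection x)]
  rw [inner_sub_left] at h2 h3
  linarith

variable {v : E} (hv : ‖v‖ = 1)
include hv

lemma sb_le {s : ℝ} (_hs : 0 ≤ 2 * s - s ^ 2) (hs1 : 2 * s - s ^ 2 ≤ 1 / 2) (M : Submodule ℝ E) :
    1 / 2 ≤ 1 - (2 * s - s ^ 2) * ‖M.starProjection v‖ ^ 2 := by
  have h1 : ‖M.starProjection v‖ ≤ 1 := by
    rw [← hv]; exact Submodule.norm_starProjection_apply_le M v
  have h2 : ‖M.starProjection v‖ ^ 2 ≤ 1 := pow_le_one₀ (norm_nonneg _) h1
  nlinarith

/-- The difference of C1 at `M` and `N`. -/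
lemma norm_Qs_sq {s : ℝ} (hs : 0 ≤ 2 * s - s ^ 2) (hs1 : 2 * s - s ^ 2 ≤ 1 / 2)
    {M N : Submodule ℝ E} (h : N ≤ M) (x : E) :
    ‖(M.map (Ts s v)).starProjection (Ts s v x) - (N.map (Ts s v)).starProjection (Ts s v x)‖ ^ 2
      = ‖M.starProjection x - N.starProjection x‖ ^ 2
        + (2 * s - s ^ 2) * (⟪v, x⟫ - ⟪M.starProjection v, x⟫) ^ 2
          / (1 - (2 * s - s ^ 2) * ‖M.starProjection v‖ ^ 2)
        - (2 * s - s ^ 2) * (⟪v, x⟫ - ⟪N.starProjection v, x⟫) ^ 2
          / (1 - (2 * s - s ^ 2) * ‖N.starProjection v‖ ^ 2) := by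
  have hM := sb_le hv hs hs1 M
  have hN := sb_le hv hs hs1 N
  rw [norm_sub_proj_sq (Submodule.map_mono h), norm_sub_proj_sq h,
    norm_proj_Ts_sq hv M s x (by linarith), norm_proj_Ts_sq hv N s x (by linarith)]
  ring

lemma B1_eq {s : ℝ} {M N : Submodule ℝ E} (h : N ≤ M) :
    1 - (2 * s - s ^ 2) * ‖N.starProjection v‖ ^ 2
      = 1 - (2 * s - s ^ 2) * ‖M.starProjection v‖ ^ 2
        + (2 * s - s ^ 2) * ‖M.starProjection v - N.starProjection v‖ ^ 2 := by
  rw [norm_sub_proj_sq h]; ring

/-- Literal (a) of F7. -/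
theorem cap_lin {s : ℝ} (hs : 0 ≤ 2 * s - s ^ 2) (hs1 : 2 * s - s ^ 2 ≤ 1 / 2)
    {M N : Submodule ℝ E} (h : N ≤ M) :
    ∃ (n : E) (x1 : E →L[ℝ] ℝ), ‖n‖ ≤ 1 ∧
      (∀ x, |x1 x| ≤ ‖(M.map (Ts s v)).starProjection (Ts s v x)
          - (N.map (Ts s v)).starProjection (Ts s v x)‖) ∧
      (∀ x, ‖(M.starProjection x - N.starProjection x)
          - ((Real.sqrt ((1 - (2 * s - s ^ 2) * ‖N.starProjection v‖ ^ 2)
                / (1 - (2 * s - s ^ 2) * ‖M.starProjection v‖ ^ 2)) - 1) * x1 x
              + ((2 * s - s ^ 2) * ‖M.starProjection v - N.starProjection v‖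
                / (1 - (2 * s - s ^ 2) * ‖M.starProjection v‖ ^ 2))
                * (⟪v, x⟫ - ⟪M.starProjection v, x⟫)) • n‖
        = ‖(M.map (Ts s v)).starProjection (Ts s v x)
          - (N.map (Ts s v)).starProjection (Ts s v x)‖) := by
  have hM := sb_le hv hs hs1 M
  have hN := sb_le hv hs hs1 N
  have hB1 := B1_eq (s := s) hv h
  have hC := fun x => norm_Qs_sq hv hs hs1 h x
  set sb := 2 * s - s ^ 2 with hsb
  set B := 1 - sb * ‖M.starProjection v‖ ^ 2 with hB
  set B1 := 1 - sb * ‖N.starProjection v‖ ^ 2 with hB1d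
  set al := ‖M.starProjection v - N.starProjection v‖ with hal
  have hBpos : 0 < B := by linarith
  have hB1pos : 0 < B1 := by linarith
  by_cases h0 : al = 0
  · refine ⟨0, 0, by simp, fun x => by simp, fun x => ?_⟩
    have hvv : M.starProjection v = N.starProjection v := by
      rw [hal] at h0; exact sub_eq_zero.mp (norm_eq_zero.mp h0)
    have hBB : B1 = B := by rw [hB1, h0]; ring
    have hx := hC x
    rw [← hvv, hBB] at hx
    have h2 : ‖(M.map (Ts s v)).starProjection (Ts s v x)
          - (N.map (Ts s v)).starProjection (Ts s v x)‖ ^ 2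
        = ‖M.starProjection x - N.starProjection x‖ ^ 2 := by rw [hx]; ring
    have h3 := (sq_eq_sq₀ (norm_nonneg _) (norm_nonneg _)).mp h2
    simp only [smul_zero, sub_zero]
    exact h3.symm
  · have halpos : 0 < al := lt_of_le_of_ne (norm_nonneg _) (Ne.symm h0)
    set w := M.starProjection v - N.starProjection v with hw
    set n : E := (1 / al) • w with hn
    have hnn : ‖n‖ = 1 := by
      rw [hn, norm_smul, ← hal, Real.norm_eq_abs, abs_of_pos (by positivity)]
      field_simp
    have hwn : w = al • n := by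
      rw [hn, smul_smul, mul_one_div_cancel (ne_of_gt halpos), one_smul]
    set r := Real.sqrt (B * B1) with hr
    have hrpos : 0 < r := Real.sqrt_pos.mpr (mul_pos hBpos hB1pos)
    have hr2 : r ^ 2 = B * B1 := Real.sq_sqrt (mul_pos hBpos hB1pos).le
    -- the functional
    let x1 : E →L[ℝ] ℝ := (1 / r) • (B • innerSL ℝ n
      - (sb * al) • (innerSL ℝ v - innerSL ℝ (M.starProjection v)))
    have hx1 : ∀ x, x1 x = (B * ⟪n, x⟫ - sb * al * (⟪v, x⟫ - ⟪M.starProjection v, x⟫)) / r := by
      intro x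
      simp only [x1, smul_apply, sub_apply,
        innerSL_apply_apply, smul_eq_mul]
      ring
    have hnQ : ∀ x, ⟪n, M.starProjection x - N.starProjection x⟫ = ⟪n, x⟫ := by
      intro x
      have := inner_Q h v x
      rw [hn, inner_smul_left, inner_smul_left, ← hw] at *
      rw [this]
    have hsq : Real.sqrt (B1 / B) = B1 / r := by
      rw [Real.sqrt_div hB1pos.le]
      have h1 : r = Real.sqrt B * Real.sqrt B1 := Real.sqrt_mul hBpos.le B1
      have h2 : Real.sqrt B1 * Real.sqrt B1 = B1 := Real.mul_self_sqrt hB1pos.le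
      have h3 : 0 < Real.sqrt B := Real.sqrt_pos.mpr hBpos
      have h4 : 0 < Real.sqrt B1 := Real.sqrt_pos.mpr hB1pos
      rw [h1, div_eq_div_iff h3.ne' (mul_pos h3 h4).ne']
      nlinarith [h2]
    have hy : ∀ x, (Real.sqrt (B1 / B) - 1) * x1 x + (sb * al / B)
        * (⟪v, x⟫ - ⟪M.starProjection v, x⟫) = ⟪n, x⟫ - x1 x := by
      intro x
      rw [hsq, hx1]
      have h5 : B1 / r * ((B * ⟪n, x⟫ - sb * al * (⟪v, x⟫ - ⟪M.starProjection v, x⟫)) / r)
          = ⟪n, x⟫ - sb * al / B * (⟪v, x⟫ - ⟪M.starProjection v, x⟫) := by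
        rw [div_mul_div_comm, ← sq, hr2]
        field_simp
      linarith
    have hx1sq : ∀ x, (x1 x) ^ 2 = ⟪n, x⟫ ^ 2
        + sb * (⟪v, x⟫ - ⟪M.starProjection v, x⟫) ^ 2 / B
        - sb * (⟪v, x⟫ - ⟪N.starProjection v, x⟫) ^ 2 / B1 := by
      intro x
      have hNv : ⟪v, x⟫ - ⟪N.starProjection v, x⟫
          = (⟪v, x⟫ - ⟪M.starProjection v, x⟫) + al * ⟪n, x⟫ := by
        have : ⟪w, x⟫ = al * ⟪n, x⟫ := by rw [hwn, inner_smul_left]; simp
        rw [hw, inner_sub_left] at this
        linarith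
      rw [hx1, hNv, div_pow, hr2]
      generalize ⟪v, x⟫ - ⟪M.starProjection v, x⟫ = a
      generalize ⟪n, x⟫ = X
      have hB1' : B1 = B + sb * al ^ 2 := hB1
      have hB1ne : B + sb * al ^ 2 ≠ 0 := by rw [← hB1']; exact hB1pos.ne'
      rw [hB1']
      field_simp
      ring
    have hmain : ∀ x, ‖(M.starProjection x - N.starProjection x)
          - ((Real.sqrt (B1 / B) - 1) * x1 x + (sb * al / B)
            * (⟪v, x⟫ - ⟪M.starProjection v, x⟫)) • n‖ ^ 2
        = ‖M.starProjection x - N.starProjection x‖ ^ 2 - ⟪n, x⟫ ^ 2 + (x1 x) ^ 2 := by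
      intro x
      have hc : ⟪M.starProjection x - N.starProjection x, n⟫ = ⟪n, x⟫ := by
        rw [real_inner_comm]; exact hnQ x
      rw [hy, norm_sub_sq_real, norm_smul, mul_pow, hnn, inner_smul_right, hc,
        Real.norm_eq_abs, sq_abs]
      ring
    have hmain2 : ∀ x, ‖(M.map (Ts s v)).starProjection (Ts s v x)
          - (N.map (Ts s v)).starProjection (Ts s v x)‖ ^ 2
        = ‖M.starProjection x - N.starProjection x‖ ^ 2 - ⟪n, x⟫ ^ 2 + (x1 x) ^ 2 := by
      intro x
      rw [hC x, hx1sq x]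
      ring
    refine ⟨n, x1, hnn.le, fun x => ?_, fun x => ?_⟩
    · rw [← abs_of_nonneg (norm_nonneg ((M.map (Ts s v)).starProjection (Ts s v x)
          - (N.map (Ts s v)).starProjection (Ts s v x))), ← sq_le_sq, hmain2 x]
      have h6 : ⟪n, x⟫ ^ 2 ≤ ‖M.starProjection x - N.starProjection x‖ ^ 2 := by
        have h7 := abs_real_inner_le_norm n (M.starProjection x - N.starProjection x)
        rw [hnQ, hnn, one_mul] at h7
        calc ⟪n, x⟫ ^ 2 = |⟪n, x⟫| ^ 2 := (sq_abs _).symm
          _ ≤ _ := pow_le_pow_left₀ (abs_nonneg _) h7 2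
      linarith
    · exact (sq_eq_sq₀ (norm_nonneg _) (norm_nonneg _)).mp ((hmain x).trans (hmain2 x).symm)

/-- `√(B1/B) - 1 ≤ sb al²`. -/
theorem sqrt_bound {s : ℝ} (hs : 0 ≤ 2 * s - s ^ 2) (hs1 : 2 * s - s ^ 2 ≤ 1 / 2)
    {M N : Submodule ℝ E} (h : N ≤ M) :
    0 ≤ Real.sqrt ((1 - (2 * s - s ^ 2) * ‖N.starProjection v‖ ^ 2)
        / (1 - (2 * s - s ^ 2) * ‖M.starProjection v‖ ^ 2)) - 1 ∧
    Real.sqrt ((1 - (2 * s - s ^ 2) * ‖N.starProjection v‖ ^ 2)
        / (1 - (2 * s - s ^ 2) * ‖M.starProjection v‖ ^ 2)) - 1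
      ≤ (2 * s - s ^ 2) * ‖M.starProjection v - N.starProjection v‖ ^ 2 := by
  have hM := sb_le hv hs hs1 M
  have hB1 := B1_eq (s := s) hv h
  set sb := 2 * s - s ^ 2 with hsb
  set B := 1 - sb * ‖M.starProjection v‖ ^ 2 with hB
  set al := ‖M.starProjection v - N.starProjection v‖ with hal
  rw [hB1]
  have hBpos : 0 < B := by linarith
  have hd : 0 ≤ sb * al ^ 2 := mul_nonneg hs (sq_nonneg _)
  have h1 : (B + sb * al ^ 2) / B = 1 + sb * al ^ 2 / B := by field_simp
  have h2 : sb * al ^ 2 / B ≤ 2 * (sb * al ^ 2) := by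
    rw [div_le_iff₀ hBpos]; nlinarith
  have h3 : 0 ≤ sb * al ^ 2 / B := div_nonneg hd hBpos.le
  constructor
  · have : 1 ≤ Real.sqrt ((B + sb * al ^ 2) / B) := by
      rw [h1]; exact Real.one_le_sqrt.mpr (by linarith)
    linarith
  · have : Real.sqrt ((B + sb * al ^ 2) / B) ≤ 1 + sb * al ^ 2 := by
      rw [Real.sqrt_le_left (by linarith), h1]
      nlinarith
    linarith

omit hv in
/-- Riesz form of a functional bounded by `‖(P_M - P_N) y‖`. -/
theorem riesz_Q {M N : Submodule ℝ E} (h : N ≤ M) (l : E →L[ℝ] ℝ)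
    (hl : ∀ y, |l y| ≤ ‖M.starProjection y - N.starProjection y‖) :
    ∃ m : E, ‖m‖ ≤ 1 ∧ M.starProjection m - N.starProjection m = m ∧ ∀ y, l y = ⟪m, y⟫ := by
  set m := (InnerProductSpace.toDual ℝ E).symm l with hm
  have hml : ∀ y, l y = ⟪m, y⟫ := fun y => by
    rw [hm, InnerProductSpace.toDual_symm_apply]
  set q := M.starProjection m - N.starProjection m with hq
  have hqq : ⟪q, m⟫ = ‖q‖ ^ 2 := by
    have := inner_Q h m m
    rw [real_inner_self_eq_norm_sq] at this
    exact this.symm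
  have hQq : M.starProjection (m - q) - N.starProjection (m - q) = 0 := by
    have hqM : q ∈ M :=
      M.sub_mem (Submodule.starProjection_apply_mem _ _) (h (Submodule.starProjection_apply_mem _ _))
    have h1 : M.starProjection q = q := Submodule.starProjection_eq_self_iff.mpr hqM
    have h2 : N.starProjection q = 0 := by
      have : N.starProjection (M.starProjection m) = N.starProjection m := by
        have h5 : M.starProjection m - N.starProjection m ∈ Nᗮ := by
          rw [Submodule.mem_orthogonal']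
          intro u hu
          have h6 : ⟪m - M.starProjection m, u⟫ = 0 :=
            Submodule.starProjection_inner_eq_zero _ _ (h hu)
          have h7 : ⟪m - N.starProjection m, u⟫ = 0 :=
            Submodule.starProjection_inner_eq_zero _ _ hu
          rw [inner_sub_left] at h6 h7 ⊢
          linarith
        have h8 := (Submodule.starProjection_apply_eq_zero_iff (K := N)).mpr h5
        rw [map_sub, Submodule.starProjection_eq_self_iff.mpr
          (Submodule.starProjection_apply_mem N m)] at h8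
        exact sub_eq_zero.mp h8
      rw [hq, map_sub, this, Submodule.starProjection_eq_self_iff.mpr
        (Submodule.starProjection_apply_mem N m), sub_self]
    have h9 : M.starProjection (m - q) - N.starProjection (m - q)
        = (M.starProjection m - N.starProjection m)
          - (M.starProjection q - N.starProjection q) := by
      rw [map_sub M.starProjection m q, map_sub N.starProjection m q]; abel
    rw [h9, h1, h2, ← hq, sub_zero, sub_self]
  have h0 : l (m - q) = 0 := by
    have := hl (m - q)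
    rw [hQq, norm_zero] at this
    exact abs_eq_zero.mp (le_antisymm this (abs_nonneg _))
  have h1 : ‖m - q‖ ^ 2 = 0 := by
    have h2 : l (m - q) = ⟪m, m - q⟫ := hml _
    have h3 : ⟪q, m - q⟫ = 0 := by
      rw [inner_sub_right, hqq, real_inner_self_eq_norm_sq, sub_self]
    rw [← real_inner_self_eq_norm_sq, inner_sub_left, h3, ← h2, h0, sub_zero]
  have h2 : q = m := by
    have := norm_eq_zero.mp (pow_eq_zero_iff (two_ne_zero) |>.mp h1)
    exact (sub_eq_zero.mp this).symm
  refine ⟨m, ?_, h2, hml⟩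
  have h3 := hl m
  rw [hml m, real_inner_self_eq_norm_sq, ← hq, h2, abs_of_nonneg (sq_nonneg _)] at h3
  by_contra h4
  push Not at h4
  nlinarith

end Crest.Agent.R239.Cap34
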