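import Crest.Agent.R239.Dom_640
import Crest.Agent.R239.Gau6
import Crest.Agent.R239.FDef

/-! # R239: `P_DOM` and `P_SL` of `FDef` (helper640) -/

set_option autoImplicit false
set_option linter.unusedSectionVars false
open MeasureTheory ProbabilityTheory Set
open scoped RealInnerProductSpace ENNReal

namespace Crest.Agent.R239.Dom640

open Crest.Agent.R239

variable {E : Type*} [NormedAddCommGroup E] [InnerProductSpace ℝ E] [FiniteDimensional ℝ E]
  [MeasurableSpace E] [BorelSpace E]

/-- a positive operator has a square root: `⟪T g, g⟫ = ‖B g‖²` -/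
lemma exists_sqrt (T : E →L[ℝ] E) (hT : T.IsPositive) :
    ∃ B : E →L[ℝ] E, ∀ g, ⟪T g, g⟫ = ‖B g‖ ^ 2 := by
  obtain ⟨D, hD⟩ := exists_root T (fun x y => hT.isSymmetric x y) (fun x => by
    have := hT.inner_nonneg_left x
    simpa using this)
  exact ⟨D.adjoint, fun g => (hD g).symm⟩

lemma integrable_quad (T : E →L[ℝ] E) (hT : T.IsPositive) :
    Integrable (fun g => ⟪T g, g⟫) (stdGaussian E) := by
  obtain ⟨B, hB⟩ := exists_sqrt T hT
  simp only [hB]
  exact integrable_norm_sq B

theorem p_dom : FD.P_DOM E := by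
  intro T hT K hK cK hs
  obtain ⟨B, hB⟩ := exists_sqrt T hT
  simp only [hB]
  rw [mul_comm]
  exact dom_norm_sq hK cK hs B

theorem p_sl : FD.P_SL E := fun a t _ hK cK hs => slab_real hK cK hs a t

end Crest.Agent.R239.Dom640
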