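import Crest.Agent.R239.FDef
import Crest.Agent.R239.Dom_640
import Crest.Agent.R239.DomP_640
import Crest.Agent.R239.Mom_764
import Crest.Agent.R239.F6b_696
import Crest.Agent.R239.AdmHalf_606

/-! # R239 (helper526): the ellipsoid cap: second moment, Markov cut, admissible bodies -/

set_option autoImplicit false
set_option linter.unusedSectionVars false
open MeasureTheory ProbabilityTheory Set
open scoped RealInnerProductSpace ENNReal

namespace Crest.Agent.R239.Cap526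

open Crest.Agent.R239 Crest.Agent.R239.FD

variable {E : Type*} [NormedAddCommGroup E] [InnerProductSpace ℝ E] [FiniteDimensional ℝ E]
  [MeasurableSpace E] [BorelSpace E]

lemma th_pos : (0 : ℝ) < th := by norm_num [th]
lemma th_lt : (th : ℝ) < 1 := by norm_num [th]

lemma Q_eq (V : Flag E) (j : ℕ) : V.Q j = Mom764.Q V.M j := rfl
lemma H_eq (V : Flag E) (i : ℕ) : V.H i = Mom764.H th V.M V.n i := rfl

lemma k_cast (V : Flag E) (j : ℕ) : (V.k j : ℝ)
    = (Module.finrank ℝ (V.M j) : ℝ) - Module.finrank ℝ (V.M (j + 1)) := by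
  unfold Flag.k
  rw [Nat.cast_sub (Submodule.finrank_mono (V.anti (Nat.le_succ j)))]

lemma rr_nonneg (V : Flag E) (i : ℕ) : 0 ≤ V.rr i :=
  Finset.sum_nonneg fun j _ => mul_nonneg (pow_nonneg th_pos.le _) (Nat.cast_nonneg _)

/-- the root of the cap gauge -/
noncomputable def Bc (V : Flag E) (i : ℕ) : E →L[ℝ] E :=
  ∑ j ∈ Finset.Ico i V.n, (Real.sqrt th⁻¹) ^ (j - i) • V.Q j

lemma norm_Bc_sq (V : Flag E) (i : ℕ) (x : E) : ‖Bc V i x‖ ^ 2 = V.N i x := by
  have h : Bc V i x = ∑ j ∈ Finset.Ico i V.n, (Real.sqrt th⁻¹) ^ (j - i) • Mom764.Q V.M j x := by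
    simp [Bc, Q_eq]
  rw [h, Mom764.norm_sum_Q_sq V.anti]
  unfold Flag.N
  refine Finset.sum_congr rfl fun j _ => ?_
  rw [← pow_mul, mul_comm (j - i) 2, pow_mul, Real.sq_sqrt (inv_nonneg.2 th_pos.le)]
  rfl

lemma N_H (V : Flag E) (i : ℕ) (g : E) :
    V.N i (V.H i g) = ∑ j ∈ Finset.Ico i V.n, th ^ (j - i) * ‖V.Q j g‖ ^ 2 := by
  unfold Flag.N
  refine Finset.sum_congr rfl fun j hj => ?_
  rw [Finset.mem_Ico] at hj
  have h : V.Q j (V.H i g) = th ^ (j - i) • V.Q j g := Mom764.Q_H V.anti hj.1 hj.2 g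
  rw [h, norm_smul, mul_pow, Real.norm_of_nonneg (pow_nonneg th_pos.le _)]
  have h2 : (th⁻¹) ^ (j - i) * th ^ (j - i) = 1 := by
    rw [← mul_pow, inv_mul_cancel₀ th_pos.ne', one_pow]
  calc (th⁻¹) ^ (j - i) * ((th ^ (j - i)) ^ 2 * ‖V.Q j g‖ ^ 2)
      = ((th⁻¹) ^ (j - i) * th ^ (j - i)) * th ^ (j - i) * ‖V.Q j g‖ ^ 2 := by ring
    _ = th ^ (j - i) * ‖V.Q j g‖ ^ 2 := by rw [h2, one_mul]

/-- second moment of the cap gauge -/
theorem integral_N (V : Flag E) (i : ℕ) : ∫ x, ‖Bc V i x‖ ^ 2 ∂(gau (V.H i)) = V.rr i := by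
  rw [Mom764.integral_gau _ (by fun_prop)]
  have h : (fun g => ‖Bc V i (V.H i g)‖ ^ 2)
      = fun g => ∑ j ∈ Finset.Ico i V.n, th ^ (j - i) * ‖V.Q j g‖ ^ 2 := by
    funext g
    rw [norm_Bc_sq, N_H]
  rw [h, integral_finsetSum _ fun j _ => (Mom764.integrable_norm_sq (V.Q j)).const_mul _]
  unfold Flag.rr
  refine Finset.sum_congr rfl fun j _ => ?_
  rw [integral_const_mul, Q_eq, Mom764.integral_norm_Q_std_sq V.anti, k_cast]

/-- one Markov cut by the cap -/
theorem cut_cap (V : Flag E) (i : ℕ) {rho : ℝ} (hr : 1 ≤ rho) {K : Set E} (hK : MeasurableSet K)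
    (cK : Convex ℝ K) (sK : ∀ x ∈ K, -x ∈ K) :
    (1 - 1 / rho ^ 2) * (gau (V.H i)).real K ≤ (gau (V.H i)).real (K ∩ V.cap rho i) := by
  have hr0 : 0 < rho := lt_of_lt_of_le one_pos hr
  have hmemM : ∀ g, V.H i g ∈ V.M i := fun g => F6b696.H_mem V i g
  have hM : MeasurableSet (V.M i : Set E) := (Submodule.closed_of_finiteDimensional _).measurableSet
  have hNm : MeasurableSet {x : E | V.N i x ≤ rho ^ 2 * V.rr i} :=
    (isClosed_le (AdmHalf606.continuous_N V i) continuous_const).measurableSet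
  have hE : (gau (V.H i)).real (K ∩ V.cap rho i)
      = (gau (V.H i)).real (K ∩ {x : E | V.N i x ≤ rho ^ 2 * V.rr i}) := by
    have h1 : K ∩ V.cap rho i = (K ∩ {x : E | V.N i x ≤ rho ^ 2 * V.rr i}) ∩ (V.M i : Set E) := by
      ext x
      constructor
      · rintro ⟨h1, h2, h3⟩; exact ⟨⟨h1, h3⟩, h2⟩
      · rintro ⟨⟨h1, h3⟩, h2⟩; exact ⟨h1, h2, h3⟩
    rw [h1, gau_real_apply _ ((hK.inter hNm).inter hM), gau_real_apply _ (hK.inter hNm)]
    congr 1
    ext g
    constructor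
    · rintro ⟨h, _⟩; exact h
    · intro h; exact ⟨h, hmemM g⟩
  rw [hE]
  rcases (rr_nonneg V i).eq_or_lt with h0 | h0
  · -- `rr i = 0`
    have hint := integral_N V i
    rw [← h0] at hint
    have hI : Integrable (fun x => ‖Bc V i x‖ ^ 2) (gau (V.H i)) := by
      rw [Mom764.integrable_gau_iff _ (by fun_prop)]
      exact Mom764.integrable_norm_sq (Bc V i ∘L V.H i)
    have hae : (fun x => ‖Bc V i x‖ ^ 2) =ᵐ[gau (V.H i)] 0 :=
      (integral_eq_zero_iff_of_nonneg (fun x => sq_nonneg _) hI).1 hint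
    have h2 : (gau (V.H i)).real (K ∩ {x : E | V.N i x ≤ rho ^ 2 * V.rr i})
        = (gau (V.H i)).real K := by
      unfold Measure.real
      congr 1
      refine measure_congr ?_
      filter_upwards [hae] with x hx
      have hx' : V.N i x = 0 := by
        rw [← norm_Bc_sq]; exact hx
      apply propext
      constructor
      · rintro ⟨h, _⟩; exact h
      · intro h
        refine ⟨h, ?_⟩
        show V.N i x ≤ rho ^ 2 * V.rr i
        rw [hx', ← h0, mul_zero]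
    rw [h2]
    have h3 : 0 ≤ 1 / rho ^ 2 := by positivity
    nlinarith [measureReal_nonneg (μ := gau (V.H i)) (s := K)]
  · have hrad : 0 < rho * Real.sqrt (V.rr i) := mul_pos hr0 (Real.sqrt_pos.2 h0)
    have h := Dom640.gau_cut (V.H i) hK cK sK (Bc V i) hrad
    rw [integral_N, mul_pow, Real.sq_sqrt h0.le] at h
    have e1 : V.rr i / (rho ^ 2 * V.rr i) = 1 / rho ^ 2 := by
      field_simp
    rw [e1] at h
    have e2 : {x : E | ‖Bc V i x‖ ≤ rho * Real.sqrt (V.rr i)}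
        = {x : E | V.N i x ≤ rho ^ 2 * V.rr i} := by
      ext x
      simp only [mem_ofPred_eq]
      rw [← norm_Bc_sq]
      constructor
      · intro hx
        have := pow_le_pow_left₀ (norm_nonneg _) hx 2
        rwa [mul_pow, Real.sq_sqrt h0.le] at this
      · intro hx
        refine abs_le_of_sq_le_sq' ?_ hrad.le |>.2
        rwa [mul_pow, Real.sq_sqrt h0.le]
    rw [e2] at h
    exact h

instance (H : E →L[ℝ] E) : IsProbabilityMeasure (gau H) := F6b696.gau_isProb H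

lemma one_sub_pos {rho : ℝ} (hr : 1 < rho) : 0 < 1 - 1 / rho ^ 2 := by
  have : 1 / rho ^ 2 < 1 := by
    rw [div_lt_one (by positivity)]
    nlinarith
  linarith

lemma cap_pos (V : Flag E) (i : ℕ) {rho : ℝ} (hr : 1 < rho) :
    1 - 1 / rho ^ 2 ≤ (gau (V.H i)).real (V.cap rho i) := by
  have h := cut_cap V i hr.le MeasurableSet.univ convex_univ (fun x _ => mem_univ _)
  rw [univ_inter] at h
  have h1 : (gau (V.H i)).real univ = 1 := by simp
  rw [h1, mul_one] at h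
  exact h

theorem adm_cap {p : Par} (hr : 1 < p.rho) (V : Flag E) (i : ℕ) : Adm p V i (V.cap p.rho i) :=
  ⟨AdmHalf606.cap_closed V i p.rho, AdmHalf606.cap_convex V i p.rho,
    fun _ hx => AdmHalf606.cap_neg V i p.rho hx, Subset.rfl,
    lt_of_lt_of_le (one_sub_pos hr) (cap_pos V i hr)⟩

/-- `-log (1 - 1/rho^2) ≤ 2 / rho^2` -/
lemma neg_log_le {rho : ℝ} (hr : 2 ≤ rho) : -Real.log (1 - 1 / rho ^ 2) ≤ 2 / rho ^ 2 := by
  have h1 : 1 / rho ^ 2 ≤ 1 / 4 := by
    apply one_div_le_one_div_of_le (by norm_num)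
    nlinarith
  have h2 : 0 < 1 / rho ^ 2 := by positivity
  set y := 1 / rho ^ 2 with hy
  have h3 : 0 < 1 - y := by linarith
  have h4 : -Real.log (1 - y) = Real.log (1 - y)⁻¹ := by rw [Real.log_inv]
  have h5 : Real.log (1 - y)⁻¹ ≤ (1 - y)⁻¹ - 1 := Real.log_le_sub_one_of_pos (inv_pos.2 h3)
  have h6 : (1 - y)⁻¹ - 1 ≤ 2 * y := by
    rw [← one_div, sub_le_iff_le_add, div_le_iff₀ h3]
    nlinarith
  have h7 : 2 / rho ^ 2 = 2 * y := by rw [hy]; ring
  rw [h4, h7]
  linarith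

end Crest.Agent.R239.Cap526
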