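import Mathlib

/-! C1 rotation formula of 583 (doc 2389), one submodule (helper203).

`T x = x - s ⟪v,x⟫ v`, `‖v‖ = 1`, `sb = 2s - s²`, `P = M.starProjection`, `p = P v`, `b = ‖p‖²`,
`ξ = ⟪v,x⟫`, `ζ = ⟪p,x⟫`, `a = ξ - ζ`, `c = a/(1 - sb b)`:
`P_{TM} (T x) = T (P x - sb c p)`, `‖P_{TM} (T x)‖² = ‖P x‖² - sb ξ² + sb a²/(1 - sb b)`. -/

set_option autoImplicit false
set_option linter.unusedSectionVars false
open scoped RealInnerProductSpace

namespace Crest.Agent.R239.Rot203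

variable {E : Type*} [NormedAddCommGroup E] [InnerProductSpace ℝ E] [FiniteDimensional ℝ E]

/-- `T_s = 1 - s v vᵀ`. -/
noncomputable def Ts (s : ℝ) (v : E) : E →ₗ[ℝ] E :=
  LinearMap.id - s • ((innerSL ℝ v : E →L[ℝ] ℝ).toLinearMap.smulRight v)

@[simp] lemma Ts_apply (s : ℝ) (v x : E) : Ts s v x = x - (s * ⟪v, x⟫) • v := by
  simp [Ts, smul_smul]

variable {v : E} (hv : ‖v‖ = 1)
include hv

lemma inner_Ts_Ts (s : ℝ) (x y : E) :
    ⟪Ts s v x, Ts s v y⟫ = ⟪x, y⟫ - (2 * s - s ^ 2) * ⟪v, x⟫ * ⟪v, y⟫ := by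
  have h1 : ⟪v, v⟫ = (1 : ℝ) := by rw [real_inner_self_eq_norm_sq, hv]; norm_num
  simp only [Ts_apply, inner_sub_left, inner_sub_right, inner_smul_left, inner_smul_right, h1]
  simp only [RCLike.conj_to_real, real_inner_comm v x]
  ring

lemma norm_Ts_sq (s : ℝ) (x : E) :
    ‖Ts s v x‖ ^ 2 = ‖x‖ ^ 2 - (2 * s - s ^ 2) * ⟪v, x⟫ ^ 2 := by
  have := inner_Ts_Ts hv s x x
  rw [real_inner_self_eq_norm_sq, real_inner_self_eq_norm_sq] at this
  rw [this]; ring

/-- The projection of `T x` on `T M`. -/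
theorem proj_Ts (M : Submodule ℝ E) (s : ℝ) (x : E)
    (hb : 1 - (2 * s - s ^ 2) * ‖M.starProjection v‖ ^ 2 ≠ 0) :
    (M.map (Ts s v)).starProjection (Ts s v x) =
      Ts s v (M.starProjection x - ((2 * s - s ^ 2) *
        ((⟪v, x⟫ - ⟪M.starProjection v, x⟫) / (1 - (2 * s - s ^ 2) * ‖M.starProjection v‖ ^ 2))) •
          M.starProjection v) := by
  set sb := 2 * s - s ^ 2 with hsb
  set p := M.starProjection v with hp
  set b := ‖p‖ ^ 2 with hbd
  set c := (⟪v, x⟫ - ⟪p, x⟫) / (1 - sb * b) with hc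
  set y0 := M.starProjection x - (sb * c) • p with hy0
  have hpM : p ∈ M := by rw [hp]; exact Submodule.starProjection_apply_mem _ _
  have hPxM : M.starProjection x ∈ M := Submodule.starProjection_apply_mem _ _
  have hy0M : y0 ∈ M := M.sub_mem hPxM (M.smul_mem _ hpM)
  have hvp : ⟪v, p⟫ = b := by
    have h1 : ⟪v - p, p⟫ = 0 := by
      rw [hp]; exact Submodule.starProjection_inner_eq_zero _ _ (by rw [← hp]; exact hpM)
    rw [inner_sub_left, real_inner_self_eq_norm_sq] at h1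
    linarith
  have hvPx : ⟪v, M.starProjection x⟫ = ⟪p, x⟫ := by
    rw [hp, Submodule.inner_starProjection_left_eq_right]
  have hc' : c * (1 - sb * b) = ⟪v, x⟫ - ⟪p, x⟫ := by
    rw [hc]; field_simp
  have hcy : ⟪v, x⟫ - ⟪v, y0⟫ = c := by
    rw [hy0, inner_sub_right, inner_smul_right, hvPx, hvp]
    linarith
  apply Submodule.eq_starProjection_of_mem_of_inner_eq_zero
  · exact Submodule.mem_map_of_mem hy0M
  · intro w hw
    obtain ⟨y, hy, rfl⟩ := Submodule.mem_map.mp hw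
    rw [← map_sub, inner_Ts_Ts hv, ← hsb, inner_sub_right, hcy]
    have h1 : ⟪x - M.starProjection x, y⟫ = 0 := Submodule.starProjection_inner_eq_zero _ _ hy
    have h2 : ⟪p, y⟫ = ⟪v, y⟫ := by
      have h3 : ⟪v - p, y⟫ = 0 := by
        rw [hp]; exact Submodule.starProjection_inner_eq_zero _ _ hy
      rw [inner_sub_left] at h3
      linarith
    have h4 : x - y0 = (x - M.starProjection x) + (sb * c) • p := by rw [hy0]; abel
    rw [h4, inner_add_left, inner_smul_left, h1, h2]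
    simp

/-- 583's C1 formula. -/
theorem norm_proj_Ts_sq (M : Submodule ℝ E) (s : ℝ) (x : E)
    (hb : 1 - (2 * s - s ^ 2) * ‖M.starProjection v‖ ^ 2 ≠ 0) :
    ‖(M.map (Ts s v)).starProjection (Ts s v x)‖ ^ 2 =
      ‖M.starProjection x‖ ^ 2 - (2 * s - s ^ 2) * ⟪v, x⟫ ^ 2
        + (2 * s - s ^ 2) * (⟪v, x⟫ - ⟪M.starProjection v, x⟫) ^ 2
          / (1 - (2 * s - s ^ 2) * ‖M.starProjection v‖ ^ 2) := by
  rw [proj_Ts hv M s x hb, norm_Ts_sq hv]
  set sb := 2 * s - s ^ 2 with hsb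
  set p := M.starProjection v with hp
  set b := ‖p‖ ^ 2 with hbd
  set c := (⟪v, x⟫ - ⟪p, x⟫) / (1 - sb * b) with hc
  have hpM : p ∈ M := by rw [hp]; exact Submodule.starProjection_apply_mem _ _
  have hvp : ⟪v, p⟫ = b := by
    have h1 : ⟪v - p, p⟫ = 0 := by
      rw [hp]; exact Submodule.starProjection_inner_eq_zero _ _ (by rw [← hp]; exact hpM)
    rw [inner_sub_left, real_inner_self_eq_norm_sq] at h1
    linarith
  have hvPx : ⟪v, M.starProjection x⟫ = ⟪p, x⟫ := by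
    rw [hp, Submodule.inner_starProjection_left_eq_right]
  have hPxp : ⟪M.starProjection x, p⟫ = ⟪p, x⟫ := by
    have h1 : ⟪x - M.starProjection x, p⟫ = 0 :=
      Submodule.starProjection_inner_eq_zero _ _ hpM
    rw [inner_sub_left] at h1
    have h2 := real_inner_comm p x
    linarith
  have hc' : c * (1 - sb * b) = ⟪v, x⟫ - ⟪p, x⟫ := by
    rw [hc]; field_simp
  have hn : ‖M.starProjection x - (sb * c) • p‖ ^ 2
      = ‖M.starProjection x‖ ^ 2 - 2 * (sb * c) * ⟪p, x⟫ + (sb * c) ^ 2 * b := by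
    rw [norm_sub_sq_real, inner_smul_right, hPxp, norm_smul, mul_pow, Real.norm_eq_abs, sq_abs]
    ring
  have hi : ⟪v, M.starProjection x - (sb * c) • p⟫ = ⟪p, x⟫ - sb * c * b := by
    rw [inner_sub_right, inner_smul_right, hvPx, hvp]
  rw [hn, hi]
  have hx : ⟪v, x⟫ = ⟪p, x⟫ + c * (1 - sb * b) := by linarith
  have hq : sb * (⟪v, x⟫ - ⟪p, x⟫) ^ 2 / (1 - sb * b) = sb * c ^ 2 * (1 - sb * b) := by
    rw [← hc']; field_simp
  rw [hq, hx]
  ring

end Crest.Agent.R239.Rot203
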