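import Mathlib
import Crest.Agent.R239.Gau1
import Crest.Agent.R239.Rot_203

/-! # Block F7 : caps under the tilt `T_s`, all cuts in the `V^s` world (helper171)

Flag-free pieces: second moment of a block projection, sequential cuts, the inverse of `T_s`, the
functional `y_j` and its norm. -/

set_option autoImplicit false
set_option linter.unusedSectionVars false
open MeasureTheory ProbabilityTheory Set Filter Topology
open scoped RealInnerProductSpace ENNReal NNReal InnerProduct

namespace Crest.Agent.R239.Caps171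
open Crest.Agent.R239.Rot203

variable {E : Type*} [NormedAddCommGroup E] [InnerProductSpace ℝ E] [FiniteDimensional ℝ E]

/-! ## the inverse of `T_s` -/

/-- `T_s⁻¹ x = x + (s/(1-s)) ⟪v,x⟫ v`. -/
noncomputable def Ti (s : ℝ) (v : E) : E →L[ℝ] E :=
  ContinuousLinearMap.id ℝ E + (s / (1 - s)) • ((innerSL ℝ v : E →L[ℝ] ℝ).smulRight v)

lemma Ti_apply (s : ℝ) (v x : E) : Ti s v x = x + (s / (1 - s) * ⟪v, x⟫) • v := by
  simp [Ti, smul_smul]

lemma Ts_Ti {s : ℝ} (hs : s < 1) {v : E} (hv : ‖v‖ = 1) (x : E) : Ts s v (Ti s v x) = x := by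
  have h1 : ⟪v, v⟫ = (1 : ℝ) := by rw [real_inner_self_eq_norm_sq, hv]; norm_num
  have hs' : (1 - s) ≠ 0 := by linarith
  rw [Ts_apply, Ti_apply, inner_add_right, inner_smul_right, h1, add_sub_assoc, ← sub_smul]
  have : s / (1 - s) * ⟪v, x⟫ - s * (⟪v, x⟫ + s / (1 - s) * ⟪v, x⟫ * 1) = 0 := by
    field_simp; ring
  rw [this, zero_smul, add_zero]

lemma Ti_Ts {s : ℝ} (hs : s < 1) {v : E} (hv : ‖v‖ = 1) (x : E) : Ti s v (Ts s v x) = x := by
  have h1 : ⟪v, v⟫ = (1 : ℝ) := by rw [real_inner_self_eq_norm_sq, hv]; norm_num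
  have hs' : (1 - s) ≠ 0 := by linarith
  rw [Ts_apply, Ti_apply, inner_sub_right, inner_smul_right, h1, sub_add, ← sub_smul]
  have : s * ⟪v, x⟫ - s / (1 - s) * (⟪v, x⟫ - s * ⟪v, x⟫ * 1) = 0 := by
    field_simp; ring
  rw [this, zero_smul, sub_zero]

lemma Ts_injective {s : ℝ} (hs : s < 1) {v : E} (hv : ‖v‖ = 1) :
    Function.Injective (Ts s v) := fun x y h => by
  rw [← Ti_Ts hs hv x, h, Ti_Ts hs hv y]

lemma Ti_mem {s : ℝ} (hs : s < 1) {v : E} (hv : ‖v‖ = 1) {M : Submodule ℝ E} {x : E}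
    (hx : x ∈ M.map (Ts s v)) : Ti s v x ∈ M := by
  obtain ⟨y, hy, rfl⟩ := Submodule.mem_map.1 hx
  rwa [Ti_Ts hs hv]

lemma norm_Ti_le {s : ℝ} (hs0 : 0 ≤ s) (hs : s < 1) {v : E} (hv : ‖v‖ = 1) (x : E) :
    ‖Ti s v x‖ ≤ ‖x‖ / (1 - s) := by
  have hs' : 0 < 1 - s := by linarith
  rw [Ti_apply]
  calc ‖x + (s / (1 - s) * ⟪v, x⟫) • v‖ ≤ ‖x‖ + ‖(s / (1 - s) * ⟪v, x⟫) • v‖ := norm_add_le _ _
    _ ≤ ‖x‖ + s / (1 - s) * ‖x‖ := by
        rw [norm_smul, hv, mul_one, Real.norm_eq_abs, abs_mul, abs_of_nonneg (by positivity)]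
        gcongr
        have := abs_real_inner_le_norm v x
        rwa [hv, one_mul] at this
    _ = ‖x‖ / (1 - s) := by field_simp; ring

/-! ## second moment of block projections -/

section Meas
variable [MeasurableSpace E] [BorelSpace E]

lemma integral_inner_sq (n : E) : ∫ x, ⟪n, x⟫ ^ 2 ∂(stdGaussian E) = ‖n‖ ^ 2 := by
  have h0 : gau (ContinuousLinearMap.id ℝ E) = stdGaussian E := gau_id
  have h1 : ∫ x, ⟪n, x⟫ ^ 2 ∂(stdGaussian E)
      = ∫ s, s ^ 2 ∂((stdGaussian E).map (fun x => ⟪n, x⟫)) := by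
    rw [integral_map (by fun_prop) (by fun_prop)]
  rw [h1, ← h0, gau_map_inner]
  have h2 := variance_fun_id_gaussianReal (μ := 0)
    (v := ‖(ContinuousLinearMap.id ℝ E).adjoint n‖₊ ^ 2)
  rw [variance_of_integral_eq_zero (by fun_prop) (by simp)] at h2
  have h3 : (ContinuousLinearMap.id ℝ E).adjoint n = n := by
    rw [ContinuousLinearMap.adjoint_id]; rfl
  simpa [h3] using h2

lemma integrable_inner_sq (n : E) : Integrable (fun x => ⟪n, x⟫ ^ 2) (stdGaussian E) := by
  have h0 : gau (ContinuousLinearMap.id ℝ E) = stdGaussian E := gau_id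
  have h1 : Integrable (fun s : ℝ => s ^ 2) ((stdGaussian E).map (fun x => ⟪n, x⟫)) := by
    rw [← h0, gau_map_inner]
    exact (memLp_id_gaussianReal 2).integrable_sq
  exact (integrable_map_measure (by fun_prop) (by fun_prop)).1 h1

lemma norm_star_sq_eq_sum (M : Submodule ℝ E) (x : E) :
    ‖M.starProjection x‖ ^ 2
      = ∑ k, ⟪((stdOrthonormalBasis ℝ M k : M) : E), x⟫ ^ 2 := by
  have h1 : ‖M.starProjection x‖ ^ 2 = ‖M.orthogonalProjectionOnto x‖ ^ 2 := by
    rw [Submodule.starProjection_apply]; rfl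
  rw [h1, ← OrthonormalBasis.sum_sq_norm_inner_right (stdOrthonormalBasis ℝ M)]
  refine Finset.sum_congr rfl fun k _ => ?_
  rw [Submodule.inner_orthogonalProjectionOnto_eq_of_mem_left, Real.norm_eq_abs, sq_abs]

lemma integrable_star_sq (M : Submodule ℝ E) :
    Integrable (fun x => ‖M.starProjection x‖ ^ 2) (stdGaussian E) := by
  simp_rw [norm_star_sq_eq_sum]
  exact integrable_finsetSum _ fun k _ => integrable_inner_sq _

lemma integral_star_sq (M : Submodule ℝ E) :
    ∫ x, ‖M.starProjection x‖ ^ 2 ∂(stdGaussian E) = Module.finrank ℝ M := by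
  simp_rw [norm_star_sq_eq_sum]
  rw [integral_finsetSum _ fun k _ => integrable_inner_sq _]
  simp_rw [integral_inner_sq]
  have : ∀ k, ‖((stdOrthonormalBasis ℝ M k : M) : E)‖ = 1 := fun k =>
    (stdOrthonormalBasis ℝ M).norm_eq_one k
  simp [this]

lemma integral_blk_sq {M N : Submodule ℝ E} (h : N ≤ M) :
    ∫ x, ‖M.starProjection x - N.starProjection x‖ ^ 2 ∂(stdGaussian E)
      = (Module.finrank ℝ M : ℝ) - Module.finrank ℝ N := by
  have h1 : ∀ x, ‖M.starProjection x - N.starProjection x‖ ^ 2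
      = ‖M.starProjection x‖ ^ 2 - ‖N.starProjection x‖ ^ 2 := by
    intro x
    have h2 : ⟪M.starProjection x - N.starProjection x, N.starProjection x⟫ = 0 := by
      have h3 : ⟪x - M.starProjection x, N.starProjection x⟫ = 0 :=
        Submodule.starProjection_inner_eq_zero _ _ (h (Submodule.starProjection_apply_mem _ _))
      have h4 : ⟪x - N.starProjection x, N.starProjection x⟫ = 0 :=
        Submodule.starProjection_inner_eq_zero _ _ (Submodule.starProjection_apply_mem _ _)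
      rw [inner_sub_left] at h3 h4 ⊢
      linarith
    have h5 : M.starProjection x
        = (M.starProjection x - N.starProjection x) + N.starProjection x := by abel
    have h6 : ‖M.starProjection x‖ ^ 2
        = ‖M.starProjection x - N.starProjection x‖ ^ 2 + ‖N.starProjection x‖ ^ 2 := by
      conv_lhs => rw [h5]
      rw [norm_add_sq_real, h2]; ring
    linarith
  simp_rw [h1]
  rw [integral_sub (integrable_star_sq M) (integrable_star_sq N), integral_star_sq,
    integral_star_sq]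

/-! ## sequential cuts -/

/-- Sequential cuts by a finite family of sets. -/
theorem seq_cut {ι : Type*} (m : Measure E) (P : Set E → Prop) (Q0 : Set E) (hP : P Q0)
    (C : ι → Set E) (c : ι → ℝ) (J : Finset ι)
    (h : ∀ j ∈ J, ∀ Q : Set E, P Q → Q ⊆ Q0 →
      Real.exp (-c j) * m.real Q ≤ m.real (Q ∩ C j) ∧ P (Q ∩ C j)) :
    Real.exp (-∑ j ∈ J, c j) * m.real Q0 ≤ m.real (Q0 ∩ ⋂ j ∈ J, C j) ∧
      P (Q0 ∩ ⋂ j ∈ J, C j) := by
  classical
  induction J using Finset.induction_on with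
  | empty => simpa using hP
  | insert a J ha ih =>
    obtain ⟨h1, h2⟩ := ih fun j hj => h j (Finset.mem_insert_of_mem hj)
    obtain ⟨h3, h4⟩ := h a (Finset.mem_insert_self _ _) _ h2 inter_subset_left
    have hset : (Q0 ∩ ⋂ j ∈ insert a J, C j) = (Q0 ∩ ⋂ j ∈ J, C j) ∩ C a := by
      rw [Finset.set_biInter_insert]
      ext x; simp only [mem_inter_iff]; tauto
    rw [hset, Finset.sum_insert ha]
    refine ⟨?_, h4⟩
    calc Real.exp (-(c a + ∑ j ∈ J, c j)) * m.real Q0
        = Real.exp (-c a) * (Real.exp (-∑ j ∈ J, c j) * m.real Q0) := by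
          rw [neg_add, Real.exp_add]; ring
      _ ≤ Real.exp (-c a) * m.real (Q0 ∩ ⋂ j ∈ J, C j) := by gcongr
      _ ≤ _ := h3

/-! ## one level -/

/-- block projection of `M` -/
noncomputable def Qb (M : ℕ → Submodule ℝ E) (j : ℕ) (x : E) : E :=
  (M j).starProjection x - (M (j + 1)).starProjection x

lemma two_sqrt_bound {s : ℝ} (hs1 : s < 1) (hsb : 2 * s - s ^ 2 ≤ 1 / 2) : 1 / (1 - s) ≤ 3 / 2 := by
  have h1 : (1:ℝ) / 2 ≤ (1 - s) ^ 2 := by nlinarith
  have h2 : 2 / 3 ≤ 1 - s := by nlinarith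
  rw [div_le_iff₀ (by linarith)]; linarith

lemma star_star_le {M N : Submodule ℝ E} (v x : E) (hx : x ∈ M) :
    ⟪v, x⟫ - ⟪N.starProjection v, x⟫ = ⟪M.starProjection v - N.starProjection v, x⟫ := by
  have h1 : ⟪v - M.starProjection v, x⟫ = 0 := Submodule.starProjection_inner_eq_zero _ _ hx
  rw [inner_sub_left] at h1 ⊢
  linarith

lemma norm_star_sub_le {M N : Submodule ℝ E} (h : N ≤ M) (v : E) :
    ‖M.starProjection v - N.starProjection v‖ ≤ ‖M.starProjection v‖ := by
  have h2 : ⟪M.starProjection v - N.starProjection v, N.starProjection v⟫ = 0 := by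
    have h3 : ⟪v - M.starProjection v, N.starProjection v⟫ = 0 :=
      Submodule.starProjection_inner_eq_zero _ _ (h (Submodule.starProjection_apply_mem _ _))
    have h4 : ⟪v - N.starProjection v, N.starProjection v⟫ = 0 :=
      Submodule.starProjection_inner_eq_zero _ _ (Submodule.starProjection_apply_mem _ _)
    rw [inner_sub_left] at h3 h4 ⊢
    linarith
  have h5 : M.starProjection v
      = (M.starProjection v - N.starProjection v) + N.starProjection v := by abel
  have h6 : ‖M.starProjection v‖ ^ 2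
      = ‖M.starProjection v - N.starProjection v‖ ^ 2 + ‖N.starProjection v‖ ^ 2 := by
    conv_lhs => rw [h5]
    rw [norm_add_sq_real, h2]; ring
  nlinarith [norm_nonneg (M.starProjection v), norm_nonneg (M.starProjection v - N.starProjection v),
    sq_nonneg ‖N.starProjection v‖]

/-- the statement of (a) (helper452), for a given `s`, `v` -/
def LinA (s : ℝ) (v : E) : Prop := ∀ (M N : Submodule ℝ E), N ≤ M → ∀ x,
  ‖M.starProjection x - N.starProjection x‖ ≤
    ‖(M.map (Ts s v)).starProjection (Ts s v x) - (N.map (Ts s v)).starProjection (Ts s v x)‖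
      + ((2 * s - s ^ 2) * ‖M.starProjection v - N.starProjection v‖
          / (1 - (2 * s - s ^ 2) * ‖N.starProjection v‖ ^ 2))
        * |⟪v, x⟫ - ⟪N.starProjection v, x⟫|

/-- the statement of `cap_exp` (helper383 / 147 / 743) with constant `C` -/
def CapExp (E : Type*) [NormedAddCommGroup E] [InnerProductSpace ℝ E] [FiniteDimensional ℝ E]
    [MeasurableSpace E] [BorelSpace E] (C : ℝ) : Prop :=
  ∀ (Q : Set E), IsClosed Q → Convex ℝ Q → (∀ x ∈ Q, -x ∈ Q) →
    ∀ (X : E →L[ℝ] E) (y : E →L[ℝ] ℝ) (R : ℝ), 0 < R → (∀ g ∈ Q, ‖X g‖ ≤ R) →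
    ∫ g, ‖X g‖ ^ 2 ∂(stdGaussian E) ≤ R ^ 2 / 8 →
    Real.exp (-(C * ‖y‖ / R)) * (stdGaussian E).real Q
      ≤ (stdGaussian E).real (Q ∩ {g | ‖X g‖ + |y g| ≤ R})

/-- `Cap i j` without the constant. -/
noncomputable def capW (th : ℝ) (M : ℕ → Submodule ℝ E) (v : E) (i j : ℕ) : ℝ :=
  if j = i then ‖Qb M i v‖ ^ 2
  else (th ^ (j - i))⁻¹ * ‖Qb M j v‖ * ‖(M i).starProjection v‖

theorem caps_level {th ρ C : ℝ} (hC : 0 ≤ C) (hCE : CapExp E C) (hth0 : 0 < th)
    (hρ0 : 0 < ρ) (hρ : 8 ≤ ρ ^ 2)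
    {M : ℕ → Submodule ℝ E} (hM : Antitone M) {k : ℕ → ℕ}
    (hk : ∀ j, (k j : ℝ) = Module.finrank ℝ (M j) - Module.finrank ℝ (M (j + 1)))
    {i n : ℕ} {v : E} (hv : ‖v‖ = 1) {s : ℝ} (hs0 : 0 ≤ s) (hs1 : s < 1)
    (hsb : 2 * s - s ^ 2 ≤ 1 / 2) (hA : LinA s v)
    (H : E →L[ℝ] E) (hH1 : ∀ g, H g ∈ (M i).map (Ts s v)) (hH2 : ∀ g, ‖H g‖ ≤ ‖g‖)
    (hH3 : ∀ j ∈ Finset.Ico i n, ∀ g, ‖Qb (fun j => (M j).map (Ts s v)) j (H g)‖
      = th ^ (j - i) * ‖Qb (fun j => (M j).map (Ts s v)) j g‖)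
    {K' : Set E} (hK1 : IsClosed K') (hK2 : Convex ℝ K') (hK3 : ∀ x ∈ K', -x ∈ K')
    (hK4 : ∀ x ∈ K', ∀ j ∈ Finset.Ico i n,
      ‖Qb (fun j => (M j).map (Ts s v)) j x‖ ≤ ρ * th ^ (j - i) * √(k j)) :
    Real.exp (-∑ j ∈ Finset.Ico i n, 3 * C * (2 * s - s ^ 2) / ρ * capW th M v i j)
        * (stdGaussian E).real (H ⁻¹' K')
      ≤ (stdGaussian E).real (H ⁻¹' (K' ∩ {x | ∀ j ∈ Finset.Ico i n,
          ‖Qb M j (Ti s v x)‖ ≤ ρ * th ^ (j - i) * √(k j)})) := by
  set sb := 2 * s - s ^ 2 with hsbd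
  have hsb0 : 0 ≤ sb := by rw [hsbd]; nlinarith
  set Ms : ℕ → Submodule ℝ E := fun j => (M j).map (Ts s v) with hMs
  set Cs : ℕ → Set E := fun j => {g | ‖Qb M j (Ti s v (H g))‖ ≤ ρ * th ^ (j - i) * √(k j)} with hCs
  have hTsinj := Ts_injective hs1 hv
  -- linear maps
  have hQlin : ∀ (N : ℕ → Submodule ℝ E) (j : ℕ) (x : E),
      Qb N j x = ((N j).starProjection - (N (j + 1)).starProjection) x := fun N j x => rfl
  have hmain := seq_cut (stdGaussian E)
    (fun Q => IsClosed Q ∧ Convex ℝ Q ∧ ∀ x ∈ Q, -x ∈ Q) (H ⁻¹' K')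
    ⟨hK1.preimage H.continuous, hK2.linear_preimage H.toLinearMap,
      fun x hx => by
        simp only [mem_preimage, map_neg] at hx ⊢
        exact hK3 _ hx⟩ Cs (fun j => 3 * C * sb / ρ * capW th M v i j) (Finset.Ico i n) ?_
  · refine hmain.1.trans (le_of_eq ?_)
    congr 1
    ext g
    simp only [hCs, mem_inter_iff, mem_preimage, mem_iInter, mem_ofPred_eq]
  · intro j hj Q hQ hQ0
    obtain ⟨hQc, hQv, hQs⟩ := hQ
    obtain ⟨hij, hjn⟩ := Finset.mem_Ico.1 hj
    set Tj : E →L[ℝ] E := ((M j).starProjection - (M (j + 1)).starProjection) ∘L (Ti s v) ∘L H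
      with hTj
    have hTja : ∀ g, Tj g = Qb M j (Ti s v (H g)) := fun g => rfl
    have hCset : Cs j = Tj ⁻¹' (Metric.closedBall 0 (ρ * th ^ (j - i) * √(k j))) := by
      ext g
      simp only [hCs, mem_ofPred_eq, mem_preimage, Metric.mem_closedBall, dist_zero_right, hTja]
    have hprop : IsClosed (Q ∩ Cs j) ∧ Convex ℝ (Q ∩ Cs j) ∧ ∀ x ∈ Q ∩ Cs j, -x ∈ Q ∩ Cs j := by
      refine ⟨hQc.inter ?_, hQv.inter ?_, ?_⟩
      · rw [hCset]; exact Metric.isClosed_closedBall.preimage Tj.continuous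
      · rw [hCset]; exact (convex_closedBall _ _).linear_preimage Tj.toLinearMap
      · intro x hx
        refine ⟨hQs x hx.1, ?_⟩
        have := hx.2
        rw [hCset] at this ⊢
        simpa using this
    refine ⟨?_, hprop⟩
    by_cases hkj : k j = 0
    · -- nothing to cut
      have hfr : (Module.finrank ℝ (M j) : ℝ) = Module.finrank ℝ (M (j + 1)) := by
        have := hk j; rw [hkj] at this; push_cast at this; linarith
      have hMeq : M (j + 1) = M j :=
        Submodule.eq_of_le_of_finrank_eq (hM (Nat.le_succ j)) (by exact_mod_cast hfr.symm)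
      have hQ0' : ∀ x, Qb M j x = 0 := fun x => by simp [Qb, hMeq]
      have hall : Q ∩ Cs j = Q := by
        refine inter_eq_left.2 fun g _ => ?_
        simp only [hCs, mem_ofPred_eq, hQ0', norm_zero]
        positivity
      have hc0 : 0 ≤ capW th M v i j := by unfold capW; split_ifs <;> positivity
      rw [hall]
      have : Real.exp (-(3 * C * sb / ρ * capW th M v i j)) ≤ 1 :=
        Real.exp_le_one_iff.2 (by have := mul_nonneg (by positivity : 0 ≤ 3 * C * sb / ρ) hc0; linarith)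
      calc _ ≤ 1 * (stdGaussian E).real Q := by gcongr
        _ = _ := one_mul _
    · have hk1 : (1:ℝ) ≤ k j := by exact_mod_cast Nat.one_le_iff_ne_zero.2 hkj
      have hsq1 : 1 ≤ √(k j : ℝ) := by rw [Real.one_le_sqrt]; exact hk1
      have hthp : 0 < th ^ (j - i) := pow_pos hth0 _
      set R : ℝ := ρ * th ^ (j - i) * √(k j) with hR
      have hRpos : 0 < R := by positivity
      have hRge : ρ * th ^ (j - i) ≤ R := by rw [hR]; nlinarith [mul_pos hρ0 hthp]
      set X : E →L[ℝ] E := ((Ms j).starProjection - (Ms (j + 1)).starProjection) ∘L H with hX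
      have hXa : ∀ g, X g = Qb Ms j (H g) := fun g => rfl
      set B1 : ℝ := 1 - sb * ‖(M (j + 1)).starProjection v‖ ^ 2 with hB1
      have hpv : ‖(M (j + 1)).starProjection v‖ ≤ 1 := by
        have := Submodule.norm_starProjection_apply_le (M (j + 1)) v
        rwa [hv] at this
      have hB1h : 1 / 2 ≤ B1 := by
        have : ‖(M (j + 1)).starProjection v‖ ^ 2 ≤ 1 := by
          nlinarith [norm_nonneg ((M (j + 1)).starProjection v)]
        nlinarith
      have hB1p : 0 < B1 := by linarith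
      set al : ℝ := ‖Qb M j v‖ with hal
      have hal0 : 0 ≤ al := norm_nonneg _
      set y : E →L[ℝ] ℝ := (sb * al / B1) •
        ((innerSL ℝ (v - (M (j + 1)).starProjection v)) ∘L (Ti s v) ∘L H) with hy
      have hya : ∀ g, y g = (sb * al / B1) *
          (⟪v, Ti s v (H g)⟫ - ⟪(M (j + 1)).starProjection v, Ti s v (H g)⟫) := by
        intro g
        simp [hy]
      -- norm of y
      set w : ℝ := if j = i then al else ‖(M i).starProjection v‖ with hw
      have hw0 : 0 ≤ w := by rw [hw]; split_ifs <;> positivity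
      have hynorm : ‖y‖ ≤ 3 * sb * al * w := by
        refine ContinuousLinearMap.opNorm_le_bound _ (by positivity) fun g => ?_
        rw [hya, Real.norm_eq_abs, abs_mul, abs_of_nonneg (by positivity)]
        have hmem : Ti s v (H g) ∈ M i := Ti_mem hs1 hv (hH1 g)
        rw [star_star_le v _ hmem]
        have h1 : ‖(M i).starProjection v - (M (j + 1)).starProjection v‖ ≤ w := by
          rw [hw]
          split_ifs with hji
          · rw [hal, hji]; rfl
          · exact norm_star_sub_le (hM (Nat.le_succ_of_le hij)) v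
        have h2 : ‖Ti s v (H g)‖ ≤ 3 / 2 * ‖g‖ := by
          calc ‖Ti s v (H g)‖ ≤ ‖H g‖ / (1 - s) := norm_Ti_le hs0 hs1 hv _
            _ = 1 / (1 - s) * ‖H g‖ := by ring
            _ ≤ 3 / 2 * ‖g‖ := by
                have := two_sqrt_bound hs1 hsb
                gcongr
                exact hH2 g
        have h3 := abs_real_inner_le_norm ((M i).starProjection v - (M (j + 1)).starProjection v)
          (Ti s v (H g))
        have h4 : sb * al / B1 ≤ 2 * (sb * al) := by
          rw [div_le_iff₀ hB1p]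
          nlinarith [mul_nonneg hsb0 hal0]
        calc sb * al / B1 * |⟪(M i).starProjection v - (M (j + 1)).starProjection v,
              Ti s v (H g)⟫|
            ≤ (2 * (sb * al)) * (w * (3 / 2 * ‖g‖)) := by
              apply mul_le_mul h4 _ (abs_nonneg _) (by positivity)
              exact h3.trans (mul_le_mul h1 h2 (norm_nonneg _) hw0)
          _ = 3 * sb * al * w * ‖g‖ := by ring
      have hXR : ∀ g ∈ Q, ‖X g‖ ≤ R := fun g hg => hK4 _ (hQ0 hg) j hj
      have hXint : ∫ g, ‖X g‖ ^ 2 ∂(stdGaussian E) ≤ R ^ 2 / 8 := by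
        have h1 : ∀ g, ‖X g‖ ^ 2 = (th ^ (j - i)) ^ 2 *
            ‖(Ms j).starProjection g - (Ms (j + 1)).starProjection g‖ ^ 2 := by
          intro g
          rw [hXa, hH3 j hj g, mul_pow]
          rfl
        simp_rw [h1]
        rw [integral_const_mul, integral_blk_sq (Submodule.map_mono (hM (Nat.le_succ j)))]
        have h2 : ∀ N : Submodule ℝ E, Module.finrank ℝ (N.map (Ts s v)) = Module.finrank ℝ N :=
          fun N => ((Submodule.equivMapOfInjective (Ts s v) hTsinj N).finrank_eq).symm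
        rw [h2, h2, ← hk j]
        have h3 : R ^ 2 = ρ ^ 2 * (th ^ (j - i)) ^ 2 * k j := by
          rw [hR, mul_pow, mul_pow, Real.sq_sqrt (by positivity)]
        rw [h3]
        have : 0 ≤ (th ^ (j - i)) ^ 2 * (k j : ℝ) := by positivity
        nlinarith
      have hcut := hCE Q hQc hQv hQs X y R hRpos hXR hXint
      have hsub : Q ∩ {g | ‖X g‖ + |y g| ≤ R} ⊆ Q ∩ Cs j := by
        rintro g ⟨hg1, hg2⟩
        refine ⟨hg1, ?_⟩
        simp only [mem_ofPred_eq] at hg2
        simp only [hCs, mem_ofPred_eq]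
        have h1 := hA (M j) (M (j + 1)) (hM (Nat.le_succ j)) (Ti s v (H g))
        rw [Ts_Ti hs1 hv] at h1
        refine h1.trans (le_trans (le_of_eq ?_) hg2)
        rw [hXa, hya, abs_mul, abs_of_nonneg (by positivity : 0 ≤ sb * al / B1)]
        rfl
      have hexp : 3 * C * sb / ρ * capW th M v i j ≥ C * ‖y‖ / R := by
        have h1 : C * ‖y‖ / R ≤ C * (3 * sb * al * w) / (ρ * th ^ (j - i)) := by
          gcongr
        refine h1.trans ?_
        unfold capW
        by_cases hji : j = i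
        · subst hji
          simp only [if_true, Nat.sub_self, pow_zero, mul_one, hw, ← hal]
          apply le_of_eq; ring
        · simp only [hji, if_false, hw, ← hal]
          apply le_of_eq
          field_simp
      calc Real.exp (-(3 * C * sb / ρ * capW th M v i j)) * (stdGaussian E).real Q
          ≤ Real.exp (-(C * ‖y‖ / R)) * (stdGaussian E).real Q := by gcongr
        _ ≤ (stdGaussian E).real (Q ∩ {g | ‖X g‖ + |y g| ≤ R}) := hcut
        _ ≤ _ := measureReal_mono hsub (measure_ne_top _ _)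

end Meas

end Crest.Agent.R239.Caps171
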