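import Crest.Agent.R239.Cmp_142

/-! R239 (helper142): further forms of the comparison (CMP): trace form, operator form and the
rank-one gain. -/

set_option autoImplicit false
set_option linter.unusedSectionVars false
open MeasureTheory ProbabilityTheory Set Filter Topology
open scoped RealInnerProductSpace ENNReal NNReal InnerProduct

namespace Crest.Agent.R239.Cmp142

open Crest.Agent.R239 Crest.Agent.Lib.PrekopaLeindler

variable {E : Type*} [NormedAddCommGroup E] [InnerProductSpace ℝ E] [FiniteDimensional ℝ E]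
  [MeasurableSpace E] [BorelSpace E]
variable {F : Type*} [NormedAddCommGroup F] [InnerProductSpace ℝ F] [FiniteDimensional ℝ F]
  [MeasurableSpace F] [BorelSpace F]
variable {G : Type*} [NormedAddCommGroup G] [InnerProductSpace ℝ G] [FiniteDimensional ℝ G]
  [MeasurableSpace G] [BorelSpace G]

lemma integrable_norm_sq_std : Integrable (fun x : E => ‖x‖ ^ 2) (stdGaussian E) :=
  (IsGaussian.memLp_two_id (μ := stdGaussian E)).integrable_norm_pow (p := 2) (by norm_num)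

lemma integrable_inner_sq_std (w : E) : Integrable (fun x : E => ⟪w, x⟫ ^ 2) (stdGaussian E) := by
  refine (integrable_norm_sq_std.const_mul (‖w‖ ^ 2)).mono' (by fun_prop)
    (Filter.Eventually.of_forall fun x => ?_)
  rw [Real.norm_eq_abs, abs_of_nonneg (sq_nonneg _), ← mul_pow]
  have h := abs_real_inner_le_norm w x
  rw [← sq_abs]
  gcongr

lemma integral_inner_sq_std (w : E) : ∫ x, ⟪w, x⟫ ^ 2 ∂(stdGaussian E) = ‖w‖ ^ 2 := by
  have h := integral_norm_sq_gau (ContinuousLinearMap.id ℝ E) w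
  rw [gau_id, adjoint_id'] at h
  simpa using h

lemma norm_sq_eq_sum (B : E →L[ℝ] G) (g : E) :
    ‖B g‖ ^ 2 = ∑ i, ⟪B.adjoint (stdOrthonormalBasis ℝ G i), g⟫ ^ 2 := by
  rw [← (stdOrthonormalBasis ℝ G).sum_sq_norm_inner_right (B g)]
  refine Finset.sum_congr rfl fun i _ => ?_
  rw [ContinuousLinearMap.adjoint_inner_left, Real.norm_eq_abs, sq_abs]

lemma integral_norm_sq_std (B : E →L[ℝ] G) :
    ∫ g, ‖B g‖ ^ 2 ∂(stdGaussian E) = ∑ i, ‖B.adjoint (stdOrthonormalBasis ℝ G i)‖ ^ 2 := by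
  simp_rw [norm_sq_eq_sum B]
  rw [integral_finsetSum _ fun i _ => integrable_inner_sq_std _]
  exact Finset.sum_congr rfl fun i _ => integral_inner_sq_std _

/-- **(CMP)**, trace form. -/
theorem cmp_map {K : Set F} (mK : MeasurableSet K) (cK : Convex ℝ K) (sK : ∀ x ∈ K, -x ∈ K)
    (R : E →L[ℝ] F) (B : E →L[ℝ] G) (h : ∀ g, ‖R g‖ ^ 2 ≤ ‖g‖ ^ 2 + ‖B g‖ ^ 2) :
    Real.exp (-(∫ g, ‖B g‖ ^ 2 ∂(stdGaussian E)) / 2) * (stdGaussian F).real K
      ≤ (stdGaussian E).real (R ⁻¹' K) := by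
  rw [integral_norm_sq_std B]
  refine cmp_sum_real mK cK sK Finset.univ R _ fun g => ?_
  rw [← norm_sq_eq_sum B g]
  exact h g

/-- **(CMP)**, operator form. -/
theorem cmp_op {K : Set F} (mK : MeasurableSet K) (cK : Convex ℝ K) (sK : ∀ x ∈ K, -x ∈ K)
    (R : E →L[ℝ] F) (T : E →L[ℝ] E) (hs : ∀ x y, ⟪T x, y⟫ = ⟪x, T y⟫) (hp : ∀ x, 0 ≤ ⟪T x, x⟫)
    (h : ∀ g, ‖R g‖ ^ 2 ≤ ‖g‖ ^ 2 + ⟪T g, g⟫) :
    Real.exp (-(∫ g, ⟪T g, g⟫ ∂(stdGaussian E)) / 2) * (stdGaussian F).real K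
      ≤ (stdGaussian E).real (R ⁻¹' K) := by
  obtain ⟨D, hD⟩ := exists_root T hs hp
  have h1 := cmp_map mK cK sK R D.adjoint (fun g => by rw [hD]; exact h g)
  simp_rw [hD] at h1
  exact h1

/-- Jensen's inequality on a set, in the form used below. -/
lemma jensen_set {μ : Measure F} [IsFiniteMeasure μ] {K : Set F} (mK : MeasurableSet K)
    {f : F → ℝ} (hf : IntegrableOn f K μ) (he : IntegrableOn (fun x => Real.exp (f x)) K μ)
    {a : ℝ} (ha : a * μ.real K ≤ ∫ x in K, f x ∂μ) :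
    Real.exp a * μ.real K ≤ ∫ x in K, Real.exp (f x) ∂μ := by
  have h1 : ∫ x in K, (Real.exp a * (1 - a) + Real.exp a * f x) ∂μ
      ≤ ∫ x in K, Real.exp (f x) ∂μ := by
    apply integral_mono
    · exact (integrable_const _).add (hf.const_mul _)
    · exact he
    · intro x
      have h := Real.add_one_le_exp (f x - a)
      have h2 : Real.exp (f x) = Real.exp a * Real.exp (f x - a) := by
        rw [← Real.exp_add]; congr 1; ring
      show Real.exp a * (1 - a) + Real.exp a * f x ≤ Real.exp (f x)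
      rw [h2]
      nlinarith [Real.exp_pos a]
  refine le_trans ?_ h1
  rw [integral_add (integrable_const _) (hf.const_mul _), integral_const, integral_const_mul _ f]
  simp only [smul_eq_mul, Measure.real, Measure.restrict_apply_univ]
  simp only [Measure.real] at ha
  nlinarith [mul_le_mul_of_nonneg_left ha (Real.exp_pos a).le]

/-- The one-direction weight: `√(1+τ) ∫_K exp (-τ ⟪n, x⟫² / 2)` is the measure of the set `K`
stretched along `n`. -/
theorem tilt_set {n : F} (hn : ‖n‖ = 1) {τ : ℝ} (hτ : 0 ≤ τ) {K : Set F} (mK : MeasurableSet K) :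
    ∃ C W : F →L[ℝ] F, (∀ x, C (W x) = x) ∧ (∀ x, ‖W x‖ ^ 2 = ‖x‖ ^ 2 + τ * ⟪n, x⟫ ^ 2) ∧
      (stdGaussian F).real (C ⁻¹' K)
        = √(1 + τ) * ∫ x in K, Real.exp (-(τ * ⟪n, x⟫ ^ 2) / 2) ∂(stdGaussian F) := by
  obtain ⟨C, hC1, -, hC3⟩ := exists_tilt (√τ • n)
  have hw : ∀ x, ⟪√τ • n, x⟫ ^ 2 = τ * ⟪n, x⟫ ^ 2 := by
    intro x
    rw [inner_smul_left]
    simp only [conj_trivial]
    rw [mul_pow, Real.sq_sqrt hτ]
  have hwn : ‖√τ • n‖ ^ 2 = τ := by
    rw [norm_smul, hn, mul_one, Real.norm_eq_abs, sq_abs, Real.sq_sqrt hτ]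
  have hinj : Function.Injective C := by
    rw [injective_iff_map_eq_zero]
    intro x hx
    have := hC1 x
    rw [hx] at this
    simp only [norm_zero, inner_zero_right] at this
    have h0 : ‖x‖ ^ 2 = 0 := by linarith
    exact norm_eq_zero.1 (pow_eq_zero_iff (by norm_num) |>.1 h0)
  let Ce : F ≃ₗ[ℝ] F := LinearEquiv.ofInjectiveEndo (C : F →ₗ[ℝ] F) hinj
  let W : F →L[ℝ] F := LinearMap.toContinuousLinearMap (Ce.symm : F →ₗ[ℝ] F)
  have hCW : ∀ x, C (W x) = x := by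
    intro x
    have := Ce.apply_symm_apply x
    exact this
  refine ⟨C, W, hCW, fun x => ?_, ?_⟩
  · have := hC1 (W x)
    rw [hCW, hw] at this
    exact this.symm
  · have h4 := hC3 (K.indicator 1) (measurable_one.indicator mK)
    have h5 : ∫⁻ x, K.indicator 1 (C x) ∂(stdGaussian F) = stdGaussian F (C ⁻¹' K) := by
      have : (fun x => K.indicator (1 : F → ℝ≥0∞) (C x)) = (C ⁻¹' K).indicator 1 := by
        ext x
        rfl
      rw [this, lintegral_indicator_one (C.continuous.measurable mK)]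
    rw [h5, hwn] at h4
    have h6 : ∫ x in K, Real.exp (-(τ * ⟪n, x⟫ ^ 2) / 2) ∂(stdGaussian F)
        = (∫⁻ x, K.indicator 1 x * ENNReal.ofReal (Real.exp (-⟪√τ • n, x⟫ ^ 2 / 2))
            ∂(stdGaussian F)).toReal := by
      rw [integral_eq_lintegral_of_nonneg_ae (Filter.Eventually.of_forall fun x => (Real.exp_pos _).le)
        (by fun_prop)]
      congr 1
      rw [← lintegral_indicator mK]
      refine lintegral_congr fun x => ?_
      rw [hw]
      by_cases hx : x ∈ K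
      · rw [indicator_of_mem hx, indicator_of_mem hx]
        simp
      · rw [indicator_of_notMem hx, indicator_of_notMem hx]
        simp
    rw [h6, h4, ENNReal.toReal_mul, ENNReal.toReal_ofReal (by positivity), ← mul_assoc]
    have h7 : √(1 + τ) * (√(1 + τ))⁻¹ = 1 := by
      have : √(1 + τ) ≠ 0 := by
        have : 0 < √(1 + τ) := Real.sqrt_pos.2 (by linarith)
        exact this.ne'
      field_simp
    rw [h7, one_mul]
    rfl

/-- **(CMP1)**: comparison with a rank-one gain, exact form. -/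
theorem cmp_rank {ι : Type*} {K : Set F} (mK : MeasurableSet K)
    (cK : Convex ℝ K) (sK : ∀ x ∈ K, -x ∈ K) (s : Finset ι) (R : E →L[ℝ] F) (w : ι → E)
    {n : F} (hn : ‖n‖ = 1) {τ : ℝ} (hτ : 0 ≤ τ)
    (h : ∀ g, ‖R g‖ ^ 2 + τ * ⟪n, R g⟫ ^ 2 ≤ ‖g‖ ^ 2 + ∑ k ∈ s, ⟪w k, g⟫ ^ 2) :
    Real.exp (-(∑ k ∈ s, ‖w k‖ ^ 2) / 2)
        * (√(1 + τ) * ∫ x in K, Real.exp (-(τ * ⟪n, x⟫ ^ 2) / 2) ∂(stdGaussian F))
      ≤ (stdGaussian E).real (R ⁻¹' K) := by
  obtain ⟨C, W, hCW, hW, hm⟩ := tilt_set hn hτ mK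
  have h1 := cmp_sum_real (K := C ⁻¹' K) (C.continuous.measurable mK)
    (cK.linear_preimage (C : F →ₗ[ℝ] F)) (fun x hx => by
      show C (-x) ∈ K
      rw [map_neg]
      exact sK _ hx) s (W ∘L R) w (fun g => by
      rw [ContinuousLinearMap.comp_apply, hW]
      exact h g)
  rw [hm] at h1
  refine h1.trans (le_of_eq ?_)
  congr 1
  ext g
  show C (W (R g)) ∈ K ↔ R g ∈ K
  rw [hCW]

lemma log_sqrt_ge {τ : ℝ} (hτ : 0 ≤ τ) : τ / 2 - τ ^ 2 / 4 ≤ Real.log (√(1 + τ)) := by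
  rw [Real.log_sqrt (by linarith)]
  have h := Real.le_log_one_add_of_nonneg hτ
  have h2 : τ - τ ^ 2 / 2 ≤ 2 * τ / (τ + 2) := by
    rw [le_div_iff₀ (by linarith)]
    nlinarith [mul_nonneg hτ (sq_nonneg τ)]
  linarith

/-- **(CMP1)**: rank-one gain `τ c / 2 - τ² / 4`, when `∫_K ⟪n, x⟫² ≤ (1 - c) γ(K)`. -/
theorem cmp_gain {ι : Type*} {K : Set F} (mK : MeasurableSet K)
    (cK : Convex ℝ K) (sK : ∀ x ∈ K, -x ∈ K) (s : Finset ι) (R : E →L[ℝ] F) (w : ι → E)
    {n : F} (hn : ‖n‖ = 1) {τ c : ℝ} (hτ : 0 ≤ τ)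
    (h : ∀ g, ‖R g‖ ^ 2 + τ * ⟪n, R g⟫ ^ 2 ≤ ‖g‖ ^ 2 + ∑ k ∈ s, ⟪w k, g⟫ ^ 2)
    (hthin : ∫ x in K, ⟪n, x⟫ ^ 2 ∂(stdGaussian F) ≤ (1 - c) * (stdGaussian F).real K) :
    Real.exp (-(∑ k ∈ s, ‖w k‖ ^ 2) / 2 + (τ * c / 2 - τ ^ 2 / 4)) * (stdGaussian F).real K
      ≤ (stdGaussian E).real (R ⁻¹' K) := by
  refine le_trans ?_ (cmp_rank mK cK sK s R w hn hτ h)
  rw [Real.exp_add, mul_assoc]
  have hi : Integrable (fun x : F => ⟪n, x⟫ ^ 2) (stdGaussian F) := integrable_inner_sq_std n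
  have h1 : Real.exp (-(τ * (1 - c)) / 2) * (stdGaussian F).real K
      ≤ ∫ x in K, Real.exp (-(τ * ⟪n, x⟫ ^ 2) / 2) ∂(stdGaussian F) := by
    apply jensen_set mK
    · have : (fun x : F => -(τ * ⟪n, x⟫ ^ 2) / 2) = fun x => (-τ / 2) * ⟪n, x⟫ ^ 2 := by
        ext x; ring
      rw [this]
      exact (hi.const_mul _).integrableOn
    · refine Integrable.integrableOn ?_
      refine (integrable_const (1 : ℝ)).mono' (by fun_prop) (Filter.Eventually.of_forall fun x => ?_)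
      rw [Real.norm_eq_abs, abs_of_pos (Real.exp_pos _), Real.exp_le_one_iff]
      have := mul_nonneg hτ (sq_nonneg ⟪n, x⟫)
      linarith
    · have : (fun x : F => -(τ * ⟪n, x⟫ ^ 2) / 2) = fun x => (-τ / 2) * ⟪n, x⟫ ^ 2 := by
        ext x; ring
      rw [this, integral_const_mul]
      nlinarith [mul_le_mul_of_nonneg_left hthin hτ]
  have h2 : Real.exp (τ * c / 2 - τ ^ 2 / 4) ≤ √(1 + τ) * Real.exp (-(τ * (1 - c)) / 2) := by
    have h3 : √(1 + τ) = Real.exp (Real.log (√(1 + τ))) :=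
      (Real.exp_log (Real.sqrt_pos.2 (by linarith))).symm
    rw [h3, ← Real.exp_add]
    apply Real.exp_le_exp.2
    have := log_sqrt_ge hτ
    linarith
  have h5 : Real.exp (τ * c / 2 - τ ^ 2 / 4) * (stdGaussian F).real K
      ≤ √(1 + τ) * ∫ x in K, Real.exp (-(τ * ⟪n, x⟫ ^ 2) / 2) ∂(stdGaussian F) := by
    calc Real.exp (τ * c / 2 - τ ^ 2 / 4) * (stdGaussian F).real K
        ≤ √(1 + τ) * Real.exp (-(τ * (1 - c)) / 2) * (stdGaussian F).real K := by gcongr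
      _ = √(1 + τ) * (Real.exp (-(τ * (1 - c)) / 2) * (stdGaussian F).real K) := by ring
      _ ≤ _ := by gcongr
  gcongr

end Crest.Agent.R239.Cmp142
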