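import Mathlib
import Crest.Agent.R239.Gau6
import Crest.Agent.R239.LineGauss

/-! R239 (583's proof, version T1-B), helper174: comparison lemma (CMP) and its rank-one gain
version (CMP1), for `stdGaussian`. -/

set_option autoImplicit false
set_option linter.unusedSectionVars false
open MeasureTheory ProbabilityTheory Set Filter Topology
open scoped RealInnerProductSpace ENNReal NNReal InnerProduct

namespace Crest.Agent.R239.CmpR174

open Crest.Agent.R239

variable {E : Type*} [NormedAddCommGroup E] [InnerProductSpace ℝ E] [FiniteDimensional ℝ E]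
  [MeasurableSpace E] [BorelSpace E]
variable {F : Type*} [NormedAddCommGroup F] [InnerProductSpace ℝ F] [FiniteDimensional ℝ F]
  [MeasurableSpace F] [BorelSpace F]
variable {G : Type*} [NormedAddCommGroup G] [InnerProductSpace ℝ G] [FiniteDimensional ℝ G]
  [MeasurableSpace G] [BorelSpace G]

lemma gau_neg (A : F →L[ℝ] E) : gau (-A) = gau A := by
  apply gau_ext
  intro t
  rw [map_neg, ContinuousLinearMap.neg_apply, norm_neg]

/-- shifting a symmetric convex set away from the centre loses mass -/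
theorem gau_shift_le (A : F →L[ℝ] E) {K : Set E} (hK : MeasurableSet K) (cK : Convex ℝ K)
    (sK : ∀ x ∈ K, -x ∈ K) (y : E) : gau A {z | y + z ∈ K} ≤ gau A K := by
  have hm : ∀ w : E, MeasurableSet {z : E | w + z ∈ K} := fun w =>
    (by fun_prop : Measurable fun z : E => w + z) hK
  have hS : ∀ w : E, MeasurableSet {x : F | w + A x ∈ K} := fun w =>
    (by fun_prop : Measurable fun x : F => w + A x) hK
  have e1 : ∀ w : E, gau A {z | w + z ∈ K} = stdGaussian F {x | w + A x ∈ K} := by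
    intro w
    rw [gau_apply A (hm w)]
    rfl
  have e2 : gau A {z | -y + z ∈ K} = gau A {z | y + z ∈ K} := by
    conv_lhs => rw [← gau_neg A]
    rw [gau_apply _ (hm (-y)), e1 y]
    congr 1
    ext x
    simp only [mem_preimage, mem_setOf_eq, ContinuousLinearMap.neg_apply]
    constructor
    · intro h
      have := sK _ h
      simpa [neg_add_rev, add_comm] using this
    · intro h
      have := sK _ h
      simpa [neg_add_rev, add_comm] using this
  have hpl := PL_std (E := F) (1/2) (by norm_num) (by norm_num)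
    (indicator {x : F | y + A x ∈ K} 1) (indicator {x : F | -y + A x ∈ K} 1)
    (indicator {x : F | (0 : E) + A x ∈ K} 1)
    (measurable_one.indicator (hS y)) (measurable_one.indicator (hS (-y)))
    (measurable_one.indicator (hS 0)) (by
      intro x x'
      by_cases h1 : x ∈ {x : F | y + A x ∈ K}
      · by_cases h2 : x' ∈ {x : F | -y + A x ∈ K}
        · have h3 : ((1 - (1/2:ℝ)) • x + (1/2:ℝ) • x') ∈ {x : F | (0 : E) + A x ∈ K} := by
            have := cK h1 h2 (by norm_num : (0:ℝ) ≤ 1/2) (by norm_num : (0:ℝ) ≤ 1/2)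
              (by norm_num)
            simp only [mem_setOf_eq, zero_add, map_add, map_smul]
            convert this using 1
            rw [smul_add, smul_add, smul_neg]
            norm_num
            abel
          rw [indicator_of_mem h1, indicator_of_mem h2, indicator_of_mem h3]
          simp
        · rw [indicator_of_notMem h2]
          rw [ENNReal.zero_rpow_of_pos (by norm_num)]
          simp
      · rw [indicator_of_notMem h1]
        rw [ENNReal.zero_rpow_of_pos (by norm_num)]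
        simp)
  rw [lintegral_indicator_one (hS y), lintegral_indicator_one (hS (-y)),
    lintegral_indicator_one (hS 0), ← e1, ← e1, ← e1, e2] at hpl
  have e0 : {z : E | (0 : E) + z ∈ K} = K := by ext z; simp
  rw [e0] at hpl
  refine le_trans (le_of_eq ?_) hpl
  rw [← ENNReal.rpow_add_of_nonneg _ _ (by norm_num) (by norm_num)]
  norm_num

/-- Anderson: a smaller covariance gives more mass to symmetric convex sets. -/
theorem gau_mono_sym {S : F →L[ℝ] E} {C : G →L[ℝ] E} (h : ∀ t, ‖S.adjoint t‖ ≤ ‖C.adjoint t‖)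
    {K : Set E} (hK : MeasurableSet K) (cK : Convex ℝ K) (sK : ∀ x ∈ K, -x ∈ K) :
    gau C K ≤ gau S K := by
  obtain ⟨D, hD⟩ := exists_complement S C h
  rw [gau_mix' (A := D) (B := S) (C := C) (fun t => by rw [← hD t]; ring) hK]
  calc ∫⁻ x, gau S {z | x + z ∈ K} ∂(gau D) ≤ ∫⁻ _, gau S K ∂(gau D) :=
        lintegral_mono fun x => gau_shift_le S hK cK sK x
    _ = gau S K := by simp

/-- scaling by `c` along the unit vector `n` -/
noncomputable def Sc (n : E) (c : ℝ) : E →L[ℝ] E :=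
  ContinuousLinearMap.id ℝ E + (c - 1) • ((ContinuousLinearMap.toSpanSingleton ℝ n) ∘L (innerSL ℝ n))

lemma Sc_apply (n : E) (c : ℝ) (x : E) : Sc n c x = x + ((c - 1) * ⟪n, x⟫) • n := by
  simp [Sc, ContinuousLinearMap.toSpanSingleton_apply, smul_smul, innerSL_apply_apply]

lemma inner_Sc_comm (n : E) (c : ℝ) (x y : E) : ⟪Sc n c x, y⟫ = ⟪x, Sc n c y⟫ := by
  rw [Sc_apply, Sc_apply, inner_add_left, inner_add_right, inner_smul_left, inner_smul_right]
  simp only [conj_trivial]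
  have : ⟪x, n⟫ = ⟪n, x⟫ := real_inner_comm _ _
  rw [this]
  ring

lemma norm_Sc_sq {n : E} (hn : ‖n‖ = 1) (c : ℝ) (x : E) :
    ‖Sc n c x‖ ^ 2 = ‖x‖ ^ 2 + (c ^ 2 - 1) * ⟪n, x⟫ ^ 2 := by
  rw [Sc_apply, norm_add_sq_real, norm_smul, inner_smul_right, hn, real_inner_comm n x,
    Real.norm_eq_abs, mul_one, sq_abs]
  ring

lemma inner_n_Sc {n : E} (hn : ‖n‖ = 1) (c : ℝ) (x : E) : ⟪n, Sc n c x⟫ = c * ⟪n, x⟫ := by
  rw [Sc_apply, inner_add_right, inner_smul_right, real_inner_self_eq_norm_sq, hn]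
  ring

lemma Sc_line {n : E} (hn : ‖n‖ = 1) (c s : ℝ) (y : E) :
    Sc n c (s • n + proj n y) = (c * s) • n + proj n y := by
  rw [Sc_apply, inner_add_right, inner_smul_right, real_inner_self_eq_norm_sq, hn,
    inner_proj hn]
  module

/-- one dimensional scaling identity -/
lemma scale_1d {c τ : ℝ} (hc : 0 < c) (hτ : c ^ 2 * (1 + τ) = 1) {f : ℝ → ℝ≥0∞}
    (hf : Measurable f) :
    ∫⁻ s, f (c * s) ∂(gaussianReal 0 1)
      = ENNReal.ofReal c⁻¹ * ∫⁻ t, f t * ENNReal.ofReal (Real.exp (-(τ * t ^ 2 / 2)))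
          ∂(gaussianReal 0 1) := by
  have h1 : ∫⁻ s, f (c * s) ∂(gaussianReal 0 1)
      = ∫⁻ t, f t ∂(gaussianReal 0 (NNReal.mk (c ^ 2) (sq_nonneg c) * 1)) := by
    have := gaussianReal_map_const_mul (μ := 0) (v := 1) c
    rw [mul_zero] at this
    rw [← this, lintegral_map hf (by fun_prop)]
  have hv : (NNReal.mk (c ^ 2) (sq_nonneg c) * 1 : ℝ≥0) ≠ 0 := by
    rw [mul_one]
    intro h
    have := congrArg NNReal.toReal h
    simp at this
    exact hc.ne' this
  rw [h1, gaussianReal_of_var_ne_zero 0 hv, gaussianReal_of_var_ne_zero 0 one_ne_zero,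
    lintegral_withDensity_eq_lintegral_mul _ (measurable_gaussianPDF _ _) hf,
    lintegral_withDensity_eq_lintegral_mul _ (measurable_gaussianPDF _ _) (by fun_prop),
    ← lintegral_const_mul _ (by fun_prop)]
  refine lintegral_congr fun t => ?_
  simp only [Pi.mul_apply, gaussianPDF]
  have key : gaussianPDFReal 0 (NNReal.mk (c ^ 2) (sq_nonneg c) * 1) t
      = c⁻¹ * (gaussianPDFReal 0 1 t * Real.exp (-(τ * t ^ 2 / 2))) := by
    simp only [gaussianPDFReal, NNReal.coe_one, mul_one, sub_zero, NNReal.coe_mk]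
    have e1 : Real.sqrt (2 * Real.pi * c ^ 2) = Real.sqrt (2 * Real.pi) * c := by
      rw [Real.sqrt_mul (by positivity), Real.sqrt_sq hc.le]
    rw [e1, mul_inv]
    have e2 : Real.exp (-t ^ 2 / (2 * c ^ 2))
        = Real.exp (-t ^ 2 / 2) * Real.exp (-(τ * t ^ 2 / 2)) := by
      rw [← Real.exp_add]
      congr 1
      have hc2 : c ^ 2 ≠ 0 := by positivity
      have : 1 / c ^ 2 = 1 + τ := by
        field_simp
        linarith
      have e3 : -t ^ 2 / (2 * c ^ 2) = -t ^ 2 / 2 * (1 / c ^ 2) := by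
        field_simp
      rw [e3, this]
      ring
    rw [e2]
    ring
  rw [key, ENNReal.ofReal_mul (by positivity), ENNReal.ofReal_mul (gaussianPDFReal_nonneg _ _ _)]
  ring

/-- scaling identity along a unit vector -/
theorem scale_lintegral {n : E} (hn : ‖n‖ = 1) {c τ : ℝ} (hc : 0 < c) (hτ : c ^ 2 * (1 + τ) = 1)
    {f : E → ℝ≥0∞} (hf : Measurable f) :
    ∫⁻ x, f (Sc n c x) ∂(stdGaussian E)
      = ENNReal.ofReal c⁻¹ * ∫⁻ x, f x * ENNReal.ofReal (Real.exp (-(τ * ⟪n, x⟫ ^ 2 / 2)))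
          ∂(stdGaussian E) := by
  have hm1 : Measurable fun x : E => f (Sc n c x) := hf.comp (Sc n c).continuous.measurable
  have hm2 : Measurable fun x : E =>
      f x * ENNReal.ofReal (Real.exp (-(τ * ⟪n, x⟫ ^ 2 / 2))) := by fun_prop
  rw [line_lintegral hn hm1, line_lintegral hn hm2, ← lintegral_const_mul _ ?_]
  · refine lintegral_congr fun y => ?_
    have h := scale_1d hc hτ (f := fun t => f (t • n + proj n y)) (by fun_prop)
    simp only [Sc_line hn]
    rw [h]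
    congr 1
    refine lintegral_congr fun t => ?_
    rw [inner_add_right, inner_smul_right, real_inner_self_eq_norm_sq, hn, inner_proj hn]
    ring_nf
  · exact Measurable.lintegral_prod_left'
      (f := fun p : ℝ × E => f (p.1 • n + proj n p.2) *
        ENNReal.ofReal (Real.exp (-(τ * ⟪n, p.1 • n + proj n p.2⟫ ^ 2 / 2))))
      (hm2.comp (measurable_line n))

theorem scale_measure {n : E} (hn : ‖n‖ = 1) {c τ : ℝ} (hc : 0 < c) (hτ : c ^ 2 * (1 + τ) = 1)
    {A : Set E} (hA : MeasurableSet A) :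
    stdGaussian E (Sc n c ⁻¹' A)
      = ENNReal.ofReal c⁻¹ * ∫⁻ x in A, ENNReal.ofReal (Real.exp (-(τ * ⟪n, x⟫ ^ 2 / 2)))
          ∂(stdGaussian E) := by
  have h := scale_lintegral hn hc hτ (f := A.indicator 1) (measurable_one.indicator hA)
  have e1 : (fun x => A.indicator (1 : E → ℝ≥0∞) (Sc n c x)) = (Sc n c ⁻¹' A).indicator 1 := by
    ext x
    by_cases hx : Sc n c x ∈ A
    · rw [indicator_of_mem hx, indicator_of_mem (show x ∈ Sc n c ⁻¹' A from hx)]; rfl
    · rw [indicator_of_notMem hx, indicator_of_notMem (show x ∉ Sc n c ⁻¹' A from hx)]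
  rw [e1, lintegral_indicator_one ((Sc n c).continuous.measurable hA)] at h
  rw [h, ← lintegral_indicator hA]
  congr 1
  refine lintegral_congr fun x => ?_
  by_cases hx : x ∈ A
  · simp [indicator_of_mem hx]
  · simp [indicator_of_notMem hx]

theorem scale_le {n : E} (hn : ‖n‖ = 1) {c τ : ℝ} (hc : 0 < c) (hτ0 : 0 ≤ τ)
    (hτ : c ^ 2 * (1 + τ) = 1) {A : Set E} (hA : MeasurableSet A) :
    stdGaussian E (Sc n c ⁻¹' A) ≤ ENNReal.ofReal c⁻¹ * stdGaussian E A := by
  rw [scale_measure hn hc hτ hA]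
  gcongr
  calc ∫⁻ x in A, ENNReal.ofReal (Real.exp (-(τ * ⟪n, x⟫ ^ 2 / 2))) ∂(stdGaussian E)
      ≤ ∫⁻ _ in A, 1 ∂(stdGaussian E) := by
        refine lintegral_mono fun x => ?_
        rw [← ENNReal.ofReal_one]
        apply ENNReal.ofReal_le_ofReal
        rw [Real.exp_le_one_iff]
        have : 0 ≤ τ * ⟪n, x⟫ ^ 2 / 2 := by positivity
        linarith
    _ = stdGaussian E A := by simp

/-- `|R g| ≤ |g|` : contraction case of the comparison lemma -/
theorem cmp_contr (R : E →L[ℝ] G) (hR : ∀ g, ‖R g‖ ^ 2 ≤ ‖g‖ ^ 2) {K : Set G}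
    (hK : MeasurableSet K) (cK : Convex ℝ K) (sK : ∀ x ∈ K, -x ∈ K) :
    stdGaussian G K ≤ stdGaussian E (R ⁻¹' K) := by
  have h1 : ‖R‖ ≤ 1 := ContinuousLinearMap.opNorm_le_bound _ zero_le_one fun g => by
    have := abs_le_of_sq_le_sq (hR g) (norm_nonneg g)
    rw [one_mul]
    exact (le_abs_self _).trans (by simpa using this)
  have h2 := gau_mono_sym (S := R) (C := ContinuousLinearMap.id ℝ G) (by
    intro t
    rw [adjoint_id', ContinuousLinearMap.id_apply]
    calc ‖R.adjoint t‖ ≤ ‖R.adjoint‖ * ‖t‖ := ContinuousLinearMap.le_opNorm _ _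
      _ ≤ 1 * ‖t‖ := by
          gcongr
          simpa using h1
      _ = ‖t‖ := one_mul _) hK cK sK
  rwa [gau_id, gau_apply R hK] at h2

/-- **(CMP)** pull-back comparison, quadratic excess a finite sum of squares. -/
theorem cmp_enn {ι : Type*} [DecidableEq ι] (s : Finset ι) : ∀ (u : ι → E) (R : E →L[ℝ] G)
    (_ : ∀ g, ‖R g‖ ^ 2 ≤ ‖g‖ ^ 2 + ∑ k ∈ s, ⟪u k, g⟫ ^ 2) {K : Set G}
    (_ : MeasurableSet K) (_ : Convex ℝ K) (_ : ∀ x ∈ K, -x ∈ K),
    stdGaussian G K
      ≤ ENNReal.ofReal (Real.exp ((∑ k ∈ s, ‖u k‖ ^ 2) / 2)) * stdGaussian E (R ⁻¹' K) := by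
  induction s using Finset.induction_on with
  | empty =>
    intro u R hR K hK cK sK
    simp only [Finset.sum_empty, add_zero] at hR
    simpa using cmp_contr R hR hK cK sK
  | insert a s ha ih =>
    intro u R hR K hK cK sK
    simp only [Finset.sum_insert ha] at hR ⊢
    by_cases hu : u a = 0
    · have := ih u R (fun g => by simpa [hu] using hR g) hK cK sK
      simpa [hu] using this
    set τ : ℝ := ‖u a‖ ^ 2 with hτdef
    have hτ0 : 0 ≤ τ := by positivity
    set c : ℝ := (Real.sqrt (1 + τ))⁻¹ with hcdef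
    have hsq : 0 < Real.sqrt (1 + τ) := Real.sqrt_pos.2 (by linarith)
    have hc : 0 < c := inv_pos.2 hsq
    have hc2 : c ^ 2 * (1 + τ) = 1 := by
      rw [hcdef, inv_pow, Real.sq_sqrt (by linarith)]
      exact inv_mul_cancel₀ (by linarith)
    have hna : ‖u a‖ ≠ 0 := by simpa using hu
    set n : E := (‖u a‖)⁻¹ • u a with hndef
    have hn : ‖n‖ = 1 := by
      rw [hndef, norm_smul, norm_inv, norm_norm]
      exact inv_mul_cancel₀ hna
    have hun : u a = ‖u a‖ • n := by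
      rw [hndef, smul_smul, mul_inv_cancel₀ hna, one_smul]
    have hinner : ∀ g, ⟪u a, g⟫ ^ 2 = τ * ⟪n, g⟫ ^ 2 := by
      intro g
      conv_lhs => rw [hun, inner_smul_left]
      simp only [conj_trivial]
      rw [mul_pow]
    have hS : ∀ g, ‖Sc n c g‖ ^ 2 + ⟪u a, Sc n c g⟫ ^ 2 = ‖g‖ ^ 2 := by
      intro g
      rw [hinner, norm_Sc_sq hn, inner_n_Sc hn, mul_pow]
      linear_combination ⟪n, g⟫ ^ 2 * hc2
    have h1 := ih (fun k => Sc n c (u k)) (R ∘L Sc n c) (by
      intro g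
      have h2 := hR (Sc n c g)
      have h3 : ∀ k, ⟪Sc n c (u k), g⟫ = ⟪u k, Sc n c g⟫ := fun k => inner_Sc_comm n c _ _
      simp only [ContinuousLinearMap.comp_apply, h3]
      linarith [hS g]) hK cK sK
    have hnorm : ∑ k ∈ s, ‖Sc n c (u k)‖ ^ 2 ≤ ∑ k ∈ s, ‖u k‖ ^ 2 := by
      refine Finset.sum_le_sum fun k _ => ?_
      linarith [hS (u k), sq_nonneg ⟪u a, Sc n c (u k)⟫]
    have h4 := scale_le hn hc hτ0 hc2 (A := R ⁻¹' K) (R.continuous.measurable hK)
    have h5 : c⁻¹ ≤ Real.exp (τ / 2) := by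
      rw [hcdef, inv_inv, Real.sqrt_le_left (Real.exp_pos _).le, ← Real.exp_nat_mul]
      have := Real.add_one_le_exp τ
      push_cast
      calc 1 + τ ≤ Real.exp τ := by linarith
        _ = Real.exp (2 * (τ / 2)) := by congr 1; ring
    calc stdGaussian G K
        ≤ ENNReal.ofReal (Real.exp ((∑ k ∈ s, ‖Sc n c (u k)‖ ^ 2) / 2))
            * stdGaussian E ((R ∘L Sc n c) ⁻¹' K) := h1
      _ ≤ ENNReal.ofReal (Real.exp ((∑ k ∈ s, ‖u k‖ ^ 2) / 2))
            * (ENNReal.ofReal (Real.exp (τ / 2)) * stdGaussian E (R ⁻¹' K)) := by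
          gcongr
          refine le_trans (le_of_eq ?_) (h4.trans ?_)
          · rfl
          · gcongr
      _ = ENNReal.ofReal (Real.exp ((τ + ∑ k ∈ s, ‖u k‖ ^ 2) / 2))
            * stdGaussian E (R ⁻¹' K) := by
          rw [← mul_assoc, ← ENNReal.ofReal_mul (Real.exp_pos _).le, ← Real.exp_add]
          congr 3
          ring

theorem cmp {ι : Type*} (s : Finset ι) (u : ι → E) (R : E →L[ℝ] G)
    (hR : ∀ g, ‖R g‖ ^ 2 ≤ ‖g‖ ^ 2 + ∑ k ∈ s, ⟪u k, g⟫ ^ 2) {K : Set G}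
    (hK : MeasurableSet K) (cK : Convex ℝ K) (sK : ∀ x ∈ K, -x ∈ K) :
    Real.exp (-((∑ k ∈ s, ‖u k‖ ^ 2) / 2)) * (stdGaussian G).real K
      ≤ (stdGaussian E).real (R ⁻¹' K) := by
  classical
  have h := cmp_enn s u R hR hK cK sK
  have h2 := ENNReal.toReal_mono (by finiteness) h
  rw [ENNReal.toReal_mul, ENNReal.toReal_ofReal (Real.exp_pos _).le] at h2
  change (stdGaussian G).real K ≤ _ * (stdGaussian E).real (R ⁻¹' K) at h2
  rw [Real.exp_neg, inv_mul_le_iff₀ (Real.exp_pos _)]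
  exact h2

/-- Gaussian mass of the stretched body `S⁻¹ K`, lower bound through Jensen -/
theorem stretch_ge {n : E} (hn : ‖n‖ = 1) {c τ : ℝ} (hc : 0 < c) (hτ0 : 0 ≤ τ)
    (hτ : c ^ 2 * (1 + τ) = 1) {K : Set E} (hK : MeasurableSet K) {b : ℝ}
    (hb : ∫ x in K, ⟪n, x⟫ ^ 2 ∂(stdGaussian E) ≤ b * (stdGaussian E).real K) :
    Real.exp (τ / 2 - τ ^ 2 / 4 - τ * b / 2) * (stdGaussian E).real K
      ≤ (stdGaussian E).real (Sc n c ⁻¹' K) := by
  rcases (measureReal_nonneg (μ := stdGaussian E) (s := K)).eq_or_lt with h0 | hpos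
  · rw [← h0, mul_zero]; exact measureReal_nonneg
  have hint : Integrable (fun x : E => ⟪n, x⟫ ^ 2) (stdGaussian E) := by
    have h2 : MemLp (fun x : E => ⟪n, x⟫) 2 (stdGaussian E) :=
      (IsGaussian.memLp_dual (stdGaussian E) (innerSL ℝ n) 2 (by norm_num))
    exact h2.integrable_sq
  have hmeas : Measurable fun x : E => Real.exp (-(τ * ⟪n, x⟫ ^ 2 / 2)) := by fun_prop
  have hle1 : ∀ x : E, Real.exp (-(τ * ⟪n, x⟫ ^ 2 / 2)) ≤ 1 := fun x => by
    rw [Real.exp_le_one_iff]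
    have : 0 ≤ τ * ⟪n, x⟫ ^ 2 / 2 := by positivity
    linarith
  have hintE : Integrable (fun x : E => Real.exp (-(τ * ⟪n, x⟫ ^ 2 / 2))) (stdGaussian E) :=
    Integrable.of_bound hmeas.aestronglyMeasurable 1 (Eventually.of_forall fun x => by
      rw [Real.norm_eq_abs, abs_of_pos (Real.exp_pos _)]; exact hle1 x)
  have key : (stdGaussian E).real (Sc n c ⁻¹' K)
      = c⁻¹ * ∫ x in K, Real.exp (-(τ * ⟪n, x⟫ ^ 2 / 2)) ∂(stdGaussian E) := by
    rw [Measure.real, scale_measure hn hc hτ hK, ENNReal.toReal_mul,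
      ENNReal.toReal_ofReal (inv_pos.2 hc).le,
      integral_eq_lintegral_of_nonneg_ae (Eventually.of_forall fun x => (Real.exp_pos _).le)
        hmeas.aestronglyMeasurable]
  -- Jensen through the tangent line of `exp`
  set γK := (stdGaussian E).real K with hγK
  have hjen : Real.exp (-(τ * b / 2)) * γK
      ≤ ∫ x in K, Real.exp (-(τ * ⟪n, x⟫ ^ 2 / 2)) ∂(stdGaussian E) := by
    have hpt : ∀ x : E, Real.exp (-(τ * b / 2)) * (1 + (τ * b / 2 - τ * ⟪n, x⟫ ^ 2 / 2))
        ≤ Real.exp (-(τ * ⟪n, x⟫ ^ 2 / 2)) := by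
      intro x
      have h1 := Real.add_one_le_exp (τ * b / 2 - τ * ⟪n, x⟫ ^ 2 / 2)
      calc _ ≤ Real.exp (-(τ * b / 2)) * Real.exp (τ * b / 2 - τ * ⟪n, x⟫ ^ 2 / 2) := by
            apply mul_le_mul_of_nonneg_left _ (Real.exp_pos _).le
            linarith
        _ = _ := by rw [← Real.exp_add]; congr 1; ring
    have hi : ∫ x in K, Real.exp (-(τ * b / 2)) * (1 + (τ * b / 2 - τ * ⟪n, x⟫ ^ 2 / 2))
        ∂(stdGaussian E) ≤ ∫ x in K, Real.exp (-(τ * ⟪n, x⟫ ^ 2 / 2)) ∂(stdGaussian E) := by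
      refine setIntegral_mono ?_ hintE.integrableOn hpt
      apply Integrable.integrableOn
      apply Integrable.const_mul
      exact (integrable_const _).add ((integrable_const _).sub ((hint.const_mul τ).div_const 2))
    refine le_trans ?_ hi
    have e1 : ∫ x in K, Real.exp (-(τ * b / 2)) * (1 + (τ * b / 2 - τ * ⟪n, x⟫ ^ 2 / 2))
        ∂(stdGaussian E)
        = Real.exp (-(τ * b / 2)) * ((1 + τ * b / 2) * γK
            - τ / 2 * ∫ x in K, ⟪n, x⟫ ^ 2 ∂(stdGaussian E)) := by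
      rw [integral_const_mul]
      congr 1
      have : ∀ x : E, (1 + (τ * b / 2 - τ * ⟪n, x⟫ ^ 2 / 2))
          = (1 + τ * b / 2) - τ / 2 * ⟪n, x⟫ ^ 2 := fun x => by ring
      simp_rw [this]
      rw [integral_sub (integrable_const _).integrableOn (hint.const_mul _).integrableOn,
        integral_const_mul, setIntegral_const, smul_eq_mul]
      ring
    rw [e1]
    apply mul_le_mul_of_nonneg_left _ (Real.exp_pos _).le
    have := mul_le_mul_of_nonneg_left hb (by positivity : (0:ℝ) ≤ τ / 2)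
    nlinarith
  have hcinv : Real.exp (τ / 2 - τ ^ 2 / 4) ≤ c⁻¹ := by
    have hlog : τ - τ ^ 2 / 2 ≤ Real.log (1 + τ) := by
      have h3 := Real.le_log_one_add_of_nonneg hτ0
      refine le_trans ?_ h3
      rw [le_div_iff₀ (by linarith)]
      nlinarith [mul_nonneg hτ0 (mul_nonneg hτ0 hτ0)]
    have h1τ : 1 + τ = (c⁻¹) ^ 2 := by
      field_simp
      linarith
    have h4 : Real.exp (τ / 2 - τ ^ 2 / 4) ^ 2 ≤ (c⁻¹) ^ 2 := by
      rw [← h1τ, ← Real.exp_nat_mul]
      push_cast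
      calc Real.exp (2 * (τ / 2 - τ ^ 2 / 4)) = Real.exp (τ - τ ^ 2 / 2) := by congr 1; ring
        _ ≤ Real.exp (Real.log (1 + τ)) := Real.exp_le_exp.2 hlog
        _ = 1 + τ := Real.exp_log (by linarith)
    exact (pow_le_pow_iff_left₀ (Real.exp_pos _).le (inv_pos.2 hc).le two_ne_zero).1 h4
  rw [key]
  calc Real.exp (τ / 2 - τ ^ 2 / 4 - τ * b / 2) * γK
      = Real.exp (τ / 2 - τ ^ 2 / 4) * (Real.exp (-(τ * b / 2)) * γK) := by
        rw [← mul_assoc, ← Real.exp_add]; congr 2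
    _ ≤ c⁻¹ * (Real.exp (-(τ * b / 2)) * γK) :=
        mul_le_mul_of_nonneg_right hcinv (by positivity)
    _ ≤ _ := mul_le_mul_of_nonneg_left hjen (inv_pos.2 hc).le

/-- **(CMP1)** pull-back comparison with rank one gain in the unit direction `n`. -/
theorem cmp1 {ι : Type*} (s : Finset ι) (u : ι → E) (R : E →L[ℝ] G) {n : G} (hn : ‖n‖ = 1)
    {τ b : ℝ} (hτ0 : 0 ≤ τ)
    (hR : ∀ g, ‖R g‖ ^ 2 + τ * ⟪n, R g⟫ ^ 2 ≤ ‖g‖ ^ 2 + ∑ k ∈ s, ⟪u k, g⟫ ^ 2) {K : Set G}
    (hK : MeasurableSet K) (cK : Convex ℝ K) (sK : ∀ x ∈ K, -x ∈ K)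
    (hb : ∫ x in K, ⟪n, x⟫ ^ 2 ∂(stdGaussian G) ≤ b * (stdGaussian G).real K) :
    Real.exp (τ / 2 - τ ^ 2 / 4 - τ * b / 2 - (∑ k ∈ s, ‖u k‖ ^ 2) / 2) * (stdGaussian G).real K
      ≤ (stdGaussian E).real (R ⁻¹' K) := by
  set q : ℝ := Real.sqrt (1 + τ) with hqdef
  have hq : 0 < q := Real.sqrt_pos.2 (by linarith)
  have hq2 : q ^ 2 = 1 + τ := Real.sq_sqrt (by linarith)
  have hcc : (q⁻¹) ^ 2 * (1 + τ) = 1 := by
    rw [← hq2, ← mul_pow, inv_mul_cancel₀ hq.ne', one_pow]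
  have hinv : ∀ x, Sc n q⁻¹ (Sc n q x) = x := by
    intro x
    rw [Sc_apply, inner_n_Sc hn, Sc_apply]
    have : (q⁻¹ - 1) * (q * ⟪n, x⟫) = -((q - 1) * ⟪n, x⟫) := by
      field_simp
      ring
    rw [this]
    module
  have h1 := cmp s u (Sc n q ∘L R) (by
    intro g
    rw [ContinuousLinearMap.comp_apply, norm_Sc_sq hn, hq2]
    linarith [hR g]) (K := Sc n q⁻¹ ⁻¹' K) ((Sc n q⁻¹).continuous.measurable hK)
    (cK.linear_preimage (Sc n q⁻¹ : G →ₗ[ℝ] G)) (by
      intro x hx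
      have := sK _ hx
      simpa [mem_preimage] using this)
  have h2 : (Sc n q ∘L R) ⁻¹' (Sc n q⁻¹ ⁻¹' K) = R ⁻¹' K := by
    ext x
    simp [hinv]
  rw [h2] at h1
  have h3 := stretch_ge hn (inv_pos.2 hq) hτ0 hcc hK hb
  calc _ = Real.exp (-((∑ k ∈ s, ‖u k‖ ^ 2) / 2)) *
        (Real.exp (τ / 2 - τ ^ 2 / 4 - τ * b / 2) * (stdGaussian G).real K) := by
        rw [← mul_assoc, ← Real.exp_add]; congr 2; ring
    _ ≤ Real.exp (-((∑ k ∈ s, ‖u k‖ ^ 2) / 2)) *
        (stdGaussian G).real (Sc n q⁻¹ ⁻¹' K) :=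
        mul_le_mul_of_nonneg_left h3 (Real.exp_pos _).le
    _ ≤ _ := h1

end Crest.Agent.R239.CmpR174
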