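import Mathlib
import Crest.Agent.R239.CmpR_174
import Crest.Agent.R239.Dom_640

/-! R239 (583's proof, T1 at V^s), helper732: comparison lemma in COVARIANCE form with gain. -/

set_option autoImplicit false
set_option linter.unusedSectionVars false
open MeasureTheory ProbabilityTheory Set
open scoped RealInnerProductSpace

namespace Crest.Agent.R239.CmpCov732

open Crest.Agent.R239 Crest.Agent.R239.CmpR174

variable {E : Type*} [NormedAddCommGroup E] [InnerProductSpace ℝ E] [FiniteDimensional ℝ E]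
  [MeasurableSpace E] [BorelSpace E]

/-- symmetric square roots of positive semidefinite symmetric operators. -/
theorem exists_sroot (S : E →L[ℝ] E) (hs : ∀ x y, ⟪S x, y⟫ = ⟪x, S y⟫) (hp : ∀ x, 0 ≤ ⟪S x, x⟫) :
    ∃ D : E →L[ℝ] E, (∀ x y, ⟪D x, y⟫ = ⟪x, D y⟫) ∧ ∀ t, ‖D t‖ ^ 2 = ⟪S t, t⟫ := by
  have hT : (S : E →ₗ[ℝ] E).IsSymmetric := hs
  set b := hT.eigenvectorBasis rfl with hb
  set lam := hT.eigenvalues rfl with hlam
  have hSb : ∀ i, S (b i) = lam i • b i := fun i => hT.apply_eigenvectorBasis rfl i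
  have hl : ∀ i, 0 ≤ lam i := by
    intro i
    have h := hp (b i)
    rw [hSb, inner_smul_left, real_inner_self_eq_norm_sq, b.orthonormal.1 i] at h
    simpa using h
  have hSt : ∀ t, ⟪S t, t⟫ = ∑ i, lam i * ⟪b i, t⟫ ^ 2 := by
    intro t
    rw [← b.sum_inner_mul_inner (S t) t]
    refine Finset.sum_congr rfl fun i _ => ?_
    rw [hs, hSb, inner_smul_right, real_inner_comm]
    ring
  let L : E →L[ℝ] E := ∑ i, (Real.sqrt (lam i)) •
    ((ContinuousLinearMap.toSpanSingleton ℝ (b i)) ∘L (innerSL ℝ (b i)))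
  have hL : ∀ t, L t = ∑ i, (Real.sqrt (lam i) * ⟪b i, t⟫) • b i := by
    intro t
    simp only [L, sum_apply, smul_apply,
      ContinuousLinearMap.comp_apply, innerSL_apply_apply,
      ContinuousLinearMap.toSpanSingleton_apply, smul_smul]
  refine ⟨L, fun x y => ?_, fun t => ?_⟩
  · rw [hL, hL, sum_inner, inner_sum]
    refine Finset.sum_congr rfl fun i _ => ?_
    rw [real_inner_smul_left, real_inner_smul_right, real_inner_comm (b i) x]
    ring
  · rw [hSt, hL, ← real_inner_self_eq_norm_sq, b.orthonormal.inner_sum]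
    refine Finset.sum_congr rfl fun i _ => ?_
    simp only [conj_trivial]
    rw [← pow_two, mul_pow, Real.sq_sqrt (hl i)]

lemma exists_W {ι : Type*} (s : Finset ι) (a : ι → E) :
    ∃ W : E →L[ℝ] E, (∀ x y, ⟪W x, y⟫ = ⟪x, W y⟫) ∧
      ∀ t, ‖W t‖ ^ 2 = ‖t‖ ^ 2 + ∑ k ∈ s, ⟪a k, t⟫ ^ 2 := by
  obtain ⟨D, h1, h2⟩ := exists_sroot (ContinuousLinearMap.id ℝ E + ∑ k ∈ s,
    ((ContinuousLinearMap.toSpanSingleton ℝ (a k)) ∘L (innerSL ℝ (a k)))) (by
      intro x y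
      simp only [add_apply, sum_apply, ContinuousLinearMap.comp_apply,
        innerSL_apply_apply, ContinuousLinearMap.toSpanSingleton_apply,
        ContinuousLinearMap.id_apply, inner_add_left, inner_add_right, sum_inner, inner_sum,
        real_inner_smul_left, real_inner_smul_right]
      congr 1
      refine Finset.sum_congr rfl fun i _ => ?_
      rw [real_inner_comm (a i) x]
      ring) (by
      intro x
      simp only [add_apply, sum_apply, ContinuousLinearMap.comp_apply,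
        innerSL_apply_apply, ContinuousLinearMap.toSpanSingleton_apply,
        ContinuousLinearMap.id_apply, inner_add_left, sum_inner,
        real_inner_smul_left]
      have : 0 ≤ ⟪x, x⟫ := real_inner_self_nonneg
      have h2 : 0 ≤ ∑ i ∈ s, ⟪a i, x⟫ * ⟪a i, x⟫ :=
        Finset.sum_nonneg fun i _ => mul_self_nonneg _
      linarith)
  refine ⟨D, h1, fun t => ?_⟩
  rw [h2]
  simp only [add_apply, sum_apply, ContinuousLinearMap.comp_apply,
    innerSL_apply_apply, ContinuousLinearMap.toSpanSingleton_apply,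
    ContinuousLinearMap.id_apply, inner_add_left, sum_inner,
    real_inner_smul_left, real_inner_self_eq_norm_sq]
  congr 1
  refine Finset.sum_congr rfl fun i _ => ?_
  ring

/-- **comparison in covariance form with gain** -/
theorem cmp_cov {ι : Type*} (s : Finset ι) (a : ι → E) (R : E →L[ℝ] E) {n : E} (hn : ‖n‖ = 1)
    {τ b : ℝ} (hτ0 : 0 ≤ τ) (hτ1 : τ ≤ 1 / 2) (hb1 : b ≤ 1)
    (hR : ∀ t, ‖R.adjoint t‖ ^ 2 + τ * ⟪n, t⟫ ^ 2 ≤ ‖t‖ ^ 2 + ∑ k ∈ s, ⟪a k, t⟫ ^ 2) {K : Set E}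
    (hK : MeasurableSet K) (cK : Convex ℝ K) (sK : ∀ x ∈ K, -x ∈ K)
    (hb : ∫ x in K, ⟪n, x⟫ ^ 2 ∂(stdGaussian E) ≤ b * (stdGaussian E).real K) :
    Real.exp (τ / 2 * (1 - b) - τ ^ 2 - ∑ k ∈ s, ‖a k‖ ^ 2) * (stdGaussian E).real K
      ≤ (stdGaussian E).real (R ⁻¹' K) := by
  -- `c^2 = 1 - τ`, `τ' = τ / (1 - τ)`
  set c := Real.sqrt (1 - τ) with hc
  have h1τ : 0 < 1 - τ := by linarith
  have hc0 : 0 < c := Real.sqrt_pos.2 h1τ
  have hc2 : c ^ 2 = 1 - τ := Real.sq_sqrt h1τ.le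
  set τ' := τ / (1 - τ) with hτ'
  have hτ'0 : 0 ≤ τ' := div_nonneg hτ0 h1τ.le
  have hcτ' : c ^ 2 * (1 + τ') = 1 := by
    rw [hc2, hτ']
    field_simp
    ring
  have hτ'1 : τ ≤ τ' := by
    rw [hτ', le_div_iff₀ h1τ]
    nlinarith
  have hτ'2 : τ' ≤ 2 * τ := by
    rw [hτ', div_le_iff₀ h1τ]
    nlinarith
  -- the vectors `a' = D⁻¹ a`
  obtain ⟨W, hWs, hW⟩ := exists_W s fun k => Sc n c⁻¹ (a k)
  have hDinv : ∀ x t, ⟪Sc n c⁻¹ x, Sc n c t⟫ = ⟪x, t⟫ := by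
    intro x t
    rw [inner_Sc_comm]
    congr 1
    rw [Sc_apply, inner_n_Sc hn, Sc_apply]
    rw [add_assoc, ← add_smul]
    have : (c - 1) * ⟪n, t⟫ + (c⁻¹ - 1) * (c * ⟪n, t⟫) = 0 := by
      field_simp
      ring
    rw [this, zero_smul, add_zero]
  have hScadj : ∀ t, (Sc n c).adjoint t = Sc n c t := by
    intro t
    refine ext_inner_right ℝ fun y => ?_
    rw [ContinuousLinearMap.adjoint_inner_left, inner_Sc_comm]
  have hWadj : ∀ t, W.adjoint t = W t := by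
    intro t
    refine ext_inner_right ℝ fun y => ?_
    rw [ContinuousLinearMap.adjoint_inner_left, hWs]
  have h1 : ∀ t, ‖R.adjoint t‖ ≤ ‖(Sc n c ∘L W).adjoint t‖ := by
    intro t
    rw [ContinuousLinearMap.adjoint_comp, ContinuousLinearMap.comp_apply, hScadj, hWadj]
    have e : ‖W (Sc n c t)‖ ^ 2 = ‖t‖ ^ 2 - τ * ⟪n, t⟫ ^ 2 + ∑ k ∈ s, ⟪a k, t⟫ ^ 2 := by
      rw [hW, norm_Sc_sq hn, hc2]
      simp only [hDinv]
      ring
    have h := hR t
    refine le_of_sq_le_sq ?_ (norm_nonneg _)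
    rw [e]
    linarith
  have h2 := gau_mono_sym h1 hK cK sK
  have h2' : (gau (Sc n c ∘L W)).real K ≤ (gau R).real K :=
    ENNReal.toReal_mono (measure_ne_top _ _) h2
  rw [gau_real_apply _ hK, gau_real_apply _ hK] at h2'
  have hK' : MeasurableSet (Sc n c ⁻¹' K) := (Sc n c).continuous.measurable hK
  have cK' : Convex ℝ (Sc n c ⁻¹' K) := Dom640.pre_conv _ cK
  have sK' : ∀ x ∈ Sc n c ⁻¹' K, -x ∈ Sc n c ⁻¹' K := Dom640.pre_symm _ sK
  have h3 := cmp s (fun k => Sc n c⁻¹ (a k)) W (fun g => (hW g).le) hK' cK' sK'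
  have h4 := stretch_ge hn hc0 hτ'0 hcτ' hK hb
  have e5 : (⇑(Sc n c ∘L W)) ⁻¹' K = W ⁻¹' (Sc n c ⁻¹' K) := rfl
  rw [e5] at h2'
  refine le_trans ?_ (h3.trans h2')
  refine le_trans ?_ (mul_le_mul_of_nonneg_left h4 (Real.exp_nonneg _))
  rw [← mul_assoc, ← Real.exp_add]
  refine mul_le_mul_of_nonneg_right (Real.exp_le_exp.2 ?_) measureReal_nonneg
  have h6 : ∀ k ∈ s, ‖Sc n c⁻¹ (a k)‖ ^ 2 ≤ 2 * ‖a k‖ ^ 2 := by
    intro k _
    rw [norm_Sc_sq hn]
    have h7 : (c⁻¹) ^ 2 = 1 + τ' := by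
      rw [inv_pow]
      field_simp
      linarith
    have h8 : ⟪n, a k⟫ ^ 2 ≤ ‖a k‖ ^ 2 := by
      have := abs_real_inner_le_norm n (a k)
      rw [hn, one_mul] at this
      rw [← sq_abs]
      gcongr
    have h9 : (c⁻¹) ^ 2 - 1 ≤ 1 := by rw [h7]; linarith
    have h10 : 0 ≤ (c⁻¹) ^ 2 - 1 := by rw [h7]; linarith
    nlinarith [sq_nonneg ⟪n, a k⟫]
  have h11 : (∑ k ∈ s, ‖Sc n c⁻¹ (a k)‖ ^ 2) / 2 ≤ ∑ k ∈ s, ‖a k‖ ^ 2 := by
    have := Finset.sum_le_sum h6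
    rw [← Finset.mul_sum] at this
    linarith
  have h12 : τ / 2 * (1 - b) - τ ^ 2 ≤ τ' / 2 - τ' ^ 2 / 4 - τ' * b / 2 := by
    have : τ / 2 * (1 - b) ≤ τ' / 2 * (1 - b) :=
      mul_le_mul_of_nonneg_right (by linarith) (by linarith)
    have h13 : τ' ^ 2 / 4 ≤ τ ^ 2 := by nlinarith
    linarith
  linarith

/-- the version without gain -/
theorem cmp_cov0 {ι : Type*} (s : Finset ι) (a : ι → E) (R : E →L[ℝ] E) {n : E} (hn : ‖n‖ = 1)
    (hR : ∀ t, ‖R.adjoint t‖ ^ 2 ≤ ‖t‖ ^ 2 + ∑ k ∈ s, ⟪a k, t⟫ ^ 2) {K : Set E}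
    (hK : MeasurableSet K) (cK : Convex ℝ K) (sK : ∀ x ∈ K, -x ∈ K) :
    Real.exp (-∑ k ∈ s, ‖a k‖ ^ 2) * (stdGaussian E).real K
      ≤ (stdGaussian E).real (R ⁻¹' K) := by
  have hb := Dom640.dom_sq hK cK sK n
  rw [hn, one_pow, mul_one, ← one_mul ((stdGaussian E).real K)] at hb
  have h := cmp_cov s a R hn (τ := 0) (b := 1) le_rfl (by norm_num) le_rfl
    (fun t => by simpa using hR t) hK cK sK hb
  refine le_trans (le_of_eq ?_) h
  congr 2
  ring

end Crest.Agent.R239.CmpCov732
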