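import Mathlib

/-!
R239, helper456: E-level form of the flag potential. File A: nested projections calculus.
-/

set_option autoImplicit false
set_option linter.unusedSectionVars false
set_option linter.unusedVariables false

open Finset Module
open scoped RealInnerProductSpace

namespace Crest.Agent.R239.FA456

variable {E : Type*} [NormedAddCommGroup E] [InnerProductSpace ℝ E] [FiniteDimensional ℝ E]

/-- the projection on `M j` -/
noncomputable abbrev P (M : ℕ → Submodule ℝ E) (j : ℕ) : E →L[ℝ] E := (M j).starProjection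

variable {M : ℕ → Submodule ℝ E}

lemma P_P_right (hM : Antitone M) {i j : ℕ} (h : i ≤ j) (x : E) : P M i (P M j x) = P M j x :=
  Submodule.starProjection_eq_self_iff.2 (hM h (Submodule.starProjection_apply_mem _ _))

lemma inner_P_left (j : ℕ) (x y : E) : ⟪P M j x, y⟫ = ⟪x, P M j y⟫ :=
  Submodule.inner_starProjection_left_eq_right _ x y

lemma P_P_left (hM : Antitone M) {i j : ℕ} (h : i ≤ j) (x : E) : P M j (P M i x) = P M j x := by
  refine ext_inner_right ℝ fun y => ?_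
  rw [inner_P_left, inner_P_left, P_P_right hM h, inner_P_left]

lemma P_bot {j : ℕ} (h : M j = ⊥) (x : E) : P M j x = 0 := by
  have h1 := Submodule.starProjection_apply_mem (M j) x
  have h2 : (M j).starProjection x ∈ (⊥ : Submodule ℝ E) := by
    have h3 : ∀ y ∈ M j, y ∈ (⊥ : Submodule ℝ E) := fun y hy => h ▸ hy
    exact h3 _ h1
  exact (Submodule.mem_bot ℝ).1 h2

lemma inner_P_self (j : ℕ) (x : E) : ⟪P M j x, x⟫ = ‖P M j x‖ ^ 2 := by
  rw [← real_inner_self_eq_norm_sq, inner_P_left, inner_P_left]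
  congr 1
  exact (Submodule.starProjection_eq_self_iff.2 (Submodule.starProjection_apply_mem _ _)).symm

lemma norm_P_le (j : ℕ) (x : E) : ‖P M j x‖ ≤ ‖x‖ := Submodule.norm_starProjection_apply_le _ x

lemma norm_P_anti (hM : Antitone M) {i j : ℕ} (h : i ≤ j) (x : E) : ‖P M j x‖ ≤ ‖P M i x‖ := by
  rw [← P_P_left hM h]
  exact norm_P_le j _

/-- calculus: the operator with eigenvalue `c 0` on `(M 0)ᗮ`, `c (l+1)` on `M l ⊖ M (l+1)` -/
noncomputable def Op (M : ℕ → Submodule ℝ E) (n : ℕ) (c : ℕ → ℝ) : E →L[ℝ] E :=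
  c 0 • ContinuousLinearMap.id ℝ E + ∑ j ∈ range n, (c (j + 1) - c j) • P M j

lemma Op_apply (n : ℕ) (c : ℕ → ℝ) (x : E) :
    Op M n c x = c 0 • x + ∑ j ∈ range n, (c (j + 1) - c j) • P M j x := by
  simp [Op]

lemma Op_succ (n : ℕ) (c : ℕ → ℝ) (x : E) :
    Op M (n + 1) c x = Op M n c x + (c (n + 1) - c n) • P M n x := by
  rw [Op_apply, Op_apply, sum_range_succ, add_assoc]

lemma Op_P_ge (hM : Antitone M) {n : ℕ} (c : ℕ → ℝ) {k : ℕ} (hk : n ≤ k) (x : E) :
    Op M n c (P M k x) = c n • P M k x := by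
  induction n with
  | zero => simp [Op_apply]
  | succ n ih =>
    rw [Op_succ, ih (by omega), P_P_right hM (by omega), ← add_smul]
    congr 1; ring

lemma P_Op_ge (hM : Antitone M) {n : ℕ} (c : ℕ → ℝ) {k : ℕ} (hk : n ≤ k) (x : E) :
    P M k (Op M n c x) = c n • P M k x := by
  induction n with
  | zero => simp [Op_apply]
  | succ n ih =>
    rw [Op_succ, map_add, ih (by omega), map_smul, P_P_left hM (by omega), ← add_smul]
    congr 1; ring

theorem Op_mul (hM : Antitone M) (n : ℕ) (c c' : ℕ → ℝ) (x : E) :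
    Op M n c (Op M n c' x) = Op M n (fun j => c j * c' j) x := by
  induction n with
  | zero => simp [Op_apply, smul_smul, mul_comm]
  | succ n ih =>
    rw [Op_succ n c', map_add, Op_succ n c, Op_succ n c, ih, map_smul, map_smul,
      P_Op_ge hM c' le_rfl, Op_P_ge hM c le_rfl, P_P_right hM le_rfl, Op_succ n (fun j => c j * c' j)]
    module

lemma inner_Op_left (n : ℕ) (c : ℕ → ℝ) (x y : E) : ⟪Op M n c x, y⟫ = ⟪x, Op M n c y⟫ := by
  induction n with
  | zero => simp [Op_apply, inner_smul_left, inner_smul_right]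
  | succ n ih =>
    rw [Op_succ, Op_succ, inner_add_left, inner_add_right, ih, inner_smul_left, inner_smul_right,
      inner_P_left]
    simp

lemma inner_Op_self (n : ℕ) (c : ℕ → ℝ) (x : E) :
    ⟪Op M n c x, x⟫ = c 0 * ‖x‖ ^ 2 + ∑ j ∈ range n, (c (j + 1) - c j) * ‖P M j x‖ ^ 2 := by
  rw [Op_apply, inner_add_left, inner_smul_left, sum_inner, real_inner_self_eq_norm_sq]
  congr 1
  exact sum_congr rfl fun j _ => by rw [inner_smul_left, inner_P_self]; simp

theorem norm_Op_sq (hM : Antitone M) (n : ℕ) (c : ℕ → ℝ) (x : E) :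
    ‖Op M n c x‖ ^ 2
      = c 0 ^ 2 * ‖x‖ ^ 2 + ∑ j ∈ range n, (c (j + 1) ^ 2 - c j ^ 2) * ‖P M j x‖ ^ 2 := by
  rw [← real_inner_self_eq_norm_sq, inner_Op_left, Op_mul hM, real_inner_comm, inner_Op_self]
  simp [sq]

/-- monotonicity: `|c| ≤ |c'|` gives `‖Op c x‖ ≤ ‖Op c' x‖` -/
theorem norm_Op_mono (hM : Antitone M) (n : ℕ) {c c' : ℕ → ℝ} (h : ∀ j ≤ n, c j ^ 2 ≤ c' j ^ 2)
    (x : E) : ‖Op M n c x‖ ≤ ‖Op M n c' x‖ := by
  have key : ‖Op M n c' x‖ ^ 2 - ‖Op M n c x‖ ^ 2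
      = ‖Op M n (fun j => √(c' j ^ 2 - c j ^ 2)) x‖ ^ 2 := by
    rw [norm_Op_sq hM, norm_Op_sq hM, norm_Op_sq hM]
    have h0 : √(c' 0 ^ 2 - c 0 ^ 2) ^ 2 = c' 0 ^ 2 - c 0 ^ 2 :=
      Real.sq_sqrt (by linarith [h 0 (Nat.zero_le _)])
    have hs : ∑ j ∈ range n, (√(c' (j + 1) ^ 2 - c (j + 1) ^ 2) ^ 2 - √(c' j ^ 2 - c j ^ 2) ^ 2)
          * ‖P M j x‖ ^ 2
        = ∑ j ∈ range n, (c' (j + 1) ^ 2 - c' j ^ 2) * ‖P M j x‖ ^ 2
          - ∑ j ∈ range n, (c (j + 1) ^ 2 - c j ^ 2) * ‖P M j x‖ ^ 2 := by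
      rw [← sum_sub_distrib]
      refine sum_congr rfl fun j hj => ?_
      rw [mem_range] at hj
      rw [Real.sq_sqrt (by linarith [h (j + 1) (by omega)]),
        Real.sq_sqrt (by linarith [h j (by omega)])]
      ring
    rw [h0, hs]
    ring
  have h2 : ‖Op M n c x‖ ^ 2 ≤ ‖Op M n c' x‖ ^ 2 := by nlinarith [sq_nonneg ‖Op M n (fun j => √(c' j ^ 2 - c j ^ 2)) x‖]
  exact (pow_le_pow_iff_left₀ (norm_nonneg _) (norm_nonneg _) two_ne_zero).1 h2

lemma Op_const (n : ℕ) (a : ℝ) (x : E) : Op M n (fun _ => a) x = a • x := by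
  simp [Op_apply]

lemma P_eq_Op {n j : ℕ} (hj : j < n) (x : E) :
    P M j x = Op M n (fun l => if j < l then 1 else 0) x := by
  rw [Op_apply]
  simp only [Nat.not_lt_zero, ite_false, zero_smul, zero_add]
  rw [sum_eq_single_of_mem j (mem_range.2 hj)]
  · simp
  · intro b _ hb
    rcases lt_or_gt_of_ne hb with h | h
    · have h1 : ¬ (j < b + 1) := by omega
      have h2 : ¬ (j < b) := by omega
      simp [h1, h2]
    · have h1 : j < b + 1 := by omega
      simp [h1, h]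

/-- commuting -/
lemma P_Op (hM : Antitone M) (n j : ℕ) (c : ℕ → ℝ) (x : E) :
    P M j (Op M n c x) = Op M n c (P M j x) := by
  rcases lt_or_ge j n with h | h
  · rw [P_eq_Op h, P_eq_Op h, Op_mul hM, Op_mul hM]
    congr 2
    ext l
    ring
  · rw [P_Op_ge hM c h, Op_P_ge hM c h]

lemma Op_congr (n : ℕ) {c c' : ℕ → ℝ} (h : ∀ j ≤ n, c j = c' j) (x : E) :
    Op M n c x = Op M n c' x := by
  rw [Op_apply, Op_apply, h 0 (Nat.zero_le _)]
  congr 1
  refine sum_congr rfl fun j hj => ?_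
  rw [mem_range] at hj
  rw [h j (by omega), h (j + 1) (by omega)]

/-- extension of the range -/
lemma Op_ext {n n' : ℕ} (h : n ≤ n') (hM : Antitone M) (hn : M n = ⊥) (c : ℕ → ℝ) :
    Op M n' c = Op M n c := by
  refine ContinuousLinearMap.ext fun x => ?_
  rw [Op_apply, Op_apply]
  congr 1
  refine (sum_subset (range_subset_range.2 h) fun j _ hj => ?_).symm
  rw [mem_range, not_lt] at hj
  have : M j = ⊥ := by
    have := hM hj
    rw [hn] at this
    exact le_bot_iff.1 this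
  rw [P_bot this, smul_zero]

end Crest.Agent.R239.FA456
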