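import Mathlib
import Crest.Agent.R239.FA_456
import Crest.Agent.R239.L0_942
import Crest.Agent.R239.SoftA_450

/-!
R239, helper456: E-level form of the flag potential. File B: definitions and soft layer.
-/

set_option autoImplicit false
set_option linter.unusedSectionVars false
set_option linter.unusedVariables false

open Finset Module MeasureTheory ProbabilityTheory
open scoped RealInnerProductSpace

namespace Crest.Agent.R239.FB456

open Crest.Agent.R239.FA456 Crest.Agent.R239.L0 Crest.Agent.R239.Soft450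

variable {E : Type*} [NormedAddCommGroup E] [InnerProductSpace ℝ E] [FiniteDimensional ℝ E]
  [MeasurableSpace E] [BorelSpace E]

noncomputable def th : ℝ := 4 / 5

lemma th_pos : 0 < th := by norm_num [th]
lemma th_nonneg : 0 ≤ th := th_pos.le
lemma th_lt_one : th < 1 := by norm_num [th]
lemma th_le_one : th ≤ 1 := th_lt_one.le

/-- eigenvalues of level `i` -/
noncomputable def ci (i l : ℕ) : ℝ := th ^ (l - 1 - i)

lemma ci_pos (i l : ℕ) : 0 < ci i l := pow_pos th_pos _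
lemma ci_le_one (i l : ℕ) : ci i l ≤ 1 := pow_le_one₀ th_nonneg th_le_one

/-- standardisation of level `i`: `x = H g` -/
noncomputable def H (M : ℕ → Submodule ℝ E) (N i : ℕ) : E →L[ℝ] E := Op M N (ci i)

/-- the inverse of `H` -/
noncomputable def S (M : ℕ → Submodule ℝ E) (N i : ℕ) : E →L[ℝ] E := Op M N fun l => (ci i l)⁻¹

/-- `th^(2(j-i)) w j = E ‖P j x‖²` at level `i` -/
noncomputable def w (M : ℕ → Submodule ℝ E) (N j : ℕ) : ℝ :=
  ∑ l ∈ Ico j N, th ^ (2 * (l - j)) * (bdim M l : ℝ)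

lemma w_nonneg (M : ℕ → Submodule ℝ E) (N j : ℕ) : 0 ≤ w M N j :=
  sum_nonneg fun _ _ => mul_nonneg (pow_nonneg th_nonneg _) (Nat.cast_nonneg _)

/-- the Gaussian measure of level `i` -/
noncomputable def g (M : ℕ → Submodule ℝ E) (N i : ℕ) (K : Set E) : ℝ :=
  (stdGaussian E).real (H M N i ⁻¹' K)

/-- the caps -/
noncomputable def capr (ρ : ℝ) (M : ℕ → Submodule ℝ E) (N i j : ℕ) : ℝ :=
  ρ * th ^ (j - i) * √(1 + w M N j)

structure Adm (ρ : ℝ) (M : ℕ → Submodule ℝ E) (N i : ℕ) (K : Set E) : Prop where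
  closed : IsClosed K
  conv : Convex ℝ K
  symm : ∀ x ∈ K, -x ∈ K
  pos : 0 < g M N i K
  cap : ∀ j ∈ Ico i N, ∀ x ∈ K, ‖P M j x‖ ≤ capr ρ M N i j

/-- support function of `K` at `P i z` -/
noncomputable def hs (M : ℕ → Submodule ℝ E) (i : ℕ) (K : Set E) (z : E) : ℝ :=
  sSup ((fun x => ⟪z, P M i x⟫) '' K)

noncomputable def val (A : ℝ) (M : ℕ → Submodule ℝ E) (N i : ℕ) (m : Multiset E) (K : Set E) : ℝ :=
  (m.map (hs M i K)).sum - A ^ i * Real.log (g M N i K)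

noncomputable def D (ρ A : ℝ) (M : ℕ → Submodule ℝ E) (N i : ℕ) (m : Multiset E) : ℝ :=
  sInf (val A M N i m '' {K | Adm ρ M N i K})

noncomputable def J (κ ρ A : ℝ) (M : ℕ → Submodule ℝ E) (N : ℕ) (m : Multiset E) : ℝ :=
  ∑ i ∈ range N, (D ρ A M N i m - κ * (A ^ i * (bdim M i : ℝ)))

/-- the flags -/
def IsFlag (M : ℕ → Submodule ℝ E) (N : ℕ) : Prop := Antitone M ∧ M N = ⊥

noncomputable def U (κ ρ A : ℝ) (m : Multiset E) : ℝ :=
  sSup {t | ∃ (M : ℕ → Submodule ℝ E) (N : ℕ), IsFlag M N ∧ t = J κ ρ A M N m}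

section soft

variable {M : ℕ → Submodule ℝ E} {N i : ℕ} {ρ A κ : ℝ} {K : Set E}

lemma g_nonneg (K : Set E) : 0 ≤ g M N i K := measureReal_nonneg

lemma g_le_one (K : Set E) : g M N i K ≤ 1 := measureReal_le_one

lemma g_mono {K K' : Set E} (h : K ⊆ K') : g M N i K ≤ g M N i K' :=
  measureReal_mono (Set.preimage_mono h)

lemma capr_nonneg (hρ : 0 ≤ ρ) (i j : ℕ) : 0 ≤ capr ρ M N i j := by
  unfold capr
  have := pow_nonneg th_nonneg (j - i)
  positivity

lemma Adm.nonempty (h : Adm ρ M N i K) : K.Nonempty := by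
  by_contra hc
  rw [Set.not_nonempty_iff_eq_empty] at hc
  have := h.pos
  rw [hc] at this
  simp [g] at this

lemma Adm.zero_mem (h : Adm ρ M N i K) : (0 : E) ∈ K := by
  obtain ⟨x, hx⟩ := h.nonempty
  have := h.conv hx (h.symm x hx) (a := 1 / 2) (b := 1 / 2) (by norm_num) (by norm_num) (by norm_num)
  simpa using this

lemma inner_le_of_cap (hM : Antitone M) (hi : i < N) (hK : ∀ x ∈ K, ‖P M i x‖ ≤ capr ρ M N i i)
    {x : E} (hx : x ∈ K) (z : E) : ⟪z, P M i x⟫ ≤ ‖z‖ * capr ρ M N i i :=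
  (real_inner_le_norm _ _).trans (mul_le_mul_of_nonneg_left (hK x hx) (norm_nonneg _))

lemma Adm.bdd (h : Adm ρ M N i K) (hi : i < N) (z : E) :
    BddAbove ((fun x => ⟪z, P M i x⟫) '' K) := by
  refine ⟨‖z‖ * capr ρ M N i i, ?_⟩
  rintro _ ⟨x, hx, rfl⟩
  exact (real_inner_le_norm _ _).trans
    (mul_le_mul_of_nonneg_left (h.cap i (left_mem_Ico.2 hi) x hx) (norm_nonneg _))

lemma Adm.le_hs (h : Adm ρ M N i K) (hi : i < N) {x : E} (hx : x ∈ K) (z : E) :
    ⟪z, P M i x⟫ ≤ hs M i K z := le_csSup (h.bdd hi z) ⟨x, hx, rfl⟩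

lemma hs_le (hne : K.Nonempty) {z : E} {C : ℝ} (h : ∀ x ∈ K, ⟪z, P M i x⟫ ≤ C) :
    hs M i K z ≤ C := by
  refine csSup_le (hne.image _) ?_
  rintro _ ⟨x, hx, rfl⟩
  exact h x hx

lemma Adm.hs_nonneg (h : Adm ρ M N i K) (hi : i < N) (z : E) : 0 ≤ hs M i K z := by
  have := h.le_hs hi h.zero_mem z
  simpa using this

lemma Adm.hs_add (h : Adm ρ M N i K) (hi : i < N) (y z : E) :
    hs M i K (y + z) ≤ hs M i K y + hs M i K z := by
  refine hs_le h.nonempty fun x hx => ?_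
  rw [inner_add_left]
  exact add_le_add (h.le_hs hi hx y) (h.le_hs hi hx z)

lemma sum_map_le {α : Type*} (m : Multiset α) {f f' : α → ℝ} (h : ∀ z ∈ m, f z ≤ f' z) :
    (m.map f).sum ≤ (m.map f').sum := Multiset.sum_map_le_sum_map f f' h

lemma Adm.sum_nonneg (h : Adm ρ M N i K) (hi : i < N) (m : Multiset E) :
    0 ≤ (m.map (hs M i K)).sum := by
  refine Multiset.sum_nonneg fun x hx => ?_
  obtain ⟨z, _, rfl⟩ := Multiset.mem_map.1 hx
  exact h.hs_nonneg hi z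

lemma neglog_nonneg (K : Set E) (hA : 0 ≤ A) : 0 ≤ - (A ^ i * Real.log (g M N i K)) := by
  have h1 : Real.log (g M N i K) ≤ 0 := Real.log_nonpos (g_nonneg K) (g_le_one K)
  have h2 : 0 ≤ A ^ i := pow_nonneg hA i
  nlinarith

lemma Adm.val_nonneg (h : Adm ρ M N i K) (hi : i < N) (hA : 0 ≤ A) (m : Multiset E) :
    0 ≤ val A M N i m K := by
  unfold val
  have h1 := h.sum_nonneg hi m
  have h2 := neglog_nonneg (M := M) (N := N) (i := i) K hA
  linarith

lemma bddBelow (hi : i < N) (hA : 0 ≤ A) (m : Multiset E) :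
    BddBelow (val A M N i m '' {K | Adm ρ M N i K}) := by
  refine ⟨0, ?_⟩
  rintro _ ⟨K, hK, rfl⟩
  exact Adm.val_nonneg hK hi hA m

lemma D_le (h : Adm ρ M N i K) (hi : i < N) (hA : 0 ≤ A) (m : Multiset E) :
    D ρ A M N i m ≤ val A M N i m K := csInf_le (bddBelow hi hA m) ⟨K, h, rfl⟩

lemma D_nonneg (hi : i < N) (hA : 0 ≤ A) (m : Multiset E) : 0 ≤ D ρ A M N i m := by
  refine Real.sInf_nonneg ?_
  rintro _ ⟨K, hK, rfl⟩
  exact Adm.val_nonneg hK hi hA m

lemma le_D (hne : ∃ K, Adm ρ M N i K) {m : Multiset E} {t : ℝ}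
    (h : ∀ K, Adm ρ M N i K → t ≤ val A M N i m K) : t ≤ D ρ A M N i m := by
  obtain ⟨K0, hK0⟩ := hne
  refine le_csInf ⟨_, K0, hK0, rfl⟩ ?_
  rintro _ ⟨K, hK, rfl⟩
  exact h K hK

lemma exists_near (hne : ∃ K, Adm ρ M N i K) (m : Multiset E) {ε : ℝ} (hε : 0 < ε) :
    ∃ K, Adm ρ M N i K ∧ val A M N i m K < D ρ A M N i m + ε := by
  obtain ⟨K0, hK0⟩ := hne
  obtain ⟨_, ⟨K, hK, rfl⟩, hlt⟩ := exists_lt_of_csInf_lt
    (s := val A M N i m '' {K | Adm ρ M N i K}) ⟨_, K0, hK0, rfl⟩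
    (b := D ρ A M N i m + ε) (by show D ρ A M N i m < _; linarith)
  exact ⟨K, hK, hlt⟩

/-- (U1) for one level -/
lemma D_split (hne : ∃ K, Adm ρ M N i K) (hi : i < N) (hA : 0 ≤ A) (s : Multiset (E × E)) :
    D ρ A M N i (mrg s) ≤ D ρ A M N i (spl s) := by
  refine le_D hne fun K hK => (D_le hK hi hA _).trans ?_
  unfold val
  gcongr
  simp only [mrg, spl, Multiset.map_map, Multiset.map_add, Multiset.sum_add, Function.comp_def]
  rw [← Multiset.sum_map_add]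
  exact sum_map_le _ fun p _ => hK.hs_add hi _ _

end soft

end Crest.Agent.R239.FB456
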