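import Mathlib
import Crest.Agent.R239.FB_456
import Crest.Agent.R239.Rot_203

/-!
R239, helper456: E-level form of the flag potential. Block statements (Props), no proofs.
-/

set_option autoImplicit false
set_option linter.unusedSectionVars false
set_option linter.unusedVariables false

open Finset Module MeasureTheory ProbabilityTheory
open scoped RealInnerProductSpace

namespace Crest.Agent.R239.FP456

open Crest.Agent.R239.FA456 Crest.Agent.R239.FB456 Crest.Agent.R239.Soft450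
open Crest.Agent.R239.L0 (mrg spl)
open Crest.Agent.R239.Rot203 (Ts)

variable {E : Type*} [NormedAddCommGroup E] [InnerProductSpace ℝ E] [FiniteDimensional ℝ E]
  [MeasurableSpace E] [BorelSpace E]

/-- insertion of `v` at level `I` -/
noncomputable def ins (M : ℕ → Submodule ℝ E) (I : ℕ) (v : E) (j : ℕ) : Submodule ℝ E :=
  if j ≤ I then M j ⊔ (ℝ ∙ v) else M j

/-- demotion of `u` from block `i` to block `i - 1` -/
noncomputable def dem (M : ℕ → Submodule ℝ E) (i : ℕ) (u : E) (j : ℕ) : Submodule ℝ E :=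
  if j = i then M j ⊓ (ℝ ∙ u)ᗮ else M j

/-- the tilted flag -/
noncomputable def rot (M : ℕ → Submodule ℝ E) (s : ℝ) (v : E) (j : ℕ) : Submodule ℝ E :=
  (M j).map (Ts s v)

/-- near-maximiser of `J` -/
def NearMax (κ ρ A : ℝ) (M : ℕ → Submodule ℝ E) (N : ℕ) (m : Multiset E) (e : ℝ) : Prop :=
  IsFlag M N ∧ ∀ (M' : ℕ → Submodule ℝ E) (N' : ℕ), IsFlag M' N' →
    J κ ρ A M' N' m ≤ J κ ρ A M N m + e

/-- `E_K ⟨u,x⟩²` (unnormalised) at level `i` -/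
noncomputable def mom (M : ℕ → Submodule ℝ E) (N i : ℕ) (K : Set E) (u : E) : ℝ :=
  ∫ y in H M N i ⁻¹' K, ⟪u, H M N i y⟫ ^ 2 ∂(stdGaussian E)

/-- INSERTION (653) -/
def P_INS (E : Type*) [NormedAddCommGroup E] [InnerProductSpace ℝ E] [FiniteDimensional ℝ E]
    [MeasurableSpace E] [BorelSpace E] (κ ρ A : ℝ) : Prop :=
  ∀ (M : ℕ → Submodule ℝ E) (N : ℕ), IsFlag M N → ∀ (I : ℕ) (v : E), ‖v‖ = 1 →
    IsFlag (ins M I v) (max N (I + 1)) ∧ ∀ m : Multiset E,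
      J κ ρ A M N m ≤ J κ ρ A (ins M I v) (max N (I + 1)) m + A ^ I * (κ + 8 / ρ ^ 2 + 4 / A)

/-- DEMOTION (653) -/
def P_DEM (E : Type*) [NormedAddCommGroup E] [InnerProductSpace ℝ E] [FiniteDimensional ℝ E]
    [MeasurableSpace E] [BorelSpace E] (κ ρ A : ℝ) : Prop :=
  ∀ (M : ℕ → Submodule ℝ E) (N : ℕ), IsFlag M N → ∀ (i : ℕ), 1 ≤ i → i < N → ∀ u : E, ‖u‖ = 1 →
    u ∈ M i → u ∈ (M (i + 1))ᗮ →
    IsFlag (dem M i u) N ∧ ∀ m : Multiset E,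
      J κ ρ A M N m + κ * (A ^ i * (1 - 1 / A)) - A ^ i * (16 / (ρ ^ 2 * A))
        ≤ J κ ρ A (dem M i u) N m + (D ρ A M N i m - D ρ A (dem M i u) N i m)

/-- THIN (521): `kp` = required benefit, `δ` = slack, `c` = thinness -/
def P_THIN (E : Type*) [NormedAddCommGroup E] [InnerProductSpace ℝ E] [FiniteDimensional ℝ E]
    [MeasurableSpace E] [BorelSpace E] (kp δ c : ℝ) : Prop :=
  ∀ (ρ A : ℝ), 0 < ρ → 1 ≤ A → ∀ (M : ℕ → Submodule ℝ E) (N : ℕ), IsFlag M N → ∀ (i : ℕ), i < N →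
    ∀ u : E, ‖u‖ = 1 → u ∈ M i → u ∈ (M (i + 1))ᗮ → (∃ K, Adm ρ (dem M i u) N i K) →
    ∀ (m : Multiset E) (K : Set E), Adm ρ M N i K → val A M N i m K ≤ D ρ A M N i m + δ * A ^ i →
      kp * A ^ i ≤ D ρ A M N i m - D ρ A (dem M i u) N i m →
      mom M N i K u ≤ (1 - c) * g M N i K

/-- GROWTH (456 / 655) -/
def P_GROWTH (E : Type*) [NormedAddCommGroup E] [InnerProductSpace ℝ E] [FiniteDimensional ℝ E]
    [MeasurableSpace E] [BorelSpace E] (C1 C3 C4 η0 : ℝ) : Prop :=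
  ∀ (ρ A : ℝ), 16 ≤ ρ → 1 ≤ A → ∀ (M : ℕ → Submodule ℝ E) (N : ℕ), IsFlag M N →
    ∀ (I : ℕ), I < N → ∀ v : E, ‖v‖ = 1 → v ∈ M I → ‖S M N I v‖ ^ 2 ≤ C3 →
    ∑ j ∈ Ico I N, (th ^ (j - I))⁻¹ * ‖P M j v‖ ≤ C4 →
    ∀ (s : Multiset (E × E)) (η : ℝ), 0 < η → η ≤ η0 →
      2 * L0.S (mrg s) v < L0.S (spl s) v → C1 * η * L0.S (spl s) v = A ^ I →
      D ρ A M N I (mrg s) + 2 / 5 * (A ^ I / C1) ≤ D ρ A M N I (spl s)

/-- T1 (521): tilt estimate for near-maximisers -/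
def P_T1 (E : Type*) [NormedAddCommGroup E] [InnerProductSpace ℝ E] [FiniteDimensional ℝ E]
    [MeasurableSpace E] [BorelSpace E] (κ ρ A C8 e0 : ℝ) : Prop :=
  ∀ (M : ℕ → Submodule ℝ E) (N : ℕ) (m : Multiset E), NearMax κ ρ A M N m e0 →
    ∀ (I : ℕ) (v : E), ‖v‖ = 1 → L0.S m v ≤ A ^ I →
      ∑ i ∈ Ico (I + 1) N, A ^ i * ‖P M i v‖ ^ 2 ≤ C8 * A ^ I

/-- (U3) -/
def P_U3 (E : Type*) [NormedAddCommGroup E] [InnerProductSpace ℝ E] [FiniteDimensional ℝ E]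
    [MeasurableSpace E] [BorelSpace E] (κ ρ A c dl : ℝ) : Prop :=
  ∀ (v : E) (s : Multiset (E × E)), ‖v‖ = 1 →
    c * (L0.S (spl s) v - 2 * L0.S (mrg s) v) - dl ≤ U κ ρ A (spl s) - U κ ρ A (mrg s)

end Crest.Agent.R239.FP456
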