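import Mathlib
import Crest.Agent.R239.FP_456
import Crest.Agent.R239.Mom_764
import Crest.Agent.R239.Dom_640

/-!
R239, helper456: E-level form of the flag potential. File C: level Gaussian API.
-/

set_option autoImplicit false
set_option linter.unusedSectionVars false
set_option linter.unusedVariables false

open Finset Module MeasureTheory ProbabilityTheory
open scoped RealInnerProductSpace

namespace Crest.Agent.R239.FC456

open Crest.Agent.R239.FA456 Crest.Agent.R239.FB456 Crest.Agent.R239.Soft450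

variable {E : Type*} [NormedAddCommGroup E] [InnerProductSpace ℝ E] [FiniteDimensional ℝ E]
  [MeasurableSpace E] [BorelSpace E] {M : ℕ → Submodule ℝ E} {N i : ℕ}

lemma H_S (hM : Antitone M) (x : E) : H M N i (S M N i x) = x := by
  rw [H, S, Op_mul hM, Op_congr N (c' := fun _ => 1), Op_const, one_smul]
  intro j _
  exact mul_inv_cancel₀ (ci_pos i j).ne'

lemma S_H (hM : Antitone M) (x : E) : S M N i (H M N i x) = x := by
  rw [H, S, Op_mul hM, Op_congr N (c' := fun _ => 1), Op_const, one_smul]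
  intro j _
  exact inv_mul_cancel₀ (ci_pos i j).ne'

/-- weights of the precision form -/
noncomputable def om (m : ℕ) : ℝ := (th⁻¹) ^ (2 * m) * (1 - th ^ 2)

lemma om_nonneg (m : ℕ) : 0 ≤ om m := by
  unfold om th
  positivity

/-- the precision form of level `i` -/
noncomputable def prec (M : ℕ → Submodule ℝ E) (N i : ℕ) (x : E) : ℝ :=
  ‖x‖ ^ 2 + ∑ j ∈ Ico (i + 1) N, om (j - i) * ‖P M j x‖ ^ 2

theorem norm_S_sq (hM : Antitone M) (x : E) : ‖S M N i x‖ ^ 2 = prec M N i x := by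
  rw [S, norm_Op_sq hM, prec]
  have h0 : (ci i 0)⁻¹ ^ 2 * ‖x‖ ^ 2 = ‖x‖ ^ 2 := by simp [ci]
  rw [h0]
  congr 1
  symm
  refine sum_subset_zero_on_sdiff (fun j hj => ?_) (fun j hj => ?_) (fun j hj => ?_)
  · exact mem_range.2 (mem_Ico.1 hj).2
  · rw [mem_sdiff, mem_range, mem_Ico] at hj
    have h1 : j ≤ i := by omega
    have h2 : j - i = 0 := by omega
    have h3 : j - 1 - i = 0 := by omega
    simp [ci, h2, h3]
  · rw [mem_Ico] at hj
    have h2 : j + 1 - 1 - i = (j - i - 1) + 1 := by omega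
    have h3 : j - 1 - i = j - i - 1 := by omega
    have h4 : j - i = (j - i - 1) + 1 := by omega
    rw [om, ci, ci, h2, h3, h4]
    simp only [Nat.add_sub_cancel]
    congr 1
    generalize j - i - 1 = n
    have hr : th⁻¹ * th = 1 := inv_mul_cancel₀ th_pos.ne'
    rw [← inv_pow, ← inv_pow]
    generalize th⁻¹ = r at hr ⊢
    linear_combination (-(r ^ (2 * n)) * (1 + r * th)) * hr

lemma norm_H_le (hM : Antitone M) (x : E) : ‖H M N i x‖ ≤ ‖x‖ := by
  have h := norm_Op_mono hM N (c := ci i) (c' := fun _ => 1) (fun j _ => by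
    have h1 := ci_pos i j
    have h2 := ci_le_one i j
    nlinarith) x
  rwa [Op_const, one_smul] at h

lemma P_H (hM : Antitone M) (j : ℕ) (x : E) : P M j (H M N i x) = H M N i (P M j x) :=
  P_Op hM N j _ x

lemma P_S (hM : Antitone M) (j : ℕ) (x : E) : P M j (S M N i x) = S M N i (P M j x) :=
  P_Op hM N j _ x

lemma inner_H_left (x y : E) : ⟪H M N i x, y⟫ = ⟪x, H M N i y⟫ := inner_Op_left N _ x y

lemma inner_S_left (x y : E) : ⟪S M N i x, y⟫ = ⟪x, S M N i y⟫ := inner_Op_left N _ x y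

lemma adjoint_H : (H M N i).adjoint = H M N i := by
  refine ContinuousLinearMap.ext fun x => ext_inner_right ℝ fun y => ?_
  rw [ContinuousLinearMap.adjoint_inner_left, inner_H_left]

/-- contraction on the deep part -/
lemma norm_H_P_le (hM : Antitone M) (hN : M N = ⊥) {j : ℕ} (hj : i ≤ j) (x : E) :
    ‖H M N i (P M j x)‖ ≤ th ^ (j - i) * ‖P M j x‖ := by
  rcases lt_or_ge j N with h | h
  · have e1 : H M N i (P M j x) = Op M N (fun l => ci i l * (if j < l then 1 else 0)) x := by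
      rw [P_eq_Op h, H, Op_mul hM]
    have e2 : th ^ (j - i) * ‖P M j x‖
        = ‖Op M N (fun l => th ^ (j - i) * (if j < l then 1 else 0)) x‖ := by
      have : Op M N (fun l => th ^ (j - i) * (if j < l then 1 else 0)) x
          = (th ^ (j - i)) • P M j x := by
        rw [P_eq_Op h, ← Op_const (M := M) N (th ^ (j - i)), Op_mul hM]
      rw [this, norm_smul, Real.norm_of_nonneg (pow_nonneg th_nonneg _)]
    rw [e1, e2]
    refine norm_Op_mono hM N (fun l _ => ?_) x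
    split_ifs with hl
    · have h1 : ci i l ≤ th ^ (j - i) :=
        pow_le_pow_of_le_one th_nonneg th_le_one (by omega)
      have h2 := ci_pos i l
      nlinarith
    · simp
  · have : M j = ⊥ := le_bot_iff.1 (hN ▸ hM h)
    rw [P_bot this]
    simp

/-- alternative norm formula -/
theorem norm_Op_sq' (hM : Antitone M) (n : ℕ) (c : ℕ → ℝ) (x : E) :
    ‖Op M n c x‖ ^ 2 = c 0 ^ 2 * (‖x‖ ^ 2 - ‖P M 0 x‖ ^ 2)
      + ∑ j ∈ range n, c (j + 1) ^ 2 * (‖P M j x‖ ^ 2 - ‖P M (j + 1) x‖ ^ 2)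
      + c n ^ 2 * ‖P M n x‖ ^ 2 := by
  rw [norm_Op_sq hM]
  induction n with
  | zero => simp; ring
  | succ n ih =>
    rw [sum_range_succ, ← add_assoc, ih, sum_range_succ]
    ring

theorem norm_P_H_sq (hM : Antitone M) (hN : M N = ⊥) {j : ℕ} (hj : i ≤ j) (hjN : j < N) (x : E) :
    ‖P M j (H M N i x)‖ ^ 2
      = ∑ l ∈ Ico j N, th ^ (2 * (l - i)) * (‖P M l x‖ ^ 2 - ‖P M (l + 1) x‖ ^ 2) := by
  have e1 : P M j (H M N i x) = Op M N (fun l => (if j < l then 1 else 0) * ci i l) x := by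
    rw [P_eq_Op hjN, H, Op_mul hM]
  rw [e1, norm_Op_sq' hM, P_bot hN]
  simp only [Nat.not_lt_zero, ite_false, zero_mul, norm_zero]
  have : ∑ l ∈ range N, ((if j < l + 1 then 1 else 0) * ci i (l + 1)) ^ 2
        * (‖P M l x‖ ^ 2 - ‖P M (l + 1) x‖ ^ 2)
      = ∑ l ∈ Ico j N, th ^ (2 * (l - i)) * (‖P M l x‖ ^ 2 - ‖P M (l + 1) x‖ ^ 2) := by
    symm
    refine sum_subset_zero_on_sdiff (fun l hl => ?_) (fun l hl => ?_) (fun l hl => ?_)
    · exact mem_range.2 (mem_Ico.1 hl).2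
    · rw [mem_sdiff, mem_range, mem_Ico] at hl
      have h1 : ¬ (j < l + 1) := by omega
      simp [h1]
    · rw [mem_Ico] at hl
      have h1 : j < l + 1 := by omega
      have h2 : l + 1 - 1 - i = l - i := by omega
      simp only [h1, ite_true, ci, h2, one_mul]
      rw [← pow_mul, mul_comm (l - i) 2]
  rw [this]
  ring

/-- `E ‖P j x‖² = th^(2(j-i)) w j` -/
theorem integral_P_H (hM : Antitone M) (hN : M N = ⊥) {j : ℕ} (hj : i ≤ j) (hjN : j < N) :
    ∫ y, ‖P M j (H M N i y)‖ ^ 2 ∂(stdGaussian E) = th ^ (2 * (j - i)) * w M N j := by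
  simp only [norm_P_H_sq hM hN hj hjN]
  have hint : ∀ l, Integrable (fun y : E => ‖P M l y‖ ^ 2) (stdGaussian E) := fun l =>
    Mom764.integrable_norm_sq (P M l)
  have hint2 : ∀ l ∈ Ico j N, Integrable (fun y : E => th ^ (2 * (l - i))
      * (‖P M l y‖ ^ 2 - ‖P M (l + 1) y‖ ^ 2)) (stdGaussian E) := fun l _ =>
    ((hint l).sub (hint (l + 1))).const_mul _
  rw [integral_finsetSum _ hint2, w, mul_sum]
  refine sum_congr rfl fun l hl => ?_
  rw [mem_Ico] at hl
  rw [integral_const_mul, integral_sub (hint l) (hint (l + 1)),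
    Mom764.integral_norm_sq_starProjection, Mom764.integral_norm_sq_starProjection,
    bdim_cast hM, ← mul_assoc, ← pow_add]
  congr 2
  omega

lemma w_rec {j : ℕ} (hj : j < N) : w M N j = bdim M j + th ^ 2 * w M N (j + 1) := by
  rw [w, w, sum_eq_sum_Ico_succ_bot hj, mul_sum]
  simp only [Nat.sub_self, mul_zero, pow_zero, one_mul]
  congr 1
  refine sum_congr rfl fun l hl => ?_
  rw [mem_Ico] at hl
  rw [← mul_assoc, ← pow_add]
  congr 2
  omega

lemma w_top {j : ℕ} (hj : N ≤ j) : w M N j = 0 := by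
  rw [w, Ico_eq_empty (by omega), sum_empty]

lemma capr_pos {ρ : ℝ} (hρ : 0 < ρ) (i j : ℕ) : 0 < capr ρ M N i j := by
  unfold capr
  have h1 := pow_pos th_pos (j - i)
  have h2 : 0 < √(1 + w M N j) := Real.sqrt_pos.2 (by linarith [w_nonneg M N j])
  positivity

lemma capr_sq {ρ : ℝ} (i j : ℕ) :
    capr ρ M N i j ^ 2 = ρ ^ 2 * (th ^ (2 * (j - i)) * (1 + w M N j)) := by
  unfold capr
  rw [mul_pow, mul_pow, Real.sq_sqrt (by linarith [w_nonneg M N j]), ← pow_mul, mul_comm (j - i) 2]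
  ring

/-- radius at least `ρ th^(j-i)` -/
lemma le_capr {ρ : ℝ} (hρ : 0 ≤ ρ) (i j : ℕ) : ρ * th ^ (j - i) ≤ capr ρ M N i j := by
  unfold capr
  have h1 := pow_pos th_pos (j - i)
  have h2 : 1 ≤ √(1 + w M N j) := Real.one_le_sqrt.2 (by linarith [w_nonneg M N j])
  calc ρ * th ^ (j - i) = ρ * th ^ (j - i) * 1 := (mul_one _).symm
    _ ≤ _ := by gcongr

/-- the set-theoretic preimage inherits everything -/
lemma pre_closed {K : Set E} (hK : IsClosed K) : IsClosed (H M N i ⁻¹' K) :=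
  hK.preimage (H M N i).continuous

lemma pre_convex {K : Set E} (hK : Convex ℝ K) : Convex ℝ (H M N i ⁻¹' K) :=
  hK.linear_preimage (H M N i).toLinearMap

lemma pre_symm {K : Set E} (hK : ∀ x ∈ K, -x ∈ K) : ∀ x ∈ H M N i ⁻¹' K, -x ∈ H M N i ⁻¹' K := by
  intro x hx
  show H M N i (-x) ∈ K
  rw [map_neg]
  exact hK _ hx

/-- one cap cut -/
theorem cut_one {ρ : ℝ} (hρ : 0 < ρ) (hM : Antitone M) (hN : M N = ⊥) {K : Set E}
    (hc : IsClosed K) (hv : Convex ℝ K) (hs : ∀ x ∈ K, -x ∈ K) {j : ℕ} (hj : j ∈ Ico i N) :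
    (1 - 1 / ρ ^ 2) * g M N i K ≤ g M N i (K ∩ {x | ‖P M j x‖ ≤ capr ρ M N i j}) := by
  rw [mem_Ico] at hj
  have h := Dom640.cut (K := H M N i ⁻¹' K) (pre_closed hc).measurableSet (pre_convex hv)
    (pre_symm hs) ((P M j) ∘L (H M N i)) (capr_pos (M := M) (N := N) hρ i j)
  have hint : ∫ x, ‖((P M j) ∘L (H M N i)) x‖ ^ 2 ∂(stdGaussian E)
      = th ^ (2 * (j - i)) * w M N j := by
    simpa using integral_P_H hM hN hj.1 hj.2
  rw [hint, capr_sq] at h
  refine le_trans ?_ h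
  refine mul_le_mul_of_nonneg_right ?_ measureReal_nonneg
  have h1 := pow_pos th_pos (2 * (j - i))
  have h2 := w_nonneg M N j
  have h3 : th ^ (2 * (j - i)) * w M N j / (ρ ^ 2 * (th ^ (2 * (j - i)) * (1 + w M N j)))
      ≤ 1 / ρ ^ 2 := by
    rw [div_le_div_iff₀ (by positivity) (by positivity)]
    have : 0 < ρ ^ 2 := by positivity
    nlinarith [mul_pos this h1]
  linarith

lemma capset_closed {j : ℕ} {r : ℝ} : IsClosed {x : E | ‖P M j x‖ ≤ r} :=
  isClosed_le (by fun_prop) continuous_const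

lemma capset_convex {j : ℕ} {r : ℝ} : Convex ℝ {x : E | ‖P M j x‖ ≤ r} := by
  intro x hx y hy a b ha hb hab
  simp only [Set.mem_ofPred_eq] at hx hy ⊢
  rw [map_add, map_smul, map_smul]
  refine (norm_add_le _ _).trans ?_
  rw [norm_smul, norm_smul, Real.norm_of_nonneg ha, Real.norm_of_nonneg hb]
  calc a * ‖P M j x‖ + b * ‖P M j y‖ ≤ a * r + b * r := by gcongr
    _ = r := by rw [← add_mul, hab, one_mul]

/-- the set of points satisfying the caps in `J` -/
def capsOn (ρ : ℝ) (M : ℕ → Submodule ℝ E) (N i : ℕ) (J : Finset ℕ) : Set E :=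
  {x | ∀ j ∈ J, ‖P M j x‖ ≤ capr ρ M N i j}

lemma capsOn_closed {ρ : ℝ} (J : Finset ℕ) : IsClosed (capsOn ρ M N i J) := by
  have : capsOn ρ M N i J = ⋂ j ∈ J, {x : E | ‖P M j x‖ ≤ capr ρ M N i j} := by
    ext x; simp [capsOn]
  rw [this]
  exact isClosed_biInter fun j _ => capset_closed

lemma capsOn_convex {ρ : ℝ} (J : Finset ℕ) : Convex ℝ (capsOn ρ M N i J) := by
  have : capsOn ρ M N i J = ⋂ j ∈ J, {x : E | ‖P M j x‖ ≤ capr ρ M N i j} := by
    ext x; simp [capsOn]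
  rw [this]
  exact convex_iInter₂ fun j _ => capset_convex

lemma capsOn_symm {ρ : ℝ} (J : Finset ℕ) : ∀ x ∈ capsOn ρ M N i J, -x ∈ capsOn ρ M N i J := by
  intro x hx j hj
  rw [map_neg, norm_neg]
  exact hx j hj

/-- several cap cuts -/
theorem cut_many {ρ : ℝ} (hρ : 1 ≤ ρ) (hM : Antitone M) (hN : M N = ⊥) {K : Set E}
    (hc : IsClosed K) (hv : Convex ℝ K) (hs : ∀ x ∈ K, -x ∈ K) (J : Finset ℕ) (hJ : J ⊆ Ico i N) :
    (1 - 1 / ρ ^ 2) ^ J.card * g M N i K ≤ g M N i (K ∩ capsOn ρ M N i J) := by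
  have h0 : 0 ≤ 1 - 1 / ρ ^ 2 := by
    have : 1 / ρ ^ 2 ≤ 1 := by
      rw [div_le_one (by positivity)]
      nlinarith
    linarith
  induction J using Finset.induction_on with
  | empty =>
    simp only [card_empty, pow_zero, one_mul]
    exact g_mono fun x hx => ⟨hx, by simp [capsOn]⟩
  | insert a J ha ih =>
    have h1 := ih (fun x hx => hJ (mem_insert_of_mem hx))
    have hs' : ∀ x ∈ K ∩ capsOn ρ M N i J, -x ∈ K ∩ capsOn ρ M N i J :=
      fun x hx => ⟨hs x hx.1, capsOn_symm J x hx.2⟩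
    have h2 := cut_one (ρ := ρ) (by linarith) hM hN (K := K ∩ capsOn ρ M N i J)
      (hc.inter (capsOn_closed J)) (hv.inter (capsOn_convex J))
      hs' (hJ (mem_insert_self a J))
    rw [card_insert_of_notMem ha, pow_succ]
    calc (1 - 1 / ρ ^ 2) ^ J.card * (1 - 1 / ρ ^ 2) * g M N i K
        = (1 - 1 / ρ ^ 2) * ((1 - 1 / ρ ^ 2) ^ J.card * g M N i K) := by ring
      _ ≤ (1 - 1 / ρ ^ 2) * g M N i (K ∩ capsOn ρ M N i J) := by gcongr
      _ ≤ _ := h2
      _ ≤ _ := by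
        refine g_mono fun x hx => ⟨hx.1.1, fun j hj => ?_⟩
        rcases Finset.mem_insert.1 hj with rfl | hj
        · exact hx.2
        · exact hx.1.2 j hj

lemma neglog_one_sub {x : ℝ} (h0 : 0 ≤ x) (h1 : x ≤ 1 / 2) : - Real.log (1 - x) ≤ 2 * x := by
  have h := Real.one_sub_inv_le_log_of_pos (x := 1 - x) (by linarith)
  have h2 : (1 - x)⁻¹ ≤ 1 + 2 * x := by
    rw [inv_le_comm₀ (by linarith) (by linarith)]
    rw [inv_le_iff_one_le_mul₀ (by linarith)]
    nlinarith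
  linarith

/-- the log form of `cut_many` -/
theorem cut_log {ρ : ℝ} (hρ : 2 ≤ ρ) (hM : Antitone M) (hN : M N = ⊥) {K : Set E}
    (hc : IsClosed K) (hv : Convex ℝ K) (hs : ∀ x ∈ K, -x ∈ K) (J : Finset ℕ) (hJ : J ⊆ Ico i N)
    (hp : 0 < g M N i K) :
    0 < g M N i (K ∩ capsOn ρ M N i J) ∧
    - Real.log (g M N i (K ∩ capsOn ρ M N i J))
      ≤ - Real.log (g M N i K) + J.card * (2 / ρ ^ 2) := by
  have h := cut_many (ρ := ρ) (i := i) (by linarith) hM hN hc hv hs J hJ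
  have hx : 1 / ρ ^ 2 ≤ 1 / 2 := by
    rw [div_le_div_iff₀ (by positivity) (by norm_num)]
    nlinarith
  have hx0 : 0 < 1 / ρ ^ 2 := by positivity
  have h1 : 0 < 1 - 1 / ρ ^ 2 := by linarith
  have hpos : 0 < (1 - 1 / ρ ^ 2) ^ J.card * g M N i K := by positivity
  refine ⟨hpos.trans_le h, ?_⟩
  have h2 := Real.log_le_log hpos h
  rw [Real.log_mul (pow_pos h1 _).ne' hp.ne', Real.log_pow] at h2
  have h3 := neglog_one_sub hx0.le hx
  have h4 : (J.card : ℝ) * (- Real.log (1 - 1 / ρ ^ 2)) ≤ J.card * (2 * (1 / ρ ^ 2)) := by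
    gcongr
  have h5 : (J.card : ℝ) * (2 * (1 / ρ ^ 2)) = J.card * (2 / ρ ^ 2) := by ring
  linarith

lemma g_univ : g M N i (Set.univ : Set E) = 1 := by simp [g]

/-- the cap body is admissible -/
theorem adm_caps {ρ : ℝ} (hρ : 2 ≤ ρ) (hM : Antitone M) (hN : M N = ⊥) :
    Adm ρ M N i (capsOn ρ M N i (Ico i N)) := by
  have h := cut_log (i := i) hρ hM hN (K := Set.univ) isClosed_univ convex_univ
    (fun x _ => Set.mem_univ _) (Ico i N) subset_rfl (by rw [g_univ]; norm_num)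
  rw [Set.univ_inter] at h
  exact ⟨capsOn_closed _, capsOn_convex _, capsOn_symm _, h.1, fun j hj x hx => hx j hj⟩

theorem adm_exists {ρ : ℝ} (hρ : 2 ≤ ρ) (hM : Antitone M) (hN : M N = ⊥) :
    ∃ K, Adm ρ M N i K := ⟨_, adm_caps hρ hM hN⟩

/-- admissible bodies by cutting all caps in `J`, the others being given -/
theorem adm_cut {ρ : ℝ} (hρ : 2 ≤ ρ) (hM : Antitone M) (hN : M N = ⊥) {K : Set E}
    (hc : IsClosed K) (hv : Convex ℝ K) (hs : ∀ x ∈ K, -x ∈ K) (hp : 0 < g M N i K)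
    (J : Finset ℕ) (hJ : J ⊆ Ico i N)
    (hcap : ∀ j ∈ Ico i N, j ∉ J → ∀ x ∈ K, ‖P M j x‖ ≤ capr ρ M N i j) :
    Adm ρ M N i (K ∩ capsOn ρ M N i J) := by
  refine ⟨hc.inter (capsOn_closed _), hv.inter (capsOn_convex _),
    fun x hx => ⟨hs x hx.1, capsOn_symm _ x hx.2⟩, (cut_log hρ hM hN hc hv hs J hJ hp).1, ?_⟩
  intro j hj x hx
  by_cases h : j ∈ J
  · exact hx.2 j h
  · exact hcap j hj h x hx.1

/-- variance of a linear form -/
theorem integral_inner_H (u : E) :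
    ∫ y, ⟪u, H M N i y⟫ ^ 2 ∂(stdGaussian E) = ‖H M N i u‖ ^ 2 := by
  rw [Mom764.integral_inner_map_sq, adjoint_H]

end Crest.Agent.R239.FC456
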