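import Mathlib
import Crest.Agent.R239.FC_456

/-!
R239, helper456: E-level form of the flag potential, ellipsoid caps, one grid, Abel penalty.
Definitions and soft layer (version 2, for LINE D of helper859).
-/

set_option autoImplicit false
set_option linter.unusedSectionVars false
set_option linter.unusedVariables false

open Finset Module MeasureTheory ProbabilityTheory
open scoped RealInnerProductSpace

namespace Crest.Agent.R239.FB2

open Crest.Agent.R239.FA456 Crest.Agent.R239.Soft450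
open Crest.Agent.R239.FB456 (th th_pos th_nonneg th_lt_one th_le_one ci ci_pos ci_le_one H S g
  g_nonneg g_le_one g_mono hs)
open Crest.Agent.R239.FC456 (pre_closed pre_convex pre_symm g_univ norm_P_H_sq neglog_one_sub)
open Crest.Agent.R239.L0 (mrg spl)

variable {E : Type*} [NormedAddCommGroup E] [InnerProductSpace ℝ E] [FiniteDimensional ℝ E]
  [MeasurableSpace E] [BorelSpace E]

def IsFlag (M : ℕ → Submodule ℝ E) (N : ℕ) : Prop := Antitone M ∧ M N = ⊥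

/-- coefficients of the cap norm -/
noncomputable def cN (i l : ℕ) : ℝ := if i < l then √((th⁻¹) ^ (l - 1 - i)) else 0

/-- the cap norm `‖BN x‖² = Σ_{j ≥ i} th^{-(j-i)} ‖blk j x‖²` -/
noncomputable def BN (M : ℕ → Submodule ℝ E) (N i : ℕ) : E →L[ℝ] E := Op M N (cN i)

noncomputable def rr (M : ℕ → Submodule ℝ E) (N i : ℕ) : ℝ :=
  ∑ j ∈ Ico i N, th ^ (j - i) * (bdim M j : ℝ)

/-- the cap radius -/
noncomputable def cr (ρ : ℝ) (M : ℕ → Submodule ℝ E) (N i : ℕ) : ℝ := ρ * √(rr M N i)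

structure Adm (ρ : ℝ) (M : ℕ → Submodule ℝ E) (N i : ℕ) (K : Set E) : Prop where
  closed : IsClosed K
  conv : Convex ℝ K
  symm : ∀ x ∈ K, -x ∈ K
  pos : 0 < g M N i K
  cap : ∀ x ∈ K, ‖BN M N i x‖ ≤ cr ρ M N i

noncomputable def val (A : ℝ) (M : ℕ → Submodule ℝ E) (N i : ℕ) (m : Multiset E) (K : Set E) : ℝ :=
  (m.map (hs M i K)).sum - A ^ i * Real.log (g M N i K)

noncomputable def D (ρ A : ℝ) (M : ℕ → Submodule ℝ E) (N i : ℕ) (m : Multiset E) : ℝ :=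
  sInf (val A M N i m '' {K | Adm ρ M N i K})

/-- increments of the grid -/
noncomputable def inc (A : ℝ) : ℕ → ℝ
  | 0 => 1
  | i + 1 => A ^ (i + 1) - A ^ i

lemma sum_inc (A : ℝ) (n : ℕ) : ∑ i ∈ range (n + 1), inc A i = A ^ n := by
  induction n with
  | zero => simp [inc]
  | succ n ih => rw [sum_range_succ, ih, inc]; ring

lemma inc_nonneg {A : ℝ} (hA : 1 ≤ A) (i : ℕ) : 0 ≤ inc A i := by
  cases i with
  | zero => simp [inc]
  | succ n =>
    have : A ^ n ≤ A ^ (n + 1) := pow_le_pow_right₀ hA (by omega)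
    simp only [inc]; linarith

noncomputable def J (κ ρ A : ℝ) (M : ℕ → Submodule ℝ E) (N : ℕ) (m : Multiset E) : ℝ :=
  ∑ i ∈ range N, (D ρ A M N i m - κ * (inc A i * (finrank ℝ (M i) : ℝ)))

noncomputable def U (κ ρ A : ℝ) (m : Multiset E) : ℝ :=
  sSup {t | ∃ (M : ℕ → Submodule ℝ E) (N : ℕ), IsFlag M N ∧ t = J κ ρ A M N m}

/-- near-maximiser -/
def NearMax (κ ρ A : ℝ) (M : ℕ → Submodule ℝ E) (N : ℕ) (m : Multiset E) (e : ℝ) : Prop :=
  IsFlag M N ∧ ∀ (M' : ℕ → Submodule ℝ E) (N' : ℕ), IsFlag M' N' →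
    J κ ρ A M' N' m ≤ J κ ρ A M N m + e

section soft

variable {M : ℕ → Submodule ℝ E} {N i : ℕ} {ρ A κ : ℝ} {K : Set E}

lemma IsFlag.bot_of_le (h : IsFlag M N) {j : ℕ} (hj : N ≤ j) : M j = ⊥ :=
  le_bot_iff.1 (h.2 ▸ h.1 hj)

lemma norm_BN_sq (h : IsFlag M N) (x : E) :
    ‖BN M N i x‖ ^ 2 = ∑ j ∈ Ico i N, (th⁻¹) ^ (j - i) * (‖P M j x‖ ^ 2 - ‖P M (j + 1) x‖ ^ 2) := by
  rw [BN, FC456.norm_Op_sq' h.1, P_bot h.2]
  have h0 : cN i 0 = 0 := by simp [cN]
  rw [h0, norm_zero]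
  have : ∑ l ∈ range N, cN i (l + 1) ^ 2 * (‖P M l x‖ ^ 2 - ‖P M (l + 1) x‖ ^ 2)
      = ∑ j ∈ Ico i N, (th⁻¹) ^ (j - i) * (‖P M j x‖ ^ 2 - ‖P M (j + 1) x‖ ^ 2) := by
    symm
    refine sum_subset_zero_on_sdiff (fun l hl => ?_) (fun l hl => ?_) (fun l hl => ?_)
    · exact mem_range.2 (mem_Ico.1 hl).2
    · rw [mem_sdiff, mem_range, mem_Ico] at hl
      have h1 : ¬ (i < l + 1) := by omega
      simp [cN, h1]
    · rw [mem_Ico] at hl
      have h1 : i < l + 1 := by omega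
      have h2 : l + 1 - 1 - i = l - i := by omega
      rw [cN, if_pos h1, h2, Real.sq_sqrt (pow_nonneg (inv_nonneg.2 th_nonneg) _)]
  rw [this]
  ring

lemma norm_BN_sq_blk (h : IsFlag M N) (x : E) :
    ‖BN M N i x‖ ^ 2 = ∑ j ∈ Ico i N, (th⁻¹) ^ (j - i) * ‖blk M j x‖ ^ 2 := by
  rw [norm_BN_sq h]
  exact sum_congr rfl fun j _ => by rw [norm_blk_sq h.1]

/-- weights of the cap form -/
noncomputable def omN (m : ℕ) : ℝ := (th⁻¹) ^ m * (1 - th)

lemma omN_nonneg (m : ℕ) : 0 ≤ omN m := by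
  unfold omN th
  positivity

lemma norm_BN_sq_P (h : IsFlag M N) (hi : i < N) (x : E) :
    ‖BN M N i x‖ ^ 2 = ‖P M i x‖ ^ 2 + ∑ j ∈ Ico (i + 1) N, omN (j - i) * ‖P M j x‖ ^ 2 := by
  rw [BN, norm_Op_sq h.1]
  have h0 : cN i 0 = 0 := by simp [cN]
  rw [h0]
  have e : ∑ j ∈ range N, (cN i (j + 1) ^ 2 - cN i j ^ 2) * ‖P M j x‖ ^ 2
      = ∑ j ∈ Ico i N, (cN i (j + 1) ^ 2 - cN i j ^ 2) * ‖P M j x‖ ^ 2 := by
    symm
    refine sum_subset_zero_on_sdiff (fun l hl => ?_) (fun l hl => ?_) (fun l hl => rfl)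
    · exact mem_range.2 (mem_Ico.1 hl).2
    · rw [mem_sdiff, mem_range, mem_Ico] at hl
      have h1 : ¬ (i < l + 1) := by omega
      have h2 : ¬ (i < l) := by omega
      simp [cN, h1, h2]
  rw [e, sum_eq_sum_Ico_succ_bot hi]
  have h1 : cN i (i + 1) = 1 := by
    have : i + 1 - 1 - i = 0 := by omega
    simp [cN]
  have h2 : cN i i = 0 := by simp [cN]
  rw [h1, h2]
  simp only [one_pow, ne_eq, OfNat.ofNat_ne_zero, not_false_eq_true, zero_pow, zero_mul, sub_zero,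
    one_mul, zero_add]
  congr 1
  refine sum_congr rfl fun l hl => ?_
  rw [mem_Ico] at hl
  have h3 : i < l + 1 := by omega
  have h4 : i < l := by omega
  have h5 : l + 1 - 1 - i = (l - i - 1) + 1 := by omega
  have h6 : l - 1 - i = l - i - 1 := by omega
  have h7 : l - i = (l - i - 1) + 1 := by omega
  rw [cN, cN, if_pos h3, if_pos h4, h5, h6, Real.sq_sqrt (pow_nonneg (inv_nonneg.2 th_nonneg) _),
    Real.sq_sqrt (pow_nonneg (inv_nonneg.2 th_nonneg) _), omN, h7]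
  simp only [Nat.add_sub_cancel]
  congr 1
  generalize l - i - 1 = n
  have hr : th⁻¹ * th = 1 := inv_mul_cancel₀ th_pos.ne'
  generalize th⁻¹ = r at hr ⊢
  linear_combination (r ^ n) * hr

lemma rr_nonneg (M : ℕ → Submodule ℝ E) (N i : ℕ) : 0 ≤ rr M N i :=
  sum_nonneg fun _ _ => mul_nonneg (pow_nonneg th_nonneg _) (Nat.cast_nonneg _)

lemma cr_nonneg (hρ : 0 ≤ ρ) (M : ℕ → Submodule ℝ E) (N i : ℕ) : 0 ≤ cr ρ M N i :=
  mul_nonneg hρ (Real.sqrt_nonneg _)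

lemma cr_sq (M : ℕ → Submodule ℝ E) (N i : ℕ) : cr ρ M N i ^ 2 = ρ ^ 2 * rr M N i := by
  rw [cr, mul_pow, Real.sq_sqrt (rr_nonneg M N i)]

lemma norm_P_le_BN (h : IsFlag M N) (x : E) : ‖P M i x‖ ≤ ‖BN M N i x‖ := by
  rcases lt_or_ge i N with hi | hi
  · have h1 := norm_BN_sq_P h hi x
    have h2 : 0 ≤ ∑ j ∈ Ico (i + 1) N, omN (j - i) * ‖P M j x‖ ^ 2 :=
      sum_nonneg fun j _ => mul_nonneg (omN_nonneg _) (sq_nonneg _)
    exact (pow_le_pow_iff_left₀ (norm_nonneg _) (norm_nonneg _) two_ne_zero).1 (by linarith)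
  · rw [P_bot (h.bot_of_le hi), norm_zero]
    exact norm_nonneg _

/-- `E ‖BN x‖² = rr` -/
theorem integral_BN (h : IsFlag M N) :
    ∫ y, ‖BN M N i (H M N i y)‖ ^ 2 ∂(stdGaussian E) = rr M N i := by
  have key : ∀ y : E, ‖BN M N i (H M N i y)‖ ^ 2
      = ∑ j ∈ Ico i N, th ^ (j - i) * (‖P M j y‖ ^ 2 - ‖P M (j + 1) y‖ ^ 2) := by
    intro y
    rw [norm_BN_sq h]
    refine sum_congr rfl fun j hj => ?_
    rw [mem_Ico] at hj
    have e1 : ‖P M j (H M N i y)‖ ^ 2 - ‖P M (j + 1) (H M N i y)‖ ^ 2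
        = th ^ (2 * (j - i)) * (‖P M j y‖ ^ 2 - ‖P M (j + 1) y‖ ^ 2) := by
      rw [norm_P_H_sq h.1 h.2 hj.1 hj.2, sum_eq_sum_Ico_succ_bot hj.2]
      rcases lt_or_ge (j + 1) N with hj1 | hj1
      · rw [norm_P_H_sq h.1 h.2 (by omega) hj1]
        ring
      · rw [P_bot (h.bot_of_le hj1) y, P_bot (h.bot_of_le hj1) (H M N i y),
          Ico_eq_empty (by omega), sum_empty, norm_zero]
        ring
    rw [e1, ← mul_assoc]
    congr 1
    rw [two_mul, pow_add, ← mul_assoc, inv_pow, inv_mul_cancel₀ (pow_pos th_pos _).ne', one_mul]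
  simp only [key]
  have hint : ∀ l, Integrable (fun y : E => ‖P M l y‖ ^ 2) (stdGaussian E) := fun l =>
    Mom764.integrable_norm_sq (P M l)
  have hint2 : ∀ l ∈ Ico i N, Integrable (fun y : E => th ^ (l - i)
      * (‖P M l y‖ ^ 2 - ‖P M (l + 1) y‖ ^ 2)) (stdGaussian E) := fun l _ =>
    ((hint l).sub (hint (l + 1))).const_mul _
  rw [integral_finsetSum _ hint2, rr]
  refine sum_congr rfl fun l hl => ?_
  rw [integral_const_mul, integral_sub (hint l) (hint (l + 1)),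
    Mom764.integral_norm_sq_starProjection, Mom764.integral_norm_sq_starProjection,
    bdim_cast h.1]

/-- the cap -/
def cap (ρ : ℝ) (M : ℕ → Submodule ℝ E) (N i : ℕ) : Set E := {x | ‖BN M N i x‖ ≤ cr ρ M N i}

lemma cap_closed : IsClosed (cap ρ M N i) := isClosed_le (by fun_prop) continuous_const

lemma cap_convex : Convex ℝ (cap ρ M N i) := by
  intro x hx y hy a b ha hb hab
  simp only [cap, Set.mem_ofPred_eq] at hx hy ⊢
  rw [map_add, map_smul, map_smul]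
  refine (norm_add_le _ _).trans ?_
  rw [norm_smul, norm_smul, Real.norm_of_nonneg ha, Real.norm_of_nonneg hb]
  calc a * ‖BN M N i x‖ + b * ‖BN M N i y‖ ≤ a * cr ρ M N i + b * cr ρ M N i := by gcongr
    _ = cr ρ M N i := by rw [← add_mul, hab, one_mul]

lemma cap_symm : ∀ x ∈ cap ρ M N i, -x ∈ cap ρ M N i := by
  intro x hx
  simp only [cap, Set.mem_ofPred_eq] at hx ⊢
  rwa [map_neg, norm_neg]

lemma rr_zero (h : IsFlag M N) (h0 : rr M N i = 0) (x : E) : BN M N i x = 0 := by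
  have h1 := (sum_eq_zero_iff_of_nonneg (fun j _ => mul_nonneg (pow_nonneg th_nonneg (j - i))
    (Nat.cast_nonneg (bdim M j)))).1 h0
  have h2 : ‖BN M N i x‖ ^ 2 = 0 := by
    rw [norm_BN_sq h]
    refine sum_eq_zero fun j hj => ?_
    have h3 := h1 j hj
    have h4 : (bdim M j : ℝ) = 0 := by
      rcases mul_eq_zero.1 h3 with h | h
      · exact absurd h (pow_pos th_pos _).ne'
      · exact h
    rw [bdim_cast h.1, sub_eq_zero, Nat.cast_inj] at h4
    have h5 : M (j + 1) = M j := Submodule.eq_of_le_of_finrank_eq (h.1 (Nat.le_succ j)) h4.symm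
    have h6 : P M (j + 1) x = P M j x := by
      show (M (j + 1)).starProjection x = (M j).starProjection x
      congr 1
      rw [h5]
    rw [h6]; ring
  exact norm_eq_zero.1 (pow_eq_zero_iff two_ne_zero |>.1 h2)

/-- one cut per level -/
theorem cut_one (hρ : 0 < ρ) (h : IsFlag M N) (hc : IsClosed K) (hv : Convex ℝ K)
    (hs : ∀ x ∈ K, -x ∈ K) : (1 - 1 / ρ ^ 2) * g M N i K ≤ g M N i (K ∩ cap ρ M N i) := by
  rcases (rr_nonneg M N i).eq_or_lt with h0 | h0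
  · have : K ∩ cap ρ M N i = K := by
      refine Set.inter_eq_left.2 fun x _ => ?_
      simp [cap, rr_zero h h0.symm x, cr, ← h0]
    rw [this]
    have h1 := g_nonneg (M := M) (N := N) (i := i) K
    have h2 : 0 ≤ 1 / ρ ^ 2 := by positivity
    nlinarith
  · have hr : 0 < cr ρ M N i := mul_pos hρ (Real.sqrt_pos.2 h0)
    have h1 := Dom640.cut (K := H M N i ⁻¹' K) (pre_closed hc).measurableSet (pre_convex hv)
      (pre_symm hs) ((BN M N i) ∘L (H M N i)) hr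
    have hint : ∫ x, ‖((BN M N i) ∘L (H M N i)) x‖ ^ 2 ∂(stdGaussian E) = rr M N i := by
      simpa using integral_BN (i := i) h
    rw [hint, cr_sq] at h1
    have h2 : rr M N i / (ρ ^ 2 * rr M N i) = 1 / ρ ^ 2 := by
      field_simp
    rw [h2] at h1
    exact h1

theorem cut_log (hρ : 2 ≤ ρ) (h : IsFlag M N) (hc : IsClosed K) (hv : Convex ℝ K)
    (hs : ∀ x ∈ K, -x ∈ K) (hp : 0 < g M N i K) :
    0 < g M N i (K ∩ cap ρ M N i) ∧
    - Real.log (g M N i (K ∩ cap ρ M N i)) ≤ - Real.log (g M N i K) + 2 / ρ ^ 2 := by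
  have h1 := cut_one (ρ := ρ) (i := i) (by linarith) h hc hv hs
  have hx : 1 / ρ ^ 2 ≤ 1 / 2 := by
    rw [div_le_div_iff₀ (by positivity) (by norm_num)]
    nlinarith
  have hx0 : 0 < 1 / ρ ^ 2 := by positivity
  have h2 : 0 < 1 - 1 / ρ ^ 2 := by linarith
  have hpos : 0 < (1 - 1 / ρ ^ 2) * g M N i K := by positivity
  refine ⟨hpos.trans_le h1, ?_⟩
  have h3 := Real.log_le_log hpos h1
  rw [Real.log_mul h2.ne' hp.ne'] at h3
  have h4 := neglog_one_sub hx0.le hx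
  have h5 : 2 * (1 / ρ ^ 2) = 2 / ρ ^ 2 := by ring
  linarith

theorem adm_cut (hρ : 2 ≤ ρ) (h : IsFlag M N) (hc : IsClosed K) (hv : Convex ℝ K)
    (hs : ∀ x ∈ K, -x ∈ K) (hp : 0 < g M N i K) : Adm ρ M N i (K ∩ cap ρ M N i) :=
  ⟨hc.inter cap_closed, hv.inter cap_convex, fun x hx => ⟨hs x hx.1, cap_symm x hx.2⟩,
    (cut_log hρ h hc hv hs hp).1, fun x hx => hx.2⟩

theorem adm_cap (hρ : 2 ≤ ρ) (h : IsFlag M N) : Adm ρ M N i (cap ρ M N i) := by
  have := adm_cut (i := i) hρ h (K := Set.univ) isClosed_univ convex_univ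
    (fun x _ => Set.mem_univ _) (by rw [g_univ]; norm_num)
  rwa [Set.univ_inter] at this

theorem adm_exists (hρ : 2 ≤ ρ) (h : IsFlag M N) : ∃ K, Adm ρ M N i K := ⟨_, adm_cap hρ h⟩

lemma Adm.nonempty (h : Adm ρ M N i K) : K.Nonempty := by
  by_contra hc
  rw [Set.not_nonempty_iff_eq_empty] at hc
  have := h.pos
  rw [hc] at this
  simp [g] at this

lemma Adm.zero_mem (h : Adm ρ M N i K) : (0 : E) ∈ K := by
  obtain ⟨x, hx⟩ := h.nonempty
  have := h.conv hx (h.symm x hx) (a := 1 / 2) (b := 1 / 2) (by norm_num) (by norm_num) (by norm_num)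
  simpa using this

lemma Adm.bdd (h : Adm ρ M N i K) (hF : IsFlag M N) (z : E) :
    BddAbove ((fun x => ⟪z, P M i x⟫) '' K) := by
  refine ⟨‖z‖ * cr ρ M N i, ?_⟩
  rintro _ ⟨x, hx, rfl⟩
  exact (real_inner_le_norm _ _).trans
    (mul_le_mul_of_nonneg_left ((norm_P_le_BN hF x).trans (h.cap x hx)) (norm_nonneg _))

lemma Adm.le_hs (h : Adm ρ M N i K) (hF : IsFlag M N) {x : E} (hx : x ∈ K) (z : E) :
    ⟪z, P M i x⟫ ≤ hs M i K z := le_csSup (h.bdd hF z) ⟨x, hx, rfl⟩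

lemma hs_le (hne : K.Nonempty) {z : E} {C : ℝ} (h : ∀ x ∈ K, ⟪z, P M i x⟫ ≤ C) :
    hs M i K z ≤ C := by
  refine csSup_le (hne.image _) ?_
  rintro _ ⟨x, hx, rfl⟩
  exact h x hx

lemma Adm.hs_nonneg (h : Adm ρ M N i K) (hF : IsFlag M N) (z : E) : 0 ≤ hs M i K z := by
  have := h.le_hs hF h.zero_mem z
  simpa using this

lemma Adm.hs_add (h : Adm ρ M N i K) (hF : IsFlag M N) (y z : E) :
    hs M i K (y + z) ≤ hs M i K y + hs M i K z := by
  refine hs_le h.nonempty fun x hx => ?_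
  rw [inner_add_left]
  exact add_le_add (h.le_hs hF hx y) (h.le_hs hF hx z)

lemma sum_map_le {α : Type*} (m : Multiset α) {f f' : α → ℝ} (h : ∀ z ∈ m, f z ≤ f' z) :
    (m.map f).sum ≤ (m.map f').sum := Multiset.sum_map_le_sum_map f f' h

lemma Adm.sum_nonneg (h : Adm ρ M N i K) (hF : IsFlag M N) (m : Multiset E) :
    0 ≤ (m.map (hs M i K)).sum := by
  refine Multiset.sum_nonneg fun x hx => ?_
  obtain ⟨z, _, rfl⟩ := Multiset.mem_map.1 hx
  exact h.hs_nonneg hF z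

lemma neglog_nonneg (K : Set E) (hA : 0 ≤ A) : 0 ≤ - (A ^ i * Real.log (g M N i K)) := by
  have h1 : Real.log (g M N i K) ≤ 0 := Real.log_nonpos (g_nonneg K) (g_le_one K)
  have h2 : 0 ≤ A ^ i := pow_nonneg hA i
  nlinarith

lemma Adm.val_nonneg (h : Adm ρ M N i K) (hF : IsFlag M N) (hA : 0 ≤ A) (m : Multiset E) :
    0 ≤ val A M N i m K := by
  unfold val
  have h1 := h.sum_nonneg hF m
  have h2 := neglog_nonneg (M := M) (N := N) (i := i) K hA
  linarith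

lemma bddBelow (hF : IsFlag M N) (hA : 0 ≤ A) (m : Multiset E) :
    BddBelow (val A M N i m '' {K | Adm ρ M N i K}) := by
  refine ⟨0, ?_⟩
  rintro _ ⟨K, hK, rfl⟩
  exact Adm.val_nonneg hK hF hA m

lemma D_le (h : Adm ρ M N i K) (hF : IsFlag M N) (hA : 0 ≤ A) (m : Multiset E) :
    D ρ A M N i m ≤ val A M N i m K := csInf_le (bddBelow hF hA m) ⟨K, h, rfl⟩

lemma D_nonneg (hF : IsFlag M N) (hA : 0 ≤ A) (m : Multiset E) : 0 ≤ D ρ A M N i m := by
  refine Real.sInf_nonneg ?_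
  rintro _ ⟨K, hK, rfl⟩
  exact Adm.val_nonneg hK hF hA m

lemma le_D (hne : ∃ K, Adm ρ M N i K) {m : Multiset E} {t : ℝ}
    (h : ∀ K, Adm ρ M N i K → t ≤ val A M N i m K) : t ≤ D ρ A M N i m := by
  obtain ⟨K0, hK0⟩ := hne
  refine le_csInf ⟨_, K0, hK0, rfl⟩ ?_
  rintro _ ⟨K, hK, rfl⟩
  exact h K hK

lemma exists_near (hne : ∃ K, Adm ρ M N i K) (m : Multiset E) {ε : ℝ} (hε : 0 < ε) :
    ∃ K, Adm ρ M N i K ∧ val A M N i m K < D ρ A M N i m + ε := by
  obtain ⟨K0, hK0⟩ := hne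
  obtain ⟨_, ⟨K, hK, rfl⟩, hlt⟩ := exists_lt_of_csInf_lt
    (s := val A M N i m '' {K | Adm ρ M N i K}) ⟨_, K0, hK0, rfl⟩
    (b := D ρ A M N i m + ε) (by show D ρ A M N i m < _; linarith)
  exact ⟨K, hK, hlt⟩

/-- (U1) for one level -/
lemma D_split (hne : ∃ K, Adm ρ M N i K) (hF : IsFlag M N) (hA : 0 ≤ A) (s : Multiset (E × E)) :
    D ρ A M N i (mrg s) ≤ D ρ A M N i (spl s) := by
  refine le_D hne fun K hK => (D_le hK hF hA _).trans ?_
  unfold val
  gcongr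
  simp only [mrg, spl, Multiset.map_map, Multiset.map_add, Multiset.sum_add, Function.comp_def]
  rw [← Multiset.sum_map_add]
  exact sum_map_le _ fun p _ => hK.hs_add hF _ _

end soft

end Crest.Agent.R239.FB2
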