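import Mathlib
import Crest.Agent.R239.FB2_456
import Crest.Agent.R239.Cmp_142

/-!
R239, helper653: E-level line (FB2). Comparison of one level of two flags, levels with equal
tails, DEMOTION.
-/

set_option autoImplicit false
set_option linter.unusedSectionVars false
set_option linter.unusedVariables false

open Finset Module MeasureTheory ProbabilityTheory
open scoped RealInnerProductSpace

namespace Crest.Agent.R239.CmpE653

open Crest.Agent.R239.FA456 Crest.Agent.R239.Soft450 Crest.Agent.R239.FB2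
open Crest.Agent.R239.FB456 (th th_pos th_nonneg th_lt_one th_le_one ci ci_pos ci_le_one H S g
  g_nonneg g_le_one g_mono hs)
open Crest.Agent.R239.FC456 (H_S S_H om om_nonneg prec norm_S_sq norm_H_le P_H P_S inner_H_left
  norm_H_P_le pre_closed pre_convex pre_symm)

variable {E : Type*} [NormedAddCommGroup E] [InnerProductSpace ℝ E] [FiniteDimensional ℝ E]
  [MeasurableSpace E] [BorelSpace E]

variable {M M' : ℕ → Submodule ℝ E} {N i : ℕ} {ρ A κ : ℝ}

/-- linear comparison of one level -/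
lemma g_cmp (hM : Antitone M) (hM' : Antitone M') {ι : Type*} (s : Finset ι) (a : ι → ℝ)
    (ha : ∀ k ∈ s, 0 ≤ a k) (n : ι → E)
    (hS : ∀ y ∈ M i, prec M' N i y ≤ prec M N i y + ∑ k ∈ s, a k * ⟪n k, y⟫ ^ 2)
    {K' : Set E} (hcl : IsClosed K') (hcv : Convex ℝ K') (hsy : ∀ x ∈ K', -x ∈ K') :
    Real.exp (-(∑ k ∈ s, a k * ‖H M N i (P M i (n k))‖ ^ 2) / 2) * g M' N i K'
      ≤ g M N i (P M i ⁻¹' K') := by
  set R : E →L[ℝ] E := (S M' N i).comp ((P M i).comp (H M N i)) with hR
  have hRa : ∀ x, R x = S M' N i (P M i (H M N i x)) := fun x => rfl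
  have hset : H M N i ⁻¹' (P M i ⁻¹' K') = R ⁻¹' (H M' N i ⁻¹' K') := by
    ext x
    simp only [Set.mem_preimage, hRa, H_S hM']
  have hPS : ∀ x, S M N i (P M i (H M N i x)) = P M i x := by
    intro x
    rw [← P_S hM, S_H hM]
  have h := Cmp142.cmp_sum_real (F := E) (E := E) (K := H M' N i ⁻¹' K')
    (pre_closed hcl).measurableSet (pre_convex hcv) (pre_symm hsy) s R
    (fun k => √(a k) • H M N i (P M i (n k))) (by
      intro x
      have h1 := hS (P M i (H M N i x)) (Submodule.starProjection_apply_mem _ _)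
      rw [← norm_S_sq hM, ← norm_S_sq hM', hPS] at h1
      have h2 : ‖P M i x‖ ^ 2 ≤ ‖x‖ ^ 2 := by
        have := norm_P_le (M := M) i x
        gcongr
      have h3 : ∀ k ∈ s, a k * ⟪n k, P M i (H M N i x)⟫ ^ 2
          = ⟪√(a k) • H M N i (P M i (n k)), x⟫ ^ 2 := by
        intro k hk
        rw [← inner_P_left, ← inner_H_left, inner_smul_left, mul_pow]
        simp only [RCLike.conj_to_real, Real.sq_sqrt (ha k hk)]
      rw [hRa]
      rw [sum_congr rfl h3] at h1
      linarith)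
  unfold FB456.g
  rw [hset]
  have h4 : ∑ k ∈ s, ‖√(a k) • H M N i (P M i (n k))‖ ^ 2
      = ∑ k ∈ s, a k * ‖H M N i (P M i (n k))‖ ^ 2 := by
    refine sum_congr rfl fun k hk => ?_
    rw [norm_smul, mul_pow, Real.norm_of_nonneg (Real.sqrt_nonneg _), Real.sq_sqrt (ha k hk)]
  rw [h4] at h
  exact h

/-- **comparison of one level of two flags** -/
theorem D_cmp (hF : IsFlag M N) (hF' : IsFlag M' N) (hρ : 2 ≤ ρ) (hA : 0 ≤ A)
    (hle : M i ≤ M' i) {ι : Type*} (s : Finset ι) (a : ι → ℝ) (ha : ∀ k ∈ s, 0 ≤ a k) (n : ι → E)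
    (hS : ∀ y ∈ M i, prec M' N i y ≤ prec M N i y + ∑ k ∈ s, a k * ⟪n k, y⟫ ^ 2)
    (m : Multiset E) :
    D ρ A M N i m ≤ D ρ A M' N i m
      + A ^ i * ((∑ k ∈ s, a k * ‖H M N i (P M i (n k))‖ ^ 2) / 2 + 2 / ρ ^ 2) := by
  have hAi : 0 ≤ A ^ i := pow_nonneg hA i
  rw [← sub_le_iff_le_add]
  refine le_D (adm_exists hρ hF') fun K' hK' => ?_
  rw [sub_le_iff_le_add]
  set K : Set E := P M i ⁻¹' K' ∩ cap ρ M N i with hKdef
  have hcl : IsClosed (P M i ⁻¹' K') := hK'.closed.preimage (P M i).continuous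
  have hcv : Convex ℝ (P M i ⁻¹' K') := hK'.conv.linear_preimage (P M i : E →ₗ[ℝ] E)
  have hsy : ∀ x ∈ P M i ⁻¹' K', -x ∈ P M i ⁻¹' K' := Dom640.pre_symm (P M i) hK'.symm
  have h1 := g_cmp (N := N) (i := i) hF.1 hF'.1 s a ha n hS hK'.closed hK'.conv hK'.symm
  have hg' : 0 < g M' N i K' := hK'.pos
  have hp : 0 < g M N i (P M i ⁻¹' K') := lt_of_lt_of_le (by positivity) h1
  have hK : Adm ρ M N i K := adm_cut hρ hF hcl hcv hsy hp
  have h2 := (cut_log hρ hF hcl hcv hsy hp).2
  refine (D_le hK hF hA m).trans ?_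
  unfold FB2.val
  have hhs : (m.map (hs M i K)).sum ≤ (m.map (hs M' i K')).sum := by
    refine sum_map_le _ fun z _ => hs_le hK.nonempty fun x hx => ?_
    have h8 := hK'.le_hs hF' hx.1 z
    have h9 : P M' i (P M i x) = P M i x :=
      Submodule.starProjection_eq_self_iff.2 (hle (Submodule.starProjection_apply_mem _ _))
    rwa [h9] at h8
  have hlog : Real.log (g M' N i K')
      - ((∑ k ∈ s, a k * ‖H M N i (P M i (n k))‖ ^ 2) / 2 + 2 / ρ ^ 2)
      ≤ Real.log (g M N i K) := by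
    have h10 := Real.log_le_log (by positivity) h1
    rw [Real.log_mul (Real.exp_pos _).ne' hg'.ne', Real.log_exp] at h10
    linarith
  nlinarith [mul_le_mul_of_nonneg_left hlog hAi]

/-! ### equal tails -/

lemma bdim_congr {l : ℕ} (h1 : M l = M' l) (h2 : M (l + 1) = M' (l + 1)) :
    bdim M l = bdim M' l := by
  unfold bdim
  rw [h1, h2]

lemma P_congr {j : ℕ} (h : M j = M' j) : P M j = P M' j := by
  unfold P
  simp only [h]

lemma Op_congr_c {c : ℕ → ℝ} (h : ∀ l, i < l → M l = M' l)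
    (hc : ∀ j, j ≤ i → c (j + 1) = c j) : Op M N c = Op M' N c := by
  refine ContinuousLinearMap.ext fun x => ?_
  rw [Op_apply, Op_apply]
  congr 1
  refine sum_congr rfl fun j _ => ?_
  rcases le_or_gt j i with hj | hj
  · rw [hc j hj]
    simp
  · rw [P_congr (h j hj)]

lemma H_congr (h : ∀ l, i < l → M l = M' l) : H M N i = H M' N i := by
  refine Op_congr_c h fun j hj => ?_
  unfold ci
  rw [show j + 1 - 1 - i = 0 by omega, show j - 1 - i = 0 by omega]

lemma g_congr (h : ∀ l, i < l → M l = M' l) (K : Set E) : g M N i K = g M' N i K := by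
  unfold FB456.g
  rw [H_congr h]

lemma BN_congr (h : ∀ l, i ≤ l → M l = M' l) : BN M N i = BN M' N i := by
  refine ContinuousLinearMap.ext fun x => ?_
  unfold BN
  rw [Op_apply, Op_apply]
  congr 1
  refine sum_congr rfl fun j _ => ?_
  rcases lt_or_ge j i with hj | hj
  · have h1 : ¬ (i < j + 1) := by omega
    have h2 : ¬ (i < j) := by omega
    simp [cN, h1, h2]
  · rw [P_congr (h j hj)]

lemma cr_congr (h : ∀ l, i ≤ l → M l = M' l) : cr ρ M N i = cr ρ M' N i := by
  unfold cr rr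
  congr 2
  refine sum_congr rfl fun l hl => ?_
  rw [mem_Ico] at hl
  rw [bdim_congr (h l hl.1) (h (l + 1) (by omega))]

lemma adm_congr (h : ∀ l, i ≤ l → M l = M' l) {K : Set E} (hK : Adm ρ M N i K) :
    Adm ρ M' N i K := by
  refine ⟨hK.closed, hK.conv, hK.symm, ?_, ?_⟩
  · rw [← g_congr fun l hl => h l hl.le]
    exact hK.pos
  · intro x hx
    rw [← BN_congr h, ← cr_congr h]
    exact hK.cap x hx

lemma val_congr (h : ∀ l, i ≤ l → M l = M' l) (m : Multiset E) (K : Set E) :
    val A M N i m K = val A M' N i m K := by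
  unfold FB2.val
  rw [g_congr fun l hl => h l hl.le]
  congr 3
  ext z
  unfold FB456.hs
  rw [P_congr (h i le_rfl)]

/-- levels with equal tails coincide -/
theorem D_congr (h : ∀ l, i ≤ l → M l = M' l) (m : Multiset E) :
    D ρ A M N i m = D ρ A M' N i m := by
  unfold D
  have h1 : {K : Set E | Adm ρ M N i K} = {K | Adm ρ M' N i K} := by
    ext K
    exact ⟨fun hK => adm_congr h hK, fun hK => adm_congr (fun l hl => (h l hl).symm) hK⟩
  rw [h1]
  congr 1
  exact Set.image_congr fun K _ => val_congr h m K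

/-! ### demotion -/

open Crest.Agent.R239.FP456 (dem)

variable {u : E}

lemma dem_ne {j : ℕ} (h : j ≠ i) : dem M i u j = M j := by simp [dem, h]

lemma dem_eq : dem M i u i = M i ⊓ (ℝ ∙ u)ᗮ := by simp [dem]

lemma dem_le (j : ℕ) : dem M i u j ≤ M j := by
  rcases eq_or_ne j i with rfl | h
  · rw [dem_eq]; exact inf_le_left
  · rw [dem_ne h]

lemma dem_flag (hF : IsFlag M N) (hi : i < N) (hu' : u ∈ (M (i + 1))ᗮ) :
    IsFlag (dem M i u) N := by
  refine ⟨?_, by rw [dem_ne (by omega)]; exact hF.2⟩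
  refine antitone_nat_of_succ_le fun j => ?_
  rcases eq_or_ne j i with rfl | hj
  · rw [dem_ne (by omega), dem_eq]
    refine le_inf (hF.1 (Nat.le_succ j)) ?_
    intro x hx
    rw [Submodule.mem_orthogonal_singleton_iff_inner_right]
    have := (Submodule.mem_orthogonal _ _).1 hu' x hx
    rwa [real_inner_comm]
  · rw [dem_ne hj]
    exact (dem_le _).trans (hF.1 (Nat.le_succ j))

lemma finrank_dem (hu : ‖u‖ = 1) (hui : u ∈ M i) :
    (finrank ℝ (dem M i u i) : ℝ) = finrank ℝ (M i) - 1 := by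
  rw [dem_eq]
  have h0 : u ≠ 0 := by rintro rfl; simp at hu
  have h1 : (ℝ ∙ u) ≤ M i := by rwa [Submodule.span_singleton_le_iff_mem]
  have h2 := Submodule.finrank_add_inf_finrank_orthogonal h1
  rw [finrank_span_singleton h0, inf_comm] at h2
  have h3 : ((1 + finrank ℝ (M i ⊓ (ℝ ∙ u)ᗮ : Submodule ℝ E) : ℕ) : ℝ) = finrank ℝ (M i) := by
    rw [h2]
  push_cast at h3
  linarith

lemma norm_P_mono {j : ℕ} (h : M' j ≤ M j) (y : E) : ‖P M' j y‖ ≤ ‖P M j y‖ := by
  have h1 : P M' j (P M j y) = P M' j y := star_star_of_le h y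
  rw [← h1]
  exact norm_P_le j _

lemma D_dem_low (hF : IsFlag M N) (hi : i < N) (hρ : 2 ≤ ρ) (hA : 0 ≤ A)
    (hu' : u ∈ (M (i + 1))ᗮ) {l : ℕ} (hl : l < i) (m : Multiset E) :
    D ρ A M N l m ≤ D ρ A (dem M i u) N l m + A ^ l * (2 / ρ ^ 2) := by
  have h := D_cmp (i := l) hF (dem_flag (u := u) hF hi hu') hρ hA
    (by rw [dem_ne (by omega)]) (∅ : Finset ℕ) (fun _ => 0) (by simp) (fun _ => 0) (by
      intro y _
      rw [sum_empty, add_zero]
      unfold FC456.prec
      gcongr with j hj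
      · exact om_nonneg _
      · exact norm_P_mono (dem_le _) y) m
  rw [sum_empty, zero_div, zero_add] at h
  exact h

lemma inc_pos_eq {i : ℕ} (hi : 1 ≤ i) (hA : A ≠ 0) : inc A i = A ^ i * (1 - 1 / A) := by
  obtain ⟨n, rfl⟩ : ∃ n, i = n + 1 := ⟨i - 1, by omega⟩
  rw [inc, pow_succ]
  field_simp

/-- **DEMOTION** -/
theorem dem_main (hκ : 0 ≤ κ) (hA : 2 ≤ A) (hρ : 2 ≤ ρ) (hF : IsFlag M N) (hi1 : 1 ≤ i)
    (hi : i < N) (hu : ‖u‖ = 1) (hui : u ∈ M i) (hu' : u ∈ (M (i + 1))ᗮ) (m : Multiset E) :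
    J κ ρ A M N m + κ * (A ^ i * (1 - 1 / A)) - A ^ i * (4 / (ρ ^ 2 * A))
      ≤ J κ ρ A (dem M i u) N m + (D ρ A M N i m - D ρ A (dem M i u) N i m) := by
  have hA0 : 0 < A := by linarith
  -- termwise bound
  set L : ℕ → ℝ := fun l => if l < i then A ^ l * (2 / ρ ^ 2) else
    if l = i then (D ρ A M N i m - D ρ A (dem M i u) N i m) - κ * inc A i else 0 with hL
  have hterm : ∀ l ∈ range N, D ρ A M N l m - κ * (inc A l * (finrank ℝ (M l) : ℝ))
      ≤ (D ρ A (dem M i u) N l m - κ * (inc A l * (finrank ℝ (dem M i u l) : ℝ))) + L l := by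
    intro l _
    rcases lt_trichotomy l i with h | h | h
    · have h1 := D_dem_low hF hi hρ hA0.le hu' h m
      simp only [hL, if_pos h]
      rw [dem_ne (by omega)]
      linarith
    · subst h
      simp only [hL, lt_irrefl, if_false, if_true]
      rw [finrank_dem hu hui]
      nlinarith
    · have h1 : D ρ A M N l m = D ρ A (dem M i u) N l m :=
        D_congr (fun j hj => (dem_ne (by omega)).symm) m
      have h2 : ¬ l < i := by omega
      have h3 : l ≠ i := by omega
      simp only [hL, if_neg h2, if_neg h3]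
      rw [h1, dem_ne (by omega)]
      linarith
  have hsum := sum_le_sum hterm
  rw [sum_add_distrib] at hsum
  have hLs : ∑ l ∈ range N, L l ≤ A ^ i * (4 / (ρ ^ 2 * A))
      + ((D ρ A M N i m - D ρ A (dem M i u) N i m) - κ * inc A i) := by
    have e1 : ∑ l ∈ range N, L l = ∑ l ∈ range (i + 1), L l := by
      symm
      refine sum_subset (range_subset_range.2 (by omega)) fun l _ hl => ?_
      rw [mem_range] at hl
      simp only [hL]
      rw [if_neg (by omega), if_neg (by omega)]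
    rw [e1, sum_range_succ]
    have e2 : ∑ l ∈ range i, L l = (∑ l ∈ range i, A ^ l) * (2 / ρ ^ 2) := by
      rw [sum_mul]
      refine sum_congr rfl fun l hl => ?_
      rw [mem_range] at hl
      simp only [hL, if_pos hl]
    have e3 : L i = (D ρ A M N i m - D ρ A (dem M i u) N i m) - κ * inc A i := by
      simp only [hL, lt_irrefl, if_false, if_true]
    rw [e2, e3]
    have e4 : ∑ l ∈ range i, A ^ l ≤ A ^ i * (2 / A) := by
      have h5 : ∀ n : ℕ, ∑ l ∈ range n, A ^ l ≤ A ^ n * (2 / A) := by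
        intro n
        induction n with
        | zero => simp; positivity
        | succ n ih =>
          rw [sum_range_succ]
          have h6 : A ^ (n + 1) * (2 / A) = 2 * A ^ n := by rw [pow_succ]; field_simp
          have h7 : A ^ n * (2 / A) ≤ A ^ n := by
            have : 2 / A ≤ 1 := by rw [div_le_one hA0]; exact hA
            have h8 : 0 ≤ A ^ n := by positivity
            nlinarith
          linarith
      exact h5 i
    have e5 : (∑ l ∈ range i, A ^ l) * (2 / ρ ^ 2) ≤ A ^ i * (4 / (ρ ^ 2 * A)) := by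
      have : (0:ℝ) ≤ 2 / ρ ^ 2 := by positivity
      calc (∑ l ∈ range i, A ^ l) * (2 / ρ ^ 2) ≤ A ^ i * (2 / A) * (2 / ρ ^ 2) := by gcongr
        _ = A ^ i * (4 / (ρ ^ 2 * A)) := by
          have : ρ ≠ 0 := by intro h; rw [h] at hρ; norm_num at hρ
          field_simp
          ring
    linarith
  rw [inc_pos_eq hi1 hA0.ne'] at hLs
  unfold J
  linarith

end Crest.Agent.R239.CmpE653
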