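import Mathlib
import Crest.Agent.R239.Bridge_371

/-! (TILT): linear change of variables for the standard Gaussian (helper371). -/

set_option autoImplicit false
open MeasureTheory ProbabilityTheory Set Real
open scoped RealInnerProductSpace ENNReal NNReal

namespace Crest.Agent.R239.Tilt371

open Crest.Agent.R239.Bridge371

variable {F : Type*} [NormedAddCommGroup F] [InnerProductSpace ℝ F] [FiniteDimensional ℝ F]
  [MeasurableSpace F] [BorelSpace F]
variable {G : Type*} [NormedAddCommGroup G] [InnerProductSpace ℝ G] [FiniteDimensional ℝ G]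
  [MeasurableSpace G] [BorelSpace G]

/-- **(TILT)**, integrals: if `|R x|² = |x|² - q x` then
`∫ f dγ_G = ∫ f (R x) e^{q/2} dγ_F / ∫ e^{q/2} dγ_F`. -/
theorem tilt_integral (R : F ≃L[ℝ] G) (q : F → ℝ) (hq : ∀ x, ‖R x‖ ^ 2 = ‖x‖ ^ 2 - q x)
    (f : G → ℝ) :
    ∫ y, f y ∂(stdGaussian G) =
      (∫ x, f (R x) * rexp (q x / 2) ∂(stdGaussian F)) / ∫ x, rexp (q x / 2) ∂(stdGaussian F) := by
  rw [integral_ratio, integral_ratio, integral_ratio (fun x : F => rexp (q x / 2)),
    div_div_div_cancel_right₀ (Z_pos (F := F)).ne',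
    ← ratio_equiv R (fun y => f y * rexp (-(‖y‖ ^ 2) / 2)) (fun y => rexp (-(‖y‖ ^ 2) / 2))]
  have h : ∀ x : F, rexp (-(‖R x‖ ^ 2) / 2) = rexp (q x / 2) * rexp (-(‖x‖ ^ 2) / 2) := by
    intro x
    rw [← Real.exp_add, hq]
    congr 1
    ring
  congr 1
  · refine integral_congr_ae (ae_of_all _ fun x => ?_)
    simp only [h]
    ring
  · refine integral_congr_ae (ae_of_all _ fun x => ?_)
    simp only [h]

/-- **(TILT)**, sets. -/
theorem tilt_real (R : F ≃L[ℝ] G) (q : F → ℝ) (hq : ∀ x, ‖R x‖ ^ 2 = ‖x‖ ^ 2 - q x)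
    {B : Set G} (hB : MeasurableSet B) :
    (stdGaussian G).real B =
      (∫ x in R ⁻¹' B, rexp (q x / 2) ∂(stdGaussian F)) / ∫ x, rexp (q x / 2) ∂(stdGaussian F) := by
  have h := tilt_integral R q hq (B.indicator fun _ => (1 : ℝ))
  rw [integral_indicator hB] at h
  simp only [integral_const, measureReal_restrict_apply_univ, smul_eq_mul, mul_one] at h
  rw [h, ← integral_indicator (R.continuous.measurable hB)]
  congr 1
  refine integral_congr_ae (ae_of_all _ fun x => ?_)
  by_cases hx : R x ∈ B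
  · have : x ∈ R ⁻¹' B := hx
    simp [hx, this]
  · have : x ∉ R ⁻¹' B := hx
    simp [hx, this]

/-- The tilted weight is integrable. -/
theorem integrable_tilt (R : F ≃L[ℝ] G) (q : F → ℝ) (hq : ∀ x, ‖R x‖ ^ 2 = ‖x‖ ^ 2 - q x) :
    Integrable (fun x => rexp (q x / 2)) (stdGaussian F) := by
  rw [Crest.Agent.R285.integrable_stdGaussian_iff]
  obtain ⟨c, hc, hT⟩ := map_volume R
  have h1 : Integrable (fun y : G => rexp (-(‖y‖ ^ 2) / 2)) ((volume : Measure F).map R) := by
    rw [hT]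
    exact integrable_exp_half.smul_measure_nnreal
  have h2 : Integrable (fun x : F => rexp (-(‖R x‖ ^ 2) / 2)) :=
    (R.toHomeomorph.measurableEmbedding.integrable_map_iff).1 h1
  refine (h2.const_mul ((2 * π) ^ (-(Module.finrank ℝ F : ℝ) / 2))).congr
    (ae_of_all _ fun x => ?_)
  simp only [Crest.Agent.R285.gdens, smul_eq_mul]
  rw [mul_assoc, ← Real.exp_add, hq]
  congr 2
  ring

/-- Multiplicative form of `tilt_real`. -/
theorem tilt_real_mul (R : F ≃L[ℝ] G) (q : F → ℝ) (hq : ∀ x, ‖R x‖ ^ 2 = ‖x‖ ^ 2 - q x)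
    {B : Set G} (hB : MeasurableSet B) :
    (∫ x in R ⁻¹' B, rexp (q x / 2) ∂(stdGaussian F)) =
      (stdGaussian G).real B * ∫ x, rexp (q x / 2) ∂(stdGaussian F) := by
  have hpos : 0 < ∫ x, rexp (q x / 2) ∂(stdGaussian F) := by
    refine integral_exp_pos ?_
    exact integrable_tilt R q hq
  rw [tilt_real R q hq hB, div_mul_cancel₀ _ hpos.ne']

end Crest.Agent.R239.Tilt371
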