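import Mathlib
import Crest.Agent.R239.FDef
import Crest.Agent.R239.Cmp_142
import Crest.Agent.R239.Tilt_371

/-! FDef-literals of (CMP) and (TILT) (helper371), from `Cmp_142` and `Tilt_371`. -/

set_option autoImplicit false
open MeasureTheory ProbabilityTheory Set Real
open scoped RealInnerProductSpace ENNReal NNReal

namespace Crest.Agent.R239.CmpF371

open Crest.Agent.R239.FD

variable {E : Type*} [NormedAddCommGroup E] [InnerProductSpace ℝ E] [FiniteDimensional ℝ E]
  [MeasurableSpace E] [BorelSpace E]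

/-- second moment of a linear functional -/
lemma integral_inner_sq (n : E) : ∫ x, ⟪n, x⟫ ^ 2 ∂(stdGaussian E) = ‖n‖ ^ 2 := by
  have h := variance_dual_stdGaussian (E := E) (innerSL ℝ n)
  rw [variance_eq_integral (by fun_prop)] at h
  have h0 := integral_strongDual_stdGaussian (E := E) (innerSL ℝ n)
  rw [h0] at h
  simpa using h

lemma integrable_inner_sq (n : E) : Integrable (fun x => ⟪n, x⟫ ^ 2) (stdGaussian E) := by
  have h : MemLp (fun x : E => ⟪n, x⟫) 2 (stdGaussian E) :=
    (IsGaussian.memLp_dual (stdGaussian E) (innerSL ℝ n) 2 (by simp))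
  exact h.integrable_sq

omit [MeasurableSpace E] [BorelSpace E] in
/-- spectral decomposition of a positive form as a sum of squares -/
theorem exists_squares (T : E →L[ℝ] E) (hT : T.IsPositive) :
    ∃ w : Fin (Module.finrank ℝ E) → E, ∀ g, ⟪T g, g⟫ = ∑ k, ⟪w k, g⟫ ^ 2 := by
  have hS : (T : E →ₗ[ℝ] E).IsSymmetric := hT.1
  have hpos : ∀ x, 0 ≤ ⟪T x, x⟫ := fun x => by
    simpa [ContinuousLinearMap.reApplyInnerSelf_apply] using hT.2 x
  set b := hS.eigenvectorBasis (rfl : Module.finrank ℝ E = Module.finrank ℝ E) with hb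
  set l := hS.eigenvalues (rfl : Module.finrank ℝ E = Module.finrank ℝ E) with hl
  have hform : ∀ g, ⟪T g, g⟫ = ∑ k, l k * ⟪b k, g⟫ ^ 2 := by
    intro g
    rw [← b.sum_inner_mul_inner (T g) g]
    refine Finset.sum_congr rfl fun k _ => ?_
    have h1 := hS.eigenvectorBasis_apply_self_apply (rfl : Module.finrank ℝ E = _) g k
    rw [b.repr_apply_apply, b.repr_apply_apply] at h1
    rw [real_inner_comm (b k) (T g)]
    have h2 : ⟪b k, T g⟫ = l k * ⟪b k, g⟫ := by simpa using h1
    rw [h2]
    ring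
  have hl0 : ∀ k, 0 ≤ l k := by
    intro k
    have h1 := hform (b k)
    have h2 : ∑ j, l j * ⟪b j, b k⟫ ^ 2 = l k := by
      rw [Finset.sum_eq_single k]
      · simp [b.norm_eq_one]
      · intro j _ hj
        rw [b.inner_eq_zero hj]
        simp
      · simp
    rw [← h2, ← h1]
    exact hpos _
  refine ⟨fun k => √(l k) • b k, fun g => ?_⟩
  rw [hform]
  refine Finset.sum_congr rfl fun k _ => ?_
  rw [real_inner_smul_left, mul_pow, Real.sq_sqrt (hl0 k)]

/-- the Gaussian mean of a sum of squares of linear functionals -/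
theorem integral_squares {ι : Type*} (s : Finset ι) (w : ι → E) :
    ∫ g, ∑ k ∈ s, ⟪w k, g⟫ ^ 2 ∂(stdGaussian E) = ∑ k ∈ s, ‖w k‖ ^ 2 := by
  rw [integral_finsetSum _ fun i _ => integrable_inner_sq _]
  exact Finset.sum_congr rfl fun k _ => integral_inner_sq _

/-- **(CMP)**, the literal of `FDef`. -/
theorem p_cmp : P_CMP E := by
  intro R T hT hR K hK cK sK
  obtain ⟨w, hw⟩ := exists_squares T hT
  have h := Cmp142.cmp_sum_real hK.measurableSet cK sK Finset.univ R w
    (fun g => by rw [← hw]; exact hR g)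
  have e : ∫ g, ⟪T g, g⟫ ∂(stdGaussian E) = ∑ k, ‖w k‖ ^ 2 := by
    simp only [hw]
    exact integral_squares _ _
  rw [e]
  exact h

/-- **(TILT)**, the literal of `FDef`. -/
theorem p_tilt : P_TILT E := by
  intro R T hR B hB
  exact (Tilt371.tilt_real_mul R (fun g => ⟪T g, g⟫) hR hB).symm

end Crest.Agent.R239.CmpF371
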