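import Crest.Agent.R239.Cmp_142

/-! R239 (helper350): CMP with a rank one gain (shadow T1, 406/472 version). -/

set_option autoImplicit false
set_option linter.unusedSectionVars false
open MeasureTheory ProbabilityTheory Set Filter Topology
open scoped RealInnerProductSpace ENNReal NNReal InnerProduct

namespace Crest.Agent.R239.CmpP350

open Crest.Agent.R239 Crest.Agent.R239.Cmp142

variable {E : Type*} [NormedAddCommGroup E] [InnerProductSpace ℝ E] [FiniteDimensional ℝ E]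
  [MeasurableSpace E] [BorelSpace E]
variable {F : Type*} [NormedAddCommGroup F] [InnerProductSpace ℝ F] [FiniteDimensional ℝ F]
  [MeasurableSpace F] [BorelSpace F]

lemma integrable_inner_sq (w : E) : Integrable (fun x : E => ⟪w, x⟫ ^ 2) (stdGaussian E) := by
  have h : MemLp (fun x : E => ⟪w, x⟫) 2 (stdGaussian E) := by
    have h1 : MemLp (fun x : E => x) 2 (stdGaussian E) :=
      ProbabilityTheory.IsGaussian.memLp_id _ 2 (by norm_num)
    exact h1.continuousLinearMap_comp (innerSL ℝ w)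
  exact h.integrable_sq

/-- the tilt by one square, lower bound of the mass -/
theorem tilt_lower (w : E) {c' : ℝ} (hc'1 : c' ≤ 1)
    (hw : ‖w‖ ^ 2 ≤ c' / 2) {K : Set E} (mK : MeasurableSet K)
    (hth : ∫ x in K, ⟪w, x⟫ ^ 2 ∂(stdGaussian E) ≤ ‖w‖ ^ 2 * (1 - c') * (stdGaussian E).real K) :
    Real.exp (‖w‖ ^ 2 * c' / 8) * (stdGaussian E).real K
      ≤ √(1 + ‖w‖ ^ 2) * ∫ x in K, Real.exp (-⟪w, x⟫ ^ 2 / 2) ∂(stdGaussian E) := by
  set c := ‖w‖ ^ 2 with hc
  have hc0 : 0 ≤ c := sq_nonneg _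
  have hc'0 : 0 ≤ c' := by linarith
  set G := (stdGaussian E).real K with hG
  have hG0 : 0 ≤ G := measureReal_nonneg
  have hi2 : IntegrableOn (fun x : E => ⟪w, x⟫ ^ 2) K (stdGaussian E) :=
    (integrable_inner_sq w).integrableOn
  have h1 : G - (∫ x in K, ⟪w, x⟫ ^ 2 ∂(stdGaussian E)) / 2
      ≤ ∫ x in K, Real.exp (-⟪w, x⟫ ^ 2 / 2) ∂(stdGaussian E) := by
    have e1 : G - (∫ x in K, ⟪w, x⟫ ^ 2 ∂(stdGaussian E)) / 2
        = ∫ x in K, (1 - ⟪w, x⟫ ^ 2 / 2) ∂(stdGaussian E) := by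
      rw [integral_sub (integrable_const _) (hi2.div_const 2), integral_div]
      simp [hG, Measure.real]
    rw [e1]
    refine setIntegral_mono (( integrable_const _).sub (hi2.div_const 2)) ?_ ?_
    · refine Integrable.mono' (g := fun _ => (1 : ℝ)) (integrable_const _) (by fun_prop) ?_
      filter_upwards with x
      rw [Real.norm_eq_abs, abs_of_pos (Real.exp_pos _), Real.exp_le_one_iff]
      have := sq_nonneg ⟪w, x⟫
      linarith
    · intro x
      have := Real.add_one_le_exp (-⟪w, x⟫ ^ 2 / 2)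
      simp only
      linarith
  have h2 : G * (1 - c * (1 - c') / 2) ≤ ∫ x in K, Real.exp (-⟪w, x⟫ ^ 2 / 2) ∂(stdGaussian E) := by
    refine le_trans ?_ h1
    nlinarith
  have hs0 : 0 ≤ √(1 + c) := Real.sqrt_nonneg _
  have hs : 1 + c / 2 - c ^ 2 / 8 ≤ √(1 + c) := by
    apply Real.le_sqrt_of_sq_le
    have hc12 : c ≤ 1 / 2 := by linarith
    nlinarith [sq_nonneg c, mul_nonneg hc0 hc0, mul_nonneg (mul_nonneg hc0 hc0) hc0,
      mul_nonneg (mul_nonneg hc0 hc0) (sub_nonneg.2 hc12)]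
  have hexp : Real.exp (c * c' / 8) ≤ (1 + c / 2 - c ^ 2 / 8) * (1 - c * (1 - c') / 2) := by
    have hc12 : c ≤ 1 / 2 := by linarith
    have hx0 : 0 ≤ c * c' / 8 := by positivity
    have hx1 : c * c' / 8 ≤ 1 := by nlinarith
    have h3 : Real.exp (c * c' / 8) ≤ 1 + c * c' / 8 + (c * c' / 8) ^ 2 := by
      have h4 := Real.abs_exp_sub_one_sub_id_le (x := c * c' / 8) (by rw [abs_of_nonneg hx0]; exact hx1)
      have := (abs_le.1 h4).2
      linarith
    refine h3.trans ?_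
    have hcc' : 0 ≤ c * c' := mul_nonneg hc0 hc'0
    nlinarith [mul_nonneg hc0 (sub_nonneg.2 hw), mul_nonneg hcc' hc0, mul_nonneg hcc' hcc',
      mul_nonneg hcc' (sub_nonneg.2 hc12), mul_nonneg hcc' (sub_nonneg.2 hc'1),
      mul_nonneg (mul_nonneg hc0 hc0) hc0, mul_nonneg (mul_nonneg hc0 hc0) (sub_nonneg.2 hc12)]
  have hI0 : 0 ≤ 1 - c * (1 - c') / 2 := by nlinarith
  calc Real.exp (c * c' / 8) * G
      ≤ ((1 + c / 2 - c ^ 2 / 8) * (1 - c * (1 - c') / 2)) * G := by gcongr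
    _ ≤ (√(1 + c) * (1 - c * (1 - c') / 2)) * G := by gcongr
    _ = √(1 + c) * (G * (1 - c * (1 - c') / 2)) := by ring
    _ ≤ _ := by gcongr

/-- **CMP+**: comparison with a rank one gain in a thin direction. -/
theorem cmp_plus {ι : Type*} (R : E →L[ℝ] F) (v : F) {c' : ℝ} (hc'1 : c' ≤ 1)
    (hw : ‖v‖ ^ 2 ≤ c' / 2) (s : Finset ι) (w : ι → E)
    (h : ∀ g, ‖R g‖ ^ 2 + ⟪v, R g⟫ ^ 2 ≤ ‖g‖ ^ 2 + ∑ k ∈ s, ⟪w k, g⟫ ^ 2)
    {K : Set F} (mK : MeasurableSet K) (cK : Convex ℝ K) (sK : ∀ x ∈ K, -x ∈ K)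
    (hth : ∫ x in K, ⟪v, x⟫ ^ 2 ∂(stdGaussian F) ≤ ‖v‖ ^ 2 * (1 - c') * (stdGaussian F).real K) :
    Real.exp (‖v‖ ^ 2 * c' / 8 - (∑ k ∈ s, ‖w k‖ ^ 2) / 2) * (stdGaussian F).real K
      ≤ (stdGaussian E).real (R ⁻¹' K) := by
  obtain ⟨C, hC1, hC2, hC3⟩ := exists_tilt v
  have hinj : Function.Injective C := by
    intro x y hxy
    have h1 := hC1 (x - y)
    rw [map_sub, hxy, sub_self] at h1
    simp only [norm_zero, inner_zero_right] at h1
    have h2 : ‖x - y‖ = 0 := by nlinarith [norm_nonneg (x - y)]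
    exact sub_eq_zero.1 (norm_eq_zero.1 h2)
  let Ce : F ≃ₗ[ℝ] F := LinearEquiv.ofInjectiveEndo (C : F →ₗ[ℝ] F) hinj
  have hCe : ∀ x, C (Ce.symm x) = x := by
    intro x
    exact Ce.apply_symm_apply x
  let Cs : F →L[ℝ] F := LinearMap.toContinuousLinearMap (Ce.symm : F →ₗ[ℝ] F)
  have hCs : ∀ x, C (Cs x) = x := hCe
  have h1 := cmp_sum_real (K := C ⁻¹' K) (C.continuous.measurable mK)
    (cK.linear_preimage (C : F →ₗ[ℝ] F)) (by
      intro x hx
      simp only [mem_preimage, map_neg] at hx ⊢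
      exact sK _ hx) s (Cs ∘L R) w (by
      intro g
      have h2 := hC1 (Cs (R g))
      rw [hCs] at h2
      rw [ContinuousLinearMap.comp_apply, ← h2]
      exact h g)
  have h3 : (Cs ∘L R) ⁻¹' (C ⁻¹' K) = R ⁻¹' K := by
    ext g
    simp [hCs]
  rw [h3] at h1
  refine le_trans ?_ h1
  have h4 := hC3 (K.indicator 1) (measurable_one.indicator mK)
  have h5 : ∫⁻ x, K.indicator 1 (C x) ∂(stdGaussian F) = stdGaussian F (C ⁻¹' K) := by
    have : (fun x => K.indicator (1 : F → ℝ≥0∞) (C x)) = (C ⁻¹' K).indicator 1 := rfl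
    rw [this, lintegral_indicator_one (C.continuous.measurable mK)]
  rw [h5] at h4
  have h6 : ∫⁻ x, K.indicator 1 x * ENNReal.ofReal (Real.exp (-⟪v, x⟫ ^ 2 / 2)) ∂(stdGaussian F)
      = ENNReal.ofReal (∫ x in K, Real.exp (-⟪v, x⟫ ^ 2 / 2) ∂(stdGaussian F)) := by
    rw [ofReal_integral_eq_lintegral_ofReal, ← lintegral_indicator mK]
    · refine lintegral_congr fun x => ?_
      by_cases hx : x ∈ K
      · simp [hx]
      · simp [hx]
    · refine Integrable.mono' (g := fun _ => (1 : ℝ)) (integrable_const _) (by fun_prop) ?_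
      filter_upwards with x
      rw [Real.norm_eq_abs, abs_of_pos (Real.exp_pos _), Real.exp_le_one_iff]
      have := sq_nonneg ⟪v, x⟫
      linarith
    · filter_upwards with x using (Real.exp_pos _).le
  rw [h6] at h4
  have h7 : (stdGaussian F).real (C ⁻¹' K)
      = √(1 + ‖v‖ ^ 2) * ∫ x in K, Real.exp (-⟪v, x⟫ ^ 2 / 2) ∂(stdGaussian F) := by
    have h8 := congrArg ENNReal.toReal h4
    rw [ENNReal.toReal_ofReal (integral_nonneg fun x => (Real.exp_pos _).le), ENNReal.toReal_mul,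
      ENNReal.toReal_ofReal (by positivity)] at h8
    have h9 : (0 : ℝ) < √(1 + ‖v‖ ^ 2) := by positivity
    rw [h8, Measure.real]
    field_simp
  have h10 := tilt_lower v hc'1 hw mK hth
  rw [← h7] at h10
  calc Real.exp (‖v‖ ^ 2 * c' / 8 - (∑ k ∈ s, ‖w k‖ ^ 2) / 2) * (stdGaussian F).real K
      = Real.exp (-(∑ k ∈ s, ‖w k‖ ^ 2) / 2)
          * (Real.exp (‖v‖ ^ 2 * c' / 8) * (stdGaussian F).real K) := by
        rw [← mul_assoc, ← Real.exp_add]
        congr 2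
        ring
    _ ≤ _ := by gcongr

end Crest.Agent.R239.CmpP350
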