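import Crest.Agent.R285.Gauss
import Crest.Agent.Lib.PrekopaLeindler

/-!
# R239 (S0370): pulled-back mixture lemma (MIX-R), Jensen (helper758)

`mixR` : `R` invertible, `‖B g‖² ≤ τ ‖g‖²`, `0 < τ ≤ 1/4`, `‖g‖² ≤ ‖R g‖² + ‖B g‖²` imply
`γ K * γ (R '' Q) * exp (E(‖g‖²-‖R g‖²)/2 - (1+4τ)/2 * E_K ‖B g‖²) ≤ γ ((K+Q)/2)²`.
-/

set_option autoImplicit false

open MeasureTheory ProbabilityTheory Real Set
open scoped RealInnerProductSpace ENNReal NNReal

namespace Crest.Agent.R239.MixR758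

open Crest.Agent.Lib.PrekopaLeindler Crest.Agent.R285

/-! ### Jensen -/

section Jensen

variable {Ω : Type*} [MeasurableSpace Ω]

/-- Jensen for `exp` and a finite measure -/
theorem jensen_exp (μ : Measure Ω) [IsFiniteMeasure μ] {X : Ω → ℝ} (hX : Integrable X μ)
    (hE : Integrable (fun ω => exp (X ω)) μ) (h0 : 0 < μ.real univ) :
    μ.real univ * exp ((∫ ω, X ω ∂μ) / μ.real univ) ≤ ∫ ω, exp (X ω) ∂μ := by
  set a := (∫ ω, X ω ∂μ) / μ.real univ with ha
  have h1 : ∀ ω, exp a * (1 + (X ω - a)) ≤ exp (X ω) := by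
    intro ω
    have h := Real.add_one_le_exp (X ω - a)
    calc exp a * (1 + (X ω - a)) = exp a * ((X ω - a) + 1) := by ring
      _ ≤ exp a * exp (X ω - a) := by gcongr
      _ = exp (X ω) := by rw [← Real.exp_add]; congr 1; ring
  have hi : Integrable (fun ω => exp a * (1 + (X ω - a))) μ :=
    (((integrable_const (1:ℝ)).add (hX.sub (integrable_const a)))).const_mul _
  have h2 : ∫ ω, exp a * (1 + (X ω - a)) ∂μ = exp a * μ.real univ := by
    have e0 : ∫ ω, (1 + (X ω - a)) ∂μ = μ.real univ + ((∫ ω, X ω ∂μ) - μ.real univ * a) := by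
      have e1 : ∫ ω, (1 + (X ω - a)) ∂μ = ∫ _ω, (1:ℝ) ∂μ + ∫ ω, (X ω - a) ∂μ :=
        integral_add (integrable_const _) (hX.sub (integrable_const a))
      have e2 : ∫ ω, (X ω - a) ∂μ = (∫ ω, X ω ∂μ) - ∫ _ω, a ∂μ :=
        integral_sub hX (integrable_const a)
      rw [e1, e2]
      simp only [integral_const, smul_eq_mul, mul_one]
    have e3 : μ.real univ * a = ∫ ω, X ω ∂μ := by rw [ha]; field_simp
    rw [integral_const_mul, e0, e3]; ring
  calc μ.real univ * exp a = ∫ ω, exp a * (1 + (X ω - a)) ∂μ := by rw [h2]; ring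
    _ ≤ ∫ ω, exp (X ω) ∂μ := integral_mono hi hE h1

end Jensen

variable {E : Type*} [NormedAddCommGroup E] [InnerProductSpace ℝ E] [FiniteDimensional ℝ E]
  [MeasurableSpace E] [BorelSpace E]
  {F : Type*} [NormedAddCommGroup F] [InnerProductSpace ℝ F]

local notation "γ" => stdGaussian E

/-- Prékopa–Leindler on `E` -/
theorem PLvol : PL E (volume : Measure E) := by
  refine PL.of_measurePreserving (fun x => (stdOrthonormalBasis ℝ E).repr.symm x)
    (LinearIsometryEquiv.measurePreserving (stdOrthonormalBasis ℝ E).repr.symm) ?_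
    (PL_euclidean (Module.finrank ℝ E))
  intro a b x y
  simp

omit [FiniteDimensional ℝ E] [MeasurableSpace E] [BorelSpace E] in
/-- the quadratic inequality behind the mixture lemma -/
lemma quad_mix (B : E →L[ℝ] F) {τ : ℝ} (h0 : 0 < τ) (h1 : τ ≤ 1 / 4)
    (hB : ∀ g, ‖B g‖ ^ 2 ≤ τ * ‖g‖ ^ 2) (k r : E) :
    ‖(2⁻¹ : ℝ) • (k + r)‖ ^ 2 * 2 ≤
      ‖k‖ ^ 2 + (1 + 4 * τ) * ‖B k‖ ^ 2 + (‖r‖ ^ 2 - ‖B r‖ ^ 2) := by
  have e1 : ‖(2⁻¹ : ℝ) • (k + r)‖ ^ 2 * 2 = ‖k‖ ^ 2 + ‖r‖ ^ 2 - ‖k - r‖ ^ 2 / 2 := by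
    rw [norm_smul, mul_pow]
    have := parallelogram_law_with_norm ℝ k r
    simp only [norm_inv, Real.norm_ofNat]
    nlinarith [this]
  have e2 : ‖B r‖ ^ 2 ≤ (1 + 4 * τ) * ‖B k‖ ^ 2 + ‖k - r‖ ^ 2 / 2 := by
    have hkr := hB (k - r)
    have hs : ‖B r‖ ≤ ‖B k‖ + ‖B (k - r)‖ := by
      have : B r = B k - B (k - r) := by rw [map_sub]; abel
      rw [this]; exact norm_sub_le _ _
    have hx := norm_nonneg (B k)
    have hy := norm_nonneg (B (k - r))
    have hr := norm_nonneg (B r)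
    set x := ‖B k‖
    set y := ‖B (k - r)‖
    have h3 : ‖B r‖ ^ 2 ≤ (x + y) ^ 2 := by
      apply pow_le_pow_left₀ hr hs
    -- 2xy ≤ 4τ x² + y²/(4τ)
    have h4 : 2 * x * y ≤ 4 * τ * x ^ 2 + y ^ 2 / (4 * τ) := by
      have : 0 ≤ (4 * τ * x - y) ^ 2 / (4 * τ) := by positivity
      have e : (4 * τ * x - y) ^ 2 / (4 * τ) = 4 * τ * x ^ 2 - 2 * x * y + y ^ 2 / (4 * τ) := by
        field_simp; ring
      linarith
    have h5 : y ^ 2 / (4 * τ) ≤ ‖k - r‖ ^ 2 / 4 := by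
      rw [div_le_div_iff₀ (by positivity) (by norm_num)]
      nlinarith
    have h6 : y ^ 2 ≤ ‖k - r‖ ^ 2 / 4 := by nlinarith [sq_nonneg ‖k - r‖]
    nlinarith
  rw [e1]; linarith

lemma lint_gdens_R (R : E ≃L[ℝ] E) {Q : Set E} (hQ : MeasurableSet Q) :
    ∫⁻ x, Q.indicator (fun x => ENNReal.ofReal (gdens (R x))) x
      = ENNReal.ofReal |(LinearMap.det (R : E →ₗ[ℝ] E))⁻¹| * γ (R '' Q) := by
  have hRQ : MeasurableSet (R '' Q) := R.toHomeomorph.measurableEmbedding.measurableSet_image.2 hQ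
  have hdet : LinearMap.det (R : E →ₗ[ℝ] E) ≠ 0 := by
    have := LinearEquiv.isUnit_det' (R.toLinearEquiv)
    exact this.ne_zero
  have h1 := Measure.map_linearMap_addHaar_eq_smul_addHaar (μ := (volume : Measure E)) hdet
  have h2 : ∫⁻ x, Q.indicator (fun x => ENNReal.ofReal (gdens (R x))) x
      = ∫⁻ y, (R '' Q).indicator (fun y => ENNReal.ofReal (gdens y)) y
          ∂(Measure.map (R : E →ₗ[ℝ] E) volume) := by
    rw [lintegral_map]
    · refine lintegral_congr fun x => ?_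
      by_cases hx : x ∈ Q
      · have : (R : E →ₗ[ℝ] E) x ∈ R '' Q := ⟨x, hx, rfl⟩
        rw [indicator_of_mem hx, indicator_of_mem this]; rfl
      · have : (R : E →ₗ[ℝ] E) x ∉ R '' Q := by
          rintro ⟨y, hy, hxy⟩
          exact hx (R.injective hxy ▸ hy)
        rw [indicator_of_notMem hx, indicator_of_notMem this]
    · exact (continuous_gdens.measurable.ennreal_ofReal).indicator hRQ
    · exact R.continuous.measurable
  rw [h2, h1, lintegral_smul_measure, lintegral_indicator hRQ, stdGaussian_eq_withDensity,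
    withDensity_apply _ hRQ]
  rfl

lemma integrable_quad_exp (R : E ≃L[ℝ] E) :
    Integrable (fun g : E => exp ((‖g‖ ^ 2 - ‖R g‖ ^ 2) / 2)) γ := by
  rw [integrable_stdGaussian_iff]
  have h1 : Integrable (fun x : E => gdens (R x)) := by
    have hemb := R.toHomeomorph.measurableEmbedding
    have hdet : LinearMap.det (R : E →ₗ[ℝ] E) ≠ 0 := (LinearEquiv.isUnit_det' (R.toLinearEquiv)).ne_zero
    have h2 := Measure.map_linearMap_addHaar_eq_smul_addHaar (μ := (volume : Measure E)) hdet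
    have h3 : Integrable (gdens (V := E)) (Measure.map (R : E →ₗ[ℝ] E) volume) := by
      rw [h2]
      exact (integrable_gdens (V := E)).smul_measure ENNReal.ofReal_ne_top
    exact (hemb.integrable_map_iff (μ := volume) (f := R.toHomeomorph)
      (g := gdens (V := E))).1 h3
  refine h1.congr (ae_of_all _ fun x => ?_)
  simp only [gdens, smul_eq_mul]
  rw [mul_assoc, ← Real.exp_add]
  congr 2; ring

lemma integrable_norm_sq : Integrable (fun g : E => ‖g‖ ^ 2) γ := by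
  have h := (IsGaussian.memLp_two_id (μ := (stdGaussian E))).norm
  have := h.integrable_sq
  simpa using this

lemma integrable_norm_sq_clm {G : Type*} [NormedAddCommGroup G] [NormedSpace ℝ G]
    (B : E →L[ℝ] G) : Integrable (fun g : E => ‖B g‖ ^ 2) γ := by
  refine Integrable.mono' ((integrable_norm_sq (E := E)).const_mul (‖B‖ ^ 2)) ?_ (ae_of_all _ fun g => ?_)
  · exact (by fun_prop : Continuous fun g : E => ‖B g‖ ^ 2).aestronglyMeasurable
  · rw [Real.norm_of_nonneg (by positivity), ← mul_pow]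
    exact pow_le_pow_left₀ (norm_nonneg _) (B.le_opNorm g) 2

/-- `|det R|⁻¹ = E exp ((‖g‖² - ‖R g‖²)/2)`, and Jensen. -/
lemma det_ge (R : E ≃L[ℝ] E) :
    exp ((∫ g : E, (‖g‖ ^ 2 - ‖R g‖ ^ 2) ∂γ) / 2) ≤ |(LinearMap.det (R : E →ₗ[ℝ] E))⁻¹| := by
  have h1 := lint_gdens_R R (Q := univ) MeasurableSet.univ
  have himg : (R '' univ) = univ := by rw [image_univ]; exact R.surjective.range_eq
  rw [himg, measure_univ, mul_one] at h1
  have h2 : ∫⁻ x, univ.indicator (fun x : E => ENNReal.ofReal (gdens (R x))) x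
      = ENNReal.ofReal (∫ g : E, exp ((‖g‖ ^ 2 - ‖R g‖ ^ 2) / 2) ∂γ) := by
    rw [ofReal_integral_eq_lintegral_ofReal (integrable_quad_exp R)
      (ae_of_all _ fun g => (exp_pos _).le), stdGaussian_eq_withDensity,
      lintegral_withDensity_eq_lintegral_mul _ continuous_gdens.measurable.ennreal_ofReal
        (by fun_prop)]
    refine lintegral_congr fun x => ?_
    simp only [indicator_univ, Pi.mul_apply]
    rw [← ENNReal.ofReal_mul (gdens_pos x).le]
    congr 1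
    simp only [gdens]
    rw [mul_assoc, ← Real.exp_add]
    congr 2; ring
  have h3 : ∫ g : E, exp ((‖g‖ ^ 2 - ‖R g‖ ^ 2) / 2) ∂γ = |(LinearMap.det (R : E →ₗ[ℝ] E))⁻¹| := by
    have := h2.symm.trans h1
    rwa [ENNReal.ofReal_eq_ofReal_iff (integral_nonneg fun g => (exp_pos _).le) (abs_nonneg _)] at this
  rw [← h3]
  have hX : Integrable (fun g : E => (‖g‖ ^ 2 - ‖R g‖ ^ 2) / 2) γ :=
    ((integrable_norm_sq (E := E)).sub (integrable_norm_sq_clm (R : E →L[ℝ] E))).div_const 2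
  have h4 := jensen_exp γ hX (integrable_quad_exp R) (by simp)
  simp only [probReal_univ, one_mul, div_one, integral_div] at h4
  exact h4

/-- **(MIX-R)** pulled back mixture lemma. -/
theorem mixR (R : E ≃L[ℝ] E) (B : E →L[ℝ] F) {τ : ℝ} (h0 : 0 < τ) (h1 : τ ≤ 1 / 4)
    (hB : ∀ g, ‖B g‖ ^ 2 ≤ τ * ‖g‖ ^ 2) (hR : ∀ g, ‖g‖ ^ 2 ≤ ‖R g‖ ^ 2 + ‖B g‖ ^ 2)
    {K Q C : Set E} (hK : MeasurableSet K) (hQ : MeasurableSet Q) (hC : MeasurableSet C)
    (hKQ : ∀ k ∈ K, ∀ r ∈ Q, (2⁻¹ : ℝ) • (k + r) ∈ C) (hK0 : 0 < (γ).real K) :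
    (γ).real K * (γ).real (R '' Q) *
      exp ((∫ g, (‖g‖ ^ 2 - ‖R g‖ ^ 2) ∂γ) / 2
        - (1 + 4 * τ) / 2 * ((∫ g in K, ‖B g‖ ^ 2 ∂γ) / (γ).real K)) ≤ (γ).real C ^ 2 := by
  set c : ℝ := (2 * π) ^ (-(Module.finrank ℝ E : ℝ) / 2) with hc
  have hc0 : 0 < c := by positivity
  let f : E → ℝ≥0∞ := K.indicator fun k => ENNReal.ofReal (gdens k * exp (-((1 + 4 * τ) / 2 * ‖B k‖ ^ 2)))
  let h : E → ℝ≥0∞ := Q.indicator fun r => ENNReal.ofReal (gdens (R r))
  let m : E → ℝ≥0∞ := C.indicator fun x => ENNReal.ofReal (gdens x)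
  have cg := (continuous_gdens (V := E))
  have mf : Measurable f := by
    refine Measurable.indicator ?_ hK
    have : Continuous fun k : E => gdens k * exp (-((1 + 4 * τ) / 2 * ‖B k‖ ^ 2)) := by fun_prop
    exact this.measurable.ennreal_ofReal
  have mh : Measurable h := by
    refine Measurable.indicator ?_ hQ
    exact (cg.comp R.continuous).measurable.ennreal_ofReal
  have mm : Measurable m := Measurable.indicator cg.measurable.ennreal_ofReal hC
  have H : ∀ x y : E, f x ^ (1 - (2⁻¹ : ℝ)) * h y ^ (2⁻¹ : ℝ) ≤ m ((1 - (2⁻¹ : ℝ)) • x + (2⁻¹ : ℝ) • y) := by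
    intro x y
    by_cases hx : x ∈ K
    swap
    · simp only [f, indicator_of_notMem hx]
      rw [ENNReal.zero_rpow_of_pos (by norm_num), zero_mul]; exact zero_le
    by_cases hy : y ∈ Q
    swap
    · simp only [h, indicator_of_notMem hy]
      rw [ENNReal.zero_rpow_of_pos (by norm_num), mul_zero]; exact zero_le
    have e : (1 - (2⁻¹ : ℝ)) • x + (2⁻¹ : ℝ) • y = (2⁻¹ : ℝ) • (x + y) := by
      rw [smul_add]; norm_num
    rw [e]
    simp only [f, h, m, indicator_of_mem hx, indicator_of_mem hy, indicator_of_mem (hKQ x hx y hy)]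
    have e2 : (1 - (2⁻¹ : ℝ)) = 2⁻¹ := by norm_num
    rw [e2, ← ENNReal.mul_rpow_of_nonneg _ _ (by norm_num),
      ← ENNReal.ofReal_mul (by have := gdens_pos x; positivity),
      ENNReal.ofReal_rpow_of_nonneg (by have := gdens_pos x; have := gdens_pos (R y); positivity)
        (by norm_num)]
    apply ENNReal.ofReal_le_ofReal
    have hq := quad_mix B h0 h1 hB x y
    have hRy := hR y
    have key : gdens x * exp (-((1 + 4 * τ) / 2 * ‖B x‖ ^ 2)) * gdens (R y)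
        ≤ (gdens ((2⁻¹ : ℝ) • (x + y))) ^ 2 := by
      simp only [gdens, ← hc]
      have : c * exp (-‖x‖ ^ 2 / 2) * exp (-((1 + 4 * τ) / 2 * ‖B x‖ ^ 2)) * (c * exp (-‖R y‖ ^ 2 / 2))
          = c ^ 2 * exp (-‖x‖ ^ 2 / 2 + -((1 + 4 * τ) / 2 * ‖B x‖ ^ 2) + -‖R y‖ ^ 2 / 2) := by
        rw [Real.exp_add, Real.exp_add]; ring
      rw [this, mul_pow, ← Real.exp_nat_mul]
      refine mul_le_mul_of_nonneg_left (Real.exp_le_exp.2 ?_) (by positivity)
      push_cast
      linarith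
    calc (gdens x * exp (-((1 + 4 * τ) / 2 * ‖B x‖ ^ 2)) * gdens (R y)) ^ (2⁻¹ : ℝ)
        ≤ ((gdens ((2⁻¹ : ℝ) • (x + y))) ^ 2) ^ (2⁻¹ : ℝ) :=
          Real.rpow_le_rpow (by have := gdens_pos x; have := gdens_pos (R y); positivity) key
            (by norm_num)
      _ = gdens ((2⁻¹ : ℝ) • (x + y)) := by
          rw [← Real.rpow_natCast, ← Real.rpow_mul (gdens_pos _).le]
          norm_num
  have hPL := PLvol (E := E) 2⁻¹ (by norm_num) (by norm_num) f h m mf mh mm H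
  -- the three integrals
  have Im : ∫⁻ x, m x = γ C := by
    simp only [m]
    rw [lintegral_indicator hC, stdGaussian_eq_withDensity, withDensity_apply _ hC]
  have Ih : ∫⁻ x, h x = ENNReal.ofReal |(LinearMap.det (R : E →ₗ[ℝ] E))⁻¹| * γ (R '' Q) :=
    lint_gdens_R R hQ
  have intB : IntegrableOn (fun g : E => -((1 + 4 * τ) / 2 * ‖B g‖ ^ 2)) K γ :=
    (((integrable_norm_sq_clm B).const_mul _).neg).integrableOn
  have intE : IntegrableOn (fun g : E => exp (-((1 + 4 * τ) / 2 * ‖B g‖ ^ 2))) K γ := by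
    refine Integrable.mono' (integrable_const (1:ℝ)) ?_ (ae_of_all _ fun g => ?_)
    · exact (by fun_prop : Continuous fun g : E => exp (-((1 + 4 * τ) / 2 * ‖B g‖ ^ 2))).aestronglyMeasurable
    · rw [Real.norm_of_nonneg (exp_pos _).le, Real.exp_le_one_iff]
      have : 0 ≤ (1 + 4 * τ) / 2 * ‖B g‖ ^ 2 := by positivity
      linarith
  have If : ∫⁻ x, f x = ENNReal.ofReal (∫ g in K, exp (-((1 + 4 * τ) / 2 * ‖B g‖ ^ 2)) ∂γ) := by
    rw [ofReal_integral_eq_lintegral_ofReal intE (ae_of_all _ fun g => (exp_pos _).le)]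
    simp only [f]
    rw [lintegral_indicator hK, stdGaussian_eq_withDensity, restrict_withDensity hK,
      lintegral_withDensity_eq_lintegral_mul _ cg.measurable.ennreal_ofReal
        ((by fun_prop : Continuous fun g : E =>
          exp (-((1 + 4 * τ) / 2 * ‖B g‖ ^ 2))).measurable.ennreal_ofReal)]
    refine lintegral_congr fun x => ?_
    simp only [Pi.mul_apply]
    rw [← ENNReal.ofReal_mul (gdens_pos x).le]
  have Jf : (γ).real K * exp (-((1 + 4 * τ) / 2 * ((∫ g in K, ‖B g‖ ^ 2 ∂γ) / (γ).real K)))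
      ≤ ∫ g in K, exp (-((1 + 4 * τ) / 2 * ‖B g‖ ^ 2)) ∂γ := by
    have hh := jensen_exp ((γ).restrict K) intB intE (by simpa using hK0)
    have e1 : ((γ).restrict K).real univ = (γ).real K := by simp [Measure.real]
    rw [e1] at hh
    have e2 : (∫ g in K, -((1 + 4 * τ) / 2 * ‖B g‖ ^ 2) ∂γ) / (γ).real K
        = -((1 + 4 * τ) / 2 * ((∫ g in K, ‖B g‖ ^ 2 ∂γ) / (γ).real K)) := by
      rw [integral_neg, integral_const_mul]; ring
    rw [e2] at hh
    exact hh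
  -- back to reals
  rw [Im, Ih, If] at hPL
  have hPL2 : (ENNReal.ofReal (∫ g in K, exp (-((1 + 4 * τ) / 2 * ‖B g‖ ^ 2)) ∂γ)) *
      (ENNReal.ofReal |(LinearMap.det (R : E →ₗ[ℝ] E))⁻¹| * γ (R '' Q)) ≤ γ C ^ 2 := by
    have e2 : (1 - (2⁻¹ : ℝ)) = 2⁻¹ := by norm_num
    rw [e2, ← ENNReal.mul_rpow_of_nonneg _ _ (by norm_num)] at hPL
    have := ENNReal.rpow_le_rpow hPL (by norm_num : (0:ℝ) ≤ 2)
    rw [← ENNReal.rpow_mul, show ((2⁻¹:ℝ) * 2) = 1 by norm_num, ENNReal.rpow_one] at this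
    have e4 : γ C ^ (2:ℝ) = γ C ^ 2 := by
      rw [← ENNReal.rpow_natCast]; norm_num
    rwa [e4] at this
  have hfin : γ C ^ 2 ≠ ∞ := ENNReal.pow_ne_top (measure_ne_top _ _)
  have hPL3 := ENNReal.toReal_mono hfin hPL2
  rw [ENNReal.toReal_mul, ENNReal.toReal_mul, ENNReal.toReal_ofReal
    (integral_nonneg fun g => (exp_pos _).le), ENNReal.toReal_ofReal (abs_nonneg _),
    ENNReal.toReal_pow] at hPL3
  have hD := det_ge R
  have hRQ0 : 0 ≤ (γ).real (R '' Q) := measureReal_nonneg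
  rw [sub_eq_add_neg, Real.exp_add]
  calc (γ).real K * (γ).real (R '' Q) * (exp ((∫ g, (‖g‖ ^ 2 - ‖R g‖ ^ 2) ∂γ) / 2) *
        exp (-((1 + 4 * τ) / 2 * ((∫ g in K, ‖B g‖ ^ 2 ∂γ) / (γ).real K))))
      = ((γ).real K * exp (-((1 + 4 * τ) / 2 * ((∫ g in K, ‖B g‖ ^ 2 ∂γ) / (γ).real K)))) *
        (exp ((∫ g, (‖g‖ ^ 2 - ‖R g‖ ^ 2) ∂γ) / 2) * (γ).real (R '' Q)) := by ring
    _ ≤ (∫ g in K, exp (-((1 + 4 * τ) / 2 * ‖B g‖ ^ 2)) ∂γ) *
        (|(LinearMap.det (R : E →ₗ[ℝ] E))⁻¹| * (γ).real (R '' Q)) := by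
        apply mul_le_mul Jf
        · exact mul_le_mul_of_nonneg_right hD hRQ0
        · positivity
        · exact integral_nonneg fun g => (exp_pos _).le
    _ ≤ (γ).real C ^ 2 := hPL3

end Crest.Agent.R239.MixR758
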