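import Crest.Agent.R239.TA_805
import Crest.Agent.R239.Dom_640
import Crest.Agent.R239.Gr2_655
import Crest.Agent.R239.MixR_758

/-! R239: the one-level comparison in Gaussian space (helper805).

`R : E ≃L E` describes the tilted Gaussian (`‖R g‖² = ‖g‖² - q g`), `L : E → F` the map into the
other flag, `C` the level operator of the other flag.  `core_cut`: slab cut and ellipsoid cut of
`L⁻¹ K'` under the tilted Gaussian.  `core_mix`: the same followed by the mixture lemma. -/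

set_option autoImplicit false
set_option linter.unusedSectionVars false
open MeasureTheory ProbabilityTheory Set
open scoped RealInnerProductSpace ENNReal NNReal InnerProduct

namespace Crest.Agent.R239.Core805

open Crest.Agent.R239 Crest.Agent.R239.TA805

variable {E : Type*} [NormedAddCommGroup E] [InnerProductSpace ℝ E] [FiniteDimensional ℝ E]
  [MeasurableSpace E] [BorelSpace E]
variable {F : Type*} [NormedAddCommGroup F] [InnerProductSpace ℝ F] [FiniteDimensional ℝ F]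
  [MeasurableSpace F] [BorelSpace F]
variable {G : Type*} [NormedAddCommGroup G] [InnerProductSpace ℝ G] [FiniteDimensional ℝ G]
  [MeasurableSpace G] [BorelSpace G]
variable {H : Type*} [NormedAddCommGroup H] [InnerProductSpace ℝ H] [FiniteDimensional ℝ H]
  [MeasurableSpace H] [BorelSpace H]

lemma adj_symm_le {R : E ≃L[ℝ] E} (hR : ∀ g, (3 / 4) * ‖g‖ ^ 2 ≤ ‖R g‖ ^ 2) (a : E) :
    ‖(R.symm : E →L[ℝ] E).adjoint a‖ ^ 2 ≤ (4 / 3) * ‖a‖ ^ 2 := by
  set a' := (R.symm : E →L[ℝ] E).adjoint a with ha'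
  have h1 : ‖a'‖ ^ 2 = ⟪a, R.symm a'⟫ := by
    rw [← real_inner_self_eq_norm_sq, ha', ContinuousLinearMap.adjoint_inner_left]
    rfl
  have h2 : ‖R.symm a'‖ ^ 2 ≤ (4 / 3) * ‖a'‖ ^ 2 := by
    have := hR (R.symm a')
    rw [ContinuousLinearEquiv.apply_symm_apply] at this
    linarith
  have h3 : ⟪a, R.symm a'⟫ ≤ ‖a‖ * ‖R.symm a'‖ := real_inner_le_norm _ _
  have h4 : ‖a'‖ ^ 2 * ‖a'‖ ^ 2 ≤ ‖a‖ ^ 2 * ((4 / 3) * ‖a'‖ ^ 2) := by
    have h3' : ‖a'‖ ^ 2 ≤ ‖a‖ * ‖R.symm a'‖ := h1.le.trans h3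
    calc ‖a'‖ ^ 2 * ‖a'‖ ^ 2 ≤ (‖a‖ * ‖R.symm a'‖) * (‖a‖ * ‖R.symm a'‖) :=
          mul_self_le_mul_self (by positivity) h3'
      _ = ‖a‖ ^ 2 * ‖R.symm a'‖ ^ 2 := by ring
      _ ≤ _ := mul_le_mul_of_nonneg_left h2 (sq_nonneg _)
  by_cases h0 : ‖a'‖ ^ 2 = 0
  · rw [h0]; positivity
  · have hpos : 0 < ‖a'‖ ^ 2 := lt_of_le_of_ne (sq_nonneg _) (Ne.symm h0)
    nlinarith

lemma integral_comp_symm_le {R : E ≃L[ℝ] E} (hR : ∀ g, (3 / 4) * ‖g‖ ^ 2 ≤ ‖R g‖ ^ 2)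
    (N : E →L[ℝ] H) :
    ∫ x, ‖(N ∘L (R.symm : E →L[ℝ] E)) x‖ ^ 2 ∂(stdGaussian E)
      ≤ (4 / 3) * ∫ x, ‖N x‖ ^ 2 ∂(stdGaussian E) := by
  rw [Dom640.integral_norm_sq, Dom640.integral_norm_sq, Finset.mul_sum]
  refine Finset.sum_le_sum fun i _ => ?_
  rw [ContinuousLinearMap.adjoint_comp]
  exact adj_symm_le hR _

/-- measure of `L⁻¹ K'` under the tilted Gaussian -/
lemma gau_le_comp {L : E →L[ℝ] F} {C : G →L[ℝ] F} (R : E ≃L[ℝ] E)
    (hL : ∀ t g, ⟪t, L g⟫ ^ 2 ≤ ‖C.adjoint t‖ ^ 2 * ‖R g‖ ^ 2)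
    {K : Set F} (mK : MeasurableSet K) (cK : Convex ℝ K) (sK : ∀ x ∈ K, -x ∈ K) :
    (gau C).real K ≤ (stdGaussian E).real ((L ∘L (R.symm : E →L[ℝ] E)) ⁻¹' K) := by
  set A : E →L[ℝ] F := L ∘L (R.symm : E →L[ℝ] E) with hA
  have hadj : ∀ t, ‖A.adjoint t‖ ≤ ‖C.adjoint t‖ := by
    intro t
    by_cases h0 : ‖A.adjoint t‖ = 0
    · rw [h0]; exact norm_nonneg _
    have hpos : 0 < ‖A.adjoint t‖ := lt_of_le_of_ne (norm_nonneg _) (Ne.symm h0)
    set g : E := R.symm (A.adjoint t) with hg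
    have h1 := hL t g
    have h2 : ⟪t, L g⟫ = ‖A.adjoint t‖ ^ 2 := by
      rw [← real_inner_self_eq_norm_sq, ContinuousLinearMap.adjoint_inner_left, hg]
      rfl
    have h3 : ‖R g‖ ^ 2 = ‖A.adjoint t‖ ^ 2 := by
      rw [hg]
      simp
    rw [h2, h3] at h1
    have h4 : ‖A.adjoint t‖ ^ 2 ≤ ‖C.adjoint t‖ ^ 2 := by
      have h5 : 0 < ‖A.adjoint t‖ ^ 2 := by positivity
      nlinarith
    exact (sq_le_sq₀ (norm_nonneg _) (norm_nonneg _)).1 h4
  have h1 := gau_mono_symm hadj mK cK sK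
  rwa [gau_real_apply A mK] at h1

/-- `1 - x ≥ exp (-(1+x) x)` for `0 ≤ x ≤ 1/5`. -/
lemma exp_neg_le_one_sub {x : ℝ} (h0 : 0 ≤ x) (h1 : x ≤ 1 / 5) :
    Real.exp (-((1 + x) * x)) ≤ 1 - x := by
  have h2 : 0 < 1 - x := by linarith
  have h3 : -((1 + x) * x) ≤ Real.log (1 - x) := by
    have h4 := Real.one_sub_inv_le_log_of_pos h2
    -- 1 - 1/(1-x) = -x/(1-x) ≥ -(1+2x) x; use a sharper bound through the square root
    have h5 := Real.one_sub_inv_le_log_of_pos (x := Real.sqrt (1 - x)) (Real.sqrt_pos.2 h2)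
    rw [Real.log_sqrt h2.le] at h5
    have hs : 0 < Real.sqrt (1 - x) := Real.sqrt_pos.2 h2
    have hs2 : Real.sqrt (1 - x) ^ 2 = 1 - x := Real.sq_sqrt h2.le
    have h6 : -((1 + x) * x) / 2 ≤ 1 - (Real.sqrt (1 - x))⁻¹ := by
      have h7 : (Real.sqrt (1 - x))⁻¹ ≤ 1 + (1 + x) * x / 2 := by
        rw [inv_le_comm₀ hs (by nlinarith)]
        apply Real.le_sqrt_of_sq_le
        rw [inv_pow, inv_le_comm₀ (by positivity) h2]
        rw [inv_le_iff_one_le_mul₀ h2]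
        have h8 : 0 ≤ x ^ 2 * ((1 + x) ^ 2 * (1 - x) - 4 * x) := by
          refine mul_nonneg (sq_nonneg x) ?_
          have h9 : (1 : ℝ) ≤ (1 + x) ^ 2 := by nlinarith
          nlinarith
        have h10 : (1 + (1 + x) * x / 2) ^ 2 * (1 - x)
            = 1 + x ^ 2 * ((1 + x) ^ 2 * (1 - x) - 4 * x) / 4 := by ring
        rw [h10]
        linarith
      linarith
    linarith
  calc Real.exp (-((1 + x) * x)) ≤ Real.exp (Real.log (1 - x)) := Real.exp_le_exp.2 h3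
    _ = 1 - x := Real.exp_log h2

/-- ellipsoid cut of a symmetric convex set (506's pointwise form): one cut, all `h ≥ 0`. -/
theorem cap_cut {S : Set E} (cS : Convex ℝ S) (clS : IsClosed S) (sS : ∀ x ∈ S, -x ∈ S)
    (N : E →L[ℝ] H) {rho r h : ℝ} (hrho : 16 ≤ rho) (hr : 0 < r) (hh : 0 ≤ h)
    (hEN : ∫ x, ‖N x‖ ^ 2 ∂(stdGaussian E) ≤ (4 / 3) * r)
    (hN : ∀ x ∈ S, ‖N x‖ ^ 2 ≤ rho ^ 2 * r + h * ‖N x‖ ^ 2) :
    Real.exp (-(24 * h / rho ^ 2)) * (stdGaussian E).real S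
      ≤ (stdGaussian E).real (S ∩ {x | ‖N x‖ ^ 2 ≤ rho ^ 2 * r}) := by
  set R0 : ℝ := rho * Real.sqrt r with hR0
  have hsr : 0 < Real.sqrt r := Real.sqrt_pos.2 hr
  have hR0p : 0 < R0 := by positivity
  have hR02 : R0 ^ 2 = rho ^ 2 * r := by rw [hR0, mul_pow, Real.sq_sqrt hr.le]
  have hset : {x : E | ‖N x‖ ^ 2 ≤ rho ^ 2 * r} = {x | ‖N x‖ ≤ R0} := by
    ext x
    simp only [mem_ofPred_eq]
    rw [← hR02]
    exact sq_le_sq₀ (norm_nonneg _) hR0p.le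
  rw [hset]
  have hS0 : 0 ≤ (stdGaussian E).real S := measureReal_nonneg
  have hrho2 : (256 : ℝ) ≤ rho ^ 2 := by nlinarith
  have hrp : (0 : ℝ) < rho ^ 2 := by positivity
  by_cases h1 : h ≤ 1 / 2
  · -- the tail version
    set e : ℝ := 16 / (3 * rho ^ 2) with he
    have he0 : 0 ≤ e := by positivity
    have he1 : e ≤ 1 / 48 := by
      rw [he, div_le_div_iff₀ (by positivity) (by norm_num)]
      nlinarith
    have hmk : MeasurableSet {x : E | ‖N x‖ ≤ R0} :=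
      measurableSet_le N.continuous.norm.measurable measurable_const
    have hmk2 : MeasurableSet {x : E | ‖N x‖ ≤ R0 / 2} :=
      measurableSet_le N.continuous.norm.measurable measurable_const
    have hsplit : ∀ c : ℝ, MeasurableSet {x : E | ‖N x‖ ≤ c} →
        (stdGaussian E).real (S ∩ {x | c < ‖N x‖})
          = (stdGaussian E).real S - (stdGaussian E).real (S ∩ {x | ‖N x‖ ≤ c}) := by
      intro c hc
      have h2 : (stdGaussian E).real (S ∩ {x | ‖N x‖ ≤ c})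
          + (stdGaussian E).real (S \ {x | ‖N x‖ ≤ c}) = (stdGaussian E).real S :=
        measureReal_inter_add_sdiff hc
      have h3 : S ∩ {x | c < ‖N x‖} = S \ {x | ‖N x‖ ≤ c} := by
        ext x
        simp only [mem_inter_iff, mem_sdiff, mem_ofPred_eq, not_le]
      rw [h3]; linarith
    have htail : (stdGaussian E).real (S ∩ {x | R0 / 2 < ‖N x‖}) ≤ e * (stdGaussian E).real S := by
      have h2 := Dom640.cut clS.measurableSet cS sS N (r := R0 / 2) (by positivity)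
      rw [hsplit _ hmk2]
      have h3 : (∫ x, ‖N x‖ ^ 2 ∂(stdGaussian E)) / (R0 / 2) ^ 2 ≤ e := by
        rw [he, div_le_div_iff₀ (by positivity) (by positivity), div_pow, hR02]
        nlinarith
      nlinarith
    have hcap := Gr655.cap_tail (E := E) cS clS (N := fun x => ‖N x‖)
      (by
        have := (convexOn_norm (convex_univ (𝕜 := ℝ) (E := H))).comp_linearMap
          (N : E →ₗ[ℝ] H)
        rw [preimage_univ] at this
        exact this)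
      N.continuous.norm (R := R0) (δ := h * R0) (e := e) hR0p (by positivity) (by
        intro x hx
        have h2 := hN x hx
        have h3 : ‖N x‖ ^ 2 ≤ (R0 + h * R0) ^ 2 := by
          have h4 : (1 - h) * ‖N x‖ ^ 2 ≤ R0 ^ 2 := by rw [hR02]; linarith
          have h5 : 1 ≤ (1 - h) * (1 + h) ^ 2 := by
            have h50 : 0 ≤ h * (1 - h - h ^ 2) := mul_nonneg hh (by nlinarith)
            nlinarith
          have h6 : (1 - h) * ‖N x‖ ^ 2 ≤ (1 - h) * (R0 + h * R0) ^ 2 := by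
            calc (1 - h) * ‖N x‖ ^ 2 ≤ R0 ^ 2 := h4
              _ ≤ ((1 - h) * (1 + h) ^ 2) * R0 ^ 2 := by nlinarith [sq_nonneg R0]
              _ = (1 - h) * (R0 + h * R0) ^ 2 := by ring
          exact le_of_mul_le_mul_left h6 (by linarith)
        exact (sq_le_sq₀ (norm_nonneg _) (by positivity)).1 h3) he0 (by linarith) htail
    rw [hsplit _ hmk] at hcap
    have h7 : 4 * (h * R0) * e / R0 = 4 * h * e := by field_simp
    rw [h7] at hcap
    set x := 4 * h * e with hx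
    have hx0 : 0 ≤ x := by positivity
    have hx1 : x ≤ 1 / 24 := by rw [hx]; nlinarith
    have h8 := exp_neg_le_one_sub hx0 (by linarith)
    have h9 : Real.exp (-(24 * h / rho ^ 2)) ≤ Real.exp (-((1 + x) * x)) := by
      apply Real.exp_le_exp.2
      have h10 : (1 + x) * x ≤ 24 * h / rho ^ 2 := by
        have h11 : x = (64 / 3) * (h / rho ^ 2) := by rw [hx, he]; ring
        have h12 : 0 ≤ h / rho ^ 2 := by positivity
        calc (1 + x) * x ≤ (25 / 24) * x := by nlinarith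
          _ = (25 / 24) * ((64 / 3) * (h / rho ^ 2)) := by rw [← h11]
          _ ≤ 24 * (h / rho ^ 2) := by nlinarith
          _ = _ := by ring
      linarith
    nlinarith
  · -- h > 1/2
    rw [not_le] at h1
    have h2 := Dom640.cut clS.measurableSet cS sS N (r := R0) hR0p
    have h3 : (∫ x, ‖N x‖ ^ 2 ∂(stdGaussian E)) / R0 ^ 2 ≤ (4 / 3) / rho ^ 2 := by
      rw [div_le_div_iff₀ (by positivity) hrp, hR02]
      nlinarith
    set x : ℝ := (4 / 3) / rho ^ 2 with hx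
    have hx0 : 0 ≤ x := by positivity
    have hx1 : x ≤ 1 / 5 := by
      rw [hx, div_le_div_iff₀ hrp (by norm_num)]; nlinarith
    have h8 := exp_neg_le_one_sub hx0 hx1
    have h9 : Real.exp (-(24 * h / rho ^ 2)) ≤ Real.exp (-((1 + x) * x)) := by
      apply Real.exp_le_exp.2
      have h10 : (1 + x) * x ≤ 24 * h / rho ^ 2 := by
        calc (1 + x) * x ≤ 2 * x := by nlinarith
          _ ≤ 24 * h / rho ^ 2 := by
            rw [hx, ← mul_div_assoc]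
            exact div_le_div_of_nonneg_right (by linarith) hrp.le
      linarith
    have h11 : (1 - x) * (stdGaussian E).real S
        ≤ (1 - (∫ x, ‖N x‖ ^ 2 ∂(stdGaussian E)) / R0 ^ 2) * (stdGaussian E).real S :=
      mul_le_mul_of_nonneg_right (by linarith) hS0
    nlinarith

/-- **core_cut** -/
theorem core_cut {L : E →L[ℝ] F} {C : G →L[ℝ] F} (R : E ≃L[ℝ] E)
    (hR : ∀ g, (3 / 4) * ‖g‖ ^ 2 ≤ ‖R g‖ ^ 2)
    (hL : ∀ t g, ⟪t, L g⟫ ^ 2 ≤ ‖C.adjoint t‖ ^ 2 * ‖R g‖ ^ 2)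
    {K : Set F} (clK : IsClosed K) (cK : Convex ℝ K) (sK : ∀ x ∈ K, -x ∈ K)
    (a : E) (t : ℝ) (N : E →L[ℝ] H) {rho r h : ℝ} (hrho : 16 ≤ rho) (hr : 0 < r) (hh : 0 ≤ h)
    (hEN : ∫ x, ‖N x‖ ^ 2 ∂(stdGaussian E) ≤ r)
    (hN : ∀ g, L g ∈ K → ‖N g‖ ^ 2 ≤ rho ^ 2 * r + h * ‖N g‖ ^ 2) :
    (gau C).real K
        * (stdGaussian E).real {x | |⟪(R.symm : E →L[ℝ] E).adjoint a, x⟫| ≤ t}
        * Real.exp (-(24 * h / rho ^ 2))
      ≤ (stdGaussian E).real (R '' {g | L g ∈ K ∧ |⟪a, g⟫| ≤ t ∧ ‖N g‖ ^ 2 ≤ rho ^ 2 * r}) := by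
  set A : E →L[ℝ] F := L ∘L (R.symm : E →L[ℝ] E) with hA
  set N' : E →L[ℝ] H := N ∘L (R.symm : E →L[ℝ] E) with hN'
  set a' := (R.symm : E →L[ℝ] E).adjoint a with ha'
  set S : Set E := A ⁻¹' K with hS
  have clS : IsClosed S := clK.preimage A.continuous
  have cS : Convex ℝ S := cK.linear_preimage (A : E →ₗ[ℝ] F)
  have sS : ∀ x ∈ S, -x ∈ S := by
    intro x hx
    simp only [hS, mem_preimage, map_neg]
    exact sK _ hx
  have h1 := gau_le_comp (L := L) (C := C) R hL clK.measurableSet cK sK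
  have h2 := Dom640.slab_real clS.measurableSet cS sS a' t
  set S1 : Set E := S ∩ {x | |⟪a', x⟫| ≤ t} with hS1
  have clS1 : IsClosed S1 := clS.inter (isClosed_le (by fun_prop) continuous_const)
  have cS1 : Convex ℝ S1 := by
    refine cS.inter ?_
    have : {x : E | |⟪a', x⟫| ≤ t} = {x | ⟪a', x⟫ ≤ t} ∩ {x | -t ≤ ⟪a', x⟫} := by
      ext x
      simp only [mem_ofPred_eq, mem_inter_iff, abs_le]
      tauto
    rw [this]
    exact (convex_halfSpace_le (innerSL ℝ a').isLinear t).inter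
      (convex_halfSpace_ge (innerSL ℝ a').isLinear (-t))
  have sS1 : ∀ x ∈ S1, -x ∈ S1 := by
    rintro x ⟨h3, h4⟩
    refine ⟨sS x h3, ?_⟩
    simp only [mem_ofPred_eq, inner_neg_right, abs_neg]
    exact h4
  have hEN' : ∫ x, ‖N' x‖ ^ 2 ∂(stdGaussian E) ≤ (4 / 3) * r :=
    (integral_comp_symm_le hR N).trans (mul_le_mul_of_nonneg_left hEN (by norm_num))
  have h5 := cap_cut cS1 clS1 sS1 N' hrho hr hh hEN' (by
    rintro x ⟨h3, _⟩
    exact hN (R.symm x) h3)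
  have himg : R '' {g | L g ∈ K ∧ |⟪a, g⟫| ≤ t ∧ ‖N g‖ ^ 2 ≤ rho ^ 2 * r}
      = S1 ∩ {x | ‖N' x‖ ^ 2 ≤ rho ^ 2 * r} := by
    ext x
    constructor
    · rintro ⟨g, ⟨h6, h7, h8⟩, rfl⟩
      refine ⟨⟨?_, ?_⟩, ?_⟩
      · simp only [hS, hA, mem_preimage, ContinuousLinearMap.comp_apply,
          ContinuousLinearEquiv.coe_coe, ContinuousLinearEquiv.symm_apply_apply]
        exact h6
      · simp only [mem_ofPred_eq, ha', ContinuousLinearMap.adjoint_inner_left,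
          ContinuousLinearEquiv.coe_coe, ContinuousLinearEquiv.symm_apply_apply]
        exact h7
      · simp only [mem_ofPred_eq, hN', ContinuousLinearMap.comp_apply,
          ContinuousLinearEquiv.coe_coe, ContinuousLinearEquiv.symm_apply_apply]
        exact h8
    · rintro ⟨⟨h6, h7⟩, h8⟩
      refine ⟨R.symm x, ⟨h6, ?_, h8⟩, by simp⟩
      have : ⟪a', x⟫ = ⟪a, R.symm x⟫ := by
        rw [ha', ContinuousLinearMap.adjoint_inner_left]; rfl
      rw [← this]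
      exact h7
  rw [himg]
  refine le_trans ?_ h5
  rw [mul_comm]
  refine mul_le_mul_of_nonneg_left ?_ (Real.exp_pos _).le
  exact (mul_le_mul_of_nonneg_right h1 measureReal_nonneg).trans h2

/-- **core_mix** -/
theorem core_mix {L : E →L[ℝ] F} {C : G →L[ℝ] F} (R : E ≃L[ℝ] E) (B : E →L[ℝ] H) {τ : ℝ}
    (hτ0 : 0 < τ) (hτ1 : τ ≤ 1 / 4) (hB : ∀ g, ‖B g‖ ^ 2 ≤ τ * ‖g‖ ^ 2)
    (hRB : ∀ g, ‖g‖ ^ 2 ≤ ‖R g‖ ^ 2 + ‖B g‖ ^ 2)
    (hL : ∀ t g, ⟪t, L g⟫ ^ 2 ≤ ‖C.adjoint t‖ ^ 2 * ‖R g‖ ^ 2)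
    {K' : Set F} (clK : IsClosed K') (cK : Convex ℝ K') (sK : ∀ x ∈ K', -x ∈ K')
    (a : E) (t : ℝ) (N : E →L[ℝ] H) {rho r h : ℝ} (hrho : 16 ≤ rho) (hr : 0 < r) (hh : 0 ≤ h)
    (hEN : ∫ x, ‖N x‖ ^ 2 ∂(stdGaussian E) ≤ r)
    (hN : ∀ g, L g ∈ K' → ‖N g‖ ^ 2 ≤ rho ^ 2 * r + h * ‖N g‖ ^ 2)
    {K W : Set E} (mK : MeasurableSet K) (mW : MeasurableSet W) (hK0 : 0 < (stdGaussian E).real K)
    (hKW : ∀ k ∈ K, ∀ g, L g ∈ K' → |⟪a, g⟫| ≤ t → ‖N g‖ ^ 2 ≤ rho ^ 2 * r →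
      (2⁻¹ : ℝ) • (k + g) ∈ W) :
    (stdGaussian E).real K * ((gau C).real K'
        * (stdGaussian E).real {x | |⟪(R.symm : E →L[ℝ] E).adjoint a, x⟫| ≤ t}
        * Real.exp (-(24 * h / rho ^ 2)))
        * Real.exp ((∫ g, (‖g‖ ^ 2 - ‖R g‖ ^ 2) ∂(stdGaussian E)) / 2
          - (1 + 4 * τ) / 2 * ((∫ g in K, ‖B g‖ ^ 2 ∂(stdGaussian E)) / (stdGaussian E).real K))
      ≤ (stdGaussian E).real W ^ 2 := by
  have hR : ∀ g, (3 / 4) * ‖g‖ ^ 2 ≤ ‖R g‖ ^ 2 := by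
    intro g
    have h1 := hRB g
    have h2 := hB g
    nlinarith [sq_nonneg ‖g‖]
  have h1 := core_cut R hR hL clK cK sK a t N hrho hr hh hEN hN
  have mQ : MeasurableSet {g : E | L g ∈ K' ∧ |⟪a, g⟫| ≤ t ∧ ‖N g‖ ^ 2 ≤ rho ^ 2 * r} := by
    have m1 : MeasurableSet {g : E | |⟪a, g⟫| ≤ t} :=
      (isClosed_le (by fun_prop) continuous_const).measurableSet
    have m2 : MeasurableSet {g : E | ‖N g‖ ^ 2 ≤ rho ^ 2 * r} :=
      (isClosed_le (by fun_prop) continuous_const).measurableSet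
    exact (clK.preimage L.continuous).measurableSet.inter (m1.inter m2)
  have h2 := Crest.Agent.R239.MixR758.mixR R B hτ0 hτ1 hB hRB mK mQ mW (by
    rintro k hk g ⟨h3, h4, h5⟩
    exact hKW k hk g h3 h4 h5) hK0
  refine le_trans ?_ h2
  refine mul_le_mul_of_nonneg_right ?_ (Real.exp_pos _).le
  exact mul_le_mul_of_nonneg_left h1 measureReal_nonneg

end Crest.Agent.R239.Core805
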