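import Crest.Agent.R239.Cmp_142
import Crest.Agent.R239.AnSym_853
import Crest.Agent.R239.FDef

/-! R239 (helper961): covariance comparison (CC) for symmetric convex sets. -/

set_option autoImplicit false
set_option linter.unusedSectionVars false
open MeasureTheory ProbabilityTheory Set Filter Topology Metric
open scoped RealInnerProductSpace ENNReal NNReal InnerProduct

namespace Crest.Agent.R239.Cov961

open Crest.Agent.R239

variable {E : Type*} [NormedAddCommGroup E] [InnerProductSpace ℝ E] [FiniteDimensional ℝ E]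
  [MeasurableSpace E] [BorelSpace E]

/-- symmetric square roots -/
theorem exists_root_symm (S : E →L[ℝ] E) (hs : ∀ x y, ⟪S x, y⟫ = ⟪x, S y⟫)
    (hp : ∀ x, 0 ≤ ⟪S x, x⟫) :
    ∃ D : E →L[ℝ] E, (∀ x y, ⟪D x, y⟫ = ⟪x, D y⟫) ∧ ∀ t, ‖D t‖ ^ 2 = ⟪S t, t⟫ := by
  have hT : (S : E →ₗ[ℝ] E).IsSymmetric := hs
  set b := hT.eigenvectorBasis rfl with hb
  set lam := hT.eigenvalues rfl with hlam
  have hSb : ∀ i, S (b i) = lam i • b i := fun i => hT.apply_eigenvectorBasis rfl i
  have hl : ∀ i, 0 ≤ lam i := by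
    intro i
    have h := hp (b i)
    rw [hSb, inner_smul_left, real_inner_self_eq_norm_sq, b.orthonormal.1 i] at h
    simpa using h
  have hSt : ∀ t, ⟪S t, t⟫ = ∑ i, lam i * ⟪b i, t⟫ ^ 2 := by
    intro t
    rw [← b.sum_inner_mul_inner (S t) t]
    refine Finset.sum_congr rfl fun i _ => ?_
    rw [hs, hSb, inner_smul_right, real_inner_comm]
    ring
  let L : E →L[ℝ] E := ∑ i, (Real.sqrt (lam i)) •
    ((ContinuousLinearMap.toSpanSingleton ℝ (b i)) ∘L (innerSL ℝ (b i)))
  have hL : ∀ t, L t = ∑ i, (Real.sqrt (lam i) * ⟪b i, t⟫) • b i := by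
    intro t
    simp only [L, sum_apply, smul_apply,
      ContinuousLinearMap.comp_apply, innerSL_apply_apply,
      ContinuousLinearMap.toSpanSingleton_apply, smul_smul]
  refine ⟨L, fun x y => ?_, fun t => ?_⟩
  · rw [hL, hL, sum_inner, inner_sum]
    refine Finset.sum_congr rfl fun i _ => ?_
    rw [inner_smul_left, inner_smul_right, real_inner_comm x (b i)]
    simp
    ring
  · rw [hSt, hL, ← real_inner_self_eq_norm_sq,
      b.orthonormal.inner_sum]
    refine Finset.sum_congr rfl fun i _ => ?_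
    simp only [conj_trivial]
    rw [← pow_two, mul_pow, Real.sq_sqrt (hl i)]

/-- **(CC)** covariance comparison: `S S† ≤ C C† + Σ c_k (C y_k)(C y_k)†`. -/
theorem cov_cmp {ι : Type*} (s : Finset ι) (C S : E →L[ℝ] E) (c : ι → ℝ) (y : ι → E)
    (hc : ∀ k ∈ s, 0 ≤ c k)
    (h : ∀ z, ‖S.adjoint z‖ ^ 2 ≤ ‖C.adjoint z‖ ^ 2 + ∑ k ∈ s, c k * ⟪C (y k), z⟫ ^ 2)
    {K : Set E} (hK : IsClosed K) (cK : Convex ℝ K) (sK : ∀ x ∈ K, -x ∈ K) :
    (gau C).real K ≤ Real.exp ((∑ k ∈ s, c k * ‖y k‖ ^ 2) / 2) * (gau S).real K := by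
  classical
  set c' : ι → ℝ := fun k => if k ∈ s then c k else 0 with hc'
  have hc'0 : ∀ k, 0 ≤ c' k := by
    intro k
    by_cases hk : k ∈ s
    · simpa [hc', hk] using hc k hk
    · simp [hc', hk]
  have hcc : ∀ k ∈ s, c' k = c k := fun k hk => by simp [hc', hk]
  -- the operator `1 + Σ c_k y_k y_k†`
  set Q : E →L[ℝ] E := ContinuousLinearMap.id ℝ E +
    ∑ k ∈ s, c' k • ((ContinuousLinearMap.toSpanSingleton ℝ (y k)) ∘L (innerSL ℝ (y k))) with hQ
  have hQa : ∀ x, Q x = x + ∑ k ∈ s, (c' k * ⟪y k, x⟫) • y k := by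
    intro x
    simp only [hQ, add_apply, ContinuousLinearMap.id_apply, sum_apply, smul_apply,
      ContinuousLinearMap.comp_apply, innerSL_apply_apply,
      ContinuousLinearMap.toSpanSingleton_apply, smul_smul]
  have hQt : ∀ t, ⟪Q t, t⟫ = ‖t‖ ^ 2 + ∑ k ∈ s, c' k * ⟪y k, t⟫ ^ 2 := by
    intro t
    rw [hQa, inner_add_left, real_inner_self_eq_norm_sq, sum_inner]
    congr 1
    refine Finset.sum_congr rfl fun k _ => ?_
    rw [inner_smul_left]
    simp
    ring
  obtain ⟨A, hA1, hA2⟩ := exists_root_symm Q (by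
    intro x z
    rw [hQa, hQa, inner_add_left, inner_add_right, sum_inner, inner_sum]
    congr 1
    refine Finset.sum_congr rfl fun k _ => ?_
    rw [inner_smul_left, inner_smul_right, real_inner_comm x (y k)]
    simp
    ring) (by
    intro x
    rw [hQt]
    have : 0 ≤ ∑ k ∈ s, c' k * ⟪y k, x⟫ ^ 2 :=
      Finset.sum_nonneg fun k _ => mul_nonneg (hc'0 k) (sq_nonneg _)
    positivity)
  have hAadj : ∀ z, A.adjoint z = A z := by
    intro z
    apply ext_inner_right ℝ
    intro u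
    rw [ContinuousLinearMap.adjoint_inner_left, hA1]
  -- step 1 : measure of `C⁻¹ K`
  have mK := hK.measurableSet
  have h1 := Crest.Agent.R239.AnSym853.gau_mono_symm (S := S) (C := C ∘L A) (fun t => by
    have e1 : (C ∘L A).adjoint t = A (C.adjoint t) := by
      rw [ContinuousLinearMap.adjoint_comp, ContinuousLinearMap.comp_apply, hAadj]
    rw [e1]
    have e2 := hA2 (C.adjoint t)
    rw [hQt] at e2
    have e3 : ∑ k ∈ s, c' k * ⟪y k, C.adjoint t⟫ ^ 2 = ∑ k ∈ s, c k * ⟪C (y k), t⟫ ^ 2 := by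
      refine Finset.sum_congr rfl fun k hk => ?_
      rw [ContinuousLinearMap.adjoint_inner_right, hcc k hk]
    rw [e3] at e2
    have e4 := h t
    rw [← e2] at e4
    exact abs_le_of_sq_le_sq' e4 (norm_nonneg _) |>.2) hK cK sK
  have h1r : (gau (C ∘L A)).real K ≤ (gau S).real K :=
    ENNReal.toReal_mono (measure_ne_top _ _) h1
  have h2 := Crest.Agent.R239.Cmp142.cmp_sum_real (K := C ⁻¹' K) (C.continuous.measurable mK)
    (cK.is_linear_preimage C.toLinearMap.isLinear) (fun x hx => by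
      simp only [mem_preimage, map_neg]
      exact sK _ hx) s A (fun k => Real.sqrt (c' k) • y k) (fun g => by
        rw [hA2, hQt]
        apply le_of_eq
        congr 1
        refine Finset.sum_congr rfl fun k _ => ?_
        rw [inner_smul_left]
        simp only [conj_trivial]
        rw [mul_pow, Real.sq_sqrt (hc'0 k)])
  have e5 : (∑ k ∈ s, ‖Real.sqrt (c' k) • y k‖ ^ 2) = ∑ k ∈ s, c k * ‖y k‖ ^ 2 := by
    refine Finset.sum_congr rfl fun k hk => ?_
    rw [norm_smul, mul_pow, Real.norm_of_nonneg (Real.sqrt_nonneg _), Real.sq_sqrt (hc'0 k),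
      hcc k hk]
  rw [e5] at h2
  rw [gau_real_apply C mK]
  have e6 : (gau (C ∘L A)).real K = (stdGaussian E).real (A ⁻¹' (C ⁻¹' K)) := by
    rw [gau_real_apply _ mK]
    rfl
  rw [e6] at h1r
  have h3 := h2.trans h1r
  have e7 : Real.exp ((∑ k ∈ s, c k * ‖y k‖ ^ 2) / 2)
      * Real.exp (-(∑ k ∈ s, c k * ‖y k‖ ^ 2) / 2) = 1 := by
    rw [← Real.exp_add]
    simp [neg_div]
  calc (stdGaussian E).real (C ⁻¹' K)
      = Real.exp ((∑ k ∈ s, c k * ‖y k‖ ^ 2) / 2)
        * (Real.exp (-(∑ k ∈ s, c k * ‖y k‖ ^ 2) / 2) * (stdGaussian E).real (C ⁻¹' K)) := by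
          rw [← mul_assoc, e7, one_mul]
    _ ≤ _ := by
          gcongr

end Crest.Agent.R239.Cov961
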