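import Crest.Agent.R239.AnSym_853
import Crest.Agent.R239.Tilt_371

/-! R239 (helper348): Gaussian comparison in covariance form.

* `cov_cmp` : `|S† y|² ≤ |C† y|² + Σ_k ⟪C a_k, y⟫²  ==>  exp(-Σ|a_k|²/2) gau C K ≤ gau S K`.
* `gain_thin` : if `Q` is thin in the unit direction `n`, increasing the variance of `n` by `ta` loses
  a factor `exp(-c' ta / 8)`.
-/

set_option autoImplicit false
set_option linter.unusedSectionVars false
open MeasureTheory ProbabilityTheory Set Filter Topology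
open scoped RealInnerProductSpace ENNReal NNReal InnerProduct

namespace Crest.Agent.R239.Cov348

open Crest.Agent.R239

variable {E : Type*} [NormedAddCommGroup E] [InnerProductSpace ℝ E] [FiniteDimensional ℝ E]
  [MeasurableSpace E] [BorelSpace E]
variable {F : Type*} [NormedAddCommGroup F] [InnerProductSpace ℝ F] [FiniteDimensional ℝ F]
  [MeasurableSpace F] [BorelSpace F]
variable {G : Type*} [NormedAddCommGroup G] [InnerProductSpace ℝ G] [FiniteDimensional ℝ G]
  [MeasurableSpace G] [BorelSpace G]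

lemma map_neg_std : (stdGaussian F).map (fun x => -x) = stdGaussian F := by
  have h := gau_ext (A := -(ContinuousLinearMap.id ℝ F)) (B := ContinuousLinearMap.id ℝ F)
    (by intro t; simp)
  rw [gau_id] at h
  exact h

lemma mp_neg_std : MeasurePreserving (fun x : F => -x) (stdGaussian F) (stdGaussian F) :=
  ⟨measurable_neg, map_neg_std⟩

lemma setIntegral_inner_eq_zero {A : Set F} (mA : MeasurableSet A) (sA : ∀ x ∈ A, -x ∈ A) (h : F) :
    ∫ x in A, ⟪h, x⟫ ∂(stdGaussian F) = 0 := by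
  rw [← integral_indicator mA]
  have e : ∫ x, A.indicator (fun x => ⟪h, x⟫) x ∂(stdGaussian F)
      = ∫ x, A.indicator (fun x => ⟪h, x⟫) (-x) ∂(stdGaussian F) := by
    have := (mp_neg_std (F := F)).integral_comp (MeasurableEquiv.neg F).measurableEmbedding
      (A.indicator (fun x => ⟪h, x⟫))
    exact this.symm
  have e2 : ∀ x, A.indicator (fun x => ⟪h, x⟫) (-x) = -A.indicator (fun x => ⟪h, x⟫) x := by
    intro x
    by_cases hx : x ∈ A
    · rw [indicator_of_mem hx, indicator_of_mem (sA x hx)]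
      simp
    · have hx' : -x ∉ A := fun hc => hx (by simpa using sA _ hc)
      rw [indicator_of_notMem hx, indicator_of_notMem hx']
      simp
  simp_rw [e2] at e
  rw [integral_neg] at e
  linarith

/-- translates of symmetric sets lose at most `exp(-|h|²/2)` -/
lemma shift_ge {A : Set F} (mA : MeasurableSet A) (sA : ∀ x ∈ A, -x ∈ A) (h : F) :
    Real.exp (-(‖h‖ ^ 2) / 2) * (stdGaussian F).real A ≤ (stdGaussian F).real {x | x + h ∈ A} := by
  rw [cameron_martin_measure_real h mA]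
  have hi : Integrable (fun x : F => ⟪h, x⟫) (stdGaussian F) := by
    have : IsGaussian (stdGaussian F) := inferInstance
    exact (IsGaussian.integrable_dual (stdGaussian F) (innerSL ℝ h))
  have i1 : IntegrableOn (fun x : F => Real.exp (-(‖h‖ ^ 2) / 2) * (1 + ⟪h, x⟫)) A
      (stdGaussian F) := by
    exact (((integrable_const (1 : ℝ)).add hi).const_mul _).integrableOn
  have i2 : IntegrableOn (fun x : F => Real.exp (⟪h, x⟫ - ‖h‖ ^ 2 / 2)) A (stdGaussian F) :=
    (integrable_exp_inner h).integrableOn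
  calc Real.exp (-(‖h‖ ^ 2) / 2) * (stdGaussian F).real A
      = ∫ x in A, Real.exp (-(‖h‖ ^ 2) / 2) * (1 + ⟪h, x⟫) ∂(stdGaussian F) := by
        rw [integral_const_mul, integral_add (integrable_const _) hi.integrableOn,
          setIntegral_inner_eq_zero mA sA]
        simp
    _ ≤ _ := by
        refine setIntegral_mono i1 i2 fun x => ?_
        have h1 : Real.exp (⟪h, x⟫ - ‖h‖ ^ 2 / 2)
            = Real.exp (-(‖h‖ ^ 2) / 2) * Real.exp ⟪h, x⟫ := by
          rw [← Real.exp_add]; congr 1; ring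
        rw [h1]
        refine mul_le_mul_of_nonneg_left ?_ (Real.exp_pos _).le
        have := Real.add_one_le_exp ⟪h, x⟫
        linarith

/-- the linear map `t ↦ Σ_k t_k a_k` -/
noncomputable def comb {ι : Type*} [Fintype ι] (a : ι → G) : EuclideanSpace ℝ ι →L[ℝ] G :=
  ∑ k, (EuclideanSpace.proj k : EuclideanSpace ℝ ι →L[ℝ] ℝ).smulRight (a k)

lemma comb_apply {ι : Type*} [Fintype ι] (a : ι → G) (x : EuclideanSpace ℝ ι) :
    comb a x = ∑ k, x k • a k := by
  simp [comb]

lemma comb_adjoint_apply {ι : Type*} [Fintype ι] (a : ι → G) (y : G) (k : ι) :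
    (comb a).adjoint y k = ⟪a k, y⟫ := by
  classical
  have h : ⟪EuclideanSpace.single k (1 : ℝ), (comb a).adjoint y⟫ = ⟪a k, y⟫ := by
    rw [ContinuousLinearMap.adjoint_inner_right, comb_apply]
    simp
  rw [← h, EuclideanSpace.inner_single_left]
  simp

lemma norm_comb_adjoint_sq {ι : Type*} [Fintype ι] (a : ι → G) (y : G) :
    ‖(comb a).adjoint y‖ ^ 2 = ∑ k, ⟪a k, y⟫ ^ 2 := by
  rw [EuclideanSpace.norm_sq_eq]
  refine Finset.sum_congr rfl fun k _ => ?_
  rw [comb_adjoint_apply, Real.norm_eq_abs, sq_abs]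

lemma integrable_inner_sq (T : F →L[ℝ] G) (n : G) :
    Integrable (fun x => ⟪n, T x⟫ ^ 2) (stdGaussian F) := by
  have : IsGaussian (stdGaussian F) := inferInstance
  have h := IsGaussian.memLp_dual (stdGaussian F) ((innerSL ℝ n) ∘L T) 2 (by simp)
  exact h.integrable_sq

lemma integral_inner_sq (T : F →L[ℝ] G) (n : G) :
    ∫ x, ⟪n, T x⟫ ^ 2 ∂(stdGaussian F) = ‖T.adjoint n‖ ^ 2 := by
  rw [← integral_norm_sq_gau T n, gau, integral_map (by fun_prop) (by fun_prop)]

lemma integrable_norm_sq (T : F →L[ℝ] G) :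
    Integrable (fun x => ‖T x‖ ^ 2) (stdGaussian F) := by
  have h : ∀ x, ‖T x‖ ^ 2 = ∑ j, ⟪stdOrthonormalBasis ℝ G j, T x⟫ ^ 2 := by
    intro x
    rw [← (stdOrthonormalBasis ℝ G).sum_sq_norm_inner_right (T x)]
    simp [sq_abs]
  simp_rw [h]
  exact integrable_finset_sum _ fun j _ => integrable_inner_sq T _

lemma integral_norm_sq (T : F →L[ℝ] G) :
    ∫ x, ‖T x‖ ^ 2 ∂(stdGaussian F) = ∑ j, ‖T.adjoint (stdOrthonormalBasis ℝ G j)‖ ^ 2 := by
  have h : ∀ x, ‖T x‖ ^ 2 = ∑ j, ⟪stdOrthonormalBasis ℝ G j, T x⟫ ^ 2 := by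
    intro x
    rw [← (stdOrthonormalBasis ℝ G).sum_sq_norm_inner_right (T x)]
    simp [sq_abs]
  simp_rw [h]
  rw [integral_finset_sum _ fun j _ => integrable_inner_sq T _]
  exact Finset.sum_congr rfl fun j _ => integral_inner_sq T _

lemma integral_norm_comb_sq {ι : Type*} [Fintype ι] (a : ι → G) :
    ∫ x, ‖comb a x‖ ^ 2 ∂(stdGaussian (EuclideanSpace ℝ ι)) = ∑ k, ‖a k‖ ^ 2 := by
  rw [integral_norm_sq]
  simp_rw [norm_comb_adjoint_sq]
  rw [Finset.sum_comm]
  refine Finset.sum_congr rfl fun k _ => ?_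
  rw [← (stdOrthonormalBasis ℝ G).sum_sq_norm_inner_left (a k)]
  simp [sq_abs]

/-- `exp (-E|x|²/2) ≤ E exp (-|x|²/2)` -/
lemma exp_neg_integral_le (T : F →L[ℝ] G) :
    Real.exp (-(∫ x, ‖T x‖ ^ 2 ∂(stdGaussian F)) / 2)
      ≤ ∫ x, Real.exp (-(‖T x‖ ^ 2) / 2) ∂(stdGaussian F) := by
  set m : ℝ := ∫ x, ‖T x‖ ^ 2 ∂(stdGaussian F) with hm
  have hi := integrable_norm_sq T
  have i00 : Integrable (fun x => m - ‖T x‖ ^ 2) (stdGaussian F) := (integrable_const m).sub hi
  have i0 : Integrable (fun x => (m - ‖T x‖ ^ 2) / 2) (stdGaussian F) := i00.div_const 2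
  have i01 : Integrable (fun x => 1 + (m - ‖T x‖ ^ 2) / 2) (stdGaussian F) :=
    (integrable_const (1 : ℝ)).add i0
  have i1 : Integrable (fun x => Real.exp (-m / 2) * (1 + (m - ‖T x‖ ^ 2) / 2)) (stdGaussian F) :=
    i01.const_mul _
  have i2 : Integrable (fun x => Real.exp (-(‖T x‖ ^ 2) / 2)) (stdGaussian F) := by
    refine (integrable_const (1 : ℝ)).mono (by fun_prop) (Eventually.of_forall fun x => ?_)
    rw [Real.norm_eq_abs, abs_of_pos (Real.exp_pos _)]
    simp only [norm_one]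
    apply Real.exp_le_one_iff.2
    have := sq_nonneg ‖T x‖
    linarith
  calc Real.exp (-m / 2)
      = ∫ x, Real.exp (-m / 2) * (1 + (m - ‖T x‖ ^ 2) / 2) ∂(stdGaussian F) := by
        rw [integral_const_mul, integral_add (integrable_const _) i0, integral_div,
          integral_sub (integrable_const _) hi, ← hm]
        simp
    _ ≤ _ := by
        refine integral_mono i1 i2 fun x => ?_
        have h1 : Real.exp (-(‖T x‖ ^ 2) / 2)
            = Real.exp (-m / 2) * Real.exp ((m - ‖T x‖ ^ 2) / 2) := by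
          rw [← Real.exp_add]; congr 1; ring
        simp only
        rw [h1]
        refine mul_le_mul_of_nonneg_left ?_ (Real.exp_pos _).le
        have := Real.add_one_le_exp ((m - ‖T x‖ ^ 2) / 2)
        linarith

/-- **(CC)** comparison in covariance form. -/
theorem cov_cmp {ι : Type*} [Fintype ι] (a : ι → G) {S : F →L[ℝ] E} {C : G →L[ℝ] E}
    (h : ∀ t, ‖S.adjoint t‖ ^ 2 ≤ ‖C.adjoint t‖ ^ 2 + ∑ k, ⟪C (a k), t⟫ ^ 2)
    {K : Set E} (hK : IsClosed K) (cK : Convex ℝ K) (sK : ∀ x ∈ K, -x ∈ K) :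
    Real.exp (-(∑ k, ‖a k‖ ^ 2) / 2) * (gau C).real K ≤ (gau S).real K := by
  set A : EuclideanSpace ℝ ι →L[ℝ] E := C ∘L comb a with hA
  have hAt : ∀ t, ‖A.adjoint t‖ ^ 2 = ∑ k, ⟪C (a k), t⟫ ^ 2 := by
    intro t
    rw [hA, ContinuousLinearMap.adjoint_comp, ContinuousLinearMap.comp_apply,
      norm_comb_adjoint_sq]
    refine Finset.sum_congr rfl fun k _ => ?_
    rw [ContinuousLinearMap.adjoint_inner_right]
  obtain ⟨D, hD⟩ := exists_root (A ∘L A.adjoint + C ∘L C.adjoint) (by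
    intro x y
    simp only [ContinuousLinearMap.add_apply, ContinuousLinearMap.comp_apply, inner_add_left,
      inner_add_right]
    rw [← ContinuousLinearMap.adjoint_inner_right A, ← ContinuousLinearMap.adjoint_inner_right C,
      ← ContinuousLinearMap.adjoint_inner_left A, ← ContinuousLinearMap.adjoint_inner_left C]) (by
    intro x
    simp only [ContinuousLinearMap.add_apply, ContinuousLinearMap.comp_apply, inner_add_left]
    rw [← ContinuousLinearMap.adjoint_inner_right A, ← ContinuousLinearMap.adjoint_inner_right C,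
      real_inner_self_eq_norm_sq, real_inner_self_eq_norm_sq]
    positivity)
  have hD' : ∀ t, ‖A.adjoint t‖ ^ 2 + ‖C.adjoint t‖ ^ 2 = ‖D.adjoint t‖ ^ 2 := by
    intro t
    rw [hD]
    simp only [ContinuousLinearMap.add_apply, ContinuousLinearMap.comp_apply, inner_add_left]
    rw [← ContinuousLinearMap.adjoint_inner_right A, ← ContinuousLinearMap.adjoint_inner_right C,
      real_inner_self_eq_norm_sq, real_inner_self_eq_norm_sq]
  have h1 : (gau D).real K ≤ (gau S).real K := by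
    have := AnSym853.gau_mono_symm (S := S) (C := D) (fun t => by
      have h2 := h t
      rw [← hAt t, add_comm, hD' t] at h2
      exact abs_le_of_sq_le_sq' h2 (norm_nonneg _) |>.2) hK cK sK
    exact ENNReal.toReal_mono (measure_ne_top _ _) this
  refine le_trans ?_ h1
  have mK := hK.measurableSet
  have hm : ∀ x : E, MeasurableSet {z : E | x + z ∈ K} := fun x =>
    (by fun_prop : Measurable fun z : E => x + z) mK
  have h2 : (gau D).real K = ∫ x, (gau C).real {z | A x + z ∈ K}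
      ∂(stdGaussian (EuclideanSpace ℝ ι)) := by
    rw [Measure.real, gau_mix hD' mK,
      integral_eq_lintegral_of_nonneg_ae (Eventually.of_forall fun x => measureReal_nonneg)
        (((measurable_gau_shift_real C mK).comp A.continuous.measurable).aestronglyMeasurable)]
    congr 1
    refine lintegral_congr fun x => ?_
    rw [Measure.real, ENNReal.ofReal_toReal (measure_ne_top _ _)]
  rw [h2]
  have h3 : ∀ x, Real.exp (-(‖comb a x‖ ^ 2) / 2) * (gau C).real K
      ≤ (gau C).real {z | A x + z ∈ K} := by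
    intro x
    rw [gau_real_apply C mK, gau_real_apply C (hm _)]
    have h4 := shift_ge (F := G) (A := C ⁻¹' K) (C.continuous.measurable mK)
      (fun y hy => by
        simp only [mem_preimage, map_neg] at hy ⊢
        exact sK _ hy) (comb a x)
    refine h4.trans (le_of_eq ?_)
    congr 1
    ext g
    simp only [mem_preimage, mem_ofPred_eq, map_add, hA, ContinuousLinearMap.comp_apply]
    rw [add_comm]
  have i2 : Integrable (fun x => Real.exp (-(‖comb a x‖ ^ 2) / 2))
      (stdGaussian (EuclideanSpace ℝ ι)) := by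
    refine (integrable_const (1 : ℝ)).mono (by fun_prop) (Eventually.of_forall fun x => ?_)
    rw [Real.norm_eq_abs, abs_of_pos (Real.exp_pos _)]
    simp only [norm_one]
    apply Real.exp_le_one_iff.2
    have := sq_nonneg ‖comb a x‖
    linarith
  have i3 : Integrable (fun x => (gau C).real {z | A x + z ∈ K})
      (stdGaussian (EuclideanSpace ℝ ι)) := by
    refine (integrable_const (1 : ℝ)).mono
      (((measurable_gau_shift_real C mK).comp A.continuous.measurable).aestronglyMeasurable)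
      (Eventually.of_forall fun x => ?_)
    rw [Real.norm_eq_abs, abs_of_nonneg measureReal_nonneg]
    simp only [norm_one]
    exact measureReal_le_one
  calc Real.exp (-(∑ k, ‖a k‖ ^ 2) / 2) * (gau C).real K
      ≤ (∫ x, Real.exp (-(‖comb a x‖ ^ 2) / 2) ∂(stdGaussian (EuclideanSpace ℝ ι)))
        * (gau C).real K := by
        refine mul_le_mul_of_nonneg_right ?_ measureReal_nonneg
        rw [← integral_norm_comb_sq a]
        exact exp_neg_integral_le (comb a)
    _ = ∫ x, Real.exp (-(‖comb a x‖ ^ 2) / 2) * (gau C).real K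
          ∂(stdGaussian (EuclideanSpace ℝ ι)) := by rw [integral_mul_const]
    _ ≤ _ := integral_mono (i2.mul_const _) i3 h3

/-! ### the gain of a thin body -/

/-- `R x = x + c ⟪n, x⟫ n` -/
noncomputable def str (n : E) (c : ℝ) : E →L[ℝ] E :=
  ContinuousLinearMap.id ℝ E + c • (innerSL ℝ n).smulRight n

lemma str_apply (n : E) (c : ℝ) (x : E) : str n c x = x + (c * ⟪n, x⟫) • n := by
  simp [str, smul_smul]

lemma inner_str {n : E} (hn : ‖n‖ = 1) (c : ℝ) (x : E) : ⟪n, str n c x⟫ = (1 + c) * ⟪n, x⟫ := by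
  rw [str_apply, inner_add_right, inner_smul_right, real_inner_self_eq_norm_sq, hn]
  ring

lemma str_str {n : E} (hn : ‖n‖ = 1) {c d : ℝ} (h : (1 + c) * (1 + d) = 1) (x : E) :
    str n c (str n d x) = x := by
  rw [str_apply n c, inner_str hn, str_apply, add_assoc, ← add_smul]
  have : d * ⟪n, x⟫ + c * ((1 + d) * ⟪n, x⟫) = 0 := by
    have : d * ⟪n, x⟫ + c * ((1 + d) * ⟪n, x⟫) = ((1 + c) * (1 + d) - 1) * ⟪n, x⟫ := by ring
    rw [this, h]; ring
  rw [this, zero_smul, add_zero]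

lemma norm_str_sq {n : E} (hn : ‖n‖ = 1) (c : ℝ) (x : E) :
    ‖str n c x‖ ^ 2 = ‖x‖ ^ 2 + ((1 + c) ^ 2 - 1) * ⟪n, x⟫ ^ 2 := by
  rw [str_apply, ← real_inner_self_eq_norm_sq]
  simp only [inner_add_left, inner_add_right, inner_smul_left, inner_smul_right,
    real_inner_self_eq_norm_sq, hn, RCLike.conj_to_real]
  rw [real_inner_comm n x]
  ring

lemma str_adjoint (n : E) (c : ℝ) : (str n c).adjoint = str n c := by
  apply ContinuousLinearMap.ext
  intro x
  apply ext_inner_right ℝ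
  intro y
  rw [ContinuousLinearMap.adjoint_inner_left, str_apply, str_apply]
  simp only [inner_add_left, inner_add_right, inner_smul_left, inner_smul_right,
    RCLike.conj_to_real]
  rw [real_inner_comm n x]
  ring

/-- `str n c` as an equivalence -/
noncomputable def strEquiv {n : E} (hn : ‖n‖ = 1) {c d : ℝ} (h : (1 + c) * (1 + d) = 1) :
    E ≃L[ℝ] E :=
  ContinuousLinearEquiv.equivOfInverse (str n c) (str n d)
    (fun x => str_str hn (by rw [mul_comm]; exact h) x) (fun x => str_str hn h x)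

lemma strEquiv_apply {n : E} (hn : ‖n‖ = 1) {c d : ℝ} (h : (1 + c) * (1 + d) = 1) (x : E) :
    strEquiv hn h x = str n c x := rfl

lemma integral_comp_inner {n : E} (hn : ‖n‖ = 1) {f : ℝ → ℝ} (hf : Measurable f) :
    ∫ x, f ⟪n, x⟫ ∂(stdGaussian E) = ∫ s, f s ∂(gaussianReal 0 1) := by
  have h := gau_map_inner (ContinuousLinearMap.id ℝ E) n
  rw [gau_id] at h
  have h1 : ‖(ContinuousLinearMap.id ℝ E).adjoint n‖₊ ^ 2 = 1 := by
    simp only [ContinuousLinearMap.adjoint_id, ContinuousLinearMap.id_apply]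
    have : ‖n‖₊ = 1 := by ext; simpa using hn
    rw [this]; norm_num
  rw [h1] at h
  rw [← h, integral_map (by fun_prop) hf.aestronglyMeasurable]

lemma integrable_comp_inner {n : E} (hn : ‖n‖ = 1) {f : ℝ → ℝ} (hf : Measurable f)
    (hi : Integrable f (gaussianReal 0 1)) :
    Integrable (fun x => f ⟪n, x⟫) (stdGaussian E) := by
  have h := gau_map_inner (ContinuousLinearMap.id ℝ E) n
  rw [gau_id] at h
  have h1 : ‖(ContinuousLinearMap.id ℝ E).adjoint n‖₊ ^ 2 = 1 := by
    simp only [ContinuousLinearMap.adjoint_id, ContinuousLinearMap.id_apply]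
    have : ‖n‖₊ = 1 := by ext; simpa using hn
    rw [this]; norm_num
  rw [h1] at h
  rw [← h] at hi
  exact (integrable_map_measure hf.aestronglyMeasurable (by fun_prop)).1 hi

lemma integrable_exp_inner_sq {n : E} (hn : ‖n‖ = 1) {l : ℝ} (hl : l < 1) :
    Integrable (fun x => Real.exp (l * ⟪n, x⟫ ^ 2 / 2)) (stdGaussian E) :=
  integrable_comp_inner hn (f := fun s => Real.exp (l * s ^ 2 / 2)) (by fun_prop)
    (integrable_exp_sq_1d hl)

/-- change of variables for a stretch: `γ(R⁻¹ Q) ∫ e^{l t²/2} = ∫_Q e^{l t²/2}`,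
`R = str n c`, `(1+c)² (1-l) = 1`. -/
lemma str_measure {n : E} (hn : ‖n‖ = 1) {l c : ℝ} (hl : l < 1) (hc : 0 < 1 + c)
    (hcl : (1 + c) ^ 2 * (1 - l) = 1) {Q : Set E} (hQ : MeasurableSet Q) :
    (stdGaussian E).real (str n c ⁻¹' Q) * (1 - l) ^ (-(1 / 2 : ℝ))
      = ∫ x in Q, Real.exp (l * ⟪n, x⟫ ^ 2 / 2) ∂(stdGaussian E) := by
  set d : ℝ := (1 + c)⁻¹ - 1 with hd
  have h1 : (1 + c) * (1 + d) = 1 := by rw [hd]; field_simp; ring
  have h2 : (1 + d) ^ 2 = 1 - l := by
    have : 1 + d = (1 + c)⁻¹ := by rw [hd]; ring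
    rw [this, inv_pow]
    have h3 : (1 + c) ^ 2 ≠ 0 := by positivity
    field_simp
    linarith
  have h := Tilt371.tilt_real (strEquiv hn (c := d) (d := c) (by rw [mul_comm]; exact h1))
    (fun x => l * ⟪n, x⟫ ^ 2) (fun x => by
      rw [strEquiv_apply, norm_str_sq hn, h2]
      ring) (B := str n c ⁻¹' Q) ((str n c).continuous.measurable hQ)
  have h3 : (strEquiv hn (c := d) (d := c) (by rw [mul_comm]; exact h1)) ⁻¹' (str n c ⁻¹' Q)
      = Q := by
    ext x
    simp only [mem_preimage, strEquiv_apply]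
    rw [str_str hn h1]
  rw [h3] at h
  have h4 : ∫ x, Real.exp (l * ⟪n, x⟫ ^ 2 / 2) ∂(stdGaussian E) = (1 - l) ^ (-(1 / 2 : ℝ)) := by
    rw [integral_comp_inner hn (f := fun s => Real.exp (l * s ^ 2 / 2)) (by fun_prop),
      integral_exp_sq_1d hl]
  rw [h4] at h
  have h5 : (0 : ℝ) < (1 - l) ^ (-(1 / 2 : ℝ)) := Real.rpow_pos_of_pos (by linarith) _
  rw [h, div_mul_cancel₀ _ h5.ne']

/-- `∫_Q exp(l t²/2) ≤ (1-l)^{-1/2} γ(Q)` for symmetric convex `Q`. -/
lemma setIntegral_exp_le {n : E} (hn : ‖n‖ = 1) {l : ℝ} (hl0 : 0 ≤ l) (hl : l < 1) {Q : Set E}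
    (hQ : IsClosed Q) (cQ : Convex ℝ Q) (sQ : ∀ x ∈ Q, -x ∈ Q) :
    ∫ x in Q, Real.exp (l * ⟪n, x⟫ ^ 2 / 2) ∂(stdGaussian E)
      ≤ (1 - l) ^ (-(1 / 2 : ℝ)) * (stdGaussian E).real Q := by
  have h1l : 0 < 1 - l := by linarith
  set c : ℝ := (√(1 - l))⁻¹ - 1 with hc
  have hs : 0 < √(1 - l) := Real.sqrt_pos.2 h1l
  have hc1 : 1 + c = (√(1 - l))⁻¹ := by rw [hc]; ring
  have hc0 : 0 < 1 + c := by rw [hc1]; positivity
  have hcl : (1 + c) ^ 2 * (1 - l) = 1 := by
    rw [hc1, inv_pow, Real.sq_sqrt h1l.le]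
    field_simp
  rw [← str_measure hn hl hc0 hcl hQ.measurableSet, mul_comm]
  refine mul_le_mul_of_nonneg_left ?_ (Real.rpow_nonneg h1l.le _)
  have h := AnSym853.gau_mono_symm (S := ContinuousLinearMap.id ℝ E) (C := str n c) (fun t => by
    rw [str_adjoint, ContinuousLinearMap.adjoint_id, ContinuousLinearMap.id_apply]
    apply le_of_sq_le_sq _ (norm_nonneg _)
    rw [norm_str_sq hn]
    have h2 : 1 ≤ (1 + c) ^ 2 := by
      have h3 : 0 ≤ (1 + c) ^ 2 := sq_nonneg _
      nlinarith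
    nlinarith [sq_nonneg ⟪n, t⟫]) hQ cQ sQ
  rw [gau_apply _ hQ.measurableSet, gau_id] at h
  exact ENNReal.toReal_mono (measure_ne_top _ _) h

lemma exp_le_quad {y : ℝ} (hy : 0 ≤ y) : Real.exp y ≤ 1 + y + y ^ 2 * Real.exp y := by
  have h1 : 1 - y ≤ Real.exp (-y) := by have := Real.add_one_le_exp (-y); linarith
  have hy' : 0 ≤ 1 + y := by linarith
  have h2 : (1 + y) * (1 - y) ≤ (1 + y) * Real.exp (-y) := mul_le_mul_of_nonneg_left h1 hy'
  have h3 : Real.exp y * Real.exp (-y) = 1 := by rw [← Real.exp_add]; simp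
  have h4 := Real.exp_pos y
  have h5 : 1 - y ^ 2 ≤ (1 + y) * Real.exp (-y) := by nlinarith
  have h6 := mul_le_mul_of_nonneg_left h5 h4.le
  have h7 : Real.exp y * ((1 + y) * Real.exp (-y)) = 1 + y := by
    calc Real.exp y * ((1 + y) * Real.exp (-y)) = (1 + y) * (Real.exp y * Real.exp (-y)) := by ring
      _ = 1 + y := by rw [h3, mul_one]
  nlinarith

/-- a thin body loses measure when the variance of the thin direction increases -/
theorem gain_thin {n : E} (hn : ‖n‖ = 1) {ta c' : ℝ} (hc0 : 0 < c') (hc1 : c' ≤ 1)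
    (ht0 : 0 ≤ ta) (ht : ta ≤ c' / 200) {Q : Set E}
    (hQ : IsClosed Q) (cQ : Convex ℝ Q) (sQ : ∀ x ∈ Q, -x ∈ Q)
    (hthin : ∫ x in Q, ⟪n, x⟫ ^ 2 ∂(stdGaussian E) ≤ (1 - c') * (stdGaussian E).real Q) :
    (stdGaussian E).real (str n (√(1 + ta) - 1) ⁻¹' Q)
      ≤ Real.exp (-(c' * ta / 8)) * (stdGaussian E).real Q := by
  set c : ℝ := √(1 + ta) - 1 with hc
  set l : ℝ := ta / (1 + ta) with hl
  have h1t : 0 < 1 + ta := by linarith
  have hl0 : 0 ≤ l := by rw [hl]; positivity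
  have hlt : l ≤ ta := by rw [hl]; exact div_le_self ht0 (by linarith)
  have hlt2 : ta / 2 ≤ l := by
    rw [hl, div_le_div_iff₀ (by norm_num) h1t]
    nlinarith
  have hl1 : l ≤ 1 / 200 := by linarith
  have h1l : 1 - l = (1 + ta)⁻¹ := by rw [hl]; field_simp; ring
  have hc2 : 0 < 1 + c := by rw [hc]; have := Real.sqrt_pos.2 h1t; linarith
  have hcl : (1 + c) ^ 2 * (1 - l) = 1 := by
    have : 1 + c = √(1 + ta) := by rw [hc]; ring
    rw [this, Real.sq_sqrt h1t.le, h1l, mul_inv_cancel₀ h1t.ne']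
  have hm := str_measure hn (by linarith : l < 1) hc2 hcl hQ.measurableSet
  have h1l' : 0 < 1 - l := by linarith
  -- denominator
  have hden : Real.exp (l / 2) ≤ (1 - l) ^ (-(1 / 2 : ℝ)) := by
    rw [Real.rpow_def_of_pos h1l']
    apply Real.exp_le_exp.2
    have := Real.log_le_sub_one_of_pos h1l'
    linarith
  -- numerator
  have i0 : Integrable (fun x : E => ⟪n, x⟫ ^ 2) (stdGaussian E) := by
    simpa using integrable_inner_sq (ContinuousLinearMap.id ℝ E) n
  have i1 := integrable_exp_inner_sq hn (show (1 / 2 : ℝ) < 1 by norm_num)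
  have hpt : ∀ x : E, Real.exp (l * ⟪n, x⟫ ^ 2 / 2)
      ≤ (1 + l / 2 * ⟪n, x⟫ ^ 2) + 32 * l ^ 2 * Real.exp (1 / 2 * ⟪n, x⟫ ^ 2 / 2) := by
    intro x
    set t2 : ℝ := ⟪n, x⟫ ^ 2 with ht2
    have ht2' : 0 ≤ t2 := sq_nonneg _
    have h1 := exp_le_quad (y := l * t2 / 2) (by positivity)
    have h2 : t2 ^ 2 ≤ 128 * Real.exp (t2 / 8) := by
      have := Real.quadratic_le_exp_of_nonneg (show 0 ≤ t2 / 8 by positivity)
      nlinarith
    have h3 : (l * t2 / 2) ^ 2 * Real.exp (l * t2 / 2)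
        ≤ 32 * l ^ 2 * Real.exp (1 / 2 * t2 / 2) := by
      have h4 : Real.exp (l * t2 / 2) ≤ Real.exp (t2 / 8) := by
        apply Real.exp_le_exp.2
        nlinarith
      have h5 : Real.exp (1 / 2 * t2 / 2) = Real.exp (t2 / 8) * Real.exp (t2 / 8) := by
        rw [← Real.exp_add]; congr 1; ring
      rw [h5]
      have h6 : (l * t2 / 2) ^ 2 = l ^ 2 / 4 * t2 ^ 2 := by ring
      rw [h6]
      calc l ^ 2 / 4 * t2 ^ 2 * Real.exp (l * t2 / 2)
          ≤ l ^ 2 / 4 * (128 * Real.exp (t2 / 8)) * Real.exp (t2 / 8) := by gcongr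
        _ = _ := by ring
    calc Real.exp (l * t2 / 2) ≤ 1 + l * t2 / 2 + (l * t2 / 2) ^ 2 * Real.exp (l * t2 / 2) := h1
      _ ≤ _ := by linarith
  have hnum : ∫ x in Q, Real.exp (l * ⟪n, x⟫ ^ 2 / 2) ∂(stdGaussian E)
      ≤ (1 + l / 2 * (1 - c') + 46 * l ^ 2) * (stdGaussian E).real Q := by
    have iA : Integrable (fun x : E => 1 + l / 2 * ⟪n, x⟫ ^ 2) (stdGaussian E) :=
      (integrable_const (1 : ℝ)).add (i0.const_mul _)
    have iB : Integrable (fun x : E => 32 * l ^ 2 * Real.exp (1 / 2 * ⟪n, x⟫ ^ 2 / 2))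
        (stdGaussian E) := i1.const_mul _
    have iC : Integrable (fun x : E => l / 2 * ⟪n, x⟫ ^ 2) (stdGaussian E) := i0.const_mul _
    have i2 : Integrable (fun x : E => (1 + l / 2 * ⟪n, x⟫ ^ 2)
        + 32 * l ^ 2 * Real.exp (1 / 2 * ⟪n, x⟫ ^ 2 / 2)) (stdGaussian E) := iA.add iB
    have i3 := integrable_exp_inner_sq hn (by linarith : l < 1)
    refine (setIntegral_mono i3.integrableOn i2.integrableOn hpt).trans ?_
    have e1 : ∫ x in Q, ((1 + l / 2 * ⟪n, x⟫ ^ 2)
        + 32 * l ^ 2 * Real.exp (1 / 2 * ⟪n, x⟫ ^ 2 / 2)) ∂(stdGaussian E)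
        = (stdGaussian E).real Q + l / 2 * (∫ x in Q, ⟪n, x⟫ ^ 2 ∂(stdGaussian E))
          + 32 * l ^ 2 * ∫ x in Q, Real.exp (1 / 2 * ⟪n, x⟫ ^ 2 / 2) ∂(stdGaussian E) := by
      rw [integral_add iA.integrableOn iB.integrableOn,
        integral_add (integrable_const _) iC.integrableOn,
        integral_const_mul, integral_const_mul]
      simp
    rw [e1]
    have h2 := setIntegral_exp_le hn (show (0 : ℝ) ≤ 1 / 2 by norm_num)
      (show (1 / 2 : ℝ) < 1 by norm_num) hQ cQ sQ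
    have h3 : (1 - 1 / 2 : ℝ) ^ (-(1 / 2 : ℝ)) ≤ 1.4375 := by
      have : (1 - 1 / 2 : ℝ) ^ (-(1 / 2 : ℝ)) = √2 := by
        rw [show (1 - 1 / 2 : ℝ) = 2⁻¹ by norm_num, Real.inv_rpow (by norm_num),
          Real.rpow_neg (by norm_num), inv_inv, Real.sqrt_eq_rpow]
      rw [this]
      rw [Real.sqrt_le_left (by norm_num)]
      norm_num
    have hQ0 : 0 ≤ (stdGaussian E).real Q := measureReal_nonneg
    have h4 : ∫ x in Q, Real.exp (1 / 2 * ⟪n, x⟫ ^ 2 / 2) ∂(stdGaussian E)
        ≤ 1.4375 * (stdGaussian E).real Q :=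
      h2.trans (mul_le_mul_of_nonneg_right h3 hQ0)
    have hl2 : 0 ≤ l ^ 2 := sq_nonneg _
    calc _ ≤ (stdGaussian E).real Q + l / 2 * ((1 - c') * (stdGaussian E).real Q)
          + 32 * l ^ 2 * (1.4375 * (stdGaussian E).real Q) := by gcongr
      _ = _ := by ring
  have hfin : (1 + l / 2 * (1 - c') + 46 * l ^ 2) ≤ Real.exp (l / 2) * Real.exp (-(c' * ta / 8)) := by
    rw [← Real.exp_add]
    refine le_trans ?_ (Real.add_one_le_exp _)
    nlinarith
  have hpos : 0 < (1 - l) ^ (-(1 / 2 : ℝ)) := Real.rpow_pos_of_pos h1l' _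
  have hQ0 : 0 ≤ (stdGaussian E).real Q := measureReal_nonneg
  have key : (stdGaussian E).real (str n c ⁻¹' Q) * (1 - l) ^ (-(1 / 2 : ℝ))
      ≤ (Real.exp (-(c' * ta / 8)) * (stdGaussian E).real Q) * (1 - l) ^ (-(1 / 2 : ℝ)) := by
    rw [hm]
    calc _ ≤ (1 + l / 2 * (1 - c') + 46 * l ^ 2) * (stdGaussian E).real Q := hnum
      _ ≤ (Real.exp (l / 2) * Real.exp (-(c' * ta / 8))) * (stdGaussian E).real Q := by gcongr
      _ = (Real.exp (-(c' * ta / 8)) * (stdGaussian E).real Q) * Real.exp (l / 2) := by ring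
      _ ≤ _ := by
        refine mul_le_mul_of_nonneg_left hden ?_
        positivity
  exact le_of_mul_le_mul_right key hpos

end Crest.Agent.R239.Cov348
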