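import Mathlib

/-! R239 / S0370 (helper446): covariance form of the rotation formula (block F5'). -/

set_option autoImplicit false
set_option linter.unusedSectionVars false
open scoped RealInnerProductSpace InnerProductSpace

namespace Crest.Agent.R239.Cov446

variable {E : Type*} [NormedAddCommGroup E] [InnerProductSpace ℝ E] [FiniteDimensional ℝ E]

/-- the contraction `x ↦ x - s ⟪v,x⟫ v` -/
noncomputable def T (s : ℝ) (v : E) : E →L[ℝ] E :=
  ContinuousLinearMap.id ℝ E - s • (innerSL ℝ v).smulRight v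

lemma T_apply (s : ℝ) (v x : E) : T s v x = x - (s * ⟪v, x⟫) • v := by
  simp [T, smul_smul]

lemma T_symm (s : ℝ) (v x y : E) : ⟪T s v x, y⟫ = ⟪x, T s v y⟫ := by
  rw [T_apply, T_apply, inner_sub_left, inner_sub_right, inner_smul_left, inner_smul_right]
  simp only [conj_trivial]
  rw [real_inner_comm v x]
  ring

lemma TT (s : ℝ) {v : E} (hv : ‖v‖ = 1) (x : E) :
    T s v (T s v x) = x - ((2 * s - s ^ 2) * ⟪v, x⟫) • v := by
  have h1 : ⟪v, v⟫ = 1 := by rw [real_inner_self_eq_norm_sq, hv]; norm_num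
  rw [T_apply, T_apply, inner_sub_right, inner_smul_right, h1, sub_sub, ← add_smul]
  congr 2
  ring

/-- abbreviation `B_j = 1 - s̄ |P_j v|²` -/
noncomputable def Bn (s : ℝ) (v : E) (M : Submodule ℝ E) : ℝ :=
  1 - (2 * s - s ^ 2) * ‖M.starProjection v‖ ^ 2

noncomputable def kp (s : ℝ) (v : E) (M : Submodule ℝ E) : ℝ :=
  (2 * s - s ^ 2) / Bn s v M

lemma inner_proj_self (M : Submodule ℝ E) (v : E) :
    ⟪M.starProjection v, v⟫ = ‖M.starProjection v‖ ^ 2 := by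
  have h := M.starProjection_inner_eq_zero v (M.starProjection v) (M.starProjection_apply_mem v)
  rw [inner_sub_left, real_inner_self_eq_norm_sq] at h
  rw [real_inner_comm]
  linarith

lemma inner_proj_left (M : Submodule ℝ E) (x y : E) :
    ⟪M.starProjection x, y⟫ = ⟪x, M.starProjection y⟫ :=
  M.starProjection_isSymmetric x y

lemma inner_proj_mem (M : Submodule ℝ E) (v : E) {x : E} (hx : x ∈ M) :
    ⟪M.starProjection v, x⟫ = ⟪v, x⟫ := by
  rw [inner_proj_left, Submodule.starProjection_eq_self_iff.2 hx]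

/-- the image flag space -/
noncomputable def TM (s : ℝ) (v : E) (M : Submodule ℝ E) : Submodule ℝ E :=
  M.map (T s v : E →ₗ[ℝ] E)

lemma mem_TM {s : ℝ} {v : E} {M : Submodule ℝ E} {x : E} (hx : x ∈ M) : T s v x ∈ TM s v M :=
  Submodule.mem_map_of_mem hx

/-- **Covariance form of the rotation formula**: `P_{TM} = T P_M T + κ (T w)(T w)ᵀ`. -/
theorem proj_TM (s : ℝ) {v : E} (hv : ‖v‖ = 1) (M : Submodule ℝ E) (hB : Bn s v M ≠ 0) (y : E) :
    (TM s v M).starProjection y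
      = T s v (M.starProjection (T s v y))
        + (kp s v M * ⟪T s v (M.starProjection v), y⟫) • T s v (M.starProjection v) := by
  set w := M.starProjection v with hw
  have hwM : w ∈ M := M.starProjection_apply_mem v
  refine Submodule.eq_starProjection_of_mem_of_inner_eq_zero ?_ ?_
  · exact Submodule.add_mem _ (mem_TM (M.starProjection_apply_mem _))
      (Submodule.smul_mem _ _ (mem_TM hwM))
  · rintro u hu
    obtain ⟨x, hx, rfl⟩ := hu
    change ⟪_, T s v x⟫ = 0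
    have hx' : x ∈ M := hx
    have e1 : ⟪y, T s v x⟫ = ⟪T s v y, x⟫ := (T_symm s v y x).symm
    have e2 : ⟪M.starProjection (T s v y), x⟫ = ⟪T s v y, x⟫ := inner_proj_mem M _ hx'
    have e3a : ⟪M.starProjection (T s v y), v⟫ = ⟪T s v w, y⟫ := by
      rw [inner_proj_left, ← hw, T_symm, real_inner_comm]
    have e3 : ⟪T s v (M.starProjection (T s v y)), T s v x⟫
        = ⟪T s v y, x⟫ - (2 * s - s ^ 2) * ⟪v, x⟫ * ⟪T s v w, y⟫ := by
      rw [T_symm, TT s hv, inner_sub_right, e2, inner_smul_right, e3a]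
    have e4 : ⟪w, v⟫ = ‖w‖ ^ 2 := inner_proj_self M v
    have e5 : ⟪w, x⟫ = ⟪v, x⟫ := inner_proj_mem M v hx'
    have e6 : ⟪T s v w, T s v x⟫ = ⟪v, x⟫ * Bn s v M := by
      rw [T_symm, TT s hv, inner_sub_right, inner_smul_right, e4, e5, Bn]
      ring
    rw [inner_sub_left, inner_add_left, inner_smul_left, e1, e3, e6]
    simp only [conj_trivial]
    rw [kp]
    field_simp
    ring

/-- quadratic form version -/
theorem normsq_proj_TM (s : ℝ) {v : E} (hv : ‖v‖ = 1) (M : Submodule ℝ E) (hB : Bn s v M ≠ 0)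
    (t : E) :
    ‖(TM s v M).starProjection t‖ ^ 2
      = ‖M.starProjection (T s v t)‖ ^ 2 + kp s v M * ⟪T s v (M.starProjection v), t⟫ ^ 2 := by
  rw [← inner_proj_self, proj_TM s hv M hB, inner_add_left, inner_smul_left, T_symm,
    inner_proj_self]
  simp only [conj_trivial]
  ring

lemma proj_comp_le {M N : Submodule ℝ E} (h : N ≤ M) (x : E) :
    N.starProjection (M.starProjection x) = N.starProjection x := by
  have := Submodule.starProjection_comp_starProjection_of_le h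
  exact congrArg (fun f : E →L[ℝ] E => f x) this

lemma proj_comp_le' {M N : Submodule ℝ E} (h : N ≤ M) (x : E) :
    M.starProjection (N.starProjection x) = N.starProjection x :=
  Submodule.starProjection_eq_self_iff.2 (h (N.starProjection_apply_mem x))

lemma norm_proj_mono {M N : Submodule ℝ E} (h : N ≤ M) (x : E) :
    ‖N.starProjection x‖ ≤ ‖M.starProjection x‖ := by
  rw [← proj_comp_le h]
  exact N.norm_starProjection_apply_le _

lemma Bn_pos {s : ℝ} (hs0 : 0 < s) (hs1 : s < 1) {v : E} (hv : ‖v‖ = 1) (M : Submodule ℝ E) :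
    1 - (2 * s - s ^ 2) ≤ Bn s v M := by
  have h1 : ‖M.starProjection v‖ ≤ 1 := by
    rw [← hv]; exact M.norm_starProjection_apply_le v
  have h2 : ‖M.starProjection v‖ ^ 2 ≤ 1 := by
    have := norm_nonneg (M.starProjection v); nlinarith
  have h3 : 0 ≤ 2 * s - s ^ 2 := by nlinarith
  rw [Bn]
  nlinarith

lemma Bn_ne {s : ℝ} (hs0 : 0 < s) (hs1 : s < 1) {v : E} (hv : ‖v‖ = 1) (M : Submodule ℝ E) :
    0 < Bn s v M := by
  have := Bn_pos hs0 hs1 hv M
  nlinarith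

lemma Bn_anti {s : ℝ} (hs0 : 0 < s) (hs1 : s < 1) {v : E} {M N : Submodule ℝ E} (h : N ≤ M) :
    Bn s v M ≤ Bn s v N := by
  have h1 := norm_proj_mono h v
  have h3 : 0 ≤ 2 * s - s ^ 2 := by nlinarith
  have h4 : ‖N.starProjection v‖ ^ 2 ≤ ‖M.starProjection v‖ ^ 2 := by
    have := norm_nonneg (N.starProjection v); nlinarith
  rw [Bn, Bn]
  nlinarith

lemma inner_proj_proj {M N : Submodule ℝ E} (h : N ≤ M) (v : E) :
    ⟪N.starProjection v, M.starProjection v⟫ = ‖N.starProjection v‖ ^ 2 := by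
  rw [← inner_proj_self N v, real_inner_comm, inner_proj_left, proj_comp_le' h, real_inner_comm]

/-- `P_{T N} (T P_M v) = (B_M/B_N) T P_N v` for `N ≤ M`. -/
theorem proj_TN_Tw (s : ℝ) {v : E} (hv : ‖v‖ = 1) {M N : Submodule ℝ E} (h : N ≤ M)
    (hB : Bn s v N ≠ 0) :
    (TM s v N).starProjection (T s v (M.starProjection v))
      = (Bn s v M / Bn s v N) • T s v (N.starProjection v) := by
  rw [proj_TM s hv N hB, TT s hv]
  have e1 : ⟪v, M.starProjection v⟫ = ‖M.starProjection v‖ ^ 2 := by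
    rw [real_inner_comm, inner_proj_self]
  have e2 : N.starProjection (M.starProjection v
      - ((2 * s - s ^ 2) * ⟪v, M.starProjection v⟫) • v) = Bn s v M • N.starProjection v := by
    rw [map_sub, map_smul, proj_comp_le h, e1, Bn, sub_smul, one_smul]
  have e3 : ⟪T s v (N.starProjection v), T s v (M.starProjection v)⟫
      = ‖N.starProjection v‖ ^ 2 * Bn s v M := by
    rw [T_symm, TT s hv, inner_sub_right, inner_smul_right, inner_proj_proj h, e1,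
      inner_proj_self, Bn]
    ring
  rw [e2, e3, map_smul, ← add_smul]
  congr 1
  rw [kp]
  field_simp
  rw [show Bn s v N = 1 - (2 * s - s ^ 2) * ‖N.starProjection v‖ ^ 2 from rfl]
  ring

lemma normsq_Tw (s : ℝ) {v : E} (hv : ‖v‖ = 1) (M : Submodule ℝ E) :
    ‖T s v (M.starProjection v)‖ ^ 2 = ‖M.starProjection v‖ ^ 2 * Bn s v M := by
  have e1 : ⟪v, M.starProjection v⟫ = ‖M.starProjection v‖ ^ 2 := by
    rw [real_inner_comm, inner_proj_self]
  rw [← real_inner_self_eq_norm_sq (T s v (M.starProjection v)), T_symm, TT s hv, inner_sub_right,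
    inner_smul_right, e1, inner_proj_self, real_inner_self_eq_norm_sq, Bn]
  ring

/-! ### Flags -/

/-- `H_i = Σ_{j ∈ Ico i n} θ^(j-i) (P_j - P_(j+1))` -/
noncomputable def Hm (θ : ℝ) (M : ℕ → Submodule ℝ E) (n i : ℕ) : E →L[ℝ] E :=
  ∑ j ∈ Finset.Ico i n, (θ ^ (j - i)) • ((M j).starProjection - (M (j + 1)).starProjection)

/-- the block projection -/
noncomputable def Qm (M : ℕ → Submodule ℝ E) (j : ℕ) : E →L[ℝ] E :=
  (M j).starProjection - (M (j + 1)).starProjection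

lemma Hm_apply (θ : ℝ) (M : ℕ → Submodule ℝ E) (n i : ℕ) (x : E) :
    Hm θ M n i x = ∑ j ∈ Finset.Ico i n, (θ ^ (j - i)) • Qm M j x := by
  simp [Hm, Qm]

lemma Qm_apply (M : ℕ → Submodule ℝ E) (j : ℕ) (x : E) :
    Qm M j x = (M j).starProjection x - (M (j + 1)).starProjection x := rfl

variable {M : ℕ → Submodule ℝ E}

lemma Qm_mem (hM : Antitone M) (j : ℕ) (x : E) : Qm M j x ∈ M j :=
  (M j).sub_mem ((M j).starProjection_apply_mem x)
    (hM (Nat.le_succ j) ((M (j + 1)).starProjection_apply_mem x))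

lemma proj_Qm_zero (hM : Antitone M) {j k : ℕ} (h : j < k) (x : E) :
    (M k).starProjection (Qm M j x) = 0 := by
  rw [Qm_apply, map_sub, proj_comp_le (hM h.le), proj_comp_le (hM (Nat.succ_le_of_lt h)), sub_self]

lemma proj_Qm_self (hM : Antitone M) {j k : ℕ} (h : k ≤ j) (x : E) :
    (M k).starProjection (Qm M j x) = Qm M j x :=
  Submodule.starProjection_eq_self_iff.2 (hM h (Qm_mem hM j x))

lemma inner_Qm_Qm (hM : Antitone M) {j k : ℕ} (h : j ≠ k) (x y : E) :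
    ⟪Qm M j x, Qm M k y⟫ = 0 := by
  rcases lt_or_gt_of_ne h with h | h
  · rw [← proj_Qm_self hM (le_refl k) y, ← inner_proj_left, proj_Qm_zero hM h, inner_zero_left]
  · rw [← proj_Qm_self hM (le_refl j) x, inner_proj_left, proj_Qm_zero hM h, inner_zero_right]

lemma normsq_Qm (hM : Antitone M) (j : ℕ) (x : E) :
    ‖Qm M j x‖ ^ 2 = ‖(M j).starProjection x‖ ^ 2 - ‖(M (j + 1)).starProjection x‖ ^ 2 := by
  have h : ⟪(M j).starProjection x, (M (j + 1)).starProjection x⟫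
      = ‖(M (j + 1)).starProjection x‖ ^ 2 := by
    rw [real_inner_comm, inner_proj_proj (hM (Nat.le_succ j))]
  rw [Qm_apply, norm_sub_sq_real, h]
  ring

/-- `‖H_i x‖² = Σ θ^(2(j-i)) ‖Q_j x‖²` -/
theorem normsq_Hm (θ : ℝ) (hM : Antitone M) (n i : ℕ) (x : E) :
    ‖Hm θ M n i x‖ ^ 2 = ∑ j ∈ Finset.Ico i n, (θ ^ (j - i)) ^ 2 * ‖Qm M j x‖ ^ 2 := by
  rw [← real_inner_self_eq_norm_sq, Hm_apply, sum_inner]
  refine Finset.sum_congr rfl fun j hj => ?_
  rw [inner_sum, Finset.sum_eq_single j]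
  · rw [inner_smul_left, inner_smul_right, real_inner_self_eq_norm_sq]
    simp only [conj_trivial]
    ring
  · intro k _ hk
    rw [inner_smul_left, inner_smul_right, inner_Qm_Qm hM hk.symm]
    simp
  · intro h; exact absurd hj h

lemma Hm_symm (θ : ℝ) (M : ℕ → Submodule ℝ E) (n i : ℕ) (x y : E) :
    ⟪Hm θ M n i x, y⟫ = ⟪x, Hm θ M n i y⟫ := by
  rw [Hm_apply, Hm_apply, sum_inner, inner_sum]
  refine Finset.sum_congr rfl fun j _ => ?_
  rw [inner_smul_left, inner_smul_right, Qm_apply, Qm_apply, inner_sub_left, inner_sub_right,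
    inner_proj_left, inner_proj_left]
  simp

lemma adjoint_Hm (θ : ℝ) (M : ℕ → Submodule ℝ E) (n i : ℕ) (t : E) :
    (Hm θ M n i).adjoint t = Hm θ M n i t := by
  refine ext_inner_right ℝ fun y => ?_
  rw [ContinuousLinearMap.adjoint_inner_left, Hm_symm]

lemma sum_Qm (M : ℕ → Submodule ℝ E) {i n : ℕ} (h : i ≤ n) (x : E) :
    ∑ j ∈ Finset.Ico i n, Qm M j x = (M i).starProjection x - (M n).starProjection x := by
  induction n, h using Nat.le_induction with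
  | base => simp
  | succ n hn ih =>
    rw [Finset.sum_Ico_succ_top hn, ih, Qm_apply]
    abel

lemma Qm_Hm (θ : ℝ) (hM : Antitone M) {n i j : ℕ} (hj : j ∈ Finset.Ico i n) (x : E) :
    Qm M j (Hm θ M n i x) = θ ^ (j - i) • Qm M j x := by
  rw [Hm_apply, map_sum, Finset.sum_eq_single j]
  · rw [map_smul]
    congr 1
    rw [Qm_apply M j (Qm M j x), proj_Qm_self hM le_rfl, proj_Qm_zero hM (Nat.lt_succ_self j),
      sub_zero]
  · intro k _ hk
    rw [map_smul, Qm_apply]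
    rcases lt_or_gt_of_ne hk with h | h
    · rw [proj_Qm_zero hM h, proj_Qm_zero hM (Nat.lt_succ_of_lt h)]; simp
    · rw [proj_Qm_self hM h.le, proj_Qm_self hM (Nat.succ_le_of_lt h)]; simp
  · intro h; exact absurd hj h

/-- `H_i` with `θ⁻¹` is the inverse of `H_i` on `M_i`. -/
theorem Hm_inv {θ : ℝ} (hθ : θ ≠ 0) (hM : Antitone M) {n i : ℕ} (hin : i ≤ n) (hn : M n = ⊥)
    (x : E) : Hm θ M n i (Hm θ⁻¹ M n i x) = (M i).starProjection x := by
  rw [Hm_apply]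
  have : ∀ j ∈ Finset.Ico i n, θ ^ (j - i) • Qm M j (Hm θ⁻¹ M n i x) = Qm M j x := by
    intro j hj
    rw [Qm_Hm _ hM hj, smul_smul, ← mul_pow, mul_inv_cancel₀ hθ, one_pow, one_smul]
  rw [Finset.sum_congr rfl this, sum_Qm M hin, hn]
  simp

theorem Hm_inv' {θ : ℝ} (hθ : θ ≠ 0) (hM : Antitone M) {n i : ℕ} (hin : i ≤ n) (hn : M n = ⊥)
    (x : E) : Hm θ⁻¹ M n i (Hm θ M n i x) = (M i).starProjection x := by
  have := Hm_inv (θ := θ⁻¹) (inv_ne_zero hθ) hM hin hn x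
  rwa [inv_inv] at this

/-! ### Abel summation and the covariance identity for the tilted flag -/

/-- `σ_m = θ^(2(m-1)) - θ^(2m)` -/
noncomputable def sg (θ : ℝ) (m : ℕ) : ℝ := (θ ^ (m - 1)) ^ 2 - (θ ^ m) ^ 2

lemma abel (θ : ℝ) (d : ℕ → ℝ) (i m : ℕ) :
    ∑ j ∈ Finset.Ico i (i + m + 1), (θ ^ (j - i)) ^ 2 * (d j - d (j + 1))
      + ∑ j ∈ Finset.Ico (i + 1) (i + m + 1), sg θ (j - i) * d j
      = d i - (θ ^ m) ^ 2 * d (i + m + 1) := by
  induction m with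
  | zero => simp
  | succ m ih =>
    rw [show i + (m + 1) + 1 = (i + m + 1) + 1 by ring,
      Finset.sum_Ico_succ_top (by omega : i ≤ i + m + 1),
      Finset.sum_Ico_succ_top (by omega : i + 1 ≤ i + m + 1)]
    have e1 : i + m + 1 - i = m + 1 := by omega
    rw [e1]
    have e2 : sg θ (m + 1) = (θ ^ m) ^ 2 - (θ ^ (m + 1)) ^ 2 := by simp [sg]
    rw [e2]
    linarith

lemma abel' (θ : ℝ) (d : ℕ → ℝ) {i n : ℕ} (h : i < n) (hn : d n = 0) :
    ∑ j ∈ Finset.Ico i n, (θ ^ (j - i)) ^ 2 * (d j - d (j + 1))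
      + ∑ j ∈ Finset.Ico (i + 1) n, sg θ (j - i) * d j = d i := by
  obtain ⟨m, rfl⟩ := Nat.exists_eq_add_of_lt h
  rw [abel, hn]
  ring

/-- the tilted flag -/
noncomputable def TF (s : ℝ) (v : E) (M : ℕ → Submodule ℝ E) : ℕ → Submodule ℝ E :=
  fun j => TM s v (M j)

lemma TF_anti (s : ℝ) (v : E) (hM : Antitone M) : Antitone (TF s v M) :=
  fun _ _ h => Submodule.map_mono (hM h)

lemma TF_bot (s : ℝ) (v : E) {n : ℕ} (hn : M n = ⊥) : TF s v M n = ⊥ := by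
  simp [TF, TM, hn]

/-- **Covariance identity**: `H'_i² + Σ_{j>i} σ_(j-i) κ_j (Tw_j)(Tw_j)ᵀ = T H_i² T + κ_i (Tw_i)(Tw_i)ᵀ`
as quadratic forms. -/
theorem cov_identity {θ s : ℝ} (hs0 : 0 < s) (hs1 : s < 1) {v : E} (hv : ‖v‖ = 1)
    (hM : Antitone M) {i n : ℕ} (hi : i < n) (hn : M n = ⊥) (t : E) :
    ‖Hm θ (TF s v M) n i t‖ ^ 2
      + ∑ j ∈ Finset.Ico (i + 1) n, sg θ (j - i) *
          (kp s v (M j) * ⟪T s v ((M j).starProjection v), t⟫ ^ 2)
      = ‖Hm θ M n i (T s v t)‖ ^ 2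
        + kp s v (M i) * ⟪T s v ((M i).starProjection v), t⟫ ^ 2 := by
  set d : ℕ → ℝ := fun j => kp s v (M j) * ⟪T s v ((M j).starProjection v), t⟫ ^ 2 with hd
  have hdn : d n = 0 := by simp [hd, hn]
  have key : ∀ j, ‖(TF s v M j).starProjection t‖ ^ 2
      = ‖(M j).starProjection (T s v t)‖ ^ 2 + d j := fun j =>
    normsq_proj_TM s hv (M j) (Bn_ne hs0 hs1 hv (M j)).ne' t
  rw [normsq_Hm θ (TF_anti s v hM), normsq_Hm θ hM]
  have e1 : ∀ j ∈ Finset.Ico i n, (θ ^ (j - i)) ^ 2 * ‖Qm (TF s v M) j t‖ ^ 2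
      = (θ ^ (j - i)) ^ 2 * ‖Qm M j (T s v t)‖ ^ 2
        + (θ ^ (j - i)) ^ 2 * (d j - d (j + 1)) := by
    intro j _
    rw [normsq_Qm (TF_anti s v hM), normsq_Qm hM, key, key]
    ring
  rw [Finset.sum_congr rfl e1, Finset.sum_add_distrib, add_assoc]
  congr 1
  exact abel' θ d hi hdn

/-! ### The directions `z_j` and their sizes -/

/-- `β_j = Σ_{l ∈ Ico j n} θ^(-2(l-j)) ‖Q_l v‖²` -/
noncomputable def bet (θ : ℝ) (v : E) (M : ℕ → Submodule ℝ E) (n j : ℕ) : ℝ :=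
  ∑ l ∈ Finset.Ico j n, (θ⁻¹ ^ (l - j)) ^ 2 * ‖Qm M l v‖ ^ 2

lemma bet_eq (θ : ℝ) (v : E) (hM : Antitone M) (n j : ℕ) :
    bet θ v M n j = ‖Hm θ⁻¹ M n j v‖ ^ 2 := (normsq_Hm θ⁻¹ hM n j v).symm

lemma bet_nonneg (θ : ℝ) (v : E) (M : ℕ → Submodule ℝ E) (n j : ℕ) : 0 ≤ bet θ v M n j :=
  Finset.sum_nonneg fun _ _ => by positivity

lemma bet_succ {θ : ℝ} (v : E) (M : ℕ → Submodule ℝ E) {n j : ℕ} (h : j < n) :
    bet θ v M n j = ‖Qm M j v‖ ^ 2 + (θ⁻¹) ^ 2 * bet θ v M n (j + 1) := by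
  rw [bet, Finset.sum_eq_sum_Ico_succ_bot h, bet, Finset.mul_sum]
  congr 1
  · simp
  · refine Finset.sum_congr rfl fun l hl => ?_
    have : l - j = (l - (j + 1)) + 1 := by have := (Finset.mem_Ico.1 hl).1; omega
    rw [this, pow_succ]
    ring

/-- norm of the block components of `T w_j` in the tilted flag -/
lemma normsq_Q_Tw {s : ℝ} (hs0 : 0 < s) (hs1 : s < 1) {v : E} (hv : ‖v‖ = 1) (hM : Antitone M)
    {j l : ℕ} (h : j ≤ l) :
    ‖Qm (TF s v M) l (T s v ((M j).starProjection v))‖ ^ 2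
      = Bn s v (M j) ^ 2 * (‖Qm M l v‖ ^ 2 / (Bn s v (M l) * Bn s v (M (l + 1)))) := by
  have h1 := Bn_ne hs0 hs1 hv (M l)
  have h2 := Bn_ne hs0 hs1 hv (M (l + 1))
  rw [normsq_Qm (TF_anti s v hM)]
  change ‖(TM s v (M l)).starProjection _‖ ^ 2 - ‖(TM s v (M (l + 1))).starProjection _‖ ^ 2 = _
  rw [proj_TN_Tw s hv (hM h) h1.ne', proj_TN_Tw s hv (hM (h.trans (Nat.le_succ l))) h2.ne',
    norm_smul, norm_smul, mul_pow, mul_pow, normsq_Tw s hv, normsq_Tw s hv, normsq_Qm hM,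
    Real.norm_eq_abs, Real.norm_eq_abs, sq_abs, sq_abs]
  have e1 : Bn s v (M l) = 1 - (2 * s - s ^ 2) * ‖(M l).starProjection v‖ ^ 2 := rfl
  have e2 : Bn s v (M (l + 1)) = 1 - (2 * s - s ^ 2) * ‖(M (l + 1)).starProjection v‖ ^ 2 := rfl
  field_simp
  rw [e1, e2]
  ring

lemma Qm_zero_of_mem (hM : Antitone M) {j l : ℕ} (h : l < j) {x : E} (hx : x ∈ M j) :
    Qm M l x = 0 := by
  rw [Qm_apply, Submodule.starProjection_eq_self_iff.2 (hM h.le hx),
    Submodule.starProjection_eq_self_iff.2 (hM (Nat.succ_le_of_lt h) hx), sub_self]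

/-- size of `H'_i⁻¹ (T w_j)` -/
theorem normsq_inv_Tw {θ s : ℝ} (hθ : 0 < θ) (hs0 : 0 < s) (hs1 : s < 1)
    (hs2 : 2 * s - s ^ 2 ≤ 1 / 2) {v : E} (hv : ‖v‖ = 1)
    (hM : Antitone M) {i j n : ℕ} (hij : i ≤ j) (hjn : j ≤ n) :
    kp s v (M j) * ‖Hm θ⁻¹ (TF s v M) n i (T s v ((M j).starProjection v))‖ ^ 2
      ≤ 2 * (2 * s - s ^ 2) * (θ⁻¹ ^ (j - i)) ^ 2 * bet θ v M n j := by
  set u := T s v ((M j).starProjection v) with hu
  have hM' := TF_anti s v hM
  have huj : u ∈ TF s v M j := mem_TM ((M j).starProjection_apply_mem v)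
  rw [normsq_Hm _ hM']
  have hsplit : ∑ l ∈ Finset.Ico i n, (θ⁻¹ ^ (l - i)) ^ 2 * ‖Qm (TF s v M) l u‖ ^ 2
      = ∑ l ∈ Finset.Ico j n, (θ⁻¹ ^ (l - i)) ^ 2 * ‖Qm (TF s v M) l u‖ ^ 2 := by
    rw [← Finset.sum_Ico_consecutive _ hij hjn, Finset.sum_eq_zero, zero_add]
    intro l hl
    rw [Qm_zero_of_mem hM' (Finset.mem_Ico.1 hl).2 huj]
    simp
  rw [hsplit, bet, Finset.mul_sum, Finset.mul_sum]
  refine Finset.sum_le_sum fun l hl => ?_
  obtain ⟨hl1, hl2⟩ := Finset.mem_Ico.1 hl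
  rw [hu, normsq_Q_Tw hs0 hs1 hv hM hl1]
  have b1 := Bn_ne hs0 hs1 hv (M j)
  have b2 := Bn_ne hs0 hs1 hv (M l)
  have b3 := Bn_ne hs0 hs1 hv (M (l + 1))
  have b4 := Bn_anti (s := s) (v := v) hs0 hs1 (hM hl1)
  have b5 : 1 / 2 ≤ Bn s v (M (l + 1)) := by
    have := Bn_pos hs0 hs1 hv (M (l + 1)); linarith
  have hsb : 0 ≤ 2 * s - s ^ 2 := by nlinarith
  have epow : (θ⁻¹ ^ (l - i)) ^ 2 = (θ⁻¹ ^ (j - i)) ^ 2 * (θ⁻¹ ^ (l - j)) ^ 2 := by
    rw [← mul_pow, ← pow_add]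
    congr 2
    omega
  have hfrac : Bn s v (M j) / (Bn s v (M l) * Bn s v (M (l + 1))) ≤ 2 := by
    rw [div_le_iff₀ (by positivity)]
    nlinarith
  have e : kp s v (M j) * ((θ⁻¹ ^ (l - i)) ^ 2 *
      (Bn s v (M j) ^ 2 * (‖Qm M l v‖ ^ 2 / (Bn s v (M l) * Bn s v (M (l + 1))))))
      = ((2 * s - s ^ 2) * (θ⁻¹ ^ (l - i)) ^ 2 * ‖Qm M l v‖ ^ 2)
        * (Bn s v (M j) / (Bn s v (M l) * Bn s v (M (l + 1)))) := by
    rw [kp]
    field_simp
  rw [e, epow]
  have hnn : 0 ≤ (2 * s - s ^ 2) * ((θ⁻¹ ^ (j - i)) ^ 2 * (θ⁻¹ ^ (l - j)) ^ 2) * ‖Qm M l v‖ ^ 2 := by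
    positivity
  calc _ ≤ ((2 * s - s ^ 2) * ((θ⁻¹ ^ (j - i)) ^ 2 * (θ⁻¹ ^ (l - j)) ^ 2) * ‖Qm M l v‖ ^ 2) * 2 :=
        mul_le_mul_of_nonneg_left hfrac hnn
    _ = _ := by ring

end Crest.Agent.R239.Cov446
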