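import Crest.Agent.R239.FDef
import Crest.Agent.R239.F6b_696
import Crest.Agent.R239.AdmHalf_606

/-! R239 / S0370, one-step line (docs 2444, 2447), cap part, algebra (helper167): for a flag `W` with
`W.M j = T (V.M j)` for all `j ≥ i`, `T = 1 - v v^T`, the cap gauge satisfies, for `x ∈ V.M i`,
`(1 - h) N_i(x) ≤ N^W_i(T x)` with `h = 2 b_i + BB_i`, and `rr^W_i ≤ rr_i`. -/

set_option autoImplicit false
set_option linter.unusedSectionVars false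
open MeasureTheory ProbabilityTheory Submodule
open scoped RealInnerProductSpace

namespace Crest.Agent.R239.Cut167

open Crest.Agent.R239.FD
open Crest.Agent.R239.F6b696 (P_mem P_of_mem Q_apply H_mem P_P_of_le P_P_of_le' P_of_n_le sum_Q
  norm_P_le)

variable {E : Type*} [NormedAddCommGroup E] [InnerProductSpace ℝ E] [FiniteDimensional ℝ E]
  [MeasurableSpace E] [BorelSpace E]

/-! ### one subspace -/

/-- variational lower bound of a projection -/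
lemma variational (N : Submodule ℝ E) (y : E) {z : E} (hz : z ∈ N) :
    2 * ⟪y, z⟫ - ‖z‖ ^ 2 ≤ ‖N.starProjection y‖ ^ 2 := by
  have h1 : ⟪y - N.starProjection y, z⟫ = 0 := Submodule.starProjection_inner_eq_zero y z hz
  rw [inner_sub_left] at h1
  have h2 : 0 ≤ ‖N.starProjection y - z‖ ^ 2 := sq_nonneg _
  rw [norm_sub_sq_real] at h2
  linarith

lemma inner_T {v : E} (hv : ‖v‖ = 1) (x y : E) :
    ⟪Ts v 1 x, Ts v 1 y⟫ = ⟪x, y⟫ - ⟪v, x⟫ * ⟪v, y⟫ := by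
  have h2 : ⟪v, v⟫ = 1 := by rw [real_inner_self_eq_norm_sq, hv]; norm_num
  simp only [Ts_apply, one_mul, inner_sub_left, inner_sub_right, real_inner_smul_left,
    real_inner_smul_right, h2, real_inner_comm v x]
  ring

lemma norm_T_sq {v : E} (hv : ‖v‖ = 1) (x : E) : ‖Ts v 1 x‖ ^ 2 = ‖x‖ ^ 2 - ⟪v, x⟫ ^ 2 := by
  rw [← real_inner_self_eq_norm_sq, inner_T hv, real_inner_self_eq_norm_sq]; ring

/-- projection of `T x` on `T M` -/
lemma proj_T_ge {v : E} (hv : ‖v‖ = 1) (M : Submodule ℝ E) (x : E) :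
    ‖M.starProjection x‖ ^ 2 - 2 * ⟪v, x⟫ * ⟪v, M.starProjection x⟫
        + ⟪v, M.starProjection x⟫ ^ 2
      ≤ ‖(M.map (Ts v 1).toLinearMap).starProjection (Ts v 1 x)‖ ^ 2 := by
  have hz : Ts v 1 (M.starProjection x) ∈ M.map (Ts v 1).toLinearMap :=
    Submodule.mem_map_of_mem (f := (Ts v 1).toLinearMap) (Submodule.starProjection_apply_mem M x)
  have h := variational (M.map (Ts v 1).toLinearMap) (Ts v 1 x) hz
  rw [inner_T hv, norm_T_sq hv] at h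
  have h1 : ⟪x - M.starProjection x, M.starProjection x⟫ = 0 :=
    Submodule.starProjection_inner_eq_zero x _ (Submodule.starProjection_apply_mem M x)
  rw [inner_sub_left, real_inner_self_eq_norm_sq] at h1
  linarith

lemma proj_T_ge' {v : E} (hv : ‖v‖ = 1) {M N : Submodule ℝ E}
    (hN : N = M.map (Ts v 1).toLinearMap) (x : E) :
    ‖M.starProjection x‖ ^ 2 - 2 * ⟪v, x⟫ * ⟪v, M.starProjection x⟫
        + ⟪v, M.starProjection x⟫ ^ 2
      ≤ ‖N.starProjection (Ts v 1 x)‖ ^ 2 := by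
  subst hN
  exact proj_T_ge hv M x

/-- a map does not increase codimensions -/
lemma finrank_map_sub (f : E →ₗ[ℝ] E) {N M : Submodule ℝ E} (h : N ≤ M) :
    Module.finrank ℝ (M.map f) - Module.finrank ℝ (N.map f)
      ≤ Module.finrank ℝ M - Module.finrank ℝ N := by
  have h1 := Submodule.finrank_add_inf_finrank_orthogonal h
  have h2 : N ⊔ Nᗮ ⊓ M = M := Submodule.sup_orthogonal_inf_of_hasOrthogonalProjection h
  have h3 : (N ⊔ Nᗮ ⊓ M).map f = N.map f ⊔ (Nᗮ ⊓ M).map f := Submodule.map_sup _ _ _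
  rw [h2] at h3
  have h4 := Submodule.finrank_add_le_finrank_add_finrank (N.map f) ((Nᗮ ⊓ M).map f)
  have h5 := Submodule.finrank_map_le f (Nᗮ ⊓ M)
  rw [h3]
  omega

/-! ### Abel form of `N` -/

lemma th_pos : (0 : ℝ) < th := by norm_num [th]

lemma norm_Q_sq (V : Flag E) (j : ℕ) (x : E) : ‖V.Q j x‖ ^ 2 = ‖V.P j x‖ ^ 2 - ‖V.P (j + 1) x‖ ^ 2 :=
  FlagAlg557.norm_Q_sq' (M := V.M) V.anti j x

lemma omN_nonneg (m : ℕ) : 0 ≤ omN m := by
  unfold omN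
  have : (0 : ℝ) < th⁻¹ := inv_pos.2 th_pos
  have h1 : (0 : ℝ) ≤ 1 - th := by norm_num [th]
  positivity

lemma N_abel_aux (V : Flag E) (i : ℕ) (x : E) : ∀ m, i + 1 ≤ m →
    ∑ j ∈ Finset.Ico i m, (th⁻¹) ^ (j - i) * ‖V.Q j x‖ ^ 2
      = ‖V.P i x‖ ^ 2 + ∑ j ∈ Finset.Ico (i + 1) m, omN (j - i) * ‖V.P j x‖ ^ 2
        - (th⁻¹) ^ (m - 1 - i) * ‖V.P m x‖ ^ 2 := by
  intro m hm
  induction m, hm using Nat.le_induction with
  | base =>
    rw [Nat.Ico_succ_singleton, Finset.sum_singleton, norm_Q_sq]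
    simp
  | succ m hm ih =>
    rw [Finset.sum_Ico_succ_top (by omega), ih, Finset.sum_Ico_succ_top hm, norm_Q_sq, omN]
    have e1 : m + 1 - 1 - i = (m - 1 - i) + 1 := by omega
    have e2 : m - i = (m - 1 - i) + 1 := by omega
    rw [e1, e2, pow_succ]
    have h : (th⁻¹) * th = (1 : ℝ) := inv_mul_cancel₀ th_pos.ne'
    linear_combination ((th⁻¹) ^ (m - 1 - i) * ‖V.P m x‖ ^ 2) * h

lemma N_eq_sum (V : Flag E) (i : ℕ) (x : E) {m : ℕ} (hm : V.n ≤ m) :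
    V.N i x = ∑ j ∈ Finset.Ico i m, (th⁻¹) ^ (j - i) * ‖V.Q j x‖ ^ 2 := by
  unfold Flag.N
  apply Finset.sum_subset (Finset.Ico_subset_Ico le_rfl hm)
  intro j hj hj'
  rw [Finset.mem_Ico] at hj hj'
  have h1 : V.n ≤ j := by omega
  rw [norm_Q_sq, P_of_n_le V h1, P_of_n_le V (by omega : V.n ≤ j + 1)]
  simp

/-- Abel form of the cap gauge, any `m ≥ n`, `m ≥ i + 1`. -/
lemma N_abel (V : Flag E) (i : ℕ) (x : E) {m : ℕ} (hm : V.n ≤ m) (hi : i + 1 ≤ m) :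
    V.N i x = ‖V.P i x‖ ^ 2 + ∑ j ∈ Finset.Ico (i + 1) m, omN (j - i) * ‖V.P j x‖ ^ 2 := by
  rw [N_eq_sum V i x hm, N_abel_aux V i x m hi, P_of_n_le V hm]
  simp

lemma P_sq_le_N (V : Flag E) {i j : ℕ} (hij : i ≤ j) (x : E) :
    (th⁻¹) ^ (j - i) * ‖V.P j x‖ ^ 2 ≤ V.N i x := by
  set m := max V.n j with hmd
  have hm : V.n ≤ m := le_max_left _ _
  have hj : j ≤ m := le_max_right _ _
  have h1 : ∑ l ∈ Finset.Ico j m, ‖V.Q l x‖ ^ 2 = ‖V.P j x‖ ^ 2 := by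
    have h := FlagAlg557.sum_norm_Q_sq (M := V.M) V.anti j m hj x
    have h0 : ‖FlagAlg557.P V.M m x‖ ^ 2 = 0 := by
      have : FlagAlg557.P V.M m x = 0 := P_of_n_le V hm x
      rw [this]; simp
    rw [h0, sub_zero] at h
    exact h
  rw [N_eq_sum V i x hm, ← h1, Finset.mul_sum]
  have h3 : ∑ l ∈ Finset.Ico j m, (th⁻¹) ^ (j - i) * ‖V.Q l x‖ ^ 2
      ≤ ∑ l ∈ Finset.Ico j m, (th⁻¹) ^ (l - i) * ‖V.Q l x‖ ^ 2 := by
    refine Finset.sum_le_sum fun l hl => ?_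
    have hl' := (Finset.mem_Ico.1 hl).1
    have h4 : (th⁻¹ : ℝ) ^ (j - i) ≤ (th⁻¹) ^ (l - i) :=
      pow_le_pow_right₀ (by norm_num [th]) (by omega)
    exact mul_le_mul_of_nonneg_right h4 (sq_nonneg _)
  refine h3.trans ?_
  apply Finset.sum_le_sum_of_subset_of_nonneg (Finset.Ico_subset_Ico hij le_rfl)
  intro l _ _
  have : (0 : ℝ) < th⁻¹ := inv_pos.2 th_pos
  positivity

/-! ### the flag `W` -/

lemma inner_P_left (V : Flag E) (j : ℕ) (x y : E) : ⟪V.P j x, y⟫ = ⟪x, V.P j y⟫ :=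
  FlagAlg557.inner_P_comm' (M := V.M) j x y

lemma inner_P_sq_le (V : Flag E) (v : E) (j : ℕ) (x : E) :
    ⟪v, V.P j x⟫ ^ 2 ≤ V.b v j * ‖V.P j x‖ ^ 2 := by
  have h1 : ⟪v, V.P j x⟫ = ⟪V.P j v, V.P j x⟫ := by
    rw [inner_P_left, P_P_of_le V le_rfl]
  have h2 := abs_real_inner_le_norm (V.P j v) (V.P j x)
  rw [h1, ← sq_abs]
  unfold Flag.b
  calc |⟪V.P j v, V.P j x⟫| ^ 2 ≤ (‖V.P j v‖ * ‖V.P j x‖) ^ 2 :=
        pow_le_pow_left₀ (abs_nonneg _) h2 2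
    _ = ‖V.P j v‖ ^ 2 * ‖V.P j x‖ ^ 2 := by ring

lemma b_of_n_le (V : Flag E) (v : E) {j : ℕ} (h : V.n ≤ j) : V.b v j = 0 := by
  unfold Flag.b; rw [P_of_n_le V h]; simp

lemma b_nonneg (V : Flag E) (v : E) (j : ℕ) : 0 ≤ V.b v j := by unfold Flag.b; positivity

lemma BB_eq (V : Flag E) (v : E) (i : ℕ) {m : ℕ} (hm : V.n ≤ m) :
    BB V v i = ∑ j ∈ Finset.Ico (i + 1) m, (25 / 8 : ℝ) ^ (j - i) * V.b v j := by
  unfold BB
  apply Finset.sum_subset (Finset.Ico_subset_Ico le_rfl hm)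
  intro j hj hj'
  rw [Finset.mem_Ico] at hj hj'
  rw [b_of_n_le V v (by omega : V.n ≤ j), mul_zero]

lemma BB_nonneg (V : Flag E) (v : E) (i : ℕ) : 0 ≤ BB V v i := by
  unfold BB
  exact Finset.sum_nonneg fun j _ => mul_nonneg (by positivity) (b_nonneg V v j)

/-- geometric sum: `Σ_{k=1}^{..} (1-th) th^k ≤ 1` -/
lemma geom_th (i m : ℕ) : ∑ j ∈ Finset.Ico (i + 1) m, (1 - th) * th ^ (j - i) ≤ 1 := by
  have key : ∀ m, i + 1 ≤ m → ∑ j ∈ Finset.Ico (i + 1) m, (1 - th) * th ^ (j - i)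
      = th - th ^ (m - i) := by
    intro m hm
    induction m, hm using Nat.le_induction with
    | base => simp
    | succ m hm ih =>
      rw [Finset.sum_Ico_succ_top hm, ih]
      have e : m + 1 - i = (m - i) + 1 := by omega
      rw [e, pow_succ]; ring
  rcases le_total (i + 1) m with h | h
  · rw [key m h]
    have : (0 : ℝ) < th ^ (m - i) := pow_pos th_pos _
    have h1 : (th : ℝ) ≤ 1 := by norm_num [th]
    linarith
  · rw [Finset.Ico_eq_empty (by omega)]; simp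

/-- **pointwise cap inequality** -/
theorem N_cmp {V W : Flag E} {v : E} (hv : ‖v‖ = 1) {i : ℕ}
    (hW : ∀ j, i ≤ j → W.M j = (V.M j).map (Ts v 1).toLinearMap) {x : E} (hx : x ∈ V.M i) :
    V.N i x - W.N i (Ts v 1 x) ≤ (2 * V.b v i + BB V v i) * V.N i x := by
  set m := max (max V.n W.n) (i + 1) with hmd
  have hmV : V.n ≤ m := (le_max_left _ _).trans (le_max_left _ _)
  have hmW : W.n ≤ m := (le_max_right _ _).trans (le_max_left _ _)
  have hmi : i + 1 ≤ m := le_max_right _ _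
  set Nx := V.N i x with hNx
  have hN0 : 0 ≤ Nx := AdmHalf606.N_nonneg V i x
  have hP : ∀ j, i ≤ j → ‖V.P j x‖ ^ 2 - 2 * ⟪v, x⟫ * ⟪v, V.P j x⟫ + ⟪v, V.P j x⟫ ^ 2
      ≤ ‖W.P j (Ts v 1 x)‖ ^ 2 := by
    intro j hj
    exact proj_T_ge' hv (hW j hj) x
  have hPi : ‖W.P i (Ts v 1 x)‖ ^ 2 = ‖x‖ ^ 2 - ⟪v, x⟫ ^ 2 := by
    have h1 : Ts v 1 x ∈ W.M i := by
      rw [hW i le_rfl]
      exact Submodule.mem_map_of_mem (f := (Ts v 1).toLinearMap) hx
    rw [P_of_mem W h1, norm_T_sq hv]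
  have hPx : V.P i x = x := P_of_mem V hx
  have hxN : ‖x‖ ^ 2 ≤ Nx := by
    have := P_sq_le_N V (le_refl i) x
    rw [hPx] at this
    simpa using this
  have hxi : ⟪v, x⟫ ^ 2 ≤ V.b v i * Nx := by
    have h1 := inner_P_sq_le V v i x
    rw [hPx] at h1
    exact h1.trans (mul_le_mul_of_nonneg_left hxN (b_nonneg V v i))
  -- one term
  have hterm : ∀ j ∈ Finset.Ico (i + 1) m,
      omN (j - i) * ‖V.P j x‖ ^ 2 - omN (j - i) * ‖W.P j (Ts v 1 x)‖ ^ 2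
        ≤ ((1 - th) * th ^ (j - i) * V.b v i + (25 / 8 : ℝ) ^ (j - i) * V.b v j) * Nx := by
    intro j hj
    have hij := (Finset.mem_Ico.1 hj).1
    have h1 := hP j (by omega)
    set k := j - i with hk
    set ze := ⟪v, V.P j x⟫ with hze
    set xi := ⟪v, x⟫ with hxid
    have hth : (0 : ℝ) < th ^ k := pow_pos th_pos _
    have hthi : (th⁻¹ : ℝ) ^ k * th ^ k = 1 := by
      rw [← mul_pow, inv_mul_cancel₀ th_pos.ne', one_pow]
    have hti0 : (0 : ℝ) < (th⁻¹) ^ k := pow_pos (inv_pos.2 th_pos) _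
    have hze2 : ze ^ 2 ≤ V.b v j * (th ^ k * Nx) := by
      refine (inner_P_sq_le V v j x).trans (mul_le_mul_of_nonneg_left ?_ (b_nonneg V v j))
      have h2 := P_sq_le_N V (show i ≤ j by omega) x
      calc ‖V.P j x‖ ^ 2 = th ^ k * ((th⁻¹) ^ k * ‖V.P j x‖ ^ 2) := by
            rw [← mul_assoc, mul_comm (th ^ k), hthi, one_mul]
        _ ≤ th ^ k * Nx := mul_le_mul_of_nonneg_left h2 hth.le
    -- `2 xi ze ≤ c xi^2 + ze^2 / c`, `c = th^(2k)`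
    have hamgm : 2 * xi * ze ≤ (th ^ k) ^ 2 * xi ^ 2 + ((th⁻¹) ^ k) ^ 2 * ze ^ 2 := by
      have h3 : 0 ≤ (th ^ k * xi - (th⁻¹) ^ k * ze) ^ 2 := sq_nonneg _
      have h4 : (th ^ k * xi - (th⁻¹) ^ k * ze) ^ 2
          = (th ^ k) ^ 2 * xi ^ 2 + ((th⁻¹) ^ k) ^ 2 * ze ^ 2
            - 2 * xi * ze * ((th⁻¹) ^ k * th ^ k) := by ring
      rw [h4, hthi] at h3
      linarith
    have h5 : ‖V.P j x‖ ^ 2 - ‖W.P j (Ts v 1 x)‖ ^ 2
        ≤ (th ^ k) ^ 2 * (V.b v i * Nx) + ((th⁻¹) ^ k) ^ 2 * (V.b v j * (th ^ k * Nx)) := by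
      have h6 : (th ^ k) ^ 2 * xi ^ 2 ≤ (th ^ k) ^ 2 * (V.b v i * Nx) :=
        mul_le_mul_of_nonneg_left hxi (by positivity)
      have h7 : ((th⁻¹ : ℝ) ^ k) ^ 2 * ze ^ 2 ≤ ((th⁻¹) ^ k) ^ 2 * (V.b v j * (th ^ k * Nx)) :=
        mul_le_mul_of_nonneg_left hze2 (by positivity)
      nlinarith [sq_nonneg ze]
    have h8 : omN k * ‖V.P j x‖ ^ 2 - omN k * ‖W.P j (Ts v 1 x)‖ ^ 2
        ≤ omN k * ((th ^ k) ^ 2 * (V.b v i * Nx)
          + ((th⁻¹) ^ k) ^ 2 * (V.b v j * (th ^ k * Nx))) := by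
      rw [← mul_sub]
      exact mul_le_mul_of_nonneg_left h5 (omN_nonneg k)
    refine h8.trans ?_
    have e1 : omN k * ((th ^ k) ^ 2 * (V.b v i * Nx)
          + ((th⁻¹) ^ k) ^ 2 * (V.b v j * (th ^ k * Nx)))
        = (1 - th) * (((th⁻¹) ^ k * th ^ k) * th ^ k * (V.b v i * Nx)
          + ((th⁻¹) ^ k * th ^ k) * ((th⁻¹) ^ k) ^ 2 * (V.b v j * Nx)) := by
      unfold omN; ring
    rw [e1, hthi, one_mul, one_mul, ← pow_mul, mul_comm k 2, pow_mul]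
    have e2 : ((th⁻¹ : ℝ) ^ 2) ^ k ≤ (25 / 8 : ℝ) ^ k :=
      pow_le_pow_left₀ (by positivity) (by norm_num [th]) k
    have h10 : (1 - th : ℝ) * (((th⁻¹) ^ 2) ^ k * (V.b v j * Nx))
        ≤ (25 / 8 : ℝ) ^ k * (V.b v j * Nx) := by
      have h11 : 0 ≤ V.b v j * Nx := mul_nonneg (b_nonneg V v j) hN0
      have h12 : ((th⁻¹ : ℝ) ^ 2) ^ k * (V.b v j * Nx) ≤ (25 / 8 : ℝ) ^ k * (V.b v j * Nx) :=
        mul_le_mul_of_nonneg_right e2 h11
      have h13 : (1 - th : ℝ) ≤ 1 := by norm_num [th]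
      have h14 : 0 ≤ ((th⁻¹ : ℝ) ^ 2) ^ k * (V.b v j * Nx) := by positivity
      nlinarith
    nlinarith
  have hsum := Finset.sum_le_sum hterm
  rw [Finset.sum_sub_distrib] at hsum
  have hV := N_abel V i x hmV hmi
  have hWN := N_abel W i (Ts v 1 x) hmW hmi
  rw [hPx] at hV
  rw [hPi] at hWN
  have hgeom := geom_th i m
  have hBB := BB_eq V v i hmV
  have hR : ∑ j ∈ Finset.Ico (i + 1) m,
      ((1 - th) * th ^ (j - i) * V.b v i + (25 / 8 : ℝ) ^ (j - i) * V.b v j) * Nx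
        = ((∑ j ∈ Finset.Ico (i + 1) m, (1 - th) * th ^ (j - i)) * V.b v i + BB V v i) * Nx := by
    rw [hBB, ← Finset.sum_mul, Finset.sum_add_distrib, ← Finset.sum_mul]
  rw [hR] at hsum
  have h20 : (∑ j ∈ Finset.Ico (i + 1) m, (1 - th) * th ^ (j - i)) * V.b v i ≤ 1 * V.b v i :=
    mul_le_mul_of_nonneg_right hgeom (b_nonneg V v i)
  have h21 : ((∑ j ∈ Finset.Ico (i + 1) m, (1 - th) * th ^ (j - i)) * V.b v i + BB V v i) * Nx
      ≤ (V.b v i + BB V v i) * Nx := by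
    apply mul_le_mul_of_nonneg_right _ hN0
    linarith
  rw [← hNx] at hV
  have h22 : Nx - W.N i (Ts v 1 x) = ⟪v, x⟫ ^ 2
      + (∑ j ∈ Finset.Ico (i + 1) m, omN (j - i) * ‖V.P j x‖ ^ 2
        - ∑ j ∈ Finset.Ico (i + 1) m, omN (j - i) * ‖W.P j (Ts v 1 x)‖ ^ 2) := by
    rw [hWN]
    conv_lhs => rw [hV]
    ring
  rw [h22]
  nlinarith

/-- the radius does not increase -/
theorem rr_le {V W : Flag E} {v : E} {i : ℕ}
    (hW : ∀ j, i ≤ j → W.M j = (V.M j).map (Ts v 1).toLinearMap) : W.rr i ≤ V.rr i := by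
  have ext : ∀ (U : Flag E) {m : ℕ}, U.n ≤ m →
      U.rr i = ∑ j ∈ Finset.Ico i m, th ^ (j - i) * (U.k j : ℝ) := by
    intro U m hm
    unfold Flag.rr
    apply Finset.sum_subset (Finset.Ico_subset_Ico le_rfl hm)
    intro j hj hj'
    rw [Finset.mem_Ico] at hj hj'
    have h1 : U.M j = ⊥ := U.bot j (by omega)
    have h2 : U.k j = 0 := by
      unfold Flag.k
      rw [h1, finrank_bot, Nat.zero_sub]
    rw [h2]; simp
  rw [ext V (le_max_left V.n W.n), ext W (le_max_right V.n W.n)]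
  refine Finset.sum_le_sum fun j hj => ?_
  have hij := (Finset.mem_Ico.1 hj).1
  apply mul_le_mul_of_nonneg_left _ (pow_pos th_pos _).le
  have : W.k j ≤ V.k j := by
    unfold Flag.k
    rw [hW j hij, hW (j + 1) (by omega)]
    exact finrank_map_sub _ (V.anti (Nat.le_succ j))
  exact_mod_cast this

end Crest.Agent.R239.Cut167
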