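import Mathlib

/-! R239, block F4a (helper853): linear algebra of the demotion step. -/

set_option autoImplicit false
set_option linter.unusedSectionVars false
open Module Finset
open scoped RealInnerProductSpace InnerProduct

namespace Crest.Agent.R239.Dem853

variable {E : Type*} [NormedAddCommGroup E] [InnerProductSpace ℝ E] [FiniteDimensional ℝ E]

/-- The space `M ⊖ w`. -/
noncomputable def cutSub (M : Submodule ℝ E) (w : E) : Submodule ℝ E := M ⊓ (ℝ ∙ w)ᗮ

lemma mem_cutSub {M : Submodule ℝ E} {w x : E} : x ∈ cutSub M w ↔ x ∈ M ∧ ⟪w, x⟫ = 0 := by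
  rw [cutSub, Submodule.mem_inf, Submodule.mem_orthogonal_singleton_iff_inner_right]

lemma cutSub_le (M : Submodule ℝ E) (w : E) : cutSub M w ≤ M := inf_le_left

/-- projection on `M ⊖ w`. -/
lemma starProjection_cutSub {M : Submodule ℝ E} {w : E} (hw : w ∈ M) (hn : ‖w‖ = 1) (x : E) :
    (cutSub M w).starProjection x = M.starProjection x - ⟪w, x⟫ • w := by
  have h1 : ⟪w, M.starProjection x⟫ = ⟪w, x⟫ := by
    rw [← Submodule.inner_starProjection_left_eq_right, Submodule.starProjection_eq_self_iff.2 hw]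
  refine Submodule.eq_starProjection_of_mem_of_inner_eq_zero ?_ ?_
  · rw [mem_cutSub]
    refine ⟨M.sub_mem (M.starProjection_apply_mem x) (M.smul_mem _ hw), ?_⟩
    rw [inner_sub_right, inner_smul_right, real_inner_self_eq_norm_sq, hn, h1]
    ring
  · intro y hy
    rw [mem_cutSub] at hy
    have h2 : ⟪x - M.starProjection x, y⟫ = 0 := M.starProjection_inner_eq_zero x y hy.1
    have h3 : x - (M.starProjection x - ⟪w, x⟫ • w) = (x - M.starProjection x) + ⟪w, x⟫ • w := by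
      abel
    rw [h3, inner_add_left, h2, inner_smul_left, hy.2]
    simp

lemma finrank_cutSub {M : Submodule ℝ E} {w : E} (hw : w ∈ M) (hn : ‖w‖ = 1) :
    finrank ℝ (cutSub M w) + 1 = finrank ℝ M := by
  have hw0 : w ≠ 0 := by
    intro h; simp [h] at hn
  have h1 : finrank ℝ (ℝ ∙ w) = 1 := finrank_span_singleton hw0
  have hle : (ℝ ∙ w) ≤ M := by
    rw [Submodule.span_singleton_le_iff_mem]; exact hw
  have h2 := Submodule.finrank_add_inf_finrank_orthogonal hle
  rw [h1] at h2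
  have h3 : (ℝ ∙ w)ᗮ ⊓ M = cutSub M w := inf_comm _ _
  rw [h3] at h2
  omega

/-- `x ↦ ⟪w, x⟫ w` -/
noncomputable def rk1 (w : E) : E →L[ℝ] E := (innerSL ℝ w).smulRight w

@[simp] lemma rk1_apply (w x : E) : rk1 w x = ⟪w, x⟫ • w := rfl

/-- the demoted flag -/
noncomputable def demM (M : ℕ → Submodule ℝ E) (i : ℕ) (w : E) : ℕ → Submodule ℝ E :=
  fun j => if j = i then cutSub (M i) w else M j

@[simp] lemma demM_self (M : ℕ → Submodule ℝ E) (i : ℕ) (w : E) :
    demM M i w i = cutSub (M i) w := by simp [demM]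

lemma demM_ne (M : ℕ → Submodule ℝ E) {i j : ℕ} (w : E) (h : j ≠ i) :
    demM M i w j = M j := by simp [demM, h]

lemma demM_le (M : ℕ → Submodule ℝ E) (i : ℕ) (w : E) (j : ℕ) : demM M i w j ≤ M j := by
  by_cases h : j = i
  · subst h; rw [demM_self]; exact cutSub_le _ _
  · rw [demM_ne M w h]

lemma demM_anti {M : ℕ → Submodule ℝ E} (hM : Antitone M) {i : ℕ} {w : E}
    (hw' : w ∈ (M (i + 1))ᗮ) : Antitone (demM M i w) := by
  refine antitone_nat_of_succ_le fun j => ?_
  by_cases h : j = i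
  · subst h
    rw [demM_self, demM_ne M w (Nat.succ_ne_self j)]
    intro x hx
    rw [mem_cutSub]
    refine ⟨hM (Nat.le_succ j) hx, ?_⟩
    rw [real_inner_comm]
    exact (Submodule.mem_orthogonal _ _).1 hw' x hx
  · rw [demM_ne M w h]
    exact (demM_le M i w _).trans (hM (Nat.le_succ j))

/-- projection on the block `M j ⊖ M (j+1)` -/
noncomputable def blkP (M : ℕ → Submodule ℝ E) (j : ℕ) : E →L[ℝ] E :=
  (M j).starProjection - (M (j + 1)).starProjection

lemma blkP_apply (M : ℕ → Submodule ℝ E) (j : ℕ) (x : E) :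
    blkP M j x = (M j).starProjection x - (M (j + 1)).starProjection x := rfl

lemma starProj_congr {A B : Submodule ℝ E} (h : A = B) : A.starProjection = B.starProjection := by
  subst h; rfl

lemma blkP_dem_ne (M : ℕ → Submodule ℝ E) {i j : ℕ} (w : E) (h : j ≠ i) (h' : j + 1 ≠ i) :
    blkP (demM M i w) j = blkP M j := by
  unfold blkP
  rw [starProj_congr (demM_ne M w h), starProj_congr (demM_ne M w h')]

lemma blkP_dem_self {M : ℕ → Submodule ℝ E} {i : ℕ} {w : E} (hw : w ∈ M i) (hn : ‖w‖ = 1) :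
    blkP (demM M i w) i = blkP M i - rk1 w := by
  ext1 x
  rw [sub_apply, blkP_apply, blkP_apply, starProj_congr (demM_self M i w),
    starProj_congr (demM_ne M w (Nat.succ_ne_self i)), starProjection_cutSub hw hn, rk1_apply]
  abel

lemma blkP_dem_pred {M : ℕ → Submodule ℝ E} {i j : ℕ} {w : E} (hj : j + 1 = i) (hw : w ∈ M i)
    (hn : ‖w‖ = 1) : blkP (demM M i w) j = blkP M j + rk1 w := by
  subst hj
  ext1 x
  rw [add_apply, blkP_apply, blkP_apply, starProj_congr (demM_self M (j + 1) w),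
    starProj_congr (demM_ne M w (by omega : j ≠ j + 1)), starProjection_cutSub hw hn, rk1_apply]
  abel

/-- the map `H_i = Σ_{i ≤ j < n} θ^{j-i} Q_j`. -/
noncomputable def Hm (θ : ℝ) (n : ℕ) (M : ℕ → Submodule ℝ E) (i : ℕ) : E →L[ℝ] E :=
  ∑ j ∈ Finset.Ico i n, θ ^ (j - i) • blkP M j

lemma Hm_dem_gt (θ : ℝ) (n : ℕ) (M : ℕ → Submodule ℝ E) {i l : ℕ} (w : E) (h : i < l) :
    Hm θ n (demM M i w) l = Hm θ n M l := by
  unfold Hm
  refine Finset.sum_congr rfl fun j hj => ?_
  rw [Finset.mem_Ico] at hj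
  rw [blkP_dem_ne M w (by omega) (by omega)]

lemma Hm_dem_self (θ : ℝ) {n : ℕ} {M : ℕ → Submodule ℝ E} {i : ℕ} {w : E} (hin : i < n)
    (hw : w ∈ M i) (hn : ‖w‖ = 1) :
    Hm θ n (demM M i w) i = Hm θ n M i - rk1 w := by
  have h2 : Hm θ n M i = θ ^ (i - i) • blkP M i + ∑ j ∈ Finset.Ico (i + 1) n, θ ^ (j - i) • blkP M j := by
    unfold Hm; rw [Finset.sum_eq_sum_Ico_succ_bot hin]
  have h3 : Hm θ n (demM M i w) i
      = θ ^ (i - i) • blkP (demM M i w) i + ∑ j ∈ Finset.Ico (i + 1) n, θ ^ (j - i) • blkP M j := by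
    unfold Hm; rw [Finset.sum_eq_sum_Ico_succ_bot hin]
    congr 1
    refine Finset.sum_congr rfl fun j hj => ?_
    rw [Finset.mem_Ico] at hj
    rw [blkP_dem_ne M w (by omega) (by omega)]
  rw [h2, h3, blkP_dem_self hw hn]
  simp only [Nat.sub_self, pow_zero, one_smul]
  abel

lemma Hm_dem_lt (θ : ℝ) {n : ℕ} {M : ℕ → Submodule ℝ E} {i l : ℕ} {w : E} (hin : i < n)
    (hli : l < i) (hw : w ∈ M i) (hn : ‖w‖ = 1) :
    Hm θ n (demM M i w) l = Hm θ n M l + (θ ^ (i - 1 - l) - θ ^ (i - l)) • rk1 w := by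
  obtain ⟨m, rfl⟩ : ∃ m, i = m + 1 := ⟨i - 1, by omega⟩
  have hterm : ∀ j, θ ^ (j - l) • blkP (demM M (m + 1) w) j = θ ^ (j - l) • blkP M j
      + ((if j = m then θ ^ (m - l) • rk1 w else 0)
        - (if j = m + 1 then θ ^ (m + 1 - l) • rk1 w else 0)) := by
    intro j
    by_cases h1 : j = m
    · subst h1
      rw [blkP_dem_pred rfl hw hn]
      simp
    · by_cases h2 : j = m + 1
      · subst h2
        rw [blkP_dem_self hw hn]
        simp [smul_sub]
        abel
      · rw [blkP_dem_ne M w h2 (by omega)]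
        simp [h1, h2]
  unfold Hm
  rw [Finset.sum_congr rfl fun j _ => hterm j, Finset.sum_add_distrib, Finset.sum_sub_distrib,
    Finset.sum_ite_eq', Finset.sum_ite_eq']
  rw [if_pos (Finset.mem_Ico.2 ⟨by omega, by omega⟩), if_pos (Finset.mem_Ico.2 ⟨by omega, hin⟩)]
  rw [Nat.add_sub_cancel, sub_smul]

/-- block dimension -/
noncomputable def kd (M : ℕ → Submodule ℝ E) (j : ℕ) : ℕ := finrank ℝ (M j) - finrank ℝ (M (j + 1))

lemma kd_add {M : ℕ → Submodule ℝ E} (hM : Antitone M) (j : ℕ) :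
    kd M j + finrank ℝ (M (j + 1)) = finrank ℝ (M j) :=
  Nat.sub_add_cancel (Submodule.finrank_mono (hM (Nat.le_succ j)))

lemma kd_dem_ne (M : ℕ → Submodule ℝ E) {i j : ℕ} (w : E) (h : j ≠ i) (h' : j + 1 ≠ i) :
    kd (demM M i w) j = kd M j := by
  unfold kd; rw [demM_ne M w h, demM_ne M w h']

lemma kd_dem_self {M : ℕ → Submodule ℝ E} (hM : Antitone M) {i : ℕ} {w : E} (hw : w ∈ M i)
    (hw' : w ∈ (M (i + 1))ᗮ) (hn : ‖w‖ = 1) : kd (demM M i w) i + 1 = kd M i := by
  have h1 := kd_add (demM_anti hM hw') i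
  have h2 := kd_add hM i
  rw [demM_self, demM_ne M w (by omega : i + 1 ≠ i)] at h1
  have h3 := finrank_cutSub hw hn
  omega

lemma kd_dem_pred {M : ℕ → Submodule ℝ E} (hM : Antitone M) {i j : ℕ} {w : E} (hj : j + 1 = i)
    (hw : w ∈ M i) (hw' : w ∈ (M (i + 1))ᗮ) (hn : ‖w‖ = 1) :
    kd (demM M i w) j = kd M j + 1 := by
  have h1 := kd_add (demM_anti hM hw') j
  have h2 := kd_add hM j
  subst hj
  rw [demM_self, demM_ne M w (by omega : j ≠ j + 1)] at h1
  have h3 := finrank_cutSub hw hn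
  omega

end Crest.Agent.R239.Dem853
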