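import Crest.Agent.R239.AnSym_853
import Crest.Agent.R239.DemLin_853
import Crest.Agent.R239.SoftA_450
import Crest.Agent.R239.Dom_640

/-! R239 (helper853): block projections of a flag: moments under `gau (H_l)`, and cutting by one block. -/

set_option autoImplicit false
set_option linter.unusedSectionVars false
open MeasureTheory ProbabilityTheory Set Filter Topology Metric Module
open scoped RealInnerProductSpace ENNReal NNReal InnerProduct Pointwise

namespace Crest.Agent.R239.Dem853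

open Crest.Agent.R239 Crest.Agent.R239.Soft450

variable {E : Type*} [NormedAddCommGroup E] [InnerProductSpace ℝ E] [FiniteDimensional ℝ E]
  [MeasurableSpace E] [BorelSpace E]

lemma integral_inner_sq (b : E) : ∫ g, ⟪b, g⟫ ^ 2 ∂(stdGaussian E) = ‖b‖ ^ 2 := by
  have h := integral_norm_sq_gau (ContinuousLinearMap.id ℝ E) b
  rw [gau_id] at h
  simpa using h

lemma integrable_inner_sq (b : E) : Integrable (fun g : E => ⟪b, g⟫ ^ 2) (stdGaussian E) := by
  by_cases hb : ‖b‖ = 0
  · have : b = 0 := norm_eq_zero.1 hb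
    subst this
    simp
  · by_contra h
    have h2 := integral_inner_sq b
    rw [integral_undef h] at h2
    exact hb (by nlinarith [norm_nonneg b])

lemma norm_star_sq_eq (W : Submodule ℝ E) (g : E) :
    ‖W.starProjection g‖ ^ 2 = ∑ k, ⟪((stdOrthonormalBasis ℝ W k : W) : E), g⟫ ^ 2 := by
  have h1 : ‖W.starProjection g‖ = ‖W.orthogonalProjectionOnto g‖ := rfl
  rw [h1, ← (stdOrthonormalBasis ℝ W).sum_sq_norm_inner_right]
  refine Finset.sum_congr rfl fun k _ => ?_
  rw [Real.norm_eq_abs, sq_abs, Submodule.coe_inner]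
  congr 1
  change ⟪((stdOrthonormalBasis ℝ W k : W) : E), W.starProjection g⟫ = _
  rw [← Submodule.inner_starProjection_left_eq_right,
    Submodule.starProjection_eq_self_iff.2 (stdOrthonormalBasis ℝ W k).2]

theorem integral_norm_star_sq (W : Submodule ℝ E) :
    ∫ g, ‖W.starProjection g‖ ^ 2 ∂(stdGaussian E) = finrank ℝ W := by
  simp_rw [norm_star_sq_eq W]
  rw [integral_finsetSum _ fun k _ => integrable_inner_sq _]
  simp_rw [integral_inner_sq]
  have : ∀ k, ‖((stdOrthonormalBasis ℝ W k : W) : E)‖ = 1 := fun k =>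
    (stdOrthonormalBasis ℝ W).orthonormal.1 k
  simp [this]

lemma integrable_norm_star_sq (W : Submodule ℝ E) :
    Integrable (fun g => ‖W.starProjection g‖ ^ 2) (stdGaussian E) := by
  simp_rw [norm_star_sq_eq W]
  exact integrable_finsetSum _ fun k _ => integrable_inner_sq _

theorem integral_norm_blkP_sq {M : ℕ → Submodule ℝ E} (hM : Antitone M) (j : ℕ) :
    ∫ g, ‖blkP M j g‖ ^ 2 ∂(stdGaussian E) = kd M j := by
  have h : ∀ g, ‖blkP M j g‖ ^ 2
      = ‖(M j).starProjection g‖ ^ 2 - ‖(M (j + 1)).starProjection g‖ ^ 2 := fun g =>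
    norm_star_sub_sq (hM (Nat.le_succ j)) g
  simp_rw [h]
  rw [integral_sub (integrable_norm_star_sq _) (integrable_norm_star_sq _),
    integral_norm_star_sq, integral_norm_star_sq]
  have := kd_add hM j
  rw [← this]
  push_cast
  ring

lemma blkP_blkP {M : ℕ → Submodule ℝ E} (hM : Antitone M) {i j : ℕ} (h : i ≠ j) (x : E) :
    blkP M j (blkP M i x) = 0 := by
  simp only [blkP_apply, map_sub]
  rcases lt_or_gt_of_ne h with h | h
  · rw [star_star_of_le (hM (by omega : i ≤ j)), star_star_of_le (hM (by omega : i + 1 ≤ j)),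
      star_star_of_le (hM (by omega : i ≤ j + 1)), star_star_of_le (hM (by omega : i + 1 ≤ j + 1))]
    abel
  · rw [star_star_of_le' (hM (by omega : j ≤ i)), star_star_of_le' (hM (by omega : j ≤ i + 1)),
      star_star_of_le' (hM (by omega : j + 1 ≤ i)), star_star_of_le' (hM (by omega : j + 1 ≤ i + 1))]
    abel

lemma blkP_blkP_self {M : ℕ → Submodule ℝ E} (hM : Antitone M) (j : ℕ) (x : E) :
    blkP M j (blkP M j x) = blkP M j x := by
  simp only [blkP_apply, map_sub]
  rw [star_star_of_le le_rfl, star_star_of_le' (hM (by omega : j ≤ j + 1)),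
      star_star_of_le (hM (by omega : j ≤ j + 1)), star_star_of_le le_rfl]
  abel

lemma blkP_Hm (θ : ℝ) {n : ℕ} {M : ℕ → Submodule ℝ E} (hM : Antitone M) {l j : ℕ} (hl : l ≤ j)
    (hj : j < n) (g : E) : blkP M j (Hm θ n M l g) = θ ^ (j - l) • blkP M j g := by
  unfold Hm
  simp only [sum_apply, smul_apply, map_sum, map_smul]
  rw [Finset.sum_eq_single j]
  · rw [blkP_blkP_self hM]
  · intro i _ hi
    rw [blkP_blkP hM hi, smul_zero]
  · intro h
    exact absurd (Finset.mem_Ico.2 ⟨hl, hj⟩) h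

lemma inner_blkP_left {M : ℕ → Submodule ℝ E} (j : ℕ) (x y : E) :
    ⟪blkP M j x, y⟫ = ⟪x, blkP M j y⟫ := by
  simp only [blkP_apply, inner_sub_left, inner_sub_right,
    Submodule.inner_starProjection_left_eq_right]

lemma inner_Hm_left (θ : ℝ) (n : ℕ) (M : ℕ → Submodule ℝ E) (l : ℕ) (x y : E) :
    ⟪Hm θ n M l x, y⟫ = ⟪x, Hm θ n M l y⟫ := by
  unfold Hm
  simp only [sum_apply, smul_apply, sum_inner, inner_sum, inner_smul_left, inner_smul_right,
    inner_blkP_left]
  rfl

lemma adjoint_Hm (θ : ℝ) (n : ℕ) (M : ℕ → Submodule ℝ E) (l : ℕ) :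
    (Hm θ n M l).adjoint = Hm θ n M l := by
  symm
  rw [ContinuousLinearMap.eq_adjoint_iff]
  exact inner_Hm_left θ n M l

lemma blkP_eq_zero {M : ℕ → Submodule ℝ E} (hM : Antitone M) {j : ℕ} (h : kd M j = 0) :
    blkP M j = 0 := by
  have h1 := kd_add hM j
  have h2 : M (j + 1) = M j := Submodule.eq_of_le_of_finrank_eq (hM (Nat.le_succ j)) (by omega)
  unfold blkP
  rw [starProj_congr h2, sub_self]

lemma inner_blkP_blkP {M : ℕ → Submodule ℝ E} (hM : Antitone M) {i j : ℕ} (h : i ≠ j) (x y : E) :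
    ⟪blkP M i x, blkP M j y⟫ = 0 := by
  rw [← inner_blkP_left, blkP_blkP hM h, inner_zero_left]

/-- Pythagoras for block combinations. -/
lemma norm_sum_blkP_sq {M : ℕ → Submodule ℝ E} (hM : Antitone M) (s : Finset ℕ) (c : ℕ → ℝ)
    (x : E) : ‖(∑ j ∈ s, c j • blkP M j) x‖ ^ 2 = ∑ j ∈ s, c j ^ 2 * ‖blkP M j x‖ ^ 2 := by
  rw [← real_inner_self_eq_norm_sq]
  simp only [sum_apply, smul_apply, sum_inner, inner_sum]
  refine Finset.sum_congr rfl fun i hi => ?_
  rw [Finset.sum_eq_single i]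
  · rw [inner_smul_left, inner_smul_right, real_inner_self_eq_norm_sq]
    simp only [conj_trivial]
    ring
  · intro j _ hj
    rw [inner_smul_left, inner_smul_right, inner_blkP_blkP hM hj, mul_zero, mul_zero]
  · intro h; exact absurd hi h

lemma integrable_norm_blkP_sq {M : ℕ → Submodule ℝ E} (hM : Antitone M) (j : ℕ) :
    Integrable (fun g => ‖blkP M j g‖ ^ 2) (stdGaussian E) := by
  have h : ∀ g, ‖blkP M j g‖ ^ 2
      = ‖(M j).starProjection g‖ ^ 2 - ‖(M (j + 1)).starProjection g‖ ^ 2 := fun g =>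
    norm_star_sub_sq (hM (Nat.le_succ j)) g
  simp_rw [h]
  exact (integrable_norm_star_sq _).sub (integrable_norm_star_sq _)

/-- second moment of a block combination. -/
lemma integral_sum_blkP_sq {M : ℕ → Submodule ℝ E} (hM : Antitone M) (s : Finset ℕ) (c : ℕ → ℝ) :
    ∫ g, ‖(∑ j ∈ s, c j • blkP M j) g‖ ^ 2 ∂(stdGaussian E) = ∑ j ∈ s, c j ^ 2 * kd M j := by
  simp_rw [norm_sum_blkP_sq hM]
  rw [integral_finsetSum _ fun j _ => (integrable_norm_blkP_sq hM j).const_mul _]
  refine Finset.sum_congr rfl fun j _ => ?_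
  rw [integral_const_mul, integral_norm_blkP_sq hM]

end Crest.Agent.R239.Dem853
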