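import Crest.Agent.R239.Ins_556b
import Crest.Agent.R239.Dom_640

/-! R239 block F3 (helper488): second moments of block projections of the standard Gaussian,
sequential cap cuts. -/

set_option autoImplicit false
set_option linter.unusedSectionVars false
open Submodule MeasureTheory ProbabilityTheory Set
open scoped RealInnerProductSpace

namespace Crest.Agent.R239.Ins488

open Crest.Agent.R239.Ins556

variable {E : Type*} [NormedAddCommGroup E] [InnerProductSpace ℝ E] [FiniteDimensional ℝ E]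
  [MeasurableSpace E] [BorelSpace E]

/-- `∫ ⟨n, x⟩² dγ = ‖n‖²` -/
lemma integral_inner_sq (n : E) : ∫ x, ⟪n, x⟫ ^ 2 ∂(stdGaussian E) = ‖n‖ ^ 2 := by
  have h := integral_norm_sq_gau (ContinuousLinearMap.id ℝ E) n
  rw [gau_id, adjoint_id'] at h
  simpa using h

lemma integrable_inner_sq (n : E) : Integrable (fun x => ⟪n, x⟫ ^ 2) (stdGaussian E) := by
  by_cases hn : n = 0
  · subst hn
    simp
  · by_contra h
    have h1 := integral_undef h
    rw [integral_inner_sq] at h1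
    have : ‖n‖ = 0 := by simpa using h1
    exact hn (norm_eq_zero.mp this)

/-- `‖P_S x‖² = Σ_k ⟨b_k, x⟩²` for an orthonormal basis `b` of `S`. -/
lemma norm_sq_proj_sum (S : Submodule ℝ E) (x : E) :
    ‖S.starProjection x‖ ^ 2 =
      ∑ k, ⟪((stdOrthonormalBasis ℝ S k : S) : E), x⟫ ^ 2 := by
  set b := stdOrthonormalBasis ℝ S with hb
  have h1 : ‖S.starProjection x‖ ^ 2 = ‖S.orthogonalProjectionOnto x‖ ^ 2 := by
    rw [Submodule.starProjection_apply]
    simp
  rw [h1, ← b.sum_sq_norm_inner_right]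
  refine Finset.sum_congr rfl fun k _ => ?_
  rw [Real.norm_eq_abs, sq_abs]
  congr 1
  rw [Submodule.coe_inner]
  rw [← Submodule.starProjection_apply, ← inner_starProjection_left_eq_right,
    starProjection_eq_self_iff.2 (b k).2]

lemma integrable_norm_sq_proj (S : Submodule ℝ E) :
    Integrable (fun x => ‖S.starProjection x‖ ^ 2) (stdGaussian E) := by
  simp_rw [norm_sq_proj_sum S]
  exact integrable_finsetSum _ fun k _ => integrable_inner_sq _

lemma integral_norm_sq_proj (S : Submodule ℝ E) :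
    ∫ x, ‖S.starProjection x‖ ^ 2 ∂(stdGaussian E) = (Module.finrank ℝ S : ℝ) := by
  simp_rw [norm_sq_proj_sum S]
  rw [integral_finsetSum _ fun k _ => integrable_inner_sq _]
  have : ∀ k, ∫ x, ⟪((stdOrthonormalBasis ℝ S k : S) : E), x⟫ ^ 2 ∂(stdGaussian E) = 1 := by
    intro k
    rw [integral_inner_sq]
    have h1 := (stdOrthonormalBasis ℝ S).orthonormal.1 k
    have h2 : ‖((stdOrthonormalBasis ℝ S k : S) : E)‖ = 1 := by
      rw [← h1]
      rfl
    rw [h2]
    norm_num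
  simp_rw [this]
  simp

variable {M : ℕ → Submodule ℝ E}

lemma integral_norm_sq_Qp (hM : Antitone M) (j : ℕ) :
    ∫ x, ‖Qp M j x‖ ^ 2 ∂(stdGaussian E) =
      (Module.finrank ℝ ↥(M j) : ℝ) - (Module.finrank ℝ ↥(M (j + 1)) : ℝ) := by
  simp_rw [norm_sq_Qp hM]
  rw [integral_sub (integrable_norm_sq_proj _) (integrable_norm_sq_proj _),
    integral_norm_sq_proj, integral_norm_sq_proj]

lemma integrable_norm_sq_Qp (hM : Antitone M) (j : ℕ) :
    Integrable (fun x => ‖Qp M j x‖ ^ 2) (stdGaussian E) := by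
  simp_rw [norm_sq_Qp hM]
  exact (integrable_norm_sq_proj _).sub (integrable_norm_sq_proj _)

lemma finrank_sub_nonneg (hM : Antitone M) (j : ℕ) :
    0 ≤ (Module.finrank ℝ ↥(M j) : ℝ) - (Module.finrank ℝ ↥(M (j + 1)) : ℝ) := by
  have := Submodule.finrank_mono (hM (Nat.le_succ j))
  have h2 : (Module.finrank ℝ ↥(M (j + 1)) : ℝ) ≤ (Module.finrank ℝ ↥(M j) : ℝ) := by
    exact_mod_cast this
  linarith

lemma Qp_eq_zero_of_finrank (hM : Antitone M) {j : ℕ}
    (h : (Module.finrank ℝ ↥(M j) : ℝ) - (Module.finrank ℝ ↥(M (j + 1)) : ℝ) = 0) (x : E) :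
    Qp M j x = 0 := by
  have h1 : Module.finrank ℝ ↥(M (j + 1)) = Module.finrank ℝ ↥(M j) := by
    have : (Module.finrank ℝ ↥(M (j + 1)) : ℝ) = (Module.finrank ℝ ↥(M j) : ℝ) := by linarith
    exact_mod_cast this
  have h2 : M (j + 1) = M j := Submodule.eq_of_le_of_finrank_eq (hM (Nat.le_succ j)) h1
  rw [Qp_apply, h2, sub_self]

lemma integral_norm_sq_Qp_Hc (hM : Antitone M) (c : ℝ) {n i j : ℕ} (hj : j ∈ Finset.Ico i n) :
    ∫ x, ‖Qp M j (Hc M c n i x)‖ ^ 2 ∂(stdGaussian E) = (c ^ (j - i)) ^ 2 *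
      ((Module.finrank ℝ ↥(M j) : ℝ) - (Module.finrank ℝ ↥(M (j + 1)) : ℝ)) := by
  rw [← integral_norm_sq_Qp hM j, ← integral_const_mul]
  congr 1
  funext x
  rw [Qp_Hc hM c hj, norm_smul, mul_pow, Real.norm_eq_abs, sq_abs]

/-- `∫ ‖Σ_j √(th^(j-i)) Q_j g‖² dγ = Σ_j th^(j-i) k_j`. -/
lemma integral_norm_sq_Hc (hM : Antitone M) (c : ℝ) (n i : ℕ) :
    ∫ x, ‖Hc M c n i x‖ ^ 2 ∂(stdGaussian E) = ∑ j ∈ Finset.Ico i n, (c ^ 2) ^ (j - i) *
      ((Module.finrank ℝ ↥(M j) : ℝ) - (Module.finrank ℝ ↥(M (j + 1)) : ℝ)) := by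
  simp_rw [norm_sq_Hc hM]
  rw [integral_finsetSum _ fun j _ => (integrable_norm_sq_Qp hM j).const_mul _]
  refine Finset.sum_congr rfl fun j _ => ?_
  rw [integral_const_mul, integral_norm_sq_Qp hM]

/-- the ellipsoid norm along `H`. -/
lemma ell_Hc (hM : Antitone M) {th : ℝ} (hth : 0 < th) (n i : ℕ) (g : E) :
    ∑ j ∈ Finset.Ico i n, (th⁻¹) ^ (j - i) * ‖Qp M j (Hc M th n i g)‖ ^ 2 =
      ‖Hc M (Real.sqrt th) n i g‖ ^ 2 := by
  rw [norm_sq_Hc hM, Real.sq_sqrt hth.le]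
  refine Finset.sum_congr rfl fun j hj => ?_
  rw [Qp_Hc hM th hj, norm_smul, mul_pow, Real.norm_eq_abs, sq_abs]
  have : th ^ (j - i) ≠ 0 := by positivity
  rw [inv_pow]
  field_simp

/-- **(B3)** one Markov cut by the ellipsoid cap of the level. -/
theorem cut_ell (hM : Antitone M) {th rho : ℝ} (hth : 0 < th) (hrho : 0 < rho)
    (n i : ℕ) {K : Set E} (hc : Convex ℝ K) (hK : MeasurableSet K) (hs : ∀ x ∈ K, -x ∈ K) :
    (1 - 1 / rho ^ 2) * (stdGaussian E).real {g | Hc M th n i g ∈ K} ≤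
      (stdGaussian E).real {g | Hc M th n i g ∈ K ∧
        ∑ j ∈ Finset.Ico i n, (th⁻¹) ^ (j - i) * ‖Qp M j (Hc M th n i g)‖ ^ 2 ≤
          rho ^ 2 * ∑ j ∈ Finset.Ico i n, th ^ (j - i) *
            ((Module.finrank ℝ ↥(M j) : ℝ) - (Module.finrank ℝ ↥(M (j + 1)) : ℝ))} := by
  set r := ∑ j ∈ Finset.Ico i n, th ^ (j - i) *
            ((Module.finrank ℝ ↥(M j) : ℝ) - (Module.finrank ℝ ↥(M (j + 1)) : ℝ)) with hr
  have hr0 : 0 ≤ r := Finset.sum_nonneg fun j _ =>
    mul_nonneg (by positivity) (finrank_sub_nonneg hM j)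
  set B := Hc M (Real.sqrt th) n i with hB
  have hint : ∫ x, ‖B x‖ ^ 2 ∂(stdGaussian E) = r := by
    rw [hB, integral_norm_sq_Hc hM, hr, Real.sq_sqrt hth.le]
  have hset : {g | Hc M th n i g ∈ K ∧
        ∑ j ∈ Finset.Ico i n, (th⁻¹) ^ (j - i) * ‖Qp M j (Hc M th n i g)‖ ^ 2 ≤ rho ^ 2 * r} =
      (Hc M th n i) ⁻¹' K ∩ {x | ‖B x‖ ≤ rho * Real.sqrt r} := by
    ext g
    rw [mem_inter_iff]
    refine and_congr Iff.rfl ?_
    show _ ≤ _ ↔ ‖B g‖ ≤ rho * Real.sqrt r
    rw [ell_Hc hM hth, ← hB]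
    rw [← sq_le_sq₀ (norm_nonneg (B g)) (by positivity : 0 ≤ rho * Real.sqrt r), mul_pow,
      Real.sq_sqrt hr0]
  rw [hset]
  have hKm : MeasurableSet ((Hc M th n i) ⁻¹' K) := (Hc M th n i).continuous.measurable hK
  have hKc : Convex ℝ ((Hc M th n i) ⁻¹' K) :=
    hc.is_linear_preimage (Hc M th n i).toLinearMap.isLinear
  have hKs : ∀ x ∈ (Hc M th n i) ⁻¹' K, -x ∈ (Hc M th n i) ⁻¹' K := by
    intro x hx
    show Hc M th n i (-x) ∈ K
    rw [map_neg]
    exact hs _ hx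
  rcases hr0.eq_or_lt with h0 | h0
  · -- trivial cap
    have hB0 : ∀ x, ‖B x‖ ^ 2 = 0 := by
      intro x
      rw [hB, norm_sq_Hc hM]
      refine Finset.sum_eq_zero fun j hj => ?_
      have h1 : th ^ (j - i) *
            ((Module.finrank ℝ ↥(M j) : ℝ) - (Module.finrank ℝ ↥(M (j + 1)) : ℝ)) = 0 := by
        refine (Finset.sum_eq_zero_iff_of_nonneg (fun j _ => ?_)).mp (hr.symm.trans h0.symm) j hj
        exact mul_nonneg (by positivity) (finrank_sub_nonneg hM j)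
      have h2 : (Module.finrank ℝ ↥(M j) : ℝ) - (Module.finrank ℝ ↥(M (j + 1)) : ℝ) = 0 := by
        rcases mul_eq_zero.mp h1 with h | h
        · exact absurd h (by positivity)
        · exact h
      rw [Qp_eq_zero_of_finrank hM h2]
      simp
    have hall : (Hc M th n i) ⁻¹' K ∩ {x | ‖B x‖ ≤ rho * Real.sqrt r} = (Hc M th n i) ⁻¹' K := by
      ext g
      constructor
      · exact fun h => h.1
      · intro h
        refine ⟨h, ?_⟩
        have : ‖B g‖ = 0 := by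
          have := hB0 g
          exact pow_eq_zero_iff (two_ne_zero) |>.mp this
        show ‖B g‖ ≤ rho * Real.sqrt r
        rw [this]
        positivity
    rw [hall]
    have h1 : 0 ≤ (stdGaussian E).real ((Hc M th n i) ⁻¹' K) := measureReal_nonneg
    have h2 : 0 ≤ 1 / rho ^ 2 := by positivity
    have h3 : (stdGaussian E).real {g | Hc M th n i g ∈ K} =
      (stdGaussian E).real ((Hc M th n i) ⁻¹' K) := rfl
    rw [h3]
    nlinarith
  · have hrr : 0 < rho * Real.sqrt r := by positivity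
    have h := Dom640.cut hKm hKc hKs B hrr
    rw [hint] at h
    have hq : r / (rho * Real.sqrt r) ^ 2 = 1 / rho ^ 2 := by
      rw [mul_pow, Real.sq_sqrt hr0]
      field_simp
    rw [hq] at h
    exact h

end Crest.Agent.R239.Ins488
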