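import Mathlib

/-! R239 leaf REM (helper864): slab bounds, abstract real-analysis part.

`p t` is a function with `1 - p t ≤ 2 exp (-t²/(2b))` (`t ≥ 0`) and `exp (-1) t ≤ p t` (`0 ≤ t ≤ 1`),
for example `p t = P (|ξ| ≤ t)` for a centred Gaussian variable of variance `≤ b ≤ 1`. -/

set_option autoImplicit false

open Real

namespace Crest.Agent.R239.Rem864

/-- (r1) `S ≤ lam`: the slab `t = 2`. -/
theorem slab_r1 {p : ℝ → ℝ} {b : ℝ} (hb : 0 < b) (hb1 : b ≤ 1)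
    (h1 : ∀ t, 0 ≤ t → 1 - p t ≤ 2 * exp (-(t ^ 2 / (2 * b))))
    {S lam : ℝ} (hlam : 0 < lam) (hS : S ≤ lam) :
    ∃ t, 0 < t ∧ 0 < p t ∧ S * t - lam * log (p t) ≤ 3 * lam := by
  have hexp : exp (-(2 ^ 2 / (2 * b))) ≤ exp (-2) := by
    apply exp_le_exp.2
    have : (2 : ℝ) ≤ 2 ^ 2 / (2 * b) := by
      rw [le_div_iff₀ (by positivity)]
      nlinarith
    linarith
  have he2 : exp (-2) ≤ 0.14 := by
    have h := Real.exp_one_gt_d9
    have h3 : exp (-2) = (exp 1 ^ 2)⁻¹ := by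
      rw [Real.exp_neg, ← Real.exp_nat_mul]
      norm_num
    rw [h3, inv_le_comm₀ (by positivity) (by norm_num)]
    nlinarith
  have hp := h1 2 (by norm_num)
  have hp2 : (0.72 : ℝ) ≤ p 2 := by linarith
  have hlog : - log (p 2) ≤ 1 := by
    have h4 : log (0.72 : ℝ) ≤ log (p 2) := log_le_log (by norm_num) hp2
    have h5 : 1 - (0.72 : ℝ)⁻¹ ≤ log (0.72 : ℝ) := one_sub_inv_le_log_of_pos (by norm_num)
    have h6 : (0.72 : ℝ)⁻¹ ≤ 2 := by norm_num
    linarith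
  refine ⟨2, by norm_num, by linarith, ?_⟩
  have h7 : lam * (- log (p 2)) ≤ lam * 1 := mul_le_mul_of_nonneg_left hlog hlam.le
  nlinarith

/-- (r2) `S > lam`: the slab `t = lam / S`. -/
theorem slab_r2 {p : ℝ → ℝ}
    (h2 : ∀ t, 0 ≤ t → t ≤ 1 → exp (-1) * t ≤ p t)
    {S lam : ℝ} (hlam : 0 < lam) (hS : lam ≤ S) :
    ∃ t, 0 < t ∧ 0 < p t ∧ S * t - lam * log (p t) ≤ lam * (2 + log (S / lam)) := by
  have hS0 : 0 < S := lt_of_lt_of_le hlam hS
  have ht0 : 0 < lam / S := div_pos hlam hS0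
  have ht1 : lam / S ≤ 1 := (div_le_one hS0).2 hS
  have hp := h2 (lam / S) ht0.le ht1
  have hpos : 0 < exp (-1) * (lam / S) := by positivity
  refine ⟨lam / S, ht0, lt_of_lt_of_le hpos hp, ?_⟩
  have hlog : log (exp (-1) * (lam / S)) ≤ log (p (lam / S)) := log_le_log hpos hp
  rw [log_mul (exp_pos _).ne' ht0.ne', log_exp] at hlog
  have h3 : log (lam / S) = - log (S / lam) := by
    rw [← log_inv, inv_div]
  rw [h3] at hlog
  have h4 : S * (lam / S) = lam := by field_simp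
  rw [h4]
  nlinarith

/-- `- log (1 - y) ≤ 2 y log 2` for `0 ≤ y ≤ 1/2`. -/
theorem neg_log_one_sub_le {y : ℝ} (hy0 : 0 ≤ y) (hy : y ≤ 1 / 2) :
    - log (1 - y) ≤ 2 * y * log 2 := by
  have ha : (1 : ℝ) ∈ Set.Ioi (0 : ℝ) := by simp
  have hb : (1 / 2 : ℝ) ∈ Set.Ioi (0 : ℝ) := by simp
  have h := strictConcaveOn_log_Ioi.concaveOn.2 ha hb
    (show (0 : ℝ) ≤ 1 - 2 * y by linarith) (show (0 : ℝ) ≤ 2 * y by linarith) (by ring)
  simp only [smul_eq_mul, log_one, mul_zero, zero_add, mul_one] at h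
  have h1 : (1 - 2 * y) + 2 * y * (1 / 2) = 1 - y := by ring
  rw [h1] at h
  have h2 : log (1 / 2 : ℝ) = - log 2 := by
    rw [one_div, log_inv]
  rw [h2] at h
  linarith

/-- Tails: a slab of small logarithmic cost. -/
theorem slab_r0 {p : ℝ → ℝ} {b : ℝ} (hb : 0 < b)
    (h1 : ∀ t, 0 ≤ t → 1 - p t ≤ 2 * exp (-(t ^ 2 / (2 * b))))
    {ε : ℝ} (hε : 0 < ε) :
    ∃ t, 0 < t ∧ 0 < p t ∧ - log (p t) ≤ ε := by
  set δ : ℝ := min (1 / 2) (ε / 2) with hδ
  have hδ0 : 0 < δ := by rw [hδ]; positivity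
  have hδ1 : δ ≤ 1 / 2 := min_le_left _ _
  have hδ2 : δ ≤ ε / 2 := min_le_right _ _
  set t : ℝ := sqrt (2 * b * log (2 / δ)) with ht
  have hL : 0 < log (2 / δ) := by
    apply log_pos
    rw [lt_div_iff₀ hδ0]
    linarith
  have ht0 : 0 < t := by rw [ht]; positivity
  have htsq : t ^ 2 = 2 * b * log (2 / δ) := by
    rw [ht]; exact sq_sqrt (by positivity)
  have hx : t ^ 2 / (2 * b) = log (2 / δ) := by
    rw [htsq]; field_simp
  have hp := h1 t ht0.le
  rw [hx, exp_neg, exp_log (by positivity)] at hp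
  have hp' : 1 - p t ≤ δ := by
    have : 2 * (2 / δ)⁻¹ = δ := by field_simp
    linarith
  have hpp : 1 - δ ≤ p t := by linarith
  refine ⟨t, ht0, by linarith, ?_⟩
  have h3 : log (1 - δ) ≤ log (p t) := log_le_log (by linarith) hpp
  have h4 := neg_log_one_sub_le hδ0.le hδ1
  have h5 : log 2 ≤ 1 := by
    have := Real.log_two_lt_d9
    linarith
  nlinarith

/-- (r3) `0 < S ≤ lam`. -/
theorem slab_r3 {p : ℝ → ℝ} {b : ℝ} (hb : 0 < b)
    (h1 : ∀ t, 0 ≤ t → 1 - p t ≤ 2 * exp (-(t ^ 2 / (2 * b))))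
    {S lam e : ℝ} (hlam : 0 < lam) (hS0 : 0 < S) (hS : S ≤ lam) (he : 0 < e) (he1 : e ≤ 1) :
    ∃ t, 0 < t ∧ 0 < p t ∧
      S * t - lam * log (p t) ≤ e * lam * b + 2 / e * (S ^ 2 / lam) * log (2 * lam / S) := by
  set x : ℝ := S / lam with hx
  have hx0 : 0 < x := div_pos hS0 hlam
  have hx1 : x ≤ 1 := (div_le_one hlam).2 hS
  have hSx : S = lam * x := by rw [hx]; field_simp
  set L : ℝ := log (2 / x) with hL
  have hL2 : log 2 ≤ L := by
    rw [hL]
    apply log_le_log (by norm_num)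
    rw [le_div_iff₀ hx0]
    linarith
  have hlog2 : 0 < log 2 := log_pos (by norm_num)
  have hL0 : 0 < L := lt_of_lt_of_le hlog2 hL2
  set t : ℝ := sqrt (4 * b * L) with ht
  have ht0 : 0 < t := by rw [ht]; positivity
  have htsq : t ^ 2 = 4 * b * L := by
    rw [ht]; exact sq_sqrt (by positivity)
  have hq : t ^ 2 / (2 * b) = 2 * L := by
    rw [htsq]; field_simp; ring
  have hp := h1 t ht0.le
  have hexp : exp (-(2 * L)) = (x / 2) ^ 2 := by
    have : -(2 * L) = log ((x / 2) ^ 2) := by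
      rw [hL, log_pow, ← inv_div, log_inv]
      push_cast
      ring
    rw [this, exp_log (by positivity)]
  rw [hq, hexp] at hp
  have hp' : 1 - x ^ 2 / 2 ≤ p t := by nlinarith
  have hy : x ^ 2 / 2 ≤ 1 / 2 := by nlinarith
  have hy0 : 0 ≤ x ^ 2 / 2 := by positivity
  refine ⟨t, ht0, by linarith, ?_⟩
  have h3 : log (1 - x ^ 2 / 2) ≤ log (p t) := log_le_log (by linarith) hp'
  have h4 := neg_log_one_sub_le hy0 hy
  have h5 : - log (p t) ≤ x ^ 2 * log 2 := by nlinarith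
  have h6 : - log (p t) ≤ x ^ 2 * L / e := by
    have : x ^ 2 * log 2 ≤ x ^ 2 * L / e := by
      rw [le_div_iff₀ he]
      have h7 : x ^ 2 * log 2 * e ≤ x ^ 2 * log 2 * 1 :=
        mul_le_mul_of_nonneg_left he1 (by positivity)
      have h8 : x ^ 2 * log 2 ≤ x ^ 2 * L := mul_le_mul_of_nonneg_left hL2 (by positivity)
      linarith
    linarith
  have h9 : x * t ≤ e * b + x ^ 2 * L / e := by
    -- AM-GM: (x t)^2 = 4 (e b) (x^2 L / e)
    have h10 : (x * t) ^ 2 = 4 * (e * b) * (x ^ 2 * L / e) := by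
      rw [mul_pow, htsq]; field_simp
    have h11 : 0 ≤ e * b := by positivity
    have h12 : 0 ≤ x ^ 2 * L / e := by positivity
    nlinarith [sq_nonneg (e * b - x ^ 2 * L / e), abs_le_of_sq_le_sq' (a := x * t)
      (b := e * b + x ^ 2 * L / e) (by nlinarith [sq_nonneg (e * b - x ^ 2 * L / e)]) (by positivity)]
  have h13 : 2 * lam / S = 2 / x := by
    rw [hx]; field_simp
  have h14 : S ^ 2 / lam = lam * x ^ 2 := by
    rw [hSx]; field_simp
  rw [h13, h14, ← hL]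
  have h15 : S * t - lam * log (p t) = lam * (x * t + - log (p t)) := by
    rw [hSx]; ring
  rw [h15]
  have h16 : x * t + - log (p t) ≤ e * b + 2 * (x ^ 2 * L / e) := by linarith
  calc lam * (x * t + - log (p t)) ≤ lam * (e * b + 2 * (x ^ 2 * L / e)) :=
        mul_le_mul_of_nonneg_left h16 hlam.le
    _ = e * lam * b + 2 / e * (lam * x ^ 2) * L := by
        field_simp

/-- (r3) with slack, `0 ≤ S ≤ lam`. -/
theorem slab_r3' {p : ℝ → ℝ} {b : ℝ} (hb : 0 < b)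
    (h1 : ∀ t, 0 ≤ t → 1 - p t ≤ 2 * exp (-(t ^ 2 / (2 * b))))
    {S lam e ε : ℝ} (hlam : 0 < lam) (hS0 : 0 ≤ S) (hS : S ≤ lam) (he : 0 < e) (he1 : e ≤ 1)
    (hε : 0 < ε) :
    ∃ t, 0 < t ∧ 0 < p t ∧
      S * t - lam * log (p t) ≤
        e * lam * b + 2 / e * (S ^ 2 / lam) * log (2 * lam / S) + ε := by
  rcases hS0.eq_or_lt with h | h
  · subst h
    obtain ⟨t, ht, hp, hl⟩ := slab_r0 hb h1 (ε := ε / lam) (by positivity)
    refine ⟨t, ht, hp, ?_⟩
    have h3 : lam * (- log (p t)) ≤ lam * (ε / lam) := mul_le_mul_of_nonneg_left hl hlam.le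
    have h4 : lam * (ε / lam) = ε := by field_simp
    have h5 : 0 ≤ e * lam * b := by positivity
    simp only [zero_mul, ne_eq, OfNat.ofNat_ne_zero, not_false_eq_true, zero_pow, zero_div,
      mul_zero, zero_mul, add_zero]
    linarith
  · obtain ⟨t, ht, hp, hl⟩ := slab_r3 hb h1 hlam h hS he he1
    exact ⟨t, ht, hp, by linarith⟩

end Crest.Agent.R239.Rem864
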