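import Mathlib
import Crest.Agent.R239.Gau1
import Crest.Agent.R239.Gau4
import Crest.Agent.R239.Rem_864

/-! R239 leaf REM (helper864), Gaussian part: the slab `{|⟪w,g⟫| ≤ t}` of a standard Gaussian. -/

set_option autoImplicit false

open MeasureTheory ProbabilityTheory Set Real
open scoped RealInnerProductSpace ENNReal NNReal InnerProduct

namespace Crest.Agent.R239.Rem864

variable {E : Type*} [NormedAddCommGroup E] [InnerProductSpace ℝ E] [FiniteDimensional ℝ E]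
  [MeasurableSpace E] [BorelSpace E]
variable {F : Type*} [NormedAddCommGroup F] [InnerProductSpace ℝ F] [FiniteDimensional ℝ F]
  [MeasurableSpace F] [BorelSpace F]

theorem gaussV_subG (v : ℝ≥0) {b : ℝ} (hb : 0 < b) (hv : (v : ℝ) ≤ b) :
    HasSubgaussianMGF (fun x : ℝ => x) b.toNNReal (gaussianReal 0 v) := by
  constructor
  · intro t
    exact integrable_exp_mul_gaussianReal t
  · intro t
    have h : mgf (fun x : ℝ => x) (gaussianReal 0 v) t = rexp (0 * t + v * t ^ 2 / 2) := by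
      have := congrFun (mgf_id_gaussianReal (μ := 0) (v := v)) t
      exact this
    rw [h]
    apply exp_le_exp.2
    rw [Real.coe_toNNReal _ hb.le]
    nlinarith [sq_nonneg t]

theorem gaussV_tail (v : ℝ≥0) {b : ℝ} (hb : 0 < b) (hv : (v : ℝ) ≤ b) {t : ℝ} (ht : 0 ≤ t) :
    1 - (gaussianReal 0 v).real {x | |x| ≤ t} ≤ 2 * exp (-(t ^ 2 / (2 * b))) := by
  have hm : MeasurableSet {x : ℝ | |x| ≤ t} := measurableSet_le (by fun_prop) (by fun_prop)
  have h0 := gaussV_subG v hb hv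
  have h1 := h0.measure_ge_le ht
  have h2 := h0.neg.measure_ge_le ht
  rw [Real.coe_toNNReal _ hb.le] at h1 h2
  have h3 : (gaussianReal 0 v).real {x | |x| ≤ t}ᶜ = 1 - (gaussianReal 0 v).real {x | |x| ≤ t} := by
    rw [measureReal_compl hm]; simp
  have h4 : {x : ℝ | |x| ≤ t}ᶜ ⊆ {x : ℝ | t ≤ x} ∪ {x : ℝ | t ≤ (-fun x : ℝ => x) x} := by
    intro x hx
    simp only [mem_compl_iff, mem_ofPred_eq, not_le] at hx
    simp only [mem_union, mem_ofPred_eq, Pi.neg_apply]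
    rcases lt_abs.1 hx with h | h
    · exact Or.inl h.le
    · exact Or.inr h.le
  have h5 := measureReal_mono (μ := gaussianReal 0 v) h4
  have h6 := measureReal_union_le (μ := gaussianReal 0 v) {x : ℝ | t ≤ x}
    {x : ℝ | t ≤ (-fun x : ℝ => x) x}
  rw [← h3]
  have h7 : -t ^ 2 / (2 * b) = -(t ^ 2 / (2 * b)) := by ring
  rw [h7] at h1 h2
  linarith

theorem pdf_lower {x : ℝ} (hx : |x| ≤ 1) : exp (-1) / 2 ≤ gaussianPDFReal 0 1 x := by
  rw [gaussianPDFReal]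
  have h1 : √(2 * π * ((1 : ℝ≥0) : ℝ)) ≤ 2 * exp (1 / 2) := by
    apply Real.sqrt_le_iff.2
    refine ⟨by positivity, ?_⟩
    rw [mul_pow, ← Real.exp_nat_mul]
    have h2 : exp (((2 : ℕ) : ℝ) * (1 / 2)) = exp 1 := by norm_num
    rw [h2]
    have := Real.exp_one_gt_d9
    have := Real.pi_lt_d2
    push_cast
    nlinarith
  have hpos : 0 < √(2 * π * ((1 : ℝ≥0) : ℝ)) := by
    apply Real.sqrt_pos.2
    have := Real.pi_pos
    push_cast
    linarith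
  have h3 : (2 * exp (1 / 2))⁻¹ ≤ (√(2 * π * ((1 : ℝ≥0) : ℝ)))⁻¹ :=
    inv_anti₀ hpos h1
  have h4 : exp (-(1 / 2)) ≤ exp (-(x - 0) ^ 2 / (2 * ((1 : ℝ≥0) : ℝ))) := by
    apply exp_le_exp.2
    push_cast
    have : x ^ 2 ≤ 1 := by
      rw [← sq_abs]
      nlinarith [abs_nonneg x]
    linarith
  calc exp (-1) / 2 = (2 * exp (1 / 2))⁻¹ * exp (-(1 / 2)) := by
        rw [mul_inv, ← Real.exp_neg, mul_assoc, ← Real.exp_add]
        norm_num
        ring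
    _ ≤ (√(2 * π * ((1 : ℝ≥0) : ℝ)))⁻¹ * exp (-(x - 0) ^ 2 / (2 * ((1 : ℝ≥0) : ℝ))) :=
        mul_le_mul h3 h4 (exp_pos _).le (by positivity)

/-- one dimension: `exp (-1) t ≤ γ₁ [-t,t]` for `0 ≤ t ≤ 1`. -/
theorem gauss1_lower {t : ℝ} (ht0 : 0 ≤ t) (ht1 : t ≤ 1) :
    exp (-1) * t ≤ (gaussianReal 0 1).real {x | |x| ≤ t} := by
  have hset : {x : ℝ | |x| ≤ t} = Icc (-t) t := by
    ext x; simp [abs_le]
  rw [hset, measureReal_def, gaussianReal_apply_eq_integral 0 (by norm_num : (1 : ℝ≥0) ≠ 0),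
    ENNReal.toReal_ofReal (integral_nonneg fun x => gaussianPDFReal_nonneg _ _ _)]
  have h1 : ∫ x in Icc (-t) t, exp (-1) / 2 ≤ ∫ x in Icc (-t) t, gaussianPDFReal 0 1 x := by
    apply setIntegral_mono_on
    · exact (integrableOn_const (by simp) (by simp))
    · exact (integrable_gaussianPDFReal 0 1).integrableOn
    · exact measurableSet_Icc
    · intro x hx
      apply pdf_lower
      rw [abs_le]
      constructor <;> linarith [hx.1, hx.2]
  have h2 : ∫ x in Icc (-t) t, exp (-1) / 2 = exp (-1) * t := by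
    rw [setIntegral_const, measureReal_def, Real.volume_Icc, ENNReal.toReal_ofReal (by linarith)]
    simp only [smul_eq_mul]
    ring
  linarith

theorem gaussV_lower (v : ℝ≥0) (hv : (v : ℝ) ≤ 1) {t : ℝ} (ht0 : 0 ≤ t) (ht1 : t ≤ 1) :
    exp (-1) * t ≤ (gaussianReal 0 v).real {x | |x| ≤ t} := by
  have h2 : gaussianReal 0 v = (gaussianReal 0 1).map (fun x => √(v : ℝ) * x) := by
    rw [gaussianReal_map_const_mul]
    congr 1
    · simp
    · ext
      simp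
  have hm : MeasurableSet {x : ℝ | |x| ≤ t} := measurableSet_le (by fun_prop) (by fun_prop)
  rw [h2, measureReal_def, Measure.map_apply (by fun_prop) hm, ← measureReal_def]
  refine (gauss1_lower ht0 ht1).trans (measureReal_mono ?_)
  intro x hx
  simp only [mem_ofPred_eq, mem_preimage] at hx ⊢
  rw [abs_mul, abs_of_nonneg (Real.sqrt_nonneg _)]
  have : √(v : ℝ) ≤ 1 := by
    rw [Real.sqrt_le_one]
    exact hv
  calc √(v : ℝ) * |x| ≤ 1 * |x| := mul_le_mul_of_nonneg_right this (abs_nonneg _)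
    _ ≤ t := by linarith

/-- law of a linear functional -/
theorem gau_slab (A : F →L[ℝ] E) (n : E) (t : ℝ) :
    (gau A).real {x | |⟪n, x⟫| ≤ t} = (gaussianReal 0 (‖A.adjoint n‖₊ ^ 2)).real {x | |x| ≤ t} := by
  have hm : MeasurableSet {x : ℝ | |x| ≤ t} := measurableSet_le (by fun_prop) (by fun_prop)
  rw [← gau_map_inner, measureReal_def, measureReal_def, Measure.map_apply (by fun_prop) hm]
  rfl

theorem std_slab (w : E) (t : ℝ) :
    (stdGaussian E).real {x | |⟪w, x⟫| ≤ t} = (gaussianReal 0 (‖w‖₊ ^ 2)).real {x | |x| ≤ t} := by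
  have h := gau_slab (ContinuousLinearMap.id ℝ E) w t
  rw [gau_id, adjoint_id'] at h
  exact h

theorem gau_h1 (A : F →L[ℝ] E) (n : E) {b : ℝ} (hb : 0 < b) (hv : ‖A.adjoint n‖ ^ 2 ≤ b) :
    ∀ t, 0 ≤ t → 1 - (gau A).real {x | |⟪n, x⟫| ≤ t} ≤ 2 * exp (-(t ^ 2 / (2 * b))) := by
  intro t ht
  rw [gau_slab]
  exact gaussV_tail _ hb (by push_cast; exact hv) ht

theorem gau_h2 (A : F →L[ℝ] E) (n : E) (hv : ‖A.adjoint n‖ ^ 2 ≤ 1) :
    ∀ t, 0 ≤ t → t ≤ 1 → exp (-1) * t ≤ (gau A).real {x | |⟪n, x⟫| ≤ t} := by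
  intro t ht ht1
  rw [gau_slab]
  exact gaussV_lower _ (by push_cast; exact hv) ht ht1

/-- (r1) `S ≤ lam`. -/
theorem gau_r1 (A : F →L[ℝ] E) (n : E) (hv : ‖A.adjoint n‖ ^ 2 ≤ 1) {S lam : ℝ}
    (hlam : 0 < lam) (hS : S ≤ lam) :
    ∃ t, 0 < t ∧ 0 < (gau A).real {x | |⟪n, x⟫| ≤ t} ∧
      S * t - lam * log ((gau A).real {x | |⟪n, x⟫| ≤ t}) ≤ 3 * lam :=
  slab_r1 (p := fun t => (gau A).real {x | |⟪n, x⟫| ≤ t}) one_pos le_rfl
    (gau_h1 A n one_pos hv) hlam hS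

/-- (r2) `lam ≤ S`. -/
theorem gau_r2 (A : F →L[ℝ] E) (n : E) (hv : ‖A.adjoint n‖ ^ 2 ≤ 1) {S lam : ℝ}
    (hlam : 0 < lam) (hS : lam ≤ S) :
    ∃ t, 0 < t ∧ 0 < (gau A).real {x | |⟪n, x⟫| ≤ t} ∧
      S * t - lam * log ((gau A).real {x | |⟪n, x⟫| ≤ t}) ≤ lam * (2 + log (S / lam)) :=
  slab_r2 (p := fun t => (gau A).real {x | |⟪n, x⟫| ≤ t}) (gau_h2 A n hv) hlam hS

/-- (r3) `0 ≤ S ≤ lam`, with slack. -/
theorem gau_r3 (A : F →L[ℝ] E) (n : E) {S lam e ε : ℝ}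
    (hlam : 0 < lam) (hS0 : 0 ≤ S) (hS : S ≤ lam) (he : 0 < e) (he1 : e ≤ 1) (hε : 0 < ε) :
    ∃ t, 0 < t ∧ 0 < (gau A).real {x | |⟪n, x⟫| ≤ t} ∧
      S * t - lam * log ((gau A).real {x | |⟪n, x⟫| ≤ t}) ≤
        e * lam * ‖A.adjoint n‖ ^ 2 + 2 / e * (S ^ 2 / lam) * log (2 * lam / S) + ε := by
  obtain ⟨t, h1, h2, h3⟩ := slab_r3' (p := fun t => (gau A).real {x | |⟪n, x⟫| ≤ t})
    (b := ‖A.adjoint n‖ ^ 2 + ε / (2 * lam)) (by positivity)
    (gau_h1 A n (by positivity) (by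
      have : 0 < ε / (2 * lam) := by positivity
      linarith)) hlam hS0 hS he he1 (ε := ε / 2) (by positivity)
  refine ⟨t, h1, h2, h3.trans ?_⟩
  have h4 : e * lam * (ε / (2 * lam)) ≤ ε / 2 := by
    have : e * lam * (ε / (2 * lam)) = e * (ε / 2) := by field_simp
    rw [this]
    nlinarith
  nlinarith

/-- (r3) `0 < S ≤ lam`, without slack, `‖A† n‖² ≤ b`. -/
theorem gau_r3b (A : F →L[ℝ] E) (n : E) {b : ℝ} (hb : 0 < b) (hv : ‖A.adjoint n‖ ^ 2 ≤ b)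
    {S lam e : ℝ} (hlam : 0 < lam) (hS0 : 0 < S) (hS : S ≤ lam) (he : 0 < e) (he1 : e ≤ 1) :
    ∃ t, 0 < t ∧ 0 < (gau A).real {x | |⟪n, x⟫| ≤ t} ∧
      S * t - lam * log ((gau A).real {x | |⟪n, x⟫| ≤ t}) ≤
        e * lam * b + 2 / e * (S ^ 2 / lam) * log (2 * lam / S) :=
  slab_r3 (p := fun t => (gau A).real {x | |⟪n, x⟫| ≤ t}) hb (gau_h1 A n hb hv) hlam hS0 hS he he1

end Crest.Agent.R239.Rem864
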