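import Mathlib
import Crest.Agent.R239.FDef
import Crest.Agent.R239.RemG_864

/-! R239 leaf REM (helper864): the slab remainders of `Target_LEV`. -/

set_option autoImplicit false

open MeasureTheory ProbabilityTheory Set Real
open scoped RealInnerProductSpace ENNReal NNReal InnerProduct

namespace Crest.Agent.R239.Rem864

open Crest.Agent.R239.FD

variable {E : Type*} [NormedAddCommGroup E] [InnerProductSpace ℝ E] [FiniteDimensional ℝ E]
  [MeasurableSpace E] [BorelSpace E]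
variable {F : Type*} [NormedAddCommGroup F] [InnerProductSpace ℝ F] [FiniteDimensional ℝ F]
  [MeasurableSpace F] [BorelSpace F]

theorem lam_pos {p : Par} (hp : p.Ok) (i : ℕ) : 0 < p.lam i := by
  have h1 := hp.tau_pos
  have h2 : 0 < p.A := by linarith [hp.A_ge]
  unfold Par.lam
  positivity

theorem lam_add (p : Par) (i m : ℕ) : p.lam (i + m) = p.lam i * p.A ^ m := by
  unfold Par.lam
  rw [pow_add]; ring

/-- `log y ≤ 2 √y`. -/
theorem log_le_two_sqrt {y : ℝ} (hy : 0 < y) : log y ≤ 2 * √y := by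
  have h1 : log y = 2 * log (√y) := by
    rw [Real.log_sqrt hy.le]; ring
  have h2 : log (√y) ≤ √y - 1 := log_le_sub_one_of_pos (Real.sqrt_pos.2 hy)
  linarith

/-- `x² log (2/x) ≤ 3 x √x` for `0 < x`. -/
theorem sq_log_le {x : ℝ} (hx : 0 < x) : x ^ 2 * log (2 / x) ≤ 3 * (x * √x) := by
  have h1 := log_le_two_sqrt (y := 2 / x) (by positivity)
  have hsx : 0 < √x := Real.sqrt_pos.2 hx
  have h2 : √(2 / x) = √2 / √x := Real.sqrt_div (by norm_num) x
  have h3 : √2 ≤ 3 / 2 := by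
    rw [Real.sqrt_le_left (by norm_num)]
    norm_num
  have h4 : 2 * √(2 / x) ≤ 3 / √x := by
    rw [h2, ← mul_div_assoc]
    apply div_le_div_of_nonneg_right _ hsx.le
    linarith
  have h5 : x ^ 2 * log (2 / x) ≤ x ^ 2 * (3 / √x) :=
    mul_le_mul_of_nonneg_left (h1.trans h4) (by positivity)
  have h6 : x ^ 2 * (3 / √x) = 3 * (x * √x) := by
    have hxx : √x * √x = x := Real.mul_self_sqrt hx.le
    rw [mul_div_assoc', div_eq_iff hsx.ne']
    calc x ^ 2 * 3 = 3 * (x * x) := by ring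
      _ = 3 * (x * (√x * √x)) := by rw [hxx]
      _ = 3 * (x * √x) * √x := by ring
  linarith

theorem inv_pow_le_quarter {A : ℝ} (hA : 16 ≤ A) (m : ℕ) : √((A ^ m)⁻¹) ≤ (1 / 2) ^ m := by
  have hA0 : 0 < A := by linarith
  rw [Real.sqrt_le_left (by positivity), ← pow_mul, ← inv_pow]
  calc A⁻¹ ^ m ≤ (1 / 4 : ℝ) ^ m := by
        apply pow_le_pow_left₀ (by positivity)
        rw [inv_le_comm₀ hA0 (by norm_num)]
        linarith
    _ = (1 / 2) ^ (m * 2) := by
        rw [mul_comm, pow_mul]; norm_num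

/-- slab remainder above `I`. -/
theorem rem_hi {p : Par} (hp : p.Ok) {I i : ℕ} (hI : I < i) {Sv s e : ℝ} (hS0 : 0 ≤ Sv)
    (hS : Sv ≤ p.lam I) (hs0 : 0 ≤ s) (hs1 : s ≤ 1) (he : 0 < e) (he1 : e ≤ 1)
    (A : F →L[ℝ] E) (n : E) :
    ∃ t, 0 < t ∧ 0 < (gau A).real {x | |⟪n, x⟫| ≤ t} ∧
      s * t * Sv - p.lam i * log ((gau A).real {x | |⟪n, x⟫| ≤ t}) ≤
        e * p.lam i * ‖A.adjoint n‖ ^ 2 + 7 / e * p.lam I * (1 / 2) ^ (i - I) := by
  obtain ⟨m, rfl⟩ : ∃ m, i = I + m := ⟨i - I, by omega⟩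
  have hm : I + m - I = m := by omega
  rw [hm]
  have hlI := lam_pos hp I
  have hli := lam_pos hp (I + m)
  have hA := hp.A_ge
  have hA0 : 0 < p.A := by linarith
  have hAm : 1 ≤ p.A ^ m := one_le_pow₀ (by linarith)
  have hla : p.lam (I + m) = p.lam I * p.A ^ m := lam_add p I m
  have hle : p.lam I ≤ p.lam (I + m) := by
    rw [hla]; nlinarith
  have hsS0 : 0 ≤ s * Sv := mul_nonneg hs0 hS0
  have hsS : s * Sv ≤ p.lam I := by nlinarith
  have hhalf : (0 : ℝ) < (1 / 2) ^ m := by positivity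
  obtain ⟨t, h1, h2, h3⟩ := gau_r3 A n (S := s * Sv) (lam := p.lam (I + m)) (e := e)
    (ε := p.lam I * (1 / 2) ^ m) hli hsS0 (hsS.trans hle) he he1 (by positivity)
  refine ⟨t, h1, h2, ?_⟩
  have h4 : s * t * Sv = s * Sv * t := by ring
  rw [h4]
  refine h3.trans ?_
  -- the main term
  have key : (s * Sv) ^ 2 / p.lam (I + m) * log (2 * p.lam (I + m) / (s * Sv)) ≤
      3 * (p.lam I * (1 / 2) ^ m) := by
    rcases hsS0.eq_or_lt with h | h
    · rw [← h]; simp; positivity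
    · set x : ℝ := s * Sv / p.lam (I + m) with hx
      have hx0 : 0 < x := div_pos h hli
      have e1 : (s * Sv) ^ 2 / p.lam (I + m) = p.lam (I + m) * x ^ 2 := by
        rw [hx]; field_simp
      have e2 : 2 * p.lam (I + m) / (s * Sv) = 2 / x := by
        rw [hx]; field_simp
      rw [e1, e2, mul_assoc]
      have h5 := sq_log_le hx0
      have h6 : x ≤ (p.A ^ m)⁻¹ := by
        rw [hx, hla, div_le_iff₀ (by positivity)]
        have : (p.A ^ m)⁻¹ * (p.lam I * p.A ^ m) = p.lam I := by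
          field_simp
        rw [this]; exact hsS
      have h7 : √x ≤ (1 / 2) ^ m := (Real.sqrt_le_sqrt h6).trans (inv_pow_le_quarter hA m)
      have h8 : p.lam (I + m) * x ≤ p.lam I := by
        have : p.lam (I + m) * x = s * Sv := by rw [hx]; field_simp
        rw [this]; exact hsS
      calc p.lam (I + m) * (x ^ 2 * log (2 / x)) ≤ p.lam (I + m) * (3 * (x * √x)) :=
            mul_le_mul_of_nonneg_left h5 hli.le
        _ = 3 * ((p.lam (I + m) * x) * √x) := by ring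
        _ ≤ 3 * (p.lam I * (1 / 2) ^ m) := by
            apply mul_le_mul_of_nonneg_left _ (by norm_num)
            exact mul_le_mul h8 h7 (Real.sqrt_nonneg _) hlI.le
  have h9 : 2 / e * ((s * Sv) ^ 2 / p.lam (I + m)) * log (2 * p.lam (I + m) / (s * Sv)) ≤
      6 / e * (p.lam I * (1 / 2) ^ m) := by
    calc 2 / e * ((s * Sv) ^ 2 / p.lam (I + m)) * log (2 * p.lam (I + m) / (s * Sv))
        = 2 / e * ((s * Sv) ^ 2 / p.lam (I + m) * log (2 * p.lam (I + m) / (s * Sv))) := by ring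
      _ ≤ 2 / e * (3 * (p.lam I * (1 / 2) ^ m)) := mul_le_mul_of_nonneg_left key (by positivity)
      _ = 6 / e * (p.lam I * (1 / 2) ^ m) := by ring
  have h10 : p.lam I * (1 / 2) ^ m ≤ 1 / e * (p.lam I * (1 / 2) ^ m) := by
    have : 1 ≤ 1 / e := by rw [le_div_iff₀ he]; linarith
    have hpos : 0 < p.lam I * (1 / 2) ^ m := by positivity
    nlinarith
  have h11 : 7 / e * p.lam I * (1 / 2) ^ m = 6 / e * (p.lam I * (1 / 2) ^ m) +
      1 / e * (p.lam I * (1 / 2) ^ m) := by ring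
  linarith

/-- `m log A / A^m ≤ 2 (1/2)^m`. -/
theorem mul_log_div_le {A : ℝ} (hA : 16 ≤ A) (m : ℕ) :
    log (A ^ m) ≤ 2 * (1 / 2) ^ m * A ^ m := by
  have hA0 : 0 < A := by linarith
  have hAm : 0 < A ^ m := by positivity
  have h1 := log_le_two_sqrt hAm
  have h2 := inv_pow_le_quarter hA m
  have h3 : √(A ^ m) = √((A ^ m)⁻¹) * A ^ m := by
    rw [Real.sqrt_inv]
    have hs : 0 < √(A ^ m) := Real.sqrt_pos.2 hAm
    have : A ^ m = √(A ^ m) * √(A ^ m) := (Real.mul_self_sqrt hAm.le).symm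
    field_simp
    rw [Real.sq_sqrt hAm.le]
  rw [h3] at h1
  have h4 : √((A ^ m)⁻¹) * A ^ m ≤ (1 / 2) ^ m * A ^ m := mul_le_mul_of_nonneg_right h2 hAm.le
  linarith

/-- slab remainder at the levels `≤ I`. -/
theorem rem_lo {p : Par} (hp : p.Ok) {I i : ℕ} (hI : i ≤ I) {Sv s : ℝ} (hS0 : 0 ≤ Sv)
    (hS : Sv ≤ p.lam I) (hs0 : 0 ≤ s) (hs1 : s ≤ 1)
    (A : F →L[ℝ] E) (n : E) (hn : ‖A.adjoint n‖ ^ 2 ≤ 4) :
    ∃ t, 0 < t ∧ 0 < (gau A).real {x | |⟪n, x⟫| ≤ t} ∧
      s * t * Sv - p.lam i * log ((gau A).real {x | |⟪n, x⟫| ≤ t}) ≤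
        8 * p.lam I * (1 / 2) ^ (I - i) := by
  obtain ⟨m, rfl⟩ : ∃ m, I = i + m := ⟨I - i, by omega⟩
  have hm : i + m - i = m := by omega
  rw [hm]
  have hli := lam_pos hp i
  have hA := hp.A_ge
  have hA0 : 0 < p.A := by linarith
  have hAm : 1 ≤ p.A ^ m := one_le_pow₀ (by linarith)
  have hla : p.lam (i + m) = p.lam i * p.A ^ m := lam_add p i m
  rw [hla] at hS ⊢
  have hhalf : (0 : ℝ) < (1 / 2) ^ m := by positivity
  -- `1 ≤ (1/2)^m A^m`
  have hone : 1 ≤ (1 / 2) ^ m * p.A ^ m := by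
    rw [← mul_pow]
    exact one_le_pow₀ (by linarith)
  -- scaled functional
  have hn' : ‖A.adjoint ((1 / 2 : ℝ) • n)‖ ^ 2 ≤ 1 := by
    rw [map_smul, norm_smul, mul_pow]
    norm_num
    linarith
  have hset : ∀ t : ℝ, {x : E | |⟪(1 / 2 : ℝ) • n, x⟫| ≤ t} = {x : E | |⟪n, x⟫| ≤ 2 * t} := by
    intro t
    ext x
    simp only [mem_ofPred_eq, real_inner_smul_left, abs_mul]
    rw [abs_of_pos (by norm_num : (0 : ℝ) < 1 / 2)]
    constructor <;> intro h <;> linarith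
  have hsS0 : 0 ≤ 2 * (s * Sv) := by positivity
  have hsS : 2 * (s * Sv) ≤ 2 * (p.lam i * p.A ^ m) := by nlinarith
  rcases le_total (2 * (s * Sv)) (p.lam i) with h | h
  · obtain ⟨t, h1, h2, h3⟩ := gau_r1 A ((1 / 2 : ℝ) • n) hn' hli h
    rw [hset] at h2 h3
    refine ⟨2 * t, by linarith, h2, ?_⟩
    have h4 : s * (2 * t) * Sv = 2 * (s * Sv) * t := by ring
    rw [h4]
    refine h3.trans ?_
    nlinarith
  · obtain ⟨t, h1, h2, h3⟩ := gau_r2 A ((1 / 2 : ℝ) • n) hn' hli h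
    rw [hset] at h2 h3
    refine ⟨2 * t, by linarith, h2, ?_⟩
    have h4 : s * (2 * t) * Sv = 2 * (s * Sv) * t := by ring
    rw [h4]
    refine h3.trans ?_
    have hpos : 0 < 2 * (s * Sv) := lt_of_lt_of_le hli h
    have h5 : 2 * (s * Sv) / p.lam i ≤ 2 * p.A ^ m := by
      rw [div_le_iff₀ hli]
      calc 2 * (s * Sv) ≤ 2 * (p.lam i * p.A ^ m) := hsS
        _ = 2 * p.A ^ m * p.lam i := by ring
    have h6 : log (2 * (s * Sv) / p.lam i) ≤ log (2 * p.A ^ m) :=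
      log_le_log (by positivity) h5
    rw [log_mul (by norm_num) (by positivity)] at h6
    have h7 := mul_log_div_le hA m
    have h8 : log 2 ≤ 1 := by
      have := Real.log_two_lt_d9
      linarith
    have h9 : 2 + log (2 * (s * Sv) / p.lam i) ≤ 5 * ((1 / 2) ^ m * p.A ^ m) := by
      nlinarith
    calc p.lam i * (2 + log (2 * (s * Sv) / p.lam i)) ≤ p.lam i * (5 * ((1 / 2) ^ m * p.A ^ m)) :=
          mul_le_mul_of_nonneg_left h9 hli.le
      _ ≤ 8 * (p.lam i * p.A ^ m) * (1 / 2) ^ m := by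
          have : 0 ≤ p.lam i * ((1 / 2) ^ m * p.A ^ m) := by positivity
          nlinarith

end Crest.Agent.R239.Rem864
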