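import Crest.Agent.R239.CutA_167
import Crest.Agent.R239.RemLev_864
import Crest.Agent.R239.Gr2_655
import Crest.Agent.R239.InsCut_488
import Crest.Agent.R239.DomP_640

/-! R239 / S0370, one-step line (docs 2444, 2447), level `i > I`, last part (helper167): the body
`K = {x ∈ V.M i | T x ∈ K', |⟪v,x⟫| ≤ t, N_i(x) ≤ rho² rr_i}` (slab and cap cut on the `V` side) is
admissible and the loss is `λ_i (sm b_i + (64/rho²)(2 b_i + BB_i)) + sm 2^{-(i-I)} λ_I`. -/

set_option autoImplicit false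
set_option linter.unusedSectionVars false
open MeasureTheory ProbabilityTheory Set Submodule
open scoped RealInnerProductSpace InnerProduct

namespace Crest.Agent.R239.Cut167

open Crest.Agent.R239 (gau gau_real_apply)
open Crest.Agent.R239.FD

variable {E : Type*} [NormedAddCommGroup E] [InnerProductSpace ℝ E] [FiniteDimensional ℝ E]
  [MeasurableSpace E] [BorelSpace E]

/-! ### the cap in `g`-space -/

/-- square root of the cap form in `g`-space -/
noncomputable def Bs (V : Flag E) (i : ℕ) : E →L[ℝ] E := Ins556.Hc V.M (Real.sqrt th) V.n i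

lemma Bs_sq (V : Flag E) (i : ℕ) (g : E) : ‖Bs V i g‖ ^ 2 = V.N i (V.H i g) :=
  (Ins488.ell_Hc V.anti th_pos V.n i g).symm

lemma integral_Bs (V : Flag E) (i : ℕ) : ∫ g, ‖Bs V i g‖ ^ 2 ∂(stdGaussian E) = V.rr i := by
  rw [Bs, Ins488.integral_norm_sq_Hc V.anti, Real.sq_sqrt th_pos.le]
  unfold Flag.rr
  refine Finset.sum_congr rfl fun j _ => ?_
  unfold Flag.k
  rw [Nat.cast_sub (Submodule.finrank_mono (V.anti (Nat.le_succ j)))]

lemma rr_nonneg (V : Flag E) (i : ℕ) : 0 ≤ V.rr i :=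
  Finset.sum_nonneg fun _ _ => mul_nonneg (pow_pos th_pos _).le (Nat.cast_nonneg _)

lemma rr_zero_N {V : Flag E} {i : ℕ} (h : V.rr i = 0) (x : E) : V.N i x = 0 := by
  unfold Flag.N
  refine Finset.sum_eq_zero fun j hj => ?_
  have h1 : th ^ (j - i) * (V.k j : ℝ) = 0 := by
    refine (Finset.sum_eq_zero_iff_of_nonneg (fun j _ => ?_)).mp h j hj
    exact mul_nonneg (pow_pos th_pos _).le (Nat.cast_nonneg _)
  have h2 : (V.k j : ℝ) = 0 := by
    rcases mul_eq_zero.mp h1 with h | h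
    · exact absurd h (pow_pos th_pos _).ne'
    · exact h
  have h8 : V.Q j x = 0 := by
    refine Ins488.Qp_eq_zero_of_finrank V.anti (j := j) ?_ x
    rw [← h2]
    unfold Flag.k
    rw [Nat.cast_sub (Submodule.finrank_mono (V.anti (Nat.le_succ j)))]
  rw [h8]; simp

/-- **cap cut**, `V` side -/
theorem cap_cut {V : Flag E} {i : ℕ} {rho h : ℝ} (hrho : 16 ≤ rho) (h0 : 0 ≤ h) {Qh : Set E}
    (hQc : IsClosed Qh) (hQv : Convex ℝ Qh) (hQs : ∀ g ∈ Qh, -g ∈ Qh)
    (hcap : ∀ g ∈ Qh, (1 - h) * V.N i (V.H i g) ≤ rho ^ 2 * V.rr i) :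
    ∃ κ : ℝ, 0 ≤ κ ∧ κ ≤ 1 / 32 ∧ κ ≤ 16 * h / rho ^ 2 ∧
      (1 - κ) * (stdGaussian E).real Qh
        ≤ (stdGaussian E).real (Qh ∩ {g | V.N i (V.H i g) ≤ rho ^ 2 * V.rr i}) := by
  have hrho0 : 0 < rho := by linarith
  have hrho2 : 256 ≤ rho ^ 2 := by nlinarith
  have hrr := rr_nonneg V i
  rcases hrr.eq_or_lt with hz | hpos
  · refine ⟨0, le_rfl, by norm_num, by positivity, ?_⟩
    have : Qh ∩ {g | V.N i (V.H i g) ≤ rho ^ 2 * V.rr i} = Qh := by
      apply inter_eq_left.2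
      intro g _
      show V.N i (V.H i g) ≤ rho ^ 2 * V.rr i
      rw [rr_zero_N hz.symm]
      positivity
    rw [this, sub_zero, one_mul]
  set R := rho * Real.sqrt (V.rr i) with hR
  have hsq : 0 < Real.sqrt (V.rr i) := Real.sqrt_pos.2 hpos
  have hR0 : 0 < R := by positivity
  have hR2 : R ^ 2 = rho ^ 2 * V.rr i := by rw [hR, mul_pow, Real.sq_sqrt hrr]
  have hset : {g | V.N i (V.H i g) ≤ rho ^ 2 * V.rr i} = {g | ‖Bs V i g‖ ≤ R} := by
    ext g
    simp only [mem_ofPred_eq]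
    rw [← Bs_sq, ← hR2]
    exact pow_le_pow_iff_left₀ (norm_nonneg _) hR0.le two_ne_zero
  rw [hset]
  rcases le_or_gt h (1 / 2) with hh | hh
  · -- log-concavity
    refine ⟨16 * h / rho ^ 2, by positivity, ?_, le_rfl, ?_⟩
    · rw [div_le_iff₀ (by positivity)]
      nlinarith
    have hN : ConvexOn ℝ univ (fun g => ‖Bs V i g‖) := by
      refine ⟨convex_univ, fun x _ y _ a b ha hb _ => ?_⟩
      simp only [map_add, map_smul]
      refine (norm_add_le _ _).trans ?_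
      rw [norm_smul, norm_smul, Real.norm_of_nonneg ha, Real.norm_of_nonneg hb]
      simp
    have hNc : Continuous (fun g => ‖Bs V i g‖) := (Bs V i).continuous.norm
    have hNW : ∀ g ∈ Qh, ‖Bs V i g‖ ≤ R + R * h := by
      intro g hg
      have h1 := hcap g hg
      rw [← Bs_sq, ← hR2] at h1
      have h2 : ‖Bs V i g‖ ^ 2 ≤ (R + R * h) ^ 2 := by
        have h3 : 0 ≤ ‖Bs V i g‖ ^ 2 := by positivity
        have h4 : (0 : ℝ) < 1 - h := by linarith
        have h5 : ‖Bs V i g‖ ^ 2 ≤ R ^ 2 / (1 - h) := by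
          rw [le_div_iff₀ h4]; linarith
        refine h5.trans ?_
        rw [div_le_iff₀ h4]
        have e1 : (R + R * h) ^ 2 * (1 - h) - R ^ 2 = R ^ 2 * (h * (1 - h - h ^ 2)) := by ring
        have h6 : 0 ≤ h * (1 - h - h ^ 2) := mul_nonneg h0 (by nlinarith)
        have h7 : 0 ≤ R ^ 2 * (h * (1 - h - h ^ 2)) := mul_nonneg (sq_nonneg R) h6
        linarith
      exact (pow_le_pow_iff_left₀ (norm_nonneg _) (by positivity) two_ne_zero).1 h2
    have hcut := Dom640.cut hQc.measurableSet hQv hQs (Bs V i) (r := R / 2) (by positivity)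
    rw [integral_Bs] at hcut
    have he : V.rr i / (R / 2) ^ 2 = 4 / rho ^ 2 := by
      rw [div_pow, hR2]
      field_simp
      norm_num
    rw [he] at hcut
    have hm : ∀ r : ℝ, MeasurableSet {g : E | ‖Bs V i g‖ ≤ r} := fun r =>
      (isClosed_le hNc continuous_const).measurableSet
    have hsplit : ∀ r : ℝ, (stdGaussian E).real (Qh ∩ {g | r < ‖Bs V i g‖})
        = (stdGaussian E).real Qh - (stdGaussian E).real (Qh ∩ {g | ‖Bs V i g‖ ≤ r}) := by
      intro r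
      have h1 : Qh ∩ {g | r < ‖Bs V i g‖} = Qh \ (Qh ∩ {g | ‖Bs V i g‖ ≤ r}) := by
        ext x
        simp only [mem_inter_iff, mem_sdiff, mem_ofPred_eq, not_and, not_le]
        constructor
        · rintro ⟨h1, h2⟩; exact ⟨h1, fun _ => h2⟩
        · rintro ⟨h1, h2⟩; exact ⟨h1, h2 h1⟩
      rw [h1]
      exact measureReal_sdiff inter_subset_left (hQc.measurableSet.inter (hm r))
    have hct := Gr655.cap_tail hQv hQc hN hNc (R := R) (δ := R * h) (e := 4 / rho ^ 2) hR0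
      (by positivity) hNW (by positivity) (by
        rw [div_le_iff₀ (by positivity)]; linarith) (by
        rw [hsplit]; linarith)
    rw [hsplit] at hct
    have e2 : 4 * (R * h) * (4 / rho ^ 2) / R = 16 * h / rho ^ 2 := by
      field_simp
      ring
    rw [e2] at hct
    linarith
  · -- Markov
    refine ⟨1 / rho ^ 2, by positivity, ?_, ?_, ?_⟩
    · rw [div_le_div_iff₀ (by positivity) (by norm_num)]; linarith
    · rw [div_le_div_iff_of_pos_right (by positivity)]; linarith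
    have hcut := Dom640.cut hQc.measurableSet hQv hQs (Bs V i) (r := R) hR0
    rw [integral_Bs, hR2] at hcut
    have he : V.rr i / (rho ^ 2 * V.rr i) = 1 / rho ^ 2 := by
      field_simp
    rw [he] at hcut
    exact hcut

lemma log_one_sub_ge {κ : ℝ} (h1 : κ ≤ 1 / 2) (h0 : 0 ≤ κ) : -(2 * κ) ≤ Real.log (1 - κ) := by
  have h2 : 0 < 1 - κ := by linarith
  have h3 := Real.one_sub_inv_le_log_of_pos h2
  have h4 : (1 - κ)⁻¹ ≤ 1 + 2 * κ := by
    rw [inv_le_iff_one_le_mul₀ h2]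
    nlinarith
  linarith

/-! ### the slab remainder -/

/-- threshold for `A` -/
noncomputable def A0c (sm S0 : ℝ) : ℝ :=
  max S0 ((2 * (12 * (S0 * Real.sqrt S0) / (min sm 1 * sm))) ^ 2)

theorem rem_cut {p : Par} (hp : p.Ok) {sm S0 : ℝ} (hsm : 0 < sm) (hS0 : 0 < S0)
    (hA0 : A0c sm S0 ≤ p.A) {I i : ℕ} (hI : I < i) {Sv : ℝ} (hSv0 : 0 ≤ Sv)
    (hSv : Sv ≤ S0 * p.lam I) (H : E →L[ℝ] E) (n : E) :
    ∃ t, 0 < t ∧ 0 < (gau H).real {x | |⟪n, x⟫| ≤ t} ∧
      t * Sv - p.lam i * Real.log ((gau H).real {x | |⟪n, x⟫| ≤ t}) ≤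
        p.lam i * (sm * ‖H.adjoint n‖ ^ 2) + sm * (1 / 2) ^ (i - I) * p.lam I := by
  obtain ⟨m, rfl⟩ : ∃ m, i = I + m := ⟨i - I, by omega⟩
  have hm : I + m - I = m := by omega
  have hm1 : 1 ≤ m := by omega
  rw [hm]
  have hlI := Rem864.lam_pos hp I
  have hli := Rem864.lam_pos hp (I + m)
  have hA := hp.A_ge
  have hApos : 0 < p.A := by linarith
  have hla : p.lam (I + m) = p.lam I * p.A ^ m := Rem864.lam_add p I m
  have hAS : S0 ≤ p.A := (le_max_left _ _).trans hA0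
  have hAm : p.A ≤ p.A ^ m := le_self_pow₀ (by linarith) (by omega)
  have hSl : Sv ≤ p.lam (I + m) := by
    rw [hla]
    calc Sv ≤ S0 * p.lam I := hSv
      _ ≤ p.A ^ m * p.lam I := mul_le_mul_of_nonneg_right (hAS.trans hAm) hlI.le
      _ = p.lam I * p.A ^ m := by ring
  set e := min sm 1 with he
  have he0 : 0 < e := lt_min hsm one_pos
  have he1 : e ≤ 1 := min_le_right _ _
  have hesm : e ≤ sm := min_le_left _ _
  have hhalf : (0 : ℝ) < (1 / 2) ^ m := by positivity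
  obtain ⟨t, h1, h2, h3⟩ := Rem864.gau_r3 H n (S := Sv) (lam := p.lam (I + m)) (e := e)
    (ε := sm / 2 * (1 / 2) ^ m * p.lam I) hli hSv0 hSl he0 he1 (by positivity)
  refine ⟨t, h1, h2, ?_⟩
  have h4 : t * Sv = Sv * t := by ring
  rw [h4]
  refine h3.trans ?_
  -- the main term
  have hsA : 0 < Real.sqrt p.A := Real.sqrt_pos.2 hApos
  have hc : 12 * (S0 * Real.sqrt S0) / (e * sm) ≤ Real.sqrt p.A / 2 := by
    have h5 : (2 * (12 * (S0 * Real.sqrt S0) / (e * sm))) ^ 2 ≤ p.A := (le_max_right _ _).trans hA0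
    have h6 := Real.le_sqrt_of_sq_le h5
    linarith
  have hsqrt : Real.sqrt ((p.A ^ m)⁻¹) ≤ (1 / 2) ^ m * (2 * (Real.sqrt p.A)⁻¹) := by
    obtain ⟨k, rfl⟩ : ∃ k, m = k + 1 := ⟨m - 1, by omega⟩
    have h7 := Rem864.inv_pow_le_quarter hA k
    have e1 : (p.A ^ (k + 1))⁻¹ = (p.A ^ k)⁻¹ * (p.A)⁻¹ := by rw [pow_succ, mul_inv]
    rw [e1, Real.sqrt_mul (by positivity), Real.sqrt_inv p.A]
    calc Real.sqrt ((p.A ^ k)⁻¹) * (Real.sqrt p.A)⁻¹ ≤ (1 / 2) ^ k * (Real.sqrt p.A)⁻¹ :=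
          mul_le_mul_of_nonneg_right h7 (by positivity)
      _ = (1 / 2) ^ (k + 1) * (2 * (Real.sqrt p.A)⁻¹) := by rw [pow_succ]; ring
  have key : Sv ^ 2 / p.lam (I + m) * Real.log (2 * p.lam (I + m) / Sv) ≤
      3 * (S0 * Real.sqrt S0) * p.lam I * ((1 / 2) ^ m * (2 * (Real.sqrt p.A)⁻¹)) := by
    rcases hSv0.eq_or_lt with h | h
    · rw [← h]; simp; positivity
    · set x : ℝ := Sv / p.lam (I + m) with hx
      have hx0 : 0 < x := div_pos h hli
      have e1 : Sv ^ 2 / p.lam (I + m) = p.lam (I + m) * x ^ 2 := by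
        rw [hx]; field_simp
      have e2 : 2 * p.lam (I + m) / Sv = 2 / x := by
        rw [hx]; field_simp
      rw [e1, e2, mul_assoc]
      have h5 := Rem864.sq_log_le hx0
      have h6 : x ≤ S0 * (p.A ^ m)⁻¹ := by
        rw [hx, hla, div_le_iff₀ (by positivity)]
        have : S0 * (p.A ^ m)⁻¹ * (p.lam I * p.A ^ m) = S0 * p.lam I := by
          field_simp
        rw [this]; exact hSv
      have h7 : Real.sqrt x ≤ Real.sqrt S0 * ((1 / 2) ^ m * (2 * (Real.sqrt p.A)⁻¹)) := by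
        refine (Real.sqrt_le_sqrt h6).trans ?_
        rw [Real.sqrt_mul hS0.le]
        exact mul_le_mul_of_nonneg_left hsqrt (Real.sqrt_nonneg _)
      have h8 : p.lam (I + m) * x = Sv := by rw [hx]; field_simp
      calc p.lam (I + m) * (x ^ 2 * Real.log (2 / x))
          ≤ p.lam (I + m) * (3 * (x * Real.sqrt x)) := mul_le_mul_of_nonneg_left h5 hli.le
        _ = 3 * ((p.lam (I + m) * x) * Real.sqrt x) := by ring
        _ = 3 * (Sv * Real.sqrt x) := by rw [h8]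
        _ ≤ 3 * ((S0 * p.lam I) * (Real.sqrt S0 * ((1 / 2) ^ m * (2 * (Real.sqrt p.A)⁻¹)))) := by
            apply mul_le_mul_of_nonneg_left _ (by norm_num)
            exact mul_le_mul hSv h7 (Real.sqrt_nonneg _) (by positivity)
        _ = _ := by ring
  have h9 : 2 / e * (Sv ^ 2 / p.lam (I + m)) * Real.log (2 * p.lam (I + m) / Sv) ≤
      sm / 2 * (1 / 2) ^ m * p.lam I := by
    have e3 : 2 / e * (Sv ^ 2 / p.lam (I + m)) * Real.log (2 * p.lam (I + m) / Sv)
        = 2 / e * (Sv ^ 2 / p.lam (I + m) * Real.log (2 * p.lam (I + m) / Sv)) := by ring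
    rw [e3]
    have h10 := mul_le_mul_of_nonneg_left key (show (0 : ℝ) ≤ 2 / e by positivity)
    refine h10.trans ?_
    have e4 : 2 / e * (3 * (S0 * Real.sqrt S0) * p.lam I
          * ((1 / 2) ^ m * (2 * (Real.sqrt p.A)⁻¹)))
        = (12 * (S0 * Real.sqrt S0) / (e * sm)) * ((Real.sqrt p.A)⁻¹)
          * (sm * ((1 / 2) ^ m * p.lam I)) := by
      field_simp
      ring
    rw [e4]
    have h11 : (12 * (S0 * Real.sqrt S0) / (e * sm)) * ((Real.sqrt p.A)⁻¹) ≤ 1 / 2 := by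
      calc (12 * (S0 * Real.sqrt S0) / (e * sm)) * ((Real.sqrt p.A)⁻¹)
          ≤ (Real.sqrt p.A / 2) * ((Real.sqrt p.A)⁻¹) :=
            mul_le_mul_of_nonneg_right hc (by positivity)
        _ = 1 / 2 := by field_simp
    calc (12 * (S0 * Real.sqrt S0) / (e * sm)) * ((Real.sqrt p.A)⁻¹)
          * (sm * ((1 / 2) ^ m * p.lam I)) ≤ 1 / 2 * (sm * ((1 / 2) ^ m * p.lam I)) :=
          mul_le_mul_of_nonneg_right h11 (by positivity)
      _ = sm / 2 * (1 / 2) ^ m * p.lam I := by ring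
  have h12 : e * p.lam (I + m) * ‖H.adjoint n‖ ^ 2
      ≤ p.lam (I + m) * (sm * ‖H.adjoint n‖ ^ 2) := by
    have : 0 ≤ p.lam (I + m) * ‖H.adjoint n‖ ^ 2 := by positivity
    nlinarith
  linarith

/-! ### the level inequality -/

lemma adjoint_H (V : Flag E) (i : ℕ) : (V.H i).adjoint = V.H i := by
  have h : ∀ x y : E, ⟪V.H i x, y⟫ = ⟪x, V.H i y⟫ := fun x y =>
    FlagAlg557.inner_comb_comm (M := V.M) i V.n (fun j => th ^ (j - i)) x y
  ext x
  refine ext_inner_right ℝ fun y => ?_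
  rw [ContinuousLinearMap.adjoint_inner_left, h]

lemma norm_H_sq_le (V : Flag E) (i : ℕ) (v : E) : ‖V.H i v‖ ^ 2 ≤ V.b v i := by
  have h := FlagAlg557.norm_H_le (M := V.M) V.anti th_pos (by norm_num [th]) V.n i
    (V.bot _ le_rfl) v
  exact pow_le_pow_left₀ (norm_nonneg _) h 2

/-- generic form: `A0c sm S0 ≤ p.A` -/
theorem cut_hi_gen {sm S0 : ℝ} (hsm : 0 < sm) (hS0 : 0 < S0) {p : Par} (hp : p.Ok)
    (hA0 : A0c sm S0 ≤ p.A) {V W : Flag E} {μ : Multiset E} {v : E} {I i : ℕ} (hv : ‖v‖ = 1)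
    (hI : I < i) (hS : S μ v ≤ S0 * p.lam I)
    (hW : ∀ j, i ≤ j → W.M j = (V.M j).map (Ts v 1).toLinearMap) {K' : Set E}
    (hK' : Adm p W i K') (hpos : 0 < (stdGaussian E).real {g | Ts v 1 (V.H i g) ∈ K'}) :
    D p V i μ ≤ Eh K' μ
      - p.lam i * Real.log ((stdGaussian E).real {g | Ts v 1 (V.H i g) ∈ K'})
      + p.lam i * (sm * V.b v i + (64 / p.rho ^ 2) * (2 * V.b v i + BB V v i))
      + sm * (1 / 2) ^ (i - I) * p.lam I := by
  have hlam : ∀ i, 0 ≤ p.lam i := fun i => (Rem864.lam_pos hp i).le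
  have hli := Rem864.lam_pos hp i
  have hrho := hp.rho_ge
  have hrho2 : 256 ≤ p.rho ^ 2 := by nlinarith
  set h := 2 * V.b v i + BB V v i with hh
  have h0 : 0 ≤ h := by
    have := b_nonneg V v i
    have := BB_nonneg V v i
    rw [hh]; linarith
  set Qh : Set E := {g | Ts v 1 (V.H i g) ∈ K'} with hQh
  have hQeq : Qh = (Ts v 1 ∘L V.H i) ⁻¹' K' := rfl
  have hQc : IsClosed Qh := hK'.1.preimage (Ts v 1 ∘L V.H i).continuous
  have hQv : Convex ℝ Qh := hK'.2.1.linear_preimage (Ts v 1 ∘L V.H i).toLinearMap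
  have hQs : ∀ g ∈ Qh, -g ∈ Qh := by
    intro g hg
    show Ts v 1 (V.H i (-g)) ∈ K'
    rw [map_neg, map_neg]
    exact hK'.2.2.1 _ hg
  -- pointwise cap
  have hrr := rr_le (i := i) hW
  have hpt : ∀ x ∈ V.M i, Ts v 1 x ∈ K' → (1 - h) * V.N i x ≤ p.rho ^ 2 * V.rr i := by
    intro x hx hxK
    have h1 := N_cmp hv hW hx
    have h2 : W.N i (Ts v 1 x) ≤ p.rho ^ 2 * W.rr i := (hK'.2.2.2.1 hxK).2
    have h3 : p.rho ^ 2 * W.rr i ≤ p.rho ^ 2 * V.rr i :=
      mul_le_mul_of_nonneg_left hrr (by positivity)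
    rw [← hh] at h1
    linarith
  obtain ⟨κ, hκ0, hκ1, hκ2, hcap⟩ := cap_cut (V := V) (i := i) hrho h0 hQc hQv hQs
    (fun g hg => hpt _ (F6b696.H_mem V i g) hg)
  -- slab
  have hS0' : 0 ≤ S μ v := by
    unfold S
    apply Multiset.sum_nonneg
    intro y hy
    obtain ⟨z, _, rfl⟩ := Multiset.mem_map.1 hy
    exact abs_nonneg _
  obtain ⟨t, ht0, htp, hrem⟩ := rem_cut hp hsm hS0 hA0 hI hS0' hS (V.H i) v
  rw [adjoint_H] at hrem
  set pt := (gau (V.H i)).real {x | |⟪v, x⟫| ≤ t} with hpt'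
  have hptstd : pt = (stdGaussian E).real {g | |⟪V.H i v, g⟫| ≤ t} := by
    have hm : MeasurableSet {x : E | |⟪v, x⟫| ≤ t} :=
      measurableSet_le (by fun_prop) measurable_const
    rw [hpt', gau_real_apply _ hm]
    congr 1
    ext g
    simp only [mem_preimage, mem_ofPred_eq]
    have : ⟪v, V.H i g⟫ = ⟪V.H i v, g⟫ := by
      rw [← adjoint_H V i, ContinuousLinearMap.adjoint_inner_left, adjoint_H]
    rw [this]
  set Q1 := Qh ∩ {g | V.N i (V.H i g) ≤ p.rho ^ 2 * V.rr i} with hQ1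
  have hNset : {g | V.N i (V.H i g) ≤ p.rho ^ 2 * V.rr i}
      = {g | ‖Bs V i g‖ ^ 2 ≤ p.rho ^ 2 * V.rr i} := by
    ext g; simp only [mem_ofPred_eq, Bs_sq]
  have hNcl : IsClosed {g | V.N i (V.H i g) ≤ p.rho ^ 2 * V.rr i} :=
    isClosed_le ((AdmHalf606.continuous_N V i).comp (V.H i).continuous) continuous_const
  have hNcv : Convex ℝ {g | V.N i (V.H i g) ≤ p.rho ^ 2 * V.rr i} := by
    intro x hx y hy a b ha hb hab
    show V.N i (V.H i (a • x + b • y)) ≤ _
    rw [map_add, map_smul, map_smul]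
    refine (AdmHalf606.N_convex V i ha hb hab _ _).trans ?_
    have hx' : V.N i (V.H i x) ≤ p.rho ^ 2 * V.rr i := hx
    have hy' : V.N i (V.H i y) ≤ p.rho ^ 2 * V.rr i := hy
    calc a * V.N i (V.H i x) + b * V.N i (V.H i y)
        ≤ a * (p.rho ^ 2 * V.rr i) + b * (p.rho ^ 2 * V.rr i) :=
          add_le_add (mul_le_mul_of_nonneg_left hx' ha) (mul_le_mul_of_nonneg_left hy' hb)
      _ = p.rho ^ 2 * V.rr i := by rw [← add_mul, hab, one_mul]
  have hNs : ∀ g ∈ {g | V.N i (V.H i g) ≤ p.rho ^ 2 * V.rr i},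
      -g ∈ {g | V.N i (V.H i g) ≤ p.rho ^ 2 * V.rr i} := by
    intro g hg
    show V.N i (V.H i (-g)) ≤ _
    rw [map_neg, AdmHalf606.N_neg]
    exact hg
  have hsl := Dom640.slab_real (hQc.inter hNcl).measurableSet (hQv.inter hNcv)
    (fun g hg => ⟨hQs g hg.1, hNs g hg.2⟩) (V.H i v) t
  rw [← hptstd, ← hQ1] at hsl
  -- the body
  set K : Set E := {x | x ∈ V.M i ∧ Ts v 1 x ∈ K' ∧ |⟪v, x⟫| ≤ t ∧
    V.N i x ≤ p.rho ^ 2 * V.rr i} with hK
  have hKeq : K = ((V.M i : Set E) ∩ Ts v 1 ⁻¹' K') ∩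
      ({x | |⟪v, x⟫| ≤ t} ∩ {x | V.N i x ≤ p.rho ^ 2 * V.rr i}) := by
    ext x
    simp only [hK, mem_ofPred_eq, mem_inter_iff, SetLike.mem_coe, mem_preimage]
    tauto
  have hMc : IsClosed (V.M i : Set E) := Submodule.closed_of_finiteDimensional _
  have hslc : IsClosed {x : E | |⟪v, x⟫| ≤ t} :=
    isClosed_le (by fun_prop) continuous_const
  have hKcl : IsClosed K := by
    rw [hKeq]
    exact (hMc.inter (hK'.1.preimage (Ts v 1).continuous)).inter
      (hslc.inter (isClosed_le (AdmHalf606.continuous_N V i) continuous_const))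
  have hKcv : Convex ℝ K := by
    rw [hKeq]
    refine ((V.M i).convex.inter (hK'.2.1.linear_preimage (Ts v 1).toLinearMap)).inter
      (Convex.inter ?_ ?_)
    · intro x hx y hy a b ha hb hab
      show |⟪v, a • x + b • y⟫| ≤ t
      have hx' : |⟪v, x⟫| ≤ t := hx
      have hy' : |⟪v, y⟫| ≤ t := hy
      rw [inner_add_right, inner_smul_right, inner_smul_right]
      calc |a * ⟪v, x⟫ + b * ⟪v, y⟫| ≤ |a * ⟪v, x⟫| + |b * ⟪v, y⟫| := abs_add_le _ _
        _ = a * |⟪v, x⟫| + b * |⟪v, y⟫| := by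
            rw [abs_mul, abs_mul, abs_of_nonneg ha, abs_of_nonneg hb]
        _ ≤ a * t + b * t :=
            add_le_add (mul_le_mul_of_nonneg_left hx' ha) (mul_le_mul_of_nonneg_left hy' hb)
        _ = t := by rw [← add_mul, hab, one_mul]
    · intro x hx y hy a b ha hb hab
      show V.N i (a • x + b • y) ≤ _
      refine (AdmHalf606.N_convex V i ha hb hab _ _).trans ?_
      have hx' : V.N i x ≤ p.rho ^ 2 * V.rr i := hx
      have hy' : V.N i y ≤ p.rho ^ 2 * V.rr i := hy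
      calc a * V.N i x + b * V.N i y
          ≤ a * (p.rho ^ 2 * V.rr i) + b * (p.rho ^ 2 * V.rr i) :=
            add_le_add (mul_le_mul_of_nonneg_left hx' ha) (mul_le_mul_of_nonneg_left hy' hb)
        _ = p.rho ^ 2 * V.rr i := by rw [← add_mul, hab, one_mul]
  have hKs : ∀ x ∈ K, -x ∈ K := by
    rintro x ⟨h1, h2, h3, h4⟩
    refine ⟨(V.M i).neg_mem h1, ?_, ?_, ?_⟩
    · rw [map_neg]; exact hK'.2.2.1 _ h2
    · rw [inner_neg_right, abs_neg]; exact h3
    · rw [AdmHalf606.N_neg]; exact h4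
  have hKcap : K ⊆ V.cap p.rho i := fun x hx => ⟨hx.1, hx.2.2.2⟩
  have hpre : V.H i ⁻¹' K = Q1 ∩ {g | |⟪V.H i v, g⟫| ≤ t} := by
    ext g
    have e : ⟪v, V.H i g⟫ = ⟪V.H i v, g⟫ := by
      rw [← adjoint_H V i, ContinuousLinearMap.adjoint_inner_left, adjoint_H]
    simp only [hK, hQ1, hQh, mem_preimage, mem_ofPred_eq, mem_inter_iff, e]
    have := F6b696.H_mem V i g
    tauto
  have hgK : (gau (V.H i)).real K = (stdGaussian E).real (Q1 ∩ {g | |⟪V.H i v, g⟫| ≤ t}) := by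
    rw [gau_real_apply _ hKcl.measurableSet, hpre]
  have hκpos : 0 < 1 - κ := by linarith
  have hlow : (1 - κ) * (stdGaussian E).real Qh * pt ≤ (gau (V.H i)).real K := by
    rw [hgK]
    exact (mul_le_mul_of_nonneg_right hcap htp.le).trans hsl
  have hlow0 : 0 < (1 - κ) * (stdGaussian E).real Qh * pt := by positivity
  have hKpos : 0 < (gau (V.H i)).real K := lt_of_lt_of_le hlow0 hlow
  have hadm : Adm p V i K := ⟨hKcl, hKcv, hKs, hKcap, hKpos⟩
  have hD := F6b696.D_le_val (μ := μ) hlam hadm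
  have hE : Eh K μ ≤ Eh K' μ + 1 * t * S μ v :=
    F6core696.Eh_pullback (AdmHalf606.adm_compact hK') ⟨0, AdmHalf606.adm_zero hadm⟩
      zero_le_one (fun x => Ts_apply v 1 x) (fun x hx => hx.2.1) (fun x hx => hx.2.2.1) μ
  have hlog := Real.log_le_log hlow0 hlow
  rw [Real.log_mul (by positivity) (by positivity), Real.log_mul hκpos.ne' (by positivity)] at hlog
  have hlk := log_one_sub_ge (κ := κ) (by linarith) hκ0
  have hb := norm_H_sq_le V i v
  unfold val at hD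
  have h20 : p.lam i * (-(2 * κ) + Real.log ((stdGaussian E).real Qh) + Real.log pt)
      ≤ p.lam i * Real.log ((gau (V.H i)).real K) :=
    mul_le_mul_of_nonneg_left (by linarith) hli.le
  have h21 : p.lam i * (2 * κ) ≤ p.lam i * ((64 / p.rho ^ 2) * h) := by
    apply mul_le_mul_of_nonneg_left _ hli.le
    have e : 16 * h / p.rho ^ 2 = (16 / p.rho ^ 2) * h := by ring
    rw [e] at hκ2
    have e2 : (64 / p.rho ^ 2) * h = 4 * ((16 / p.rho ^ 2) * h) := by ring
    rw [e2]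
    have : 0 ≤ (16 / p.rho ^ 2) * h := by positivity
    linarith
  have h22 : p.lam i * (sm * ‖V.H i v‖ ^ 2) ≤ p.lam i * (sm * V.b v i) :=
    mul_le_mul_of_nonneg_left (mul_le_mul_of_nonneg_left hb hsm.le) hli.le
  have h23 : p.lam i * (sm * V.b v i + (64 / p.rho ^ 2) * h)
      = p.lam i * (sm * V.b v i) + p.lam i * ((64 / p.rho ^ 2) * h) := by ring
  rw [h23]
  linarith

/-- **(d) of the one-step line** (cap cut + slab cut on the `V` side), literal of helper167. -/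
theorem cut_hi (sm S0 : ℝ) (hsm : 0 < sm) (hS0 : 0 < S0) :
    ∃ A0 : ℝ, ∀ (d : ℕ) (p : Par), p.Ok → A0 ≤ p.A →
      ∀ (V W : Flag (EuclideanSpace ℝ (Fin d))) (μ : Multiset (EuclideanSpace ℝ (Fin d)))
        (v : EuclideanSpace ℝ (Fin d)) (I i : ℕ), ‖v‖ = 1 → I < i → S μ v ≤ S0 * p.lam I →
        (∀ j, i ≤ j → W.M j = (V.M j).map (Ts v 1).toLinearMap) →
        ∀ K' : Set (EuclideanSpace ℝ (Fin d)), Adm p W i K' →
        0 < (stdGaussian (EuclideanSpace ℝ (Fin d))).real {g | Ts v 1 (V.H i g) ∈ K'} →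
        D p V i μ ≤ Eh K' μ
          - p.lam i * Real.log ((stdGaussian (EuclideanSpace ℝ (Fin d))).real
              {g | Ts v 1 (V.H i g) ∈ K'})
          + p.lam i * (sm * V.b v i + (64 / p.rho ^ 2) * (2 * V.b v i + BB V v i))
          + sm * (1 / 2) ^ (i - I) * p.lam I :=
  ⟨A0c sm S0, fun _ _ hp hA _ _ _ _ _ _ hv hI hS hW _ hK' hpos =>
    cut_hi_gen hsm hS0 hp hA hv hI hS hW hK' hpos⟩

end Crest.Agent.R239.Cut167
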