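import Crest.Agent.R239.Dem_853

/-! R239, block F4a (helper853): the price of a demotion, for an arbitrary flag. -/

set_option autoImplicit false
set_option linter.unusedSectionVars false
open MeasureTheory ProbabilityTheory Set Filter Topology Metric Module
open scoped RealInnerProductSpace ENNReal NNReal InnerProduct Pointwise

namespace Crest.Agent.R239.Dem853

open Crest.Agent.R239 Crest.Agent.R239.FD

variable {E : Type*} [NormedAddCommGroup E] [InnerProductSpace ℝ E] [FiniteDimensional ℝ E]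
  [MeasurableSpace E] [BorelSpace E]

/-- the demoted flag: `M i` is replaced by `M i ⊖ w` -/
noncomputable def demF (V : Flag E) (i : ℕ) (w : E) (h : w ∈ (V.M (i + 1))ᗮ) : Flag E where
  n := V.n
  M := demM V.M i w
  anti := demM_anti V.anti h
  bot := fun j hj => by
    rw [eq_bot_iff]
    exact (demM_le V.M i w j).trans (V.bot j hj).le

section
variable (V : Flag E) {i : ℕ} {w : E} (h : w ∈ (V.M (i + 1))ᗮ)

@[simp] lemma demF_n : (demF V i w h).n = V.n := rfl
lemma demF_M (j : ℕ) : (demF V i w h).M j = demM V.M i w j := rfl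
lemma demF_M_ne {j : ℕ} (hj : j ≠ i) : (demF V i w h).M j = V.M j := demM_ne V.M w hj
lemma demF_M_self : (demF V i w h).M i = cutSub (V.M i) w := demM_self V.M i w

/-- a unit vector of a block: membership -/
lemma mem_of_Q {V : Flag E} {i : ℕ} {w : E} (hQ : V.Q i w = w) :
    w ∈ V.M i ∧ w ∈ (V.M (i + 1))ᗮ := by
  have h1 : w ∈ V.M i := by
    rw [← hQ, Q_eq, blkP_apply]
    exact Submodule.sub_mem _ (Submodule.starProjection_apply_mem _ _)
      (V.anti (Nat.le_succ i) (Submodule.starProjection_apply_mem _ _))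
  refine ⟨h1, ?_⟩
  rw [← Submodule.starProjection_apply_eq_zero_iff]
  have h2 : (V.M i).starProjection w = w := Submodule.starProjection_eq_self_iff.2 h1
  have h3 : (V.M i).starProjection w - (V.M (i + 1)).starProjection w = w := hQ
  rw [h2] at h3
  exact sub_eq_self.1 h3

lemma lt_n_of_mem {V : Flag E} {i : ℕ} {w : E} (hw : w ∈ V.M i) (hn : ‖w‖ = 1) : i < V.n := by
  by_contra hc
  rw [V.bot i (not_lt.1 hc)] at hw
  rw [Submodule.mem_bot] at hw
  simp [hw] at hn

/-! levels above `i` -/

lemma demF_Q_gt {j : ℕ} (hj : i < j) : (demF V i w h).Q j = V.Q j :=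
  blkP_dem_ne V.M w (by omega) (by omega)

lemma demF_k_gt {j : ℕ} (hj : i < j) : (demF V i w h).k j = V.k j :=
  kd_dem_ne V.M w (by omega) (by omega)

lemma demF_H_gt {l : ℕ} (hl : i < l) : (demF V i w h).H l = V.H l :=
  Hm_dem_gt th V.n V.M w hl

lemma demF_N_gt {l : ℕ} (hl : i < l) (x : E) : (demF V i w h).N l x = V.N l x := by
  unfold Flag.N
  refine Finset.sum_congr rfl fun j hj => ?_
  rw [Finset.mem_Ico] at hj
  rw [demF_Q_gt V h (by omega)]

lemma demF_rr_gt {l : ℕ} (hl : i < l) : (demF V i w h).rr l = V.rr l := by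
  unfold Flag.rr
  refine Finset.sum_congr rfl fun j hj => ?_
  rw [Finset.mem_Ico] at hj
  rw [demF_k_gt V h (by omega)]

lemma demF_cap_gt (rho : ℝ) {l : ℕ} (hl : i < l) :
    (demF V i w h).cap rho l = V.cap rho l := by
  unfold Flag.cap
  rw [demF_rr_gt V h hl, demF_M_ne V h (by omega : l ≠ i)]
  ext x
  simp only [mem_ofPred_eq, demF_N_gt V h hl]

lemma demF_D_gt (p : Par) (μ : Multiset E) {l : ℕ} (hl : i < l) :
    D p (demF V i w h) l μ = D p V l μ := by
  unfold D Adm val
  rw [demF_H_gt V h hl, demF_cap_gt V h p.rho hl]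

/-! levels below `i` -/

theorem demF_D_lt {p : Par} (hp : p.Ok) (μ : Multiset E) {l : ℕ} (hl : l < i) (hw : w ∈ V.M i)
    (hn : ‖w‖ = 1) :
    D p V l μ - p.lam l * (2 / p.rho ^ 2) ≤ D p (demF V i w h) l μ := by
  have hin := lt_n_of_mem hw hn
  have hrho : 1 < p.rho := by linarith [hp.rho_ge]
  have hlam := lam_pos hp l
  refine le_D hp _ l μ fun K hK => ?_
  obtain ⟨hKc, cK, sK, hcap, hpos⟩ := hK
  set K1 : Set E := K ∩ {x | capN th V.n V.M l x ≤ p.rho ^ 2 * capR th V.n V.M l} with hK1
  have hm := low_measure th_pos th_le_one hrho V.anti hin hl hw h hn hKc cK sK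
  have hpos' : 0 < (gau (Hm th V.n (demM V.M i w) l)).real K := hpos
  have hs := one_sub_pos hp
  have hpos1 : 0 < (gau (V.H l)).real K1 := lt_of_lt_of_le (mul_pos hs hpos') hm
  have hcap1 : K1 ⊆ V.cap p.rho l := by
    intro x hx
    refine ⟨?_, hx.2⟩
    have := (hcap hx.1).1
    rwa [demF_M_ne V h (by omega : l ≠ i)] at this
  have hadm : Adm p V l K1 := by
    refine ⟨hKc.inter (isClosed_le (continuous_capN _ _ _ _) continuous_const),
      cK.inter (convex_N_le V l _), fun x hx => ⟨sK x hx.1, ?_⟩, hcap1, hpos1⟩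
    have h2 : capN th V.n V.M l x ≤ _ := hx.2
    change V.N l (-x) ≤ _
    rw [N_neg]
    exact h2
  have h1 := D_le hp μ hadm
  have h2 : Eh K1 μ ≤ Eh K μ := Eh_mono hcap inter_subset_left (adm_nonempty hadm) μ
  have h3 : Real.log ((gau (V.H l)).real K1) ≥ Real.log (1 - 1 / p.rho ^ 2)
      + Real.log ((gau ((demF V i w h).H l)).real K) := by
    rw [← Real.log_mul hs.ne' hpos.ne']
    exact Real.log_le_log (mul_pos hs hpos) hm
  have h4 : -Real.log (1 - 1 / p.rho ^ 2) ≤ 2 / p.rho ^ 2 :=
    neg_log_le (by nlinarith [hp.rho_ge])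
  have h5 : p.lam l * (-Real.log (1 - 1 / p.rho ^ 2)) ≤ p.lam l * (2 / p.rho ^ 2) :=
    mul_le_mul_of_nonneg_left h4 hlam.le
  unfold val at h1 ⊢
  have h6 : p.lam l * Real.log ((gau (V.H l)).real K1) ≥ p.lam l * (Real.log (1 - 1 / p.rho ^ 2)
      + Real.log ((gau ((demF V i w h).H l)).real K)) := mul_le_mul_of_nonneg_left h3 hlam.le
  linarith

/-! penalties -/

lemma lam_succ (p : Par) (j : ℕ) : p.lam (j + 1) = p.A * p.lam j := by
  unfold Par.lam; rw [pow_succ]; ring

lemma sum_k_dem (p : Par) (hw : w ∈ V.M i) (hn : ‖w‖ = 1) :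
    ∑ l ∈ Finset.range V.n, p.lam l * ((demF V i w h).k l : ℝ)
      ≤ (∑ l ∈ Finset.range V.n, p.lam l * (V.k l : ℝ)) - p.lam i
        + (if i = 0 then 0 else p.lam (i - 1)) := by
  have hin := lt_n_of_mem hw hn
  have hterm : ∀ l, p.lam l * ((demF V i w h).k l : ℝ) = p.lam l * (V.k l : ℝ)
      + ((if l = i then -p.lam i else 0) + (if l + 1 = i then p.lam (i - 1) else 0)) := by
    intro l
    by_cases h1 : l = i
    · subst h1
      have h2 := kd_dem_self V.anti hw h hn
      have h3 : ((demF V l w h).k l : ℝ) + 1 = V.k l := by exact_mod_cast h2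
      rw [if_pos rfl, if_neg (by omega), ← h3]
      ring
    · by_cases h2 : l + 1 = i
      · have h3 := kd_dem_pred V.anti h2 hw h hn
        have h4 : ((demF V i w h).k l : ℝ) = V.k l + 1 := by exact_mod_cast h3
        rw [if_neg h1, if_pos h2, h4]
        have : l = i - 1 := by omega
        subst this
        ring
      · have h3 : (demF V i w h).k l = V.k l := kd_dem_ne V.M w h1 h2
        rw [if_neg h1, if_neg h2, h3]
        ring
  rw [Finset.sum_congr rfl fun l _ => hterm l, Finset.sum_add_distrib, Finset.sum_add_distrib,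
    Finset.sum_ite_eq', if_pos (Finset.mem_range.2 hin)]
  have h5 : ∑ l ∈ Finset.range V.n, (if l + 1 = i then p.lam (i - 1) else 0)
      = if i = 0 then 0 else p.lam (i - 1) := by
    rcases i with _ | m
    · simp
    · have : ∀ l, (if l + 1 = m + 1 then p.lam (m + 1 - 1) else 0)
          = if l = m then p.lam m else (0:ℝ) := by
        intro l
        simp
      rw [Finset.sum_congr rfl fun l _ => this l, Finset.sum_ite_eq',
        if_pos (Finset.mem_range.2 (by omega))]
      simp
  rw [h5]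
  linarith

/-- geometric sum of the lower levels -/
lemma sum_lam_lt {p : Par} (hp : p.Ok) (i : ℕ) :
    ∑ l ∈ Finset.range i, p.lam l ≤ p.lam i / 15 := by
  induction i with
  | zero =>
    simp only [Finset.range_zero, Finset.sum_empty]
    have := lam_pos hp 0
    positivity
  | succ m ih =>
    rw [Finset.sum_range_succ, lam_succ]
    have h1 := hp.A_ge
    have h2 := lam_pos hp m
    nlinarith

/-- **the price of a demotion**, arbitrary flag `V` -/
theorem dem_gain {p : Par} (hp : p.Ok) (μ : Multiset E) (hw : w ∈ V.M i) (hn : ‖w‖ = 1) :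
    D p (demF V i w h) i μ + 7 / 8 * (p.kap * p.lam i) - D p V i μ
      ≤ J p (demF V i w h) μ - J p V μ := by
  have hin := lt_n_of_mem hw hn
  have hkap := hp.kap_pos
  have hlam := lam_pos hp i
  -- sum of the D
  have hD : ∑ l ∈ Finset.range V.n, D p V l μ + (D p (demF V i w h) i μ - D p V i μ)
      - (2 / p.rho ^ 2) * (∑ l ∈ Finset.range i, p.lam l)
      ≤ ∑ l ∈ Finset.range V.n, D p (demF V i w h) l μ := by
    have hterm : ∀ l ∈ Finset.range V.n, D p V l μ
        + ((if l = i then D p (demF V i w h) i μ - D p V i μ else 0)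
          - (if l < i then p.lam l * (2 / p.rho ^ 2) else 0)) ≤ D p (demF V i w h) l μ := by
      intro l _
      rcases lt_trichotomy l i with h1 | h1 | h1
      · rw [if_neg h1.ne, if_pos h1]
        have := demF_D_lt V h hp μ h1 hw hn
        linarith
      · subst h1
        rw [if_pos rfl, if_neg (lt_irrefl _)]
        linarith
      · rw [if_neg h1.ne', if_neg (by omega), demF_D_gt V h p μ h1]
        linarith
    have h2 := Finset.sum_le_sum hterm
    rw [Finset.sum_add_distrib, Finset.sum_sub_distrib, Finset.sum_ite_eq',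
      if_pos (Finset.mem_range.2 hin), ← Finset.sum_filter] at h2
    have h3 : (Finset.range V.n).filter (fun l => l < i) = Finset.range i := by
      ext l
      simp only [Finset.mem_filter, Finset.mem_range]
      omega
    rw [h3, ← Finset.sum_mul] at h2
    linarith
  have hk := sum_k_dem V h p hw hn
  have hJ1 : J p V μ = ∑ l ∈ Finset.range V.n, D p V l μ
      - p.kap * ∑ l ∈ Finset.range V.n, p.lam l * (V.k l : ℝ) := by
    unfold J
    rw [Finset.sum_sub_distrib, Finset.mul_sum]
    congr 1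
    exact Finset.sum_congr rfl fun l _ => by ring
  have hJ2 : J p (demF V i w h) μ = ∑ l ∈ Finset.range V.n, D p (demF V i w h) l μ
      - p.kap * ∑ l ∈ Finset.range V.n, p.lam l * ((demF V i w h).k l : ℝ) := by
    unfold J
    rw [demF_n, Finset.sum_sub_distrib, Finset.mul_sum]
    congr 1
    exact Finset.sum_congr rfl fun l _ => by ring
  rw [hJ1, hJ2]
  have hpen : (if i = 0 then 0 else p.lam (i - 1)) ≤ p.lam i / 16 := by
    split_ifs with h0
    · positivity
    · obtain ⟨m, rfl⟩ : ∃ m, i = m + 1 := ⟨i - 1, by omega⟩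
      rw [Nat.add_sub_cancel, lam_succ]
      have h1 := hp.A_ge
      have h2 := lam_pos hp m
      nlinarith
  have hrho2 : 2 / p.rho ^ 2 ≤ p.kap / 8 := by
    have h1 := hp.kap_rho
    have h2 : 0 < p.rho ^ 2 := by have := hp.rho_ge; positivity
    rw [div_le_iff₀ h2]
    nlinarith
  have hlow := sum_lam_lt hp i
  have hlow0 : 0 ≤ ∑ l ∈ Finset.range i, p.lam l :=
    Finset.sum_nonneg fun l _ => (lam_pos hp l).le
  have h7 : (2 / p.rho ^ 2) * (∑ l ∈ Finset.range i, p.lam l) ≤ p.kap / 8 * (p.lam i / 15) :=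
    mul_le_mul hrho2 hlow hlow0 (by positivity)
  have h8 : p.kap * ∑ l ∈ Finset.range V.n, p.lam l * ((demF V i w h).k l : ℝ)
      ≤ p.kap * ((∑ l ∈ Finset.range V.n, p.lam l * (V.k l : ℝ)) - p.lam i + p.lam i / 16) :=
    mul_le_mul_of_nonneg_left (by linarith) hkap.le
  nlinarith [mul_pos hkap hlam]

end

end Crest.Agent.R239.Dem853
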