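import Crest.Agent.R239.Dem2_853

/-! R239, block F4a (helper853): the demoted level, `exists_dem` (literal of helper236). -/

set_option autoImplicit false
set_option linter.unusedSectionVars false
open MeasureTheory ProbabilityTheory Set Filter Topology Metric Module
open scoped RealInnerProductSpace ENNReal NNReal InnerProduct Pointwise

namespace Crest.Agent.R239.Dem853

open Crest.Agent.R239 Crest.Agent.R239.FD

variable {E : Type*} [NormedAddCommGroup E] [InnerProductSpace ℝ E] [FiniteDimensional ℝ E]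
  [MeasurableSpace E] [BorelSpace E]

variable (V : Flag E) {i : ℕ} {w : E} (h : w ∈ (V.M (i + 1))ᗮ)

include h in
lemma H_dir_self (hw : w ∈ V.M i) (hn : ‖w‖ = 1) : V.H i w = w := by
  have h1 := Hm_dir th V.anti (lt_n_of_mem hw hn) le_rfl hw h
  rw [Nat.sub_self, pow_zero, one_smul] at h1
  exact h1

lemma demF_H_self (hw : w ∈ V.M i) (hn : ‖w‖ = 1) (x : E) :
    (demF V i w h).H i x = V.H i (x - ⟪w, x⟫ • w) := by
  have hin : i < V.n := lt_n_of_mem hw hn
  have h1 : (demF V i w h).H i = V.H i - rk1 w := Hm_dem_self th hin hw hn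
  rw [h1, map_sub, map_smul, H_dir_self V h hw hn]
  rfl

lemma demF_Q_self (hw : w ∈ V.M i) (hn : ‖w‖ = 1) : (demF V i w h).Q i = V.Q i - rk1 w :=
  blkP_dem_self hw hn

lemma demF_N_self (hw : w ∈ V.M i) (hn : ‖w‖ = 1) {x : E} (hx : ⟪w, x⟫ = 0) :
    (demF V i w h).N i x = V.N i x := by
  unfold Flag.N
  refine Finset.sum_congr rfl fun j hj => ?_
  rw [Finset.mem_Ico] at hj
  rcases eq_or_lt_of_le hj.1 with h1 | h1
  · subst h1
    rw [demF_Q_self V h hw hn, sub_apply, rk1_apply, hx, zero_smul, sub_zero]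
  · rw [demF_Q_gt V h h1]

lemma demF_rr_self (hw : w ∈ V.M i) (hn : ‖w‖ = 1) : (demF V i w h).rr i ≤ V.rr i := by
  unfold Flag.rr
  refine Finset.sum_le_sum fun j hj => ?_
  rw [Finset.mem_Ico] at hj
  have hth := th_pos
  refine mul_le_mul_of_nonneg_left ?_ (by positivity)
  rcases eq_or_lt_of_le hj.1 with h1 | h1
  · subst h1
    have h2 : (demF V i w h).k i + 1 = V.k i := kd_dem_self V.anti hw h hn
    exact_mod_cast (by omega : (demF V i w h).k i ≤ V.k i)
  · rw [demF_k_gt V h h1]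

lemma demF_cap_self (rho : ℝ) (hw : w ∈ V.M i) (hn : ‖w‖ = 1) :
    (demF V i w h).cap rho i ⊆ V.cap rho i := by
  intro x hx
  have h1 : x ∈ cutSub (V.M i) w := by
    have := hx.1
    rwa [demF_M_self] at this
  rw [mem_cutSub] at h1
  refine ⟨h1.1, ?_⟩
  have h2 := hx.2
  rw [demF_N_self V h hw hn h1.2] at h2
  exact h2.trans (mul_le_mul_of_nonneg_left (demF_rr_self V h hw hn) (sq_nonneg _))

/-- bodies of the demoted level are orthogonal to `w` -/
lemma demF_cap_orth (rho : ℝ) {x : E} (hx : x ∈ (demF V i w h).cap rho i) : ⟪w, x⟫ = 0 := by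
  have h1 : x ∈ cutSub (V.M i) w := by
    have := hx.1
    rwa [demF_M_self] at this
  exact (mem_cutSub.1 h1).2

/-- literal of helper236 -/
theorem exists_dem {p : Par} (hp : p.Ok) (V : Flag E) (i : ℕ) (_hi : 1 ≤ i) (w : E)
    (hn : ‖w‖ = 1) (hQ : V.Q i w = w) :
    ∃ W : Flag E, (∀ x, W.H i x = V.H i (x - ⟪w, x⟫ • w)) ∧ W.cap p.rho i ⊆ V.cap p.rho i ∧
      (∀ x ∈ W.cap p.rho i, ⟪w, x⟫ = 0) ∧
      ∀ μ : Multiset E, J p V μ + 7 / 8 * (p.kap * p.lam i) ≤ J p W μ + (D p V i μ - D p W i μ) := by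
  obtain ⟨hw, h⟩ := mem_of_Q hQ
  refine ⟨demF V i w h, demF_H_self V h hw hn, demF_cap_self V h p.rho hw hn,
    fun x hx => demF_cap_orth V h p.rho hx, fun μ => ?_⟩
  have := dem_gain V h hp μ hw hn
  linarith

end Crest.Agent.R239.Dem853
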