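import Crest.Agent.R239.Dom_640
import Crest.Agent.R239.AnSym_853

/-! R239, block F4a (helper876): finitely many cuts of a symmetric convex body, and the analytic step
of the demotion at one lower level. -/

set_option autoImplicit false
set_option linter.unusedSectionVars false
open MeasureTheory ProbabilityTheory Set
open scoped RealInnerProductSpace ENNReal NNReal InnerProduct

namespace Crest.Agent.R239.DemLow876

open Crest.Agent.R239 (gau gau_real_apply)

variable {E : Type*} [NormedAddCommGroup E] [InnerProductSpace ℝ E] [FiniteDimensional ℝ E]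
  [MeasurableSpace E] [BorelSpace E]
variable {F : Type*} [NormedAddCommGroup F] [InnerProductSpace ℝ F] [FiniteDimensional ℝ F]
  [MeasurableSpace F] [BorelSpace F]
variable {G : Type*} [NormedAddCommGroup G] [InnerProductSpace ℝ G] [FiniteDimensional ℝ G]
  [MeasurableSpace G] [BorelSpace G]
variable {H : Type*} [NormedAddCommGroup H] [InnerProductSpace ℝ H] [FiniteDimensional ℝ H]

lemma ball_meas (B : E →L[ℝ] H) (r : ℝ) : MeasurableSet {x : E | ‖B x‖ ≤ r} :=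
  measurableSet_le B.continuous.norm.measurable measurable_const

lemma ball_closed (B : E →L[ℝ] H) (r : ℝ) : IsClosed {x : E | ‖B x‖ ≤ r} :=
  isClosed_le B.continuous.norm continuous_const

lemma ball_convex (B : E →L[ℝ] H) (r : ℝ) : Convex ℝ {x : E | ‖B x‖ ≤ r} := by
  have h : {x : E | ‖B x‖ ≤ r} = (B : E →ₗ[ℝ] H) ⁻¹' (Metric.closedBall 0 r) := by
    ext x; simp
  rw [h]
  exact (convex_closedBall _ _).linear_preimage _

lemma ball_symm (B : E →L[ℝ] H) (r : ℝ) : ∀ x ∈ {x : E | ‖B x‖ ≤ r}, -x ∈ {x : E | ‖B x‖ ≤ r} := by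
  intro x hx
  simpa using hx

lemma integrable_norm_sq_gau (A : F →L[ℝ] E) (B : E →L[ℝ] H) :
    Integrable (fun x : E => ‖B x‖ ^ 2) (gau A) := by
  unfold gau
  rw [integrable_map_measure (by fun_prop) A.continuous.aemeasurable]
  exact Dom640.integrable_norm_sq (B ∘L A)

/-- one cut, radius zero allowed -/
theorem cut_one (A : F →L[ℝ] E) {K : Set E} (hK : MeasurableSet K) (cK : Convex ℝ K)
    (hs : ∀ x ∈ K, -x ∈ K) (B : E →L[ℝ] H) {r e : ℝ} (hr : 0 ≤ r) (he : 0 ≤ e)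
    (h : ∫ x, ‖B x‖ ^ 2 ∂(gau A) ≤ e * r ^ 2) :
    (1 - e) * (gau A).real K ≤ (gau A).real (K ∩ {x | ‖B x‖ ≤ r}) := by
  rcases hr.eq_or_lt with h0 | h0
  · subst h0
    have h1 : ∫ x, ‖B x‖ ^ 2 ∂(gau A) = 0 :=
      le_antisymm (by simpa using h) (integral_nonneg fun x => sq_nonneg _)
    have h2 : ∀ᵐ x ∂(gau A), ‖B x‖ ^ 2 = 0 :=
      (integral_eq_zero_iff_of_nonneg (fun x => sq_nonneg _) (integrable_norm_sq_gau A B)).1 h1
    have h3 : (gau A).real (K ∩ {x | ‖B x‖ ≤ 0}) = (gau A).real K := by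
      refine measureReal_congr ?_
      filter_upwards [h2] with x hx
      have hx0 : ‖B x‖ ≤ 0 := by
        have : ‖B x‖ = 0 := by simpa using hx
        exact this.le
      apply propext
      constructor
      · intro hh
        exact hh.1
      · intro hh
        exact ⟨hh, hx0⟩
    rw [h3]
    nlinarith [measureReal_nonneg (μ := gau A) (s := K)]
  · refine le_trans ?_ (Dom640.gau_cut A hK cK hs B h0)
    have hr2 : 0 < r ^ 2 := by positivity
    have h4 : (∫ x, ‖B x‖ ^ 2 ∂(gau A)) / r ^ 2 ≤ e := by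
      rw [div_le_iff₀ hr2]; exact h
    exact mul_le_mul_of_nonneg_right (by linarith) measureReal_nonneg

/-- finitely many cuts -/
theorem cut_finset {ι : Type*} (A : F →L[ℝ] E) {K : Set E} (hK : MeasurableSet K)
    (cK : Convex ℝ K) (hs : ∀ x ∈ K, -x ∈ K) (B : ι → E →L[ℝ] H) (r : ι → ℝ) (e : ℝ) (he : 0 ≤ e)
    (he1 : e ≤ 1) (s : Finset ι) (hr : ∀ j ∈ s, 0 ≤ r j)
    (h : ∀ j ∈ s, ∫ x, ‖B j x‖ ^ 2 ∂(gau A) ≤ e * r j ^ 2) :
    (1 - e) ^ s.card * (gau A).real K ≤ (gau A).real (K ∩ {x | ∀ j ∈ s, ‖B j x‖ ≤ r j}) := by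
  classical
  induction s using Finset.induction_on with
  | empty => simp
  | insert a s ha ih =>
    have ih' := ih (fun j hj => hr j (Finset.mem_insert_of_mem hj))
      (fun j hj => h j (Finset.mem_insert_of_mem hj))
    have hm : MeasurableSet {x : E | ∀ j ∈ s, ‖B j x‖ ≤ r j} := by
      have : {x : E | ∀ j ∈ s, ‖B j x‖ ≤ r j} = ⋂ j ∈ s, {x : E | ‖B j x‖ ≤ r j} := by
        ext x; simp
      rw [this]
      exact Finset.measurableSet_biInter s fun j _ => ball_meas _ _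
    have hc : Convex ℝ {x : E | ∀ j ∈ s, ‖B j x‖ ≤ r j} := by
      have : {x : E | ∀ j ∈ s, ‖B j x‖ ≤ r j} = ⋂ j ∈ s, {x : E | ‖B j x‖ ≤ r j} := by
        ext x; simp
      rw [this]
      exact convex_iInter₂ fun j _ => ball_convex _ _
    have hcut := cut_one A (hK.inter hm) (cK.inter hc)
      (fun x hx => ⟨hs x hx.1, fun j hj => ball_symm (B j) (r j) x (hx.2 j hj)⟩) (B a)
      (hr a (Finset.mem_insert_self _ _)) he (h a (Finset.mem_insert_self _ _))
    have hset : K ∩ {x : E | ∀ j ∈ s, ‖B j x‖ ≤ r j} ∩ {x | ‖B a x‖ ≤ r a}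
        = K ∩ {x : E | ∀ j ∈ insert a s, ‖B j x‖ ≤ r j} := by
      ext x
      simp only [mem_inter_iff, mem_ofPred_eq, Finset.mem_insert, forall_eq_or_imp]
      tauto
    rw [hset] at hcut
    rw [Finset.card_insert_of_notMem ha, pow_succ]
    calc (1 - e) ^ s.card * (1 - e) * (gau A).real K
        = (1 - e) * ((1 - e) ^ s.card * (gau A).real K) := by ring
      _ ≤ (1 - e) * (gau A).real (K ∩ {x | ∀ j ∈ s, ‖B j x‖ ≤ r j}) :=
          mul_le_mul_of_nonneg_left ih' (by linarith)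
      _ ≤ _ := hcut

/-- the analytic step of the demotion at one lower level -/
theorem dem_low {ι : Type*} {A : F →L[ℝ] E} {A' : G →L[ℝ] E}
    (hA : ∀ t, ‖A.adjoint t‖ ≤ ‖A'.adjoint t‖) {K : Set E} (hK : IsClosed K)
    (cK : Convex ℝ K) (hs : ∀ x ∈ K, -x ∈ K) (B : ι → E →L[ℝ] H) (r : ι → ℝ) (e : ℝ) (he : 0 ≤ e)
    (he1 : e ≤ 1) (s : Finset ι) (hr : ∀ j ∈ s, 0 ≤ r j)
    (h : ∀ j ∈ s, ∫ x, ‖B j x‖ ^ 2 ∂(gau A) ≤ e * r j ^ 2) :
    (1 - e) ^ s.card * (gau A').real K ≤ (gau A).real (K ∩ {x | ∀ j ∈ s, ‖B j x‖ ≤ r j}) := by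
  refine le_trans (mul_le_mul_of_nonneg_left ?_ (pow_nonneg (by linarith) _))
    (cut_finset A hK.measurableSet cK hs B r e he he1 s hr h)
  exact ENNReal.toReal_mono (measure_ne_top _ _) (AnSym853.gau_mono_symm hA hK cK hs)

/-- logarithmic form, `e ≤ 1/2` -/
theorem neg_log_le {e a b : ℝ} {n : ℕ} (he : 0 ≤ e) (he1 : e ≤ 1 / 2) (ha : 0 < a)
    (h : (1 - e) ^ n * a ≤ b) : -Real.log b ≤ -Real.log a + 2 * e * n := by
  have h1 : (0:ℝ) < 1 - e := by linarith
  have h2 : 0 < (1 - e) ^ n * a := by positivity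
  have h3 := Real.log_le_log h2 h
  rw [Real.log_mul (by positivity) ha.ne', Real.log_pow] at h3
  have h4 : -(2 * e) ≤ Real.log (1 - e) := by
    have h5 := Real.one_sub_inv_le_log_of_pos h1
    have h6 : -(2 * e) ≤ 1 - (1 - e)⁻¹ := by
      have : (1 - e)⁻¹ ≤ 1 + 2 * e := by
        rw [inv_le_comm₀ h1 (by linarith), inv_eq_one_div, div_le_iff₀ (by linarith)]
        nlinarith
      linarith
    linarith
  have h7 : (0:ℝ) ≤ n := Nat.cast_nonneg _
  nlinarith [mul_le_mul_of_nonneg_left h4 h7]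

/-- the analytic step of the demotion at one lower level, logarithmic form -/
theorem dem_low_log {ι : Type*} {A : F →L[ℝ] E} {A' : G →L[ℝ] E}
    (hA : ∀ t, ‖A.adjoint t‖ ≤ ‖A'.adjoint t‖) {K : Set E} (hK : IsClosed K)
    (cK : Convex ℝ K) (hs : ∀ x ∈ K, -x ∈ K) (hpos : 0 < (gau A').real K)
    (B : ι → E →L[ℝ] H) (r : ι → ℝ) (e : ℝ) (he : 0 ≤ e)
    (he1 : e ≤ 1 / 2) (s : Finset ι) (hr : ∀ j ∈ s, 0 ≤ r j)
    (h : ∀ j ∈ s, ∫ x, ‖B j x‖ ^ 2 ∂(gau A) ≤ e * r j ^ 2) :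
    0 < (gau A).real (K ∩ {x | ∀ j ∈ s, ‖B j x‖ ≤ r j}) ∧
    -Real.log ((gau A).real (K ∩ {x | ∀ j ∈ s, ‖B j x‖ ≤ r j}))
      ≤ -Real.log ((gau A').real K) + 2 * e * s.card := by
  have h1 := dem_low hA hK cK hs B r e he (by linarith) s hr h
  refine ⟨lt_of_lt_of_le ?_ h1, neg_log_le he he1 hpos h1⟩
  have : (0:ℝ) < 1 - e := by linarith
  positivity

end Crest.Agent.R239.DemLow876
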