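import Crest.Agent.R239.FDef
import Crest.Agent.R239.Dom_640
import Crest.Agent.R239.Mom_764
import Crest.Agent.R239.F6core_696

/-! R239 (S0370), helper597: soft layer over FDef v2 (ellipsoid cap).  The form `N`, the cap, the cut,
admissible bodies, `D`. -/

set_option autoImplicit false
set_option linter.unusedSectionVars false
open MeasureTheory ProbabilityTheory Set Filter Topology
open scoped RealInnerProductSpace

namespace Crest.Agent.R239.Fl597

open Crest.Agent.R239 Crest.Agent.R239.FD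

variable {E : Type*} [NormedAddCommGroup E] [InnerProductSpace ℝ E] [FiniteDimensional ℝ E]
  [MeasurableSpace E] [BorelSpace E]

lemma th_pos : 0 < th := by norm_num [th]
lemma th_lt_one : th < 1 := by norm_num [th]
lemma one_le_thi : 1 ≤ th⁻¹ := by norm_num [th]

variable (V : Flag E)

lemma Q_eq (j : ℕ) : V.Q j = Mom764.Q V.M j := rfl
lemma H_eq (i : ℕ) : V.H i = Mom764.H th V.M V.n i := rfl

/-- root of the form `N` -/
noncomputable def R (i : ℕ) : E →L[ℝ] E :=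
  ∑ j ∈ Finset.Ico i V.n, (Real.sqrt th⁻¹) ^ (j - i) • V.Q j

lemma norm_R_sq (i : ℕ) (x : E) : ‖R V i x‖ ^ 2 = V.N i x := by
  have h : R V i x = ∑ j ∈ Finset.Ico i V.n, (Real.sqrt th⁻¹) ^ (j - i) • Mom764.Q V.M j x := by
    simp [R, Q_eq]
  rw [h, Mom764.norm_sum_Q_sq V.anti]
  unfold Flag.N
  refine Finset.sum_congr rfl fun j _ => ?_
  rw [← pow_mul, mul_comm (j - i) 2, pow_mul, Real.sq_sqrt (by norm_num [th])]
  rfl

lemma N_nonneg (i : ℕ) (x : E) : 0 ≤ V.N i x := by rw [← norm_R_sq]; positivity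

lemma N_neg (i : ℕ) (x : E) : V.N i (-x) = V.N i x := by
  rw [← norm_R_sq, ← norm_R_sq, map_neg, norm_neg]

lemma N_zero (i : ℕ) : V.N i 0 = 0 := by rw [← norm_R_sq]; simp

lemma N_cont (i : ℕ) : Continuous (V.N i) := by
  have : V.N i = fun x => ‖R V i x‖ ^ 2 := by funext x; rw [norm_R_sq]
  rw [this]; fun_prop

lemma norm_sq_le_N {i : ℕ} {x : E} (hx : x ∈ V.M i) : ‖x‖ ^ 2 ≤ V.N i x := by
  rcases le_or_gt i V.n with hi | hi
  · have h1 := Mom764.sum_norm_Q_sq V.anti hi x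
    rw [Submodule.starProjection_eq_self_iff.2 hx, V.bot V.n le_rfl] at h1
    simp only [Submodule.starProjection_bot, _root_.zero_apply, norm_zero, ne_eq,
      OfNat.ofNat_ne_zero, not_false_eq_true, zero_pow, sub_zero] at h1
    rw [← h1]
    unfold Flag.N
    refine Finset.sum_le_sum fun j _ => ?_
    have h2 : 1 ≤ (th⁻¹) ^ (j - i) := one_le_pow₀ one_le_thi
    have h3 : 0 ≤ ‖Mom764.Q V.M j x‖ ^ 2 := by positivity
    calc ‖Mom764.Q V.M j x‖ ^ 2 = 1 * ‖Mom764.Q V.M j x‖ ^ 2 := by ring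
      _ ≤ _ := mul_le_mul_of_nonneg_right h2 h3
  · have : x = 0 := by
      have := V.bot i hi.le
      rw [this] at hx
      exact (Submodule.mem_bot ℝ).1 hx
    subst this
    simp [N_zero]

lemma rr_nonneg (i : ℕ) : 0 ≤ V.rr i := by
  unfold Flag.rr
  refine Finset.sum_nonneg fun j _ => ?_
  have := th_pos
  positivity

/-! ### the cap -/

lemma cap_closed (rho : ℝ) (i : ℕ) : IsClosed (V.cap rho i) := by
  have h1 : IsClosed (V.M i : Set E) := Submodule.closed_of_finiteDimensional _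
  have h2 : IsClosed {x | V.N i x ≤ rho ^ 2 * V.rr i} := isClosed_le (N_cont V i) continuous_const
  exact h1.inter h2

lemma cap_zero (rho : ℝ) (i : ℕ) : (0 : E) ∈ V.cap rho i := by
  refine ⟨(V.M i).zero_mem, ?_⟩
  rw [N_zero]
  exact mul_nonneg (sq_nonneg _) (rr_nonneg V i)

lemma cap_symm (rho : ℝ) (i : ℕ) : ∀ x ∈ V.cap rho i, -x ∈ V.cap rho i := by
  rintro x ⟨h1, h2⟩
  exact ⟨(V.M i).neg_mem h1, by rw [N_neg]; exact h2⟩

lemma N_eq_ball (i : ℕ) {c : ℝ} (hc : 0 ≤ c) :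
    {x | V.N i x ≤ c} = {x | ‖R V i x‖ ≤ Real.sqrt c} := by
  ext x
  simp only [mem_ofPred_eq]
  rw [← norm_R_sq, Real.le_sqrt (norm_nonneg _) hc]

lemma N_convex (i : ℕ) {c : ℝ} (hc : 0 ≤ c) : Convex ℝ {x | V.N i x ≤ c} := by
  rw [N_eq_ball V i hc]
  have : {x : E | ‖R V i x‖ ≤ Real.sqrt c} = (R V i) ⁻¹' (Metric.closedBall 0 (Real.sqrt c)) := by
    ext x; simp
  rw [this]
  exact (convex_closedBall _ _).linear_preimage (R V i).toLinearMap

lemma cap_convex (rho : ℝ) (i : ℕ) : Convex ℝ (V.cap rho i) :=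
  (V.M i).convex.inter (N_convex V i (mul_nonneg (sq_nonneg _) (rr_nonneg V i)))

lemma cap_compact (rho : ℝ) (i : ℕ) : IsCompact (V.cap rho i) := by
  refine Metric.isCompact_of_isClosed_isBounded (cap_closed V rho i) ?_
  refine (Metric.isBounded_closedBall (x := (0 : E))
    (r := Real.sqrt (rho ^ 2 * V.rr i))).subset fun x hx => ?_
  rw [mem_closedBall_zero_iff]
  exact Real.le_sqrt_of_sq_le ((norm_sq_le_N V hx.1).trans hx.2)

/-! ### Gaussian facts -/

lemma H_mem (i : ℕ) (g : E) : V.H i g ∈ V.M i := Mom764.H_mem V.anti th V.n i g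

lemma adjoint_H (i : ℕ) : (V.H i).adjoint = V.H i := Mom764.adjoint_H (M := V.M) th V.n i

lemma gau_inter_M (i : ℕ) {A : Set E} (hA : MeasurableSet A) :
    (gau (V.H i)).real (A ∩ V.M i) = (gau (V.H i)).real A :=
  F6core696.gau_real_inter_range (H_mem V i) hA

lemma k_cast (j : ℕ) : (V.k j : ℝ)
    = (Module.finrank ℝ (V.M j) : ℝ) - Module.finrank ℝ (V.M (j + 1)) := by
  unfold Flag.k
  rw [Nat.cast_sub (Submodule.finrank_mono (V.anti (Nat.le_succ j)))]

lemma integral_N (i : ℕ) : ∫ x, ‖R V i x‖ ^ 2 ∂(gau (V.H i)) = V.rr i := by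
  rw [Mom764.integral_gau _ (by fun_prop)]
  have h1 : ∀ g : E, ‖R V i (V.H i g)‖ ^ 2
      = ∑ j ∈ Finset.Ico i V.n, (th⁻¹) ^ (j - i) * ‖Mom764.Q V.M j (Mom764.H th V.M V.n i g)‖ ^ 2 :=
    fun g => by rw [norm_R_sq]; rfl
  simp only [h1]
  rw [integral_finsetSum]
  · unfold Flag.rr
    refine Finset.sum_congr rfl fun j hj => ?_
    rw [Finset.mem_Ico] at hj
    rw [integral_const_mul, Mom764.integral_norm_Q_sq V.anti th hj.1 hj.2, ← k_cast]
    have h2 : (th⁻¹) ^ (j - i) * th ^ (2 * (j - i)) = th ^ (j - i) := by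
      rw [two_mul, pow_add, ← mul_assoc, ← mul_pow, inv_mul_cancel₀ th_pos.ne', one_pow, one_mul]
    rw [← mul_assoc, h2]
  · intro j _
    exact (Mom764.integrable_norm_sq ((Mom764.Q V.M j) ∘L (Mom764.H th V.M V.n i))).const_mul _

/-- the one cut of a level -/
theorem cut {rho : ℝ} (hrho : 1 < rho) (i : ℕ) {K : Set E} (mK : MeasurableSet K)
    (cK : Convex ℝ K) (sK : ∀ x ∈ K, -x ∈ K) :
    (1 - 1 / rho ^ 2) * (gau (V.H i)).real K ≤ (gau (V.H i)).real (K ∩ V.cap rho i) := by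
  have hrho2 : 0 < rho ^ 2 := by positivity
  have hr := rr_nonneg V i
  have hcap : K ∩ V.cap rho i = (K ∩ {x | ‖R V i x‖ ≤ Real.sqrt (rho ^ 2 * V.rr i)}) ∩ V.M i := by
    rw [← N_eq_ball V i (mul_nonneg hrho2.le hr)]
    ext x
    simp only [Flag.cap, mem_inter_iff, mem_ofPred_eq, SetLike.mem_coe]
    tauto
  have mB : MeasurableSet {x : E | ‖R V i x‖ ≤ Real.sqrt (rho ^ 2 * V.rr i)} :=
    measurableSet_le (R V i).continuous.norm.measurable measurable_const
  rw [hcap, gau_inter_M V i (mK.inter mB)]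
  rcases hr.eq_or_lt with h0 | h0
  · -- degenerate level: `R` vanishes on the range
    have h1 : ∀ᵐ x ∂(gau (V.H i)), ‖R V i x‖ ^ 2 = 0 := by
      have h2 : ∫ x, ‖R V i x‖ ^ 2 ∂(gau (V.H i)) = 0 := by rw [integral_N, ← h0]
      have h3 : Integrable (fun x => ‖R V i x‖ ^ 2) (gau (V.H i)) := by
        rw [Mom764.integrable_gau_iff _ (by fun_prop)]
        exact Mom764.integrable_norm_sq ((R V i) ∘L (V.H i))
      exact (integral_eq_zero_iff_of_nonneg (fun x => by positivity) h3).1 h2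
    have h4 : (gau (V.H i)).real (K ∩ {x | ‖R V i x‖ ≤ Real.sqrt (rho ^ 2 * V.rr i)})
        = (gau (V.H i)).real K := by
      apply measureReal_congr
      filter_upwards [h1] with x hx
      have hx0 : ‖R V i x‖ = 0 := by simpa using hx
      apply propext
      constructor
      · exact fun h => h.1
      · intro h
        refine ⟨h, ?_⟩
        show ‖R V i x‖ ≤ _
        rw [hx0]; positivity
    rw [h4]
    have h5 : 0 ≤ (gau (V.H i)).real K := measureReal_nonneg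
    have h6 : 0 ≤ 1 / rho ^ 2 := by positivity
    nlinarith
  · have hpos : 0 < Real.sqrt (rho ^ 2 * V.rr i) := Real.sqrt_pos.2 (mul_pos hrho2 h0)
    have h := Dom640.gau_cut (V.H i) mK cK sK (R V i) hpos
    rw [integral_N, Real.sq_sqrt (mul_pos hrho2 h0).le] at h
    have e : V.rr i / (rho ^ 2 * V.rr i) = 1 / rho ^ 2 := by
      field_simp
    rwa [e] at h

lemma cap_pos {rho : ℝ} (hrho : 1 < rho) (i : ℕ) :
    1 - 1 / rho ^ 2 ≤ (gau (V.H i)).real (V.cap rho i) := by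
  have h := cut V hrho i (K := univ) MeasurableSet.univ convex_univ (fun _ _ => mem_univ _)
  rw [univ_inter] at h
  simpa using h

/-! ### admissible bodies -/

variable {V}

lemma one_lt_rho {p : Par} (hp : p.Ok) : 1 < p.rho := by linarith [hp.rho_ge]

lemma inv_rho_le {p : Par} (hp : p.Ok) : 1 / p.rho ^ 2 ≤ 1 / 256 := by
  have := hp.rho_ge
  apply one_div_le_one_div_of_le (by norm_num)
  nlinarith

lemma inv_rho_nonneg (p : Par) : 0 ≤ 1 / p.rho ^ 2 := by positivity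

lemma lam_pos {p : Par} (hp : p.Ok) (i : ℕ) : 0 < p.lam i := by
  have h1 := hp.tau_pos
  have h2 := hp.A_ge
  unfold Par.lam
  positivity

lemma adm_compact {p : Par} {i : ℕ} {K : Set E} (h : Adm p V i K) : IsCompact K :=
  (cap_compact V p.rho i).of_isClosed_subset h.1 h.2.2.2.1

lemma adm_pos {p : Par} {i : ℕ} {K : Set E} (h : Adm p V i K) : 0 < (gau (V.H i)).real K :=
  h.2.2.2.2

lemma adm_zero {p : Par} {i : ℕ} {K : Set E} (h : Adm p V i K) : (0 : E) ∈ K := by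
  have hne : K.Nonempty := by
    by_contra hc
    rw [not_nonempty_iff_eq_empty] at hc
    have := adm_pos h
    rw [hc] at this
    simp at this
  obtain ⟨x, hx⟩ := hne
  have := h.2.1 hx (h.2.2.1 x hx) (by norm_num : (0 : ℝ) ≤ 1 / 2) (by norm_num : (0 : ℝ) ≤ 1 / 2)
    (by norm_num)
  simpa using this

lemma adm_cap {p : Par} (hp : p.Ok) (V : Flag E) (i : ℕ) : Adm p V i (V.cap p.rho i) := by
  refine ⟨cap_closed V _ i, cap_convex V _ i, cap_symm V _ i, subset_rfl, ?_⟩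
  have := cap_pos V (one_lt_rho hp) i
  have := inv_rho_le hp
  linarith

lemma hs_nonneg {K : Set E} (hK : IsCompact K) (h0 : (0 : E) ∈ K) (z : E) : 0 ≤ hs K z := by
  have h : ⟪(0 : E), z⟫ ≤ hs K z := F6core696.le_hs hK h0 z
  simpa using h

lemma Eh_nonneg {K : Set E} (hK : IsCompact K) (h0 : (0 : E) ∈ K) (μ : Multiset E) :
    0 ≤ Eh K μ := by
  unfold Eh
  apply Multiset.sum_nonneg
  intro x hx
  obtain ⟨z, _, rfl⟩ := Multiset.mem_map.1 hx
  exact hs_nonneg hK h0 z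

lemma Eh_mono {K B : Set E} (hK : IsCompact K) (hB : B.Nonempty) (h : B ⊆ K) (μ : Multiset E) :
    Eh B μ ≤ Eh K μ := by
  unfold Eh
  apply Multiset.sum_map_le_sum_map
  intro z _
  exact F6core696.hs_mono hK hB h z

lemma val_nonneg {p : Par} (hp : p.Ok) {i : ℕ} {μ : Multiset E} {K : Set E} (h : Adm p V i K) :
    0 ≤ val p V i μ K := by
  unfold val
  have h1 := Eh_nonneg (adm_compact h) (adm_zero h) μ
  have h2 : Real.log ((gau (V.H i)).real K) ≤ 0 :=
    Real.log_nonpos measureReal_nonneg measureReal_le_one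
  have h3 := mul_nonneg_of_nonpos_of_nonpos (by linarith [lam_pos hp i] : -p.lam i ≤ 0) h2
  linarith

lemma bddBelow_val {p : Par} (hp : p.Ok) (V : Flag E) (i : ℕ) (μ : Multiset E) :
    BddBelow (val p V i μ '' {K | Adm p V i K}) := by
  refine ⟨0, ?_⟩
  rintro _ ⟨K, hK, rfl⟩
  exact val_nonneg hp hK

lemma D_le {p : Par} (hp : p.Ok) {i : ℕ} {μ : Multiset E} {K : Set E} (h : Adm p V i K) :
    D p V i μ ≤ val p V i μ K :=
  csInf_le (bddBelow_val hp V i μ) ⟨K, h, rfl⟩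

lemma le_D {p : Par} (hp : p.Ok) {i : ℕ} {μ : Multiset E} {c : ℝ}
    (h : ∀ K, Adm p V i K → c ≤ val p V i μ K) : c ≤ D p V i μ := by
  refine le_csInf ⟨_, ⟨_, adm_cap hp V i, rfl⟩⟩ ?_
  rintro _ ⟨K, hK, rfl⟩
  exact h K hK

lemma D_nonneg {p : Par} (hp : p.Ok) (V : Flag E) (i : ℕ) (μ : Multiset E) : 0 ≤ D p V i μ :=
  le_D hp fun _ hK => val_nonneg hp hK

lemma exists_near {p : Par} (hp : p.Ok) (V : Flag E) (i : ℕ) (μ : Multiset E) {e : ℝ}
    (he : 0 < e) : ∃ K, Adm p V i K ∧ val p V i μ K ≤ D p V i μ + e := by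
  have h : sInf (val p V i μ '' {K | Adm p V i K}) < D p V i μ + e := by
    show D p V i μ < _
    linarith
  have hne : (val p V i μ '' {K | Adm p V i K}).Nonempty := ⟨_, ⟨_, adm_cap hp V i, rfl⟩⟩
  obtain ⟨_, ⟨K, hK, rfl⟩, h1⟩ := exists_lt_of_csInf_lt hne h
  exact ⟨K, hK, h1.le⟩

lemma D_congr {p : Par} {V V' : Flag E} {i : ℕ} (hH : V.H i = V'.H i)
    (hc : V.cap p.rho i = V'.cap p.rho i) (μ : Multiset E) : D p V i μ = D p V' i μ := by
  unfold D val Adm
  rw [hH, hc]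

end Crest.Agent.R239.Fl597
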