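import Crest.Agent.R239.FDef
import Crest.Agent.R239.Fl_597
import Crest.Agent.R239.DemLin_853
import Crest.Agent.R239.DemLow_876

/-! R239, block F4a (helper876): the demoted flag, all levels, and the penalty. -/

set_option autoImplicit false
set_option linter.unusedSectionVars false
open MeasureTheory ProbabilityTheory Set Module
open scoped RealInnerProductSpace InnerProduct

namespace Crest.Agent.R239.DemLev876

open Crest.Agent.R239 Crest.Agent.R239.FD Crest.Agent.R239.Dem853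

variable {E : Type*} [NormedAddCommGroup E] [InnerProductSpace ℝ E] [FiniteDimensional ℝ E]
  [MeasurableSpace E] [BorelSpace E]

lemma th_pos : 0 < th := by norm_num [th]
lemma th_le_one : th ≤ 1 := by norm_num [th]

lemma H_eq_Hm (V : Flag E) (l : ℕ) : V.H l = Hm th V.n V.M l := rfl

lemma Q_eq_blkP (V : Flag E) (j : ℕ) : V.Q j = blkP V.M j := rfl

lemma k_eq_kd (V : Flag E) (j : ℕ) : V.k j = kd V.M j := rfl

/-- sums of the levels below `i` -/
lemma sum_lam_le {p : Par} (hp : p.Ok) (i : ℕ) (hi : 1 ≤ i) :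
    ∑ l ∈ Finset.range i, p.lam l ≤ 2 * p.lam (i - 1) := by
  obtain ⟨m, rfl⟩ : ∃ m, i = m + 1 := ⟨i - 1, by omega⟩
  clear hi
  simp only [Nat.add_sub_cancel]
  induction m with
  | zero =>
    have := Fl597.lam_pos hp 0
    simp only [zero_add, Finset.sum_range_one]; linarith
  | succ m ih =>
    rw [Finset.sum_range_succ]
    have h1 : p.lam (m + 1) = p.A * p.lam m := by unfold Par.lam; ring
    have h2 := Fl597.lam_pos hp m
    have h3 := hp.A_ge
    nlinarith

/-- a unit vector of the block `i` -/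
structure Unit (V : Flag E) (i : ℕ) (w : E) : Prop where
  norm : ‖w‖ = 1
  mem : w ∈ V.M i
  orth : w ∈ (V.M (i + 1))ᗮ

/-- `Q i w = w` characterises the block vectors -/
lemma unit_of_Q {V : Flag E} {i : ℕ} {w : E} (hn : ‖w‖ = 1) (hw : V.Q i w = w) : Unit V i w := by
  have hle : V.M (i + 1) ≤ V.M i := V.anti (Nat.le_succ i)
  have h1 : w ∈ V.M i := by
    rw [← hw]
    exact (V.M i).sub_mem ((V.M i).starProjection_apply_mem w)
      (hle ((V.M (i + 1)).starProjection_apply_mem w))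
  refine ⟨hn, h1, ?_⟩
  have h2 : (V.M (i + 1)).starProjection w = 0 := by
    have h3 : (V.M i).starProjection w = w := Submodule.starProjection_eq_self_iff.2 h1
    have h4 : (V.M i).starProjection w - (V.M (i + 1)).starProjection w = w := hw
    rw [h3] at h4
    exact sub_eq_self.1 h4
  exact (Submodule.starProjection_apply_eq_zero_iff _).1 h2

section

variable {V : Flag E} {i : ℕ} {w : E} (hu : Unit V i w)
include hu

lemma Unit.lt : i < V.n := by
  by_contra h
  have h1 := hu.mem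
  rw [V.bot i (not_lt.1 h), Submodule.mem_bot] at h1
  have := hu.norm
  rw [h1, norm_zero] at this
  norm_num at this

lemma Unit.P_le {j : ℕ} (hj : j ≤ i) : (V.M j).starProjection w = w :=
  Submodule.starProjection_eq_self_iff.2 (V.anti hj hu.mem)

lemma Unit.P_gt {j : ℕ} (hj : i < j) : (V.M j).starProjection w = 0 := by
  refine (Submodule.starProjection_apply_eq_zero_iff _).2 ?_
  exact Submodule.orthogonal_le (V.anti (Nat.succ_le_of_lt hj)) hu.orth

lemma Unit.Q_self : V.Q i w = w := by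
  rw [Q_eq_blkP, blkP_apply, hu.P_le le_rfl, hu.P_gt (Nat.lt_succ_self i), sub_zero]

lemma Unit.Q_ne {j : ℕ} (hj : j ≠ i) : V.Q j w = 0 := by
  rw [Q_eq_blkP, blkP_apply]
  rcases lt_or_gt_of_ne hj with h | h
  · rw [hu.P_le h.le, hu.P_le (Nat.succ_le_of_lt h), sub_self]
  · rw [hu.P_gt h, hu.P_gt (by omega), sub_self]

lemma Unit.H_w {l : ℕ} (hl : l ≤ i) : V.H l w = th ^ (i - l) • w := by
  unfold Flag.H
  rw [sum_apply, Finset.sum_eq_single i]
  · rw [smul_apply, hu.Q_self]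
  · intro j _ hj
    rw [smul_apply, hu.Q_ne hj, smul_zero]
  · intro h
    exact absurd (Finset.mem_Ico.2 ⟨hl, hu.lt⟩) h

/-- the demoted flag -/
noncomputable def Unit.dem : Flag E where
  n := V.n
  M := demM V.M i w
  anti := demM_anti V.anti hu.orth
  bot := fun j hj => by
    have h := demM_le V.M i w j
    rw [V.bot j hj] at h
    exact le_bot_iff.1 h

lemma Unit.dem_H_gt {l : ℕ} (h : i < l) : hu.dem.H l = V.H l := Hm_dem_gt th V.n V.M w h

lemma Unit.dem_H_self : hu.dem.H i = V.H i - rk1 w := Hm_dem_self th hu.lt hu.mem hu.norm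

lemma Unit.dem_H_self_apply (x : E) : hu.dem.H i x = V.H i (x - ⟪w, x⟫ • w) := by
  rw [hu.dem_H_self, map_sub, map_smul, hu.H_w le_rfl]
  simp

lemma Unit.dem_H_lt {l : ℕ} (h : l < i) :
    hu.dem.H l = V.H l + (th ^ (i - 1 - l) - th ^ (i - l)) • rk1 w :=
  Hm_dem_lt th hu.lt h hu.mem hu.norm

lemma Unit.dem_adj {l : ℕ} (h : l < i) (t : E) : ‖(V.H l).adjoint t‖ ≤ ‖(hu.dem.H l).adjoint t‖ := by
  rw [Fl597.adjoint_H, Fl597.adjoint_H, hu.dem_H_lt h]
  set c := th ^ (i - 1 - l) - th ^ (i - l) with hc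
  have hc0 : 0 ≤ c := by
    have := pow_le_pow_of_le_one th_pos.le th_le_one (by omega : i - 1 - l ≤ i - l)
    rw [hc]; linarith
  have h1 : ⟪V.H l t, w⟫ = th ^ (i - l) * ⟪w, t⟫ := by
    have h2 : ⟪V.H l t, w⟫ = ⟪t, (V.H l).adjoint w⟫ :=
      (ContinuousLinearMap.adjoint_inner_right (V.H l) t w).symm
    rw [h2, Fl597.adjoint_H, hu.H_w h.le, inner_smul_right, real_inner_comm]
  have h3 : ‖(V.H l + c • rk1 w) t‖ ^ 2
      = ‖V.H l t‖ ^ 2 + (2 * c * th ^ (i - l) + c ^ 2) * ⟪w, t⟫ ^ 2 := by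
    have h4 : (V.H l + c • rk1 w) t = V.H l t + (c * ⟪w, t⟫) • w := by
      simp [smul_smul]
    rw [h4, norm_add_sq_real, inner_smul_right, h1, norm_smul, hu.norm, mul_one,
      Real.norm_eq_abs, sq_abs]
    ring
  have h5 : 0 ≤ (2 * c * th ^ (i - l) + c ^ 2) * ⟪w, t⟫ ^ 2 := by
    have := th_pos
    positivity
  refine (pow_le_pow_iff_left₀ (norm_nonneg _) (norm_nonneg _) two_ne_zero).1 ?_
  rw [h3]; linarith

/-! ### levels above `i` -/

lemma Unit.dem_Q_gt {j : ℕ} (h : i < j) : hu.dem.Q j = V.Q j :=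
  blkP_dem_ne V.M w (by omega) (by omega)

lemma Unit.dem_k_gt {j : ℕ} (h : i < j) : hu.dem.k j = V.k j :=
  kd_dem_ne V.M w (by omega) (by omega)

lemma Unit.dem_k_lt {j : ℕ} (h : j + 1 < i) : hu.dem.k j = V.k j :=
  kd_dem_ne V.M w (by omega) (by omega)

lemma Unit.dem_k_self : hu.dem.k i + 1 = V.k i :=
  kd_dem_self V.anti hu.mem hu.orth hu.norm

lemma Unit.dem_k_pred {j : ℕ} (h : j + 1 = i) : hu.dem.k j = V.k j + 1 :=
  kd_dem_pred V.anti h hu.mem hu.orth hu.norm

lemma Unit.dem_M_gt {j : ℕ} (h : i < j) : hu.dem.M j = V.M j := demM_ne V.M w (by omega)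

lemma Unit.dem_N_gt {l : ℕ} (h : i < l) (x : E) : hu.dem.N l x = V.N l x := by
  unfold Flag.N
  refine Finset.sum_congr rfl fun j hj => ?_
  rw [hu.dem_Q_gt (by have := (Finset.mem_Ico.1 hj).1; omega)]

lemma Unit.dem_rr_gt {l : ℕ} (h : i < l) : hu.dem.rr l = V.rr l := by
  unfold Flag.rr
  refine Finset.sum_congr rfl fun j hj => ?_
  rw [hu.dem_k_gt (by have := (Finset.mem_Ico.1 hj).1; omega)]

lemma Unit.dem_cap_gt (rho : ℝ) {l : ℕ} (h : i < l) : hu.dem.cap rho l = V.cap rho l := by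
  unfold Flag.cap
  ext x
  simp only [mem_ofPred_eq]
  rw [hu.dem_M_gt h, hu.dem_N_gt h, hu.dem_rr_gt h]

lemma Unit.dem_D_gt (p : Par) {l : ℕ} (h : i < l) (μ : Multiset E) :
    D p hu.dem l μ = D p V l μ :=
  Fl597.D_congr (hu.dem_H_gt h) (hu.dem_cap_gt p.rho h) μ

/-! ### the level `i` -/

lemma Unit.dem_cap_self (rho : ℝ) : hu.dem.cap rho i ⊆ V.cap rho i := by
  rintro x ⟨h1, h2⟩
  have h1' : x ∈ cutSub (V.M i) w := by
    have : hu.dem.M i = cutSub (V.M i) w := demM_self V.M i w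
    rwa [this] at h1
  rw [mem_cutSub] at h1'
  refine ⟨h1'.1, ?_⟩
  have hQ : ∀ j ∈ Finset.Ico i V.n, hu.dem.Q j x = V.Q j x := by
    intro j hj
    by_cases hji : j = i
    · subst hji
      have : hu.dem.Q j = blkP V.M j - rk1 w := blkP_dem_self hu.mem hu.norm
      rw [this, sub_apply, rk1_apply, h1'.2, zero_smul, sub_zero]
      rfl
    · rw [hu.dem_Q_gt (by have := (Finset.mem_Ico.1 hj).1; omega)]
  have hN : hu.dem.N i x = V.N i x := by
    unfold Flag.N
    refine Finset.sum_congr rfl fun j hj => ?_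
    rw [hQ j hj]
  have hr : hu.dem.rr i ≤ V.rr i := by
    unfold Flag.rr
    refine Finset.sum_le_sum fun j hj => ?_
    have hk : (hu.dem.k j : ℝ) ≤ V.k j := by
      by_cases hji : j = i
      · subst hji
        have := hu.dem_k_self
        exact_mod_cast (by omega : hu.dem.k j ≤ V.k j)
      · rw [hu.dem_k_gt (by have := (Finset.mem_Ico.1 hj).1; omega)]
    exact mul_le_mul_of_nonneg_left hk (pow_nonneg th_pos.le _)
  rw [← hN]
  exact h2.trans (mul_le_mul_of_nonneg_left hr (sq_nonneg _))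

/-! ### levels below `i` -/

lemma Unit.dem_D_lt {p : Par} (hp : p.Ok) {l : ℕ} (h : l < i) (μ : Multiset E) :
    D p V l μ - 2 / p.rho ^ 2 * p.lam l ≤ D p hu.dem l μ := by
  refine Fl597.le_D hp fun K hK => ?_
  have h1 := Fl597.cut V (Fl597.one_lt_rho hp) l hK.1.measurableSet hK.2.1 hK.2.2.1
  have h2 : (gau (hu.dem.H l)).real K ≤ (gau (V.H l)).real K :=
    ENNReal.toReal_mono (measure_ne_top _ _)
      (AnSym853.gau_mono_symm (hu.dem_adj h) hK.1 hK.2.1 hK.2.2.1)
  have he := Fl597.inv_rho_le hp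
  have he0 := Fl597.inv_rho_nonneg p
  have h3 : (1 - 1 / p.rho ^ 2) ^ 1 * (gau (hu.dem.H l)).real K
      ≤ (gau (V.H l)).real (K ∩ V.cap p.rho l) := by
    rw [pow_one]
    exact (mul_le_mul_of_nonneg_left h2 (by linarith)).trans h1
  have hpos : 0 < (gau (hu.dem.H l)).real K := hK.2.2.2.2
  have hpos' : 0 < (gau (V.H l)).real (K ∩ V.cap p.rho l) := by
    refine lt_of_lt_of_le ?_ h3
    have : (0:ℝ) < 1 - 1 / p.rho ^ 2 := by linarith
    positivity
  have hadm : Adm p V l (K ∩ V.cap p.rho l) :=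
    ⟨hK.1.inter (Fl597.cap_closed V _ l), hK.2.1.inter (Fl597.cap_convex V _ l),
      fun x hx => ⟨hK.2.2.1 x hx.1, Fl597.cap_symm V _ l x hx.2⟩, inter_subset_right, hpos'⟩
  have h4 := Fl597.D_le (μ := μ) hp hadm
  have h5 := DemLow876.neg_log_le he0 (by linarith) hpos h3
  have h6 : Eh (K ∩ V.cap p.rho l) μ ≤ Eh K μ :=
    Fl597.Eh_mono (Fl597.adm_compact hK)
      ⟨0, Fl597.adm_zero hadm⟩ inter_subset_left μ
  have hl := Fl597.lam_pos hp l
  have h7 := mul_le_mul_of_nonneg_left h5 hl.le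
  unfold val at h4 ⊢
  have h8 : p.lam l * (-Real.log ((gau (hu.dem.H l)).real K) + 2 * (1 / p.rho ^ 2) * (1 : ℕ))
      = -(p.lam l * Real.log ((gau (hu.dem.H l)).real K)) + 2 / p.rho ^ 2 * p.lam l := by
    push_cast; ring
  rw [h8] at h7
  linarith

/-- **demotion, all levels** -/
theorem Unit.dem_J {p : Par} (hp : p.Ok) (hi : 1 ≤ i) (μ : Multiset E) :
    J p V μ + p.kap * (p.lam i - p.lam (i - 1)) - (4 / p.rho ^ 2) * p.lam (i - 1)
      ≤ J p hu.dem μ + (D p V i μ - D p hu.dem i μ) := by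
  have hlt := hu.lt
  have hn : hu.dem.n = V.n := rfl
  unfold J
  rw [hn]
  have hr2 : 0 ≤ 2 / p.rho ^ 2 := by have := Fl597.inv_rho_nonneg p; positivity
  -- termwise comparison
  have hterm : ∀ l ∈ Finset.range V.n,
      (D p V l μ - p.kap * p.lam l * V.k l)
        + (if l = i then p.kap * p.lam i else 0)
        - (if l = i - 1 then p.kap * p.lam (i - 1) else 0)
        - (if l < i then 2 / p.rho ^ 2 * p.lam l else 0)
      ≤ (D p hu.dem l μ - p.kap * p.lam l * hu.dem.k l)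
        + (if l = i then (D p V i μ - D p hu.dem i μ) else 0) := by
    intro l _
    rcases lt_trichotomy l i with h | h | h
    · have h1 := hu.dem_D_lt hp h μ
      rw [if_neg h.ne, if_neg h.ne, if_pos h]
      by_cases hp1 : l = i - 1
      · have hk := hu.dem_k_pred (j := l) (by omega)
        have hk' : (hu.dem.k l : ℝ) = V.k l + 1 := by exact_mod_cast hk
        rw [if_pos hp1, hk', ← hp1]
        linarith [mul_add (p.kap * p.lam l) (V.k l : ℝ) 1]
      · have hk := hu.dem_k_lt (j := l) (by omega)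
        rw [if_neg hp1, hk]
        linarith
    · subst h
      rw [if_pos rfl, if_pos rfl, if_neg (by omega), if_neg (lt_irrefl _)]
      have hk := hu.dem_k_self
      have hk' : (V.k l : ℝ) = hu.dem.k l + 1 := by exact_mod_cast hk.symm
      rw [hk']
      linarith [mul_add (p.kap * p.lam l) (hu.dem.k l : ℝ) 1]
    · rw [if_neg h.ne', if_neg h.ne', if_neg (by omega), if_neg (by omega),
        hu.dem_D_gt p h μ, hu.dem_k_gt h]
      linarith
  have hs := Finset.sum_le_sum hterm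
  simp only [Finset.sum_add_distrib, Finset.sum_sub_distrib, Finset.sum_ite_eq'] at hs
  rw [if_pos (Finset.mem_range.2 hlt), if_pos (Finset.mem_range.2 (by omega : i - 1 < V.n)),
    if_pos (Finset.mem_range.2 hlt)] at hs
  have h9 : ∑ l ∈ Finset.range V.n, (if l < i then 2 / p.rho ^ 2 * p.lam l else 0)
      = 2 / p.rho ^ 2 * ∑ l ∈ Finset.range i, p.lam l := by
    rw [← Finset.sum_filter, Finset.mul_sum]
    refine Finset.sum_congr ?_ fun _ _ => rfl
    ext l
    simp only [Finset.mem_filter, Finset.mem_range]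
    omega
  rw [h9] at hs
  have h10 := mul_le_mul_of_nonneg_left (sum_lam_le hp i hi) hr2
  have h11 : 2 / p.rho ^ 2 * (2 * p.lam (i - 1)) = 4 / p.rho ^ 2 * p.lam (i - 1) := by ring
  rw [h11] at h10
  simp only [Finset.sum_sub_distrib]
  linarith

end

/-- **exists_dem** (literal of helper236) -/
theorem exists_dem {p : Par} (hp : p.Ok) (V : Flag E) (i : ℕ) (hi : 1 ≤ i) (w : E) (hn : ‖w‖ = 1)
    (hw : V.Q i w = w) : ∃ W : Flag E, (∀ x, W.H i x = V.H i (x - ⟪w, x⟫ • w)) ∧
      W.cap p.rho i ⊆ V.cap p.rho i ∧ ∀ μ : Multiset E,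
      J p V μ + p.kap * (p.lam i - p.lam (i - 1)) - (8 / p.rho ^ 2) * p.lam (i - 1)
        ≤ J p W μ + (D p V i μ - D p W i μ) := by
  have hu := unit_of_Q hn hw
  refine ⟨hu.dem, hu.dem_H_self_apply, hu.dem_cap_self p.rho, fun μ => ?_⟩
  have h := hu.dem_J hp hi μ
  have h1 : 0 ≤ (4 / p.rho ^ 2) * p.lam (i - 1) := by
    have := Fl597.lam_pos hp (i - 1)
    positivity
  have h2 : (8 / p.rho ^ 2) * p.lam (i - 1) = 2 * ((4 / p.rho ^ 2) * p.lam (i - 1)) := by ring
  rw [h2]
  linarith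

end Crest.Agent.R239.DemLev876
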