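import Crest.Agent.R239.CutBlk_853

/-! R239, block F4a (helper853): the levels below the demoted level. -/

set_option autoImplicit false
set_option linter.unusedSectionVars false
open MeasureTheory ProbabilityTheory Set Filter Topology Metric Module
open scoped RealInnerProductSpace ENNReal NNReal InnerProduct Pointwise

namespace Crest.Agent.R239.Dem853

open Crest.Agent.R239 Crest.Agent.R239.Soft450 Crest.Agent.R239.AnSym853

variable {E : Type*} [NormedAddCommGroup E] [InnerProductSpace ℝ E] [FiniteDimensional ℝ E]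
  [MeasurableSpace E] [BorelSpace E]

/-- the cap form `N_l` -/
noncomputable def capN (θ : ℝ) (n : ℕ) (M : ℕ → Submodule ℝ E) (l : ℕ) (x : E) : ℝ :=
  ∑ j ∈ Finset.Ico l n, (θ⁻¹) ^ (j - l) * ‖blkP M j x‖ ^ 2

/-- its Gaussian mean -/
noncomputable def capR (θ : ℝ) (n : ℕ) (M : ℕ → Submodule ℝ E) (l : ℕ) : ℝ :=
  ∑ j ∈ Finset.Ico l n, θ ^ (j - l) * (kd M j : ℝ)

/-- the cap map in Gaussian coordinates: `N_l (H_l g) = ‖B g‖²` -/
noncomputable def capB (θ : ℝ) (n : ℕ) (M : ℕ → Submodule ℝ E) (l : ℕ) : E →L[ℝ] E :=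
  ∑ j ∈ Finset.Ico l n, (√θ) ^ (j - l) • blkP M j

lemma capN_Hm {θ : ℝ} (hθ : 0 < θ) {n : ℕ} {M : ℕ → Submodule ℝ E} (hM : Antitone M) (l : ℕ)
    (g : E) : capN θ n M l (Hm θ n M l g) = ‖capB θ n M l g‖ ^ 2 := by
  unfold capN capB
  rw [norm_sum_blkP_sq hM]
  refine Finset.sum_congr rfl fun j hj => ?_
  rw [Finset.mem_Ico] at hj
  rw [blkP_Hm θ hM hj.1 hj.2, norm_smul, mul_pow, Real.norm_eq_abs, sq_abs, ← pow_mul, ← pow_mul,
    mul_comm (j - l) 2, pow_mul, pow_mul, Real.sq_sqrt hθ.le, inv_pow]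
  have : θ ^ (j - l) ≠ 0 := (pow_pos hθ _).ne'
  rw [← pow_mul, mul_comm 2 (j - l), pow_mul]
  field_simp

lemma integral_capB {θ : ℝ} (hθ : 0 < θ) (n : ℕ) {M : ℕ → Submodule ℝ E} (hM : Antitone M)
    (l : ℕ) : ∫ g, ‖capB θ n M l g‖ ^ 2 ∂(stdGaussian E) = capR θ n M l := by
  unfold capB capR
  rw [integral_sum_blkP_sq hM]
  refine Finset.sum_congr rfl fun j _ => ?_
  rw [← pow_mul, mul_comm (j - l) 2, pow_mul, Real.sq_sqrt hθ.le]

lemma capN_eq_zero {θ : ℝ} (hθ : 0 < θ) {n : ℕ} {M : ℕ → Submodule ℝ E} (hM : Antitone M) {l : ℕ}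
    (h : capR θ n M l = 0) (x : E) : capN θ n M l x = 0 := by
  unfold capR at h
  rw [Finset.sum_eq_zero_iff_of_nonneg fun j _ => by positivity] at h
  unfold capN
  refine Finset.sum_eq_zero fun j hj => ?_
  have h1 := h j hj
  have h2 : kd M j = 0 := by
    rcases mul_eq_zero.1 h1 with h3 | h3
    · exact absurd h3 (pow_pos hθ _).ne'
    · exact_mod_cast h3
  rw [blkP_eq_zero hM h2]
  simp

lemma capR_nonneg {θ : ℝ} (hθ : 0 < θ) (n : ℕ) (M : ℕ → Submodule ℝ E) (l : ℕ) :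
    0 ≤ capR θ n M l := Finset.sum_nonneg fun j _ => by positivity

lemma continuous_capN (θ : ℝ) (n : ℕ) (M : ℕ → Submodule ℝ E) (l : ℕ) :
    Continuous (capN θ n M l) := by
  unfold capN
  fun_prop

/-- **one cut per level** -/
theorem cutN {θ : ℝ} (hθ : 0 < θ) {ρ : ℝ} (hρ : 0 < ρ) {n : ℕ}
    {M : ℕ → Submodule ℝ E} (hM : Antitone M) (l : ℕ)
    {K : Set E} (hK : IsClosed K) (cK : Convex ℝ K) (sK : ∀ x ∈ K, -x ∈ K) :
    (1 - 1 / ρ ^ 2) * (gau (Hm θ n M l)).real K ≤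
      (gau (Hm θ n M l)).real (K ∩ {x | capN θ n M l x ≤ ρ ^ 2 * capR θ n M l}) := by
  by_cases hk : capR θ n M l = 0
  · have : (K ∩ {x | capN θ n M l x ≤ ρ ^ 2 * capR θ n M l}) = K := by
      ext x
      simp [capN_eq_zero hθ hM hk, hk]
    rw [this]
    have h0 : (0:ℝ) ≤ (gau (Hm θ n M l)).real K := measureReal_nonneg
    have : (0:ℝ) ≤ 1 / ρ ^ 2 := by positivity
    nlinarith
  · set H := Hm θ n M l with hH
    have hkpos : 0 < capR θ n M l := lt_of_le_of_ne (capR_nonneg hθ n M l) (Ne.symm hk)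
    have hr : 0 < ρ * √(capR θ n M l) := by positivity
    have hc := Dom640.cut (K := H ⁻¹' K) (hK.preimage H.continuous).measurableSet
      (cK.is_linear_preimage H.toLinearMap.isLinear)
      (fun x hx => by
        change H (-x) ∈ K
        rw [map_neg]; exact sK _ hx)
      (capB θ n M l) hr
    rw [integral_capB hθ n hM, mul_pow, Real.sq_sqrt hkpos.le] at hc
    have hrat : capR θ n M l / (ρ ^ 2 * capR θ n M l) = 1 / ρ ^ 2 := by
      field_simp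
    rw [hrat] at hc
    have hset : MeasurableSet (K ∩ {x | capN θ n M l x ≤ ρ ^ 2 * capR θ n M l}) :=
      hK.measurableSet.inter (measurableSet_le (continuous_capN θ n M l).measurable (by fun_prop))
    rw [gau_real_apply H hK.measurableSet, gau_real_apply H hset]
    refine hc.trans (le_of_eq ?_)
    congr 1
    ext g
    simp only [mem_inter_iff, mem_preimage, mem_ofPred_eq]
    refine and_congr_right fun _ => ?_
    rw [hH, capN_Hm hθ hM]
    rw [show ρ ^ 2 * capR θ n M l = (ρ * √(capR θ n M l)) ^ 2 by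
      rw [mul_pow, Real.sq_sqrt hkpos.le]]
    rw [pow_le_pow_iff_left₀ (norm_nonneg _) hr.le two_ne_zero]

lemma star_of_orth {W : Submodule ℝ E} {w : E} (hw : w ∈ Wᗮ) : W.starProjection w = 0 :=
  (Submodule.starProjection_apply_eq_zero_iff W).2 hw

lemma blkP_dir {M : ℕ → Submodule ℝ E} (hM : Antitone M) {i : ℕ} {w : E} (hw : w ∈ M i)
    (hw' : w ∈ (M (i + 1))ᗮ) (j : ℕ) : blkP M j w = if j = i then w else 0 := by
  have h1 : ∀ j, j ≤ i → (M j).starProjection w = w := fun j hj =>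
    Submodule.starProjection_eq_self_iff.2 (hM hj hw)
  have h2 : ∀ j, i < j → (M j).starProjection w = 0 := fun j hj =>
    star_of_orth (Submodule.orthogonal_le (hM hj) hw')
  rw [blkP_apply]
  rcases lt_trichotomy j i with h | h | h
  · rw [if_neg h.ne, h1 j h.le, h1 (j + 1) h, sub_self]
  · subst h; rw [if_pos rfl, h1 j le_rfl, h2 (j + 1) (Nat.lt_succ_self j), sub_zero]
  · rw [if_neg h.ne', h2 j h, h2 (j + 1) (by omega), sub_self]

lemma Hm_dir (θ : ℝ) {n : ℕ} {M : ℕ → Submodule ℝ E} (hM : Antitone M) {i l : ℕ} {w : E}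
    (hin : i < n) (hli : l ≤ i) (hw : w ∈ M i) (hw' : w ∈ (M (i + 1))ᗮ) :
    Hm θ n M l w = θ ^ (i - l) • w := by
  unfold Hm
  simp only [sum_apply, smul_apply]
  rw [Finset.sum_eq_single i]
  · rw [blkP_dir hM hw hw', if_pos rfl]
  · intro j _ hj
    rw [blkP_dir hM hw hw', if_neg hj, smul_zero]
  · intro h
    exact absurd (Finset.mem_Ico.2 ⟨hli, hin⟩) h

lemma norm_Hm_le_dem {θ : ℝ} (hθ : 0 ≤ θ) (hθ1 : θ ≤ 1) {n : ℕ} {M : ℕ → Submodule ℝ E}
    (hM : Antitone M) {i l : ℕ} {w : E} (hin : i < n) (hli : l < i) (hw : w ∈ M i)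
    (hw' : w ∈ (M (i + 1))ᗮ) (hn : ‖w‖ = 1) (t : E) :
    ‖(Hm θ n M l).adjoint t‖ ≤ ‖(Hm θ n (demM M i w) l).adjoint t‖ := by
  rw [adjoint_Hm, adjoint_Hm, Hm_dem_lt θ hin hli hw hn]
  set c : ℝ := θ ^ (i - 1 - l) - θ ^ (i - l) with hc
  have hc0 : 0 ≤ c := by
    rw [hc, sub_nonneg]
    exact pow_le_pow_of_le_one hθ hθ1 (by omega)
  have h1 : ⟪Hm θ n M l t, w⟫ = θ ^ (i - l) * ⟪w, t⟫ := by
    rw [inner_Hm_left, Hm_dir θ hM hin hli.le hw hw', inner_smul_right, real_inner_comm]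
  have h2 : ‖(Hm θ n M l + c • rk1 w) t‖ ^ 2
      = ‖Hm θ n M l t‖ ^ 2 + (2 * c * θ ^ (i - l) + c ^ 2) * ⟪w, t⟫ ^ 2 := by
    rw [add_apply, smul_apply, rk1_apply, norm_add_sq_real, inner_smul_right, inner_smul_right, h1,
      norm_smul, norm_smul, hn, Real.norm_eq_abs, Real.norm_eq_abs, mul_one, mul_pow, sq_abs,
      sq_abs]
    ring
  have h3 : 0 ≤ (2 * c * θ ^ (i - l) + c ^ 2) * ⟪w, t⟫ ^ 2 := by positivity
  exact (pow_le_pow_iff_left₀ (norm_nonneg _) (norm_nonneg _) two_ne_zero).1 (by rw [h2]; linarith)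

/-- **lower levels**: the measure of the cut body at a level `l < i`. -/
theorem low_measure {θ : ℝ} (hθ : 0 < θ) (hθ1 : θ ≤ 1) {ρ : ℝ} (hρ : 1 < ρ)
    {n : ℕ} {M : ℕ → Submodule ℝ E} (hM : Antitone M) {i l : ℕ} {w : E} (hin : i < n)
    (hli : l < i) (hw : w ∈ M i) (hw' : w ∈ (M (i + 1))ᗮ) (hn : ‖w‖ = 1)
    {K : Set E} (hK : IsClosed K) (cK : Convex ℝ K) (sK : ∀ x ∈ K, -x ∈ K) :
    (1 - 1 / ρ ^ 2) * (gau (Hm θ n (demM M i w) l)).real K ≤
      (gau (Hm θ n M l)).real (K ∩ {x | capN θ n M l x ≤ ρ ^ 2 * capR θ n M l}) := by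
  have hρ0 : 0 < ρ := by linarith
  have h1 : (gau (Hm θ n (demM M i w) l)).real K ≤ (gau (Hm θ n M l)).real K := by
    have := gau_mono_symm (S := Hm θ n M l) (C := Hm θ n (demM M i w) l)
      (norm_Hm_le_dem hθ.le hθ1 hM hin hli hw hw' hn) hK cK sK
    exact ENNReal.toReal_mono (measure_ne_top _ _) this
  have h4 : 0 ≤ 1 - 1 / ρ ^ 2 := by
    have : 1 / ρ ^ 2 ≤ 1 := by
      rw [div_le_one (by positivity)]
      nlinarith
    linarith
  exact (mul_le_mul_of_nonneg_left h1 h4).trans (cutN hθ hρ0 hM l hK cK sK)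

lemma neg_log_le {ρ : ℝ} (hρ : 2 ≤ ρ ^ 2) :
    -Real.log (1 - 1 / ρ ^ 2) ≤ 2 / ρ ^ 2 := by
  set x : ℝ := 1 / ρ ^ 2 with hx
  have hx0 : 0 ≤ x := by positivity
  have hx1 : x ≤ 1 / 2 := by
    rw [hx]; exact one_div_le_one_div_of_le (by norm_num) hρ
  have h1 : 0 < 1 - x := by linarith
  have h2 := Real.one_sub_inv_le_log_of_pos h1
  have h3 : (1 - x)⁻¹ ≤ 1 + 2 * x := by
    rw [inv_le_iff_one_le_mul₀ h1]
    nlinarith
  have h4 : 2 / ρ ^ 2 = 2 * x := by rw [hx]; ring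
  rw [h4]
  linarith

end Crest.Agent.R239.Dem853
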