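import Crest.Agent.R239.DemLow_853
import Crest.Agent.R239.FDef

/-! R239, block F4a (helper853): the demoted flag over `FDef`, and the price of a demotion. -/

set_option autoImplicit false
set_option linter.unusedSectionVars false
open MeasureTheory ProbabilityTheory Set Filter Topology Metric Module
open scoped RealInnerProductSpace ENNReal NNReal InnerProduct Pointwise

namespace Crest.Agent.R239.Dem853

open Crest.Agent.R239 Crest.Agent.R239.FD

variable {E : Type*} [NormedAddCommGroup E] [InnerProductSpace ℝ E] [FiniteDimensional ℝ E]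
  [MeasurableSpace E] [BorelSpace E]

lemma th_pos : 0 < th := by norm_num [th]
lemma th_le_one : th ≤ 1 := by norm_num [th]

lemma Q_eq (V : Flag E) (j : ℕ) : V.Q j = blkP V.M j := rfl
lemma H_eq (V : Flag E) (i : ℕ) : V.H i = Hm th V.n V.M i := rfl
lemma k_eq (V : Flag E) (j : ℕ) : V.k j = kd V.M j := rfl
lemma rr_eq (V : Flag E) (i : ℕ) : V.rr i = capR th V.n V.M i := rfl
lemma N_eq (V : Flag E) (i : ℕ) (x : E) : V.N i x = capN th V.n V.M i x := rfl

/-! ### soft facts -/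

lemma zero_mem_of {K : Set E} (cK : Convex ℝ K) (sK : ∀ x ∈ K, -x ∈ K) (hne : K.Nonempty) :
    (0 : E) ∈ K := by
  obtain ⟨x, hx⟩ := hne
  have := cK hx (sK x hx) (a := 1/2) (b := 1/2) (by norm_num) (by norm_num) (by norm_num)
  simpa using this

lemma adm_nonempty {p : Par} {V : Flag E} {i : ℕ} {K : Set E} (h : Adm p V i K) : K.Nonempty := by
  rcases K.eq_empty_or_nonempty with h0 | h0
  · have := h.2.2.2.2
    rw [h0] at this
    simp at this
  · exact h0

lemma adm_zero {p : Par} {V : Flag E} {i : ℕ} {K : Set E} (h : Adm p V i K) : (0 : E) ∈ K :=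
  zero_mem_of h.2.1 h.2.2.1 (adm_nonempty h)

/-- points of `M i` are sums of their blocks -/
lemma sum_Q (V : Flag E) {i : ℕ} {x : E} (hx : x ∈ V.M i) (hi : i ≤ V.n) :
    x = ∑ j ∈ Finset.Ico i V.n, V.Q j x := by
  have h := Soft450.sum_blk V.M hi x
  have h2 : (V.M i).starProjection x = x := Submodule.starProjection_eq_self_iff.2 hx
  have h3 : (V.M V.n).starProjection x = 0 := by
    apply star_of_orth
    rw [V.bot V.n le_rfl]
    simp
  rw [h2, h3, sub_zero] at h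
  exact h.symm

lemma norm_sq_eq_sum (V : Flag E) {i : ℕ} {x : E} (hx : x ∈ V.M i) (hi : i ≤ V.n) :
    ‖x‖ ^ 2 = ∑ j ∈ Finset.Ico i V.n, ‖V.Q j x‖ ^ 2 := by
  have h := norm_sum_blkP_sq V.anti (Finset.Ico i V.n) (fun _ => 1) x
  simp only [one_smul, one_pow, one_mul] at h
  have h2 : (∑ j ∈ Finset.Ico i V.n, blkP V.M j) x = x := by
    rw [sum_apply]
    exact (sum_Q V hx hi).symm
  rw [h2] at h
  exact h

/-- `|x|² ≤ N_i(x)` on `M i` -/
lemma norm_sq_le_N (V : Flag E) {i : ℕ} {x : E} (hx : x ∈ V.M i) : ‖x‖ ^ 2 ≤ V.N i x := by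
  by_cases hi : i ≤ V.n
  · rw [norm_sq_eq_sum V hx hi]
    unfold Flag.N
    refine Finset.sum_le_sum fun j _ => ?_
    have h1 : (1:ℝ) ≤ th⁻¹ := by norm_num [th]
    have h2 : (1:ℝ) ≤ (th⁻¹) ^ (j - i) := one_le_pow₀ h1
    nlinarith [sq_nonneg ‖V.Q j x‖]
  · have h0 : x = 0 := by
      have := V.bot i (by omega)
      rw [this] at hx
      simpa using hx
    subst h0
    unfold Flag.N
    simp

lemma cap_bounded (V : Flag E) (rho : ℝ) (i : ℕ) {x : E} (hx : x ∈ V.cap rho i) :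
    ‖x‖ ≤ |rho| * √(V.rr i) := by
  have h1 := norm_sq_le_N V hx.1
  have h2 : ‖x‖ ^ 2 ≤ rho ^ 2 * V.rr i := h1.trans hx.2
  have h3 : 0 ≤ V.rr i := Finset.sum_nonneg fun j _ => by
    have := th_pos
    positivity
  have h4 : ‖x‖ ^ 2 ≤ (|rho| * √(V.rr i)) ^ 2 := by
    rw [mul_pow, sq_abs, Real.sq_sqrt h3]; exact h2
  exact (pow_le_pow_iff_left₀ (norm_nonneg _) (by positivity) two_ne_zero).1 h4

lemma bddAbove_of_cap {V : Flag E} {rho : ℝ} {i : ℕ} {K : Set E} (hK : K ⊆ V.cap rho i) (z : E) :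
    BddAbove ((fun x : E => ⟪x, z⟫) '' K) := by
  refine ⟨|rho| * √(V.rr i) * ‖z‖, ?_⟩
  rintro _ ⟨x, hx, rfl⟩
  exact (real_inner_le_norm x z).trans
    (mul_le_mul_of_nonneg_right (cap_bounded V rho i (hK hx)) (norm_nonneg _))

lemma hs_nonneg {K : Set E} (h0 : (0:E) ∈ K) (z : E) : 0 ≤ hs K z := by
  unfold hs
  apply Real.sSup_nonneg'
  exact ⟨0, ⟨0, h0, by simp⟩, le_rfl⟩

lemma hs_mono {V : Flag E} {rho : ℝ} {i : ℕ} {K K' : Set E} (hK' : K' ⊆ V.cap rho i)
    (h : K ⊆ K') (hne : K.Nonempty) (z : E) : hs K z ≤ hs K' z :=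
  csSup_le_csSup (bddAbove_of_cap hK' z) (hne.image _) (image_mono h)

lemma Eh_mono {V : Flag E} {rho : ℝ} {i : ℕ} {K K' : Set E} (hK' : K' ⊆ V.cap rho i)
    (h : K ⊆ K') (hne : K.Nonempty) (μ : Multiset E) : Eh K μ ≤ Eh K' μ :=
  Multiset.sum_map_le_sum_map _ _ fun z _ => hs_mono hK' h hne z

lemma Eh_nonneg {K : Set E} (h0 : (0:E) ∈ K) (μ : Multiset E) : 0 ≤ Eh K μ := by
  unfold Eh
  apply Multiset.sum_nonneg
  intro x hx
  obtain ⟨z, _, rfl⟩ := Multiset.mem_map.1 hx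
  exact hs_nonneg h0 z

lemma lam_pos {p : Par} (hp : p.Ok) (i : ℕ) : 0 < p.lam i := by
  have h1 := hp.tau_pos
  have h2 : 0 < p.A := by linarith [hp.A_ge]
  unfold Par.lam
  positivity

lemma val_nonneg {p : Par} (hp : p.Ok) {V : Flag E} {i : ℕ} {μ : Multiset E} {K : Set E}
    (h : Adm p V i K) : 0 ≤ val p V i μ K := by
  unfold val
  have h1 := Eh_nonneg (adm_zero h) μ
  have h2 : Real.log ((gau (V.H i)).real K) ≤ 0 :=
    Real.log_nonpos h.2.2.2.2.le measureReal_le_one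
  have h3 := (lam_pos hp i).le
  nlinarith

lemma D_le {p : Par} (hp : p.Ok) {V : Flag E} {i : ℕ} (μ : Multiset E) {K : Set E}
    (h : Adm p V i K) : D p V i μ ≤ val p V i μ K :=
  csInf_le ⟨0, by rintro _ ⟨K', hK', rfl⟩; exact val_nonneg hp hK'⟩ ⟨K, h, rfl⟩

lemma M_eq_bot_or (V : Flag E) {i : ℕ} (hi : V.n ≤ i) : V.M i = ⊥ := V.bot i hi

lemma isClosed_cap (V : Flag E) (rho : ℝ) (i : ℕ) : IsClosed (V.cap rho i) := by
  have h1 : IsClosed (V.M i : Set E) := Submodule.closed_of_finiteDimensional _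
  have h2 : IsClosed {x : E | V.N i x ≤ rho ^ 2 * V.rr i} :=
    isClosed_le (continuous_capN th V.n V.M i) continuous_const
  exact h1.inter h2

/-- sublevel sets of `N` are balls of a linear map -/
lemma N_eq_norm (V : Flag E) (i : ℕ) (x : E) :
    V.N i x = ‖(∑ j ∈ Finset.Ico i V.n, (√(th⁻¹)) ^ (j - i) • blkP V.M j) x‖ ^ 2 := by
  rw [norm_sum_blkP_sq V.anti]
  unfold Flag.N
  refine Finset.sum_congr rfl fun j _ => ?_
  rw [← pow_mul, mul_comm (j - i) 2, pow_mul, Real.sq_sqrt (inv_pos.2 th_pos).le]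
  rfl

lemma convex_N_le (V : Flag E) (i : ℕ) (c : ℝ) : Convex ℝ {x : E | V.N i x ≤ c} := by
  by_cases hc : 0 ≤ c
  · set B := ∑ j ∈ Finset.Ico i V.n, (√(th⁻¹)) ^ (j - i) • blkP V.M j with hB
    have h := (convex_closedBall (0:E) (√c)).is_linear_preimage B.toLinearMap.isLinear
    convert h using 1
    ext x
    simp only [mem_ofPred_eq, mem_preimage, mem_closedBall, dist_zero_right]
    rw [N_eq_norm, ← hB]
    exact (Real.le_sqrt (norm_nonneg _) hc).symm
  · have : {x : E | V.N i x ≤ c} = ∅ := by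
      ext x
      simp only [mem_ofPred_eq, mem_empty_iff_false, iff_false, not_le]
      rw [N_eq_norm]
      have := sq_nonneg ‖(∑ j ∈ Finset.Ico i V.n, (√(th⁻¹)) ^ (j - i) • blkP V.M j) x‖
      linarith
    rw [this]
    exact convex_empty

lemma N_neg (V : Flag E) (i : ℕ) (x : E) : V.N i (-x) = V.N i x := by
  unfold Flag.N
  simp

lemma convex_cap (V : Flag E) (rho : ℝ) (i : ℕ) : Convex ℝ (V.cap rho i) :=
  (V.M i).convex.inter (convex_N_le V i _)

lemma cap_neg (V : Flag E) (rho : ℝ) (i : ℕ) : ∀ x ∈ V.cap rho i, -x ∈ V.cap rho i :=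
  fun x hx => ⟨(V.M i).neg_mem hx.1, by
    have := hx.2
    rw [N_neg]; exact this⟩

lemma H_mem (V : Flag E) (i : ℕ) (g : E) : V.H i g ∈ V.M i := by
  rw [H_eq]
  unfold Hm
  rw [sum_apply]
  refine Submodule.sum_mem _ fun j hj => ?_
  rw [Finset.mem_Ico] at hj
  rw [smul_apply]
  refine Submodule.smul_mem _ _ ?_
  rw [blkP_apply]
  exact Submodule.sub_mem _ (V.anti hj.1 (Submodule.starProjection_apply_mem _ _))
    (V.anti (by omega : i ≤ j + 1) (Submodule.starProjection_apply_mem _ _))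

lemma cap_measure {p : Par} (hp : p.Ok) (V : Flag E) (i : ℕ) :
    1 - 1 / p.rho ^ 2 ≤ (gau (V.H i)).real (V.cap p.rho i) := by
  have hrho : 0 < p.rho := by linarith [hp.rho_ge]
  have h := cutN (θ := th) th_pos hrho V.anti (n := V.n) i (K := (univ : Set E)) isClosed_univ
    convex_univ (fun _ _ => mem_univ _)
  have h1 : (gau (Hm th V.n V.M i)).real univ = 1 := by simp
  rw [h1, mul_one] at h
  refine h.trans (le_of_eq ?_)
  have hm1 : MeasurableSet (univ ∩ {x : E | capN th V.n V.M i x ≤ p.rho ^ 2 * capR th V.n V.M i}) :=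
    MeasurableSet.univ.inter (measurableSet_le (continuous_capN _ _ _ _).measurable (by fun_prop))
  rw [H_eq, gau_real_apply _ hm1, gau_real_apply _ (isClosed_cap V p.rho i).measurableSet]
  congr 1
  ext g
  simp only [mem_preimage, mem_inter_iff, mem_univ, true_and, mem_ofPred_eq]
  constructor
  · intro hg; exact ⟨H_mem V i g, hg⟩
  · intro hg; exact hg.2

lemma one_sub_pos {p : Par} (hp : p.Ok) : 0 < 1 - 1 / p.rho ^ 2 := by
  have hrho := hp.rho_ge
  have : 1 / p.rho ^ 2 ≤ 1 / 16 ^ 2 := by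
    apply one_div_le_one_div_of_le (by norm_num)
    exact pow_le_pow_left₀ (by norm_num) hrho 2
  have h2 : (1:ℝ) / 16 ^ 2 < 1 := by norm_num
  linarith

lemma adm_cap {p : Par} (hp : p.Ok) (V : Flag E) (i : ℕ) : Adm p V i (V.cap p.rho i) :=
  ⟨isClosed_cap V _ i, convex_cap V _ i, cap_neg V _ i, subset_rfl,
    (one_sub_pos hp).trans_le (cap_measure hp V i)⟩

lemma le_D {p : Par} (hp : p.Ok) (V : Flag E) (i : ℕ) (μ : Multiset E) {c : ℝ}
    (h : ∀ K, Adm p V i K → c ≤ val p V i μ K) : c ≤ D p V i μ :=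
  le_csInf ⟨_, ⟨_, adm_cap hp V i, rfl⟩⟩ (by rintro _ ⟨K, hK, rfl⟩; exact h K hK)

lemma exists_near {p : Par} (hp : p.Ok) (V : Flag E) (i : ℕ) (μ : Multiset E) {sl : ℝ}
    (hsl : 0 < sl) : ∃ K, NearOpt p V i μ K sl := by
  obtain ⟨_, ⟨K, hK, rfl⟩, h⟩ := Real.lt_sInf_add_pos
    (s := val p V i μ '' {K | Adm p V i K}) ⟨_, ⟨_, adm_cap hp V i, rfl⟩⟩ hsl
  exact ⟨K, hK, h.le⟩

end Crest.Agent.R239.Dem853
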