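import Mathlib

/-!
R239 (S0370), helper524: glue "dual supersolution of the (HYP) game => signs".

* `signs_of_supersolution`: a family `G t : E -> R`, `0 <= G t <= S`, which is a supersolution of the
  dual game for two-point splits gives signs with all prefix sums `‖x_k‖^2 <= 2 S`.
* `S0370_of_supersolution`: the literal conclusion of S0370 from such families with `S = C * d`.
* `V`, `signs_of_functional`: the same from one future-independent functional `F` on finitely supported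
  nonnegative measures (`E →₀ ℝ`): monotone under kills, one-step inequality, `F δ_m <= S`.
-/

set_option autoImplicit false

open scoped RealInnerProductSpace Classical

namespace Crest.Agent.R239.Dual524

variable {E : Type*} [NormedAddCommGroup E] [InnerProductSpace ℝ E]

/-- value of a two-point split `m = l p + (1-l) q` in the dual game with letter `v` and next function `G` -/
noncomputable def pay (v : E) (G : E → ℝ) (l : ℝ) (p q : E) : ℝ :=
  l * (G p + |⟪v, p⟫| - ‖p - (l • p + (1 - l) • q)‖ ^ 2 / 2)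
    + (1 - l) * (G q + |⟪v, q⟫| - ‖q - (l • p + (1 - l) • q)‖ ^ 2 / 2)
    - 2 * |⟪v, l • p + (1 - l) • q⟫|

/-- the conjugate of `‖m‖^2/2 - G m` -/
noncomputable def psi (G : E → ℝ) (x : E) : ℝ := ⨆ m : E, (⟪m, x⟫ - ‖m‖ ^ 2 / 2 + G m)

theorem psi_bdd {G : E → ℝ} {S : ℝ} (h : ∀ m, G m ≤ S) (x : E) :
    BddAbove (Set.range fun m : E => (⟪m, x⟫ - ‖m‖ ^ 2 / 2 + G m)) := by
  refine ⟨‖x‖ ^ 2 / 2 + S, ?_⟩
  rintro _ ⟨m, rfl⟩
  have h1 : ⟪m, x⟫ ≤ ‖m‖ * ‖x‖ := real_inner_le_norm m x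
  have h2 : 0 ≤ (‖m‖ - ‖x‖) ^ 2 := sq_nonneg _
  have h3 := h m
  dsimp only
  nlinarith

theorem le_psi {G : E → ℝ} {S : ℝ} (h : ∀ m, G m ≤ S) (x m : E) :
    ⟪m, x⟫ - ‖m‖ ^ 2 / 2 + G m ≤ psi G x :=
  le_ciSup (psi_bdd h x) m

theorem psi_le {G : E → ℝ} {S : ℝ} (h : ∀ m, G m ≤ S) (x : E) : psi G x ≤ ‖x‖ ^ 2 / 2 + S := by
  have : Nonempty E := ⟨0⟩
  refine ciSup_le fun m => ?_
  have h1 : ⟪m, x⟫ ≤ ‖m‖ * ‖x‖ := real_inner_le_norm m x
  have h2 : 0 ≤ (‖m‖ - ‖x‖) ^ 2 := sq_nonneg _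
  have h3 := h m
  nlinarith

theorem sq_le_psi {G : E → ℝ} {S : ℝ} (h : ∀ m, G m ≤ S) (h0 : ∀ m, 0 ≤ G m) (x : E) :
    ‖x‖ ^ 2 / 2 ≤ psi G x := by
  have h1 := le_psi h x x
  have h2 : ⟪x, x⟫ = ‖x‖ ^ 2 := real_inner_self_eq_norm_sq x
  have h3 := h0 x
  linarith

/-- one-dimensional choice of the weight -/
theorem weight (a b : ℝ) : ∃ l : ℝ, 0 ≤ l ∧ l ≤ 1 ∧
    0 ≤ l * (|a| - a) + (1 - l) * (|b| + b) - 2 * |l * a + (1 - l) * b| := by
  by_cases ha : a ≤ 0
  · refine ⟨1, zero_le_one, le_refl 1, ?_⟩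
    have : |a| = -a := abs_of_nonpos ha
    simp only [sub_self, zero_mul, add_zero, one_mul, this]
    linarith
  · by_cases hb : 0 ≤ b
    · refine ⟨0, le_refl 0, zero_le_one, ?_⟩
      have : |b| = b := abs_of_nonneg hb
      simp only [sub_zero, zero_mul, zero_add, one_mul, this]
      linarith
    · push Not at ha hb
      have hd : 0 < a - b := by linarith
      refine ⟨-b / (a - b), ?_, ?_, ?_⟩
      · exact div_nonneg (by linarith) hd.le
      · rw [div_le_one hd]; linarith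
      · have h1 : -b / (a - b) * a + (1 - -b / (a - b)) * b = 0 := by
          field_simp
          ring
        rw [h1, abs_of_pos ha, abs_of_neg hb]
        simp

/-- the sign step -/
theorem sign_step (v : E) {G G' : E → ℝ} {S : ℝ} (hS : ∀ m, G m ≤ S)
    (hstep : ∀ (l : ℝ) (p q : E), 0 ≤ l → l ≤ 1 → pay v G' l p q ≤ G (l • p + (1 - l) • q))
    (x : E) : ∃ ε : ℤ, (ε = 1 ∨ ε = -1) ∧ psi G' (x + (ε : ℝ) • v) ≤ psi G x := by
  by_contra hcon
  push Not at hcon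
  have hp := hcon 1 (Or.inl rfl)
  have hm := hcon (-1) (Or.inr rfl)
  have : Nonempty E := ⟨0⟩
  obtain ⟨p, hp⟩ := exists_lt_of_lt_ciSup hp
  obtain ⟨q, hq⟩ := exists_lt_of_lt_ciSup hm
  push_cast at hp hq
  rw [one_smul, inner_add_right] at hp
  rw [neg_smul, one_smul, inner_add_right, inner_neg_right] at hq
  obtain ⟨l, l0, l1, hl⟩ := weight ⟪v, p⟫ ⟪v, q⟫
  have h1 := hstep l p q l0 l1
  have h2 := le_psi hS x (l • p + (1 - l) • q)
  have e1 : ⟪v, l • p + (1 - l) • q⟫ = l * ⟪v, p⟫ + (1 - l) * ⟪v, q⟫ := by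
    rw [inner_add_right, inner_smul_right, inner_smul_right]
  have e2 : ⟪l • p + (1 - l) • q, x⟫ = l * ⟪p, x⟫ + (1 - l) * ⟪q, x⟫ := by
    rw [inner_add_left, real_inner_smul_left, real_inner_smul_left]
  have e3 : l * ‖p - (l • p + (1 - l) • q)‖ ^ 2 + (1 - l) * ‖q - (l • p + (1 - l) • q)‖ ^ 2
      = l * ‖p‖ ^ 2 + (1 - l) * ‖q‖ ^ 2 - ‖l • p + (1 - l) • q‖ ^ 2 := by
    rw [@norm_sub_sq_real _ _ _ p, @norm_sub_sq_real _ _ _ q]
    have f1 : ⟪p, l • p + (1 - l) • q⟫ = l * ‖p‖ ^ 2 + (1 - l) * ⟪p, q⟫ := by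
      rw [inner_add_right, inner_smul_right, inner_smul_right, real_inner_self_eq_norm_sq]
    have f2 : ⟪q, l • p + (1 - l) • q⟫ = l * ⟪p, q⟫ + (1 - l) * ‖q‖ ^ 2 := by
      rw [inner_add_right, inner_smul_right, inner_smul_right, real_inner_self_eq_norm_sq,
        real_inner_comm p q]
    have f3 : ‖l • p + (1 - l) • q‖ ^ 2
        = l ^ 2 * ‖p‖ ^ 2 + 2 * l * (1 - l) * ⟪p, q⟫ + (1 - l) ^ 2 * ‖q‖ ^ 2 := by
      rw [@norm_add_sq_real, norm_smul, norm_smul, real_inner_smul_left, inner_smul_right,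
        mul_pow, mul_pow, Real.norm_eq_abs, Real.norm_eq_abs, sq_abs, sq_abs]
      ring
    rw [f1, f2, f3]
    ring
  have c1 : ⟪p, v⟫ = ⟪v, p⟫ := real_inner_comm v p
  have c2 : ⟪q, v⟫ = ⟪v, q⟫ := real_inner_comm v q
  unfold pay at h1
  rw [e1] at h1
  rw [e2] at h2
  rw [c1] at hp
  rw [c2] at hq
  -- combine
  have k1 : l * psi G x + (1 - l) * psi G x = psi G x := by ring
  have k2 : l * (⟪p, x⟫ + ⟪v, p⟫ - ‖p‖ ^ 2 / 2 + G' p)
      + (1 - l) * (⟪q, x⟫ + -⟪v, q⟫ - ‖q‖ ^ 2 / 2 + G' q) > psi G x := by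
    rcases eq_or_lt_of_le l0 with h | h
    · rw [← h]; simp only [zero_mul, zero_add, sub_zero, one_mul]; exact hq
    · have a1 : l * psi G x < l * (⟪p, x⟫ + ⟪v, p⟫ - ‖p‖ ^ 2 / 2 + G' p) :=
        mul_lt_mul_of_pos_left hp h
      have a2 : (1 - l) * psi G x ≤ (1 - l) * (⟪q, x⟫ + -⟪v, q⟫ - ‖q‖ ^ 2 / 2 + G' q) :=
        mul_le_mul_of_nonneg_left hq.le (by linarith)
      linarith
  nlinarith [h1, h2, e3, hl, k2]

/-- prefix sums -/
noncomputable def pre (v : ℕ → E) (ε : ℕ → ℤ) (k : ℕ) : E := ∑ i ∈ Finset.range k, (ε i : ℝ) • v i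

theorem signs_of_supersolution (N : ℕ) (v : ℕ → E) (S : ℝ) (G : ℕ → E → ℝ)
    (hS : ∀ t ≤ N, ∀ m, G t m ≤ S) (h0 : ∀ t ≤ N, ∀ m, 0 ≤ G t m)
    (hstep : ∀ t < N, ∀ (l : ℝ) (p q : E), 0 ≤ l → l ≤ 1 →
      pay (v t) (G (t + 1)) l p q ≤ G t (l • p + (1 - l) • q)) :
    ∃ ε : ℕ → ℤ, (∀ i, ε i = 1 ∨ ε i = -1) ∧ ∀ k ≤ N, ‖pre v ε k‖ ^ 2 ≤ 2 * S := by
  have key : ∀ k ≤ N, ∃ ε : ℕ → ℤ, (∀ i, ε i = 1 ∨ ε i = -1) ∧
      ∀ j ≤ k, psi (G j) (pre v ε j) ≤ S := by
    intro k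
    induction k with
    | zero =>
      intro _
      refine ⟨fun _ => 1, fun _ => Or.inl rfl, fun j hj => ?_⟩
      have : j = 0 := by omega
      subst this
      have := psi_le (hS 0 (Nat.zero_le _)) (pre v (fun _ => 1) 0)
      simpa [pre] using this
    | succ k ih =>
      intro hk
      obtain ⟨ε, hε, hj⟩ := ih (by omega)
      obtain ⟨s, hs, hs2⟩ := sign_step (v k) (hS k (by omega))
        (hstep k (by omega)) (pre v ε k)
      refine ⟨Function.update ε k s, fun i => ?_, fun j hjk => ?_⟩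
      · by_cases h : i = k
        · subst h; simpa using hs
        · simpa [Function.update_of_ne h] using hε i
      · have hpre : ∀ j ≤ k, pre v (Function.update ε k s) j = pre v ε j := by
          intro j hj'
          unfold pre
          refine Finset.sum_congr rfl fun i hi => ?_
          have : i ≠ k := by
            have := Finset.mem_range.1 hi
            omega
          rw [Function.update_of_ne this]
        rcases Nat.lt_or_ge k j with h | h
        · have : j = k + 1 := by omega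
          subst this
          have e : pre v (Function.update ε k s) (k + 1) = pre v ε k + (s : ℝ) • v k := by
            have := hpre k le_rfl
            unfold pre at this ⊢
            rw [Finset.sum_range_succ, this]
            simp
          rw [e]
          exact hs2.trans (hj k le_rfl)
        · rw [hpre j h]
          exact hj j h
  obtain ⟨ε, hε, hj⟩ := key N le_rfl
  refine ⟨ε, hε, fun k hk => ?_⟩
  have h1 := sq_le_psi (hS k hk) (h0 k hk) (pre v ε k)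
  have h2 := hj k hk
  linarith

/-- The literal conclusion of S0370 from dual supersolutions of size `C * d`. -/
theorem S0370_of_supersolution (C : ℝ)
    (H : ∀ (d N : ℕ) (v : ℕ → EuclideanSpace ℝ (Fin d)), (∀ i, ‖v i‖ ≤ 1) →
      ∃ G : ℕ → EuclideanSpace ℝ (Fin d) → ℝ,
        (∀ t ≤ N, ∀ m, G t m ≤ C * d) ∧ (∀ t ≤ N, ∀ m, 0 ≤ G t m) ∧
        (∀ t < N, ∀ (l : ℝ) (p q : EuclideanSpace ℝ (Fin d)), 0 ≤ l → l ≤ 1 →
          pay (v t) (G (t + 1)) l p q ≤ G t (l • p + (1 - l) • q))) :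
    ∃ C : ℝ, ∀ (d N : ℕ) (v : Fin N → EuclideanSpace ℝ (Fin d)),
      (∀ i, ‖v i‖ ≤ 1) →
      ∃ ε : Fin N → ℤ, (∀ i, ε i = 1 ∨ ε i = -1) ∧
        ∀ k : ℕ, k ≤ N →
          ‖∑ i ∈ Finset.univ.filter (fun i : Fin N => (i : ℕ) < k), (ε i : ℝ) • v i‖
            ≤ C * Real.sqrt d := by
  refine ⟨Real.sqrt (2 * C), fun d N v hv => ?_⟩
  let w : ℕ → EuclideanSpace ℝ (Fin d) := fun i => if h : i < N then v ⟨i, h⟩ else 0
  have hw : ∀ i, ‖w i‖ ≤ 1 := by
    intro i
    by_cases h : i < N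
    · simp only [w, h, dite_true]; exact hv _
    · simp only [w, h, dite_false, norm_zero]; exact zero_le_one
  obtain ⟨G, g1, g2, g3⟩ := H d N w hw
  obtain ⟨ε, hε, hk⟩ := signs_of_supersolution N w (C * d) G g1 g2 g3
  refine ⟨fun i => ε i, fun i => hε i, fun k hkN => ?_⟩
  have h1 := hk k hkN
  have e : ∑ i ∈ Finset.univ.filter (fun i : Fin N => (i : ℕ) < k), (ε i : ℝ) • v i = pre w ε k := by
    unfold pre
    rw [Finset.sum_filter]
    have h2 : ∀ i : Fin N, (if (i : ℕ) < k then (ε i : ℝ) • v i else 0)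
        = (fun j : ℕ => if j < k then (ε j : ℝ) • w j else 0) (i : ℕ) := by
      intro i
      have : w (i : ℕ) = v i := by simp [w]
      simp only [this]
    rw [Finset.sum_congr rfl (fun i _ => h2 i), Fin.sum_univ_eq_sum_range
      (fun j : ℕ => if j < k then (ε j : ℝ) • w j else 0) N, ← Finset.sum_filter]
    refine Finset.sum_congr ?_ fun _ _ => rfl
    ext j
    simp only [Finset.mem_filter, Finset.mem_range]
    omega
  rw [e]
  have h0 : 0 ≤ C * (d : ℝ) := (g2 0 (Nat.zero_le _) 0).trans (g1 0 (Nat.zero_le _) 0)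
  have h3 : ‖pre w ε k‖ ≤ Real.sqrt (2 * (C * d)) := by
    rw [← Real.sqrt_sq (norm_nonneg (pre w ε k))]
    exact Real.sqrt_le_sqrt h1
  refine h3.trans (le_of_eq ?_)
  rw [← mul_assoc]
  rw [Real.sqrt_mul' _ (Nat.cast_nonneg d)]

/-! ### mixtures of atoms (`T` is convex) -/

theorem pay_add_smul (v : E) (l : ℝ) (p q : E) {a b : ℝ} (hab : a + b = 1) (G G' : E → ℝ) :
    pay v (a • G + b • G') l p q = a * pay v G l p q + b * pay v G' l p q := by
  have hb : b = 1 - a := by linarith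
  subst hb
  unfold pay
  simp only [Pi.add_apply, Pi.smul_apply, smul_eq_mul]
  ring

/-- one step for the convex hull of a family of atoms -/
theorem hull_step (𝒜 : Set (E → ℝ)) (v : E)
    (h : ∀ A ∈ 𝒜, ∃ B ∈ convexHull ℝ 𝒜, ∀ (l : ℝ) (p q : E), 0 ≤ l → l ≤ 1 →
      pay v A l p q ≤ B (l • p + (1 - l) • q)) :
    ∀ A ∈ convexHull ℝ 𝒜, ∃ B ∈ convexHull ℝ 𝒜, ∀ (l : ℝ) (p q : E), 0 ≤ l → l ≤ 1 →
      pay v A l p q ≤ B (l • p + (1 - l) • q) := by
  let P : Set (E → ℝ) := {A | ∃ B ∈ convexHull ℝ 𝒜, ∀ (l : ℝ) (p q : E), 0 ≤ l → l ≤ 1 →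
      pay v A l p q ≤ B (l • p + (1 - l) • q)}
  have hP : Convex ℝ P := by
    rintro A ⟨B, hB, hAB⟩ A' ⟨B', hB', hAB'⟩ a b ha hb hab
    refine ⟨a • B + b • B', convex_convexHull ℝ 𝒜 hB hB' ha hb hab, fun l p q l0 l1 => ?_⟩
    rw [pay_add_smul v l p q hab]
    simp only [Pi.add_apply, Pi.smul_apply, smul_eq_mul]
    exact add_le_add (mul_le_mul_of_nonneg_left (hAB l p q l0 l1) ha)
      (mul_le_mul_of_nonneg_left (hAB' l p q l0 l1) hb)
  exact convexHull_min (fun A hA => h A hA) hP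

theorem hull_bound {𝒜 : Set (E → ℝ)} {S : ℝ} (hS : ∀ A ∈ 𝒜, ∀ m, A m ≤ S)
    (h0 : ∀ A ∈ 𝒜, ∀ m, 0 ≤ A m) : ∀ A ∈ convexHull ℝ 𝒜, ∀ m, 0 ≤ A m ∧ A m ≤ S := by
  let P : Set (E → ℝ) := {A | ∀ m, 0 ≤ A m ∧ A m ≤ S}
  have hP : Convex ℝ P := by
    intro A hA B hB a b ha hb hab m
    have h1 := hA m
    have h2 := hB m
    simp only [Pi.add_apply, Pi.smul_apply, smul_eq_mul]
    constructor
    · exact add_nonneg (mul_nonneg ha h1.1) (mul_nonneg hb h2.1)
    · calc a * A m + b * B m ≤ a * S + b * S :=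
            add_le_add (mul_le_mul_of_nonneg_left h1.2 ha) (mul_le_mul_of_nonneg_left h2.2 hb)
        _ = S := by rw [← add_mul, hab, one_mul]
  intro A hA m
  exact (convexHull_min (fun A hA m => ⟨h0 A hA m, hS A hA m⟩) hP : convexHull ℝ 𝒜 ⊆ P) hA m

/-- A nonempty family of atoms `0 <= A <= S` with `T_v A <= mixture of atoms` for all unit letters
gives signs for every word. -/
theorem signs_of_atoms (𝒜 : Set (E → ℝ)) (hne : 𝒜.Nonempty) (S : ℝ)
    (hS : ∀ A ∈ 𝒜, ∀ m, A m ≤ S) (h0 : ∀ A ∈ 𝒜, ∀ m, 0 ≤ A m)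
    (h : ∀ v : E, ‖v‖ ≤ 1 → ∀ A ∈ 𝒜, ∃ B ∈ convexHull ℝ 𝒜, ∀ (l : ℝ) (p q : E), 0 ≤ l → l ≤ 1 →
      pay v A l p q ≤ B (l • p + (1 - l) • q))
    (N : ℕ) (v : ℕ → E) (hv : ∀ i, ‖v i‖ ≤ 1) :
    ∃ ε : ℕ → ℤ, (∀ i, ε i = 1 ∨ ε i = -1) ∧ ∀ k ≤ N, ‖pre v ε k‖ ^ 2 ≤ 2 * S := by
  obtain ⟨A₀, hA₀⟩ := hne
  choose! f hf1 hf2 using fun (t : ℕ) => hull_step 𝒜 (v t) (h (v t) (hv t))
  -- backwards: `G (N - j)` after `j` steps
  let g : ℕ → (E → ℝ) := fun j => Nat.rec A₀ (fun j A => f (N - 1 - j) A) j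
  have hg : ∀ j, g j ∈ convexHull ℝ 𝒜 := by
    intro j
    induction j with
    | zero => exact subset_convexHull ℝ 𝒜 hA₀
    | succ j ih => exact hf1 (N - 1 - j) (g j) ih
  refine signs_of_supersolution N v S (fun t => g (N - t))
    (fun t _ m => (hull_bound hS h0 _ (hg _) m).2) (fun t _ m => (hull_bound hS h0 _ (hg _) m).1) ?_
  intro t ht l p q l0 l1
  have e : N - t = (N - (t + 1)) + 1 := by omega
  have e2 : N - 1 - (N - (t + 1)) = t := by omega
  have h1 : g (N - t) = f t (g (N - (t + 1))) := by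
    rw [e]
    change f (N - 1 - (N - (t + 1))) (g (N - (t + 1))) = _
    rw [e2]
  change pay (v t) (g (N - (t + 1))) l p q ≤ g (N - t) _
  rw [h1]
  exact hf2 t _ (hg _) l p q l0 l1

/-! ### future-independent functionals of the population -/

open Finsupp in
/-- `F` dominates `G` on all finite populations -/
def Dom (F : (E →₀ ℝ) → ℝ) (G : E → ℝ) : Prop :=
  ∀ (n : ℕ) (w : Fin n → ℝ) (x : Fin n → E), (∀ i, 0 ≤ w i) →
    ∑ i, w i * G (x i) ≤ F (∑ i, single (x i) (w i))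

/-- the (HYP) operator for two-point splits and kills -/
noncomputable def T (v : E) (G : E → ℝ) (m : E) : ℝ :=
  max 0 (sSup {r : ℝ | ∃ (l : ℝ) (p q : E), 0 ≤ l ∧ l ≤ 1 ∧ l • p + (1 - l) • q = m ∧
    r = pay v G l p q})

theorem pay_eq (v : E) (G : E → ℝ) (l : ℝ) (p q : E) :
    pay v G l p q = pay v (fun _ => 0) l p q + (l * G p + (1 - l) * G q) := by
  unfold pay
  ring

open Finsupp in
structure IsPen (F : (E →₀ ℝ) → ℝ) (S : ℝ) : Prop where
  nonneg : ∀ μ : E →₀ ℝ, (∀ x, 0 ≤ μ x) → 0 ≤ F μ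
  kill : ∀ μ ν : E →₀ ℝ, (∀ x, 0 ≤ ν x) → (∀ x, ν x ≤ μ x) → F ν ≤ F μ
  delta : ∀ m : E, F (single m 1) ≤ S
  step : ∀ (v : E), ‖v‖ ≤ 1 → ∀ (n : ℕ) (w l : Fin n → ℝ) (p q : Fin n → E), (∀ i, 0 ≤ w i) →
    (∀ i, 0 ≤ l i) → (∀ i, l i ≤ 1) →
    ∑ i, w i * pay v (fun _ => 0) (l i) (p i) (q i)
      + F (∑ i, (single (p i) (w i * l i) + single (q i) (w i * (1 - l i))))
    ≤ F (∑ i, single (l i • p i + (1 - l i) • q i) (w i))

open Finsupp in
theorem Dom.two {F : (E →₀ ℝ) → ℝ} {G : E → ℝ} (hG : Dom F G) (n : ℕ) (w l : Fin n → ℝ)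
    (p q : Fin n → E) (hw : ∀ i, 0 ≤ w i) (h0 : ∀ i, 0 ≤ l i) (h1 : ∀ i, l i ≤ 1) :
    ∑ i, (w i * l i * G (p i) + w i * (1 - l i) * G (q i))
      ≤ F (∑ i, (single (p i) (w i * l i) + single (q i) (w i * (1 - l i)))) := by
  have h := hG (n + n) (Fin.append (fun i => w i * l i) (fun i => w i * (1 - l i)))
    (Fin.append p q) (by
      intro i
      refine Fin.addCases (fun i => ?_) (fun i => ?_) i
      · rw [Fin.append_left]; exact mul_nonneg (hw i) (h0 i)
      · rw [Fin.append_right]; exact mul_nonneg (hw i) (by linarith [h1 i]))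
  rw [Fin.sum_univ_add, Fin.sum_univ_add] at h
  simp only [Fin.append_left, Fin.append_right] at h
  rw [Finset.sum_add_distrib, Finset.sum_add_distrib]
  exact h

open Finsupp in
theorem pay_le {F : (E →₀ ℝ) → ℝ} {S : ℝ} (hF : IsPen F S) {G : E → ℝ} (hG : Dom F G) {v : E}
    (hv : ‖v‖ ≤ 1) (l : ℝ) (p q : E) (h0 : 0 ≤ l) (h1 : l ≤ 1) : pay v G l p q ≤ S := by
  have a1 := hF.step v hv 1 (fun _ => 1) (fun _ => l) (fun _ => p) (fun _ => q)
    (fun _ => zero_le_one) (fun _ => h0) (fun _ => h1)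
  have a2 := hG.two 1 (fun _ => 1) (fun _ => l) (fun _ => p) (fun _ => q)
    (fun _ => zero_le_one) (fun _ => h0) (fun _ => h1)
  have a3 := hF.delta (l • p + (1 - l) • q)
  simp only [Finset.univ_unique, Finset.sum_const, Finset.card_singleton, one_smul, one_mul]
    at a1 a2
  rw [pay_eq]
  linarith

theorem T_bdd {F : (E →₀ ℝ) → ℝ} {S : ℝ} (hF : IsPen F S) {G : E → ℝ} (hG : Dom F G) {v : E}
    (hv : ‖v‖ ≤ 1) (m : E) :
    BddAbove {r : ℝ | ∃ (l : ℝ) (p q : E), 0 ≤ l ∧ l ≤ 1 ∧ l • p + (1 - l) • q = m ∧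
      r = pay v G l p q} := by
  refine ⟨S, ?_⟩
  rintro r ⟨l, p, q, h0, h1, _, rfl⟩
  exact pay_le hF hG hv l p q h0 h1

theorem le_T {F : (E →₀ ℝ) → ℝ} {S : ℝ} (hF : IsPen F S) {G : E → ℝ} (hG : Dom F G) {v : E}
    (hv : ‖v‖ ≤ 1) (l : ℝ) (p q : E) (h0 : 0 ≤ l) (h1 : l ≤ 1) :
    pay v G l p q ≤ T v G (l • p + (1 - l) • q) :=
  (le_csSup (T_bdd hF hG hv _) ⟨l, p, q, h0, h1, rfl, rfl⟩).trans (le_max_right _ _)

open Finsupp in
theorem Dom.T {F : (E →₀ ℝ) → ℝ} {S : ℝ} (hF : IsPen F S) {G : E → ℝ} (hG : Dom F G) {v : E}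
    (hv : ‖v‖ ≤ 1) : Dom F (T v G) := by
  intro n w x hw
  -- near optimal strategies
  have key : ∀ e : ℝ, 0 < e → ∑ i, w i * Dual524.T v G (x i)
      ≤ F (∑ i, single (x i) (w i)) + e * ∑ i, w i := by
    intro e he
    have hch : ∀ i, ∃ (k l : ℝ) (p q : E), (k = 0 ∨ k = 1) ∧ 0 ≤ l ∧ l ≤ 1 ∧
        l • p + (1 - l) • q = x i ∧ Dual524.T v G (x i) ≤ k * pay v G l p q + e := by
      intro i
      rcases le_or_gt (Dual524.T v G (x i)) 0 with h | h
      · refine ⟨0, 1, x i, x i, Or.inl rfl, zero_le_one, le_rfl, by simp, by linarith⟩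
      · have h2 : Dual524.T v G (x i) = sSup {r : ℝ | ∃ (l : ℝ) (p q : E), 0 ≤ l ∧ l ≤ 1 ∧
            l • p + (1 - l) • q = x i ∧ r = pay v G l p q} := by
          unfold Dual524.T at h ⊢
          rcases le_total (sSup {r : ℝ | ∃ (l : ℝ) (p q : E), 0 ≤ l ∧ l ≤ 1 ∧
            l • p + (1 - l) • q = x i ∧ r = pay v G l p q}) 0 with h3 | h3
          · rw [max_eq_left h3] at h; exact absurd h (lt_irrefl 0)
          · rw [max_eq_right h3]
        obtain ⟨r, ⟨l, p, q, h0, h1, hm, rfl⟩, hr⟩ := exists_lt_of_lt_csSup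
          (⟨_, 1, x i, x i, zero_le_one, le_rfl, by simp, rfl⟩ :
            Set.Nonempty {r : ℝ | ∃ (l : ℝ) (p q : E), 0 ≤ l ∧ l ≤ 1 ∧
            l • p + (1 - l) • q = x i ∧ r = pay v G l p q})
          (show sSup {r : ℝ | ∃ (l : ℝ) (p q : E), 0 ≤ l ∧ l ≤ 1 ∧
            l • p + (1 - l) • q = x i ∧ r = pay v G l p q} - e < _ by linarith)
        exact ⟨1, l, p, q, Or.inr rfl, h0, h1, hm, by rw [h2, one_mul]; linarith⟩
    choose k l p q hk h0 h1 hm hT using hch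
    have hk0 : ∀ i, 0 ≤ k i := fun i => by rcases hk i with h | h <;> rw [h]; exact zero_le_one
    have hk1 : ∀ i, k i ≤ 1 := fun i => by
      rcases hk i with h | h <;> rw [h]; exact zero_le_one
    have hwk : ∀ i, 0 ≤ w i * k i := fun i => mul_nonneg (hw i) (hk0 i)
    have a1 := hF.step v hv n (fun i => w i * k i) l p q hwk h0 h1
    have a2 := hG.two n (fun i => w i * k i) l p q hwk h0 h1
    have a3 : F (∑ i, single (l i • p i + (1 - l i) • q i) (w i * k i))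
        ≤ F (∑ i, single (x i) (w i)) := by
      have e1 : ∑ i, single (l i • p i + (1 - l i) • q i) (w i * k i)
          = ∑ i, single (x i) (w i * k i) :=
        Finset.sum_congr rfl fun i _ => by rw [hm i]
      rw [e1]
      refine hF.kill _ _ (fun y => ?_) (fun y => ?_)
      · rw [Finsupp.finsetSum_apply]
        exact Finset.sum_nonneg fun i _ => by
          rw [Finsupp.single_apply]
          split_ifs
          · exact hwk i
          · exact le_rfl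
      · rw [Finsupp.finsetSum_apply, Finsupp.finsetSum_apply]
        refine Finset.sum_le_sum fun i _ => ?_
        rw [Finsupp.single_apply, Finsupp.single_apply]
        split_ifs
        · have := mul_le_mul_of_nonneg_left (hk1 i) (hw i)
          simpa using this
        · exact le_rfl
    have a4 : ∑ i, w i * Dual524.T v G (x i) ≤ ∑ i, (w i * k i * pay v G (l i) (p i) (q i) + e * w i) := by
      refine Finset.sum_le_sum fun i _ => ?_
      have := mul_le_mul_of_nonneg_left (hT i) (hw i)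
      nlinarith
    have a5 : ∑ i, (w i * k i * pay v G (l i) (p i) (q i) + e * w i)
        = ∑ i, w i * k i * pay v (fun _ => 0) (l i) (p i) (q i)
          + ∑ i, (w i * k i * l i * G (p i) + w i * k i * (1 - l i) * G (q i)) + e * ∑ i, w i := by
      rw [Finset.sum_add_distrib, ← Finset.mul_sum, ← Finset.sum_add_distrib]
      congr 1
      refine Finset.sum_congr rfl fun i _ => ?_
      rw [pay_eq v G]
      ring
    linarith
  have hW : 0 ≤ ∑ i, w i := Finset.sum_nonneg fun i _ => hw i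
  refine le_of_forall_pos_le_add fun e he => ?_
  rcases eq_or_lt_of_le hW with h | h
  · have := key e he
    rw [← h, mul_zero] at this
    linarith
  · have := key (e / ∑ i, w i) (div_pos he h)
    rwa [div_mul_cancel₀ _ h.ne'] at this

/-- A functional on populations with kill monotonicity and the one-step inequality gives signs. -/
theorem signs_of_functional (F : (E →₀ ℝ) → ℝ) (S : ℝ) (hF : IsPen F S) (N : ℕ) (v : ℕ → E)
    (hv : ∀ i, ‖v i‖ ≤ 1) :
    ∃ ε : ℕ → ℤ, (∀ i, ε i = 1 ∨ ε i = -1) ∧ ∀ k ≤ N, ‖pre v ε k‖ ^ 2 ≤ 2 * S := by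
  let g : ℕ → (E → ℝ) := fun j => Nat.rec (fun _ => 0) (fun j A => T (v (N - 1 - j)) A) j
  have hg : ∀ j, Dom F (g j) := by
    intro j
    induction j with
    | zero =>
      intro n w x hw
      have e0 : ∑ i, w i * g 0 (x i) = 0 := Finset.sum_eq_zero fun i _ => mul_zero (w i)
      rw [e0]
      refine hF.nonneg _ fun y => ?_
      rw [Finsupp.finsetSum_apply]
      exact Finset.sum_nonneg fun i _ => by
        rw [Finsupp.single_apply]
        split_ifs
        · exact hw i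
        · exact le_rfl
    | succ j ih => exact Dom.T hF ih (hv _)
  have hg0 : ∀ j m, 0 ≤ g j m := by
    intro j m
    cases j with
    | zero => exact le_rfl
    | succ j => exact le_max_left _ _
  have hgS : ∀ j m, g j m ≤ S := by
    intro j m
    have h := hg j 1 (fun _ => 1) (fun _ => m) (fun _ => zero_le_one)
    simp only [Finset.univ_unique, Finset.sum_const, Finset.card_singleton, one_smul, one_mul] at h
    exact h.trans (hF.delta m)
  refine signs_of_supersolution N v S (fun t => g (N - t)) (fun t _ m => hgS _ m)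
    (fun t _ m => hg0 _ m) ?_
  intro t ht l p q l0 l1
  have e : N - t = (N - (t + 1)) + 1 := by omega
  have e2 : N - 1 - (N - (t + 1)) = t := by omega
  have h1 : g (N - t) = T (v t) (g (N - (t + 1))) := by
    rw [e]
    change T (v (N - 1 - (N - (t + 1)))) (g (N - (t + 1))) = _
    rw [e2]
  change pay (v t) (g (N - (t + 1))) l p q ≤ g (N - t) _
  rw [h1]
  exact le_T hF (hg _) (hv t) l p q l0 l1

end Crest.Agent.R239.Dual524
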