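import Mathlib
import Crest.Agent.R239.FDef

/-! R239 / S0370, block F1 (helper333): bookkeeping for `FD.Flag`.

* `V.n` is irrelevant: every object is a sum over `Ico i m` for every `m ≥ V.n`;
* level `i` only depends on `V.M j`, `j ≥ i`;
* sums of the block dimensions, Abel form of the penalty. -/

set_option autoImplicit false
set_option linter.unusedSectionVars false
set_option linter.deprecated false
open MeasureTheory ProbabilityTheory
open Finset hiding val
open scoped RealInnerProductSpace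

namespace Crest.Agent.R239.F1333

open Crest.Agent.R239 (gau)
open Crest.Agent.R239.FD

variable {E : Type*} [NormedAddCommGroup E] [InnerProductSpace ℝ E] [FiniteDimensional ℝ E]
  [MeasurableSpace E] [BorelSpace E]

section noMeas
omit [MeasurableSpace E] [BorelSpace E]

variable (V V' : Flag E)

/-! ### levels beyond `n` -/

lemma M_of_n_le {i : ℕ} (h : V.n ≤ i) : V.M i = ⊥ := V.bot i h

lemma P_of_n_le {i : ℕ} (h : V.n ≤ i) : V.P i = 0 := by
  ext x
  have h1 : V.P i x ∈ V.M i := (V.M i).starProjection_apply_mem x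
  rw [V.bot i h, Submodule.mem_bot] at h1
  simpa using h1

lemma Q_of_n_le {i : ℕ} (h : V.n ≤ i) : V.Q i = 0 := by
  unfold Flag.Q
  rw [P_of_n_le V h, P_of_n_le V (h.trans (Nat.le_succ i)), sub_zero]

lemma k_of_n_le {i : ℕ} (h : V.n ≤ i) : V.k i = 0 := by
  unfold Flag.k
  rw [V.bot i h]
  simp

/-- the sum over `Ico i m` does not depend on `m ≥ n` -/
lemma sum_ext {β : Type*} [AddCommMonoid β] (f : ℕ → β) {m : ℕ} (i : ℕ) (hm : V.n ≤ m)
    (hf : ∀ j, V.n ≤ j → f j = 0) : ∑ j ∈ Ico i V.n, f j = ∑ j ∈ Ico i m, f j := by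
  apply Finset.sum_subset
  · intro j hj
    rw [Finset.mem_Ico] at hj ⊢
    exact ⟨hj.1, hj.2.trans_le hm⟩
  · intro j _ hj
    rw [Finset.mem_Ico] at hj
    by_cases h : V.n ≤ j
    · exact hf j h
    · exact absurd ⟨(Finset.mem_Ico.1 ‹j ∈ Ico i m›).1, not_le.1 h⟩ hj

lemma H_eq_sum {m : ℕ} (i : ℕ) (hm : V.n ≤ m) : V.H i = ∑ j ∈ Ico i m, th ^ (j - i) • V.Q j :=
  sum_ext V _ i hm fun j hj => by rw [Q_of_n_le V hj, smul_zero]

lemma Hi_eq_sum {m : ℕ} (i : ℕ) (hm : V.n ≤ m) :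
    V.Hi i = ∑ j ∈ Ico i m, (th⁻¹) ^ (j - i) • V.Q j :=
  sum_ext V _ i hm fun j hj => by rw [Q_of_n_le V hj, smul_zero]

lemma rr_eq_sum {m : ℕ} (i : ℕ) (hm : V.n ≤ m) :
    V.rr i = ∑ j ∈ Ico i m, th ^ (j - i) * (V.k j : ℝ) :=
  sum_ext V _ i hm fun j hj => by rw [k_of_n_le V hj]; simp

lemma N_eq_sum {m : ℕ} (i : ℕ) (x : E) (hm : V.n ≤ m) :
    V.N i x = ∑ j ∈ Ico i m, (th⁻¹) ^ (j - i) * ‖V.Q j x‖ ^ 2 :=
  sum_ext V _ i hm fun j hj => by rw [Q_of_n_le V hj]; simp

lemma H_of_n_le {i : ℕ} (h : V.n ≤ i) : V.H i = 0 := by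
  unfold Flag.H
  rw [Finset.Ico_eq_empty (by omega), Finset.sum_empty]

lemma Hi_of_n_le {i : ℕ} (h : V.n ≤ i) : V.Hi i = 0 := by
  unfold Flag.Hi
  rw [Finset.Ico_eq_empty (by omega), Finset.sum_empty]

lemma rr_of_n_le {i : ℕ} (h : V.n ≤ i) : V.rr i = 0 := by
  unfold Flag.rr
  rw [Finset.Ico_eq_empty (by omega), Finset.sum_empty]

lemma N_of_n_le {i : ℕ} (h : V.n ≤ i) (x : E) : V.N i x = 0 := by
  unfold Flag.N
  rw [Finset.Ico_eq_empty (by omega), Finset.sum_empty]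

lemma cap_of_n_le {i : ℕ} (h : V.n ≤ i) (rho : ℝ) : V.cap rho i = {0} := by
  ext x
  simp only [Flag.cap, Set.mem_setOf_eq, Set.mem_singleton_iff]
  rw [V.bot i h, Submodule.mem_bot, N_of_n_le V h, rr_of_n_le V h]
  constructor
  · exact fun h => h.1
  · exact fun h => ⟨h, by simp⟩

/-! ### also with `M i = ⊥` only -/

lemma M_bot_of_le {i j : ℕ} (h : V.M i = ⊥) (hij : i ≤ j) : V.M j = ⊥ :=
  le_bot_iff.1 (h ▸ V.anti hij)

lemma P_of_bot {i : ℕ} (h : V.M i = ⊥) : V.P i = 0 := by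
  ext x
  have h1 : V.P i x ∈ V.M i := (V.M i).starProjection_apply_mem x
  rw [h, Submodule.mem_bot] at h1
  simpa using h1

lemma Q_of_bot {i : ℕ} (h : V.M i = ⊥) : V.Q i = 0 := by
  unfold Flag.Q
  rw [P_of_bot V h, P_of_bot V (M_bot_of_le V h (Nat.le_succ i)), sub_zero]

lemma k_of_bot {i : ℕ} (h : V.M i = ⊥) : V.k i = 0 := by
  unfold Flag.k
  rw [h]
  simp

lemma H_of_bot {i : ℕ} (h : V.M i = ⊥) : V.H i = 0 := by
  unfold Flag.H
  refine Finset.sum_eq_zero fun j hj => ?_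
  rw [Q_of_bot V (M_bot_of_le V h (Finset.mem_Ico.1 hj).1), smul_zero]

lemma cap_of_bot {i : ℕ} (h : V.M i = ⊥) (rho : ℝ) : V.cap rho i = {0} := by
  have h2 : V.rr i = 0 := by
    unfold Flag.rr
    refine Finset.sum_eq_zero fun j hj => ?_
    rw [k_of_bot V (M_bot_of_le V h (Finset.mem_Ico.1 hj).1)]; simp
  have h3 : ∀ x, V.N i x = 0 := by
    intro x
    unfold Flag.N
    refine Finset.sum_eq_zero fun j hj => ?_
    rw [Q_of_bot V (M_bot_of_le V h (Finset.mem_Ico.1 hj).1)]; simp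
  ext x
  simp only [Flag.cap, Set.mem_setOf_eq, Set.mem_singleton_iff]
  rw [h, Submodule.mem_bot, h3, h2]
  constructor
  · exact fun h => h.1
  · exact fun h => ⟨h, by simp⟩

/-! ### level `i` depends on `M j`, `j ≥ i`, only -/

variable {V V'}

lemma P_congr {j : ℕ} (h : V.M j = V'.M j) : V.P j = V'.P j := by
  unfold Flag.P
  congr 1

lemma Q_congr {j : ℕ} (h : V.M j = V'.M j) (h1 : V.M (j + 1) = V'.M (j + 1)) :
    V.Q j = V'.Q j := by
  unfold Flag.Q
  rw [P_congr h, P_congr h1]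

lemma k_congr {j : ℕ} (h : V.M j = V'.M j) (h1 : V.M (j + 1) = V'.M (j + 1)) :
    V.k j = V'.k j := by
  unfold Flag.k
  rw [h, h1]

lemma H_congr {i : ℕ} (h : ∀ j, i ≤ j → V.M j = V'.M j) : V.H i = V'.H i := by
  rw [H_eq_sum V i (le_max_left V.n V'.n), H_eq_sum V' i (le_max_right V.n V'.n)]
  refine Finset.sum_congr rfl fun j hj => ?_
  have hj := (Finset.mem_Ico.1 hj).1
  rw [Q_congr (h j hj) (h (j + 1) (by omega))]

lemma Hi_congr {i : ℕ} (h : ∀ j, i ≤ j → V.M j = V'.M j) : V.Hi i = V'.Hi i := by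
  rw [Hi_eq_sum V i (le_max_left V.n V'.n), Hi_eq_sum V' i (le_max_right V.n V'.n)]
  refine Finset.sum_congr rfl fun j hj => ?_
  have hj := (Finset.mem_Ico.1 hj).1
  rw [Q_congr (h j hj) (h (j + 1) (by omega))]

lemma rr_congr {i : ℕ} (h : ∀ j, i ≤ j → V.M j = V'.M j) : V.rr i = V'.rr i := by
  rw [rr_eq_sum V i (le_max_left V.n V'.n), rr_eq_sum V' i (le_max_right V.n V'.n)]
  refine Finset.sum_congr rfl fun j hj => ?_
  have hj := (Finset.mem_Ico.1 hj).1
  rw [k_congr (h j hj) (h (j + 1) (by omega))]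

lemma N_congr {i : ℕ} (h : ∀ j, i ≤ j → V.M j = V'.M j) : V.N i = V'.N i := by
  funext x
  rw [N_eq_sum V i x (le_max_left V.n V'.n), N_eq_sum V' i x (le_max_right V.n V'.n)]
  refine Finset.sum_congr rfl fun j hj => ?_
  have hj := (Finset.mem_Ico.1 hj).1
  rw [Q_congr (h j hj) (h (j + 1) (by omega))]

lemma cap_congr {i : ℕ} (h : ∀ j, i ≤ j → V.M j = V'.M j) (rho : ℝ) :
    V.cap rho i = V'.cap rho i := by
  unfold Flag.cap
  rw [N_congr h, rr_congr h, h i le_rfl]

end noMeas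

lemma Adm_congr {V V' : Flag E} {i : ℕ} (h : ∀ j, i ≤ j → V.M j = V'.M j) (p : Par) :
    Adm p V i = Adm p V' i := by
  funext K
  unfold Adm
  rw [cap_congr h, H_congr h]

lemma val_congr {V V' : Flag E} {i : ℕ} (h : ∀ j, i ≤ j → V.M j = V'.M j) (p : Par) :
    val p V i = val p V' i := by
  funext μ K
  unfold val
  rw [H_congr h]

lemma D_congr {V V' : Flag E} {i : ℕ} (h : ∀ j, i ≤ j → V.M j = V'.M j) (p : Par) :
    D p V i = D p V' i := by
  funext μ
  unfold D
  rw [val_congr h, Adm_congr h]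

/-! ### levels with `M i = ⊥` -/

lemma gau_zero_real_singleton : (gau (0 : E →L[ℝ] E)).real {(0 : E)} = 1 := by
  rw [Crest.Agent.R239.gau_real_apply _ (measurableSet_singleton _)]
  have : ((0 : E →L[ℝ] E) ⁻¹' {(0 : E)}) = Set.univ := by
    ext x; simp
  rw [this]; simp

lemma Eh_singleton_zero (μ : Multiset E) : Eh ({0} : Set E) μ = 0 := by
  unfold Eh
  have : hs ({0} : Set E) = fun _ => (0 : ℝ) := by
    funext z
    simp [hs]
  rw [this]
  simp

lemma adm_of_bot (p : Par) (V : Flag E) {i : ℕ} (h : V.M i = ⊥) (K : Set E) :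
    Adm p V i K ↔ K = {0} := by
  unfold Adm
  rw [cap_of_bot V h, H_of_bot V h]
  constructor
  · rintro ⟨_, _, _, h1, h2⟩
    refine subset_antisymm h1 ?_
    rintro x rfl
    by_contra h0
    have : K = ∅ := by
      ext y
      simp only [Set.mem_empty_iff_false, iff_false]
      intro hy
      have := h1 hy
      rw [Set.mem_singleton_iff] at this
      exact h0 (this ▸ hy)
    rw [this] at h2
    simp at h2
  · rintro rfl
    refine ⟨isClosed_singleton, convex_singleton 0, ?_, subset_rfl, ?_⟩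
    · intro x hx
      rw [Set.mem_singleton_iff] at hx ⊢
      rw [hx, neg_zero]
    · rw [gau_zero_real_singleton]; norm_num

lemma D_of_bot (p : Par) (V : Flag E) {i : ℕ} (h : V.M i = ⊥) (μ : Multiset E) :
    D p V i μ = 0 := by
  unfold D
  have : {K | Adm p V i K} = {({0} : Set E)} := by
    ext K
    simp only [Set.mem_setOf_eq, Set.mem_singleton_iff]
    exact adm_of_bot p V h K
  rw [this, Set.image_singleton, csInf_singleton]
  unfold val
  rw [H_of_bot V h, gau_zero_real_singleton, Eh_singleton_zero]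
  simp

lemma D_of_n_le (p : Par) (V : Flag E) {i : ℕ} (h : V.n ≤ i) (μ : Multiset E) :
    D p V i μ = 0 := D_of_bot p V (V.bot i h) μ

/-- `J` is a sum over `range m` for every `m ≥ n` -/
lemma J_eq_sum (p : Par) (V : Flag E) {m : ℕ} (hm : V.n ≤ m) (μ : Multiset E) :
    J p V μ = ∑ i ∈ Finset.range m, (D p V i μ - p.kap * p.lam i * V.k i) := by
  unfold J
  apply Finset.sum_subset
  · intro j hj
    rw [Finset.mem_range] at hj ⊢
    exact hj.trans_le hm
  · intro j _ hj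
    rw [Finset.mem_range, not_lt] at hj
    rw [D_of_n_le p V hj, k_of_n_le V hj]
    simp

/-- `J` only depends on `M` -/
lemma J_congr {V V' : Flag E} (h : ∀ j, V.M j = V'.M j) (p : Par) (μ : Multiset E) :
    J p V μ = J p V' μ := by
  rw [J_eq_sum p V (le_max_left V.n V'.n), J_eq_sum p V' (le_max_right V.n V'.n)]
  refine Finset.sum_congr rfl fun i _ => ?_
  rw [D_congr (fun j _ => h j), k_congr (h i) (h (i + 1))]

/-- comparison of two flags, split at level `I` (levels `> I` equal) -/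
lemma J_sub_eq {V V' : Flag E} (p : Par) (μ : Multiset E) {m : ℕ} (hm : V.n ≤ m) (hm' : V'.n ≤ m) :
    J p V' μ - J p V μ = ∑ i ∈ Finset.range m,
      ((D p V' i μ - D p V i μ) - p.kap * p.lam i * ((V'.k i : ℝ) - V.k i)) := by
  rw [J_eq_sum p V hm, J_eq_sum p V' hm', ← Finset.sum_sub_distrib]
  refine Finset.sum_congr rfl fun i _ => ?_
  ring

section dims
omit [MeasurableSpace E] [BorelSpace E]

/-! ### dimensions -/

variable (V : Flag E)

lemma finrank_anti {i j : ℕ} (h : i ≤ j) :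
    Module.finrank ℝ (V.M j) ≤ Module.finrank ℝ (V.M i) :=
  Submodule.finrank_mono (V.anti h)

lemma k_add (i : ℕ) :
    V.k i + Module.finrank ℝ (V.M (i + 1)) = Module.finrank ℝ (V.M i) := by
  unfold Flag.k
  exact Nat.sub_add_cancel (finrank_anti V (Nat.le_succ i))

lemma k_cast (i : ℕ) :
    (V.k i : ℝ) = Module.finrank ℝ (V.M i) - Module.finrank ℝ (V.M (i + 1)) := by
  have := k_add V i
  have h : ((V.k i + Module.finrank ℝ (V.M (i + 1)) : ℕ) : ℝ) = Module.finrank ℝ (V.M i) := by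
    rw [this]
  push_cast at h
  linarith

lemma sum_k {i m : ℕ} (h : i ≤ m) :
    ∑ j ∈ Ico i m, V.k j + Module.finrank ℝ (V.M m) = Module.finrank ℝ (V.M i) := by
  induction m, h using Nat.le_induction with
  | base => simp
  | succ m hm ih =>
    rw [Finset.sum_Ico_succ_top hm, add_assoc, k_add, ih]

lemma sum_k_n {i m : ℕ} (h : i ≤ m) (hm : V.n ≤ m) :
    ∑ j ∈ Ico i m, V.k j = Module.finrank ℝ (V.M i) := by
  have := sum_k V h
  rw [V.bot m hm] at this
  simpa using this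

lemma sum_k_real {i m : ℕ} (h : i ≤ m) (hm : V.n ≤ m) :
    ∑ j ∈ Ico i m, (V.k j : ℝ) = Module.finrank ℝ (V.M i) := by
  rw [← sum_k_n V h hm]; push_cast; rfl

lemma k_le (i : ℕ) : V.k i ≤ Module.finrank ℝ (V.M i) := by
  have := k_add V i; omega

lemma sum_k_le (i : ℕ) : ∑ j ∈ Ico i V.n, (V.k j : ℝ) ≤ Module.finrank ℝ E := by
  by_cases h : i ≤ V.n
  · rw [sum_k_real V h le_rfl]
    exact_mod_cast Submodule.finrank_le _
  · rw [Finset.Ico_eq_empty (by omega), Finset.sum_empty]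
    positivity

lemma k_eq_zero_iff (i : ℕ) : V.k i = 0 ↔ V.M (i + 1) = V.M i := by
  constructor
  · intro h
    have h1 := k_add V i
    rw [h, zero_add] at h1
    exact Submodule.eq_of_le_of_finrank_eq (V.anti (Nat.le_succ i)) h1
  · intro h
    unfold Flag.k
    rw [h, Nat.sub_self]

/-- Abel form of the penalty, for any increasing weights `a` -/
lemma penalty_abel (a : ℕ → ℝ) {m : ℕ} (hm : V.n ≤ m) :
    ∑ i ∈ Finset.range m, a i * (V.k i : ℝ)
      = a 0 * Module.finrank ℝ (V.M 0)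
        + ∑ i ∈ Ico 1 m, (a i - a (i - 1)) * (Module.finrank ℝ (V.M i) : ℝ) := by
  have key : ∀ r : ℕ, ∑ i ∈ Finset.range r, a i * (V.k i : ℝ)
      = a 0 * Module.finrank ℝ (V.M 0)
        + ∑ i ∈ Ico 1 r, (a i - a (i - 1)) * (Module.finrank ℝ (V.M i) : ℝ)
        - a (r - 1) * (Module.finrank ℝ (V.M r) : ℝ) := by
    intro r
    induction r with
    | zero => simp
    | succ r ih =>
      rw [Finset.sum_range_succ, ih, k_cast]
      rcases Nat.eq_zero_or_pos r with h0 | h0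
      · subst h0
        simp
        ring
      · rw [Finset.sum_Ico_succ_top (by omega : 1 ≤ r), Nat.add_sub_cancel]
        ring
  rw [key m, V.bot m hm]
  simp

/-- two flags: difference of the penalties in terms of the dimensions -/
lemma penalty_sub {V V' : Flag E} (a : ℕ → ℝ) {m : ℕ} (hm : V.n ≤ m) (hm' : V'.n ≤ m) :
    ∑ i ∈ Finset.range m, a i * ((V'.k i : ℝ) - V.k i)
      = a 0 * ((Module.finrank ℝ (V'.M 0) : ℝ) - Module.finrank ℝ (V.M 0))
        + ∑ i ∈ Ico 1 m, (a i - a (i - 1)) *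
            ((Module.finrank ℝ (V'.M i) : ℝ) - Module.finrank ℝ (V.M i)) := by
  have h1 := penalty_abel V a hm
  have h2 := penalty_abel V' a hm'
  have e1 : ∑ i ∈ Finset.range m, a i * ((V'.k i : ℝ) - V.k i)
      = ∑ i ∈ Finset.range m, a i * (V'.k i : ℝ) - ∑ i ∈ Finset.range m, a i * (V.k i : ℝ) := by
    rw [← Finset.sum_sub_distrib]
    exact Finset.sum_congr rfl fun i _ => by ring
  have e2 : ∑ i ∈ Ico 1 m, (a i - a (i - 1)) *
            ((Module.finrank ℝ (V'.M i) : ℝ) - Module.finrank ℝ (V.M i))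
      = ∑ i ∈ Ico 1 m, (a i - a (i - 1)) * (Module.finrank ℝ (V'.M i) : ℝ)
        - ∑ i ∈ Ico 1 m, (a i - a (i - 1)) * (Module.finrank ℝ (V.M i) : ℝ) := by
    rw [← Finset.sum_sub_distrib]
    exact Finset.sum_congr rfl fun i _ => by ring
  rw [e1, e2, h1, h2]
  ring

/-- if `dim V'.M i ≤ dim V.M i + 1` for `i ≤ I` and `≤ dim V.M i` for `i > I`, the penalty grows by
at most `a I` (`a` nondecreasing, `a ≥ 0`) -/
lemma penalty_insert {V V' : Flag E} {a : ℕ → ℝ} (ha0 : 0 ≤ a 0) (ha : Monotone a) {m : ℕ}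
    (hm : V.n ≤ m) (hm' : V'.n ≤ m) {I : ℕ} (hI : I < m)
    (h1 : ∀ i, i ≤ I → Module.finrank ℝ (V'.M i) ≤ Module.finrank ℝ (V.M i) + 1)
    (h2 : ∀ i, I < i → Module.finrank ℝ (V'.M i) ≤ Module.finrank ℝ (V.M i)) :
    ∑ i ∈ Finset.range m, a i * ((V'.k i : ℝ) - V.k i) ≤ a I := by
  rw [penalty_sub a hm hm']
  have h1' : ∀ i, i ≤ I → (Module.finrank ℝ (V'.M i) : ℝ) - Module.finrank ℝ (V.M i) ≤ 1 := by
    intro i hi
    have := h1 i hi
    have : (Module.finrank ℝ (V'.M i) : ℝ) ≤ Module.finrank ℝ (V.M i) + 1 := by exact_mod_cast this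
    linarith
  have h2' : ∀ i, I < i → (Module.finrank ℝ (V'.M i) : ℝ) - Module.finrank ℝ (V.M i) ≤ 0 := by
    intro i hi
    have : (Module.finrank ℝ (V'.M i) : ℝ) ≤ Module.finrank ℝ (V.M i) := by exact_mod_cast h2 i hi
    linarith
  have hinc : ∀ i, 0 ≤ a i - a (i - 1) := fun i => sub_nonneg.2 (ha (Nat.sub_le i 1))
  have s1 : ∑ i ∈ Ico 1 m, (a i - a (i - 1)) *
      ((Module.finrank ℝ (V'.M i) : ℝ) - Module.finrank ℝ (V.M i))
      ≤ ∑ i ∈ Ico 1 m, (a i - a (i - 1)) * (if i ≤ I then 1 else 0) := by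
    refine Finset.sum_le_sum fun i _ => ?_
    refine mul_le_mul_of_nonneg_left ?_ (hinc i)
    split_ifs with h
    · exact h1' i h
    · exact h2' i (not_le.1 h)
  have s2 : ∑ i ∈ Ico 1 m, (a i - a (i - 1)) * (if i ≤ I then (1 : ℝ) else 0) = a I - a 0 := by
    have : ∀ r, 1 ≤ r → r ≤ I + 1 →
        ∑ i ∈ Ico 1 r, (a i - a (i - 1)) * (if i ≤ I then (1 : ℝ) else 0) = a (r - 1) - a 0 := by
      intro r hr
      induction r, hr using Nat.le_induction with
      | base => intro _; simp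
      | succ r hr ih =>
        intro h
        rw [Finset.sum_Ico_succ_top hr, ih (by omega), if_pos (by omega), Nat.add_sub_cancel]
        ring
    have t : ∑ i ∈ Ico 1 m, (a i - a (i - 1)) * (if i ≤ I then (1 : ℝ) else 0)
        = ∑ i ∈ Ico 1 (I + 1), (a i - a (i - 1)) * (if i ≤ I then (1 : ℝ) else 0) := by
      symm
      apply Finset.sum_subset
      · intro j hj
        rw [Finset.mem_Ico] at hj ⊢
        omega
      · intro j hj hj'
        rw [Finset.mem_Ico] at hj hj'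
        rw [if_neg (by omega), mul_zero]
    rw [t, this (I + 1) (by omega) le_rfl, Nat.add_sub_cancel]
  have s0 := mul_le_mul_of_nonneg_left (h1' 0 (Nat.zero_le _)) ha0
  linarith

end dims

section params

lemma lam_nonneg {p : Par} (hp : p.Ok) (i : ℕ) : 0 ≤ p.lam i := by
  unfold Par.lam
  have := hp.tau_pos
  have := hp.A_ge
  positivity

lemma lam_pos {p : Par} (hp : p.Ok) (i : ℕ) : 0 < p.lam i := by
  unfold Par.lam
  have := hp.tau_pos
  have := hp.A_ge
  positivity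

lemma lam_succ (p : Par) (i : ℕ) : p.lam (i + 1) = p.A * p.lam i := by
  unfold Par.lam
  rw [pow_succ]; ring

lemma lam_mono {p : Par} (hp : p.Ok) : Monotone p.lam := by
  refine monotone_nat_of_le_succ fun i => ?_
  rw [lam_succ]
  nlinarith [lam_nonneg hp i, hp.A_ge]

end params

/-- penalty of an inserted direction, in the form used by `J_sub_eq` -/
lemma J_insert {V V' : Flag E} {p : Par} (hp : p.Ok) (μ : Multiset E) {m : ℕ} (hm : V.n ≤ m)
    (hm' : V'.n ≤ m) {I : ℕ} (hI : I < m)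
    (h1 : ∀ i, i ≤ I → Module.finrank ℝ (V'.M i) ≤ Module.finrank ℝ (V.M i) + 1)
    (h2 : ∀ i, I < i → Module.finrank ℝ (V'.M i) ≤ Module.finrank ℝ (V.M i)) :
    J p V μ + ∑ i ∈ Finset.range m, (D p V' i μ - D p V i μ) - p.kap * p.lam I ≤ J p V' μ := by
  have h := J_sub_eq (V := V) (V' := V') p μ hm hm'
  rw [Finset.sum_sub_distrib] at h
  have h3 : ∑ i ∈ Finset.range m, p.kap * p.lam i * ((V'.k i : ℝ) - V.k i) ≤ p.kap * p.lam I :=
    penalty_insert (a := fun i => p.kap * p.lam i)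
      (mul_nonneg hp.kap_pos.le (lam_nonneg hp 0))
      (fun i j hij => mul_le_mul_of_nonneg_left (lam_mono hp hij) hp.kap_pos.le) hm hm' hI h1 h2
  linarith

end Crest.Agent.R239.F1333
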