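import Mathlib

/-! R239 (S0370), block F2/LU (helper227): support functions of bounded symmetric sets, sums over
multisets, arithmetic of (U2). -/

set_option autoImplicit false

open Module
open scoped RealInnerProductSpace

namespace Crest.Agent.R239.LU227

variable {E : Type*} [NormedAddCommGroup E] [InnerProductSpace ℝ E]

/-- The support function of `K` at `z`. -/
noncomputable def hs (K : Set E) (z : E) : ℝ := sSup ((fun x => ⟪x, z⟫) '' K)

theorem hs_bdd {K : Set E} (hK : Bornology.IsBounded K) (z : E) :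
    BddAbove ((fun x => ⟪x, z⟫) '' K) := by
  obtain ⟨C, hC⟩ := hK.exists_norm_le
  refine ⟨C * ‖z‖, ?_⟩
  rintro _ ⟨x, hx, rfl⟩
  exact (real_inner_le_norm x z).trans (mul_le_mul_of_nonneg_right (hC x hx) (norm_nonneg z))

theorem le_hs {K : Set E} (hK : Bornology.IsBounded K) {x : E} (hx : x ∈ K) (z : E) :
    ⟪x, z⟫ ≤ hs K z := le_csSup (hs_bdd hK z) ⟨x, hx, rfl⟩

theorem hs_le {K : Set E} (hne : K.Nonempty) {z : E} {c : ℝ} (h : ∀ x ∈ K, ⟪x, z⟫ ≤ c) :
    hs K z ≤ c := by
  apply csSup_le (hne.image _)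
  rintro _ ⟨x, hx, rfl⟩
  exact h x hx

theorem hs_nonneg {K : Set E} (hK : Bornology.IsBounded K) (h0 : (0 : E) ∈ K) (z : E) :
    0 ≤ hs K z := by
  have := le_hs hK h0 z
  rwa [inner_zero_left] at this

theorem hs_add_le {K : Set E} (hK : Bornology.IsBounded K) (hne : K.Nonempty) (z w : E) :
    hs K (z + w) ≤ hs K z + hs K w := by
  apply hs_le hne
  intro x hx
  rw [inner_add_right]
  exact add_le_add (le_hs hK hx z) (le_hs hK hx w)

theorem hs_mono {K L : Set E} (hL : Bornology.IsBounded L) (hne : K.Nonempty) (h : K ⊆ L) (z : E) :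
    hs K z ≤ hs L z := hs_le hne fun _ hx => le_hs hL (h hx) z

theorem hs_zero {K : Set E} (hne : K.Nonempty) : hs K (0 : E) = 0 := by
  unfold hs
  have : (fun x : E => ⟪x, (0 : E)⟫) '' K = {0} := by
    ext y
    simp only [inner_zero_right, Set.mem_image, Set.mem_singleton_iff]
    constructor
    · rintro ⟨_, _, rfl⟩; rfl
    · rintro rfl
      obtain ⟨x, hx⟩ := hne
      exact ⟨x, hx, rfl⟩
  rw [this, csSup_singleton]

theorem hs_singleton_zero (z : E) : hs ({0} : Set E) z = 0 := by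
  unfold hs
  simp

theorem le_hs_abs {K : Set E} (hK : Bornology.IsBounded K) (hs' : ∀ x ∈ K, -x ∈ K) {x : E}
    (hx : x ∈ K) (z : E) : |⟪x, z⟫| ≤ hs K z := by
  rw [abs_le]
  refine ⟨?_, le_hs hK hx z⟩
  have := le_hs hK (hs' x hx) z
  rw [inner_neg_left] at this
  linarith

/-- `E_μ h_K`. -/
noncomputable def Eh (K : Set E) (m : Multiset E) : ℝ := (m.map (hs K)).sum

theorem Eh_zero (K : Set E) : Eh K (0 : Multiset E) = 0 := by simp [Eh]

theorem Eh_cons (K : Set E) (z : E) (m : Multiset E) : Eh K (z ::ₘ m) = hs K z + Eh K m := by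
  simp [Eh]

theorem Eh_add (K : Set E) (m m' : Multiset E) : Eh K (m + m') = Eh K m + Eh K m' := by
  simp [Eh]

theorem Eh_nonneg {K : Set E} (hK : Bornology.IsBounded K) (h0 : (0 : E) ∈ K) (m : Multiset E) :
    0 ≤ Eh K m := by
  apply Multiset.sum_nonneg
  intro x hx
  obtain ⟨z, -, rfl⟩ := Multiset.mem_map.1 hx
  exact hs_nonneg hK h0 z

theorem Eh_mono {K L : Set E} (hL : Bornology.IsBounded L) (hne : K.Nonempty) (h : K ⊆ L)
    (m : Multiset E) : Eh K m ≤ Eh L m := by
  apply Multiset.sum_map_le_sum_map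
  intro z _
  exact hs_mono hL hne h z

/-- (U1) for one body: splitting the letters increases `E_μ h_K`. -/
theorem Eh_split {K : Set E} (hK : Bornology.IsBounded K) (hne : K.Nonempty)
    (s : Multiset (E × E)) :
    Eh K (s.map fun p => p.1 + p.2) ≤ Eh K (s.map Prod.fst + s.map Prod.snd) := by
  rw [Eh_add]
  unfold Eh
  rw [Multiset.map_map, Multiset.map_map, Multiset.map_map, ← Multiset.sum_map_add]
  apply Multiset.sum_map_le_sum_map
  intro p _
  exact hs_add_le hK hne p.1 p.2

end Crest.Agent.R239.LU227
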