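import Mathlib
import Crest.Agent.R239.LUa_227

/-! R239 (S0370), block F2/LU (helper227): projections of a flag, the sum over the levels of the
support functions of the caps, arithmetic of (U2). Flag-free form: an antitone sequence of
subspaces. -/

set_option autoImplicit false

open Module Finset
open scoped RealInnerProductSpace

namespace Crest.Agent.R239.LU227

variable {E : Type*} [NormedAddCommGroup E] [InnerProductSpace ℝ E] [FiniteDimensional ℝ E]

/-- block projection of a sequence of subspaces -/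
noncomputable def Qb (M : ℕ → Submodule ℝ E) (j : ℕ) : E →L[ℝ] E :=
  (M j).starProjection - (M (j + 1)).starProjection

theorem Qb_apply (M : ℕ → Submodule ℝ E) (j : ℕ) (x : E) :
    Qb M j x = (M j).starProjection x - (M (j + 1)).starProjection x := rfl

variable {M : ℕ → Submodule ℝ E}

theorem PP {a b : Submodule ℝ E} (h : b ≤ a) (x : E) :
    a.starProjection (b.starProjection x) = b.starProjection x :=
  Submodule.starProjection_eq_self_iff.2 (h (Submodule.starProjection_apply_mem b x))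

theorem PP' {a b : Submodule ℝ E} (h : b ≤ a) (x : E) :
    b.starProjection (a.starProjection x) = b.starProjection x := by
  refine ext_inner_left ℝ fun y => ?_
  rw [← Submodule.inner_starProjection_left_eq_right, ← Submodule.inner_starProjection_left_eq_right,
    PP h, Submodule.inner_starProjection_left_eq_right]

theorem inner_PP {a b : Submodule ℝ E} (h : b ≤ a) (x y : E) :
    ⟪a.starProjection x, b.starProjection y⟫ = ⟪b.starProjection x, y⟫ := by
  rw [Submodule.inner_starProjection_left_eq_right, PP h,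
    Submodule.inner_starProjection_left_eq_right]

theorem inner_Qb (hM : Antitone M) (j : ℕ) (x y : E) : ⟪Qb M j x, Qb M j y⟫ = ⟪Qb M j x, y⟫ := by
  have h : M (j + 1) ≤ M j := hM (Nat.le_succ j)
  have e1 : ⟪(M (j + 1)).starProjection x, (M j).starProjection y⟫
      = ⟪(M (j + 1)).starProjection x, y⟫ := by
    rw [real_inner_comm, inner_PP h, real_inner_comm,
      ← Submodule.inner_starProjection_left_eq_right]
  rw [Qb_apply, Qb_apply, inner_sub_left, inner_sub_left, inner_sub_right, inner_sub_right,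
    inner_PP h, inner_PP le_rfl, inner_PP le_rfl, e1]
  ring

theorem norm_Qb_sq (hM : Antitone M) (j : ℕ) (x : E) :
    ‖Qb M j x‖ ^ 2 = ‖(M j).starProjection x‖ ^ 2 - ‖(M (j + 1)).starProjection x‖ ^ 2 := by
  rw [← real_inner_self_eq_norm_sq, inner_Qb hM, Qb_apply, inner_sub_left,
    ← real_inner_self_eq_norm_sq, ← real_inner_self_eq_norm_sq, inner_PP le_rfl, inner_PP le_rfl]

theorem tele {G : Type*} [AddCommGroup G] (f : ℕ → G) {i n : ℕ} (h : i ≤ n) :
    ∑ j ∈ Ico i n, (f j - f (j + 1)) = f i - f n := by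
  induction n, h using Nat.le_induction with
  | base => simp
  | succ n h ih => rw [Finset.sum_Ico_succ_top h, ih]; abel

theorem sum_Qb (i n : ℕ) (h : i ≤ n) (x : E) :
    ∑ j ∈ Ico i n, Qb M j x = (M i).starProjection x - (M n).starProjection x := by
  simpa [Qb_apply] using tele (fun j => (M j).starProjection x) h

theorem sum_Qb_of_mem {i n : ℕ} (hM : Antitone M) (hn : M n = ⊥) {x : E} (hx : x ∈ M i) :
    ∑ j ∈ Ico i n, Qb M j x = x := by
  rcases le_total i n with h | h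
  · rw [sum_Qb i n h, hn, Submodule.starProjection_bot, Submodule.starProjection_eq_self_iff.2 hx]
    simp
  · have : x = 0 := by
      have := hM h hx
      rw [hn] at this
      simpa using this
    subst this
    simp

theorem sum_norm_Qb_sq (hM : Antitone M) (i n : ℕ) (h : i ≤ n) (x : E) :
    ∑ j ∈ Ico i n, ‖Qb M j x‖ ^ 2
      = ‖(M i).starProjection x‖ ^ 2 - ‖(M n).starProjection x‖ ^ 2 := by
  rw [← tele (fun j => ‖(M j).starProjection x‖ ^ 2) h]
  exact Finset.sum_congr rfl fun j _ => norm_Qb_sq hM j x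

theorem sum_norm_Qb_sq_le (hM : Antitone M) (n : ℕ) (x : E) :
    ∑ j ∈ range n, ‖Qb M j x‖ ^ 2 ≤ ‖x‖ ^ 2 := by
  rw [Finset.range_eq_Ico, sum_norm_Qb_sq hM 0 n (Nat.zero_le n)]
  have h1 := Submodule.norm_starProjection_apply_le (M 0) x
  have h2 : ‖(M 0).starProjection x‖ ^ 2 ≤ ‖x‖ ^ 2 := by gcongr
  nlinarith [sq_nonneg ‖(M n).starProjection x‖]

/-- block dimension -/
noncomputable def kb (M : ℕ → Submodule ℝ E) (j : ℕ) : ℕ := finrank ℝ (M j) - finrank ℝ (M (j + 1))

theorem kb_cast (hM : Antitone M) (j : ℕ) :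
    (kb M j : ℝ) = finrank ℝ (M j) - finrank ℝ (M (j + 1)) := by
  unfold kb
  rw [Nat.cast_sub (Submodule.finrank_mono (hM (Nat.le_succ j)))]

theorem sum_kb (hM : Antitone M) (n : ℕ) :
    (∑ j ∈ range n, (kb M j : ℝ)) = finrank ℝ (M 0) - finrank ℝ (M n) := by
  rw [← Finset.sum_range_sub' (fun j => (finrank ℝ (M j) : ℝ))]
  exact Finset.sum_congr rfl fun j _ => kb_cast hM j

theorem sum_kb_le (hM : Antitone M) (n : ℕ) : (∑ j ∈ range n, (kb M j : ℝ)) ≤ finrank ℝ E := by
  rw [sum_kb hM]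
  have : (finrank ℝ (M 0) : ℝ) ≤ finrank ℝ E := by exact_mod_cast Submodule.finrank_le _
  have h2 : (0 : ℝ) ≤ finrank ℝ (M n) := by positivity
  linarith

/-- if the block has dimension zero its projection vanishes -/
theorem Qb_eq_zero (hM : Antitone M) {j : ℕ} (h : kb M j = 0) : Qb M j = 0 := by
  have h1 : M (j + 1) ≤ M j := hM (Nat.le_succ j)
  have h2 : finrank ℝ (M j) ≤ finrank ℝ (M (j + 1)) := by
    unfold kb at h; omega
  have h3 : M (j + 1) = M j := Submodule.eq_of_le_of_finrank_le h1 h2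
  ext x
  rw [Qb_apply]
  have : (M (j + 1)).starProjection x = (M j).starProjection x := by simp only [h3]
  rw [this, sub_self]
  rfl

/-- Cauchy–Schwarz for the blocks. -/
theorem sum_sqrt_kb_le (hM : Antitone M) (n : ℕ) (z : E) :
    ∑ j ∈ range n, √(kb M j : ℝ) * ‖Qb M j z‖ ≤ √(finrank ℝ E : ℝ) * ‖z‖ := by
  have h := Finset.sum_mul_sq_le_sq_mul_sq (range n) (fun j => √(kb M j : ℝ)) (fun j => ‖Qb M j z‖)
  have h1 : ∑ j ∈ range n, (√(kb M j : ℝ)) ^ 2 ≤ finrank ℝ E := by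
    refine le_trans (le_of_eq ?_) (sum_kb_le hM n)
    exact Finset.sum_congr rfl fun j _ => Real.sq_sqrt (by positivity)
  have h2 := sum_norm_Qb_sq_le hM n z
  have h3 : (∑ j ∈ range n, √(kb M j : ℝ) * ‖Qb M j z‖) ^ 2 ≤ (√(finrank ℝ E : ℝ) * ‖z‖) ^ 2 := by
    rw [mul_pow, Real.sq_sqrt (by positivity)]
    refine h.trans ?_
    gcongr
  exact (le_abs_self _).trans (abs_le_of_sq_le_sq h3 (by positivity))

/-- Interchange of the two sums with geometric weights. -/
theorem sum_geom_le {th : ℝ} (h0 : 0 ≤ th) (h1 : th < 1) (n : ℕ) (f : ℕ → ℝ) (hf : ∀ j, 0 ≤ f j) :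
    ∑ i ∈ range n, ∑ j ∈ Ico i n, th ^ (j - i) * f j ≤ (1 / (1 - th)) * ∑ j ∈ range n, f j := by
  have e : ∑ i ∈ range n, ∑ j ∈ Ico i n, th ^ (j - i) * f j
      = ∑ j ∈ range n, ∑ i ∈ range (j + 1), th ^ (j - i) * f j := by
    refine Finset.sum_comm' ?_
    intro i j
    simp only [Finset.mem_range, Finset.mem_Ico]
    omega
  rw [e, Finset.mul_sum]
  apply Finset.sum_le_sum
  intro j _
  rw [← Finset.sum_mul]
  refine mul_le_mul_of_nonneg_right ?_ (hf j)
  have e2 : ∑ i ∈ range (j + 1), th ^ (j - i) = ∑ i ∈ range (j + 1), th ^ i := by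
    rw [← Finset.sum_range_reflect]
    refine Finset.sum_congr rfl fun i hi => ?_
    congr 1
    have := Finset.mem_range.1 hi
    omega
  rw [e2]
  have h3 := mul_neg_geom_sum th (j + 1)
  rw [le_div_iff₀ (by linarith), mul_comm, h3]
  have : 0 ≤ th ^ (j + 1) := by positivity
  linarith
  
/-- the cap of level `i` -/
def capb (M : ℕ → Submodule ℝ E) (n : ℕ) (rho th : ℝ) (i : ℕ) : Set E :=
  {x | x ∈ M i ∧ ∀ j ∈ Ico i n, ‖Qb M j x‖ ≤ rho * th ^ (j - i) * √(kb M j : ℝ)}

theorem zero_mem_capb {n : ℕ} {rho th : ℝ} (hr : 0 ≤ rho) (ht : 0 ≤ th) (i : ℕ) :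
    (0 : E) ∈ capb M n rho th i := by
  refine ⟨Submodule.zero_mem _, fun j _ => ?_⟩
  rw [map_zero, norm_zero]
  positivity

theorem neg_mem_capb {n : ℕ} {rho th : ℝ} {i : ℕ} {x : E} (hx : x ∈ capb M n rho th i) :
    -x ∈ capb M n rho th i := by
  refine ⟨Submodule.neg_mem _ hx.1, fun j hj => ?_⟩
  rw [map_neg, norm_neg]
  exact hx.2 j hj

theorem capb_inner_le (hM : Antitone M) {n : ℕ} (hn : M n = ⊥) {rho th : ℝ} {i : ℕ} {x : E}
    (hx : x ∈ capb M n rho th i) (z : E) :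
    ⟪x, z⟫ ≤ rho * ∑ j ∈ Ico i n, th ^ (j - i) * (√(kb M j : ℝ) * ‖Qb M j z‖) := by
  conv_lhs => rw [← sum_Qb_of_mem hM hn hx.1]
  rw [sum_inner, Finset.mul_sum]
  apply Finset.sum_le_sum
  intro j hj
  rw [← inner_Qb hM]
  calc ⟪Qb M j x, Qb M j z⟫ ≤ ‖Qb M j x‖ * ‖Qb M j z‖ := real_inner_le_norm _ _
    _ ≤ (rho * th ^ (j - i) * √(kb M j : ℝ)) * ‖Qb M j z‖ :=
        mul_le_mul_of_nonneg_right (hx.2 j hj) (norm_nonneg _)
    _ = _ := by ring

theorem isBounded_capb (hM : Antitone M) {n : ℕ} (hn : M n = ⊥) {rho th : ℝ} (i : ℕ) :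
    Bornology.IsBounded (capb M n rho th i) := by
  rw [isBounded_iff_forall_norm_le]
  refine ⟨∑ j ∈ Ico i n, rho * th ^ (j - i) * √(kb M j : ℝ), fun x hx => ?_⟩
  conv_lhs => rw [← sum_Qb_of_mem hM hn hx.1]
  exact (norm_sum_le _ _).trans (Finset.sum_le_sum hx.2)

theorem convex_capb {n : ℕ} {rho th : ℝ} (i : ℕ) : Convex ℝ (capb M n rho th i) := by
  intro x hx y hy a b ha hb hab
  refine ⟨(M i).add_mem ((M i).smul_mem a hx.1) ((M i).smul_mem b hy.1), fun j hj => ?_⟩
  rw [map_add, map_smul, map_smul]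
  calc ‖a • Qb M j x + b • Qb M j y‖ ≤ ‖a • Qb M j x‖ + ‖b • Qb M j y‖ := norm_add_le _ _
    _ = a * ‖Qb M j x‖ + b * ‖Qb M j y‖ := by
        rw [norm_smul, norm_smul, Real.norm_of_nonneg ha, Real.norm_of_nonneg hb]
    _ ≤ a * (rho * th ^ (j - i) * √(kb M j : ℝ)) + b * (rho * th ^ (j - i) * √(kb M j : ℝ)) := by
        gcongr
        · exact hx.2 j hj
        · exact hy.2 j hj
    _ = _ := by rw [← add_mul, hab, one_mul]

theorem isClosed_capb {n : ℕ} {rho th : ℝ} (i : ℕ) : IsClosed (capb M n rho th i) := by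
  have : capb M n rho th i = (M i : Set E) ∩
      ⋂ j ∈ Ico i n, {x | ‖Qb M j x‖ ≤ rho * th ^ (j - i) * √(kb M j : ℝ)} := by
    ext x
    simp [capb]
  rw [this]
  refine (Submodule.closed_of_finiteDimensional (M i)).inter ?_
  refine isClosed_biInter fun j _ => ?_
  exact isClosed_le (by fun_prop) continuous_const

theorem hs_capb_le (hM : Antitone M) {n : ℕ} (hn : M n = ⊥) {rho th : ℝ} (hr : 0 ≤ rho)
    (ht : 0 ≤ th) (i : ℕ) (z : E) :
    hs (capb M n rho th i) z ≤ rho * ∑ j ∈ Ico i n, th ^ (j - i) * (√(kb M j : ℝ) * ‖Qb M j z‖) :=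
  hs_le ⟨0, zero_mem_capb hr ht i⟩ fun _ hx => capb_inner_le hM hn hx z

/-- (U2) arithmetic. -/
theorem sum_hs_capb_le (hM : Antitone M) {n : ℕ} (hn : M n = ⊥) {rho th : ℝ} (hr : 0 ≤ rho)
    (ht : 0 ≤ th) (ht1 : th < 1) (z : E) :
    ∑ i ∈ range n, hs (capb M n rho th i) z
      ≤ rho / (1 - th) * (√(finrank ℝ E : ℝ) * ‖z‖) := by
  calc ∑ i ∈ range n, hs (capb M n rho th i) z
      ≤ ∑ i ∈ range n, rho * ∑ j ∈ Ico i n, th ^ (j - i) * (√(kb M j : ℝ) * ‖Qb M j z‖) :=
        Finset.sum_le_sum fun i _ => hs_capb_le hM hn hr ht i z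
    _ = rho * ∑ i ∈ range n, ∑ j ∈ Ico i n, th ^ (j - i) * (√(kb M j : ℝ) * ‖Qb M j z‖) := by
        rw [Finset.mul_sum]
    _ ≤ rho * (1 / (1 - th) * ∑ j ∈ range n, √(kb M j : ℝ) * ‖Qb M j z‖) := by
        gcongr
        exact sum_geom_le ht ht1 n _ fun j => by positivity
    _ ≤ rho * (1 / (1 - th) * (√(finrank ℝ E : ℝ) * ‖z‖)) := by
        have : 0 ≤ 1 / (1 - th) := by
          apply div_nonneg zero_le_one; linarith
        gcongr
        exact sum_sqrt_kb_le hM n z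
    _ = _ := by ring

end Crest.Agent.R239.LU227
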