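import Mathlib
import Crest.Agent.R239.LUb_227

/-! R239 (S0370), block F2/LU (helper227): abstract one-level functional
`D m = inf { E_m h_K - lam log g(K) }` and the arithmetic of the cap costs. -/

set_option autoImplicit false

open Module Finset
open scoped RealInnerProductSpace

namespace Crest.Agent.R239.LU227

variable {E : Type*} [NormedAddCommGroup E] [InnerProductSpace ℝ E]

/-- Abstract data of one level: a family of admissible bodies `Ad` inside a bounded set `L`, all
containing `0`, and a mass function with values in `(0,1]` on admissible bodies. -/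
structure Lev (E : Type*) [NormedAddCommGroup E] [InnerProductSpace ℝ E] where
  Ad : Set E → Prop
  L : Set E
  g : Set E → ℝ
  lam : ℝ
  lam_nonneg : 0 ≤ lam
  bdd : Bornology.IsBounded L
  sub : ∀ K, Ad K → K ⊆ L
  zero_mem : ∀ K, Ad K → (0 : E) ∈ K
  g_pos : ∀ K, Ad K → 0 < g K
  g_le : ∀ K, Ad K → g K ≤ 1
  AdL : Ad L

namespace Lev

variable (V : Lev E)

noncomputable def val (m : Multiset E) (K : Set E) : ℝ := Eh K m - V.lam * Real.log (V.g K)

noncomputable def D (m : Multiset E) : ℝ := sInf (V.val m '' {K | V.Ad K})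

variable {V}

theorem bK {K : Set E} (h : V.Ad K) : Bornology.IsBounded K := V.bdd.subset (V.sub K h)

theorem val_nonneg {K : Set E} (h : V.Ad K) (m : Multiset E) : 0 ≤ V.val m K := by
  have h1 := Eh_nonneg (bK h) (V.zero_mem K h) m
  have h2 : Real.log (V.g K) ≤ 0 := Real.log_nonpos (V.g_pos K h).le (V.g_le K h)
  have h3 := mul_nonpos_of_nonneg_of_nonpos V.lam_nonneg h2
  unfold val
  linarith

theorem Eh_le_val {K : Set E} (h : V.Ad K) (m : Multiset E) : Eh K m ≤ V.val m K := by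
  have h2 : Real.log (V.g K) ≤ 0 := Real.log_nonpos (V.g_pos K h).le (V.g_le K h)
  have h3 := mul_nonpos_of_nonneg_of_nonpos V.lam_nonneg h2
  unfold val
  linarith

theorem bddBelow (m : Multiset E) : BddBelow (V.val m '' {K | V.Ad K}) := by
  refine ⟨0, ?_⟩
  rintro _ ⟨K, hK, rfl⟩
  exact val_nonneg hK m

theorem nonempty (m : Multiset E) : (V.val m '' {K | V.Ad K}).Nonempty := ⟨_, V.L, V.AdL, rfl⟩

theorem D_nonneg (m : Multiset E) : 0 ≤ V.D m := by
  apply le_csInf (nonempty m)
  rintro _ ⟨K, hK, rfl⟩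
  exact val_nonneg hK m

theorem D_le {K : Set E} (h : V.Ad K) (m : Multiset E) : V.D m ≤ V.val m K :=
  csInf_le (bddBelow m) ⟨K, h, rfl⟩

theorem le_D {m : Multiset E} {c : ℝ} (h : ∀ K, V.Ad K → c ≤ V.val m K) : c ≤ V.D m := by
  apply le_csInf (nonempty m)
  rintro _ ⟨K, hK, rfl⟩
  exact h K hK

/-- near-optimal bodies exist -/
theorem exists_near (m : Multiset E) {e : ℝ} (he : 0 < e) : ∃ K, V.Ad K ∧ V.val m K < V.D m + e := by
  obtain ⟨_, ⟨K, hK, rfl⟩, h⟩ := exists_lt_of_csInf_lt (nonempty (V := V) m)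
    (show sInf (V.val m '' {K | V.Ad K}) < V.D m + e by
      show V.D m < V.D m + e
      linarith)
  exact ⟨K, hK, h⟩

/-- (U1) for one level -/
theorem D_split (s : Multiset (E × E)) :
    V.D (s.map fun p => p.1 + p.2) ≤ V.D (s.map Prod.fst + s.map Prod.snd) := by
  apply le_D
  intro K hK
  refine (D_le hK _).trans ?_
  unfold val
  have := Eh_split (bK hK) ⟨0, V.zero_mem K hK⟩ s
  linarith

theorem val_cons (z : E) (m : Multiset E) (K : Set E) : V.val (z ::ₘ m) K = hs K z + V.val m K := by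
  unfold val
  rw [Eh_cons]
  ring

/-- (U2) for one level -/
theorem D_cons_le (z : E) (m : Multiset E) : V.D (z ::ₘ m) ≤ V.D m + hs V.L z := by
  rw [← sub_le_iff_le_add]
  apply le_D
  intro K hK
  have h1 := D_le hK (z ::ₘ m)
  rw [val_cons] at h1
  have h2 := hs_mono V.bdd ⟨0, V.zero_mem K hK⟩ (V.sub K hK) z
  linarith

/-- monotonicity in the population -/
theorem D_mono_add (m m' : Multiset E) : V.D m ≤ V.D (m + m') := by
  apply le_D
  intro K hK
  refine (D_le hK _).trans ?_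
  unfold val
  rw [Eh_add]
  have := Eh_nonneg (bK hK) (V.zero_mem K hK) m'
  linarith

/-- the full cap as competitor -/
theorem D_le_cap (m : Multiset E) : V.D m ≤ Eh V.L m - V.lam * Real.log (V.g V.L) := D_le V.AdL m

end Lev

/-- geometric levels: the sum of the lower levels. -/
theorem sum_lam_le {tau A : ℝ} (ht : 0 ≤ tau) (hA : 2 ≤ A) (j : ℕ) :
    ∑ i ∈ range (j + 1), tau * A ^ i ≤ 2 * (tau * A ^ j) := by
  induction j with
  | zero => simp; linarith
  | succ j ih =>
    rw [Finset.sum_range_succ]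
    have : tau * A ^ (j + 1) = (tau * A ^ j) * A := by ring
    have h0 : 0 ≤ tau * A ^ j := by positivity
    nlinarith

/-- The cap costs are dominated by the penalties. -/
theorem capcost_le {tau A rho kap : ℝ} (ht : 0 ≤ tau) (hA : 2 ≤ A) (hk : 4 / rho ^ 2 ≤ kap)
    (n : ℕ) (k : ℕ → ℕ) :
    ∑ i ∈ range n, tau * A ^ i * (∑ j ∈ (Ico i n).filter (fun j => k j ≠ 0), 2 / rho ^ 2)
      ≤ ∑ j ∈ range n, kap * (tau * A ^ j) * (k j : ℝ) := by
  have hA0 : 0 ≤ A := by linarith
  have h2 : 0 ≤ 2 / rho ^ 2 := by positivity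
  have e : ∑ i ∈ range n, tau * A ^ i * (∑ j ∈ (Ico i n).filter (fun j => k j ≠ 0), 2 / rho ^ 2)
      = ∑ j ∈ range n, ∑ i ∈ range (j + 1), tau * A ^ i * (if k j ≠ 0 then 2 / rho ^ 2 else 0) := by
    simp_rw [Finset.sum_filter, Finset.mul_sum]
    refine Finset.sum_comm' ?_
    intro i j
    simp only [Finset.mem_range, Finset.mem_Ico]
    omega
  rw [e]
  apply Finset.sum_le_sum
  intro j _
  rw [← Finset.sum_mul]
  have h1 := sum_lam_le ht hA j
  have h0 : 0 ≤ tau * A ^ j := by positivity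
  by_cases hk0 : k j = 0
  · simp [hk0]
  · have hk1 : (1 : ℝ) ≤ k j := by exact_mod_cast Nat.one_le_iff_ne_zero.2 hk0
    have hkap : 0 ≤ kap := le_trans (by positivity) hk
    rw [if_pos hk0]
    calc (∑ i ∈ range (j + 1), tau * A ^ i) * (2 / rho ^ 2)
        ≤ (2 * (tau * A ^ j)) * (2 / rho ^ 2) := by gcongr
      _ = (4 / rho ^ 2) * (tau * A ^ j) := by ring
      _ ≤ kap * (tau * A ^ j) := by gcongr
      _ = kap * (tau * A ^ j) * 1 := by ring
      _ ≤ kap * (tau * A ^ j) * (k j : ℝ) := by gcongr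

/-- `-log` of the cap mass. -/
theorem neg_log_le {rho : ℝ} (hr : 2 ≤ rho ^ 2) {c : ℕ} {g : ℝ} (h : (1 - 1 / rho ^ 2) ^ c ≤ g) :
    -Real.log g ≤ c * (2 / rho ^ 2) := by
  have hr0 : 0 < rho ^ 2 := by linarith
  set x := 1 / rho ^ 2 with hx
  have hx0 : 0 < x := by positivity
  have hx1 : x ≤ 1 / 2 := by
    rw [hx]
    exact one_div_le_one_div_of_le (by norm_num) hr
  have h1 : Real.exp (-(2 * x)) ≤ 1 - x := by
    have h2 : 1 + 2 * x ≤ Real.exp (2 * x) := by
      have := Real.add_one_le_exp (2 * x); linarith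
    rw [Real.exp_neg]
    rw [inv_le_comm₀ (Real.exp_pos _) (by linarith)]
    refine le_trans ?_ h2
    rw [inv_le_iff_one_le_mul₀ (by linarith)]
    nlinarith
  have h3 : Real.exp (-(c * (2 * x))) ≤ g := by
    refine le_trans ?_ h
    have : Real.exp (-(c * (2 * x))) = Real.exp (-(2 * x)) ^ c := by
      rw [← Real.exp_nat_mul]; ring_nf
    rw [this]
    gcongr
  have h4 := Real.log_le_log (Real.exp_pos _) h3
  rw [Real.log_exp] at h4
  have : (2 : ℝ) / rho ^ 2 = 2 * x := by rw [hx]; ring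
  rw [this]
  linarith

end Crest.Agent.R239.LU227
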