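import Mathlib
import Crest.Agent.R239.Gau4
import Crest.Agent.R239.LUc_227

/-! R239 (S0370), block F2/LU (helper227): Gaussian mass of the full cap. -/

set_option autoImplicit false

open Module Finset MeasureTheory ProbabilityTheory
open scoped RealInnerProductSpace

namespace Crest.Agent.R239.LU227

variable {E : Type*} [NormedAddCommGroup E] [InnerProductSpace ℝ E] [FiniteDimensional ℝ E]
  [MeasurableSpace E] [BorelSpace E]

theorem integral_inner_sq_std (n : E) : ∫ x, ⟪n, x⟫ ^ 2 ∂(stdGaussian E) = ‖n‖ ^ 2 := by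
  have := integral_norm_sq_gau (ContinuousLinearMap.id ℝ E) n
  rwa [gau_id, adjoint_id', ContinuousLinearMap.coe_id', id_eq] at this

theorem integrable_inner_sq_std (n : E) : Integrable (fun x => ⟪n, x⟫ ^ 2) (stdGaussian E) := by
  by_cases hn : n = 0
  · simp [hn]
  · by_contra h
    have h1 := integral_inner_sq_std n
    rw [integral_undef h] at h1
    exact hn (by simpa using h1.symm)

theorem norm_proj_sq (W : Submodule ℝ E) (g : E) :
    ‖W.starProjection g‖ ^ 2 = ∑ i, ⟪((stdOrthonormalBasis ℝ W i : W) : E), g⟫ ^ 2 := by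
  have h := (stdOrthonormalBasis ℝ W).sum_sq_norm_inner_right (W.orthogonalProjectionOnto g)
  have h2 : ‖W.starProjection g‖ = ‖W.orthogonalProjectionOnto g‖ := by
    rw [Submodule.starProjection_apply]; rfl
  rw [h2, ← h]
  refine Finset.sum_congr rfl fun i _ => ?_
  rw [Real.norm_eq_abs, sq_abs, Submodule.inner_orthogonalProjectionOnto_eq_of_mem_left]

theorem integral_norm_proj_sq (W : Submodule ℝ E) :
    ∫ g, ‖W.starProjection g‖ ^ 2 ∂(stdGaussian E) = finrank ℝ W := by
  simp_rw [norm_proj_sq]
  rw [integral_finsetSum _ fun i _ => integrable_inner_sq_std _]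
  simp_rw [integral_inner_sq_std]
  have : ∀ i, ‖((stdOrthonormalBasis ℝ W i : W) : E)‖ = 1 := fun i =>
    (stdOrthonormalBasis ℝ W).orthonormal.1 i
  simp [this]

end Crest.Agent.R239.LU227
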