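import Mathlib
import Crest.Agent.R239.FDef
import Crest.Agent.R239.Gau4
import Crest.Agent.R239.LUd_227

/-! R239 (S0370), block F2 (helper227), part a: flag projections, cap bodies, support function of the
caps, mass of the caps. -/

set_option autoImplicit false
set_option linter.unusedSectionVars false

open Module Finset MeasureTheory ProbabilityTheory
open scoped RealInnerProductSpace

namespace Crest.Agent.R239.FD

open Crest.Agent.R239 (gau)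
open Crest.Agent.R239.LU227 (Qb kb)

section alg

variable {E : Type*} [NormedAddCommGroup E] [InnerProductSpace ℝ E] [FiniteDimensional ℝ E]

namespace F2

theorem Q_eq (V : Flag E) (j : ℕ) : V.Q j = Qb V.M j := rfl

theorem k_eq (V : Flag E) (j : ℕ) : V.k j = kb V.M j := rfl

theorem P_mem (V : Flag E) (j : ℕ) (x : E) : V.P j x ∈ V.M j :=
  Submodule.starProjection_apply_mem _ _

theorem P_of_mem (V : Flag E) {j : ℕ} {x : E} (h : x ∈ V.M j) : V.P j x = x :=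
  Submodule.starProjection_eq_self_iff.2 h

theorem P_bot (V : Flag E) {j : ℕ} (h : V.n ≤ j) (x : E) : V.P j x = 0 := by
  have h1 := P_mem V j x
  rw [V.bot j h] at h1
  simpa using h1

theorem P_P_of_le (V : Flag E) {i j : ℕ} (h : i ≤ j) (x : E) : V.P i (V.P j x) = V.P j x :=
  LU227.PP (V.anti h) x

theorem P_P_of_ge (V : Flag E) {i j : ℕ} (h : i ≤ j) (x : E) : V.P j (V.P i x) = V.P j x :=
  LU227.PP' (V.anti h) x

theorem Q_apply (V : Flag E) (j : ℕ) (x : E) : V.Q j x = V.P j x - V.P (j + 1) x := rfl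

theorem Q_mem (V : Flag E) (j : ℕ) (x : E) : V.Q j x ∈ V.M j :=
  (V.M j).sub_mem (P_mem V j x) (V.anti (Nat.le_succ j) (P_mem V (j + 1) x))

theorem P_Q_of_le (V : Flag E) {j l : ℕ} (h : j ≤ l) (x : E) : V.P j (V.Q l x) = V.Q l x :=
  P_of_mem V (V.anti h (Q_mem V l x))

theorem P_Q_of_lt (V : Flag E) {j l : ℕ} (h : l < j) (x : E) : V.P j (V.Q l x) = 0 := by
  rw [Q_apply, map_sub, P_P_of_ge V h.le, P_P_of_ge V h, sub_self]

theorem Q_orth (V : Flag E) {l m : ℕ} (h : l ≠ m) (x y : E) : ⟪V.Q l x, V.Q m y⟫ = 0 := by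
  wlog hlm : l < m generalizing l m x y
  · rw [real_inner_comm]
    exact this h.symm y x (lt_of_le_of_ne (not_lt.1 hlm) h.symm)
  have h1 : V.P (l + 1) (V.Q m y) = V.Q m y := P_Q_of_le V hlm y
  have h2 : V.P l (V.Q m y) = V.Q m y := P_Q_of_le V hlm.le y
  rw [Q_apply V l, inner_sub_left]
  have e1 : ⟪V.P l x, V.Q m y⟫ = ⟪x, V.P l (V.Q m y)⟫ :=
    Submodule.inner_starProjection_left_eq_right _ _ _
  have e2 : ⟪V.P (l + 1) x, V.Q m y⟫ = ⟪x, V.P (l + 1) (V.Q m y)⟫ :=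
    Submodule.inner_starProjection_left_eq_right _ _ _
  rw [e1, e2, h1, h2, sub_self]

theorem norm_Q_sq (V : Flag E) (j : ℕ) (x : E) :
    ‖V.Q j x‖ ^ 2 = ‖V.P j x‖ ^ 2 - ‖V.P (j + 1) x‖ ^ 2 := LU227.norm_Qb_sq V.anti j x

theorem norm_Q_le_P (V : Flag E) (j : ℕ) (x : E) : ‖V.Q j x‖ ≤ ‖V.P j x‖ := by
  have h := norm_Q_sq V j x
  have : ‖V.Q j x‖ ^ 2 ≤ ‖V.P j x‖ ^ 2 := by nlinarith [sq_nonneg ‖V.P (j + 1) x‖]
  exact (pow_le_pow_iff_left₀ (norm_nonneg _) (norm_nonneg _) two_ne_zero).1 this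

theorem Q_Q_self (V : Flag E) (j : ℕ) (x : E) : V.Q j (V.Q j x) = V.Q j x := by
  rw [Q_apply V j (V.Q j x), P_Q_of_le V le_rfl, P_Q_of_lt V (Nat.lt_succ_self j), sub_zero]

theorem Q_Q_of_ne (V : Flag E) {j l : ℕ} (h : j ≠ l) (x : E) : V.Q j (V.Q l x) = 0 := by
  rw [Q_apply V j (V.Q l x)]
  rcases lt_or_gt_of_ne h with h | h
  · rw [P_Q_of_le V h.le, P_Q_of_le V h, sub_self]
  · rw [P_Q_of_lt V h, P_Q_of_lt V (by omega), sub_self]

theorem norm_sum_Q_sq (V : Flag E) (s : Finset ℕ) (c : ℕ → ℝ) (x : E) :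
    ‖∑ l ∈ s, c l • V.Q l x‖ ^ 2 = ∑ l ∈ s, c l ^ 2 * ‖V.Q l x‖ ^ 2 := by
  rw [← real_inner_self_eq_norm_sq, sum_inner]
  refine Finset.sum_congr rfl fun l hl => ?_
  rw [inner_sum, Finset.sum_eq_single l]
  · rw [inner_smul_left, inner_smul_right, real_inner_self_eq_norm_sq]
    simp only [conj_trivial]
    ring
  · intro m _ hm
    rw [inner_smul_left, inner_smul_right, Q_orth V (Ne.symm hm)]
    simp
  · intro h; exact absurd hl h

theorem H_apply (V : Flag E) (i : ℕ) (x : E) :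
    V.H i x = ∑ l ∈ Ico i V.n, th ^ (l - i) • V.Q l x := by
  simp [Flag.H]

theorem Hi_apply (V : Flag E) (i : ℕ) (x : E) :
    V.Hi i x = ∑ l ∈ Ico i V.n, (th⁻¹) ^ (l - i) • V.Q l x := by
  simp [Flag.Hi]

theorem H_mem (V : Flag E) (i : ℕ) (x : E) : V.H i x ∈ V.M i := by
  rw [H_apply]
  refine Submodule.sum_mem _ fun l hl => Submodule.smul_mem _ _ ?_
  exact V.anti (Finset.mem_Ico.1 hl).1 (Q_mem V l x)

theorem Q_H_apply (V : Flag E) {i j : ℕ} (h : j ∈ Ico i V.n) (x : E) :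
    V.Q j (V.H i x) = th ^ (j - i) • V.Q j x := by
  rw [H_apply, map_sum, Finset.sum_eq_single j]
  · rw [map_smul, Q_Q_self]
  · intro l _ hl
    rw [map_smul, Q_Q_of_ne V (Ne.symm hl), smul_zero]
  · intro h'; exact absurd h h'

theorem P_H_apply (V : Flag E) {i j : ℕ} (h : i ≤ j) (x : E) :
    V.P j (V.H i x) = ∑ l ∈ Ico j V.n, th ^ (l - i) • V.Q l x := by
  rw [H_apply, map_sum]
  have h1 : ∀ l ∈ Ico i V.n, V.P j (th ^ (l - i) • V.Q l x)
      = if j ≤ l then th ^ (l - i) • V.Q l x else 0 := by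
    intro l _
    rw [map_smul]
    split_ifs with h2
    · rw [P_Q_of_le V h2]
    · rw [P_Q_of_lt V (not_le.1 h2), smul_zero]
  rw [Finset.sum_congr rfl h1, ← Finset.sum_filter]
  congr 1
  ext l
  simp only [Finset.mem_filter, Finset.mem_Ico]
  omega

theorem norm_P_H_sq (V : Flag E) {i j : ℕ} (h : i ≤ j) (x : E) :
    ‖V.P j (V.H i x)‖ ^ 2 = ∑ l ∈ Ico j V.n, th ^ (2 * (l - i)) * ‖V.Q l x‖ ^ 2 := by
  rw [P_H_apply V h, norm_sum_Q_sq]
  refine Finset.sum_congr rfl fun l _ => ?_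
  rw [← pow_mul, mul_comm 2]

theorem th_pos : (0 : ℝ) < th := by unfold th; norm_num

theorem th_lt : th < 1 := by unfold th; norm_num

theorem sum_Q_of_mem (V : Flag E) {i : ℕ} {x : E} (hx : x ∈ V.M i) :
    ∑ j ∈ Ico i V.n, V.Q j x = x := LU227.sum_Qb_of_mem V.anti (V.bot V.n le_rfl) hx

theorem N_nonneg (V : Flag E) (i : ℕ) (x : E) : 0 ≤ V.N i x := by
  have := th_pos
  exact Finset.sum_nonneg fun j _ => by positivity

theorem rr_nonneg (V : Flag E) (i : ℕ) : 0 ≤ V.rr i := by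
  have := th_pos
  exact Finset.sum_nonneg fun j _ => by positivity

theorem N_neg (V : Flag E) (i : ℕ) (x : E) : V.N i (-x) = V.N i x := by
  unfold Flag.N
  refine Finset.sum_congr rfl fun j _ => ?_
  rw [map_neg, norm_neg]

theorem N_zero (V : Flag E) (i : ℕ) : V.N i (0 : E) = 0 := by
  unfold Flag.N
  refine Finset.sum_eq_zero fun j _ => ?_
  simp

theorem N_continuous (V : Flag E) (i : ℕ) : Continuous (V.N i) := by
  unfold Flag.N
  fun_prop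

/-- `N (H g) = Σ th^(j-i) ‖Q_j g‖²` -/
theorem N_H (V : Flag E) (i : ℕ) (g : E) :
    V.N i (V.H i g) = ∑ j ∈ Ico i V.n, th ^ (j - i) * ‖V.Q j g‖ ^ 2 := by
  unfold Flag.N
  refine Finset.sum_congr rfl fun j hj => ?_
  have h0 := th_pos
  rw [Q_H_apply V hj, norm_smul, Real.norm_of_nonneg (by positivity), mul_pow, ← mul_assoc]
  congr 1
  rw [inv_pow, sq, ← mul_assoc, inv_mul_cancel₀ (by positivity), one_mul]

theorem zero_mem_cap (V : Flag E) (rho : ℝ) (i : ℕ) : (0 : E) ∈ V.cap rho i := by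
  refine ⟨Submodule.zero_mem _, ?_⟩
  rw [N_zero]
  exact mul_nonneg (sq_nonneg _) (rr_nonneg V i)

theorem neg_mem_cap (V : Flag E) {rho : ℝ} {i : ℕ} {x : E} (h : x ∈ V.cap rho i) :
    -x ∈ V.cap rho i := ⟨Submodule.neg_mem _ h.1, by rw [N_neg]; exact h.2⟩

theorem N_convex (V : Flag E) (i : ℕ) {x y : E} {a b : ℝ} (ha : 0 ≤ a) (hb : 0 ≤ b)
    (hab : a + b = 1) : V.N i (a • x + b • y) ≤ a * V.N i x + b * V.N i y := by
  unfold Flag.N
  rw [Finset.mul_sum, Finset.mul_sum, ← Finset.sum_add_distrib]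
  apply Finset.sum_le_sum
  intro j _
  have h0 := th_pos
  have h1 : ‖V.Q j (a • x + b • y)‖ ≤ a * ‖V.Q j x‖ + b * ‖V.Q j y‖ := by
    rw [map_add, map_smul, map_smul]
    refine (norm_add_le _ _).trans (le_of_eq ?_)
    rw [norm_smul, norm_smul, Real.norm_of_nonneg ha, Real.norm_of_nonneg hb]
  have h2 : ‖V.Q j (a • x + b • y)‖ ^ 2 ≤ a * ‖V.Q j x‖ ^ 2 + b * ‖V.Q j y‖ ^ 2 := by
    have hb' : b = 1 - a := by linarith
    have h3 : ‖V.Q j (a • x + b • y)‖ ^ 2 ≤ (a * ‖V.Q j x‖ + b * ‖V.Q j y‖) ^ 2 := by gcongr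
    have h4 : a * ‖V.Q j x‖ ^ 2 + b * ‖V.Q j y‖ ^ 2 - (a * ‖V.Q j x‖ + b * ‖V.Q j y‖) ^ 2
        = a * b * (‖V.Q j x‖ - ‖V.Q j y‖) ^ 2 := by
      rw [hb']; ring
    nlinarith [mul_nonneg (mul_nonneg ha hb) (sq_nonneg (‖V.Q j x‖ - ‖V.Q j y‖))]
  calc (th⁻¹) ^ (j - i) * ‖V.Q j (a • x + b • y)‖ ^ 2
      ≤ (th⁻¹) ^ (j - i) * (a * ‖V.Q j x‖ ^ 2 + b * ‖V.Q j y‖ ^ 2) := by gcongr
    _ = _ := by ring

theorem convex_cap (V : Flag E) (rho : ℝ) (i : ℕ) : Convex ℝ (V.cap rho i) := by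
  intro x hx y hy a b ha hb hab
  refine ⟨(V.M i).add_mem ((V.M i).smul_mem a hx.1) ((V.M i).smul_mem b hy.1), ?_⟩
  refine (N_convex V i ha hb hab).trans ?_
  calc a * V.N i x + b * V.N i y ≤ a * (rho ^ 2 * V.rr i) + b * (rho ^ 2 * V.rr i) := by
        gcongr
        · exact hx.2
        · exact hy.2
    _ = _ := by rw [← add_mul, hab, one_mul]

theorem isClosed_cap (V : Flag E) (rho : ℝ) (i : ℕ) : IsClosed (V.cap rho i) :=
  (Submodule.closed_of_finiteDimensional (V.M i)).inter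
    (isClosed_le (N_continuous V i) continuous_const)

/-- `|⟨x,z⟩|² ≤ N_i x · Σ th^(j-i) ‖Q_j z‖²` on `M_i` -/
theorem inner_le_of_mem (V : Flag E) {i : ℕ} {x : E} (hx : x ∈ V.M i) (z : E) :
    ⟪x, z⟫ ≤ √(V.N i x) * √(∑ j ∈ Ico i V.n, th ^ (j - i) * ‖V.Q j z‖ ^ 2) := by
  have h0 := th_pos
  have h1 : ⟪x, z⟫ = ∑ j ∈ Ico i V.n, ⟪V.Q j x, V.Q j z⟫ := by
    conv_lhs => rw [← sum_Q_of_mem V hx]
    rw [sum_inner]
    exact Finset.sum_congr rfl fun j _ => (LU227.inner_Qb V.anti j x z).symm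
  rw [h1]
  calc ∑ j ∈ Ico i V.n, ⟪V.Q j x, V.Q j z⟫
      ≤ ∑ j ∈ Ico i V.n, (√((th⁻¹) ^ (j - i)) * ‖V.Q j x‖) * (√(th ^ (j - i)) * ‖V.Q j z‖) := by
        refine Finset.sum_le_sum fun j _ => ?_
        refine (real_inner_le_norm _ _).trans (le_of_eq ?_)
        have : √((th⁻¹) ^ (j - i)) * √(th ^ (j - i)) = 1 := by
          rw [← Real.sqrt_mul (by positivity), ← mul_pow, inv_mul_cancel₀ h0.ne', one_pow,
            Real.sqrt_one]
        calc ‖V.Q j x‖ * ‖V.Q j z‖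
            = (√((th⁻¹) ^ (j - i)) * √(th ^ (j - i))) * (‖V.Q j x‖ * ‖V.Q j z‖) := by
              rw [this, one_mul]
          _ = _ := by ring
    _ ≤ √(∑ j ∈ Ico i V.n, (√((th⁻¹) ^ (j - i)) * ‖V.Q j x‖) ^ 2)
          * √(∑ j ∈ Ico i V.n, (√(th ^ (j - i)) * ‖V.Q j z‖) ^ 2) :=
        Real.sum_mul_le_sqrt_mul_sqrt _ _ _
    _ = _ := by
        unfold Flag.N
        congr 2
        · refine Finset.sum_congr rfl fun j _ => ?_
          rw [mul_pow, Real.sq_sqrt (by positivity)]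
        · refine Finset.sum_congr rfl fun j _ => ?_
          rw [mul_pow, Real.sq_sqrt (by positivity)]

theorem norm_sq_le_N (V : Flag E) {i : ℕ} {x : E} (hx : x ∈ V.M i) : ‖x‖ ^ 2 ≤ V.N i x := by
  have h1 := norm_sum_Q_sq V (Ico i V.n) (fun _ => 1) x
  simp only [one_smul, one_pow, one_mul] at h1
  rw [sum_Q_of_mem V hx] at h1
  rw [h1]
  unfold Flag.N
  refine Finset.sum_le_sum fun j _ => ?_
  have h2 : 1 ≤ (th⁻¹) ^ (j - i) := one_le_pow₀ ((one_le_inv₀ th_pos).2 th_lt.le)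
  nlinarith [sq_nonneg ‖V.Q j x‖]

theorem isBounded_cap (V : Flag E) (rho : ℝ) (i : ℕ) : Bornology.IsBounded (V.cap rho i) := by
  rw [isBounded_iff_forall_norm_le]
  refine ⟨√(rho ^ 2 * V.rr i), fun x hx => ?_⟩
  apply Real.le_sqrt_of_sq_le
  exact (norm_sq_le_N V hx.1).trans hx.2

/-- support function of the cap -/
theorem hs_cap_le (V : Flag E) {rho : ℝ} (hr : 0 ≤ rho) (i : ℕ) (z : E) :
    hs (V.cap rho i) z
      ≤ rho * (√(V.rr i) * √(∑ j ∈ Ico i V.n, th ^ (j - i) * ‖V.Q j z‖ ^ 2)) := by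
  refine LU227.hs_le ⟨0, zero_mem_cap V rho i⟩ fun x hx => ?_
  refine (inner_le_of_mem V hx.1 z).trans ?_
  rw [← mul_assoc]
  refine mul_le_mul_of_nonneg_right ?_ (Real.sqrt_nonneg _)
  calc √(V.N i x) ≤ √(rho ^ 2 * V.rr i) := Real.sqrt_le_sqrt hx.2
    _ = rho * √(V.rr i) := by rw [Real.sqrt_mul (sq_nonneg _), Real.sqrt_sq hr]

theorem sum_hs_cap_le (V : Flag E) {rho : ℝ} (hr : 0 ≤ rho) (z : E) :
    ∑ i ∈ range V.n, hs (V.cap rho i) z ≤ 5 * rho * √(finrank ℝ E : ℝ) * ‖z‖ := by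
  have h0 := th_pos
  have h1 := th_lt
  have hinv : 1 / (1 - th) = 5 := by unfold th; norm_num
  have hr1 : ∑ i ∈ range V.n, V.rr i ≤ 5 * finrank ℝ E := by
    have := LU227.sum_geom_le h0.le h1 V.n (fun j => (V.k j : ℝ)) (fun j => by positivity)
    rw [hinv] at this
    refine this.trans ?_
    gcongr
    exact LU227.sum_kb_le V.anti V.n
  have hz1 : ∑ i ∈ range V.n, ∑ j ∈ Ico i V.n, th ^ (j - i) * ‖V.Q j z‖ ^ 2 ≤ 5 * ‖z‖ ^ 2 := by
    have := LU227.sum_geom_le h0.le h1 V.n (fun j => ‖V.Q j z‖ ^ 2) (fun j => by positivity)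
    rw [hinv] at this
    refine this.trans ?_
    gcongr
    exact LU227.sum_norm_Qb_sq_le V.anti V.n z
  calc ∑ i ∈ range V.n, hs (V.cap rho i) z
      ≤ ∑ i ∈ range V.n, rho * (√(V.rr i) * √(∑ j ∈ Ico i V.n, th ^ (j - i) * ‖V.Q j z‖ ^ 2)) :=
        Finset.sum_le_sum fun i _ => hs_cap_le V hr i z
    _ = rho * ∑ i ∈ range V.n, √(V.rr i) * √(∑ j ∈ Ico i V.n, th ^ (j - i) * ‖V.Q j z‖ ^ 2) := by
        rw [Finset.mul_sum]
    _ ≤ rho * (√(∑ i ∈ range V.n, √(V.rr i) ^ 2)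
          * √(∑ i ∈ range V.n, √(∑ j ∈ Ico i V.n, th ^ (j - i) * ‖V.Q j z‖ ^ 2) ^ 2)) := by
        gcongr
        exact Real.sum_mul_le_sqrt_mul_sqrt _ _ _
    _ = rho * (√(∑ i ∈ range V.n, V.rr i)
          * √(∑ i ∈ range V.n, ∑ j ∈ Ico i V.n, th ^ (j - i) * ‖V.Q j z‖ ^ 2)) := by
        have e1 : ∑ i ∈ range V.n, √(V.rr i) ^ 2 = ∑ i ∈ range V.n, V.rr i :=
          Finset.sum_congr rfl fun i _ => Real.sq_sqrt (rr_nonneg V i)
        have e2 : ∑ i ∈ range V.n, √(∑ j ∈ Ico i V.n, th ^ (j - i) * ‖V.Q j z‖ ^ 2) ^ 2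
            = ∑ i ∈ range V.n, ∑ j ∈ Ico i V.n, th ^ (j - i) * ‖V.Q j z‖ ^ 2 :=
          Finset.sum_congr rfl fun i _ => Real.sq_sqrt
            (Finset.sum_nonneg fun j _ => by positivity)
        rw [e1, e2]
    _ ≤ rho * (√(5 * finrank ℝ E) * √(5 * ‖z‖ ^ 2)) := by
        gcongr
    _ = _ := by
        rw [Real.sqrt_mul (by norm_num), Real.sqrt_mul (by norm_num), Real.sqrt_sq (norm_nonneg z)]
        have : √(5 : ℝ) * √5 = 5 := Real.mul_self_sqrt (by norm_num)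
        calc rho * (√5 * √(finrank ℝ E : ℝ) * (√5 * ‖z‖))
            = (√5 * √5) * rho * √(finrank ℝ E : ℝ) * ‖z‖ := by ring
          _ = _ := by rw [this]

end F2

end alg

end Crest.Agent.R239.FD
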