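import Mathlib
import Crest.Agent.R239.F2a_227

/-! R239 (S0370), block F2 (helper227), part b: mass of the caps, API of `D`, `J`, `Ut`,
`target_U2`. -/

set_option autoImplicit false
set_option linter.unusedSectionVars false

open Module Finset MeasureTheory ProbabilityTheory
open scoped RealInnerProductSpace

namespace Crest.Agent.R239.FD

open Crest.Agent.R239 (gau)
open Crest.Agent.R239.LU227 (Qb kb)

variable {E : Type*} [NormedAddCommGroup E] [InnerProductSpace ℝ E] [FiniteDimensional ℝ E]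
  [MeasurableSpace E] [BorelSpace E]

namespace F2

theorem integrable_norm_P_sq (V : Flag E) (j : ℕ) :
    Integrable (fun g => ‖V.P j g‖ ^ 2) (stdGaussian E) := by
  have : (fun g => ‖V.P j g‖ ^ 2) = fun g =>
      ∑ i, ⟪((stdOrthonormalBasis ℝ (V.M j) i : V.M j) : E), g⟫ ^ 2 := by
    ext g; exact LU227.norm_proj_sq (V.M j) g
  rw [this]
  exact integrable_finsetSum _ fun i _ => LU227.integrable_inner_sq_std _

theorem integral_norm_P_sq (V : Flag E) (j : ℕ) :
    ∫ g, ‖V.P j g‖ ^ 2 ∂(stdGaussian E) = finrank ℝ (V.M j) := LU227.integral_norm_proj_sq _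

theorem integrable_norm_Q_sq (V : Flag E) (j : ℕ) :
    Integrable (fun g => ‖V.Q j g‖ ^ 2) (stdGaussian E) := by
  simp_rw [norm_Q_sq]
  exact (integrable_norm_P_sq V j).sub (integrable_norm_P_sq V (j + 1))

theorem integral_norm_Q_sq (V : Flag E) (j : ℕ) :
    ∫ g, ‖V.Q j g‖ ^ 2 ∂(stdGaussian E) = V.k j := by
  simp_rw [norm_Q_sq]
  rw [integral_sub (integrable_norm_P_sq V j) (integrable_norm_P_sq V (j + 1)),
    integral_norm_P_sq, integral_norm_P_sq, k_eq, LU227.kb_cast V.anti]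

theorem integrable_N_H (V : Flag E) (i : ℕ) :
    Integrable (fun g => V.N i (V.H i g)) (stdGaussian E) := by
  simp_rw [N_H]
  exact integrable_finsetSum _ fun j _ => (integrable_norm_Q_sq V j).const_mul _

theorem integral_N_H (V : Flag E) (i : ℕ) :
    ∫ g, V.N i (V.H i g) ∂(stdGaussian E) = V.rr i := by
  simp_rw [N_H]
  rw [integral_finsetSum _ fun j _ => (integrable_norm_Q_sq V j).const_mul _]
  unfold Flag.rr
  refine Finset.sum_congr rfl fun j _ => ?_
  rw [integral_const_mul, integral_norm_Q_sq]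

theorem integral_N (V : Flag E) (i : ℕ) : ∫ x, V.N i x ∂(gau (V.H i)) = V.rr i := by
  unfold gau
  rw [integral_map (V.H i).continuous.aemeasurable
    (N_continuous V i).aestronglyMeasurable, integral_N_H]

theorem gau_M (V : Flag E) (i : ℕ) : (gau (V.H i)).real (V.M i : Set E) = 1 := by
  rw [gau_real_apply _ (Submodule.closed_of_finiteDimensional (V.M i)).measurableSet]
  have : (V.H i) ⁻¹' (V.M i : Set E) = Set.univ := by
    ext g; simp [H_mem]
  rw [this]; simp

/-- mass of the cap when the weighted dimension vanishes -/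
theorem gau_cap_of_rr (V : Flag E) (rho : ℝ) {i : ℕ} (h : V.rr i = 0) :
    (gau (V.H i)).real (V.cap rho i) = 1 := by
  have h0 := th_pos
  have hk : ∀ j ∈ Ico i V.n, V.k j = 0 := by
    intro j hj
    have h1 := (Finset.sum_eq_zero_iff_of_nonneg (fun j _ => by positivity)).1 h j hj
    have h2 : (th : ℝ) ^ (j - i) ≠ 0 := by positivity
    have h3 : (V.k j : ℝ) = 0 := (mul_eq_zero.1 h1).resolve_left h2
    exact_mod_cast h3
  have : V.cap rho i = (V.M i : Set E) := by
    ext x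
    refine ⟨fun hx => hx.1, fun hx => ⟨hx, ?_⟩⟩
    rw [h, mul_zero]
    refine le_of_eq ?_
    unfold Flag.N
    refine Finset.sum_eq_zero fun j hj => ?_
    have h4 : V.Q j = 0 := LU227.Qb_eq_zero V.anti (hk j hj)
    rw [h4]
    simp
  rw [this, gau_M]

/-- Markov: mass of the cap. -/
theorem gau_cap_ge (V : Flag E) {rho : ℝ} (hr : 0 < rho) (i : ℕ) :
    1 - 1 / rho ^ 2 ≤ (gau (V.H i)).real (V.cap rho i) := by
  rcases eq_or_lt_of_le (rr_nonneg V i) with h | h
  · rw [gau_cap_of_rr V rho h.symm]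
    have : 0 ≤ 1 / rho ^ 2 := by positivity
    linarith
  · rw [gau_real_apply _ (isClosed_cap V rho i).measurableSet]
    have hm : MeasurableSet ((V.H i) ⁻¹' (V.cap rho i)) :=
      (V.H i).continuous.measurable (isClosed_cap V rho i).measurableSet
    have h1 := mul_meas_ge_le_integral_of_nonneg (μ := stdGaussian E)
      (f := fun g => V.N i (V.H i g)) (Filter.Eventually.of_forall fun g => N_nonneg V i _)
      (integrable_N_H V i) (rho ^ 2 * V.rr i)
    rw [integral_N_H] at h1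
    have h2 : ((V.H i) ⁻¹' (V.cap rho i))ᶜ ⊆ {g | rho ^ 2 * V.rr i ≤ V.N i (V.H i g)} := by
      intro g hg
      by_contra hc
      apply hg
      exact ⟨H_mem V i g, (not_le.1 hc).le⟩
    have h3 : (stdGaussian E).real ((V.H i) ⁻¹' (V.cap rho i))ᶜ
        ≤ (stdGaussian E).real {g | rho ^ 2 * V.rr i ≤ V.N i (V.H i g)} := measureReal_mono h2
    have h4 : rho ^ 2 * V.rr i * (stdGaussian E).real ((V.H i) ⁻¹' (V.cap rho i))ᶜ ≤ V.rr i := by
      refine le_trans ?_ h1
      gcongr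
    have h5 : (stdGaussian E).real ((V.H i) ⁻¹' (V.cap rho i))ᶜ ≤ 1 / rho ^ 2 := by
      rw [le_div_iff₀ (by positivity)]
      have : V.rr i * ((stdGaussian E).real ((V.H i) ⁻¹' (V.cap rho i))ᶜ * rho ^ 2)
          ≤ V.rr i * 1 := by linarith
      exact le_of_mul_le_mul_left this h
    rw [probReal_compl_eq_one_sub hm] at h5
    linarith

theorem Ok.rho_pos {p : Par} (hp : p.Ok) : 0 < p.rho := by have := hp.rho_ge; linarith

theorem Ok.rho_sq {p : Par} (hp : p.Ok) : 256 ≤ p.rho ^ 2 := by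
  have := hp.rho_ge
  nlinarith

theorem Ok.lam_pos {p : Par} (hp : p.Ok) (i : ℕ) : 0 < p.lam i := by
  have h1 := hp.tau_pos
  have h2 := hp.A_ge
  unfold Par.lam
  positivity

theorem gau_cap_pos {p : Par} (hp : p.Ok) (V : Flag E) (i : ℕ) :
    0 < (gau (V.H i)).real (V.cap p.rho i) := by
  refine lt_of_lt_of_le ?_ (gau_cap_ge V (Ok.rho_pos hp) i)
  have h := Ok.rho_sq hp
  have : 1 / p.rho ^ 2 ≤ 1 / 256 := one_div_le_one_div_of_le (by norm_num) h
  linarith

/-- the full cap is admissible -/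
theorem adm_cap {p : Par} (hp : p.Ok) (V : Flag E) (i : ℕ) : Adm p V i (V.cap p.rho i) :=
  ⟨isClosed_cap V _ i, convex_cap V _ i, fun _ h => neg_mem_cap V h, le_rfl, gau_cap_pos hp V i⟩

theorem Adm.nonempty {p : Par} {V : Flag E} {i : ℕ} {K : Set E} (h : Adm p V i K) :
    K.Nonempty := by
  by_contra hc
  rw [Set.not_nonempty_iff_eq_empty] at hc
  have := h.2.2.2.2
  rw [hc] at this
  simp at this

theorem Adm.zero_mem {p : Par} {V : Flag E} {i : ℕ} {K : Set E} (h : Adm p V i K) :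
    (0 : E) ∈ K := by
  obtain ⟨x, hx⟩ := Adm.nonempty h
  have hc : Convex ℝ K := h.2.1
  have := hc hx (h.2.2.1 x hx) (a := 1 / 2) (b := 1 / 2) (by norm_num) (by norm_num)
    (by norm_num)
  simpa using this

/-- the abstract level -/
noncomputable def lev {p : Par} (hp : p.Ok) (V : Flag E) (i : ℕ) : LU227.Lev E where
  Ad := Adm p V i
  L := V.cap p.rho i
  g K := (gau (V.H i)).real K
  lam := p.lam i
  lam_nonneg := (Ok.lam_pos hp i).le
  bdd := isBounded_cap V _ i
  sub := fun _ h => h.2.2.2.1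
  zero_mem := fun _ h => Adm.zero_mem h
  g_pos := fun _ h => h.2.2.2.2
  g_le := fun _ _ => measureReal_le_one
  AdL := adm_cap hp V i

theorem D_eq {p : Par} (hp : p.Ok) (V : Flag E) (i : ℕ) (μ : Multiset E) :
    D p V i μ = (lev hp V i).D μ := rfl

theorem val_eq {p : Par} (hp : p.Ok) (V : Flag E) (i : ℕ) (μ : Multiset E) (K : Set E) :
    val p V i μ K = (lev hp V i).val μ K := rfl

theorem isBounded_of_adm {p : Par} {V : Flag E} {i : ℕ} {K : Set E} (h : Adm p V i K) :
    Bornology.IsBounded K := (isBounded_cap V _ i).subset h.2.2.2.1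

theorem isCompact_of_adm {p : Par} {V : Flag E} {i : ℕ} {K : Set E} (h : Adm p V i K) :
    IsCompact K := Metric.isCompact_of_isClosed_isBounded h.1 (isBounded_of_adm h)

theorem val_nonneg {p : Par} (hp : p.Ok) {V : Flag E} {i : ℕ} {K : Set E} (h : Adm p V i K)
    (μ : Multiset E) : 0 ≤ val p V i μ K := LU227.Lev.val_nonneg (V := lev hp V i) h μ

theorem Eh_le_val {p : Par} (hp : p.Ok) {V : Flag E} {i : ℕ} {K : Set E} (h : Adm p V i K)
    (μ : Multiset E) : Eh K μ ≤ val p V i μ K := LU227.Lev.Eh_le_val (V := lev hp V i) h μ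

theorem D_nonneg {p : Par} (hp : p.Ok) (V : Flag E) (i : ℕ) (μ : Multiset E) : 0 ≤ D p V i μ :=
  LU227.Lev.D_nonneg (V := lev hp V i) μ

theorem D_le {p : Par} (hp : p.Ok) {V : Flag E} {i : ℕ} {K : Set E} (h : Adm p V i K)
    (μ : Multiset E) : D p V i μ ≤ val p V i μ K := LU227.Lev.D_le (V := lev hp V i) h μ

theorem le_D {p : Par} (hp : p.Ok) {V : Flag E} {i : ℕ} {μ : Multiset E} {c : ℝ}
    (h : ∀ K, Adm p V i K → c ≤ val p V i μ K) : c ≤ D p V i μ :=
  LU227.Lev.le_D (V := lev hp V i) h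

theorem exists_near {p : Par} (hp : p.Ok) (V : Flag E) (i : ℕ) (μ : Multiset E) {e : ℝ}
    (he : 0 < e) : ∃ K, Adm p V i K ∧ val p V i μ K < D p V i μ + e :=
  LU227.Lev.exists_near (V := lev hp V i) μ he

theorem exists_nearOpt {p : Par} (hp : p.Ok) (V : Flag E) (i : ℕ) (μ : Multiset E) {e : ℝ}
    (he : 0 < e) : ∃ K, NearOpt p V i μ K e := by
  obtain ⟨K, h1, h2⟩ := exists_near hp V i μ he
  exact ⟨K, h1, h2.le⟩

theorem D_split {p : Par} (hp : p.Ok) (V : Flag E) (i : ℕ) (s : Multiset (E × E)) :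
    D p V i (s.map fun q => q.1 + q.2) ≤ D p V i (s.map Prod.fst + s.map Prod.snd) :=
  LU227.Lev.D_split (V := lev hp V i) s

theorem D_cons_le {p : Par} (hp : p.Ok) (V : Flag E) (i : ℕ) (z : E) (μ : Multiset E) :
    D p V i (z ::ₘ μ) ≤ D p V i μ + hs (V.cap p.rho i) z :=
  LU227.Lev.D_cons_le (V := lev hp V i) z μ

/-- the full cap as competitor for the empty population -/
theorem D_zero_le {p : Par} (hp : p.Ok) (V : Flag E) (i : ℕ) :
    D p V i 0 ≤ p.lam i * ∑ j ∈ (Ico i V.n).filter (fun j => V.k j ≠ 0), 2 / p.rho ^ 2 := by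
  have h1 := D_le hp (adm_cap hp V i) 0
  have h2 : val p V i 0 (V.cap p.rho i)
      = p.lam i * (-Real.log ((gau (V.H i)).real (V.cap p.rho i))) := by
    unfold val Eh
    simp
  rw [h2] at h1
  refine h1.trans ?_
  have h0 := th_pos
  have hl := Ok.lam_pos hp i
  have hr := Ok.rho_sq hp
  gcongr
  by_cases he : (Ico i V.n).filter (fun j => V.k j ≠ 0) = ∅
  · rw [he, Finset.sum_empty]
    have : V.rr i = 0 := by
      unfold Flag.rr
      refine Finset.sum_eq_zero fun j hj => ?_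
      have h3 : V.k j = 0 := by
        by_contra hc
        have : j ∈ (Ico i V.n).filter (fun j => V.k j ≠ 0) := Finset.mem_filter.2 ⟨hj, hc⟩
        rw [he] at this
        simp at this
      rw [h3]; simp
    rw [gau_cap_of_rr V _ this]
    simp
  · have h3 := gau_cap_ge V (Ok.rho_pos hp) i
    have h4 := LU227.neg_log_le (rho := p.rho) (by linarith) (c := 1) (by simpa using h3)
    refine h4.trans ?_
    obtain ⟨j, hj⟩ := Finset.nonempty_iff_ne_empty.2 he
    rw [Nat.cast_one, one_mul]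
    exact Finset.single_le_sum (f := fun _ : ℕ => 2 / p.rho ^ 2) (fun _ _ => by positivity) hj

theorem J_zero_le {p : Par} (hp : p.Ok) (V : Flag E) : J p V 0 ≤ 0 := by
  unfold J
  rw [Finset.sum_sub_distrib, sub_nonpos]
  have h1 := hp.tau_pos
  have h2 := hp.A_ge
  have h3 := hp.kap_rho
  have h4 := Ok.rho_sq hp
  have h5 : 4 / p.rho ^ 2 ≤ p.kap := by
    rw [div_le_iff₀ (by linarith)]
    linarith
  have h6 := LU227.capcost_le (tau := p.tau) (A := p.A) (rho := p.rho) (kap := p.kap) h1.le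
    (by linarith) h5 V.n V.k
  calc ∑ i ∈ range V.n, D p V i 0
      ≤ ∑ i ∈ range V.n, p.tau * p.A ^ i
          * ∑ j ∈ (Ico i V.n).filter (fun j => V.k j ≠ 0), 2 / p.rho ^ 2 :=
        Finset.sum_le_sum fun i _ => D_zero_le hp V i
    _ ≤ _ := h6

theorem J_cons_le {p : Par} (hp : p.Ok) (V : Flag E) (z : E) (μ : Multiset E) :
    J p V (z ::ₘ μ) ≤ J p V μ + 5 * p.rho * √(finrank ℝ E : ℝ) * ‖z‖ := by
  refine le_trans ?_ (add_le_add le_rfl (sum_hs_cap_le V (Ok.rho_pos hp).le z))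
  unfold J
  rw [← Finset.sum_add_distrib]
  apply Finset.sum_le_sum
  intro i _
  have := D_cons_le hp V i z μ
  linarith

theorem J_split {p : Par} (hp : p.Ok) (V : Flag E) (s : Multiset (E × E)) :
    J p V (s.map fun q => q.1 + q.2) ≤ J p V (s.map Prod.fst + s.map Prod.snd) := by
  unfold J
  apply Finset.sum_le_sum
  intro i _
  have := D_split hp V i s
  linarith

theorem J_le {p : Par} (hp : p.Ok) (V : Flag E) (μ : Multiset E) :
    J p V μ ≤ 5 * p.rho * √(finrank ℝ E : ℝ) * (μ.map fun z => ‖z‖).sum := by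
  induction μ using Multiset.induction_on with
  | empty => simpa using J_zero_le hp V
  | cons z μ ih =>
    refine (J_cons_le hp V z μ).trans ?_
    rw [Multiset.map_cons, Multiset.sum_cons]
    linarith

/-- the trivial flag -/
def triv (E : Type*) [NormedAddCommGroup E] [InnerProductSpace ℝ E] : Flag E where
  n := 0
  M _ := ⊥
  anti := fun _ _ _ => le_rfl
  bot := fun _ _ => rfl

theorem J_triv (p : Par) (μ : Multiset E) : J p (triv E) μ = 0 := by
  simp [J, triv]

theorem bddAbove_J {p : Par} (hp : p.Ok) (μ : Multiset E) :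
    BddAbove (Set.range fun V : Flag E => J p V μ) :=
  ⟨_, by rintro _ ⟨V, rfl⟩; exact J_le hp V μ⟩

theorem J_le_Ut {p : Par} (hp : p.Ok) (V : Flag E) (μ : Multiset E) : J p V μ ≤ Ut p μ :=
  le_csSup (bddAbove_J hp μ) ⟨V, rfl⟩

theorem Ut_le {p : Par} {μ : Multiset E} {c : ℝ} (h : ∀ V : Flag E, J p V μ ≤ c) :
    Ut p μ ≤ c := csSup_le ⟨_, triv E, rfl⟩ (by rintro _ ⟨V, rfl⟩; exact h V)

theorem exists_J_gt {p : Par} (μ : Multiset E) {e : ℝ} (he : 0 < e) :
    ∃ V : Flag E, Ut p μ - e < J p V μ := by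
  obtain ⟨_, ⟨V, rfl⟩, h⟩ := exists_lt_of_lt_csSup
    (s := Set.range fun V : Flag E => J p V μ) ⟨_, triv E, rfl⟩
    (show Ut p μ - e < sSup _ by show Ut p μ - e < Ut p μ; linarith)
  exact ⟨V, h⟩

/-- near-maximisers exist -/
theorem exists_nearMax {p : Par} (hp : p.Ok) (μ : Multiset E) {e : ℝ} (he : 0 < e) :
    ∃ V : Flag E, NearMax p V μ e ∧ Ut p μ - e < J p V μ := by
  obtain ⟨V, hV⟩ := exists_J_gt (p := p) μ he
  exact ⟨V, fun V' => by have := J_le_Ut hp V' μ; linarith, hV⟩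

theorem Ut_nonneg {p : Par} (hp : p.Ok) (μ : Multiset E) : 0 ≤ Ut p μ := by
  have := J_le_Ut hp (triv E) μ
  rwa [J_triv] at this

theorem Ut_zero {p : Par} (hp : p.Ok) : Ut p (0 : Multiset E) = 0 :=
  le_antisymm (Ut_le fun V => J_zero_le hp V) (Ut_nonneg hp 0)

/-- (U1) -/
theorem Ut_split {p : Par} (hp : p.Ok) (s : Multiset (E × E)) :
    Ut p (s.map fun q => q.1 + q.2) ≤ Ut p (s.map Prod.fst + s.map Prod.snd) :=
  Ut_le fun V => (J_split hp V s).trans (J_le_Ut hp V _)

/-- (U2) -/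
theorem Ut_cons_le {p : Par} (hp : p.Ok) (z : E) (μ : Multiset E) :
    Ut p (z ::ₘ μ) ≤ Ut p μ + 5 * p.rho * √(finrank ℝ E : ℝ) * ‖z‖ := by
  refine Ut_le fun V => ?_
  have h1 := J_cons_le hp V z μ
  have h2 := J_le_Ut hp V μ
  linarith

end F2

/-- target of F2 -/
theorem target_U2 : Target_U2 := by
  intro p hp
  refine ⟨5 * p.rho, by have := F2.Ok.rho_pos hp; positivity, fun d => ⟨?_, ?_, ?_⟩⟩
  · intro V z μ
    exact F2.J_cons_le hp V z μ
  · intro V
    exact F2.J_zero_le hp V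
  · intro V i s
    exact F2.D_split hp V i s

end Crest.Agent.R239.FD
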