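import Crest.Agent.R239.FDef
import Crest.Agent.R239.Rot_203
import Crest.Agent.R239.FlagAlg_557

/-!
# R239 / S0370, block F5 (helper336): rotation of a flag, interface F5 -> F6

With `sb = 2 s - s²`, `x = V.H i g`, `ξ = ⟪v,x⟫`, `ζ_j = ⟪P_j v,x⟫`, `a_j = ξ - ζ_j`:
`qf = sb ⟪V.Hi i v, g⟫² - p`, `p = sb (Z² + Σ om ζ_j² + Σ om (sb b_j/(1 - sb b_j)) a_j²)`,
`Z = Σ om ζ_j = ⟪V.Hi i v - V.H i v, g⟫` (helper208), and the trace of `p` is
`≤ 2 sb Σ om b_j`.  Output `f5_N`: the inequality used by F6 (helper772), one form for all levels.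
-/

set_option autoImplicit false
set_option linter.unusedSectionVars false

open MeasureTheory ProbabilityTheory
open scoped RealInnerProductSpace

namespace Crest.Agent.R239.F5336

open Crest.Agent.R239.FD
open Finset

variable {E : Type*} [NormedAddCommGroup E] [InnerProductSpace ℝ E] [FiniteDimensional ℝ E]
  [MeasurableSpace E] [BorelSpace E]

/-! ### Bridges to `FlagAlg557` -/

lemma th_pos : (0 : ℝ) < th := by norm_num [th]

lemma P_eq (V : Flag E) (j : ℕ) : V.P j = FlagAlg557.P V.M j := rfl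

lemma Q_eq (V : Flag E) (j : ℕ) : V.Q j = FlagAlg557.Q V.M j := rfl

lemma H_eq (V : Flag E) (i : ℕ) : V.H i = FlagAlg557.H V.M th V.n i := rfl

lemma Hi_eq (V : Flag E) (i : ℕ) : V.Hi i = FlagAlg557.Hi V.M th V.n i := by
  unfold Flag.Hi FlagAlg557.Hi FlagAlg557.comb
  refine sum_congr rfl fun j _ => ?_
  rw [inv_pow]; rfl

lemma om_eq' {m : ℕ} (hm : 1 ≤ m) : FlagAlg557.om th m = om m := by
  rw [FlagAlg557.om_eq th_pos m hm, om, pow_mul']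
  simp only [inv_pow]

lemma om_nonneg (m : ℕ) : 0 ≤ om m := by
  unfold om th; positivity

lemma om_val (m : ℕ) : om m = (25 / 16 : ℝ) ^ m * (9 / 25) := by
  unfold om th
  rw [pow_mul]; norm_num

lemma bot_n (V : Flag E) : V.M V.n = ⊥ := V.bot _ le_rfl

lemma H_mem (V : Flag E) (i : ℕ) (g : E) : V.H i g ∈ V.M i := by
  rw [H_eq]; exact FlagAlg557.comb_mem V.anti i V.n _ g

lemma Hi_mem (V : Flag E) (i : ℕ) (g : E) : V.Hi i g ∈ V.M i := by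
  rw [Hi_eq]; exact FlagAlg557.comb_mem V.anti i V.n _ g

lemma H_of_le (V : Flag E) {i : ℕ} (h : V.n ≤ i) : V.H i = 0 := by
  unfold Flag.H; rw [Ico_eq_empty (by omega), sum_empty]

lemma Hi_of_le (V : Flag E) {i : ℕ} (h : V.n ≤ i) : V.Hi i = 0 := by
  unfold Flag.Hi; rw [Ico_eq_empty (by omega), sum_empty]

lemma P_of_le (V : Flag E) {i : ℕ} (h : V.n ≤ i) (x : E) : V.P i x = 0 := by
  rw [P_eq]; exact FlagAlg557.P_eq_zero (V.bot i h) x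

/-- precision of level `i` -/
lemma norm_Hi_sq (V : Flag E) {i : ℕ} (h : i < V.n) (x : E) :
    ‖V.Hi i x‖ ^ 2 = ‖V.P i x‖ ^ 2 + ∑ j ∈ Ico (i + 1) V.n, om (j - i) * ‖V.P j x‖ ^ 2 := by
  rw [Hi_eq, FlagAlg557.norm_Hi_sq V.anti h (bot_n V)]
  congr 1
  refine sum_congr rfl fun j hj => ?_
  have := Finset.mem_Ico.1 hj
  rw [om_eq' (by omega)]; rfl

/-- polarised precision of level `i` -/
lemma inner_Hi_Hi (V : Flag E) {i : ℕ} (h : i < V.n) (x y : E) :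
    ⟪V.Hi i x, V.Hi i y⟫
      = ⟪V.P i x, V.P i y⟫ + ∑ j ∈ Ico (i + 1) V.n, om (j - i) * ⟪V.P j x, V.P j y⟫ := by
  have h1 := norm_Hi_sq V h (x + y)
  have h2 := norm_Hi_sq V h x
  have h3 := norm_Hi_sq V h y
  simp only [map_add, norm_add_sq_real] at h1
  have h4 : ∑ j ∈ Ico (i + 1) V.n,
      om (j - i) * (‖V.P j x‖ ^ 2 + 2 * ⟪V.P j x, V.P j y⟫ + ‖V.P j y‖ ^ 2)
      = ∑ j ∈ Ico (i + 1) V.n, om (j - i) * ‖V.P j x‖ ^ 2
        + 2 * ∑ j ∈ Ico (i + 1) V.n, om (j - i) * ⟪V.P j x, V.P j y⟫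
        + ∑ j ∈ Ico (i + 1) V.n, om (j - i) * ‖V.P j y‖ ^ 2 := by
    rw [mul_sum, ← sum_add_distrib, ← sum_add_distrib]
    refine sum_congr rfl fun j _ => ?_
    ring
  rw [h4] at h1
  linarith

lemma Hi_H (V : Flag E) {i : ℕ} (h : i ≤ V.n) (g : E) : V.Hi i (V.H i g) = V.P i g := by
  rw [Hi_eq, H_eq, FlagAlg557.Hi_H V.anti th_pos h (bot_n V)]; rfl

lemma H_Hi (V : Flag E) {i : ℕ} (h : i ≤ V.n) (g : E) : V.H i (V.Hi i g) = V.P i g := by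
  rw [Hi_eq, H_eq, FlagAlg557.H_Hi V.anti th_pos h (bot_n V)]; rfl

lemma inner_H_comm (V : Flag E) (i : ℕ) (x y : E) : ⟪V.H i x, y⟫ = ⟪x, V.H i y⟫ := by
  rw [H_eq]; exact FlagAlg557.inner_comb_comm i V.n _ x y

lemma inner_P_comm (V : Flag E) (i : ℕ) (x y : E) : ⟪V.P i x, y⟫ = ⟪x, V.P i y⟫ :=
  FlagAlg557.inner_P_comm' (M := V.M) i x y

lemma P_of_mem (V : Flag E) {i : ℕ} {x : E} (hx : x ∈ V.M i) : V.P i x = x :=
  FlagAlg557.P_of_mem hx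

lemma P_P (V : Flag E) {i j : ℕ} (h : i ≤ j) (x : E) : V.P j (V.P i x) = V.P j x :=
  FlagAlg557.P_P V.anti h x

/-! ### The rotated flag -/

lemma Ts_lin (v : E) (s : ℝ) : (Ts v s).toLinearMap = Rot203.Ts s v := by
  ext x
  rw [Rot203.Ts_apply]
  exact Ts_apply v s x

lemma rot_M (V : Flag E) (v : E) (s : ℝ) (j : ℕ) :
    (V.rot v s).M j = (V.M j).map (Rot203.Ts s v) := by
  show (V.M j).map (Ts v s).toLinearMap = _
  rw [Ts_lin]

lemma rot_n (V : Flag E) (v : E) (s : ℝ) : (V.rot v s).n = V.n := rfl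

lemma Ts_mem (V : Flag E) (v : E) (s : ℝ) {j : ℕ} {x : E} (hx : x ∈ V.M j) :
    Ts v s x ∈ (V.rot v s).M j :=
  Submodule.mem_map_of_mem hx

lemma sb_lt_one {s : ℝ} (h1 : s < 1) : 2 * s - s ^ 2 < 1 := by
  have h := mul_pos (sub_pos.2 h1) (sub_pos.2 h1)
  linarith

lemma sb_pos {s : ℝ} (h0 : 0 < s) (h1 : s < 1) : 0 < 2 * s - s ^ 2 := by nlinarith

lemma b_nonneg (V : Flag E) (v : E) (j : ℕ) : 0 ≤ V.b v j := sq_nonneg _

lemma b_le_one (V : Flag E) {v : E} (hv : ‖v‖ = 1) (j : ℕ) : V.b v j ≤ 1 := by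
  have h : ‖V.P j v‖ ≤ ‖v‖ := (V.M j).norm_starProjection_apply_le v
  rw [hv] at h
  unfold Flag.b
  exact pow_le_one₀ (norm_nonneg _) h

/-- C1 on `M j` for the rotated flag -/
lemma norm_rotP_sq (V : Flag E) {v : E} (hv : ‖v‖ = 1) {s : ℝ} (h0 : 0 < s) (h1 : s < 1)
    (j : ℕ) (x : E) :
    ‖(V.rot v s).P j (Ts v s x)‖ ^ 2 = ‖V.P j x‖ ^ 2 - (2 * s - s ^ 2) * ⟪v, x⟫ ^ 2
      + (2 * s - s ^ 2) * ⟪v - V.P j v, x⟫ ^ 2 / (1 - (2 * s - s ^ 2) * V.b v j) := by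
  have hb : 1 - (2 * s - s ^ 2) * ‖(V.M j).starProjection v‖ ^ 2 ≠ 0 := by
    have h2 := b_le_one V hv j
    have h3 := b_nonneg V v j
    unfold Flag.b Flag.P at h2 h3
    have h4 := sb_lt_one h1
    have h5 := sb_pos h0 h1
    have : (2 * s - s ^ 2) * ‖(V.M j).starProjection v‖ ^ 2 ≤ (2 * s - s ^ 2) * 1 :=
      mul_le_mul_of_nonneg_left h2 h5.le
    linarith
  have h := Rot203.norm_proj_Ts_sq hv (V.M j) s x hb
  have e : (V.rot v s).P j (Ts v s x)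
      = ((V.M j).map (Rot203.Ts s v)).starProjection (Rot203.Ts s v x) := by
    unfold Flag.P
    congr 1
  rw [e, h, inner_sub_left]
  rfl

/-- **(ROT)**: the precision of the rotated flag. -/
theorem p_rot : P_ROT E := by
  intro V v s i x hv h0 h1 hx
  by_cases hin : V.n ≤ i
  · have hx0 : x = 0 := by rw [V.bot i hin] at hx; simpa using hx
    subst hx0
    simp [qf]
  push Not at hin
  rw [norm_Hi_sq (V.rot v s) hin, norm_Hi_sq V hin, P_of_mem (V.rot v s) (Ts_mem V v s hx),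
    P_of_mem V hx]
  have hT : ‖Ts v s x‖ ^ 2 = ‖x‖ ^ 2 - (2 * s - s ^ 2) * ⟪v, x⟫ ^ 2 := by
    have := Rot203.norm_Ts_sq hv s x
    rw [Rot203.Ts_apply] at this
    rw [Ts_apply]; exact this
  rw [hT, qf, rot_n]
  have h2 : ∑ j ∈ Ico (i + 1) V.n, om (j - i) * ‖(V.rot v s).P j (Ts v s x)‖ ^ 2
      = ∑ j ∈ Ico (i + 1) V.n, om (j - i) * ‖V.P j x‖ ^ 2
        - (2 * s - s ^ 2) * ∑ j ∈ Ico (i + 1) V.n,
          om (j - i) * (⟪v, x⟫ ^ 2 - ⟪v - V.P j v, x⟫ ^ 2 / (1 - (2 * s - s ^ 2) * V.b v j)) := by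
    rw [mul_sum, ← sum_sub_distrib]
    refine sum_congr rfl fun j _ => ?_
    rw [norm_rotP_sq V hv h0 h1]
    ring
  rw [h2]
  ring

/-- `R g = Hi^s_i T H_i g` satisfies `H^s_i R g = T H_i g`. -/
theorem f5_R (V : Flag E) (v : E) (s : ℝ) (i : ℕ) (g : E) :
    (V.rot v s).H i ((V.rot v s).Hi i (Ts v s (V.H i g))) = Ts v s (V.H i g) := by
  by_cases hin : V.n ≤ i
  · rw [H_of_le V hin, H_of_le (V.rot v s) hin]; simp
  · push Not at hin
    rw [H_Hi (V.rot v s) hin.le]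
    exact P_of_mem (V.rot v s) (Ts_mem V v s (H_mem V i g))

/-! ### The form `q` in `g`-coordinates (helper208) -/

/-- `⟪Hi_i v, g⟫ = ξ + Σ om ζ_j` -/
lemma inner_Hi_eq (V : Flag E) {i : ℕ} (h : i < V.n) (v g : E) :
    ⟪V.Hi i v, g⟫ = ⟪v, V.H i g⟫
      + ∑ j ∈ Ico (i + 1) V.n, om (j - i) * ⟪V.P j v, V.H i g⟫ := by
  have h1 := inner_Hi_Hi V h v (V.H i g)
  rw [Hi_H V h.le, ← inner_P_comm V i, P_of_mem V (Hi_mem V i v)] at h1
  rw [h1, P_of_mem V (H_mem V i g), inner_P_comm V i, P_of_mem V (H_mem V i g)]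
  congr 1
  refine sum_congr rfl fun j _ => ?_
  rw [← inner_P_comm V j (V.P j v), P_P V le_rfl]

/-- the remainder form -/
noncomputable def pf (V : Flag E) (v : E) (sb : ℝ) (i : ℕ) (x z : E) : ℝ :=
  sb * (⟪z, x⟫ ^ 2 + ∑ j ∈ Ico (i + 1) V.n, om (j - i) * ⟪V.P j v, x⟫ ^ 2
    + ∑ j ∈ Ico (i + 1) V.n, om (j - i) * (sb * V.b v j / (1 - sb * V.b v j))
        * ⟪v - V.P j v, x⟫ ^ 2)

lemma one_sub_pos (V : Flag E) {v : E} (hv : ‖v‖ = 1) {sb : ℝ} (h0 : 0 ≤ sb) (h1 : sb < 1)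
    (j : ℕ) : 0 < 1 - sb * V.b v j := by
  have h2 := b_le_one V hv j
  have : sb * V.b v j ≤ sb * 1 := mul_le_mul_of_nonneg_left h2 h0
  linarith

/-- exact splitting `q = sb ℓ² - p` (helper208) -/
lemma qf_split (V : Flag E) {v : E} (hv : ‖v‖ = 1) {sb : ℝ} (h0 : 0 ≤ sb) (h1 : sb < 1) {i : ℕ}
    (h : i < V.n) (g : E) :
    qf V v sb i (V.H i g) = sb * ⟪V.Hi i v, g⟫ ^ 2
      - sb * (⟪V.Hi i v - V.H i v, g⟫ ^ 2
        + ∑ j ∈ Ico (i + 1) V.n, om (j - i) * ⟪V.P j v, V.H i g⟫ ^ 2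
        + ∑ j ∈ Ico (i + 1) V.n, om (j - i) * (sb * V.b v j / (1 - sb * V.b v j))
            * ⟪v - V.P j v, V.H i g⟫ ^ 2) := by
  set x := V.H i g with hx
  set ξ := ⟪v, x⟫ with hξ
  set Z := ∑ j ∈ Ico (i + 1) V.n, om (j - i) * ⟪V.P j v, x⟫ with hZ
  have e1 : ⟪V.Hi i v, g⟫ = ξ + Z := inner_Hi_eq V h v g
  have e2 : ⟪V.Hi i v - V.H i v, g⟫ = Z := by
    rw [inner_sub_left, e1, inner_H_comm, ← hx]; ring
  rw [e1, e2, qf]
  have e3 : ∑ j ∈ Ico (i + 1) V.n,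
      om (j - i) * (ξ ^ 2 - ⟪v - V.P j v, x⟫ ^ 2 / (1 - sb * V.b v j))
      = 2 * ξ * Z - ∑ j ∈ Ico (i + 1) V.n, om (j - i) * ⟪V.P j v, x⟫ ^ 2
        - ∑ j ∈ Ico (i + 1) V.n, om (j - i) * (sb * V.b v j / (1 - sb * V.b v j))
            * ⟪v - V.P j v, x⟫ ^ 2 := by
    rw [hZ, mul_sum, ← sum_sub_distrib, ← sum_sub_distrib]
    refine sum_congr rfl fun j _ => ?_
    have hp := one_sub_pos V hv h0 h1 j
    rw [inner_sub_left, ← hξ]
    have h2 : (ξ - ⟪V.P j v, x⟫) ^ 2 / (1 - sb * V.b v j)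
        = (ξ - ⟪V.P j v, x⟫) ^ 2
          + sb * V.b v j / (1 - sb * V.b v j) * (ξ - ⟪V.P j v, x⟫) ^ 2 := by
      field_simp
      ring
    rw [h2]
    ring
  rw [← hξ, e3]
  ring

/-! ### Traces -/

lemma norm_H_sub_le (V : Flag E) {v : E} (hv : ‖v‖ = 1) {i j : ℕ} (hij : i ≤ j) (hjn : j ≤ V.n) :
    ‖V.H i (v - V.P j v)‖ ^ 2 ≤ 1 := by
  have h := FlagAlg557.norm_H_sub_sq_le V.anti th_pos (by norm_num [th]) hij hjn v
  have h2 := b_le_one V hv i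
  have h3 := b_nonneg V v j
  unfold Flag.b at h2 h3
  rw [H_eq, P_eq]
  rw [P_eq] at h2 h3
  linarith

/-- `‖Hi v - H v‖² + Σ om ‖H P_j v‖² = Σ om b_j` -/
lemma trace_Z (V : Flag E) {i : ℕ} (h : i < V.n) (v : E) :
    ‖V.Hi i v - V.H i v‖ ^ 2 + ∑ j ∈ Ico (i + 1) V.n, om (j - i) * ‖V.H i (V.P j v)‖ ^ 2
      = ∑ j ∈ Ico (i + 1) V.n, om (j - i) * V.b v j := by
  have h1 : ‖V.H i v‖ ^ 2 + ∑ j ∈ Ico (i + 1) V.n, om (j - i) * ‖V.H i (V.P j v)‖ ^ 2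
      = ‖V.P i v‖ ^ 2 := by
    have h2 := FlagAlg557.trace_identity V.anti th_pos h (bot_n V) v
    rw [H_eq, P_eq, ← h2]
    congr 1
    refine sum_congr rfl fun j hj => ?_
    have := Finset.mem_Ico.1 hj
    rw [om_eq' (by omega)]; rfl
  have h3 : ⟪V.Hi i v, V.H i v⟫ = ‖V.P i v‖ ^ 2 := by
    rw [← inner_H_comm, H_Hi V h.le, ← real_inner_self_eq_norm_sq, inner_P_comm, inner_P_comm,
      P_P V le_rfl]
  have h4 := norm_Hi_sq V h v
  rw [norm_sub_sq_real, h3]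
  unfold Flag.b
  linarith

/-- `‖Hi v - Q_i v‖² = b_{i+1} + Σ om b_j` -/
lemma trace_r (V : Flag E) {i : ℕ} (h : i < V.n) (v : E) :
    ‖V.Hi i v - V.Q i v‖ ^ 2
      = V.b v (i + 1) + ∑ j ∈ Ico (i + 1) V.n, om (j - i) * V.b v j := by
  have h4 := norm_Hi_sq V h v
  have hQQ : V.Q i (V.Q i v) = V.Q i v := FlagAlg557.Q_Q_self V.anti i v
  have hc : ∀ x y : E, ⟪V.Q i x, y⟫ = ⟪x, V.Q i y⟫ := fun x y =>
    FlagAlg557.inner_Q_comm (M := V.M) i x y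
  have h5 : V.Q i (V.Hi i v) = V.Q i v := by
    rw [Hi_eq, Q_eq, FlagAlg557.Hi, FlagAlg557.Q_comb V.anti (by simp [h])]
    simp
  have h6 : ⟪V.Hi i v, V.Q i v⟫ = ‖V.Q i v‖ ^ 2 := by
    rw [← hc, h5, ← real_inner_self_eq_norm_sq, hc, hc, hQQ]
  have h7 : ‖V.Q i v‖ ^ 2 = ‖V.P i v‖ ^ 2 - ‖V.P (i + 1) v‖ ^ 2 :=
    FlagAlg557.norm_Q_sq' V.anti i v
  rw [norm_sub_sq_real, h6, h4]
  unfold Flag.b
  linarith

/-- numerics of the weights: `b_{i+1} + 3 Σ om b_j ≤ BB` -/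
lemma weights_le (V : Flag E) {i : ℕ} (h : i < V.n) (v : E) :
    V.b v (i + 1) + 3 * ∑ j ∈ Ico (i + 1) V.n, om (j - i) * V.b v j ≤ BB V v i := by
  unfold BB
  rcases Nat.lt_or_ge (i + 1) V.n with hlt | hge
  · rw [← sum_Ioo_add_eq_sum_Ico hlt, ← sum_Ioo_add_eq_sum_Ico hlt]
    have e1 : i + 1 - i = 1 := by omega
    rw [e1, om_val]
    have h1 : 3 * ∑ j ∈ Ioo (i + 1) V.n, om (j - i) * V.b v j
        ≤ ∑ j ∈ Ioo (i + 1) V.n, (25 / 8 : ℝ) ^ (j - i) * V.b v j := by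
      rw [mul_sum]
      refine sum_le_sum fun j hj => ?_
      rw [← mul_assoc]
      refine mul_le_mul_of_nonneg_right ?_ (b_nonneg V v j)
      rw [om_val]
      have hj' := Finset.mem_Ioo.1 hj
      have h2 : (25 / 8 : ℝ) ^ (j - i) = 2 ^ (j - i) * (25 / 16 : ℝ) ^ (j - i) := by
        rw [← mul_pow]; norm_num
      rw [h2]
      have h3 : (2 : ℝ) ≤ 2 ^ (j - i) := by
        calc (2 : ℝ) = 2 ^ 1 := by norm_num
          _ ≤ 2 ^ (j - i) := pow_le_pow_right₀ (by norm_num) (by omega)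
      have h4 : (0 : ℝ) < (25 / 16 : ℝ) ^ (j - i) := by positivity
      nlinarith [mul_le_mul_of_nonneg_right h3 h4.le]
    have h5 := b_nonneg V v (i + 1)
    nlinarith [h1, h5]
  · have hb : V.b v (i + 1) = 0 := by
      unfold Flag.b; rw [P_of_le V hge]; simp
    rw [Ico_eq_empty (by omega), sum_empty, sum_empty, hb]
    simp

/-- re-indexing a finite family by `ℕ` -/
lemma reindex {ι : Type*} (J : Finset ι) (u : ι → E) :
    ∃ (n : ℕ) (w : ℕ → E), ∀ f : E → ℝ, ∑ k ∈ range n, f (w k) = ∑ k ∈ J, f (u k) := by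
  classical
  induction J using Finset.induction_on with
  | empty => exact ⟨0, fun _ => 0, fun f => by simp⟩
  | insert a J ha ih =>
    obtain ⟨n, w, hw⟩ := ih
    refine ⟨n + 1, fun k => if k < n then w k else u a, fun f => ?_⟩
    rw [sum_range_succ, sum_insert ha, ← hw f]
    simp only [lt_irrefl, if_false]
    rw [add_comm]
    congr 1
    refine sum_congr rfl fun k hk => ?_
    rw [if_pos (Finset.mem_range.1 hk)]

/-- **F5 -> F6 interface** (772's (N), form 208): one inequality for all levels. -/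
theorem f5_N (V : Flag E) {v : E} (hv : ‖v‖ = 1) {s : ℝ} (h0 : 0 < s) (h1 : s < 1)
    (hsb : 2 * s - s ^ 2 ≤ 1 / 2) (i : ℕ) :
    ∃ (J : Finset ℕ) (u : ℕ → E),
      (∀ g, ‖(V.rot v s).Hi i (Ts v s (V.H i g))‖ ^ 2 + (2 * s - s ^ 2) / 2 * ⟪V.Q i v, g⟫ ^ 2
        ≤ ‖g‖ ^ 2 + ∑ k ∈ J, ⟪u k, g⟫ ^ 2) ∧
      ∑ k ∈ J, ‖u k‖ ^ 2 ≤ (2 * s - s ^ 2) * BB V v i := by
  set sb := 2 * s - s ^ 2 with hsbd
  have hsb0 : 0 < sb := sb_pos h0 h1
  have hsb1 : sb < 1 := sb_lt_one h1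
  rcases Nat.lt_or_ge i V.n with hin | hin
  swap
  · refine ⟨∅, fun _ => 0, fun g => ?_, ?_⟩
    · have hQ : V.Q i v = 0 := by
        show V.P i v - V.P (i + 1) v = 0
        rw [P_of_le V hin, P_of_le V (by omega), sub_zero]
      rw [H_of_le V hin, hQ]
      simp
    · unfold BB
      rw [Ico_eq_empty (by omega)]
      simp
  -- the family of vectors
  set W := Ico (i + 1) V.n with hW
  set cz : ℕ → ℝ := fun j => sb * om (j - i) with hcz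
  set ca : ℕ → ℝ := fun j => sb * (om (j - i) * (sb * V.b v j / (1 - sb * V.b v j))) with hca
  have hcz0 : ∀ j, 0 ≤ cz j := fun j => mul_nonneg hsb0.le (om_nonneg _)
  have hca0 : ∀ j, 0 ≤ ca j := fun j => mul_nonneg hsb0.le (mul_nonneg (om_nonneg _)
    (div_nonneg (mul_nonneg hsb0.le (b_nonneg V v j)) (one_sub_pos V hv hsb0.le hsb1 j).le))
  set J : Finset ((Fin 2) ⊕ (ℕ ⊕ ℕ)) :=
    (Finset.univ : Finset (Fin 2)).disjSum (W.disjSum W) with hJ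
  set u : (Fin 2) ⊕ (ℕ ⊕ ℕ) → E := Sum.elim
    (fun k => if k = 0 then Real.sqrt sb • (V.Hi i v - V.Q i v)
      else Real.sqrt sb • (V.Hi i v - V.H i v))
    (Sum.elim (fun j => Real.sqrt (cz j) • V.H i (V.P j v))
      (fun j => Real.sqrt (ca j) • V.H i (v - V.P j v))) with hu
  have hsum : ∀ f : E → ℝ, ∑ k ∈ J, f (u k)
      = f (Real.sqrt sb • (V.Hi i v - V.Q i v)) + f (Real.sqrt sb • (V.Hi i v - V.H i v))
        + (∑ j ∈ W, f (Real.sqrt (cz j) • V.H i (V.P j v))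
          + ∑ j ∈ W, f (Real.sqrt (ca j) • V.H i (v - V.P j v))) := by
    intro f
    rw [hJ, sum_disjSum, sum_disjSum, Fin.sum_univ_two]
    simp [hu]
  obtain ⟨N, w, hw⟩ := reindex J u
  refine ⟨range N, w, fun g => ?_, ?_⟩
  · have hsum1 := (hw (fun y => ⟪y, g⟫ ^ 2)).trans (hsum (fun y => ⟪y, g⟫ ^ 2))
    rw [hsum1]
    have hsq : ∀ (c : ℝ) (y : E), 0 ≤ c → ⟪Real.sqrt c • y, g⟫ ^ 2 = c * ⟪y, g⟫ ^ 2 := by
      intro c y hc
      rw [real_inner_smul_left, mul_pow, Real.sq_sqrt hc]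
    rw [hsq _ _ hsb0.le, hsq _ _ hsb0.le,
      sum_congr rfl (fun j _ => hsq (cz j) (V.H i (V.P j v)) (hcz0 j)),
      sum_congr rfl (fun j _ => hsq (ca j) (V.H i (v - V.P j v)) (hca0 j))]
    rw [p_rot V v s i (V.H i g) hv h0 h1 (H_mem V i g), Hi_H V hin.le, ← hsbd,
      qf_split V hv hsb0.le hsb1 hin g]
    have hP : ‖V.P i g‖ ^ 2 ≤ ‖g‖ ^ 2 := by
      have : ‖V.P i g‖ ≤ ‖g‖ := (V.M i).norm_starProjection_apply_le g
      exact pow_le_pow_left₀ (norm_nonneg _) this 2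
    have hz : ∑ j ∈ W, cz j * ⟪V.H i (V.P j v), g⟫ ^ 2
        = sb * ∑ j ∈ W, om (j - i) * ⟪V.P j v, V.H i g⟫ ^ 2 := by
      rw [mul_sum]
      refine sum_congr rfl fun j _ => ?_
      rw [hcz, inner_H_comm]; ring
    have ha : ∑ j ∈ W, ca j * ⟪V.H i (v - V.P j v), g⟫ ^ 2
        = sb * ∑ j ∈ W, om (j - i) * (sb * V.b v j / (1 - sb * V.b v j))
            * ⟪v - V.P j v, V.H i g⟫ ^ 2 := by
      rw [mul_sum]
      refine sum_congr rfl fun j _ => ?_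
      rw [hca, inner_H_comm]; ring
    rw [hz, ha]
    have hl : ⟪V.Hi i v, g⟫ = ⟪V.Q i v, g⟫ + ⟪V.Hi i v - V.Q i v, g⟫ := by
      rw [inner_sub_left]; ring
    rw [hl]
    have hq : sb / 2 * ⟪V.Q i v, g⟫ ^ 2 ≤ sb * (⟪V.Q i v, g⟫ + ⟪V.Hi i v - V.Q i v, g⟫) ^ 2
        + sb * ⟪V.Hi i v - V.Q i v, g⟫ ^ 2 := by
      nlinarith [mul_nonneg hsb0.le (sq_nonneg (⟪V.Q i v, g⟫ + 2 * ⟪V.Hi i v - V.Q i v, g⟫))]
    linarith
  · have hsum1 := (hw (fun y => ‖y‖ ^ 2)).trans (hsum (fun y => ‖y‖ ^ 2))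
    rw [hsum1]
    have hsq : ∀ (c : ℝ) (y : E), 0 ≤ c → ‖Real.sqrt c • y‖ ^ 2 = c * ‖y‖ ^ 2 := by
      intro c y hc
      rw [norm_smul, mul_pow, Real.norm_eq_abs, sq_abs, Real.sq_sqrt hc]
    rw [hsq _ _ hsb0.le, hsq _ _ hsb0.le,
      sum_congr rfl (fun j _ => hsq (cz j) (V.H i (V.P j v)) (hcz0 j)),
      sum_congr rfl (fun j _ => hsq (ca j) (V.H i (v - V.P j v)) (hca0 j))]
    have hz : ∑ j ∈ W, cz j * ‖V.H i (V.P j v)‖ ^ 2
        = sb * ∑ j ∈ W, om (j - i) * ‖V.H i (V.P j v)‖ ^ 2 := by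
      rw [mul_sum]
      refine sum_congr rfl fun j _ => ?_
      rw [hcz]; ring
    have ha : ∑ j ∈ W, ca j * ‖V.H i (v - V.P j v)‖ ^ 2
        ≤ sb * ∑ j ∈ W, om (j - i) * V.b v j := by
      rw [mul_sum]
      refine sum_le_sum fun j hj => ?_
      have hj' := Finset.mem_Ico.1 hj
      have h2 := norm_H_sub_le V hv (i := i) (j := j) (by omega) (by omega)
      have h3 : sb * V.b v j / (1 - sb * V.b v j) ≤ V.b v j := by
        have hp := one_sub_pos V hv hsb0.le hsb1 j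
        rw [div_le_iff₀ hp]
        have hb1 := b_le_one V hv j
        have hb0 := b_nonneg V v j
        nlinarith [mul_nonneg hb0 hsb0.le, mul_nonneg hb0 (sub_nonneg.2 hb1),
          mul_nonneg (mul_nonneg hb0 hsb0.le) (sub_nonneg.2 hb1)]
      have h4 : 0 ≤ sb * V.b v j / (1 - sb * V.b v j) :=
        div_nonneg (mul_nonneg hsb0.le (b_nonneg V v j)) (one_sub_pos V hv hsb0.le hsb1 j).le
      rw [hca]
      have h5 : (om (j - i) * (sb * V.b v j / (1 - sb * V.b v j))) * ‖V.H i (v - V.P j v)‖ ^ 2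
          ≤ (om (j - i) * V.b v j) * 1 :=
        mul_le_mul (mul_le_mul_of_nonneg_left h3 (om_nonneg _)) h2 (sq_nonneg _)
          (mul_nonneg (om_nonneg _) (b_nonneg V v j))
      have h6 := mul_le_mul_of_nonneg_left h5 hsb0.le
      calc _ = sb * ((om (j - i) * (sb * V.b v j / (1 - sb * V.b v j)))
            * ‖V.H i (v - V.P j v)‖ ^ 2) := by ring
        _ ≤ _ := by linarith [h6]
    have t1 := trace_Z V hin v
    have t2 := trace_r V hin v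
    have t3 := weights_le V hin v
    rw [hz, t2]
    have t4 : sb * ‖V.Hi i v - V.H i v‖ ^ 2
        + sb * ∑ j ∈ W, om (j - i) * ‖V.H i (V.P j v)‖ ^ 2
        = sb * ∑ j ∈ W, om (j - i) * V.b v j := by
      rw [← mul_add, t1]
    have t5 := mul_le_mul_of_nonneg_left t3 hsb0.le
    have t6 : sb * (V.b v (i + 1) + 3 * ∑ j ∈ W, om (j - i) * V.b v j)
        = sb * (V.b v (i + 1) + ∑ j ∈ W, om (j - i) * V.b v j)
          + 2 * (sb * ∑ j ∈ W, om (j - i) * V.b v j) := by ring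
    linarith

end Crest.Agent.R239.F5336
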