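import Mathlib

/-! R239 (S0370), proof of helper583 (docs 2387-2390): numeric sums over the levels `lam i = lam0 * A ^ i`. -/

set_option autoImplicit false

namespace R239Num77

open Finset

noncomputable def lv (lam0 A : ℝ) (i : ℕ) : ℝ := lam0 * A ^ i

lemma lv_pos {lam0 A : ℝ} (h0 : 0 < lam0) (hA : 0 < A) (i : ℕ) : 0 < lv lam0 A i := by
  unfold lv; positivity

lemma lv_succ (lam0 A : ℝ) (i : ℕ) : lv lam0 A (i+1) = A * lv lam0 A i := by
  unfold lv; ring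

lemma lv_add (lam0 A : ℝ) (i m : ℕ) : lv lam0 A (i+m) = A ^ m * lv lam0 A i := by
  unfold lv; ring

lemma lv_of_le {lam0 A : ℝ} {i j : ℕ} (h : i ≤ j) : lv lam0 A j = A ^ (j-i) * lv lam0 A i := by
  obtain ⟨m, rfl⟩ := Nat.exists_eq_add_of_le h
  rw [lv_add]; simp

lemma sum_lv_le {lam0 A : ℝ} (h0 : 0 < lam0) (hA : 2 ≤ A) (I : ℕ) :
    ∑ i ∈ range (I+1), lv lam0 A i ≤ 2 * lv lam0 A I := by
  induction I with
  | zero =>
    have := lv_pos h0 (by linarith : (0:ℝ) < A) 0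
    simp; linarith
  | succ I ih =>
    rw [sum_range_succ, lv_succ]
    have := lv_pos h0 (by linarith : (0:ℝ) < A) I
    nlinarith

lemma sum_lv_mul_le {lam0 A : ℝ} (h0 : 0 < lam0) (hA : 2 ≤ A) (I : ℕ) :
    ∑ i ∈ range (I+1), lv lam0 A i * ((I:ℝ) - i + 1) ≤ 4 * lv lam0 A I := by
  induction I with
  | zero =>
    have := lv_pos h0 (by linarith : (0:ℝ) < A) 0
    simp; linarith
  | succ I ih =>
    have hp := lv_pos h0 (by linarith : (0:ℝ) < A) I
    have h1 : ∑ i ∈ range (I+1+1), lv lam0 A i * (((I+1:ℕ):ℝ) - i + 1)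
        = (∑ i ∈ range (I+1), lv lam0 A i * ((I:ℝ) - i + 1)) + ∑ i ∈ range (I+1+1), lv lam0 A i := by
      rw [sum_range_succ _ (I+1), sum_range_succ (fun i => lv lam0 A i) (I+1)]
      have : ∑ i ∈ range (I+1), lv lam0 A i * (((I+1:ℕ):ℝ) - i + 1)
          = ∑ i ∈ range (I+1), (lv lam0 A i * ((I:ℝ) - i + 1) + lv lam0 A i) := by
        refine sum_congr rfl fun i _ => ?_
        push_cast; ring
      rw [this, sum_add_distrib]
      push_cast; ring
    rw [h1]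
    have h2 := sum_lv_le h0 hA (I+1)
    rw [lv_succ] at h2 ⊢
    nlinarith

lemma sum_lv_log_le {lam0 A : ℝ} (h0 : 0 < lam0) (hA : 2 ≤ A) (l : ℝ) (hl : 0 ≤ l) (I : ℕ) :
    ∑ i ∈ range I, lv lam0 A i * (2 + ((I:ℝ) - i) * l) ≤ (4 * (2 + l) / A) * lv lam0 A I := by
  have hA0 : (0:ℝ) < A := by linarith
  induction I with
  | zero =>
    have := lv_pos h0 (by linarith : (0:ℝ) < A) 0
    simp; positivity
  | succ I ih =>
    have hp := lv_pos h0 (by linarith : (0:ℝ) < A) I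
    have h1 : ∑ i ∈ range (I+1), lv lam0 A i * (2 + (((I+1:ℕ):ℝ) - i) * l)
        = (∑ i ∈ range I, lv lam0 A i * (2 + ((I:ℝ) - i) * l)) + 2 * lv lam0 A I
          + l * ∑ i ∈ range (I+1), lv lam0 A i := by
      rw [sum_range_succ, sum_range_succ (fun i => lv lam0 A i) I, mul_add l, mul_sum]
      have : ∑ i ∈ range I, lv lam0 A i * (2 + (((I+1:ℕ):ℝ) - i) * l)
          = ∑ i ∈ range I, (lv lam0 A i * (2 + ((I:ℝ) - i) * l) + l * lv lam0 A i) := by
        refine sum_congr rfl fun i _ => ?_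
        push_cast; ring
      rw [this, sum_add_distrib]
      push_cast; ring
    rw [h1]
    have h2 := sum_lv_le h0 hA I
    have h3 : l * ∑ i ∈ range (I+1), lv lam0 A i ≤ l * (2 * lv lam0 A I) :=
      mul_le_mul_of_nonneg_left h2 hl
    have h4 : (4 * (2 + l) / A) * lv lam0 A (I+1) = 4 * (2 + l) * lv lam0 A I := by
      rw [lv_succ]; field_simp
    rw [h4]
    have h5 : (4 * (2 + l) / A) * lv lam0 A I ≤ (2 * (2 + l)) * lv lam0 A I := by
      apply mul_le_mul_of_nonneg_right _ hp.le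
      rw [div_le_iff₀ hA0]
      nlinarith
    nlinarith

/-- `Σ_{m<M} A^{-(m+1)} (c + (m+1) l) ≤ (2c+4l)/A`. -/
lemma sum_geo_lin {A : ℝ} (hA : 2 ≤ A) (l : ℝ) (hl : 0 ≤ l) (M : ℕ) :
    ∀ c : ℝ, 0 ≤ c → ∑ m ∈ range M, (A⁻¹) ^ (m+1) * (c + ((m:ℝ)+1) * l) ≤ (2 * c + 4 * l) / A := by
  have hA0 : (0:ℝ) < A := by linarith
  induction M with
  | zero => intro c hc; simp; positivity
  | succ M ih =>
    intro c hc
    rw [sum_range_succ']
    have h1 : ∑ m ∈ range M, (A⁻¹) ^ (m+1+1) * (c + (((m+1:ℕ):ℝ)+1) * l)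
        = A⁻¹ * ∑ m ∈ range M, (A⁻¹) ^ (m+1) * ((c + l) + ((m:ℝ)+1) * l) := by
      rw [mul_sum]
      refine sum_congr rfl fun m _ => ?_
      push_cast; ring
    rw [h1]
    have h2 := ih (c + l) (by linarith)
    have h3 : A⁻¹ * ∑ m ∈ range M, (A⁻¹) ^ (m+1) * ((c + l) + ((m:ℝ)+1) * l)
        ≤ A⁻¹ * ((2 * (c+l) + 4 * l) / A) :=
      mul_le_mul_of_nonneg_left h2 (by positivity)
    have h4 : (2 * (c+l) + 4 * l) / A ≤ c + 3 * l := by
      rw [div_le_iff₀ hA0]; nlinarith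
    have h5 : A⁻¹ * ((2 * (c+l) + 4 * l) / A) ≤ A⁻¹ * (c + 3 * l) :=
      mul_le_mul_of_nonneg_left h4 (by positivity)
    have h6 : (2 * c + 4 * l) / A = A⁻¹ * (c + 3 * l) + A⁻¹ * (c + l) := by
      field_simp; ring
    rw [h6]
    simp only [zero_add, pow_one, Nat.cast_zero, one_mul]
    linarith

/-- Absorption: `X i = Σ_{i<j<N} ((5/4)^(j-i) √(b i b j) + (25/16)^(j-i) b j)`. -/
noncomputable def XX (b : ℕ → ℝ) (N i : ℕ) : ℝ :=
  ∑ j ∈ Ico (i+1) N, ((5/4:ℝ) ^ (j-i) * Real.sqrt (b i * b j) + (25/16:ℝ) ^ (j-i) * b j)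

lemma XX_nonneg {b : ℕ → ℝ} (hb : ∀ i, 0 ≤ b i) (N i : ℕ) : 0 ≤ XX b N i := by
  unfold XX
  refine sum_nonneg fun j _ => ?_
  have := hb j
  positivity

lemma pair_le {lam0 A : ℝ} (h0 : 0 < lam0) (hA : 4 ≤ A) {b : ℕ → ℝ} (hb : ∀ i, 0 ≤ b i)
    {i j : ℕ} (hij : i < j) :
    lv lam0 A i * ((5/4:ℝ) ^ (j-i) * Real.sqrt (b i * b j) + (25/16:ℝ) ^ (j-i) * b j)
      ≤ ((5/4) / Real.sqrt A) ^ (j-i) * ((1/2) * (lv lam0 A i * b i) + (3/2) * (lv lam0 A j * b j)) := by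
  have hA0 : (0:ℝ) < A := by linarith
  set s := Real.sqrt A with hs
  have hs2 : s * s = A := Real.mul_self_sqrt hA0.le
  have hs0 : 0 < s := Real.sqrt_pos.mpr hA0
  have hs2' : 2 ≤ s := by
    rw [hs]; exact Real.le_sqrt_of_sq_le (by norm_num; linarith)
  set m := j - i with hm
  have hl : lv lam0 A j = A ^ m * lv lam0 A i := lv_of_le hij.le
  have hp := lv_pos h0 hA0 i
  set L := lv lam0 A i with hL
  have hAm : A ^ m = s ^ m * s ^ m := by rw [← hs2, mul_pow]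
  have hsm : 0 < s ^ m := by positivity
  -- AM-GM
  have h1 : Real.sqrt (b i * b j) ≤ (1/2) * ((s^m)⁻¹ * b i + s^m * b j) := by
    have hbi := hb i
    have hbj := hb j
    rw [show b i * b j = ((s^m)⁻¹ * b i) * (s^m * b j) by field_simp]
    have hx : 0 ≤ (s^m)⁻¹ * b i := by positivity
    have hy : 0 ≤ s^m * b j := by positivity
    rw [Real.sqrt_le_left (by positivity)]
    nlinarith [sq_nonneg ((s^m)⁻¹ * b i - s^m * b j)]
  have hq : ((5/4) / s) ^ m = (5/4:ℝ)^m * (s^m)⁻¹ := by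
    rw [div_pow]; rfl
  have h2 : (25/16:ℝ)^m ≤ (5/4:ℝ)^m * s^m := by
    rw [← mul_pow]
    apply pow_le_pow_left₀ (by norm_num)
    linarith
  rw [hq, hl, hAm]
  have h54 : 0 < (5/4:ℝ)^m := by positivity
  have e1 : L * ((5/4:ℝ)^m * Real.sqrt (b i * b j)) ≤ L * ((5/4:ℝ)^m * ((1/2) * ((s^m)⁻¹ * b i + s^m * b j))) := by
    gcongr
  have e2 : L * ((25/16:ℝ)^m * b j) ≤ L * (((5/4:ℝ)^m * s^m) * b j) := by
    have := hb j
    gcongr
  have e3 : (5/4:ℝ)^m * (s^m)⁻¹ * ((1/2) * (L * b i) + (3/2) * (s^m * s^m * L * b j))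
      = L * ((5/4:ℝ)^m * ((1/2) * ((s^m)⁻¹ * b i + s^m * b j))) + L * (((5/4:ℝ)^m * s^m) * b j) := by
    field_simp; ring
  rw [e3, mul_add]
  linarith

lemma geo_half {q : ℝ} (hq0 : 0 ≤ q) (hq : q ≤ 1/2) (M : ℕ) :
    ∑ m ∈ range M, q ^ (m+1) ≤ 2 * q := by
  have : ∀ M : ℕ, ∑ m ∈ range M, q ^ (m+1) ≤ 2 * q * (1 - q^M) := by
    intro M
    induction M with
    | zero => simp
    | succ M ih =>
      rw [sum_range_succ]
      have hqM : 0 ≤ q ^ M := by positivity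
      have : q ^ (M+1) = q * q^M := by ring
      nlinarith [mul_nonneg hq0 hqM, mul_nonneg (mul_nonneg hq0 hqM) (by linarith : (0:ℝ) ≤ 1/2 - q)]
  refine (this M).trans ?_
  have hqM : 0 ≤ q ^ M := by positivity
  nlinarith [mul_nonneg hq0 hqM]

theorem absorb {lam0 A : ℝ} (h0 : 0 < lam0) (hA : 16 ≤ A) {b : ℕ → ℝ} (hb : ∀ i, 0 ≤ b i) (N : ℕ) :
    ∑ i ∈ range N, lv lam0 A i * XX b N i ≤ (5 / Real.sqrt A) * ∑ i ∈ range N, lv lam0 A i * b i := by
  have hA0 : (0:ℝ) < A := by linarith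
  set s := Real.sqrt A with hs
  have hs4 : 4 ≤ s := by
    rw [hs]; exact Real.le_sqrt_of_sq_le (by norm_num; linarith)
  have hs0 : 0 < s := by linarith
  set q := (5/4) / s with hq
  have hq0 : 0 ≤ q := by positivity
  have hq1 : q ≤ 1/2 := by rw [hq, div_le_iff₀ hs0]; linarith
  have step1 : ∑ i ∈ range N, lv lam0 A i * XX b N i
      ≤ ∑ i ∈ range N, ∑ j ∈ Ico (i+1) N,
          q ^ (j-i) * ((1/2) * (lv lam0 A i * b i) + (3/2) * (lv lam0 A j * b j)) := by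
    refine sum_le_sum fun i _ => ?_
    unfold XX
    rw [mul_sum]
    refine sum_le_sum fun j hj => ?_
    have hij : i < j := by
      have := (mem_Ico.mp hj).1
      omega
    exact pair_le h0 (by linarith) hb hij
  have step2 : ∑ i ∈ range N, ∑ j ∈ Ico (i+1) N,
          q ^ (j-i) * ((1/2) * (lv lam0 A i * b i) + (3/2) * (lv lam0 A j * b j))
      = (∑ i ∈ range N, (∑ j ∈ Ico (i+1) N, q ^ (j-i)) * ((1/2) * (lv lam0 A i * b i)))
        + ∑ j ∈ range N, (∑ i ∈ range j, q ^ (j-i)) * ((3/2) * (lv lam0 A j * b j)) := by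
    simp_rw [mul_add, sum_add_distrib, sum_mul]
    congr 1
    have := Finset.sum_Ico_Ico_comm' 0 N (fun i j => q ^ (j-i) * ((3/2) * (lv lam0 A j * b j)))
    simpa [Nat.Ico_zero_eq_range] using this
  have g1 : ∀ i, ∑ j ∈ Ico (i+1) N, q ^ (j-i) ≤ 2 * q := by
    intro i
    rw [sum_Ico_eq_sum_range]
    refine le_trans (le_of_eq ?_) (geo_half hq0 hq1 (N - (i+1)))
    refine sum_congr rfl fun m _ => ?_
    congr 1; omega
  have g2 : ∀ j, ∑ i ∈ range j, q ^ (j-i) ≤ 2 * q := by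
    intro j
    rw [← sum_range_reflect]
    refine le_trans (le_of_eq ?_) (geo_half hq0 hq1 j)
    refine sum_congr rfl fun m hm => ?_
    have := mem_range.mp hm
    congr 1; omega
  rw [step2] at step1
  refine step1.trans ?_
  have hterm : ∀ i, 0 ≤ lv lam0 A i * b i := fun i => mul_nonneg (lv_pos h0 hA0 i).le (hb i)
  have s1 : (∑ i ∈ range N, (∑ j ∈ Ico (i+1) N, q ^ (j-i)) * ((1/2) * (lv lam0 A i * b i)))
      ≤ ∑ i ∈ range N, (2 * q) * ((1/2) * (lv lam0 A i * b i)) :=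
    sum_le_sum fun i _ => mul_le_mul_of_nonneg_right (g1 i) (by have := hterm i; positivity)
  have s2 : (∑ j ∈ range N, (∑ i ∈ range j, q ^ (j-i)) * ((3/2) * (lv lam0 A j * b j)))
      ≤ ∑ i ∈ range N, (2 * q) * ((3/2) * (lv lam0 A i * b i)) :=
    sum_le_sum fun i _ => mul_le_mul_of_nonneg_right (g2 i) (by have := hterm i; positivity)
  refine (add_le_add s1 s2).trans (le_of_eq ?_)
  rw [← sum_add_distrib, mul_sum]
  refine sum_congr rfl fun i _ => ?_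
  rw [hq]; field_simp; ring

end R239Num77
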