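import Crest.Agent.R239.Rem_603
import Crest.Agent.R239.Num77a

/-!
R239 (S0370), T1 assembly, real-number step (helper633): from the one-level comparisons
(L0) (crude) and (L1) (with gain) and the slab bounds of `Rem_603` to the hypothesis list of the
numeric theorem of `Num77c`.
-/

set_option autoImplicit false

open MeasureTheory ProbabilityTheory Set
open scoped RealInnerProductSpace
open R239Num77

namespace Crest.Agent.R239.F9b633

variable {E : Type*} [NormedAddCommGroup E] [InnerProductSpace ℝ E] [FiniteDimensional ℝ E]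
  [MeasurableSpace E] [BorelSpace E]

/-- mass of the slab -/
noncomputable def sm (w : E) (t : ℝ) : ℝ := (stdGaussian E).real {g : E | |⟪w, g⟫| ≤ t}

lemma sm_half (w : E) (t : ℝ) : sm ((1/2:ℝ) • w) t = sm w (2 * t) := by
  unfold sm
  congr 1
  ext g
  simp only [mem_ofPred_eq, real_inner_smul_left, abs_mul]
  rw [abs_of_pos (by norm_num : (0:ℝ) < 1/2)]
  constructor <;> intro h <;> linarith

lemma log_lv_div {lam0 A : ℝ} (h0 : 0 < lam0) (hA : 2 ≤ A) {i I : ℕ} (h : i ≤ I) :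
    Real.log (lv lam0 A I / lv lam0 A i) = ((I:ℝ) - i) * Real.log A := by
  have hp := lv_pos h0 (by linarith : (0:ℝ) < A) i
  rw [lv_of_le h, mul_div_assoc, div_self hp.ne', mul_one, Real.log_pow, Nat.cast_sub h]

/-- Lower levels `i ≤ I`. -/
theorem rem_low (w : E) {b lam0 A s S : ℝ} (hw : ‖w‖ ^ 2 ≤ 2 * b) (hb : b ≤ 1) (h0 : 0 < lam0)
    (hA : 2 ≤ A) (hs : 0 ≤ s) (hs2 : s ≤ 1 / 2) {i I : ℕ} (hi : i ≤ I) (hS : S ≤ lv lam0 A I)
    (hS0 : 0 ≤ S) :
    ∃ t : ℝ, 0 < t ∧ 0 < sm w t ∧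
      s * t * S - lv lam0 A i * Real.log (sm w t) ≤ lv lam0 A i * (2 + ((I:ℝ) - i) * Real.log A) := by
  have hA0 : (0:ℝ) < A := by linarith
  have hp := lv_pos h0 hA0 i
  have hle : lv lam0 A i ≤ lv lam0 A I := by
    rw [lv_of_le hi]
    have : 1 ≤ A ^ (I - i) := one_le_pow₀ (by linarith)
    nlinarith
  have hw' : ‖(1/2:ℝ) • w‖ ≤ 1 := by
    rw [norm_smul, Real.norm_eq_abs, abs_of_pos (by norm_num : (0:ℝ) < 1/2)]
    nlinarith [norm_nonneg w]
  obtain ⟨t, ht, hpos, hr⟩ := (Rem603.rem_std ((1/2:ℝ) • w) hw' hp (S := lv lam0 A I)).2.1 hle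
  have e : (stdGaussian E).real {g : E | |⟪(1/2:ℝ) • w, g⟫| ≤ t} = sm w (2 * t) := sm_half w t
  rw [e] at hpos hr
  rw [log_lv_div h0 hA hi] at hr
  refine ⟨2 * t, by positivity, hpos, ?_⟩
  have h1 : s * (2 * t) * S ≤ t * lv lam0 A I := by
    have : s * (2 * t) * S = (2 * s) * (t * S) := by ring
    rw [this]
    have h2 : t * S ≤ t * lv lam0 A I := mul_le_mul_of_nonneg_left hS ht.le
    have h3 : 0 ≤ t * S := by positivity
    nlinarith
  linarith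

/-- Upper levels `I < i`. -/
theorem rem_high (w : E) {b lam0 A s S e : ℝ} (hw : ‖w‖ ^ 2 ≤ 2 * b) (hb : b ≤ 1) (h0 : 0 < lam0)
    (hA : 2 ≤ A) (hs : 0 ≤ s) (hs2 : s ≤ 1 / 2) {i I : ℕ} (hi : I < i) (hS : S ≤ lv lam0 A I)
    (hS0 : 0 ≤ S) (he : 0 < e) (he1 : e ≤ 1) :
    ∃ t : ℝ, 0 < t ∧ 0 < sm w t ∧
      s * t * S - lv lam0 A i * Real.log (sm w t)
        ≤ e * (lv lam0 A i * b)
          + (3 / e) * (lv lam0 A I * ((A⁻¹) ^ (i - I) * (1 + ((i:ℝ) - I) * Real.log A))) := by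
  have hA0 : (0:ℝ) < A := by linarith
  have hp := lv_pos h0 hA0 i
  have hpI := lv_pos h0 hA0 I
  have hle : lv lam0 A I ≤ lv lam0 A i := by
    rw [lv_of_le hi.le]
    have : 1 ≤ A ^ (i - I) := one_le_pow₀ (by linarith)
    nlinarith
  have hn : ‖(1/2:ℝ) • w‖ ^ 2 = ‖w‖ ^ 2 / 4 := by
    rw [norm_smul, Real.norm_eq_abs, abs_of_pos (by norm_num : (0:ℝ) < 1/2)]
    ring
  have hw' : ‖(1/2:ℝ) • w‖ ≤ 1 := by
    rw [norm_smul, Real.norm_eq_abs, abs_of_pos (by norm_num : (0:ℝ) < 1/2)]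
    nlinarith [norm_nonneg w]
  obtain ⟨t, ht, hpos, hr⟩ :=
    (Rem603.rem_std ((1/2:ℝ) • w) hw' hp (S := lv lam0 A I)).2.2.1 e he he1 hpI hle
  have e' : (stdGaussian E).real {g : E | |⟪(1/2:ℝ) • w, g⟫| ≤ t} = sm w (2 * t) := sm_half w t
  rw [e'] at hpos hr
  rw [hn] at hr
  refine ⟨2 * t, by positivity, hpos, ?_⟩
  have h1 : s * (2 * t) * S ≤ t * lv lam0 A I := by
    have : s * (2 * t) * S = (2 * s) * (t * S) := by ring
    rw [this]
    have h2 : t * S ≤ t * lv lam0 A I := mul_le_mul_of_nonneg_left hS ht.le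
    have h3 : 0 ≤ t * S := by positivity
    nlinarith
  have h2 : lv lam0 A I ^ 2 / lv lam0 A i = lv lam0 A I * (A⁻¹) ^ (i - I) := by
    rw [lv_of_le hi.le, inv_pow]
    have : A ^ (i - I) ≠ 0 := by positivity
    field_simp
  have h3 : Real.log (2 * lv lam0 A i / lv lam0 A I) ≤ 1 + ((i:ℝ) - I) * Real.log A := by
    rw [mul_div_assoc, Real.log_mul (by norm_num) (by positivity), log_lv_div h0 hA hi.le]
    have : Real.log 2 ≤ 1 := by
      have := Real.log_le_sub_one_of_pos (by norm_num : (0:ℝ) < 2)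
      linarith
    linarith
  have h4 : (3 / e) * (lv lam0 A I ^ 2 / lv lam0 A i) * Real.log (2 * lv lam0 A i / lv lam0 A I)
      ≤ (3 / e) * (lv lam0 A I * ((A⁻¹) ^ (i - I) * (1 + ((i:ℝ) - I) * Real.log A))) := by
    rw [h2]
    have : 0 ≤ (3 / e) * (lv lam0 A I * (A⁻¹) ^ (i - I)) := by positivity
    calc (3 / e) * (lv lam0 A I * (A⁻¹) ^ (i - I)) * Real.log (2 * lv lam0 A i / lv lam0 A I)
        ≤ (3 / e) * (lv lam0 A I * (A⁻¹) ^ (i - I)) * (1 + ((i:ℝ) - I) * Real.log A) :=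
          mul_le_mul_of_nonneg_left h3 this
      _ = _ := by ring
  have h5 : e * lv lam0 A i * (‖w‖ ^ 2 / 4) ≤ e * (lv lam0 A i * b) := by
    have hb0 : 0 ≤ b := by nlinarith [sq_nonneg ‖w‖]
    have : ‖w‖ ^ 2 / 4 ≤ b := by linarith
    calc e * lv lam0 A i * (‖w‖ ^ 2 / 4) ≤ e * lv lam0 A i * b :=
          mul_le_mul_of_nonneg_left this (by positivity)
      _ = _ := by ring
  linarith

/-- **F9b**: (L0) + (L1) + slab bounds give the input of `T1_num`. -/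
theorem F9b {lam0 A s S c6 C6 e7 : ℝ} {n I : ℕ} {b D D' K : ℕ → ℝ} {w : ℕ → E}
    (h0 : 0 < lam0) (hA : 2 ≤ A) (hs : 0 ≤ s) (hs2 : s ≤ 1 / 2) (hS0 : 0 ≤ S)
    (hS : S ≤ lv lam0 A I) (he : 0 < e7) (he1 : e7 ≤ 1) (hc6 : 0 ≤ c6)
    (hb0 : ∀ i, 0 ≤ b i) (hb1 : ∀ i, b i ≤ 1) (hw : ∀ i < n, ‖w i‖ ^ 2 ≤ 2 * b i)
    (hL0 : ∀ i < n, ∀ t : ℝ, 0 < t → 0 < sm (w i) t →
      D i ≤ D' i + lv lam0 A i * (C6 * XX b n i + K i) + s * t * S
        - lv lam0 A i * Real.log (sm (w i) t))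
    (hL1 : ∀ i < n, I < i → ∀ t : ℝ, 0 < t → 0 < sm (w i) t →
      D i ≤ D' i + lv lam0 A i * (C6 * XX b n i + K i) - c6 * lv lam0 A i * (b i - C6 * XX b n i)
        + s * t * S - lv lam0 A i * Real.log (sm (w i) t)) :
    ∃ G R : ℕ → ℝ,
      (∀ i < n, D i ≤ D' i + lv lam0 A i * (C6 * XX b n i + K i - G i) + R i) ∧
      (∀ i, 0 ≤ G i) ∧
      (∀ i, I < i → i < n → c6 * (b i - b (i+1)) ≤ G i + c6 * C6 * XX b n i) ∧
      (∀ i, i < n → i ≤ I → R i ≤ lv lam0 A i * (2 + ((I:ℝ) - i) * Real.log A)) ∧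
      (∀ i, I < i → i < n → R i ≤ e7 * (lv lam0 A i * b i)
        + (3 / e7) * (lv lam0 A I * ((A⁻¹) ^ (i - I) * (1 + ((i:ℝ) - I) * Real.log A)))) := by
  classical
  -- the choice of `t`
  have ex : ∀ i, ∃ t : ℝ, i < n → (0 < t ∧ 0 < sm (w i) t ∧
      (i ≤ I → s * t * S - lv lam0 A i * Real.log (sm (w i) t)
        ≤ lv lam0 A i * (2 + ((I:ℝ) - i) * Real.log A)) ∧
      (I < i → s * t * S - lv lam0 A i * Real.log (sm (w i) t)
        ≤ e7 * (lv lam0 A i * b i)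
        + (3 / e7) * (lv lam0 A I * ((A⁻¹) ^ (i - I) * (1 + ((i:ℝ) - I) * Real.log A))))) := by
    intro i
    by_cases hin : i < n
    · rcases le_or_gt i I with h | h
      · obtain ⟨t, ht, hp, hr⟩ := rem_low (w i) (hw i hin) (hb1 i) h0 hA hs hs2 h hS hS0
        exact ⟨t, fun _ => ⟨ht, hp, fun _ => hr, fun h' => absurd h (not_le.2 h')⟩⟩
      · obtain ⟨t, ht, hp, hr⟩ := rem_high (w i) (hw i hin) (hb1 i) h0 hA hs hs2 h hS hS0 he he1
        exact ⟨t, fun _ => ⟨ht, hp, fun h' => absurd h' (not_le.2 h), fun _ => hr⟩⟩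
    · exact ⟨1, fun h => absurd h hin⟩
  choose t ht using ex
  refine ⟨fun i => if I < i then max 0 (c6 * (b i - C6 * XX b n i)) else 0,
    fun i => s * t i * S - lv lam0 A i * Real.log (sm (w i) (t i)), ?_, ?_, ?_, ?_, ?_⟩
  · intro i hi
    obtain ⟨h1, h2, -, -⟩ := ht i hi
    have a0 := hL0 i hi (t i) h1 h2
    dsimp only
    split_ifs with h
    · have a1 := hL1 i hi h (t i) h1 h2
      rcases le_total 0 (c6 * (b i - C6 * XX b n i)) with hc | hc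
      · rw [max_eq_right hc]
        nlinarith
      · rw [max_eq_left hc]
        nlinarith
    · nlinarith
  · intro i
    dsimp only
    split_ifs
    · exact le_max_left _ _
    · exact le_rfl
  · intro i hi _
    dsimp only
    rw [if_pos hi]
    have h1 : c6 * (b i - C6 * XX b n i) ≤ max 0 (c6 * (b i - C6 * XX b n i)) := le_max_right _ _
    have h2 : c6 * (b i - b (i+1)) ≤ c6 * b i :=
      mul_le_mul_of_nonneg_left (by linarith [hb0 (i+1)]) hc6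
    nlinarith
  · intro i hi hiI
    exact (ht i hi).2.2.1 hiI
  · intro i hi hin
    exact (ht i hin).2.2.2 hi

end Crest.Agent.R239.F9b633
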