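import Crest.Agent.R239.FDef
import Crest.Agent.R239.AnSym_853
import Crest.Agent.R239.DomP_640
import Crest.Agent.R239.Mom_764

/-! R239 (helper76): basic facts about caps, admissible bodies and values of FDef. -/

set_option autoImplicit false
set_option linter.unusedSectionVars false
open MeasureTheory ProbabilityTheory Set
open scoped RealInnerProductSpace

namespace Crest.Agent.R239.FB76

open Crest.Agent.R239 Crest.Agent.R239.FD

lemma th_pos : 0 < th := by unfold th; norm_num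
lemma th_lt : th < 1 := by unfold th; norm_num
lemma thi_ge : 1 ≤ th⁻¹ := by unfold th; norm_num
lemma thi_pow_ge (m : ℕ) : 1 ≤ (th⁻¹) ^ m := one_le_pow₀ thi_ge
lemma thi_pow_pos (m : ℕ) : 0 < (th⁻¹) ^ m := lt_of_lt_of_le one_pos (thi_pow_ge m)

variable {E : Type*} [NormedAddCommGroup E] [InnerProductSpace ℝ E] [FiniteDimensional ℝ E]

section lin

variable (V : Flag E)

lemma Q_eq (j : ℕ) : V.Q j = Mom764.Q V.M j := rfl
lemma H_eq (i : ℕ) : V.H i = Mom764.H th V.M V.n i := rfl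
lemma Hi_eq (i : ℕ) : V.Hi i = Mom764.Hi th V.M V.n i := rfl

lemma H_mem (i : ℕ) (x : E) : V.H i x ∈ V.M i := Mom764.H_mem V.anti _ _ _ _

lemma M_bot {i : ℕ} (h : V.n ≤ i) {x : E} (hx : x ∈ V.M i) : x = 0 := by
  rw [V.bot i h] at hx
  exact (Submodule.mem_bot ℝ).1 hx

/-- linear map with `‖B x‖² = N i x` -/
noncomputable def BN (i : ℕ) : E →L[ℝ] E :=
  ∑ j ∈ Finset.Ico i V.n, Real.sqrt ((th⁻¹) ^ (j - i)) • V.Q j

lemma norm_BN_sq (i : ℕ) (x : E) : ‖BN V i x‖ ^ 2 = V.N i x := by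
  have h : BN V i x = ∑ j ∈ Finset.Ico i V.n, Real.sqrt ((th⁻¹) ^ (j - i)) • Mom764.Q V.M j x := by
    simp [BN, Q_eq]
  rw [h, Mom764.norm_sum_Q_sq V.anti]
  unfold Flag.N
  refine Finset.sum_congr rfl fun j _ => ?_
  rw [Real.sq_sqrt (thi_pow_pos _).le, Q_eq]

lemma N_nonneg (i : ℕ) (x : E) : 0 ≤ V.N i x := by
  rw [← norm_BN_sq]; positivity

lemma N_continuous (i : ℕ) : Continuous (V.N i) := by
  have : V.N i = fun x => ‖BN V i x‖ ^ 2 := by funext x; exact (norm_BN_sq V i x).symm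
  rw [this]
  fun_prop

lemma N_neg (i : ℕ) (x : E) : V.N i (-x) = V.N i x := by
  rw [← norm_BN_sq, ← norm_BN_sq, map_neg, norm_neg]

lemma N_zero (i : ℕ) : V.N i 0 = 0 := by
  rw [← norm_BN_sq, map_zero]; simp

lemma rr_nonneg (i : ℕ) : 0 ≤ V.rr i :=
  Finset.sum_nonneg fun _ _ => mul_nonneg (pow_nonneg th_pos.le _) (Nat.cast_nonneg _)

lemma rad_nonneg (rho : ℝ) (i : ℕ) : 0 ≤ rho ^ 2 * V.rr i := mul_nonneg (sq_nonneg _) (rr_nonneg V i)

lemma sub_set_eq (rho : ℝ) (i : ℕ) :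
    {x | V.N i x ≤ rho ^ 2 * V.rr i} = {x | ‖BN V i x‖ ≤ Real.sqrt (rho ^ 2 * V.rr i)} := by
  ext x
  simp only [mem_ofPred_eq]
  rw [← norm_BN_sq, Real.le_sqrt (norm_nonneg _) (rad_nonneg V rho i)]

lemma sub_closed (rho : ℝ) (i : ℕ) : IsClosed {x | V.N i x ≤ rho ^ 2 * V.rr i} :=
  isClosed_le (N_continuous V i) continuous_const

lemma sub_convex (rho : ℝ) (i : ℕ) : Convex ℝ {x | V.N i x ≤ rho ^ 2 * V.rr i} := by
  rw [sub_set_eq]
  have h := (convexOn_norm (convex_univ (𝕜 := ℝ) (E := E))).comp_linearMap (BN V i : E →ₗ[ℝ] E)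
  have h2 := h.convex_le (Real.sqrt (rho ^ 2 * V.rr i))
  simpa using h2

lemma cap_eq (rho : ℝ) (i : ℕ) :
    V.cap rho i = (V.M i : Set E) ∩ {x | V.N i x ≤ rho ^ 2 * V.rr i} := rfl

lemma cap_closed (rho : ℝ) (i : ℕ) : IsClosed (V.cap rho i) := by
  rw [cap_eq]
  exact (V.M i).closed_of_finiteDimensional.inter (sub_closed V rho i)

lemma cap_convex (rho : ℝ) (i : ℕ) : Convex ℝ (V.cap rho i) := by
  rw [cap_eq]
  exact (V.M i).convex.inter (sub_convex V rho i)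

lemma cap_symm (rho : ℝ) (i : ℕ) : ∀ x ∈ V.cap rho i, -x ∈ V.cap rho i := by
  intro x hx
  refine ⟨(V.M i).neg_mem hx.1, ?_⟩
  rw [N_neg]; exact hx.2

lemma norm_sq_le_N {i : ℕ} {x : E} (hx : x ∈ V.M i) : ‖x‖ ^ 2 ≤ V.N i x := by
  rcases le_or_gt i V.n with h | h
  · have h1 := Mom764.sum_norm_Q_sq V.anti h x
    rw [Submodule.starProjection_eq_self_iff.2 hx] at h1
    have h2 : (V.M V.n).starProjection x = 0 :=
      M_bot V le_rfl (Submodule.starProjection_apply_mem _ x)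
    rw [h2, norm_zero] at h1
    have h3 : ‖x‖ ^ 2 = ∑ j ∈ Finset.Ico i V.n, ‖Mom764.Q V.M j x‖ ^ 2 := by
      rw [h1]; ring
    rw [h3]
    unfold Flag.N
    refine Finset.sum_le_sum fun j _ => ?_
    rw [Q_eq]
    nlinarith [thi_pow_ge (j - i), sq_nonneg ‖Mom764.Q V.M j x‖]
  · rw [M_bot V h.le hx]
    simp [N_zero]

lemma cap_bounded (rho : ℝ) (i : ℕ) : Bornology.IsBounded (V.cap rho i) := by
  refine (Metric.isBounded_closedBall (x := (0 : E)) (r := Real.sqrt (rho ^ 2 * V.rr i))).subset ?_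
  intro x hx
  rw [mem_closedBall_zero_iff]
  exact Real.le_sqrt_of_sq_le ((norm_sq_le_N V hx.1).trans hx.2)

lemma zero_mem_cap (rho : ℝ) (i : ℕ) : (0 : E) ∈ V.cap rho i :=
  ⟨(V.M i).zero_mem, by rw [N_zero]; exact rad_nonneg V rho i⟩

end lin

section meas

variable [MeasurableSpace E] [BorelSpace E] (V : Flag E)

/-- `E_{g_i} N_i = rr i` -/
lemma integral_N (i : ℕ) : ∫ x, ‖BN V i x‖ ^ 2 ∂(gau (V.H i)) = V.rr i := by
  rw [Mom764.integral_gau _ (by fun_prop)]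
  have h : (fun g : E => ‖BN V i (V.H i g)‖ ^ 2) = fun g => ∑ j ∈ Finset.Ico i V.n,
      (th⁻¹) ^ (j - i) * ‖Mom764.Q V.M j (Mom764.H th V.M V.n i g)‖ ^ 2 := by
    funext g
    rw [norm_BN_sq]; rfl
  rw [h, integral_finsetSum _ fun j _ => ?_]
  · unfold Flag.rr
    refine Finset.sum_congr rfl fun j hj => ?_
    rw [Finset.mem_Ico] at hj
    rw [integral_const_mul, Mom764.integral_norm_Q_sq V.anti th hj.1 hj.2]
    have e : ((Module.finrank ℝ (V.M j) : ℝ) - Module.finrank ℝ (V.M (j + 1))) = (V.k j : ℝ) := by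
      unfold Flag.k
      rw [Nat.cast_sub (Submodule.finrank_mono (V.anti (Nat.le_succ j)))]
    rw [e, two_mul, pow_add, inv_pow]
    have : th ^ (j - i) ≠ 0 := (pow_pos th_pos _).ne'
    field_simp
  · exact (Mom764.integrable_norm_sq ((Mom764.Q V.M j).comp (Mom764.H th V.M V.n i))).const_mul _

/-- the level Gaussian lives on `M i` -/
lemma gau_inter_M (i : ℕ) {K : Set E} (hK : MeasurableSet K) :
    (gau (V.H i)).real (K ∩ V.M i) = (gau (V.H i)).real K := by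
  rw [gau_real_apply _ hK,
    gau_real_apply _ (hK.inter (V.M i).closed_of_finiteDimensional.measurableSet)]
  congr 1
  ext g
  simp only [mem_preimage, mem_inter_iff, and_iff_left_iff_imp]
  intro _
  exact H_mem V i g

/-- one Markov cut -/
lemma cut_N (i : ℕ) {rho : ℝ} (hrho : 0 < rho) {K : Set E} (hK : MeasurableSet K)
    (cK : Convex ℝ K) (sK : ∀ x ∈ K, -x ∈ K) :
    (1 - 1 / rho ^ 2) * (gau (V.H i)).real K ≤ (gau (V.H i)).real (K ∩ V.cap rho i) := by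
  have e1 : K ∩ V.cap rho i = (K ∩ {x | V.N i x ≤ rho ^ 2 * V.rr i}) ∩ V.M i := by
    ext x; simp only [cap_eq, mem_inter_iff]; tauto
  rw [e1, gau_inter_M V i (hK.inter (sub_closed V rho i).measurableSet)]
  rcases (rr_nonneg V i).eq_or_lt with h0 | h0
  · -- `rr = 0`
    have hz : ∫ x, ‖BN V i x‖ ^ 2 ∂(gau (V.H i)) = 0 := by rw [integral_N, ← h0]
    have hint : Integrable (fun x : E => ‖BN V i x‖ ^ 2) (gau (V.H i)) := by
      rw [Mom764.integrable_gau_iff _ (by fun_prop)]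
      exact Mom764.integrable_norm_sq ((BN V i).comp (V.H i))
    have hae := (integral_eq_zero_iff_of_nonneg (fun x => by positivity) hint).1 hz
    have e2 : (gau (V.H i)).real (K ∩ {x | V.N i x ≤ rho ^ 2 * V.rr i}) = (gau (V.H i)).real K := by
      apply measureReal_congr
      filter_upwards [hae] with x hx
      apply propext
      constructor
      · intro h; exact h.1
      · intro h
        refine ⟨h, ?_⟩
        show V.N i x ≤ _
        rw [← norm_BN_sq]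
        have : ‖BN V i x‖ ^ 2 = 0 := hx
        rw [this]
        exact rad_nonneg V rho i
    rw [e2]
    have : 0 ≤ 1 / rho ^ 2 * (gau (V.H i)).real K := by positivity
    linarith
  · have hr : 0 < Real.sqrt (rho ^ 2 * V.rr i) := Real.sqrt_pos.2 (by positivity)
    have h := Dom640.gau_cut (V.H i) hK cK sK (BN V i) hr
    rw [integral_N, Real.sq_sqrt (rad_nonneg V rho i)] at h
    rw [sub_set_eq]
    have e3 : V.rr i / (rho ^ 2 * V.rr i) = 1 / rho ^ 2 := by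
      field_simp
    rwa [e3] at h

lemma gau_cap_ge (i : ℕ) {rho : ℝ} (hrho : 0 < rho) :
    1 - 1 / rho ^ 2 ≤ (gau (V.H i)).real (V.cap rho i) := by
  have h := cut_N V i hrho MeasurableSet.univ convex_univ (fun x _ => mem_univ _)
  simpa using h

lemma gau_cap_pos (i : ℕ) {rho : ℝ} (hrho : 1 < rho) : 0 < (gau (V.H i)).real (V.cap rho i) := by
  refine lt_of_lt_of_le ?_ (gau_cap_ge V i (by linarith))
  rw [sub_pos, div_lt_one (by positivity)]
  nlinarith

end meas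

/-! ### support functions -/

section supp

variable [MeasurableSpace E] [BorelSpace E]

lemma hs_bdd {K : Set E} (hb : Bornology.IsBounded K) (z : E) :
    BddAbove ((fun x : E => ⟪x, z⟫) '' K) := by
  obtain ⟨R, hR⟩ := hb.exists_norm_le
  refine ⟨R * ‖z‖, ?_⟩
  rintro _ ⟨x, hx, rfl⟩
  exact (real_inner_le_norm x z).trans (mul_le_mul_of_nonneg_right (hR x hx) (norm_nonneg _))

lemma le_hs {K : Set E} (hb : Bornology.IsBounded K) (z : E) {x : E} (hx : x ∈ K) :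
    ⟪x, z⟫ ≤ hs K z := le_csSup (hs_bdd hb z) ⟨x, hx, rfl⟩

lemma hs_le {K : Set E} (hne : K.Nonempty) (z : E) {c : ℝ} (h : ∀ x ∈ K, ⟪x, z⟫ ≤ c) :
    hs K z ≤ c := by
  refine csSup_le (hne.image _) ?_
  rintro _ ⟨x, hx, rfl⟩
  exact h x hx

lemma hs_nonneg {K : Set E} (hb : Bornology.IsBounded K) (h0 : (0 : E) ∈ K) (z : E) :
    0 ≤ hs K z := by
  have := le_hs hb z h0
  rwa [inner_zero_left] at this

lemma hs_mono {K L : Set E} (hL : Bornology.IsBounded L) (hne : K.Nonempty) (h : K ⊆ L) (z : E) :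
    hs K z ≤ hs L z := hs_le hne z fun _ hx => le_hs hL z (h hx)

lemma Eh_nonneg {K : Set E} (hb : Bornology.IsBounded K) (h0 : (0 : E) ∈ K) (μ : Multiset E) :
    0 ≤ Eh K μ := by
  unfold Eh
  refine Multiset.sum_nonneg fun a ha => ?_
  rw [Multiset.mem_map] at ha
  obtain ⟨z, _, rfl⟩ := ha
  exact hs_nonneg hb h0 z

lemma Eh_le {K L : Set E} {μ : Multiset E} (h : ∀ z, hs K z ≤ hs L z) : Eh K μ ≤ Eh L μ :=
  Multiset.sum_map_le_sum_map _ _ fun z _ => h z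

/-- the half sum -/
def half (K L : Set E) : Set E := (fun q : E × E => (1 / 2 : ℝ) • q.1 + (1 / 2 : ℝ) • q.2) '' (K ×ˢ L)

lemma mem_half {K L : Set E} {x y : E} (hx : x ∈ K) (hy : y ∈ L) :
    (1 / 2 : ℝ) • x + (1 / 2 : ℝ) • y ∈ half K L := ⟨(x, y), ⟨hx, hy⟩, rfl⟩

lemma half_compact {K L : Set E} (hK : IsCompact K) (hL : IsCompact L) : IsCompact (half K L) :=
  (hK.prod hL).image (by fun_prop)

lemma half_convex {K L : Set E} (hK : Convex ℝ K) (hL : Convex ℝ L) : Convex ℝ (half K L) := by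
  rintro _ ⟨⟨x, y⟩, ⟨hx, hy⟩, rfl⟩ _ ⟨⟨x', y'⟩, ⟨hx', hy'⟩, rfl⟩ a b ha hb hab
  refine ⟨(a • x + b • x', a • y + b • y'), ⟨hK hx hx' ha hb hab, hL hy hy' ha hb hab⟩, ?_⟩
  simp only [smul_add, smul_smul]
  rw [mul_comm (1/2) a, mul_comm (1/2) b]
  abel

lemma half_symm {K L : Set E} (hK : ∀ x ∈ K, -x ∈ K) (hL : ∀ x ∈ L, -x ∈ L) :
    ∀ x ∈ half K L, -x ∈ half K L := by
  rintro _ ⟨⟨x, y⟩, ⟨hx, hy⟩, rfl⟩
  refine ⟨(-x, -y), ⟨hK x hx, hL y hy⟩, ?_⟩
  simp only [smul_neg, neg_add]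

lemma half_sub {K L C : Set E} (hC : Convex ℝ C) (hK : K ⊆ C) (hL : L ⊆ C) : half K L ⊆ C := by
  rintro _ ⟨⟨x, y⟩, ⟨hx, hy⟩, rfl⟩
  exact hC (hK hx) (hL hy) (by norm_num) (by norm_num) (by norm_num)

lemma hs_half {K L : Set E} (bK : Bornology.IsBounded K) (bL : Bornology.IsBounded L)
    (nK : K.Nonempty) (nL : L.Nonempty) (z : E) :
    hs (half K L) z ≤ 1 / 2 * hs K z + 1 / 2 * hs L z := by
  refine hs_le ?_ z ?_
  · obtain ⟨x, hx⟩ := nK
    obtain ⟨y, hy⟩ := nL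
    exact ⟨_, mem_half hx hy⟩
  · rintro _ ⟨⟨x, y⟩, ⟨hx, hy⟩, rfl⟩
    simp only [inner_add_left, real_inner_smul_left]
    have h1 := le_hs bK z hx
    have h2 := le_hs bL z hy
    linarith

lemma Eh_half {K L : Set E} (bK : Bornology.IsBounded K) (bL : Bornology.IsBounded L)
    (nK : K.Nonempty) (nL : L.Nonempty) (μ : Multiset E) :
    Eh (half K L) μ ≤ 1 / 2 * Eh K μ + 1 / 2 * Eh L μ := by
  unfold Eh
  rw [← Multiset.sum_map_mul_left, ← Multiset.sum_map_mul_left, ← Multiset.sum_map_add]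
  exact Multiset.sum_map_le_sum_map _ _ fun z _ => hs_half bK bL nK nL z

end supp

/-! ### admissible bodies and values -/

section adm

variable [MeasurableSpace E] [BorelSpace E] {p : Par} {V : Flag E} {i : ℕ}

lemma Par.Ok.lam_pos (hp : p.Ok) (i : ℕ) : 0 < p.lam i := by
  unfold Par.lam
  have := hp.A_ge
  have := hp.tau_pos
  positivity

lemma Adm.bdd {K : Set E} (h : Adm p V i K) : Bornology.IsBounded K :=
  (cap_bounded V p.rho i).subset h.2.2.2.1

lemma Adm.nonempty {K : Set E} (h : Adm p V i K) : K.Nonempty := by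
  rw [nonempty_iff_ne_empty]
  rintro rfl
  have := h.2.2.2.2
  simp at this

lemma zero_mem_of {K : Set E} (cK : Convex ℝ K) (sK : ∀ x ∈ K, -x ∈ K) (h : K.Nonempty) :
    (0 : E) ∈ K := by
  obtain ⟨x, hx⟩ := h
  have := cK hx (sK x hx) (a := 1/2) (b := 1/2) (by norm_num) (by norm_num) (by norm_num)
  simpa using this

lemma Adm.zero_mem {K : Set E} (h : Adm p V i K) : (0 : E) ∈ K :=
  zero_mem_of h.2.1 h.2.2.1 (Adm.nonempty h)

lemma Adm.compact {K : Set E} (h : Adm p V i K) : IsCompact K :=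
  Metric.isCompact_of_isClosed_isBounded h.1 (Adm.bdd h)

lemma adm_cap (hp : p.Ok) (V : Flag E) (i : ℕ) : Adm p V i (V.cap p.rho i) :=
  ⟨cap_closed V _ i, cap_convex V _ i, cap_symm V _ i, subset_rfl,
    gau_cap_pos V i (by have := hp.rho_ge; linarith)⟩

lemma val_nonneg (hp : p.Ok) (μ : Multiset E) {K : Set E} (h : Adm p V i K) :
    0 ≤ val p V i μ K := by
  unfold val
  have h1 := Eh_nonneg (Adm.bdd h) (Adm.zero_mem h) μ
  have h2 : Real.log ((gau (V.H i)).real K) ≤ 0 :=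
    Real.log_nonpos measureReal_nonneg measureReal_le_one
  nlinarith [Par.Ok.lam_pos hp i]

lemma bddBelow_val (hp : p.Ok) (V : Flag E) (i : ℕ) (μ : Multiset E) :
    BddBelow (val p V i μ '' {K | Adm p V i K}) := by
  refine ⟨0, ?_⟩
  rintro _ ⟨K, hK, rfl⟩
  exact val_nonneg hp μ hK

lemma D_le (hp : p.Ok) (μ : Multiset E) {K : Set E} (h : Adm p V i K) :
    D p V i μ ≤ val p V i μ K := csInf_le (bddBelow_val hp V i μ) ⟨K, h, rfl⟩

lemma le_D (hp : p.Ok) (V : Flag E) (i : ℕ) (μ : Multiset E) {c : ℝ}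
    (h : ∀ K, Adm p V i K → c ≤ val p V i μ K) : c ≤ D p V i μ := by
  refine le_csInf ⟨_, ⟨_, adm_cap hp V i, rfl⟩⟩ ?_
  rintro _ ⟨K, hK, rfl⟩
  exact h K hK

lemma D_nonneg (hp : p.Ok) (V : Flag E) (i : ℕ) (μ : Multiset E) : 0 ≤ D p V i μ :=
  le_D hp V i μ fun _ hK => val_nonneg hp μ hK

lemma exists_nearOpt (hp : p.Ok) (V : Flag E) (i : ℕ) (μ : Multiset E) {e : ℝ} (he : 0 < e) :
    ∃ K, NearOpt p V i μ K e := by
  have h1 : D p V i μ < D p V i μ + e := by linarith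
  have hne : (val p V i μ '' {K | Adm p V i K}).Nonempty := ⟨_, ⟨_, adm_cap hp V i, rfl⟩⟩
  obtain ⟨_, ⟨K, hK, rfl⟩, hlt⟩ := exists_lt_of_csInf_lt hne h1
  exact ⟨K, hK, hlt.le⟩

end adm

end Crest.Agent.R239.FB76
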