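import Mathlib
import Crest.Agent.R239.FB2_456
import Crest.Agent.R239.Gr2_655

/-!
R239, helper456: GROWTH at a level with an own-block direction (glue over Gr2_655).
-/

set_option autoImplicit false
set_option linter.unusedSectionVars false
set_option linter.unusedVariables false

open Finset Module MeasureTheory ProbabilityTheory
open scoped RealInnerProductSpace

namespace Crest.Agent.R239.FB2

open Crest.Agent.R239.FA456 Crest.Agent.R239.Soft450
open Crest.Agent.R239.FB456 (th th_pos th_nonneg th_lt_one th_le_one ci ci_pos ci_le_one H S g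
  g_nonneg g_le_one g_mono hs)
open Crest.Agent.R239.FC456 (g_univ pre_closed pre_convex pre_symm neglog_one_sub)
open Crest.Agent.R239.L0 (mrg spl)
open Crest.Agent.R239.Gr655 (Wd Er mem_Wd isClosed_Wd Wd_concave loss_level)

variable {E : Type*} [NormedAddCommGroup E] [InnerProductSpace ℝ E] [FiniteDimensional ℝ E]
  [MeasurableSpace E] [BorelSpace E]

variable {M : ℕ → Submodule ℝ E} {N I : ℕ} {ρ A : ℝ} {v : E} {K : Set E}

lemma P_own_le (h : IsFlag M N) (hv : v ∈ M I) {j : ℕ} (hj : j ≤ I) : P M j v = v :=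
  Submodule.starProjection_eq_self_iff.2 (h.1 hj hv)

lemma P_own_gt (h : IsFlag M N) (hv' : v ∈ (M (I + 1))ᗮ) {j : ℕ} (hj : I < j) : P M j v = 0 := by
  have h1 : P M (I + 1) v = 0 := (Submodule.starProjection_apply_eq_zero_iff _).2 hv'
  rw [← P_P_left h.1 (show I + 1 ≤ j by omega), h1, map_zero]

lemma Op_own (h : IsFlag M N) (hI : I < N) (hv : v ∈ M I) (hv' : v ∈ (M (I + 1))ᗮ) (c : ℕ → ℝ) :
    Op M N c v = c (I + 1) • v := by
  rw [Op_apply]
  have : ∑ j ∈ range N, (c (j + 1) - c j) • P M j v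
      = ∑ j ∈ range (I + 1), (c (j + 1) - c j) • v := by
    rw [← sum_subset (range_subset_range.2 (show I + 1 ≤ N by omega))]
    · refine sum_congr rfl fun j hj => ?_
      rw [mem_range] at hj
      rw [P_own_le h hv (by omega)]
    · intro j _ hj
      rw [mem_range, not_lt] at hj
      rw [P_own_gt h hv' (by omega), smul_zero]
  rw [this, ← sum_smul, sum_range_sub, ← add_smul]
  congr 1
  ring

lemma H_own (h : IsFlag M N) (hI : I < N) (hv : v ∈ M I) (hv' : v ∈ (M (I + 1))ᗮ) :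
    H M N I v = v := by
  rw [H, Op_own h hI hv hv']
  simp [ci]

lemma BN_own (h : IsFlag M N) (hI : I < N) (hv : v ∈ M I) (hv' : v ∈ (M (I + 1))ᗮ) :
    BN M N I v = v := by
  rw [BN, Op_own h hI hv hv']
  simp [cN]

lemma one_le_bdim (h : IsFlag M N) (hv : v ∈ M I) (hv' : v ∈ (M (I + 1))ᗮ) (h0 : v ≠ 0) :
    1 ≤ bdim M I := by
  have hlt : M (I + 1) < M I := by
    refine lt_of_le_of_ne (h.1 (Nat.le_succ I)) fun he => h0 ?_
    rw [← he] at hv
    exact inner_self_eq_zero.1 (hv' v hv)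
  have := Submodule.finrank_lt_finrank_of_lt hlt
  unfold bdim
  omega

lemma one_le_rr (h : IsFlag M N) (hI : I < N) (hv : v ∈ M I) (hv' : v ∈ (M (I + 1))ᗮ)
    (h0 : v ≠ 0) : 1 ≤ rr M N I := by
  have h1 := one_le_bdim h hv hv' h0
  have h2 : (1 : ℝ) ≤ (bdim M I : ℝ) := by exact_mod_cast h1
  calc (1 : ℝ) ≤ th ^ (I - I) * (bdim M I : ℝ) := by simpa using h2
    _ ≤ rr M N I := single_le_sum (f := fun j => th ^ (j - I) * (bdim M j : ℝ))
        (fun j _ => mul_nonneg (pow_nonneg th_nonneg _) (Nat.cast_nonneg _))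
        (mem_Ico.2 ⟨le_rfl, hI⟩)

lemma Wd_symm (hs : ∀ x ∈ K, -x ∈ K) (n : E) (t h : ℝ) : ∀ x ∈ Wd K n t h, -x ∈ Wd K n t h := by
  intro x hx
  rw [mem_Wd] at hx ⊢
  obtain ⟨s, h1, h2, h3⟩ := hx
  refine ⟨-s, by rwa [abs_neg], ?_, ?_⟩
  · have := hs _ h3
    convert this using 1
    module
  · have := hs _ h2
    convert this using 1
    module

lemma Wd_convex (hK : Convex ℝ K) (n : E) (t h : ℝ) : Convex ℝ (Wd K n t h) := by
  intro x hx y hy a b ha hb hab
  have := Wd_concave hK n ha hb hab hx hy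
  have e : a * t + b * t = t := by rw [← add_mul, hab, one_mul]
  rwa [e] at this

lemma Wd_opening_subset (hK : Convex ℝ K) {n : E} {t : ℝ} (ht : 0 < t) : Wd K n t 0 ⊆ K := by
  intro x hx
  rw [mem_Wd] at hx
  obtain ⟨s, h1, h2, h3⟩ := hx
  rw [add_zero, abs_le] at h1
  have := hK h2 h3 (a := (t - s) / (2 * t)) (b := (t + s) / (2 * t))
    (div_nonneg (by linarith) (by linarith)) (div_nonneg (by linarith) (by linarith))
    (by field_simp; ring)
  have e : ((t - s) / (2 * t)) • (x + s • n + t • n) + ((t + s) / (2 * t)) • (x + s • n - t • n)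
      = x := by
    have e1 : ((t - s) / (2 * t)) • (x + s • n + t • n) + ((t + s) / (2 * t)) • (x + s • n - t • n)
        = ((t - s) / (2 * t) + (t + s) / (2 * t)) • x
          + (((t - s) / (2 * t)) * (s + t) + ((t + s) / (2 * t)) * (s - t)) • n := by module
    have e2 : (t - s) / (2 * t) + (t + s) / (2 * t) = 1 := by field_simp; ring
    have e3 : ((t - s) / (2 * t)) * (s + t) + ((t + s) / (2 * t)) * (s - t) = 0 := by
      field_simp; ring
    rw [e1, e2, e3, one_smul, zero_smul, add_zero]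
  rwa [e] at this

/-- **GROWTH**: absolute constants `T = 3200`, `C1 = 32000`, `η ≤ 1/32000`. -/
theorem growth (hρ : 4 ≤ ρ) (hA : 1 ≤ A) (h : IsFlag M N) (hI : I < N) (hv1 : ‖v‖ = 1)
    (hv : v ∈ M I) (hv' : v ∈ (M (I + 1))ᗮ) (s : Multiset (E × E)) {η : ℝ} (hη : 0 < η)
    (hη1 : η ≤ 1 / 32000) (hS : 2 * L0.S (mrg s) v < L0.S (spl s) v)
    (hl : 32000 * η * L0.S (spl s) v = A ^ I) :
    D ρ A M N I (mrg s) + 2 / 5 * (A ^ I / 32000) ≤ D ρ A M N I (spl s) := by
  have hρ2 : 2 ≤ ρ := by linarith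
  have hA0 : 0 ≤ A := by linarith
  have hlam : 0 < A ^ I := pow_pos (by linarith) I
  have hv0 : v ≠ 0 := by
    intro h0; rw [h0, norm_zero] at hv1; norm_num at hv1
  have hPv : P M I v = v := P_own_le h hv le_rfl
  refine le_of_forall_pos_le_add fun ε hε => ?_
  -- slack
  obtain ⟨δ, hδ0, hδε, hδs⟩ : ∃ δ : ℝ, 0 < δ ∧ δ ≤ ε ∧ δ ≤ A ^ I / 10000000 :=
    ⟨min ε (A ^ I / 10000000), lt_min hε (by positivity), min_le_left _ _, min_le_right _ _⟩
  obtain ⟨K, hK, hKv⟩ := exists_near (adm_exists (i := I) hρ2 h) (A := A) (spl s) hδ0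
  set s' := L0.S (spl s) v with hs'
  set s0 := L0.S (mrg s) v with hs0
  have hs0n : 0 ≤ s0 := L0.S_nonneg _ _
  have hTη : (0 : ℝ) < 3200 * η := by positivity
  -- the dilation
  set W := Wd K v 0 (3200 * η) with hW
  have hWc : IsClosed W := isClosed_Wd hK.closed v 0 _
  have hWv : Convex ℝ W := Wd_convex hK.conv v 0 _
  have hWs : ∀ x ∈ W, -x ∈ W := Wd_symm hK.symm v 0 _
  have hKW : K ⊆ W := by
    intro x hx
    rw [hW, mem_Wd]
    exact ⟨0, by rw [abs_zero]; positivity, by simpa using hx, by simpa using hx⟩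
  have hgW : 0 < g M N I W := hK.pos.trans_le (g_mono hKW)
  have hadmT : Adm ρ M N I (W ∩ cap ρ M N I) := adm_cut hρ2 h hWc hWv hWs hgW
  have hhs : ∀ z, hs M I (W ∩ cap ρ M N I) z ≤ hs M I K z + 3200 * η * |⟪v, z⟫| := by
    intro z
    refine hs_le hadmT.nonempty fun x hx => ?_
    have hxW := hx.1
    rw [hW, mem_Wd] at hxW
    obtain ⟨r, hr, h1, -⟩ := hxW
    rw [zero_smul, add_zero] at h1
    rw [zero_add] at hr
    have h2 := hK.le_hs h h1 z
    rw [map_add, map_smul, hPv, inner_add_right, inner_smul_right, real_inner_comm v z] at h2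
    have h3 : -(3200 * η * |⟪v, z⟫|) ≤ r * ⟪v, z⟫ := by
      have h4 : |r * ⟪v, z⟫| ≤ 3200 * η * |⟪v, z⟫| := by
        rw [abs_mul]; gcongr
      linarith [neg_abs_le (r * ⟪v, z⟫)]
    linarith
  have hhaz : Real.log (g M N I (W ∩ cap ρ M N I)) ≤ Real.log (g M N I K) + 1 / 10 + 1 / 10000000 := by
    have h1 := D_le hadmT h hA0 (spl s)
    unfold val at h1 hKv
    have h2 : ((spl s).map (hs M I (W ∩ cap ρ M N I))).sum
        ≤ ((spl s).map (hs M I K)).sum + 3200 * η * s' := by
      refine (sum_map_le _ fun z _ => hhs z).trans ?_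
      rw [Multiset.sum_map_add, Multiset.sum_map_mul_left]
      rfl
    have h3 : A ^ I * Real.log (g M N I (W ∩ cap ρ M N I))
        ≤ A ^ I * (Real.log (g M N I K) + 1 / 10 + 1 / 10000000) := by
      have h4 : 3200 * η * s' = A ^ I * (1 / 10) := by
        rw [← hl]; ring
      have h5 : A ^ I * (Real.log (g M N I K) + 1 / 10 + 1 / 10000000)
          = A ^ I * Real.log (g M N I K) + A ^ I * (1 / 10) + A ^ I / 10000000 := by ring
      rw [h5]
      linarith
    exact le_of_mul_le_mul_left h3 hlam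
  -- the hazard inequality
  have ha : g M N I (W ∩ cap ρ M N I) ≤ 1.106 * g M N I K := by
    have h1 := Real.exp_le_exp.2 hhaz
    rw [Real.exp_log hadmT.pos] at h1
    refine h1.trans ?_
    rw [show Real.log (g M N I K) + 1 / 10 + 1 / 10000000
      = (1 / 10 + 1 / 10000000) + Real.log (g M N I K) by ring, Real.exp_add,
      Real.exp_log hK.pos]
    refine mul_le_mul_of_nonneg_right ?_ hK.pos.le
    have h2 := Real.exp_bound' (x := 1 / 10 + 1 / 10000000) (by norm_num) (by norm_num) (n := 3)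
      (by norm_num)
    refine h2.trans ?_
    norm_num [Finset.sum_range_succ, Nat.factorial]
  -- the loss
  have hrr := one_le_rr h hI hv hv' hv0
  have hrr0 : 0 < rr M N I := by linarith
  have hcr : 0 < cr ρ M N I := mul_pos (by linarith) (Real.sqrt_pos.2 hrr0)
  have hcr1 : ρ ≤ cr ρ M N I := by
    unfold cr
    have : 1 ≤ √(rr M N I) := Real.one_le_sqrt.2 hrr
    nlinarith
  have hloss : (stdGaussian E).real (H M N I ⁻¹' (K \ Wd K v η 0))
      ≤ 40 * (1 / 5) / 3200 ^ 2 * (stdGaussian E).real (H M N I ⁻¹' K) := by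
    refine loss_level (G := E) (s := ({()} : Finset Unit)) (H M N I) hK.conv hK.closed
      (w := v) (H_own h hI hv hv') hv0 (a := 1.106) (ε := 1 / 20) (k := 1 / 5) hη (by norm_num)
      (by rw [hv1]; linarith) (fun _ => BN M N I ∘L H M N I) (fun _ => cr ρ M N I)
      (fun _ => 4 / ρ ^ 2) (fun _ _ => hcr) (fun _ _ x hx => ?_) (fun _ _ => by positivity)
      (fun _ _ => ?_) (fun _ _ => ?_) ?_ (by norm_num) ?_ (by norm_num) (by norm_num) (by norm_num)
    · exact hK.cap _ hx
    · rw [div_le_div_iff₀ (by positivity) (by norm_num)]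
      nlinarith
    · -- Markov
      have h1 := Dom640.cut (K := H M N I ⁻¹' W) (pre_closed hWc).measurableSet (pre_convex hWv)
        (pre_symm hWs) ((BN M N I) ∘L (H M N I)) (r := cr ρ M N I / 2) (by linarith)
      have hint : ∫ x, ‖((BN M N I) ∘L (H M N I)) x‖ ^ 2 ∂(stdGaussian E) = rr M N I := by
        simpa using integral_BN (i := I) h
      rw [hint] at h1
      have e1 : rr M N I / (cr ρ M N I / 2) ^ 2 = 4 / ρ ^ 2 := by
        rw [div_pow, cr_sq]
        field_simp
        norm_num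
      rw [e1] at h1
      have hmeas : MeasurableSet (H M N I ⁻¹' W
          ∩ {x | ‖((BN M N I) ∘L (H M N I)) x‖ ≤ cr ρ M N I / 2}) :=
        ((pre_closed hWc).inter (isClosed_le (by fun_prop) continuous_const)).measurableSet
      have e2 : H M N I ⁻¹' W ∩ {x | cr ρ M N I / 2 < ‖((BN M N I) ∘L (H M N I)) x‖}
          = (H M N I ⁻¹' W) \ (H M N I ⁻¹' W
            ∩ {x | ‖((BN M N I) ∘L (H M N I)) x‖ ≤ cr ρ M N I / 2}) := by
        ext x
        simp only [Set.mem_inter_iff, Set.mem_sdiff, Set.mem_ofPred_eq, not_and, not_le]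
        constructor
        · rintro ⟨h1, h2⟩; exact ⟨h1, fun _ => h2⟩
        · rintro ⟨h1, h2⟩; exact ⟨h1, h2 h1⟩
      show (stdGaussian E).real (H M N I ⁻¹' W
        ∩ {x | cr ρ M N I / 2 < ‖((BN M N I) ∘L (H M N I)) x‖}) ≤ _
      rw [e2, measureReal_sdiff Set.inter_subset_left hmeas]
      have : (1 - 4 / ρ ^ 2) * (stdGaussian E).real (H M N I ⁻¹' W)
        ≤ (stdGaussian E).real (H M N I ⁻¹' W
            ∩ {x | ‖((BN M N I) ∘L (H M N I)) x‖ ≤ cr ρ M N I / 2}) := h1
      linarith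
    · rw [sum_singleton]
      have h1 : ‖((BN M N I) ∘L (H M N I)) v‖ = 1 := by
        rw [ContinuousLinearMap.comp_apply, H_own h hI hv hv', BN_own h hI hv hv', hv1]
      rw [h1, mul_one, div_le_iff₀ hcr]
      have h2 : 4 / ρ ^ 2 ≤ 1 / 4 := by
        rw [div_le_div_iff₀ (by positivity) (by norm_num)]; nlinarith
      have h3 : 3200 * η ≤ 1 / 10 := by linarith
      have h4 : 0 ≤ 4 / ρ ^ 2 := by positivity
      calc 4 * (3200 * η) * (4 / ρ ^ 2) ≤ 4 * (1 / 10) * (1 / 4) := by gcongr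
        _ ≤ 1 / 20 * cr ρ M N I := by linarith
    · refine le_trans (le_of_eq ?_) ha
      unfold g
      congr 1
      ext x
      simp [cap, hW]
  -- the opening
  set O := Wd K v η 0 with hO
  have hOK : O ⊆ K := Wd_opening_subset hK.conv hη
  have hOc : IsClosed O := isClosed_Wd hK.closed v η 0
  have hgO : (1 - 40 * (1 / 5) / 3200 ^ 2) * g M N I K ≤ g M N I O := by
    have e : H M N I ⁻¹' (K \ O) = (H M N I ⁻¹' K) \ (H M N I ⁻¹' O) := rfl
    rw [e, measureReal_sdiff (Set.preimage_mono hOK) (pre_closed hOc).measurableSet] at hloss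
    unfold g
    linarith
  have hOpos : 0 < g M N I O := lt_of_lt_of_le (mul_pos (by norm_num) hK.pos) hgO
  have hadmO : Adm ρ M N I O :=
    ⟨hOc, Wd_convex hK.conv v η 0, Wd_symm hK.symm v η 0, hOpos, fun x hx => hK.cap x (hOK hx)⟩
  have hlogO : - Real.log (g M N I O) ≤ - Real.log (g M N I K) + 2 * (40 * (1 / 5) / 3200 ^ 2) := by
    have h1 := Real.log_le_log (mul_pos (by norm_num) hK.pos) hgO
    rw [Real.log_mul (by norm_num) hK.pos.ne'] at h1
    have h2 := neglog_one_sub (x := 40 * (1 / 5) / 3200 ^ 2) (by norm_num) (by norm_num)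
    linarith
  have hhO : ∀ p q : E, hs M I O (p + q)
      ≤ hs M I K p + hs M I K q - η * (|⟪v, p⟫| + |⟪v, q⟫|) + η * |⟪v, p + q⟫| := by
    intro p q
    refine hs_le hadmO.nonempty fun x hx => ?_
    rw [hO, mem_Wd] at hx
    obtain ⟨r, hr, h1, h2⟩ := hx
    rw [add_zero] at hr
    have key : ∀ y : E, ⟪y, P M I x⟫ + r * ⟪v, y⟫ + η * |⟪v, y⟫| ≤ hs M I K y := by
      intro y
      rcases le_total 0 ⟪v, y⟫ with hy | hy
      · have h3 := hK.le_hs h h1 y
        rw [map_add, map_add, map_smul, map_smul, hPv, inner_add_right, inner_add_right,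
          inner_smul_right, inner_smul_right, real_inner_comm v y] at h3
        rw [abs_of_nonneg hy]; exact h3
      · have h3 := hK.le_hs h h2 y
        rw [map_sub, map_add, map_smul, map_smul, hPv, inner_sub_right, inner_add_right,
          inner_smul_right, inner_smul_right, real_inner_comm v y] at h3
        rw [abs_of_nonpos hy]; linarith
    have h3 := key p
    have h4 := key q
    have h5 : -(η * |⟪v, p + q⟫|) ≤ r * ⟪v, p + q⟫ := by
      have h6 : |r * ⟪v, p + q⟫| ≤ η * |⟪v, p + q⟫| := by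
        rw [abs_mul]; gcongr
      linarith [neg_abs_le (r * ⟪v, p + q⟫)]
    rw [inner_add_left]
    rw [inner_add_right] at h5 ⊢
    linarith
  have hsumO : ((mrg s).map (hs M I O)).sum ≤ ((spl s).map (hs M I K)).sum - η * s' + η * s0 := by
    have h1 : ((mrg s).map (hs M I O)).sum ≤ (s.map fun p : E × E => hs M I K p.1 + hs M I K p.2
        - η * (|⟪v, p.1⟫| + |⟪v, p.2⟫|) + η * |⟪v, p.1 + p.2⟫|).sum := by
      rw [mrg, Multiset.map_map]
      exact sum_map_le _ fun p _ => hhO p.1 p.2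
    refine h1.trans (le_of_eq ?_)
    rw [Multiset.sum_map_add, Multiset.sum_map_sub, Multiset.sum_map_add, Multiset.sum_map_mul_left,
      Multiset.sum_map_mul_left, Multiset.sum_map_add]
    simp only [hs', hs0, L0.S, mrg, spl, Multiset.map_map, Multiset.map_add, Multiset.sum_add,
      Function.comp_def]
  have hfin := D_le hadmO h hA0 (mrg s)
  unfold val at hfin hKv
  have h6 : A ^ I * (- Real.log (g M N I O))
      ≤ A ^ I * (- Real.log (g M N I K) + 2 * (40 * (1 / 5) / 3200 ^ 2)) :=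
    mul_le_mul_of_nonneg_left hlogO hlam.le
  have h7 : η * s' = A ^ I / 32000 := by rw [← hl]; ring
  have h8 : η * s0 ≤ A ^ I / 64000 := by
    have : η * s0 ≤ η * (s' / 2) := mul_le_mul_of_nonneg_left (by linarith) hη.le
    calc η * s0 ≤ η * (s' / 2) := this
      _ = (η * s') / 2 := by ring
      _ = A ^ I / 64000 := by rw [h7]; ring
  have h9 : A ^ I * (- Real.log (g M N I K) + 2 * (40 * (1 / 5) / 3200 ^ 2))
      = - (A ^ I * Real.log (g M N I K)) + A ^ I / 640000 := by ring
  rw [h9] at h6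
  have h10 : A ^ I * (- Real.log (g M N I O)) = - (A ^ I * Real.log (g M N I O)) := by ring
  rw [h10] at h6
  have h11 : 2 / 5 * (A ^ I / 32000) = A ^ I / 80000 := by ring
  rw [h11]
  nlinarith

end Crest.Agent.R239.FB2
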