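import Mathlib
import Crest.Agent.R239.FB2_456

/-!
R239, helper456: `J`, `U`: extension, boundedness, (U0), (U1), (U2), near-maximisers.
-/

set_option autoImplicit false
set_option linter.unusedSectionVars false
set_option linter.unusedVariables false

open Finset Module MeasureTheory ProbabilityTheory
open scoped RealInnerProductSpace

namespace Crest.Agent.R239.FB2

open Crest.Agent.R239.FA456 Crest.Agent.R239.Soft450
open Crest.Agent.R239.FB456 (th th_pos th_nonneg th_lt_one th_le_one ci ci_pos ci_le_one H S g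
  g_nonneg g_le_one g_mono hs)
open Crest.Agent.R239.FC456 (g_univ)
open Crest.Agent.R239.L0 (mrg spl)

variable {E : Type*} [NormedAddCommGroup E] [InnerProductSpace ℝ E] [FiniteDimensional ℝ E]
  [MeasurableSpace E] [BorelSpace E]

variable {M : ℕ → Submodule ℝ E} {N N' i : ℕ} {ρ A κ : ℝ}

lemma bdim_zero (h : IsFlag M N) {j : ℕ} (hj : N ≤ j) : bdim M j = 0 := by
  unfold bdim
  rw [h.bot_of_le hj, h.bot_of_le (by omega : N ≤ j + 1)]
  simp

lemma IsFlag.ext (h : IsFlag M N) (hN : N ≤ N') : IsFlag M N' := ⟨h.1, h.bot_of_le hN⟩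

lemma H_ext (h : IsFlag M N) (hN : N ≤ N') : H M N' i = H M N i := Op_ext hN h.1 h.2 _

lemma BN_ext (h : IsFlag M N) (hN : N ≤ N') : BN M N' i = BN M N i := Op_ext hN h.1 h.2 _

lemma g_ext (h : IsFlag M N) (hN : N ≤ N') (K : Set E) : g M N' i K = g M N i K := by
  unfold g; rw [H_ext h hN]

lemma rr_ext (h : IsFlag M N) (hN : N ≤ N') : rr M N' i = rr M N i := by
  unfold rr
  symm
  refine sum_subset (fun j hj => ?_) (fun j hj hj2 => ?_)
  · rw [mem_Ico] at hj ⊢; omega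
  · rw [mem_Ico] at hj hj2
    rw [bdim_zero h (by omega)]
    simp

lemma cr_ext (h : IsFlag M N) (hN : N ≤ N') : cr ρ M N' i = cr ρ M N i := by
  unfold cr; rw [rr_ext h hN]

lemma adm_ext (h : IsFlag M N) (hN : N ≤ N') (K : Set E) : Adm ρ M N' i K ↔ Adm ρ M N i K := by
  constructor
  · rintro ⟨h1, h2, h3, h4, h5⟩
    rw [g_ext h hN] at h4
    rw [BN_ext h hN, cr_ext h hN] at h5
    exact ⟨h1, h2, h3, h4, h5⟩
  · rintro ⟨h1, h2, h3, h4, h5⟩
    refine ⟨h1, h2, h3, ?_, ?_⟩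
    · rwa [g_ext h hN]
    · rwa [BN_ext h hN, cr_ext h hN]

lemma D_ext (h : IsFlag M N) (hN : N ≤ N') (m : Multiset E) : D ρ A M N' i m = D ρ A M N i m := by
  unfold D val
  simp only [adm_ext h hN, g_ext h hN]

lemma hs_bot (hi : M i = ⊥) (K : Set E) (hK : K.Nonempty) (z : E) : hs M i K z = 0 := by
  unfold hs
  have : (fun x => ⟪z, P M i x⟫) '' K = {0} := by
    ext t
    simp only [Set.mem_image, Set.mem_singleton_iff, P_bot hi, inner_zero_right]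
    constructor
    · rintro ⟨_, _, h⟩; exact h.symm
    · rintro rfl
      obtain ⟨x, hx⟩ := hK
      exact ⟨x, hx, rfl⟩
  rw [this, csSup_singleton]

lemma D_bot (h : IsFlag M N) (hA : 0 ≤ A) (hi : N ≤ i) (m : Multiset E) : D ρ A M N i m = 0 := by
  have hadm : Adm ρ M N i (Set.univ : Set E) := by
    have hr : rr M N i = 0 := by
      rw [rr, Ico_eq_empty (by omega), sum_empty]
    refine ⟨isClosed_univ, convex_univ, fun _ _ => Set.mem_univ _, ?_, fun x _ => ?_⟩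
    · rw [g_univ]; norm_num
    · rw [rr_zero h hr, norm_zero]
      simp [cr, hr]
  have h1 := D_le hadm h hA m
  have h2 : val A M N i m Set.univ = 0 := by
    unfold val
    rw [g_univ, Real.log_one, mul_zero, sub_zero]
    have : ∀ z, hs M i (Set.univ : Set E) z = 0 := fun z =>
      hs_bot (h.bot_of_le hi) _ Set.univ_nonempty z
    simp [this]
  have h3 := D_nonneg (ρ := ρ) (i := i) h hA m
  linarith

theorem J_ext (h : IsFlag M N) (hA : 0 ≤ A) (hN : N ≤ N') (m : Multiset E) :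
    J κ ρ A M N' m = J κ ρ A M N m := by
  unfold J
  rw [← sum_subset (range_subset_range.2 hN)]
  · exact sum_congr rfl fun i _ => by rw [D_ext h hN]
  · intro i _ hi
    rw [mem_range, not_lt] at hi
    rw [D_ext h hN, D_bot h hA hi, h.bot_of_le hi]
    simp

lemma sum_pow_le (hA : 2 ≤ A) (t : ℕ) : ∑ i ∈ range (t + 1), A ^ i ≤ 2 * A ^ t := by
  induction t with
  | zero => simp
  | succ t ih =>
    rw [sum_range_succ, pow_succ]
    have : 0 ≤ A ^ t := by positivity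
    nlinarith

lemma D_empty_le (hρ : 2 ≤ ρ) (hA : 0 ≤ A) (h : IsFlag M N) :
    D ρ A M N i (0 : Multiset E) ≤ A ^ i * (2 / ρ ^ 2) := by
  have h1 := D_le (adm_cap (i := i) hρ h) h hA 0
  have h2 := (cut_log (i := i) hρ h (K := Set.univ) isClosed_univ convex_univ
    (fun x _ => Set.mem_univ _) (by rw [g_univ]; norm_num)).2
  rw [Set.univ_inter, g_univ, Real.log_one, neg_zero, zero_add] at h2
  unfold val at h1
  simp only [Multiset.map_zero, Multiset.sum_zero, zero_sub] at h1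
  have h3 : 0 ≤ A ^ i := pow_nonneg hA i
  nlinarith

theorem J_empty_le (hρ : 2 ≤ ρ) (hA : 2 ≤ A) (hκ : 4 ≤ κ * ρ ^ 2) (hκ0 : 0 ≤ κ) (h : IsFlag M N) :
    J κ ρ A M N (0 : Multiset E) ≤ 0 := by
  classical
  have hex : ∃ n, M n = ⊥ := ⟨N, h.2⟩
  obtain ⟨t, ht⟩ : ∃ t, t = Nat.find hex := ⟨_, rfl⟩
  have hb : M t = ⊥ := ht ▸ Nat.find_spec hex
  have hle : t ≤ N := ht ▸ Nat.find_min' hex h.2
  have hF : IsFlag M t := ⟨h.1, hb⟩
  rw [J_ext hF (by linarith) hle]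
  rcases t with _ | t
  · simp [J]
  have hne : M t ≠ ⊥ := Nat.find_min hex (by omega)
  have hdim : ∀ i ∈ range (t + 1), (1 : ℝ) ≤ finrank ℝ (M i) := by
    intro i hi
    rw [mem_range] at hi
    have h1 : 1 ≤ finrank ℝ (M t) := Submodule.one_le_finrank_iff.2 hne
    have h2 := finrank_anti h.1 (i := i) (j := t) (by omega)
    exact_mod_cast h1.trans h2
  unfold J
  rw [sum_sub_distrib]
  have h1 : ∑ i ∈ range (t + 1), D ρ A M (t + 1) i (0 : Multiset E) ≤ 2 * A ^ t * (2 / ρ ^ 2) := by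
    calc ∑ i ∈ range (t + 1), D ρ A M (t + 1) i (0 : Multiset E)
        ≤ ∑ i ∈ range (t + 1), A ^ i * (2 / ρ ^ 2) :=
          sum_le_sum fun i _ => D_empty_le hρ (by linarith) hF
      _ = (∑ i ∈ range (t + 1), A ^ i) * (2 / ρ ^ 2) := by rw [sum_mul]
      _ ≤ _ := mul_le_mul_of_nonneg_right (sum_pow_le hA t) (by positivity)
  have h2 : κ * A ^ t ≤ ∑ i ∈ range (t + 1), κ * (inc A i * (finrank ℝ (M i) : ℝ)) := by
    rw [← sum_inc A t, mul_sum]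
    refine sum_le_sum fun i hi => ?_
    have h3 := inc_nonneg (by linarith : 1 ≤ A) i
    have h4 := hdim i hi
    have : inc A i ≤ inc A i * (finrank ℝ (M i) : ℝ) := by nlinarith
    exact mul_le_mul_of_nonneg_left this hκ0
  have h5 : 2 * A ^ t * (2 / ρ ^ 2) ≤ κ * A ^ t := by
    have h6 : 0 < A ^ t := by positivity
    have h7 : 4 / ρ ^ 2 ≤ κ := by
      rw [div_le_iff₀ (by positivity)]; exact hκ
    calc 2 * A ^ t * (2 / ρ ^ 2) = (4 / ρ ^ 2) * A ^ t := by ring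
      _ ≤ κ * A ^ t := by gcongr
  linarith

/-- dual cap form -/
noncomputable def nn (M : ℕ → Submodule ℝ E) (N i : ℕ) (z : E) : ℝ :=
  ∑ j ∈ Ico i N, th ^ (j - i) * ‖blk M j z‖ ^ 2

lemma inner_P_eq (h : IsFlag M N) (z x : E) :
    ⟪z, P M i x⟫ = ∑ j ∈ Ico i N, ⟪blk M j z, blk M j x⟫ := by
  rcases le_or_gt i N with hi | hi
  · have h1 := sum_blk M hi x
    have h2 : (M N).starProjection x = 0 := P_bot h.2 x
    rw [h2, sub_zero] at h1
    show ⟪z, (M i).starProjection x⟫ = _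
    rw [← h1, inner_sum]
    exact sum_congr rfl fun j _ => (blk_inner h.1 j z x).symm
  · rw [P_bot (h.bot_of_le hi.le), inner_zero_right, Ico_eq_empty (by omega), sum_empty]

lemma inner_P_le (h : IsFlag M N) (z x : E) :
    ⟪z, P M i x⟫ ≤ √(nn M N i z) * ‖BN M N i x‖ := by
  rw [inner_P_eq h]
  have h1 := Real.sum_mul_le_sqrt_mul_sqrt (Ico i N) (fun j => √(th ^ (j - i)) * ‖blk M j z‖)
    (fun j => √((th⁻¹) ^ (j - i)) * ‖blk M j x‖)
  have hp : ∀ n, 0 ≤ th ^ n := fun n => pow_nonneg th_nonneg n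
  have hp' : ∀ n, 0 ≤ (th⁻¹) ^ n := fun n => pow_nonneg (inv_nonneg.2 th_nonneg) n
  have e1 : ∑ j ∈ Ico i N, (√(th ^ (j - i)) * ‖blk M j z‖) ^ 2 = nn M N i z := by
    unfold nn
    exact sum_congr rfl fun j _ => by rw [mul_pow, Real.sq_sqrt (hp _)]
  have e2 : ∑ j ∈ Ico i N, (√((th⁻¹) ^ (j - i)) * ‖blk M j x‖) ^ 2 = ‖BN M N i x‖ ^ 2 := by
    rw [norm_BN_sq_blk h]
    exact sum_congr rfl fun j _ => by rw [mul_pow, Real.sq_sqrt (hp' _)]
  rw [e1, e2, Real.sqrt_sq (norm_nonneg _)] at h1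
  refine le_trans (sum_le_sum fun j _ => ?_) h1
  have e3 : √(th ^ (j - i)) * √((th⁻¹) ^ (j - i)) = 1 := by
    rw [← Real.sqrt_mul (hp _), ← mul_pow, mul_inv_cancel₀ th_pos.ne', one_pow, Real.sqrt_one]
  calc ⟪blk M j z, blk M j x⟫ ≤ ‖blk M j z‖ * ‖blk M j x‖ := real_inner_le_norm _ _
    _ = (√(th ^ (j - i)) * √((th⁻¹) ^ (j - i))) * (‖blk M j z‖ * ‖blk M j x‖) := by rw [e3, one_mul]
    _ = _ := by ring

lemma nn_nonneg (M : ℕ → Submodule ℝ E) (N i : ℕ) (z : E) : 0 ≤ nn M N i z :=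
  sum_nonneg fun _ _ => mul_nonneg (pow_nonneg th_nonneg _) (sq_nonneg _)

lemma D_cons (hρ : 2 ≤ ρ) (hA : 0 ≤ A) (h : IsFlag M N) (z : E) (m : Multiset E) :
    D ρ A M N i (z ::ₘ m) ≤ D ρ A M N i m + √(nn M N i z) * cr ρ M N i := by
  have key : D ρ A M N i (z ::ₘ m) - √(nn M N i z) * cr ρ M N i ≤ D ρ A M N i m := by
    refine le_D (adm_exists hρ h) fun K hK => ?_
    have h1 := D_le hK h hA (z ::ₘ m)
    have h2 : hs M i K z ≤ √(nn M N i z) * cr ρ M N i := by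
      refine hs_le hK.nonempty fun x hx => (inner_P_le h z x).trans ?_
      exact mul_le_mul_of_nonneg_left (hK.cap x hx) (Real.sqrt_nonneg _)
    unfold val at h1 ⊢
    rw [Multiset.map_cons, Multiset.sum_cons] at h1
    linarith
  linarith

theorem J_cons (hρ : 2 ≤ ρ) (hA : 0 ≤ A) (h : IsFlag M N) (z : E) (m : Multiset E) :
    J κ ρ A M N (z ::ₘ m) ≤ J κ ρ A M N m + 5 * ρ * √(finrank ℝ E) * ‖z‖ := by
  have h1 : J κ ρ A M N (z ::ₘ m) ≤ J κ ρ A M N m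
      + ∑ i ∈ range N, √(nn M N i z) * cr ρ M N i := by
    unfold J
    rw [← sum_add_distrib]
    refine sum_le_sum fun i _ => ?_
    have := D_cons (i := i) hρ hA h z m
    linarith
  refine h1.trans (add_le_add le_rfl ?_)
  have h2 : ∑ i ∈ range N, √(nn M N i z) * cr ρ M N i
      = ρ * ∑ i ∈ range N, √(nn M N i z) * √(rr M N i) := by
    rw [mul_sum]
    exact sum_congr rfl fun i _ => by rw [cr]; ring
  have h3 := Real.sum_mul_le_sqrt_mul_sqrt (range N) (fun i => √(nn M N i z))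
    (fun i => √(rr M N i))
  have e1 : ∑ i ∈ range N, √(nn M N i z) ^ 2 ≤ 5 * ‖z‖ ^ 2 := by
    have a1 := double_geom_le th_nonneg th_lt_one (fun j => ‖blk M j z‖ ^ 2)
      (fun j => sq_nonneg _) N
    have a2 := sum_norm_blk_sq_le h.1 (Nat.zero_le N) z
    rw [← range_eq_Ico] at a2
    have a3 : (1 - th)⁻¹ = 5 := by norm_num [th]
    calc ∑ i ∈ range N, √(nn M N i z) ^ 2 = ∑ i ∈ range N, nn M N i z :=
          sum_congr rfl fun i _ => Real.sq_sqrt (nn_nonneg M N i z)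
      _ ≤ 5 * ∑ j ∈ range N, ‖blk M j z‖ ^ 2 := by rw [a3] at a1; exact a1
      _ ≤ _ := by linarith
  have e2 : ∑ i ∈ range N, √(rr M N i) ^ 2 ≤ 5 * finrank ℝ E := by
    have a1 := double_geom_le th_nonneg th_lt_one (fun j => (bdim M j : ℝ))
      (fun j => Nat.cast_nonneg _) N
    have a2 := sum_bdim_le h.1 (Nat.zero_le N)
    rw [← range_eq_Ico] at a2
    have a3 : (1 - th)⁻¹ = 5 := by norm_num [th]
    calc ∑ i ∈ range N, √(rr M N i) ^ 2 = ∑ i ∈ range N, rr M N i :=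
          sum_congr rfl fun i _ => Real.sq_sqrt (rr_nonneg M N i)
      _ ≤ 5 * ∑ j ∈ range N, (bdim M j : ℝ) := by rw [a3] at a1; exact a1
      _ ≤ _ := by linarith
  rw [h2]
  calc ρ * ∑ i ∈ range N, √(nn M N i z) * √(rr M N i)
      ≤ ρ * (√(5 * ‖z‖ ^ 2) * √(5 * finrank ℝ E)) := by
        refine mul_le_mul_of_nonneg_left (h3.trans ?_) (by linarith)
        gcongr
    _ = 5 * ρ * √(finrank ℝ E) * ‖z‖ := by
        rw [Real.sqrt_mul (by norm_num), Real.sqrt_mul (by norm_num), Real.sqrt_sq (norm_nonneg _)]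
        have : √(5 : ℝ) * √5 = 5 := Real.mul_self_sqrt (by norm_num)
        linear_combination (ρ * √(finrank ℝ E) * ‖z‖) * this

theorem J_le (hρ : 2 ≤ ρ) (hA : 2 ≤ A) (hκ : 4 ≤ κ * ρ ^ 2) (hκ0 : 0 ≤ κ) (h : IsFlag M N)
    (m : Multiset E) : J κ ρ A M N m ≤ 5 * ρ * √(finrank ℝ E) * (m.map norm).sum := by
  induction m using Multiset.induction_on with
  | empty => simpa using J_empty_le hρ hA hκ hκ0 h
  | cons z m ih =>
    have h1 := J_cons (κ := κ) (A := A) hρ (by linarith) h z m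
    rw [Multiset.map_cons, Multiset.sum_cons]
    linarith

theorem bddAbove_J (hρ : 2 ≤ ρ) (hA : 2 ≤ A) (hκ : 4 ≤ κ * ρ ^ 2) (hκ0 : 0 ≤ κ) (m : Multiset E) :
    BddAbove {t | ∃ (M : ℕ → Submodule ℝ E) (N : ℕ), IsFlag M N ∧ t = J κ ρ A M N m} := by
  refine ⟨5 * ρ * √(finrank ℝ E) * (m.map norm).sum, ?_⟩
  rintro t ⟨M, N, hF, rfl⟩
  exact J_le hρ hA hκ hκ0 hF m

theorem le_U (hρ : 2 ≤ ρ) (hA : 2 ≤ A) (hκ : 4 ≤ κ * ρ ^ 2) (hκ0 : 0 ≤ κ) (h : IsFlag M N)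
    (m : Multiset E) : J κ ρ A M N m ≤ U κ ρ A m :=
  le_csSup (bddAbove_J hρ hA hκ hκ0 m) ⟨M, N, h, rfl⟩

lemma set_nonempty (κ ρ A : ℝ) (m : Multiset E) :
    {t | ∃ (M : ℕ → Submodule ℝ E) (N : ℕ), IsFlag M N ∧ t = J κ ρ A M N m}.Nonempty :=
  ⟨_, fun _ => ⊥, 0, ⟨fun _ _ _ => le_rfl, rfl⟩, rfl⟩

theorem U_le {t : ℝ} {m : Multiset E} (h : ∀ (M : ℕ → Submodule ℝ E) (N : ℕ), IsFlag M N →
    J κ ρ A M N m ≤ t) : U κ ρ A m ≤ t := by
  refine csSup_le (set_nonempty κ ρ A m) ?_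
  rintro _ ⟨M, N, hF, rfl⟩
  exact h M N hF

theorem U_nonneg (hρ : 2 ≤ ρ) (hA : 2 ≤ A) (hκ : 4 ≤ κ * ρ ^ 2) (hκ0 : 0 ≤ κ) (m : Multiset E) :
    0 ≤ U κ ρ A m := by
  have h : IsFlag (fun _ : ℕ => (⊥ : Submodule ℝ E)) 0 := ⟨fun _ _ _ => le_rfl, rfl⟩
  have := le_U hρ hA hκ hκ0 h m
  simpa [J] using this

theorem J_split (hρ : 2 ≤ ρ) (hA : 0 ≤ A) (h : IsFlag M N) (s : Multiset (E × E)) :
    J κ ρ A M N (mrg s) ≤ J κ ρ A M N (spl s) := by
  unfold J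
  refine sum_le_sum fun i _ => ?_
  have := D_split (i := i) (adm_exists hρ h) h hA s
  linarith

theorem U_split (hρ : 2 ≤ ρ) (hA : 2 ≤ A) (hκ : 4 ≤ κ * ρ ^ 2) (hκ0 : 0 ≤ κ)
    (s : Multiset (E × E)) : U κ ρ A (mrg s) ≤ U κ ρ A (spl s) :=
  U_le fun M N hF => (J_split hρ (by linarith) hF s).trans (le_U hρ hA hκ hκ0 hF _)

theorem U_cons (hρ : 2 ≤ ρ) (hA : 2 ≤ A) (hκ : 4 ≤ κ * ρ ^ 2) (hκ0 : 0 ≤ κ) (z : E)
    (m : Multiset E) :
    U κ ρ A (z ::ₘ m) ≤ U κ ρ A m + 5 * ρ * √(finrank ℝ E) * ‖z‖ :=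
  U_le fun M N hF => (J_cons hρ (by linarith) hF z m).trans
    (add_le_add (le_U hρ hA hκ hκ0 hF _) le_rfl)

theorem exists_nearMax (hρ : 2 ≤ ρ) (hA : 2 ≤ A) (hκ : 4 ≤ κ * ρ ^ 2) (hκ0 : 0 ≤ κ)
    (m : Multiset E) {e : ℝ} (he : 0 < e) :
    ∃ (M : ℕ → Submodule ℝ E) (N : ℕ), NearMax κ ρ A M N m e ∧ U κ ρ A m ≤ J κ ρ A M N m + e := by
  obtain ⟨_, ⟨M, N, hF, rfl⟩, hlt⟩ := exists_lt_of_lt_csSup (set_nonempty κ ρ A m)
    (b := U κ ρ A m - e) (by show U κ ρ A m - e < U κ ρ A m; linarith)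
  refine ⟨M, N, ⟨hF, fun M' N' hF' => ?_⟩, by linarith⟩
  have := le_U hρ hA hκ hκ0 hF' m
  linarith

end Crest.Agent.R239.FB2
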