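import Mathlib
import Crest.Agent.R239.FB2_456

/-!
R239, helper456: the flag `one` of LINE D (helper859), projection formulas, nestedness.
-/

set_option autoImplicit false
set_option linter.unusedSectionVars false
set_option linter.unusedVariables false

open Finset Module MeasureTheory ProbabilityTheory
open scoped RealInnerProductSpace

namespace Crest.Agent.R239.FB2

open Crest.Agent.R239.FA456 Crest.Agent.R239.Soft450
open Crest.Agent.R239.Rot203 (Ts Ts_apply inner_Ts_Ts norm_Ts_sq norm_proj_Ts_sq)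

variable {E : Type*} [NormedAddCommGroup E] [InnerProductSpace ℝ E] [FiniteDimensional ℝ E]
  [MeasurableSpace E] [BorelSpace E]

/-- the flag of LINE D -/
noncomputable def one (M : ℕ → Submodule ℝ E) (I : ℕ) (v : E) (j : ℕ) : Submodule ℝ E :=
  if j ≤ I then M j ⊔ (ℝ ∙ v) else (M j).map (Ts 1 v)

/-- demotion of `u` from block `i` to block `i - 1` -/
noncomputable def dem (M : ℕ → Submodule ℝ E) (i : ℕ) (u : E) (j : ℕ) : Submodule ℝ E :=
  if j = i then M j ⊓ (ℝ ∙ u)ᗮ else M j

section

variable {M : ℕ → Submodule ℝ E} {N I : ℕ} {v : E}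

lemma one_le {j : ℕ} (h : j ≤ I) : one M I v j = M j ⊔ (ℝ ∙ v) := by rw [one, if_pos h]

lemma one_gt {j : ℕ} (h : I < j) : one M I v j = (M j).map (Ts 1 v) := by
  rw [one, if_neg (by omega)]

lemma one_flag (h : IsFlag M N) (I : ℕ) (v : E) : IsFlag (one M I v) (max N (I + 1)) := by
  constructor
  · intro j j' hjj
    rcases le_or_gt j' I with h1 | h1
    · rw [one_le h1, one_le (hjj.trans h1)]
      exact sup_le_sup_right (h.1 hjj) _
    · rw [one_gt h1]
      rcases le_or_gt j I with h2 | h2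
      · rw [one_le h2]
        rintro _ ⟨x, hx, rfl⟩
        rw [Ts_apply]
        exact Submodule.sub_mem _ (Submodule.mem_sup_left (h.1 hjj hx))
          (Submodule.mem_sup_right (Submodule.smul_mem _ _ (Submodule.mem_span_singleton_self v)))
      · rw [one_gt h2]
        exact Submodule.map_mono (h.1 hjj)
  · rw [one_gt (by omega), h.bot_of_le (le_max_left _ _), Submodule.map_bot]

lemma mem_of_norm_eq (W : Submodule ℝ E) (hv : ‖v‖ = 1) (h : 1 - ‖W.starProjection v‖ ^ 2 = 0) :
    W.starProjection v = v := by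
  have h1 : ‖v - W.starProjection v‖ ^ 2 = ‖v‖ ^ 2 - ‖W.starProjection v‖ ^ 2 := by
    have := norm_star_sub_sq (U := W) (V := ⊤) le_top v
    have e : (⊤ : Submodule ℝ E).starProjection v = v :=
      Submodule.starProjection_eq_self_iff.2 (Submodule.mem_top)
    rwa [e] at this
  rw [hv, one_pow, h] at h1
  have h2 : v - W.starProjection v = 0 := norm_eq_zero.1 (pow_eq_zero_iff two_ne_zero |>.1 h1)
  exact (sub_eq_zero.1 h2).symm

lemma one_sub_b_nonneg (W : Submodule ℝ E) (hv : ‖v‖ = 1) : 0 ≤ 1 - ‖W.starProjection v‖ ^ 2 := by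
  have h1 : ‖W.starProjection v‖ ≤ 1 := hv ▸ W.norm_starProjection_apply_le v
  have h2 := norm_nonneg (W.starProjection v)
  nlinarith

lemma star_congr {W W' : Submodule ℝ E} (h : W = W') (x : E) :
    W.starProjection x = W'.starProjection x := by subst h; rfl

/-- projection on `W ⊔ ℝ v` -/
theorem norm_proj_sup_sq (W : Submodule ℝ E) (hv : ‖v‖ = 1) (x : E) :
    ‖(W ⊔ (ℝ ∙ v)).starProjection x‖ ^ 2 = ‖W.starProjection x‖ ^ 2
      + (⟪v, x⟫ - ⟪W.starProjection v, x⟫) ^ 2 / (1 - ‖W.starProjection v‖ ^ 2) := by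
  set p := W.starProjection v with hp
  have hpW : p ∈ W := Submodule.starProjection_apply_mem _ _
  by_cases hb : 1 - ‖p‖ ^ 2 = 0
  · have hpv := mem_of_norm_eq W hv hb
    have hvW : v ∈ W := hpv ▸ hpW
    have e : W ⊔ (ℝ ∙ v) = W := sup_eq_left.2 ((Submodule.span_singleton_le_iff_mem _ _).2 hvW)
    rw [hb, div_zero, add_zero, star_congr e]
  · set c := (⟪v, x⟫ - ⟪p, x⟫) / (1 - ‖p‖ ^ 2) with hc
    have hc' : c * (1 - ‖p‖ ^ 2) = ⟪v, x⟫ - ⟪p, x⟫ := by rw [hc]; field_simp
    have horth : ∀ y ∈ W, ⟪v - p, y⟫ = 0 := fun y hy =>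
      Submodule.starProjection_inner_eq_zero _ _ hy
    have hvp : ⟪v, p⟫ = ‖p‖ ^ 2 := by
      have h1 := horth p hpW
      rw [inner_sub_left, real_inner_self_eq_norm_sq] at h1
      linarith
    have hvv : ⟪v, v⟫ = (1 : ℝ) := by rw [real_inner_self_eq_norm_sq, hv]; norm_num
    have hproj : (W ⊔ (ℝ ∙ v)).starProjection x = W.starProjection x + c • (v - p) := by
      apply Submodule.eq_starProjection_of_mem_of_inner_eq_zero
      · refine Submodule.add_mem _ (Submodule.mem_sup_left (Submodule.starProjection_apply_mem _ _))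
          (Submodule.smul_mem _ _ (Submodule.sub_mem _ (Submodule.mem_sup_right
            (Submodule.mem_span_singleton_self v)) (Submodule.mem_sup_left hpW)))
      · intro y hy
        obtain ⟨y1, hy1, y2, hy2, rfl⟩ := Submodule.mem_sup.1 hy
        obtain ⟨t, rfl⟩ := Submodule.mem_span_singleton.1 hy2
        have h1 : ⟪x - W.starProjection x, y1⟫ = 0 :=
          Submodule.starProjection_inner_eq_zero _ _ hy1
        have h2 : ⟪x - W.starProjection x, v⟫ = ⟪v, x⟫ - ⟪p, x⟫ := by
          rw [inner_sub_left, real_inner_comm v x]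
          congr 1
          rw [Submodule.inner_starProjection_left_eq_right, ← hp, real_inner_comm]
        have h3 : ⟪v - p, v⟫ = 1 - ‖p‖ ^ 2 := by
          rw [inner_sub_left, hvv, real_inner_comm, hvp]
        rw [← sub_sub, inner_sub_left, inner_add_right, inner_add_right, h1, inner_smul_right,
          inner_smul_right, inner_smul_left, inner_smul_left, horth y1 hy1, h2, h3]
        simp only [RCLike.conj_to_real]
        rw [← hc']
        ring
    rw [hproj, norm_add_sq_real, inner_smul_right, norm_smul]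
    have h4 : ⟪W.starProjection x, v - p⟫ = 0 := by
      rw [real_inner_comm]
      exact horth _ (Submodule.starProjection_apply_mem _ _)
    have h5 : ‖v - p‖ ^ 2 = 1 - ‖p‖ ^ 2 := by
      rw [norm_sub_sq_real, hv, hvp]; ring
    have h6 : (‖c‖ * ‖v - p‖) ^ 2 = (⟪v, x⟫ - ⟪p, x⟫) ^ 2 / (1 - ‖p‖ ^ 2) := by
      rw [mul_pow, h5, Real.norm_eq_abs, sq_abs, ← hc']
      field_simp
    rw [h4, h6]
    ring

/-- projection on `T W`, `T = 1 - v vᵀ` -/
theorem norm_proj_T_sq (W : Submodule ℝ E) (hv : ‖v‖ = 1) (x : E) :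
    ‖(W.map (Ts 1 v)).starProjection (Ts 1 v x)‖ ^ 2 = ‖W.starProjection x‖ ^ 2 - ⟪v, x⟫ ^ 2
      + (⟪v, x⟫ - ⟪W.starProjection v, x⟫) ^ 2 / (1 - ‖W.starProjection v‖ ^ 2) := by
  by_cases hb : 1 - ‖W.starProjection v‖ ^ 2 = 0
  · have hpv := mem_of_norm_eq W hv hb
    have hvW : v ∈ W := by rw [← hpv]; exact Submodule.starProjection_apply_mem _ _
    rw [hb, div_zero, add_zero]
    have hproj : (W.map (Ts 1 v)).starProjection (Ts 1 v x) = Ts 1 v (W.starProjection x) := by
      apply Submodule.eq_starProjection_of_mem_of_inner_eq_zero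
      · exact Submodule.mem_map_of_mem (Submodule.starProjection_apply_mem _ _)
      · intro y hy
        obtain ⟨y1, hy1, rfl⟩ := Submodule.mem_map.1 hy
        rw [← map_sub, inner_Ts_Ts hv]
        have h1 : ⟪x - W.starProjection x, y1⟫ = 0 :=
          Submodule.starProjection_inner_eq_zero _ _ hy1
        have h2 : ⟪x - W.starProjection x, v⟫ = 0 :=
          Submodule.starProjection_inner_eq_zero _ _ hvW
        rw [h1, real_inner_comm, h2]
        ring
    rw [hproj, norm_Ts_sq hv]
    have h3 : ⟪v, W.starProjection x⟫ = ⟪v, x⟫ := by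
      rw [← Submodule.inner_starProjection_left_eq_right, hpv]
    rw [h3]; ring
  · have h := norm_proj_Ts_sq hv W 1 x (by norm_num; exact hb)
    rw [h]
    norm_num

end

end Crest.Agent.R239.FB2
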