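import Mathlib
import Crest.Agent.R239.FG_456
import Crest.Agent.R239.Ben1_949
import Crest.Agent.R239.CmpE_653

/-!
R239, helper456: THIN: if dropping the own-block direction `u` from level `i` is expensive then the
near-optimal body is thin in direction `u`.
-/

set_option autoImplicit false
set_option linter.unusedSectionVars false
set_option linter.unusedVariables false

open Finset Module MeasureTheory ProbabilityTheory
open scoped RealInnerProductSpace ENNReal

namespace Crest.Agent.R239.FB2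

open Crest.Agent.R239.FA456 Crest.Agent.R239.Soft450
open Crest.Agent.R239.FB456 (th th_pos th_nonneg th_lt_one th_le_one ci ci_pos ci_le_one H S g
  g_nonneg g_le_one g_mono hs)
open Crest.Agent.R239.FC456 (g_univ pre_closed pre_convex pre_symm neglog_one_sub)
open Crest.Agent.R239.Dom640 (sec measurable_sec sec_neg sec_anti measure_eq_sec sec_le_one
  measurableSet_sec)

/-- the one-dimensional fact -/
def OneDim (κ c : ℝ) : Prop := 0 < c ∧ c ≤ 1 / 4 ∧ ∀ G : ℝ → ℝ, Ben949.Prof G →
    (1 - c) * (∫ s, G s ∂(gaussianReal 0 1)) < ∫ s, s ^ 2 * G s ∂(gaussianReal 0 1) →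
    Real.exp (-κ) * √(∫ s, G s ∂(gaussianReal 0 1)) ≤ ∫ s, √(G (2 * s)) ∂(gaussianReal 0 1)

theorem oneDim_exists {κ : ℝ} (hκ : 0 < κ) : ∃ c, OneDim κ c := Ben949.one_dim hκ

variable {E : Type*} [NormedAddCommGroup E] [InnerProductSpace ℝ E] [FiniteDimensional ℝ E]
  [MeasurableSpace E] [BorelSpace E]

section onebody

variable {u : E} {Q Q2 C : Set E}

/-- real section function -/
noncomputable def rsec (u : E) (Q : Set E) (s : ℝ) : ℝ := (sec u Q s).toReal

lemma rsec_le_one (s : ℝ) : rsec u Q s ≤ 1 := by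
  have := ENNReal.toReal_mono ENNReal.one_ne_top (sec_le_one u Q s)
  simpa [rsec] using this

lemma rsec_nonneg (s : ℝ) : 0 ≤ rsec u Q s := ENNReal.toReal_nonneg

lemma sec_ne_top (s : ℝ) : sec u Q s ≠ ∞ := ne_top_of_le_ne_top ENNReal.one_ne_top (sec_le_one u Q s)

lemma measurable_rsec (hQ : MeasurableSet Q) : Measurable (rsec u Q) :=
  (measurable_sec u hQ).ennreal_toReal

lemma integral_rsec (hu : ‖u‖ = 1) (hQ : MeasurableSet Q) :
    ∫ s, rsec u Q s ∂(gaussianReal 0 1) = (stdGaussian E).real Q := by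
  rw [integral_eq_lintegral_of_nonneg_ae (Filter.Eventually.of_forall fun s => rsec_nonneg s)
    (measurable_rsec hQ).aestronglyMeasurable, Measure.real, measure_eq_sec hu hQ]
  congr 1
  exact lintegral_congr fun s => ENNReal.ofReal_toReal (sec_ne_top s)

lemma integral_sq_rsec (hu : ‖u‖ = 1) (hQ : MeasurableSet Q) :
    ∫ s, s ^ 2 * rsec u Q s ∂(gaussianReal 0 1) = ∫ x in Q, ⟪u, x⟫ ^ 2 ∂(stdGaussian E) := by
  have hint : Integrable (Q.indicator fun x : E => ⟪u, x⟫ ^ 2) (stdGaussian E) :=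
    (Mom764.integrable_inner_sq u).indicator hQ
  rw [← integral_indicator hQ]
  have hint2 := hint
  rw [← line_decomp hu] at hint2
  conv_rhs => rw [← line_decomp hu]
  rw [integral_map (measurable_line u).aemeasurable hint2.aestronglyMeasurable, integral_prod]
  · refine integral_congr_ae (Filter.Eventually.of_forall fun s => ?_)
    show s ^ 2 * rsec u Q s = ∫ y, Q.indicator (fun x : E => ⟪u, x⟫ ^ 2) (s • u + proj u y)
      ∂(stdGaussian E)
    have e : (fun y : E => Q.indicator (fun x : E => ⟪u, x⟫ ^ 2) (s • u + proj u y))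
        = {y : E | s • u + proj u y ∈ Q}.indicator (fun _ => s ^ 2) := by
      ext y
      have hin : ⟪u, s • u + proj u y⟫ = s := by
        rw [inner_add_right, inner_smul_right, inner_proj hu, real_inner_self_eq_norm_sq, hu]
        ring
      by_cases hy : s • u + proj u y ∈ Q
      · rw [Set.indicator_of_mem hy, Set.indicator_of_mem (show y ∈ {y : E | s • u + proj u y ∈ Q}
          from hy), hin]
      · rw [Set.indicator_of_notMem hy, Set.indicator_of_notMem
          (show y ∉ {y : E | s • u + proj u y ∈ Q} from hy)]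
    rw [e, integral_indicator (measurableSet_sec u hQ s), setIntegral_const, smul_eq_mul, mul_comm]
    rfl
  · exact hint2.comp_measurable (measurable_line u)

lemma half_pl {A B D' : Set E} (hA : MeasurableSet A) (hB : MeasurableSet B)
    (hD : MeasurableSet D') (h : ∀ x ∈ A, ∀ y ∈ B, (1 / 2 : ℝ) • x + (1 / 2 : ℝ) • y ∈ D') :
    √((stdGaussian E).real A * (stdGaussian E).real B) ≤ (stdGaussian E).real D' := by
  have h1 := Dom640.pr_real (t := 1 / 2) (by norm_num) (by norm_num) hA hB hD (by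
    intro x hx y hy
    have := h x hx y hy
    norm_num at this ⊢
    exact this)
  have e : (1 : ℝ) - 1 / 2 = 1 / 2 := by norm_num
  rw [e, ← Real.mul_rpow measureReal_nonneg measureReal_nonneg, ← Real.sqrt_eq_rpow] at h1
  exact h1

lemma prof_rsec (hu : ‖u‖ = 1) (hQ : MeasurableSet Q) (cQ : Convex ℝ Q) (sQ : ∀ x ∈ Q, -x ∈ Q) :
    Ben949.Prof (rsec u Q) := by
  refine ⟨measurable_rsec hQ, rsec_nonneg, rsec_le_one, fun s => ?_, fun s t hs hst => ?_,
    fun s hs => ?_⟩
  · unfold rsec; rw [sec_neg u hQ sQ]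
  · refine ENNReal.toReal_mono (sec_ne_top s) (sec_anti u hQ cQ sQ ?_)
    rwa [abs_of_nonneg hs, abs_of_nonneg (hs.trans hst)]
  · have h1 := half_pl (measurableSet_sec u hQ (2 * s)) (measurableSet_sec u hQ 0)
      (measurableSet_sec u hQ s) (by
        intro x hx y hy
        simp only [Set.mem_ofPred_eq] at hx hy ⊢
        have := cQ hx hy (a := 1 / 2) (b := 1 / 2) (by norm_num) (by norm_num) (by norm_num)
        convert this using 1
        rw [map_add, map_smul, map_smul]
        module)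
    have h2 : rsec u Q (2 * s) * rsec u Q 0 = √(rsec u Q (2 * s) * rsec u Q 0) ^ 2 :=
      (Real.sq_sqrt (mul_nonneg (rsec_nonneg _) (rsec_nonneg _))).symm
    rw [h2]
    exact pow_le_pow_left₀ (Real.sqrt_nonneg _) h1 2

/-- **benefit lemma**, one body -/
theorem benefit {κ c : ℝ} (hc : OneDim κ c) (hu : ‖u‖ = 1) (hQ : MeasurableSet Q)
    (hQ2 : MeasurableSet Q2) (hC : MeasurableSet C) (cQ : Convex ℝ Q) (sQ : ∀ x ∈ Q, -x ∈ Q)
    (cQ2 : Convex ℝ Q2) (sQ2 : ∀ x ∈ Q2, -x ∈ Q2)
    (hsub : ∀ y ∈ Q2, ⟪u, y⟫ = 0 → ∀ x ∈ Q, (1 / 2 : ℝ) • y + (1 / 2 : ℝ) • x ∈ C)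
    (hfat : (1 - c) * (stdGaussian E).real Q < ∫ x in Q, ⟪u, x⟫ ^ 2 ∂(stdGaussian E)) :
    Real.exp (-κ) * √((stdGaussian E).real Q2 * (stdGaussian E).real Q)
      ≤ (stdGaussian E).real C := by
  have hP := prof_rsec hu hQ cQ sQ
  have h1 := hc.2.2 (rsec u Q) hP (by
    rw [integral_rsec hu hQ, integral_sq_rsec hu hQ]; exact hfat)
  rw [integral_rsec hu hQ] at h1
  -- sections of `C`
  have h2 : ∀ s, √(rsec u Q2 0) * √(rsec u Q (2 * s)) ≤ rsec u C s := by
    intro s
    have h3 := half_pl (measurableSet_sec u hQ2 0) (measurableSet_sec u hQ (2 * s))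
      (measurableSet_sec u hC s) (by
        intro y hy x hx
        simp only [Set.mem_ofPred_eq] at hx hy ⊢
        rw [zero_smul, zero_add] at hy
        have := hsub _ hy (inner_proj hu y) _ hx
        convert this using 1
        rw [map_add, map_smul, map_smul]
        module)
    rw [Real.sqrt_mul measureReal_nonneg] at h3
    exact h3
  have h4 : (stdGaussian E).real Q2 ≤ rsec u Q2 0 := by
    rw [← integral_rsec hu hQ2]
    have hP2 := prof_rsec hu hQ2 cQ2 sQ2
    calc ∫ s, rsec u Q2 s ∂(gaussianReal 0 1) ≤ ∫ _, rsec u Q2 0 ∂(gaussianReal 0 1) :=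
          integral_mono hP2.integrable (integrable_const _) fun s => hP2.le_zero s
      _ = rsec u Q2 0 := by simp
  have hint : Integrable (fun s => √(rsec u Q (2 * s))) (gaussianReal 0 1) := by
    refine Integrable.mono' (integrable_const (1 : ℝ)) ?_ (Filter.Eventually.of_forall fun s => ?_)
    · exact ((measurable_rsec hQ).comp (measurable_const_mul 2)).sqrt.aestronglyMeasurable
    · rw [Real.norm_of_nonneg (Real.sqrt_nonneg _)]
      exact Real.sqrt_le_one.2 (rsec_le_one _)
  have h5 : √(rsec u Q2 0) * ∫ s, √(rsec u Q (2 * s)) ∂(gaussianReal 0 1)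
      ≤ (stdGaussian E).real C := by
    rw [← integral_rsec hu hC, ← integral_const_mul]
    refine integral_mono (hint.const_mul _) ?_ h2
    refine Integrable.mono' (integrable_const (1 : ℝ)) (measurable_rsec hC).aestronglyMeasurable
      (Filter.Eventually.of_forall fun s => ?_)
    rw [Real.norm_of_nonneg (rsec_nonneg s)]
    exact rsec_le_one s
  rw [Real.sqrt_mul measureReal_nonneg]
  calc Real.exp (-κ) * (√((stdGaussian E).real Q2) * √((stdGaussian E).real Q))
      = √((stdGaussian E).real Q2) * (Real.exp (-κ) * √((stdGaussian E).real Q)) := by ring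
    _ ≤ √(rsec u Q2 0) * ∫ s, √(rsec u Q (2 * s)) ∂(gaussianReal 0 1) := by
        refine mul_le_mul (Real.sqrt_le_sqrt h4) h1 (by positivity) (Real.sqrt_nonneg _)
    _ ≤ _ := h5

end onebody

section level

variable {M : ℕ → Submodule ℝ E} {N i : ℕ} {ρ A : ℝ} {u : E} {K : Set E}

open Crest.Agent.R239.FP456 (dem)
open Crest.Agent.R239.CmpE653 (dem_flag dem_ne dem_eq dem_le H_congr P_congr bdim_congr finrank_dem)

/-- **THIN** at level `i`: benefit of `u` at least `kp`, slack `δ`, `2 δ + 2 κ' ≤ kp`. -/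
theorem thin {κ' c δ kp : ℝ} (hc : OneDim κ' c) (hρ : 2 ≤ ρ) (hA : 1 ≤ A) (h : IsFlag M N)
    (hi : i < N) (hu : ‖u‖ = 1) (hui : u ∈ M i) (hu' : u ∈ (M (i + 1))ᗮ) (m : Multiset E)
    (hK : Adm ρ M N i K) (hKv : val A M N i m K ≤ D ρ A M N i m + δ * A ^ i)
    (hkp : 2 * κ' + δ < kp)
    (hben : kp * A ^ i ≤ D ρ A M N i m - D ρ A (dem M i u) N i m) :
    ∫ y in H M N i ⁻¹' K, ⟪u, y⟫ ^ 2 ∂(stdGaussian E) ≤ (1 - c) * g M N i K := by
  by_contra hcon
  rw [not_le] at hcon
  have hA0 : 0 ≤ A := by linarith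
  have hAi : 0 < A ^ i := pow_pos (by linarith) i
  have hF' : IsFlag (dem M i u) N := dem_flag h hi hu'
  have hHH : H (dem M i u) N i = H M N i := H_congr fun l hl => dem_ne (by omega)
  have hgg : ∀ K', g (dem M i u) N i K' = g M N i K' := fun K' => by
    unfold FB456.g; rw [hHH]
  -- geometry of the demoted flag
  have hPd : ∀ y : E, ⟪u, y⟫ = 0 → P (dem M i u) i y = P M i y := by
    intro y hy
    show (dem M i u i).starProjection y = (M i).starProjection y
    apply Submodule.eq_starProjection_of_mem_of_inner_eq_zero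
    · rw [dem_eq]
      refine ⟨Submodule.starProjection_apply_mem _ _, ?_⟩
      rw [SetLike.mem_coe, Submodule.mem_orthogonal_singleton_iff_inner_right]
      rw [← Submodule.inner_starProjection_left_eq_right,
        Submodule.starProjection_eq_self_iff.2 hui]
      exact hy
    · intro z hz
      exact Submodule.starProjection_inner_eq_zero _ _ (dem_le i hz)
  have hBNd : ∀ y : E, ⟪u, y⟫ = 0 → ‖BN (dem M i u) N i y‖ = ‖BN M N i y‖ := by
    intro y hy
    have h1 : ‖BN (dem M i u) N i y‖ ^ 2 = ‖BN M N i y‖ ^ 2 := by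
      rw [norm_BN_sq_P h hi, norm_BN_sq_P hF' hi, hPd y hy]
      congr 1
      refine sum_congr rfl fun j hj => ?_
      rw [mem_Ico] at hj
      rw [P_congr (dem_ne (M := M) (u := u) (i := i) (j := j) (by omega))]
    exact (pow_left_inj₀ (norm_nonneg _) (norm_nonneg _) two_ne_zero).1 h1
  have hcrd : cr ρ (dem M i u) N i ≤ cr ρ M N i := by
    unfold cr
    refine mul_le_mul_of_nonneg_left (Real.sqrt_le_sqrt ?_) (by linarith)
    unfold rr
    refine sum_le_sum fun j hj => ?_
    rw [mem_Ico] at hj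
    refine mul_le_mul_of_nonneg_left ?_ (pow_nonneg th_nonneg _)
    rcases eq_or_ne j i with rfl | hj'
    · rw [bdim_cast hF'.1, bdim_cast h.1, dem_ne (i := j) (j := j + 1) (by omega)]
      have := finrank_dem (M := M) (i := j) hu hui
      linarith
    · rw [bdim_congr (dem_ne (M := M) (u := u) (i := i) (j := j) hj')
        (dem_ne (M := M) (u := u) (i := i) (j := j + 1) (by omega))]
  -- near-optimal body of the demoted flag
  obtain ⟨δ', hδ'0, hδ'⟩ : ∃ δ' : ℝ, 0 < δ' ∧ 2 * κ' + δ + δ' < kp :=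
    ⟨(kp - (2 * κ' + δ)) / 2, by linarith, by linarith⟩
  obtain ⟨K2, hK2, hK2v⟩ := exists_near (adm_exists (i := i) hρ hF') (A := A) m
    (mul_pos hδ'0 hAi)
  -- the mixed body
  set C : Set E := closure {x | ∃ y ∈ K2, ⟪u, y⟫ = 0 ∧ ∃ k ∈ K, x = (1 / 2 : ℝ) • y + (1 / 2 : ℝ) • k}
    with hC
  have hCc : IsClosed C := isClosed_closure
  have hsub0 : {x | ∃ y ∈ K2, ⟪u, y⟫ = 0 ∧ ∃ k ∈ K, x = (1 / 2 : ℝ) • y + (1 / 2 : ℝ) • k} ⊆ C :=
    subset_closure
  have hCv : Convex ℝ C := by
    refine Convex.closure ?_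
    rintro _ ⟨y, hy, hy0, k, hk, rfl⟩ _ ⟨y', hy', hy0', k', hk', rfl⟩ a b ha hb hab
    refine ⟨a • y + b • y', hK2.conv hy hy' ha hb hab, ?_, a • k + b • k',
      hK.conv hk hk' ha hb hab, by module⟩
    rw [inner_add_right, inner_smul_right, inner_smul_right, hy0, hy0']
    ring
  have hCs : ∀ x ∈ C, -x ∈ C := by
    intro x hx
    have h1 : C ⊆ (fun x : E => -x) ⁻¹' C := by
      refine closure_minimal ?_ (hCc.preimage continuous_neg)
      rintro _ ⟨y, hy, hy0, k, hk, rfl⟩
      refine hsub0 ⟨-y, hK2.symm _ hy, by rw [inner_neg_right, hy0, neg_zero], -k, hK.symm _ hk,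
        by module⟩
    exact h1 hx
  have hCcap : ∀ x ∈ C, ‖BN M N i x‖ ≤ cr ρ M N i := by
    intro x hx
    have h1 : C ⊆ cap ρ M N i := by
      refine closure_minimal ?_ cap_closed
      rintro _ ⟨y, hy, hy0, k, hk, rfl⟩
      refine cap_convex ?_ (hK.cap k hk) (by norm_num) (by norm_num) (by norm_num)
      show ‖BN M N i y‖ ≤ cr ρ M N i
      rw [← hBNd y hy0]
      exact (hK2.cap y hy).trans hcrd
    exact h1 hx
  -- its measure
  have hben2 := benefit (Q := H M N i ⁻¹' K) (Q2 := H M N i ⁻¹' K2) (C := H M N i ⁻¹' C) hc hu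
    (pre_closed hK.closed).measurableSet (pre_closed hK2.closed).measurableSet
    (pre_closed hCc).measurableSet (pre_convex hK.conv) (pre_symm hK.symm)
    (pre_convex hK2.conv) (pre_symm hK2.symm) (by
      intro y hy hy0 x hx
      show H M N i ((1 / 2 : ℝ) • y + (1 / 2 : ℝ) • x) ∈ C
      rw [map_add, map_smul, map_smul]
      refine hsub0 ⟨_, hy, ?_, _, hx, rfl⟩
      rw [← FC456.inner_H_left, H_own h hi hui hu']
      exact hy0) hcon
  have hgK2 : g M N i K2 = g (dem M i u) N i K2 := (hgg K2).symm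
  have hK2pos : 0 < g M N i K2 := by rw [hgK2]; exact hK2.pos
  have hprod : 0 < (stdGaussian E).real (H M N i ⁻¹' K2) * (stdGaussian E).real (H M N i ⁻¹' K) :=
    mul_pos hK2pos hK.pos
  have hCpos : 0 < g M N i C := lt_of_lt_of_le (mul_pos (Real.exp_pos _) (Real.sqrt_pos.2 hprod)) hben2
  have hCadm : Adm ρ M N i C := ⟨hCc, hCv, hCs, hCpos, hCcap⟩
  have hlog : - Real.log (g M N i C) ≤ κ' - (Real.log (g M N i K2) + Real.log (g M N i K)) / 2 := by
    have h1 := Real.log_le_log (mul_pos (Real.exp_pos _) (Real.sqrt_pos.2 hprod)) hben2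
    have p1 : (stdGaussian E).real (H M N i ⁻¹' K2) ≠ 0 := hK2pos.ne'
    have p2 : (stdGaussian E).real (H M N i ⁻¹' K) ≠ 0 := hK.pos.ne'
    rw [Real.log_mul (Real.exp_pos _).ne' (Real.sqrt_pos.2 hprod).ne', Real.log_exp,
      Real.log_sqrt hprod.le, Real.log_mul p1 p2] at h1
    have h2 : Real.log (g M N i C) = Real.log ((stdGaussian E).real (H M N i ⁻¹' C)) := rfl
    rw [h2]
    have h3 : Real.log (g M N i K2) = Real.log ((stdGaussian E).real (H M N i ⁻¹' K2)) := rfl
    have h4 : Real.log (g M N i K) = Real.log ((stdGaussian E).real (H M N i ⁻¹' K)) := rfl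
    rw [h3, h4]
    linarith
  -- its support function
  have hhs : ∀ z, hs M i C z ≤ (hs (dem M i u) i K2 z + hs M i K z) / 2 := by
    intro z
    refine hs_le hCadm.nonempty fun x hx => ?_
    have h1 : C ⊆ {x : E | ⟪z, P M i x⟫ ≤ (hs (dem M i u) i K2 z + hs M i K z) / 2} := by
      refine closure_minimal ?_ (isClosed_le (by fun_prop) continuous_const)
      rintro _ ⟨y, hy, hy0, k, hk, rfl⟩
      show ⟪z, P M i ((1 / 2 : ℝ) • y + (1 / 2 : ℝ) • k)⟫ ≤ _
      rw [map_add, map_smul, map_smul, inner_add_right, inner_smul_right, inner_smul_right,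
        ← hPd y hy0]
      have h2 := hK2.le_hs hF' hy z
      have h3 := hK.le_hs h hk z
      linarith
    exact h1 hx
  have hsum : (m.map (hs M i C)).sum
      ≤ ((m.map (hs (dem M i u) i K2)).sum + (m.map (hs M i K)).sum) / 2 := by
    refine (sum_map_le m fun z _ => hhs z).trans (le_of_eq ?_)
    have e : (fun z => (hs (dem M i u) i K2 z + hs M i K z) / 2)
        = fun z => (1 / 2 : ℝ) * (hs (dem M i u) i K2 z + hs M i K z) := by ext z; ring
    rw [e, Multiset.sum_map_mul_left, Multiset.sum_map_add]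
    ring
  have hD := D_le hCadm h hA0 m
  unfold val at hD hKv hK2v
  rw [hgg K2] at hK2v
  have h6 : A ^ i * (- Real.log (g M N i C))
      ≤ A ^ i * (κ' - (Real.log (g M N i K2) + Real.log (g M N i K)) / 2) :=
    mul_le_mul_of_nonneg_left hlog hAi.le
  have h7 : (2 * κ' + δ + δ') * A ^ i < kp * A ^ i := mul_lt_mul_of_pos_right hδ' hAi
  nlinarith

end level

end Crest.Agent.R239.FB2
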