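import Mathlib

set_option autoImplicit false

/-!
# R239 / block L2 (B1 growth): extension of a short fibre by `L = T η` towards the mode

`f t = exp (-(q (t - t0)^2)/2)` is the (unnormalised) Gaussian density on a line. If a bounded
interval `I` has length `≤ L` and `q L^2 ≤ 1/200` then the `L`-extension of `I` minus `I` has
`f`-mass at least `0.99 L f s` for every `s ∈ I`.
-/

namespace Crest.Agent.R239.Fib43

open Real MeasureTheory Set

/-- unnormalised Gaussian density on a line. -/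
noncomputable def gd (q t0 t : ℝ) : ℝ := Real.exp (-(q * (t - t0) ^ 2) / 2)

theorem gd_pos (q t0 t : ℝ) : 0 < gd q t0 t := Real.exp_pos _

theorem gd_nonneg (q t0 t : ℝ) : 0 ≤ gd q t0 t := (gd_pos q t0 t).le

theorem gd_continuous (q t0 : ℝ) : Continuous (gd q t0) := by
  unfold gd; fun_prop

theorem gd_measurable (q t0 : ℝ) : Measurable (gd q t0) := (gd_continuous q t0).measurable

theorem gd_le_of_sq {q t0 s t : ℝ} (hq : 0 ≤ q) (h : (t - t0) ^ 2 ≤ (s - t0) ^ 2) :
    gd q t0 s ≤ gd q t0 t := by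
  unfold gd
  refine Real.exp_le_exp.2 ?_
  have := mul_le_mul_of_nonneg_left h hq
  linarith

theorem gd_le_one {q t0 s : ℝ} (hq : 0 ≤ q) : gd q t0 s ≤ 1 := by
  unfold gd
  rw [Real.exp_le_one_iff]
  have := mul_nonneg hq (sq_nonneg (s - t0))
  linarith

theorem gd_ge {q t0 t L : ℝ} (hq : 0 ≤ q) (hL : q * L ^ 2 ≤ 1 / 200)
    (h : (t - t0) ^ 2 ≤ (2 * L) ^ 2) : (99 / 100 : ℝ) ≤ gd q t0 t := by
  unfold gd
  have h1 := mul_le_mul_of_nonneg_left h hq
  have h2 := Real.add_one_le_exp (-(q * (t - t0) ^ 2) / 2)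
  have h3 : q * (2 * L) ^ 2 = 4 * (q * L ^ 2) := by ring
  linarith

/-- right side works if the mode is `≥ a`. -/
theorem right_side {q t0 a b L s t : ℝ} (hq : 0 ≤ q) (_hL0 : 0 ≤ L) (hL : q * L ^ 2 ≤ 1 / 200)
    (hab : b - a ≤ L) (hs2 : s ≤ b) (hm : a ≤ t0) (ht1 : b ≤ t)
    (ht2 : t ≤ b + L) : (99 / 100 : ℝ) * gd q t0 s ≤ gd q t0 t := by
  have hsp := gd_nonneg q t0 s
  rcases le_or_gt t t0 with h | h
  · have h1 : gd q t0 s ≤ gd q t0 t := by
      refine gd_le_of_sq hq ?_
      nlinarith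
    linarith
  · have h1 : (99 / 100 : ℝ) ≤ gd q t0 t := by
      refine gd_ge hq hL ?_
      have h2 : 0 ≤ t - t0 := by linarith
      have h3 : t - t0 ≤ 2 * L := by linarith
      exact pow_le_pow_left₀ h2 h3 2
    have h2 := gd_le_one (q := q) (t0 := t0) (s := s) hq
    linarith

/-- left side works if the mode is `≤ b`. -/
theorem left_side {q t0 a b L s t : ℝ} (hq : 0 ≤ q) (hL0 : 0 ≤ L) (hL : q * L ^ 2 ≤ 1 / 200)
    (hab : b - a ≤ L) (hs1 : a ≤ s) (hm : t0 ≤ b) (ht1 : a - L ≤ t)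
    (ht2 : t ≤ a) : (99 / 100 : ℝ) * gd q t0 s ≤ gd q t0 t := by
  have h := right_side (q := q) (t0 := -t0) (a := -b) (b := -a) (L := L) (s := -s) (t := -t)
    hq hL0 hL (by linarith) (by linarith) (by linarith) (by linarith) (by linarith)
  have e : ∀ x : ℝ, gd q (-t0) (-x) = gd q t0 x := by
    intro x; unfold gd; congr 3; ring
  rwa [e, e] at h

/-- The `L`-extension of a short interval minus the interval has large mass. -/
theorem fibExt {q t0 L : ℝ} {I : Set ℝ} (hq : 0 ≤ q) (hL0 : 0 < L) (hL : q * L ^ 2 ≤ 1 / 200)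
    (hI : I.OrdConnected) (hlen : volume I ≤ ENNReal.ofReal L) {s : ℝ} (hs : s ∈ I) :
    ENNReal.ofReal (99 / 100 * L * gd q t0 s) ≤
      ∫⁻ t in {t : ℝ | ∃ u ∈ I, |t - u| ≤ L} \ I, ENNReal.ofReal (gd q t0 t) := by
  classical
  -- I is bounded
  have hdist : ∀ u ∈ I, ∀ v ∈ I, v - u ≤ L := by
    intro u hu v hv
    rcases le_or_gt v u with h | h
    · linarith
    · have hsub : Icc u v ⊆ I := hI.out hu hv
      have h1 : volume (Icc u v) ≤ ENNReal.ofReal L := (measure_mono hsub).trans hlen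
      rw [Real.volume_Icc] at h1
      exact (ENNReal.ofReal_le_ofReal_iff hL0.le).1 h1
  have hbdd : BddAbove I := ⟨s + L, fun v hv => by have := hdist s hs v hv; linarith⟩
  have hbdd' : BddBelow I := ⟨s - L, fun v hv => by have := hdist v hv s hs; linarith⟩
  have hne : I.Nonempty := ⟨s, hs⟩
  set a : ℝ := sInf I with ha
  set b : ℝ := sSup I with hb
  have has : a ≤ s := csInf_le hbdd' hs
  have hsb : s ≤ b := le_csSup hbdd hs
  have hab : b - a ≤ L := by
    have h1 : b ≤ a + L := by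
      refine csSup_le hne fun v hv => ?_
      have : v - L ≤ a := le_csInf hne fun u hu => by have := hdist u hu v hv; linarith
      linarith
    linarith
  have key : ∀ (J : Set ℝ) (hJ : MeasurableSet J) (hJv : volume J = ENNReal.ofReal L)
      (hJsub : J ⊆ {t : ℝ | ∃ u ∈ I, |t - u| ≤ L} \ I)
      (hJge : ∀ t ∈ J, (99 / 100 : ℝ) * gd q t0 s ≤ gd q t0 t),
      ENNReal.ofReal (99 / 100 * L * gd q t0 s) ≤
      ∫⁻ t in {t : ℝ | ∃ u ∈ I, |t - u| ≤ L} \ I, ENNReal.ofReal (gd q t0 t) := by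
    intro J hJ hJv hJsub hJge
    calc ENNReal.ofReal (99 / 100 * L * gd q t0 s)
        = ∫⁻ _t in J, ENNReal.ofReal (99 / 100 * gd q t0 s) := by
          rw [setLIntegral_const, hJv, ← ENNReal.ofReal_mul (by
            have := gd_nonneg q t0 s; positivity)]
          congr 1; ring
      _ ≤ ∫⁻ t in J, ENNReal.ofReal (gd q t0 t) :=
          setLIntegral_mono' hJ fun t ht => ENNReal.ofReal_le_ofReal (hJge t ht)
      _ ≤ _ := lintegral_mono_set hJsub
  rcases le_or_gt a t0 with hm | hm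
  · refine key (Ioo b (b + L)) measurableSet_Ioo (by rw [Real.volume_Ioo]; congr 1; ring) ?_ ?_
    · intro t ht
      refine ⟨?_, fun htI => absurd (le_csSup hbdd htI) (not_le.2 ht.1)⟩
      obtain ⟨u, hu, hut⟩ := exists_lt_of_lt_csSup hne (show t - L < b by linarith [ht.2])
      refine ⟨u, hu, ?_⟩
      have hub : u ≤ b := le_csSup hbdd hu
      rw [abs_le]; constructor
      · linarith [ht.1]
      · linarith
    · intro t ht
      exact right_side hq hL0.le hL hab hsb hm ht.1.le ht.2.le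
  · refine key (Ioo (a - L) a) measurableSet_Ioo (by rw [Real.volume_Ioo]; congr 1; ring) ?_ ?_
    · intro t ht
      refine ⟨?_, fun htI => absurd (csInf_le hbdd' htI) (not_le.2 ht.2)⟩
      obtain ⟨u, hu, hut⟩ := exists_lt_of_csInf_lt hne (show a < t + L by linarith [ht.1])
      refine ⟨u, hu, ?_⟩
      have hub : a ≤ u := csInf_le hbdd' hu
      rw [abs_le]; constructor
      · linarith
      · linarith [ht.2]
    · intro t ht
      exact left_side hq hL0.le hL hab has (by linarith) ht.1.le ht.2.le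

/-- mass of a short fibre: at most (length) × (sup of the density). -/
theorem fib_le {q t0 l M : ℝ} {I : Set ℝ} (hl : volume I ≤ ENNReal.ofReal l) (_hM : 0 ≤ M)
    (hsup : ∀ s ∈ I, gd q t0 s ≤ M) :
    ∫⁻ t in I, ENNReal.ofReal (gd q t0 t) ≤ ENNReal.ofReal l * ENNReal.ofReal M := by
  calc ∫⁻ t in I, ENNReal.ofReal (gd q t0 t)
      ≤ ∫⁻ _t in I, ENNReal.ofReal M := by
        refine setLIntegral_mono measurable_const fun t ht => ?_
        exact ENNReal.ofReal_le_ofReal (hsup t ht)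
    _ = ENNReal.ofReal M * volume I := by rw [setLIntegral_const]
    _ ≤ ENNReal.ofReal l * ENNReal.ofReal M := by
        rw [mul_comm]; exact mul_le_mul_left hl _

end Crest.Agent.R239.Fib43
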