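import Mathlib

/-!
# R239 (S0370), block F10, part a (helper504): the real-number part of the final step (U3)

One grid `lam i = lam0 * A ^ i` (301's form, no `tau`):

* `exists_level` : the level `I` with `lam I ≤ x < lam (I + 1)`;
* `c3_sum`, `c4_sum` : the absolute constants `C3 = 3`, `C4 = 4` from the tilt estimate at the level
  `I + 2` (`θ = 4/5`);
* `tilt_of_sum` : from the sum form of the tilt estimate to single levels;
* `grow_real` : insertion + growth ⟹ `(3/10) lam I / C1`;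
* `U3_real` : conclusion with `c = 3 η / (10 A)`, `dl = c lam0 / (C1 η)`.
-/

set_option autoImplicit false

open Finset

namespace Crest.Agent.R239.Fin504

/-- the level of a letter -/
theorem exists_level {A lam0 x : ℝ} (hA : 1 < A) (h0 : 0 < lam0) (hx : lam0 ≤ x) :
    ∃ I : ℕ, lam0 * A ^ I ≤ x ∧ x < lam0 * A ^ (I + 1) := by
  obtain ⟨n, h1, h2⟩ := exists_nat_pow_near (x := x / lam0) (y := A)
    (by rw [le_div_iff₀ h0]; linarith) hA
  refine ⟨n, ?_, ?_⟩
  · rw [le_div_iff₀ h0] at h1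
    linarith
  · rw [div_lt_iff₀ h0] at h2
    linarith

/-- sum form of the tilt estimate ⟹ single levels -/
theorem tilt_of_sum {lam0 A C8 : ℝ} {b : ℕ → ℝ} {I n : ℕ} (h0 : 0 < lam0) (hA : 0 < A)
    (hb0 : ∀ i, 0 ≤ b i) (hn : ∀ i, n ≤ i → b i = 0) (hC8 : 0 ≤ C8)
    (hT : ∑ i ∈ Ico (I + 1) n, lam0 * A ^ i * b i ≤ C8 * (lam0 * A ^ I)) {i : ℕ} (hi : I < i) :
    b i ≤ C8 * (A⁻¹) ^ (i - I) := by
  have hp : 0 < A⁻¹ := inv_pos.2 hA
  rcases le_or_gt n i with h | h
  · rw [hn i h]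
    positivity
  · have h1 : lam0 * A ^ i * b i ≤ C8 * (lam0 * A ^ I) := by
      refine le_trans ?_ hT
      refine single_le_sum (f := fun i => lam0 * A ^ i * b i) (fun j _ => ?_)
        (mem_Ico.2 ⟨hi, h⟩)
      have := hb0 j
      positivity
    obtain ⟨k, rfl⟩ := Nat.exists_eq_add_of_lt hi
    have e : I + k + 1 - I = k + 1 := by omega
    rw [e]
    have e2 : lam0 * A ^ (I + k + 1) * b (I + k + 1) =
        (lam0 * A ^ I) * (A ^ (k + 1) * b (I + k + 1)) := by
      rw [show I + k + 1 = I + (k + 1) by ring, pow_add]; ring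
    rw [e2, mul_comm C8] at h1
    have h2 : A ^ (k + 1) * b (I + k + 1) ≤ C8 := le_of_mul_le_mul_left h1 (by positivity)
    rw [inv_pow]
    have hA1 : 0 < A ^ (k + 1) := pow_pos hA _
    rw [← div_eq_mul_inv, le_div_iff₀ hA1]
    linarith

section sums

variable {b c : ℕ → ℝ} {I n : ℕ} {C8 A : ℝ}

/-- the constant `C3` -/
theorem c3_sum (hb0 : ∀ i, 0 ≤ b i) (hb1 : b I ≤ 1) (hanti : ∀ i, b (i + 1) ≤ b i)
    (hT : ∀ i, I + 2 < i → b i ≤ C8 * (A⁻¹) ^ (i - (I + 2))) (hC8 : 1 ≤ C8)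
    (hA : 40000 * C8 ≤ A) :
    ∑ j ∈ Ico I n, (5 / 4 : ℝ) ^ (2 * (j - I)) * (b j - b (j + 1)) ≤ 3 := by
  have hA0 : 0 < A := by linarith
  rw [sum_Ico_eq_sum_range]
  have key : ∀ N : ℕ, ∑ m ∈ range N, (5 / 4 : ℝ) ^ (2 * (I + m - I)) *
      (b (I + m) - b (I + m + 1)) ≤ 625 / 256 * (b I - b (I + N)) +
        1 / 2 * (1 - (1 / 2 : ℝ) ^ N) := by
    intro N
    induction N with
    | zero => simp
    | succ N ih =>
      rw [sum_range_succ]
      have e : I + N - I = N := by omega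
      rw [e]
      have hd : 0 ≤ b (I + N) - b (I + N + 1) := by linarith [hanti (I + N)]
      have hd2 : b (I + N) - b (I + N + 1) ≤ b (I + N) := by linarith [hb0 (I + N + 1)]
      have step : (5 / 4 : ℝ) ^ (2 * N) * (b (I + N) - b (I + N + 1)) ≤
          625 / 256 * (b (I + N) - b (I + N + 1)) + 1 / 2 * ((1 / 2 : ℝ) ^ (N + 1)) := by
        rcases Nat.lt_or_ge N 3 with h | h
        · have h1 : (5 / 4 : ℝ) ^ (2 * N) ≤ 625 / 256 := by
            calc (5 / 4 : ℝ) ^ (2 * N) ≤ (5 / 4) ^ 4 :=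
                  pow_le_pow_right₀ (by norm_num) (by omega)
              _ = 625 / 256 := by norm_num
          have := mul_le_mul_of_nonneg_right h1 hd
          have h2 : 0 ≤ (1 / 2 : ℝ) ^ (N + 1) := by positivity
          linarith
        · obtain ⟨k, rfl⟩ := Nat.exists_eq_add_of_le h
          have h1 := hT (I + (3 + k)) (by omega)
          have e1 : I + (3 + k) - (I + 2) = k + 1 := by omega
          rw [e1] at h1
          have h2 : (5 / 4 : ℝ) ^ (2 * (3 + k)) * (b (I + (3 + k)) - b (I + (3 + k) + 1)) ≤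
              (5 / 4 : ℝ) ^ (2 * (3 + k)) * (C8 * (A⁻¹) ^ (k + 1)) :=
            mul_le_mul_of_nonneg_left (hd2.trans h1) (by positivity)
          have h3 : (5 / 4 : ℝ) ^ (2 * (3 + k)) * (C8 * (A⁻¹) ^ (k + 1)) ≤
              1 / 2 * ((1 / 2 : ℝ) ^ (3 + k + 1)) := by
            have q1 : (25 / 16 * A⁻¹) ≤ 1 / 2 := by
              rw [← div_eq_mul_inv, div_le_iff₀ hA0]; linarith
            have q0 : 0 ≤ 25 / 16 * A⁻¹ := by positivity
            have e3 : (5 / 4 : ℝ) ^ (2 * (3 + k)) * (C8 * (A⁻¹) ^ (k + 1)) =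
                (25 / 16) ^ 2 * (C8 * (25 / 16 * A⁻¹)) * (25 / 16 * A⁻¹) ^ k := by
              rw [mul_pow (25 / 16 : ℝ) A⁻¹ k, pow_mul]
              ring
            rw [e3]
            have q2 : C8 * (25 / 16 * A⁻¹) ≤ 1 / 100 := by
              have : C8 * A⁻¹ ≤ 1 / 40000 := by
                rw [← div_eq_mul_inv, div_le_iff₀ hA0]; linarith
              linarith
            have q3 : (25 / 16 * A⁻¹) ^ k ≤ (1 / 2 : ℝ) ^ k := pow_le_pow_left₀ q0 q1 k
            have q4 : 0 ≤ C8 * (25 / 16 * A⁻¹) := by positivity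
            have q5 : 0 ≤ (1 / 2 : ℝ) ^ k := by positivity
            calc (25 / 16 : ℝ) ^ 2 * (C8 * (25 / 16 * A⁻¹)) * (25 / 16 * A⁻¹) ^ k
                ≤ (25 / 16 : ℝ) ^ 2 * (1 / 100) * (1 / 2) ^ k := by
                  refine mul_le_mul ?_ q3 (pow_nonneg q0 k) (by norm_num)
                  exact mul_le_mul_of_nonneg_left q2 (by norm_num)
              _ ≤ 1 / 2 * ((1 / 2 : ℝ) ^ (3 + k + 1)) := by
                  have : (1 / 2 : ℝ) ^ (3 + k + 1) = 1 / 16 * (1 / 2) ^ k := by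
                    rw [show 3 + k + 1 = k + 4 by ring, pow_add]; norm_num; ring
                  rw [this]
                  nlinarith
          have h4 : 0 ≤ b (I + (3 + k)) - b (I + (3 + k) + 1) := hd
          linarith
      have e2 : (1 / 2 : ℝ) ^ (N + 1) = 1 / 2 * (1 / 2) ^ N := by rw [pow_succ]; ring
      have e3 : I + (N + 1) = I + N + 1 := by ring
      rw [e3]
      rw [e2] at step ⊢
      linarith
  have h := key (n - I)
  have h1 : 0 ≤ (1 / 2 : ℝ) ^ (n - I) := by positivity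
  have h2 := hb0 (I + (n - I))
  linarith

/-- the constant `C4` (for `c i = ‖P_i v‖` or `‖Q_i v‖`) -/
theorem c4_sum (hb1 : b I ≤ 1) (hanti : ∀ i, b (i + 1) ≤ b i)
    (hc0 : ∀ i, 0 ≤ c i) (hc : ∀ i, I ≤ i → c i ^ 2 ≤ b i)
    (hT : ∀ i, I + 2 < i → b i ≤ C8 * (A⁻¹) ^ (i - (I + 2))) (hC8 : 1 ≤ C8)
    (hA : 40000 * C8 ≤ A) :
    ∑ j ∈ Ico I n, (5 / 4 : ℝ) ^ (j - I) * c j ≤ 4 := by
  have hA0 : 0 < A := by linarith
  rw [sum_Ico_eq_sum_range]
  have hbI : ∀ m, b (I + m) ≤ 1 := by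
    intro m
    induction m with
    | zero => simpa using hb1
    | succ m ih => exact (hanti (I + m)).trans ih
  have hc1 : ∀ m, c (I + m) ≤ 1 := by
    intro m
    have h1 := hc (I + m) (by omega)
    have h2 := hbI m
    have h4 := hc0 (I + m)
    nlinarith
  -- the tail
  have tail : ∀ k : ℕ, (5 / 4 : ℝ) ^ (3 + k) * c (I + (3 + k)) ≤ 3 / 16 * (1 / 2) ^ (k + 1) := by
    intro k
    have h1 := hT (I + (3 + k)) (by omega)
    have e1 : I + (3 + k) - (I + 2) = k + 1 := by omega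
    rw [e1] at h1
    have h2 := hc (I + (3 + k)) (by omega)
    have h4 : c (I + (3 + k)) ^ 2 ≤ C8 * (A⁻¹) ^ (k + 1) := by linarith
    have h5 : (5 / 4 : ℝ) ^ (3 + k) * c (I + (3 + k)) ≥ 0 :=
      mul_nonneg (by positivity) (hc0 _)
    refine abs_le_of_sq_le_sq' ?_ (by positivity) |>.2
    rw [mul_pow, ← pow_mul]
    have q1 : (25 / 4 * A⁻¹) ≤ 1 := by
      rw [← div_eq_mul_inv, div_le_iff₀ hA0]; linarith
    have q0 : 0 ≤ 25 / 4 * A⁻¹ := by positivity
    have q2 : C8 * A⁻¹ ≤ 1 / 40000 := by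
      rw [← div_eq_mul_inv, div_le_iff₀ hA0]; linarith
    have q3 : (25 / 4 * A⁻¹) ^ k ≤ 1 := pow_le_one₀ q0 q1
    calc (5 / 4 : ℝ) ^ ((3 + k) * 2) * c (I + (3 + k)) ^ 2
        ≤ (5 / 4 : ℝ) ^ ((3 + k) * 2) * (C8 * (A⁻¹) ^ (k + 1)) :=
          mul_le_mul_of_nonneg_left h4 (by positivity)
      _ = (25 / 16) ^ 3 * (C8 * A⁻¹) * ((25 / 4 * A⁻¹) ^ k * (1 / 4) ^ k) := by
          rw [← mul_pow, show (3 + k) * 2 = 2 * (3 + k) by ring, pow_mul, pow_add, pow_succ]
          have : (25 / 4 * A⁻¹ * (1 / 4)) ^ k = (25 / 16) ^ k * (A⁻¹) ^ k := by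
            rw [← mul_pow]; congr 1; ring
          rw [this]
          norm_num
          ring
      _ ≤ (25 / 16) ^ 3 * (1 / 40000) * (1 * (1 / 4) ^ k) := by
          refine mul_le_mul ?_ ?_ (by positivity) (by norm_num)
          · exact mul_le_mul_of_nonneg_left q2 (by norm_num)
          · exact mul_le_mul_of_nonneg_right q3 (by positivity)
      _ ≤ (3 / 16 * (1 / 2) ^ (k + 1)) ^ 2 := by
          have e : (3 / 16 * (1 / 2 : ℝ) ^ (k + 1)) ^ 2 = 9 / 1024 * (1 / 4) ^ k := by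
            rw [mul_pow, ← pow_mul, show (k + 1) * 2 = 2 * k + 2 by ring, pow_add, pow_mul]
            norm_num
            ring
          rw [e]
          have : 0 ≤ (1 / 4 : ℝ) ^ k := by positivity
          nlinarith
  -- sums over three terms and the tail
  have key : ∀ N : ℕ, ∑ m ∈ range (3 + N), (5 / 4 : ℝ) ^ (I + m - I) * c (I + m) ≤
      61 / 16 + 3 / 16 * (1 - (1 / 2 : ℝ) ^ N) := by
    intro N
    induction N with
    | zero =>
      have e : ∀ m, I + m - I = m := fun m => by omega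
      simp only [e]
      rw [sum_range_succ, sum_range_succ, sum_range_succ, sum_range_zero]
      have h0 : c I ≤ 1 := hc1 0
      have h1 := hc1 1
      have h2 := hc1 2
      norm_num
      linarith
    | succ N ih =>
      rw [← add_assoc, sum_range_succ]
      have e : I + (3 + N) - I = 3 + N := by omega
      rw [e]
      have h1 := tail N
      have e2 : (1 / 2 : ℝ) ^ (N + 1) = 1 / 2 * (1 / 2) ^ N := by rw [pow_succ]; ring
      rw [e2] at h1 ⊢
      linarith
  have mono : ∑ m ∈ range (n - I), (5 / 4 : ℝ) ^ (I + m - I) * c (I + m) ≤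
      ∑ m ∈ range (3 + (n - I)), (5 / 4 : ℝ) ^ (I + m - I) * c (I + m) := by
    refine sum_le_sum_of_subset_of_nonneg (range_mono (by omega)) fun m _ _ => ?_
    exact mul_nonneg (by positivity) (hc0 _)
  have h := key (n - I)
  have h1 : 0 ≤ (1 / 2 : ℝ) ^ (n - I) := by positivity
  linarith

end sums

/-- insertion + growth at one level -/
theorem grow_real {C1 lamI kin U U' J J1 J2 e0 : ℝ} (hC1 : 0 < C1) (hlam : 0 < lamI)
    (hkin : kin ≤ 9 / (100 * C1)) (hNM : U - e0 ≤ J) (he0 : e0 ≤ lamI / (100 * C1))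
    (hins : J - lamI * kin ≤ J1) (hgr : J1 + 2 / 5 * (lamI / C1) ≤ J2) (hsup : J2 ≤ U') :
    U + 3 / 10 * (lamI / C1) ≤ U' := by
  have h1 : lamI * kin ≤ lamI * (9 / (100 * C1)) := mul_le_mul_of_nonneg_left hkin hlam.le
  have e1 : lamI * (9 / (100 * C1)) = 9 / 100 * (lamI / C1) := by field_simp
  have e2 : lamI / (100 * C1) = 1 / 100 * (lamI / C1) := by field_simp
  rw [e1] at h1
  rw [e2] at he0
  linarith

/-- **(U3)**, the numbers: `x = C1 η S'` -/
theorem U3_real {A lam0 C1 η S S' dU : ℝ} (hA : 1 < A) (h0 : 0 < lam0) (hC1 : 0 < C1)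
    (hη : 0 < η) (hS : 0 ≤ S) (hmono : 0 ≤ dU)
    (h : 2 * S < S' → ∀ I : ℕ, lam0 * A ^ I ≤ C1 * η * S' → C1 * η * S' < lam0 * A ^ (I + 1) →
      3 / 10 * (lam0 * A ^ I / C1) ≤ dU) :
    3 * η / (10 * A) * (S' - 2 * S) - 3 * lam0 / (10 * A * C1) ≤ dU := by
  have hA0 : 0 < A := by linarith
  have hc : 0 < 3 * η / (10 * A) := by positivity
  have hd : 0 < 3 * lam0 / (10 * A * C1) := by positivity
  rcases le_or_gt S' (2 * S) with h1 | h1
  · have := mul_nonpos_of_nonneg_of_nonpos hc.le (by linarith : S' - 2 * S ≤ 0)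
    linarith
  · rcases lt_or_ge (C1 * η * S') lam0 with h2 | h2
    · have e : 3 * lam0 / (10 * A * C1) = 3 * η / (10 * A) * (lam0 / (C1 * η)) := by
        field_simp
      have h3 : S' ≤ lam0 / (C1 * η) := by
        rw [le_div_iff₀ (by positivity)]
        linarith
      have h4 := mul_le_mul_of_nonneg_left h3 hc.le
      have h5 := mul_nonneg hc.le hS
      rw [e]
      nlinarith
    · obtain ⟨I, hI1, hI2⟩ := exists_level hA h0 h2
      have h3 := h h1 I hI1 hI2
      refine le_trans ?_ h3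
      have h4 : C1 * η * S' ≤ A * (lam0 * A ^ I) := by
        rw [pow_succ] at hI2
        linarith
      have e : 3 / 10 * (lam0 * A ^ I / C1) = 3 / (10 * A * C1) * (A * (lam0 * A ^ I)) := by
        field_simp
      have h5 := mul_le_mul_of_nonneg_left h4 (by positivity : 0 ≤ 3 / (10 * A * C1))
      have e2 : 3 / (10 * A * C1) * (C1 * η * S') = 3 * η / (10 * A) * S' := by
        field_simp
      rw [e2, ← e] at h5
      have h6 := mul_nonneg hc.le hS
      nlinarith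

/-- the level `I + 2` dominates `S` -/
theorem S_le_level {A lam0 C1 η S S' : ℝ} {I : ℕ} (h0 : 0 < lam0) (hC1 : 0 < C1)
    (hη : 0 < η) (hA : 1 ≤ 2 * C1 * η * A) (hA0 : 0 < A) (hS : 2 * S ≤ S')
    (h : C1 * η * S' < lam0 * A ^ (I + 1)) : S ≤ lam0 * A ^ (I + 2) := by
  have h1 : C1 * η * (2 * S) ≤ lam0 * A ^ (I + 1) :=
    (mul_le_mul_of_nonneg_left hS (by positivity)).trans h.le
  have h2 : 0 < lam0 * A ^ (I + 1) := by positivity
  have e : lam0 * A ^ (I + 2) = A * (lam0 * A ^ (I + 1)) := by rw [pow_succ]; ring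
  rw [e]
  have hp : 0 < 2 * (C1 * η) := by positivity
  rw [← mul_le_mul_iff_right₀ hp]
  calc 2 * (C1 * η) * S ≤ lam0 * A ^ (I + 1) := by linarith
    _ = 1 * (lam0 * A ^ (I + 1)) := (one_mul _).symm
    _ ≤ (2 * C1 * η * A) * (lam0 * A ^ (I + 1)) := mul_le_mul_of_nonneg_right hA h2.le
    _ = 2 * (C1 * η) * (A * (lam0 * A ^ (I + 1))) := by ring

end Crest.Agent.R239.Fin504
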