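import Crest.Agent.R239.FDef
import Crest.Agent.R239.Fin504a
import Crest.Agent.R239.Ins_556b
import Crest.Agent.R239.L0_942

/-!
# R239 (S0370), block F10 (helper504): final step (U3) over `FDef` (ellipsoid cap, one grid), wiring

* `Ut` : `J_le_Ut`, `Ut_nonneg`, `Ut_near`, `Ut_mono`, `Ut_cons` (from `P_U2`, `P_J0`, `P_D_mono`);
* `k_pos`, `rr_ge` : the trace `V.rr I` is at least `th ^ 2` from the tilt estimate;
* `U3t` : `P_INS`, `P_GROWTH`, `P_T1`, `P_D_mono` ⟹ `P_U3t`;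
* `target_U3 : Target_GROWTH → Target_T1 → Target_INS → Target_U2 → Target_U3`;
* `S0370_of_targets : Target_U3 → Target_U2 → ` the statement of S0370.
-/

set_option autoImplicit false
set_option linter.unusedSectionVars false

open MeasureTheory ProbabilityTheory Finset
open scoped RealInnerProductSpace

namespace Crest.Agent.R239.Fin504

open Crest.Agent.R239.FD
open Crest.Agent.R239.Ins556 (Qp Hc norm_sq_Qp norm_sq_Hc)

variable {E : Type*} [NormedAddCommGroup E] [InnerProductSpace ℝ E] [FiniteDimensional ℝ E]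
  [MeasurableSpace E] [BorelSpace E]

/-! ### the functional `Ut` -/

section Ut

variable {p : Par} {C : ℝ}

theorem J_bdd (h2 : P_U2 E p C) (h0 : P_J0 E p) (V : Flag E) (μ : Multiset E) :
    J p V μ ≤ C * Real.sqrt (Module.finrank ℝ E) * (μ.map fun z => ‖z‖).sum := by
  induction μ using Multiset.induction with
  | empty => simpa using h0 V
  | cons z μ ih =>
    rw [Multiset.map_cons, Multiset.sum_cons]
    have := h2 V z μ
    nlinarith

theorem bdd_J (h2 : P_U2 E p C) (h0 : P_J0 E p) (μ : Multiset E) :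
    BddAbove (Set.range fun V : Flag E => J p V μ) := by
  refine ⟨C * Real.sqrt (Module.finrank ℝ E) * (μ.map fun z => ‖z‖).sum, ?_⟩
  rintro _ ⟨V, rfl⟩
  exact J_bdd h2 h0 V μ

theorem J_le_Ut {μ : Multiset E} (hb : BddAbove (Set.range fun V : Flag E => J p V μ))
    (V : Flag E) : J p V μ ≤ Ut p μ := le_csSup hb ⟨V, rfl⟩

/-- the zero flag -/
def triv : Flag E := ⟨0, fun _ => ⊥, fun _ _ _ => le_rfl, fun _ _ => rfl⟩

theorem J_triv (p : Par) (μ : Multiset E) : J p (triv : Flag E) μ = 0 := by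
  unfold J triv
  simp

theorem Ut_nonneg {μ : Multiset E} (hb : BddAbove (Set.range fun V : Flag E => J p V μ)) :
    0 ≤ Ut p μ := by
  have := J_le_Ut hb (triv : Flag E)
  rwa [J_triv] at this

theorem range_ne (p : Par) (μ : Multiset E) : (Set.range fun V : Flag E => J p V μ).Nonempty :=
  ⟨_, triv, rfl⟩

theorem Ut_near {μ : Multiset E} (hb : BddAbove (Set.range fun V : Flag E => J p V μ)) {e : ℝ}
    (he : 0 < e) : ∃ V : Flag E, Ut p μ - e ≤ J p V μ ∧ NearMax p V μ e := by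
  obtain ⟨_, ⟨V, rfl⟩, hV⟩ := exists_lt_of_lt_csSup (range_ne p μ)
    (show Ut p μ - e < sSup (Set.range fun V : Flag E => J p V μ) by unfold Ut; linarith)
  refine ⟨V, hV.le, fun V' => ?_⟩
  have h1 := J_le_Ut hb V'
  simp only at hV
  linarith

theorem J_mono (hm : P_D_mono E p) (V : Flag E) (s : Multiset (E × E)) :
    J p V (s.map fun q => q.1 + q.2) ≤ J p V (s.map Prod.fst + s.map Prod.snd) :=
  sum_le_sum fun i _ => sub_le_sub_right (hm V i s) _

theorem Ut_mono (hm : P_D_mono E p) (s : Multiset (E × E))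
    (hb : BddAbove (Set.range fun V : Flag E => J p V (s.map Prod.fst + s.map Prod.snd))) :
    Ut p (s.map fun q => q.1 + q.2) ≤ Ut p (s.map Prod.fst + s.map Prod.snd) := by
  refine csSup_le (range_ne p _) ?_
  rintro _ ⟨V, rfl⟩
  exact (J_mono hm V s).trans (J_le_Ut hb V)

theorem Ut_cons (h2 : P_U2 E p C) (z : E) (μ : Multiset E)
    (hb : BddAbove (Set.range fun V : Flag E => J p V μ)) :
    Ut p (z ::ₘ μ) ≤ Ut p μ + C * Real.sqrt (Module.finrank ℝ E) * ‖z‖ := by
  refine csSup_le (range_ne p _) ?_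
  rintro _ ⟨V, rfl⟩
  exact (h2 V z μ).trans (add_le_add_left (J_le_Ut hb V) _)

/-- growth at one level -/
theorem J_grow (hm : P_D_mono E p) {V : Flag E} {I : ℕ} (hI : I < V.n) {s : Multiset (E × E)}
    {g : ℝ} (hD : D p V I (s.map fun q => q.1 + q.2) + g ≤
      D p V I (s.map Prod.fst + s.map Prod.snd)) :
    J p V (s.map fun q => q.1 + q.2) + g ≤ J p V (s.map Prod.fst + s.map Prod.snd) := by
  have h1 : D p V I (s.map Prod.fst + s.map Prod.snd) - D p V I (s.map fun q => q.1 + q.2) ≤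
      ∑ i ∈ range V.n, (D p V i (s.map Prod.fst + s.map Prod.snd) -
        D p V i (s.map fun q => q.1 + q.2)) :=
    single_le_sum (f := fun i => D p V i (s.map Prod.fst + s.map Prod.snd) -
      D p V i (s.map fun q => q.1 + q.2)) (fun i _ => sub_nonneg.2 (hm V i s))
      (mem_range.2 hI)
  have h2 : J p V (s.map Prod.fst + s.map Prod.snd) - J p V (s.map fun q => q.1 + q.2) =
      ∑ i ∈ range V.n, (D p V i (s.map Prod.fst + s.map Prod.snd) -
        D p V i (s.map fun q => q.1 + q.2)) := by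
    unfold J
    rw [← sum_sub_distrib]
    exact sum_congr rfl fun i _ => by ring
  linarith

end Ut

/-! ### flags -/

section flag

variable (V : Flag E) (v : E)

theorem b_nonneg (i : ℕ) : 0 ≤ V.b v i := sq_nonneg _

theorem norm_P_le (i : ℕ) : ‖V.P i v‖ ≤ ‖v‖ := Submodule.norm_starProjection_apply_le _ _

theorem b_le_one (hv : ‖v‖ = 1) (i : ℕ) : V.b v i ≤ 1 := by
  have h := norm_P_le V v i
  rw [hv] at h
  exact pow_le_one₀ (norm_nonneg _) h

theorem b_anti (i : ℕ) : V.b v (i + 1) ≤ V.b v i := by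
  have h := norm_sq_Qp V.anti i v
  have h2 : 0 ≤ ‖Qp V.M i v‖ ^ 2 := sq_nonneg _
  rw [h] at h2
  unfold Flag.b Flag.P
  linarith

theorem b_zero {i : ℕ} (hi : V.n ≤ i) : V.b v i = 0 := by
  have key : ∀ (M : Submodule ℝ E), M = ⊥ → ‖M.starProjection v‖ ^ 2 = 0 := by
    rintro M rfl; simp
  exact key _ (V.bot i hi)

theorem b_congr {V' : Flag E} {i : ℕ} (h : V'.M i = V.M i) : V'.b v i = V.b v i := by
  have key : ∀ (M M' : Submodule ℝ E), M = M' →
      ‖M.starProjection v‖ ^ 2 = ‖M'.starProjection v‖ ^ 2 := by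
    rintro M _ rfl; rfl
  exact key _ _ h

/-- norm of the inverse root -/
theorem norm_Hi (I : ℕ) : ‖V.Hi I v‖ ^ 2 =
    ∑ j ∈ Ico I V.n, (5 / 4 : ℝ) ^ (2 * (j - I)) * (V.b v j - V.b v (j + 1)) := by
  have e : V.Hi I v = Hc V.M (th⁻¹) V.n I v := rfl
  rw [e, norm_sq_Hc V.anti]
  refine sum_congr rfl fun j _ => ?_
  rw [norm_sq_Qp V.anti, pow_mul]
  have e2 : (th⁻¹ : ℝ) = 5 / 4 := by unfold th; norm_num
  rw [e2]
  rfl

/-- the cap gauge of `v` -/
theorem N_eq (I : ℕ) : V.N I v =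
    ∑ j ∈ Ico I V.n, (5 / 4 : ℝ) ^ (j - I) * (V.b v j - V.b v (j + 1)) := by
  unfold Flag.N
  refine sum_congr rfl fun j _ => ?_
  have e : V.Q j v = Qp V.M j v := rfl
  rw [e, norm_sq_Qp V.anti]
  have e2 : (th⁻¹ : ℝ) = 5 / 4 := by unfold th; norm_num
  rw [e2]
  rfl

/-- the gauge is at most `‖Hi v‖²` -/
theorem N_le_Hi (I : ℕ) : V.N I v ≤ ‖V.Hi I v‖ ^ 2 := by
  rw [N_eq, norm_Hi]
  refine sum_le_sum fun j _ => ?_
  refine mul_le_mul_of_nonneg_right ?_ (sub_nonneg.2 (b_anti V v j))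
  exact pow_le_pow_right₀ (by norm_num) (by omega)

/-- a block between `I` and `I + 2` is not zero -/
theorem k_pos {I : ℕ} (h : V.b v (I + 3) < V.b v I) :
    ∃ j, I ≤ j ∧ j ≤ I + 2 ∧ j < V.n ∧ 1 ≤ V.k j := by
  have hlt : Module.finrank ℝ (V.M (I + 3)) < Module.finrank ℝ (V.M I) := by
    apply Submodule.finrank_lt_finrank_of_lt
    refine lt_of_le_of_ne (V.anti (by omega)) fun heq => ?_
    have := b_congr V v (V' := V) (i := I + 3) rfl
    have key : ∀ (M M' : Submodule ℝ E), M = M' →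
        ‖M.starProjection v‖ ^ 2 = ‖M'.starProjection v‖ ^ 2 := by
      rintro M _ rfl; rfl
    have h2 := key _ _ heq
    unfold Flag.b Flag.P at h
    rw [h2] at h
    exact lt_irrefl _ h
  have hk : 1 ≤ V.k I ∨ 1 ≤ V.k (I + 1) ∨ 1 ≤ V.k (I + 2) := by
    unfold Flag.k
    have e1 : I + 1 + 1 = I + 2 := rfl
    have e2 : I + 2 + 1 = I + 3 := rfl
    rw [e1, e2]
    omega
  have hn : ∀ j, 1 ≤ V.k j → j < V.n := by
    intro j hj
    by_contra hcon
    have hb := V.bot j (not_lt.1 hcon)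
    unfold Flag.k at hj
    rw [hb, finrank_bot] at hj
    omega
  rcases hk with h1 | h1 | h1
  · exact ⟨I, le_rfl, by omega, hn _ h1, h1⟩
  · exact ⟨I + 1, by omega, by omega, hn _ h1, h1⟩
  · exact ⟨I + 2, by omega, le_rfl, hn _ h1, h1⟩

/-- the trace of level `I` is at least `th ^ 2` -/
theorem rr_ge {I : ℕ} (h : V.b v (I + 3) < V.b v I) : th ^ 2 ≤ V.rr I := by
  obtain ⟨j, hj1, hj2, hj3, hj4⟩ := k_pos V v h
  have ht : (th : ℝ) = 4 / 5 := rfl
  unfold Flag.rr
  have h1 : th ^ (j - I) * (V.k j : ℝ) ≤ ∑ j ∈ Ico I V.n, th ^ (j - I) * (V.k j : ℝ) := by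
    refine single_le_sum (f := fun j => th ^ (j - I) * (V.k j : ℝ)) (fun i _ => ?_)
      (mem_Ico.2 ⟨hj1, hj3⟩)
    rw [ht]
    positivity
  refine le_trans ?_ h1
  have h2 : th ^ 2 ≤ th ^ (j - I) := by
    rw [ht]
    exact pow_le_pow_of_le_one (by norm_num) (by norm_num) (by omega)
  have h3 : (1 : ℝ) ≤ (V.k j : ℝ) := by exact_mod_cast hj4
  have h4 : 0 ≤ th ^ (j - I) := by rw [ht]; positivity
  nlinarith

end flag

/-! ### the step -/

/-- **(U3) at the level of the letter** -/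
theorem U3t {p : Par} (hp : p.Ok) {C1 eta C8 dl C : ℝ} (hC1 : 1 ≤ C1) (heta : 0 < eta)
    (hC8 : 1 ≤ C8) (hdl : 0 < dl) (h2 : P_U2 E p C) (h0 : P_J0 E p) (hm : P_D_mono E p)
    (hI : P_INS E p) (hG : P_GROWTH E p C1 3 3 eta) (hT : P_T1 E p C8 dl)
    (hA1 : 1 ≤ 2 * C1 * eta * p.A) (hA2 : 40000 * C8 ≤ p.A)
    (hkin : p.kap + 8 / p.rho ^ 2 + 2 / (p.A * th ^ 2) ≤ 9 / (100 * C1)) :
    P_U3t E p C1 eta (3 * eta / (10 * p.A)) := by
  intro I v s hv hs hl1 hl2
  set mg := s.map fun q => q.1 + q.2 with hmg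
  set sp := s.map Prod.fst + s.map Prod.snd with hsp
  have hC0 : 0 < C1 := by linarith
  have hA0 : 0 < p.A := by linarith [hp.A_ge]
  have hτ := hp.tau_pos
  have hlI : 0 < p.lam I := by unfold Par.lam; positivity
  have hSnn : 0 ≤ S mg v := by
    refine Multiset.sum_nonneg fun x hx => ?_
    obtain ⟨z, _, rfl⟩ := Multiset.mem_map.1 hx
    exact abs_nonneg _
  have hSp : 0 < S sp v := by linarith
  have hb1 := bdd_J h2 h0 (E := E) mg
  have hb2 := bdd_J h2 h0 (E := E) sp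
  -- near-maximiser
  set e0 : ℝ := min (dl * p.tau) (p.lam I / (100 * C1)) with he0
  have he0p : 0 < e0 := lt_min (by positivity) (by positivity)
  obtain ⟨V, hV1, hV2⟩ := Ut_near hb1 he0p
  have hV3 : NearMax p V mg (dl * p.tau) := fun V' => (hV2 V').trans (by
    have := min_le_left (dl * p.tau) (p.lam I / (100 * C1))
    linarith)
  -- tilt
  have hS2 : S mg v ≤ p.lam (I + 2) :=
    S_le_level (A := p.A) (lam0 := p.tau) (S' := S sp v) hτ hC0 heta hA1 hA0 hs.le (by
      have e : p.tau * p.A ^ (I + 1) = p.A * p.lam I := by unfold Par.lam; ring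
      rw [e]; exact hl2)
  have hT1 := hT V mg (I + 2) v hv hS2 hV3
  have htilt : ∀ i, I + 2 < i → V.b v i ≤ C8 * (p.A⁻¹) ^ (i - (I + 2)) := fun i hi =>
    tilt_of_sum (lam0 := p.tau) (n := V.n) hτ hA0 (b_nonneg V v) (fun i h => b_zero V v h)
      (by linarith) hT1 hi
  -- insertion
  obtain ⟨V', hM1, hM2, hJ⟩ := hI V mg v I hv
  have hvI : v ∈ V'.M I := by
    rw [hM2 I le_rfl]
    exact (le_sup_right : Submodule.span ℝ {v} ≤ _) (Submodule.mem_span_singleton_self v)
  have hIn : I < V'.n := by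
    by_contra hcon
    rw [V'.bot I (not_lt.1 hcon)] at hvI
    rw [Submodule.mem_bot] at hvI
    rw [hvI, norm_zero] at hv
    exact zero_ne_one hv
  have hbc : ∀ i, I < i → V'.b v i = V.b v i := fun i hi => b_congr V v (hM1 i hi)
  have htilt' : ∀ i, I + 2 < i → V'.b v i ≤ C8 * (p.A⁻¹) ^ (i - (I + 2)) := fun i hi => by
    rw [hbc i (by omega)]; exact htilt i hi
  have h3 : ‖V'.Hi I v‖ ^ 2 ≤ 3 := by
    rw [norm_Hi]
    exact c3_sum (b_nonneg V' v) (b_le_one V' v hv I) (b_anti V' v) htilt' hC8 hA2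
  have h4 : V'.N I v ≤ 3 := (N_le_Hi V' v I).trans h3
  have h5 : th ^ 2 ≤ V'.rr I := by
    refine rr_ge V' v ?_
    have e1 : V'.b v I = 1 := by
      have e : V'.P I v = v := Submodule.starProjection_eq_self_iff.2 hvI
      unfold Flag.b
      rw [e, hv, one_pow]
    rw [e1]
    refine lt_of_le_of_lt (htilt' (I + 3) (by omega)) ?_
    have e2 : I + 3 - (I + 2) = 1 := by omega
    rw [e2, pow_one, ← div_eq_mul_inv, div_lt_one hA0]
    linarith
  -- growth
  set eta' : ℝ := p.lam I / (C1 * S sp v) with heta'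
  have hCS : 0 < C1 * S sp v := by positivity
  have he1 : 0 < eta' := by positivity
  have he2 : eta' ≤ eta := by
    rw [heta', div_le_iff₀ hCS]; linarith
  have he3 : C1 * eta' * S sp v = p.lam I := by
    rw [heta']; field_simp
  have hg := hG V' I v s eta' hv hvI h3 h4 h5 hs he1 he2 he3
  have hJ2 := J_grow hm hIn hg
  have hJ3 := J_le_Ut hb2 V'
  -- numbers
  have key := grow_real (U := Ut p mg) (U' := Ut p sp) (J := J p V mg) (J1 := J p V' mg)
    (J2 := J p V' sp) (e0 := e0) hC0 hlI hkin hV1 (min_le_right _ _) hJ hJ2 hJ3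
  have h6 : 3 * eta / (10 * p.A) * S sp v ≤ 3 / 10 * (p.lam I / C1) := by
    have e : 3 * eta / (10 * p.A) * S sp v = 3 / (10 * p.A * C1) * (C1 * eta * S sp v) := by
      field_simp
    have e2 : 3 / 10 * (p.lam I / C1) = 3 / (10 * p.A * C1) * (p.A * p.lam I) := by
      field_simp
    rw [e, e2]
    exact mul_le_mul_of_nonneg_left hl2.le (by positivity)
  linarith

/-- **F10** -/
theorem target_U3 (hG : Target_GROWTH) (hT : Target_T1) (hI : Target_INS) (hU : Target_U2) :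
    Target_U3 := by
  obtain ⟨C1, hC1, hG⟩ := hG
  obtain ⟨eta, heta, heta1, hG⟩ := hG 3 3
  have hC0 : 0 < C1 := by linarith
  obtain ⟨C8, dl, rho0, A0, hC8, hdl, hT⟩ := hT (1 / (400 * C1)) (by positivity) (by
    rw [div_le_one (by positivity)]; linarith)
  set rho : ℝ := max rho0 (80 * C1) with hrho
  have hr1 : 80 * C1 ≤ rho := le_max_right _ _
  have hr0 : 0 < rho := by linarith
  set A : ℝ := max A0 (16 + 1 / (2 * C1 * eta) + 40000 * max C8 1 + 2500 * C1) with hAdef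
  have hA1 : A0 ≤ A := le_max_left _ _
  have hA2 : 16 + 1 / (2 * C1 * eta) + 40000 * max C8 1 + 2500 * C1 ≤ A := le_max_right _ _
  have hm1 : 1 ≤ max C8 1 := le_max_right _ _
  have hce : 0 < 2 * C1 * eta := by positivity
  have hce' : 0 < 1 / (2 * C1 * eta) := by positivity
  have hA16 : 16 ≤ A := by linarith
  have hA0 : 0 < A := by linarith
  have hrr : 6400 * C1 ≤ rho ^ 2 := by
    have h1 : (80 * C1) ^ 2 ≤ rho ^ 2 := pow_le_pow_left₀ (by positivity) hr1 2
    nlinarith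
  have hok : (⟨rho, 1 / (400 * C1), A, 1⟩ : Par).Ok := by
    refine ⟨one_pos, hA16, by positivity, ?_, ?_, ?_⟩
    · show 1 / (400 * C1) ≤ 1
      rw [div_le_one (by positivity)]; linarith
    · show 16 ≤ rho
      linarith
    · show 16 ≤ 1 / (400 * C1) * rho ^ 2
      rw [div_mul_eq_mul_div, one_mul, le_div_iff₀ (by positivity)]
      linarith
  refine ⟨C1, eta, 3 * eta / (10 * A), ⟨rho, 1 / (400 * C1), A, 1⟩, hC1, heta, by positivity,
    hok, rfl, fun d => ?_⟩
  obtain ⟨C, hC, hU⟩ := hU _ hok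
  obtain ⟨u1, u2, u3⟩ := hU d
  have hT' := hT d ⟨rho, 1 / (400 * C1), A, 1⟩ hok rfl (le_max_left _ _) hA1
  have hT2 : P_T1 (EuclideanSpace ℝ (Fin d)) ⟨rho, 1 / (400 * C1), A, 1⟩ (max C8 1) dl := by
    intro V μ I v hv hS hN
    refine (hT' V μ I v hv hS hN).trans ?_
    refine mul_le_mul_of_nonneg_right (le_max_left _ _) ?_
    show 0 ≤ 1 * A ^ I
    positivity
  refine U3t hok hC1 heta hm1 hdl u1 u2 u3 (hI d _ hok) (hG d _ hok) hT2 ?_ ?_ ?_
  · show 1 ≤ 2 * C1 * eta * A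
    have h1 : 1 / (2 * C1 * eta) ≤ A := by linarith
    rw [div_le_iff₀ hce] at h1
    linarith
  · show 40000 * max C8 1 ≤ A
    linarith
  · show 1 / (400 * C1) + 8 / rho ^ 2 + 2 / (A * th ^ 2) ≤ 9 / (100 * C1)
    have h1 : 8 / rho ^ 2 ≤ 1 / (800 * C1) := by
      rw [div_le_div_iff₀ (by positivity) (by positivity)]
      linarith
    have h2 : 2 / (A * th ^ 2) ≤ 1 / (800 * C1) := by
      unfold th
      rw [div_le_div_iff₀ (by positivity) (by positivity)]
      nlinarith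
    have e : 9 / (100 * C1) = 18 * (1 / (400 * C1)) + 18 * (1 / (400 * C1)) := by
      field_simp
      norm_num
    have e3 : 1 / (800 * C1) = 1 / 2 * (1 / (400 * C1)) := by
      field_simp
      norm_num
    have e4 : 0 < 1 / (400 * C1) := by positivity
    rw [e]
    rw [e3] at h1 h2
    linarith

/-! ### the end -/

/-- **S0370 from (U3) and the soft layer** -/
theorem S0370_of_targets (h3 : Target_U3) (hU : Target_U2) :
    ∃ C : ℝ, ∀ (d N : ℕ) (v : Fin N → EuclideanSpace ℝ (Fin d)),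
      (∀ i, ‖v i‖ ≤ 1) →
      ∃ ε : Fin N → ℤ, (∀ i, ε i = 1 ∨ ε i = -1) ∧
        ∀ k : ℕ, k ≤ N →
          ‖∑ i ∈ Finset.univ.filter (fun i : Fin N => (i : ℕ) < k), (ε i : ℝ) • v i‖
            ≤ C * Real.sqrt d := by
  obtain ⟨C1, eta, c, p, hC1, heta, hc, hp, htau, h3⟩ := h3
  have hC0 : 0 < C1 := by linarith
  have hA0 : 0 < p.A := by linarith [hp.A_ge]
  have hA1 : 1 < p.A := by linarith [hp.A_ge]
  obtain ⟨C, hC, hU⟩ := hU p hp
  have hbd : ∀ (d : ℕ) (μ : Multiset (EuclideanSpace ℝ (Fin d))),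
      BddAbove (Set.range fun V : Flag (EuclideanSpace ℝ (Fin d)) => J p V μ) :=
    fun d μ => bdd_J (hU d).1 (hU d).2.1 μ
  refine L0.S0370_of_U C c (c / (C1 * eta)) hc (fun d μ => Ut p μ) ?_ ?_ ?_ ?_
  · intro d μ
    exact Ut_nonneg (hbd d μ)
  · intro d s
    exact Ut_mono (hU d).2.2 s (hbd d _)
  · intro d z μ
    have := Ut_cons (hU d).1 z μ (hbd d μ)
    rwa [finrank_euclideanSpace_fin] at this
  · intro d v s hv
    set mg := L0.mrg s with hmg
    set sp := L0.spl s with hsp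
    have hmono : 0 ≤ Ut p sp - Ut p mg := sub_nonneg.2 (Ut_mono (hU d).2.2 s (hbd d _))
    have hS0 : 0 ≤ L0.S mg v := L0.S_nonneg _ _
    have hS1 : 0 ≤ L0.S sp v := L0.S_nonneg _ _
    have hce : 0 < C1 * eta := by positivity
    have hdl : 0 < c / (C1 * eta) := by positivity
    have hcS : 0 ≤ c * L0.S mg v := mul_nonneg hc.le hS0
    show c * (L0.S sp v - 2 * L0.S mg v) - c / (C1 * eta) ≤ Ut p sp - Ut p mg
    rcases le_or_gt (L0.S sp v) (2 * L0.S mg v) with h1 | h1
    · have : c * (L0.S sp v - 2 * L0.S mg v) ≤ 0 :=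
        mul_nonpos_of_nonneg_of_nonpos hc.le (by linarith)
      linarith
    · rcases lt_or_ge (C1 * eta * L0.S sp v) 1 with hx | hx
      · have h5 : c * L0.S sp v ≤ c / (C1 * eta) := by
          rw [le_div_iff₀ hce]
          have := mul_le_mul_of_nonneg_left hx.le hc.le
          linarith
        linarith
      · obtain ⟨I, hI1, hI2⟩ := exists_level (lam0 := 1) hA1 one_pos hx
        have hlam : p.lam I = 1 * p.A ^ I := by unfold Par.lam; rw [htau]
        have key := h3 d I v s hv h1 (by rw [hlam]; exact hI1) (by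
          rw [hlam]
          have e : p.A * (1 * p.A ^ I) = 1 * p.A ^ (I + 1) := by ring
          rw [e]; exact hI2)
        have h8 : Ut p mg + c * L0.S sp v ≤ Ut p sp := key
        linarith

end Crest.Agent.R239.Fin504
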