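import Mathlib
import Crest.Agent.R239.FDef
import Crest.Agent.R239.L0_942

/-! R239 / S0370, helper288: final assembly `Target_U2 → Target_U3 → S0370` over `FDef`. -/

set_option autoImplicit false
open MeasureTheory ProbabilityTheory
open scoped RealInnerProductSpace

namespace Crest.Agent.R239.Fin288

open Crest.Agent.R239.FD

variable {E : Type*} [NormedAddCommGroup E] [InnerProductSpace ℝ E] [FiniteDimensional ℝ E]
  [MeasurableSpace E] [BorelSpace E]

lemma S_eq (μ : Multiset E) (v : E) : FD.S μ v = L0.S μ v := rfl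

/-- the zero flag -/
def flag0 : Flag E := ⟨0, fun _ => ⊥, fun _ _ _ => le_rfl, fun _ _ => rfl⟩

lemma J_flag0 (p : Par) (μ : Multiset E) : J p (flag0 : Flag E) μ = 0 := by
  simp [J, flag0]

lemma J_le {p : Par} {C : ℝ} (h2 : P_U2 E p C) (h0 : P_J0 E p) (V : Flag E) (μ : Multiset E) :
    J p V μ ≤ (μ.map fun z => C * Real.sqrt (Module.finrank ℝ E) * ‖z‖).sum := by
  induction μ using Multiset.induction_on with
  | empty => simpa using h0 V
  | cons z μ ih =>
    rw [Multiset.map_cons, Multiset.sum_cons]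
    have := h2 V z μ
    linarith

lemma bdd {p : Par} {C : ℝ} (h2 : P_U2 E p C) (h0 : P_J0 E p) (μ : Multiset E) :
    BddAbove (Set.range fun V : Flag E => J p V μ) := by
  refine ⟨(μ.map fun z => C * Real.sqrt (Module.finrank ℝ E) * ‖z‖).sum, ?_⟩
  rintro _ ⟨V, rfl⟩
  exact J_le h2 h0 V μ

lemma le_Ut {p : Par} {C : ℝ} (h2 : P_U2 E p C) (h0 : P_J0 E p) (V : Flag E) (μ : Multiset E) :
    J p V μ ≤ Ut p μ := le_csSup (bdd h2 h0 μ) ⟨V, rfl⟩

lemma Ut_le {p : Par} {μ : Multiset E} {b : ℝ} (h : ∀ V : Flag E, J p V μ ≤ b) : Ut p μ ≤ b := by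
  refine csSup_le ⟨_, ⟨flag0, rfl⟩⟩ ?_
  rintro _ ⟨V, rfl⟩
  exact h V

lemma Ut_nonneg {p : Par} {C : ℝ} (h2 : P_U2 E p C) (h0 : P_J0 E p) (μ : Multiset E) :
    0 ≤ Ut p μ := by
  have := le_Ut h2 h0 (flag0 : Flag E) μ
  rwa [J_flag0] at this

lemma J_mono {p : Par} (h1 : P_D_mono E p) (V : Flag E) (s : Multiset (E × E)) :
    J p V (s.map fun q => q.1 + q.2) ≤ J p V (s.map Prod.fst + s.map Prod.snd) := by
  refine Finset.sum_le_sum fun i _ => ?_
  have := h1 V i s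
  linarith

lemma Ut_mono {p : Par} {C : ℝ} (h2 : P_U2 E p C) (h0 : P_J0 E p) (h1 : P_D_mono E p)
    (s : Multiset (E × E)) :
    Ut p (s.map fun q => q.1 + q.2) ≤ Ut p (s.map Prod.fst + s.map Prod.snd) :=
  Ut_le fun V => (J_mono h1 V s).trans (le_Ut h2 h0 V _)

lemma Ut_cons {p : Par} {C : ℝ} (h2 : P_U2 E p C) (h0 : P_J0 E p) (z : E) (μ : Multiset E) :
    Ut p (z ::ₘ μ) ≤ Ut p μ + C * Real.sqrt (Module.finrank ℝ E) * ‖z‖ :=
  Ut_le fun V => (h2 V z μ).trans (by have := le_Ut h2 h0 V μ; linarith)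

/-- final assembly -/
theorem final (hU2 : Target_U2) (hU3 : Target_U3) :
    ∃ C : ℝ, ∀ (d N : ℕ) (v : Fin N → EuclideanSpace ℝ (Fin d)),
      (∀ i, ‖v i‖ ≤ 1) →
      ∃ ε : Fin N → ℤ, (∀ i, ε i = 1 ∨ ε i = -1) ∧
        ∀ k : ℕ, k ≤ N →
          ‖∑ i ∈ Finset.univ.filter (fun i : Fin N => (i : ℕ) < k), (ε i : ℝ) • v i‖
            ≤ C * Real.sqrt d := by
  obtain ⟨C1, eta, c, p, hC1, heta, hc, hp, htau, h3⟩ := hU3
  obtain ⟨C, hC, h2⟩ := hU2 p hp
  have hA : 1 < p.A := by have := hp.A_ge; linarith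
  refine L0.S0370_of_U C c (c / (C1 * eta)) hc (fun d μ => Ut p μ)
    (fun d m => Ut_nonneg (h2 d).1 (h2 d).2.1 m)
    (fun d s => Ut_mono (h2 d).1 (h2 d).2.1 (h2 d).2.2 s) (fun d z m => ?_) (fun d v s hv => ?_)
  · have := Ut_cons (h2 d).1 (h2 d).2.1 z m
    rwa [finrank_euclideanSpace_fin] at this
  · have hmono := Ut_mono (h2 d).1 (h2 d).2.1 (h2 d).2.2 s
    have hC1e : 0 < C1 * eta := by positivity
    have hdl : 0 ≤ c / (C1 * eta) := by positivity
    have hS : 0 ≤ L0.S (L0.mrg s) v := L0.S_nonneg _ _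
    change c * (L0.S (L0.spl s) v - 2 * L0.S (L0.mrg s) v) - c / (C1 * eta)
      ≤ Ut p (s.map Prod.fst + s.map Prod.snd) - Ut p (s.map fun q => q.1 + q.2)
    rcases le_or_gt (L0.S (L0.spl s) v) (2 * L0.S (L0.mrg s) v) with h | h
    · nlinarith
    · rcases lt_or_ge (C1 * eta * L0.S (L0.spl s) v) 1 with h' | h'
      · have : c * L0.S (L0.spl s) v ≤ c / (C1 * eta) := by
          rw [le_div_iff₀ hC1e]
          nlinarith
        nlinarith
      · obtain ⟨I, hI1, hI2⟩ := exists_nat_pow_near h' hA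
        have := h3 d I v s hv h (by
          change p.tau * p.A ^ I ≤ _
          rw [htau, one_mul]; exact hI1) (by
          change _ < p.A * (p.tau * p.A ^ I)
          rw [htau, one_mul, ← pow_succ']; exact hI2)
        change Ut p (s.map fun q => q.1 + q.2) + c * L0.S (L0.spl s) v
          ≤ Ut p (s.map Prod.fst + s.map Prod.snd) at this
        nlinarith

end Crest.Agent.R239.Fin288
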