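import Crest.Agent.R239.FDef
import Crest.Agent.R239.L0_942

/-!
R239 (S0370), final wiring, helper942: (U1), (U2), `J(0) ≤ 0` and the growth of `Ut` at the fitting
level give the literal conclusion of S0370.
-/

set_option autoImplicit false
set_option linter.unusedSectionVars false
open MeasureTheory ProbabilityTheory
open scoped RealInnerProductSpace

namespace Crest.Agent.R239.Fin942

open Crest.Agent.R239.FD
open Crest.Agent.R239 (gau)

section one

variable {E : Type*} [NormedAddCommGroup E] [InnerProductSpace ℝ E] [FiniteDimensional ℝ E]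
  [MeasurableSpace E] [BorelSpace E]

/-- the trivial flag -/
def triv (E : Type*) [NormedAddCommGroup E] [InnerProductSpace ℝ E] : Flag E where
  n := 0
  M _ := ⊥
  anti _ _ _ := le_rfl
  bot _ _ := rfl

theorem J_triv (p : Par) (μ : Multiset E) : J p (triv E) μ = 0 := by
  simp [J, triv]

theorem J_le {p : Par} {C : ℝ} (h2 : P_U2 E p C) (h0 : P_J0 E p) (V : Flag E) (μ : Multiset E) :
    J p V μ ≤ (μ.map fun z => C * Real.sqrt (Module.finrank ℝ E) * ‖z‖).sum := by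
  induction μ using Multiset.induction_on with
  | empty => simpa using h0 V
  | cons z μ ih =>
    rw [Multiset.map_cons, Multiset.sum_cons]
    have := h2 V z μ
    linarith

theorem J_bdd {p : Par} {C : ℝ} (h2 : P_U2 E p C) (h0 : P_J0 E p) (μ : Multiset E) :
    BddAbove (Set.range fun V : Flag E => J p V μ) := by
  refine ⟨(μ.map fun z => C * Real.sqrt (Module.finrank ℝ E) * ‖z‖).sum, ?_⟩
  rintro _ ⟨V, rfl⟩
  exact J_le h2 h0 V μ

theorem J_le_Ut {p : Par} {C : ℝ} (h2 : P_U2 E p C) (h0 : P_J0 E p) (V : Flag E)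
    (μ : Multiset E) : J p V μ ≤ Ut p μ :=
  le_csSup (J_bdd h2 h0 μ) ⟨V, rfl⟩

theorem Ut_nonneg {p : Par} {C : ℝ} (h2 : P_U2 E p C) (h0 : P_J0 E p) (μ : Multiset E) :
    0 ≤ Ut p μ := by
  have := J_le_Ut h2 h0 (triv E) μ
  rwa [J_triv] at this

theorem Ut_le {p : Par} {μ : Multiset E} {a : ℝ} (h : ∀ V : Flag E, J p V μ ≤ a) :
    Ut p μ ≤ a := by
  refine csSup_le ⟨_, ⟨triv E, rfl⟩⟩ ?_
  rintro _ ⟨V, rfl⟩
  exact h V

theorem J_mono {p : Par} (h1 : P_D_mono E p) (V : Flag E) (s : Multiset (E × E)) :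
    J p V (s.map fun q => q.1 + q.2) ≤ J p V (s.map Prod.fst + s.map Prod.snd) := by
  unfold J
  refine Finset.sum_le_sum fun i _ => ?_
  have := h1 V i s
  linarith

theorem Ut_mono {p : Par} {C : ℝ} (h2 : P_U2 E p C) (h0 : P_J0 E p) (h1 : P_D_mono E p)
    (s : Multiset (E × E)) :
    Ut p (s.map fun q => q.1 + q.2) ≤ Ut p (s.map Prod.fst + s.map Prod.snd) :=
  Ut_le fun V => (J_mono h1 V s).trans (J_le_Ut h2 h0 V _)

theorem Ut_cons {p : Par} {C : ℝ} (h2 : P_U2 E p C) (h0 : P_J0 E p) (z : E) (μ : Multiset E) :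
    Ut p (z ::ₘ μ) ≤ Ut p μ + C * Real.sqrt (Module.finrank ℝ E) * ‖z‖ :=
  Ut_le fun V => (h2 V z μ).trans (by linarith [J_le_Ut h2 h0 V μ])

end one

/-- the fitting level -/
theorem exists_level {p : Par} (hp : p.Ok) {x : ℝ} (hx : p.tau ≤ x) :
    ∃ I : ℕ, p.lam I ≤ x ∧ x < p.A * p.lam I := by
  have hA : 1 < p.A := by linarith [hp.A_ge]
  have h1 : 1 ≤ x / p.tau := by rwa [le_div_iff₀ hp.tau_pos, one_mul]
  obtain ⟨I, hI, hI'⟩ := exists_nat_pow_near h1 hA
  refine ⟨I, ?_, ?_⟩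
  · rw [le_div_iff₀ hp.tau_pos] at hI
    unfold Par.lam
    linarith
  · rw [div_lt_iff₀ hp.tau_pos] at hI'
    unfold Par.lam
    calc x < p.A ^ (I + 1) * p.tau := hI'
      _ = p.A * (p.tau * p.A ^ I) := by ring

/-- S0370 from one parameter set -/
theorem S0370_of_par (p : Par) (hp : p.Ok) (C c K : ℝ) (hc : 0 < c) (hK : 0 < K)
    (h2 : ∀ d : ℕ, P_U2 (EuclideanSpace ℝ (Fin d)) p C)
    (h0 : ∀ d : ℕ, P_J0 (EuclideanSpace ℝ (Fin d)) p)
    (h1 : ∀ d : ℕ, P_D_mono (EuclideanSpace ℝ (Fin d)) p)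
    (h3 : ∀ (d I : ℕ) (v : EuclideanSpace ℝ (Fin d))
      (s : Multiset (EuclideanSpace ℝ (Fin d) × EuclideanSpace ℝ (Fin d))), ‖v‖ = 1 →
      2 * FD.S (s.map fun q => q.1 + q.2) v < FD.S (s.map Prod.fst + s.map Prod.snd) v →
      p.lam I ≤ K * FD.S (s.map Prod.fst + s.map Prod.snd) v →
      K * FD.S (s.map Prod.fst + s.map Prod.snd) v < p.A * p.lam I →
      Ut p (s.map fun q => q.1 + q.2) + c * FD.S (s.map Prod.fst + s.map Prod.snd) v
        ≤ Ut p (s.map Prod.fst + s.map Prod.snd)) :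
    ∃ C : ℝ, ∀ (d N : ℕ) (v : Fin N → EuclideanSpace ℝ (Fin d)),
      (∀ i, ‖v i‖ ≤ 1) →
      ∃ ε : Fin N → ℤ, (∀ i, ε i = 1 ∨ ε i = -1) ∧
        ∀ k : ℕ, k ≤ N →
          ‖∑ i ∈ Finset.univ.filter (fun i : Fin N => (i : ℕ) < k), (ε i : ℝ) • v i‖
            ≤ C * Real.sqrt d := by
  refine L0.S0370_of_U C c (c * (p.tau / K)) hc (fun d μ => Ut p μ)
    (fun d μ => Ut_nonneg (h2 d) (h0 d) μ) (fun d s => Ut_mono (h2 d) (h0 d) (h1 d) s) ?_ ?_
  · intro d z m
    have := Ut_cons (h2 d) (h0 d) z m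
    rwa [finrank_euclideanSpace_fin] at this
  · intro d v s hv
    change c * (FD.S (s.map Prod.fst + s.map Prod.snd) v - 2 * FD.S (s.map fun q => q.1 + q.2) v)
      - c * (p.tau / K) ≤ Ut p (s.map Prod.fst + s.map Prod.snd) - Ut p (s.map fun q => q.1 + q.2)
    have hm := Ut_mono (h2 d) (h0 d) (h1 d) s
    have hS : 0 ≤ FD.S (s.map fun q => q.1 + q.2) v := L0.S_nonneg _ _
    have hdl : 0 ≤ c * (p.tau / K) := mul_nonneg hc.le (div_nonneg hp.tau_pos.le hK.le)
    set S' := FD.S (s.map Prod.fst + s.map Prod.snd) v with hS'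
    set S0 := FD.S (s.map fun q => q.1 + q.2) v with hS0
    rcases le_or_gt S' (2 * S0) with h | h
    · have : c * (S' - 2 * S0) ≤ 0 := mul_nonpos_of_nonneg_of_nonpos hc.le (by linarith)
      linarith
    · rcases lt_or_ge (K * S') p.tau with h4 | h4
      · have h5 : S' ≤ p.tau / K := by
          rw [le_div_iff₀ hK]
          linarith
        have : c * (S' - 2 * S0) ≤ c * (p.tau / K) :=
          mul_le_mul_of_nonneg_left (by linarith) hc.le
        linarith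
      · obtain ⟨I, hI, hI'⟩ := exists_level hp h4
        have h5 := h3 d I v s hv h hI hI'
        have : c * (S' - 2 * S0) ≤ c * S' := mul_le_mul_of_nonneg_left (by linarith) hc.le
        linarith

/-- final wiring: U2 and U3 (one grid, `tau = 1`) give the literal S0370 -/
theorem S0370_of_targets (hU2 : Target_U2) (hU3 : Target_U3) :
    ∃ C : ℝ, ∀ (d N : ℕ) (v : Fin N → EuclideanSpace ℝ (Fin d)),
      (∀ i, ‖v i‖ ≤ 1) →
      ∃ ε : Fin N → ℤ, (∀ i, ε i = 1 ∨ ε i = -1) ∧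
        ∀ k : ℕ, k ≤ N →
          ‖∑ i ∈ Finset.univ.filter (fun i : Fin N => (i : ℕ) < k), (ε i : ℝ) • v i‖
            ≤ C * Real.sqrt d := by
  obtain ⟨C1, eta, c, p, hC1, heta, hc, hp, -, h3⟩ := hU3
  obtain ⟨C, -, h⟩ := hU2 p hp
  exact S0370_of_par p hp C c (C1 * eta) hc (by positivity) (fun d => (h d).1)
    (fun d => (h d).2.1) (fun d => (h d).2.2)
    (fun d I v s hv h1 h2 h4 => h3 d I v s hv h1 h2 h4)

end Crest.Agent.R239.Fin942
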