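import Mathlib
import Crest.Agent.R239.FDef
import Crest.Agent.R239.FlagAlg_557

/-! R239 (583's proof, T1 at V^s), helper732: rotation in COVARIANCE form.
`P_{TM} = T P_M T + c (T w) (T w)^T`, `w = P_M v`, `c = sb / (1 - sb |w|^2)`. -/

set_option autoImplicit false
set_option linter.unusedSectionVars false
open MeasureTheory ProbabilityTheory Set
open scoped RealInnerProductSpace

namespace Crest.Agent.R239.RotCov732

open Crest.Agent.R239 Crest.Agent.R239.FD

variable {E : Type*} [NormedAddCommGroup E] [InnerProductSpace ℝ E] [FiniteDimensional ℝ E]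

lemma Ts_comm (v : E) (s : ℝ) (x y : E) : ⟪Ts v s x, y⟫ = ⟪x, Ts v s y⟫ := by
  rw [Ts_apply, Ts_apply, inner_sub_left, inner_sub_right, real_inner_smul_left,
    real_inner_smul_right, real_inner_comm v x]
  ring

variable {v : E} (hv : ‖v‖ = 1)
include hv

lemma inner_Ts_Ts (s : ℝ) (x y : E) :
    ⟪Ts v s x, Ts v s y⟫ = ⟪x, y⟫ - (2 * s - s ^ 2) * ⟪v, x⟫ * ⟪v, y⟫ := by
  have h1 : ⟪v, v⟫ = (1 : ℝ) := by rw [real_inner_self_eq_norm_sq, hv]; norm_num
  simp only [Ts_apply, inner_sub_left, inner_sub_right, inner_smul_left, inner_smul_right, h1]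
  simp only [RCLike.conj_to_real, real_inner_comm v x]
  ring

lemma norm_Ts_sq (s : ℝ) (x : E) :
    ‖Ts v s x‖ ^ 2 = ‖x‖ ^ 2 - (2 * s - s ^ 2) * ⟪v, x⟫ ^ 2 := by
  have := inner_Ts_Ts hv s x x
  rw [real_inner_self_eq_norm_sq, real_inner_self_eq_norm_sq] at this
  rw [this]; ring

lemma Ts_Ts (s : ℝ) (x : E) : Ts v s (Ts v s x) = x - ((2 * s - s ^ 2) * ⟪v, x⟫) • v := by
  refine ext_inner_right ℝ fun y => ?_
  rw [Ts_comm, inner_Ts_Ts hv, inner_sub_left, real_inner_smul_left]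

omit hv in
lemma inner_proj_self (v : E) (M : Submodule ℝ E) :
    ⟪v, M.starProjection v⟫ = ‖M.starProjection v‖ ^ 2 := by
  have h1 : ⟪v - M.starProjection v, M.starProjection v⟫ = 0 :=
    Submodule.starProjection_inner_eq_zero _ _ (Submodule.starProjection_apply_mem _ _)
  rw [inner_sub_left, real_inner_self_eq_norm_sq] at h1
  linarith

omit hv in
lemma inner_v_proj (M : Submodule ℝ E) (x : E) :
    ⟪v, M.starProjection x⟫ = ⟪M.starProjection v, x⟫ := by
  rw [Submodule.inner_starProjection_left_eq_right]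

omit hv in
lemma inner_proj_mem (M : Submodule ℝ E) (x : E) {m : E} (hm : m ∈ M) :
    ⟪M.starProjection x, m⟫ = ⟪x, m⟫ := by
  have h1 : ⟪x - M.starProjection x, m⟫ = 0 :=
    Submodule.starProjection_inner_eq_zero _ _ hm
  rw [inner_sub_left] at h1
  linarith

/-- covariance form of the rotation formula -/
theorem proj_map (M : Submodule ℝ E) (s : ℝ) (t : E)
    (hb : 1 - (2 * s - s ^ 2) * ‖M.starProjection v‖ ^ 2 ≠ 0) :
    (M.map (Ts v s).toLinearMap).starProjection t =
      Ts v s (M.starProjection (Ts v s t)) +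
        ((2 * s - s ^ 2) / (1 - (2 * s - s ^ 2) * ‖M.starProjection v‖ ^ 2)
          * ⟪Ts v s (M.starProjection v), t⟫) • Ts v s (M.starProjection v) := by
  set sb := 2 * s - s ^ 2 with hsb
  set w := M.starProjection v with hw
  set b := ‖w‖ ^ 2 with hbd
  have hwM : w ∈ M := Submodule.starProjection_apply_mem _ _
  apply Submodule.eq_starProjection_of_mem_of_inner_eq_zero
  · refine Submodule.add_mem _ ?_ (Submodule.smul_mem _ _ ?_)
    · exact Submodule.mem_map_of_mem (f := (Ts v s).toLinearMap)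
        (Submodule.starProjection_apply_mem _ _)
    · exact Submodule.mem_map_of_mem (f := (Ts v s).toLinearMap) hwM
  · intro y hy
    obtain ⟨m, hm, rfl⟩ := Submodule.mem_map.mp hy
    change ⟪t - _, Ts v s m⟫ = 0
    rw [inner_sub_left, inner_add_left, real_inner_smul_left, inner_Ts_Ts hv, inner_Ts_Ts hv,
      ← hsb, inner_proj_mem M _ hm, inner_v_proj, ← hw, inner_proj_self v M, ← hw, ← hbd,
      inner_proj_mem M v hm, ← Ts_comm v s t m, ← Ts_comm v s w t]
    have e : sb / (1 - sb * b) * ⟪Ts v s w, t⟫ * (⟪v, m⟫ - sb * b * ⟪v, m⟫)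
        = sb * ⟪Ts v s w, t⟫ * ⟪v, m⟫ := by
      field_simp
    rw [e]
    ring

omit hv in
lemma norm_proj_sq (M : Submodule ℝ E) (t : E) :
    ‖M.starProjection t‖ ^ 2 = ⟪M.starProjection t, t⟫ := by
  rw [real_inner_comm, ← inner_proj_mem M t (Submodule.starProjection_apply_mem M t),
    real_inner_self_eq_norm_sq]

theorem norm_proj_map_sq (M : Submodule ℝ E) (s : ℝ) (t : E)
    (hb : 1 - (2 * s - s ^ 2) * ‖M.starProjection v‖ ^ 2 ≠ 0) :
    ‖(M.map (Ts v s).toLinearMap).starProjection t‖ ^ 2 =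
      ‖M.starProjection (Ts v s t)‖ ^ 2 +
        (2 * s - s ^ 2) / (1 - (2 * s - s ^ 2) * ‖M.starProjection v‖ ^ 2)
          * ⟪Ts v s (M.starProjection v), t⟫ ^ 2 := by
  rw [norm_proj_sq, proj_map hv M s t hb, inner_add_left, real_inner_smul_left, Ts_comm,
    ← norm_proj_sq]
  ring

/-- `P_{TN} T P_M v = ((1 - sb b_M)/(1 - sb b_N)) T P_N v` for `N ≤ M` -/
theorem proj_map_proj {M N : Submodule ℝ E} (hNM : N ≤ M) (s : ℝ)
    (hb : 1 - (2 * s - s ^ 2) * ‖N.starProjection v‖ ^ 2 ≠ 0) :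
    (N.map (Ts v s).toLinearMap).starProjection (Ts v s (M.starProjection v)) =
      ((1 - (2 * s - s ^ 2) * ‖M.starProjection v‖ ^ 2)
        / (1 - (2 * s - s ^ 2) * ‖N.starProjection v‖ ^ 2)) • Ts v s (N.starProjection v) := by
  rw [proj_map hv N s _ hb, Ts_Ts hv, inner_Ts_Ts hv]
  set sb := 2 * s - s ^ 2 with hsb
  set w := M.starProjection v with hw
  set u := N.starProjection v with hu
  have h1 : N.starProjection w = u := by
    rw [hw, hu]
    exact ProjRot557.P_P_of_le hNM v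
  have h2 : ⟪v, w⟫ = ‖w‖ ^ 2 := inner_proj_self v M
  have h3 : ⟪v, u⟫ = ‖u‖ ^ 2 := inner_proj_self v N
  have h4 : ⟪u, w⟫ = ‖u‖ ^ 2 := by
    rw [hu, Submodule.inner_starProjection_left_eq_right, h1, h3]
  rw [map_sub, map_smul, h1, h2, h3, h4]
  have h5 : u - (sb * ‖w‖ ^ 2) • u = (1 - sb * ‖w‖ ^ 2) • u := by rw [sub_smul, one_smul]
  have h6 : N.starProjection v = u := rfl
  rw [h6, h5, map_smul, ← add_smul]
  congr 1
  field_simp
  ring

end Crest.Agent.R239.RotCov732
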