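import Mathlib
import Crest.Agent.R239.FDef
import Crest.Agent.R239.FlagAlg_557
import Crest.Agent.R239.RotCov_732
import Crest.Agent.R239.CmpCov_732

/-! R239 (583's proof, T1 at V^s), helper732: one level under rotation, covariance form. -/

set_option autoImplicit false
set_option linter.unusedSectionVars false
open MeasureTheory ProbabilityTheory Set
open scoped RealInnerProductSpace

namespace Crest.Agent.R239.FlagCov732

open Crest.Agent.R239 Crest.Agent.R239.FD Crest.Agent.R239.RotCov732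

variable {E : Type*} [NormedAddCommGroup E] [InnerProductSpace ℝ E] [FiniteDimensional ℝ E]

/-! ### bridge to FlagAlg557 -/

lemma P_eq (V : Flag E) (j : ℕ) : V.P j = FlagAlg557.P V.M j := rfl
lemma Q_eq (V : Flag E) (j : ℕ) : V.Q j = FlagAlg557.Q V.M j := rfl
lemma H_eq (V : Flag E) (i : ℕ) :
    V.H i = FlagAlg557.comb V.M i V.n fun j => th ^ (j - i) := rfl
lemma Hi_eq (V : Flag E) (i : ℕ) :
    V.Hi i = FlagAlg557.comb V.M i V.n fun j => (th⁻¹) ^ (j - i) := rfl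

lemma th_pos : (0 : ℝ) < th := by norm_num [th]
lemma th_lt : th < 1 := by norm_num [th]

lemma bot_n (V : Flag E) : V.M V.n = ⊥ := V.bot _ le_rfl

lemma P_n (V : Flag E) (x : E) : V.P V.n x = 0 := by
  rw [P_eq]; exact FlagAlg557.P_eq_zero (bot_n V) x

lemma P_of_ge (V : Flag E) {j : ℕ} (hj : V.n ≤ j) (x : E) : V.P j x = 0 := by
  rw [P_eq]; exact FlagAlg557.P_eq_zero (V.bot j hj) x

lemma H_Hi (V : Flag E) {i : ℕ} (hi : i ≤ V.n) (x : E) : V.H i (V.Hi i x) = V.P i x := by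
  rw [H_eq, Hi_eq, FlagAlg557.comb_comb V.anti, P_eq,
    ← FlagAlg557.comb_one V.anti hi (bot_n V) x]
  congr 1
  unfold FlagAlg557.comb
  refine Finset.sum_congr rfl fun j _ => ?_
  dsimp only
  rw [← mul_pow, mul_inv_cancel₀ th_pos.ne', one_pow]

lemma H_comm (V : Flag E) (i : ℕ) (x y : E) : ⟪V.H i x, y⟫ = ⟪x, V.H i y⟫ := by
  rw [H_eq]; exact FlagAlg557.inner_comb_comm i V.n _ x y

lemma Hi_comm (V : Flag E) (i : ℕ) (x y : E) : ⟪V.Hi i x, y⟫ = ⟪x, V.Hi i y⟫ := by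
  rw [Hi_eq]; exact FlagAlg557.inner_comb_comm i V.n _ x y

/-- Abel summation -/
lemma abel_sum (a c : ℕ → ℝ) {i n : ℕ} (h : i < n) (hn : a n = 0) :
    ∑ j ∈ Finset.Ico i n, c j * (a j - a (j + 1))
      = c i * a i + ∑ j ∈ Finset.Ico (i + 1) n, (c j - c (j - 1)) * a j := by
  have key : ∀ m, i + 1 ≤ m → ∑ j ∈ Finset.Ico i m, c j * (a j - a (j + 1))
      = c i * a i + ∑ j ∈ Finset.Ico (i + 1) m, (c j - c (j - 1)) * a j - c (m - 1) * a m := by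
    intro m hm
    induction m, hm using Nat.le_induction with
    | base =>
      rw [Nat.Ico_succ_singleton, Finset.sum_singleton]
      simp
      ring
    | succ m hm ih =>
      rw [Finset.sum_Ico_succ_top (by omega), ih, Finset.sum_Ico_succ_top hm,
        Nat.add_sub_cancel]
      ring
  rw [key n h, hn]
  ring

/-- weights of the covariance form -/
noncomputable def wt (m : ℕ) : ℝ := (1 - th ^ 2) * (th ^ (m - 1)) ^ 2

lemma wt_nonneg (m : ℕ) : 0 ≤ wt m := by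
  unfold wt
  have : (0 : ℝ) ≤ 1 - th ^ 2 := by norm_num [th]
  positivity

theorem norm_H_sq (V : Flag E) {i : ℕ} (hi : i < V.n) (x : E) :
    ‖V.H i x‖ ^ 2 = ‖V.P i x‖ ^ 2
      - ∑ j ∈ Finset.Ico (i + 1) V.n, wt (j - i) * ‖V.P j x‖ ^ 2 := by
  rw [H_eq, FlagAlg557.norm_comb_sq V.anti]
  have h1 : ∀ j ∈ Finset.Ico i V.n, (th ^ (j - i)) ^ 2 * ‖FlagAlg557.Q V.M j x‖ ^ 2
      = (th ^ (j - i)) ^ 2 * (‖V.P j x‖ ^ 2 - ‖V.P (j + 1) x‖ ^ 2) := by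
    intro j _
    rw [FlagAlg557.norm_Q_sq' V.anti]; rfl
  rw [Finset.sum_congr rfl h1, abel_sum (fun j => ‖V.P j x‖ ^ 2) (fun j => (th ^ (j - i)) ^ 2) hi
    (by simp [P_n])]
  simp only [Nat.sub_self, pow_zero, one_pow, one_mul]
  rw [sub_eq_add_neg, ← Finset.sum_neg_distrib]
  congr 1
  refine Finset.sum_congr rfl fun j hj => ?_
  have hj' := (Finset.mem_Ico.1 hj).1
  obtain ⟨m, hm⟩ : ∃ m, j - i = m + 1 := ⟨j - i - 1, by omega⟩
  have e : j - 1 - i = m := by omega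
  rw [hm, e, wt, Nat.add_sub_cancel]
  ring

theorem N_eq (V : Flag E) {i : ℕ} (hi : i < V.n) (x : E) :
    V.N i x = ‖V.P i x‖ ^ 2
      + ∑ j ∈ Finset.Ico (i + 1) V.n, omN (j - i) * ‖V.P j x‖ ^ 2 := by
  unfold Flag.N
  have h1 : ∀ j ∈ Finset.Ico i V.n, (th⁻¹) ^ (j - i) * ‖V.Q j x‖ ^ 2
      = (th⁻¹) ^ (j - i) * (‖V.P j x‖ ^ 2 - ‖V.P (j + 1) x‖ ^ 2) := by
    intro j _
    rw [Q_eq, FlagAlg557.norm_Q_sq' V.anti]; rfl
  rw [Finset.sum_congr rfl h1, abel_sum (fun j => ‖V.P j x‖ ^ 2) (fun j => (th⁻¹) ^ (j - i)) hi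
    (by simp [P_n])]
  simp only [Nat.sub_self, pow_zero, one_mul]
  congr 1
  refine Finset.sum_congr rfl fun j hj => ?_
  have hj' := (Finset.mem_Ico.1 hj).1
  obtain ⟨m, hm⟩ : ∃ m, j - i = m + 1 := ⟨j - i - 1, by omega⟩
  have e : j - 1 - i = m := by omega
  rw [hm, e, omN, pow_succ]
  have : th ≠ 0 := th_pos.ne'
  field_simp

/-- `<Hi v, x>` by Abel summation -/
theorem inner_Hi (V : Flag E) {i : ℕ} (hi : i < V.n) (v x : E) :
    ⟪V.Hi i v, x⟫ = ⟪V.P i v, x⟫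
      + ∑ j ∈ Finset.Ico (i + 1) V.n, omN (j - i) * ⟪V.P j v, x⟫ := by
  rw [Hi_eq, FlagAlg557.comb_apply, sum_inner]
  have h1 : ∀ j ∈ Finset.Ico i V.n, ⟪(th⁻¹) ^ (j - i) • FlagAlg557.Q V.M j v, x⟫
      = (th⁻¹) ^ (j - i) * (⟪V.P j v, x⟫ - ⟪V.P (j + 1) v, x⟫) := by
    intro j _
    rw [real_inner_smul_left, FlagAlg557.Q_apply, inner_sub_left]; rfl
  rw [Finset.sum_congr rfl h1, abel_sum (fun j => ⟪V.P j v, x⟫) (fun j => (th⁻¹) ^ (j - i)) hi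
    (by simp [P_n])]
  simp only [Nat.sub_self, pow_zero, one_mul]
  congr 1
  refine Finset.sum_congr rfl fun j hj => ?_
  have hj' := (Finset.mem_Ico.1 hj).1
  obtain ⟨m, hm⟩ : ∃ m, j - i = m + 1 := ⟨j - i - 1, by omega⟩
  have e : j - 1 - i = m := by omega
  rw [hm, e, omN, pow_succ]
  have : th ≠ 0 := th_pos.ne'
  field_simp

/-! ### the rotated flag -/

section rot

variable {v : E} (hv : ‖v‖ = 1) {s : ℝ} (hs0 : 0 < s) (hs1 : s < 1) (V : Flag E)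
include hv hs0 hs1

omit hv hs0 hs1 in
lemma rot_n : (V.rot v s).n = V.n := rfl

omit hs0 hs1 in
lemma b_le_one (j : ℕ) : V.b v j ≤ 1 := by
  unfold Flag.b
  have h : ‖V.P j v‖ ≤ ‖v‖ := (V.M j).norm_starProjection_apply_le v
  rw [hv] at h
  have := norm_nonneg (V.P j v)
  nlinarith

omit hv hs0 hs1 in
lemma b_nonneg (j : ℕ) : 0 ≤ V.b v j := by unfold Flag.b; positivity

omit hv hs0 hs1 in
lemma b_anti {i j : ℕ} (h : i ≤ j) : V.b v j ≤ V.b v i := by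
  unfold Flag.b
  have h1 : ‖V.P j v‖ ≤ ‖V.P i v‖ := FlagAlg557.norm_P_anti V.anti h v
  have := norm_nonneg (V.P j v)
  gcongr

omit hv hs0 hs1 in
lemma b_n {j : ℕ} (h : V.n ≤ j) : V.b v j = 0 := by
  unfold Flag.b
  rw [P_of_ge V h]; simp

omit hv in
lemma sb_pos : 0 < 2 * s - s ^ 2 := by nlinarith

omit hv in
lemma sb_lt : 2 * s - s ^ 2 < 1 := by nlinarith

lemma den_ge (j : ℕ) : 1 - (2 * s - s ^ 2) ≤ 1 - (2 * s - s ^ 2) * V.b v j := by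
  have h1 := b_le_one hv V j
  have h2 := sb_pos hs0 hs1
  nlinarith

lemma den_pos (j : ℕ) : 0 < 1 - (2 * s - s ^ 2) * V.b v j := by
  have := den_ge hv hs0 hs1 V j
  have := sb_lt hs0 hs1
  linarith

/-- `T w_j` -/
lemma Tw_mem (j : ℕ) : Ts v s (V.P j v) ∈ (V.rot v s).M j :=
  Submodule.mem_map_of_mem (f := (Ts v s).toLinearMap) (Submodule.starProjection_apply_mem _ _)

theorem norm_rot_P_sq (j : ℕ) (t : E) :
    ‖(V.rot v s).P j t‖ ^ 2 = ‖V.P j (Ts v s t)‖ ^ 2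
      + (2 * s - s ^ 2) / (1 - (2 * s - s ^ 2) * V.b v j) * ⟪Ts v s (V.P j v), t⟫ ^ 2 :=
  norm_proj_map_sq hv (V.M j) s t (den_pos hv hs0 hs1 V j).ne'

/-- covariance identity of level `i` -/
theorem cov_identity {i : ℕ} (hi : i < V.n) (t : E) :
    ‖V.H i (Ts v s t)‖ ^ 2
        + (2 * s - s ^ 2) / (1 - (2 * s - s ^ 2) * V.b v i) * ⟪Ts v s (V.P i v), t⟫ ^ 2
      = ‖(V.rot v s).H i t‖ ^ 2 + ∑ j ∈ Finset.Ico (i + 1) V.n, wt (j - i) *
        ((2 * s - s ^ 2) / (1 - (2 * s - s ^ 2) * V.b v j) * ⟪Ts v s (V.P j v), t⟫ ^ 2) := by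
  rw [norm_H_sq V hi, norm_H_sq (V.rot v s) (i := i) hi, norm_rot_P_sq hv hs0 hs1 V i t]
  have e : ∀ j ∈ Finset.Ico (i + 1) V.n, wt (j - i) * ‖(V.rot v s).P j t‖ ^ 2
      = wt (j - i) * ‖V.P j (Ts v s t)‖ ^ 2 + wt (j - i) *
        ((2 * s - s ^ 2) / (1 - (2 * s - s ^ 2) * V.b v j) * ⟪Ts v s (V.P j v), t⟫ ^ 2) := by
    intro j _
    rw [norm_rot_P_sq hv hs0 hs1 V j t]; ring
  rw [rot_n, Finset.sum_congr rfl e, Finset.sum_add_distrib]
  ring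

/-- the vectors `u_j = Hi'_i T w_j` -/
noncomputable def uu (V : Flag E) (v : E) (s : ℝ) (i j : ℕ) : E :=
  (V.rot v s).Hi i (Ts v s (V.P j v))

omit hv hs0 hs1 in
lemma rot_P_of_mem {j : ℕ} {x : E} (hx : x ∈ (V.rot v s).M j) : (V.rot v s).P j x = x :=
  Submodule.starProjection_eq_self_iff.2 hx

/-- `P'_l T w_j` for `j ≤ l` -/
lemma rot_P_Tw {j l : ℕ} (h : j ≤ l) : (V.rot v s).P l (Ts v s (V.P j v))
    = ((1 - (2 * s - s ^ 2) * V.b v j) / (1 - (2 * s - s ^ 2) * V.b v l)) •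
      Ts v s (V.P l v) :=
  proj_map_proj hv (V.anti h) s (den_pos hv hs0 hs1 V l).ne'

omit hs0 hs1 in
lemma norm_Tw_sq (j : ℕ) : ‖Ts v s (V.P j v)‖ ^ 2
    = V.b v j - (2 * s - s ^ 2) * V.b v j ^ 2 := by
  rw [norm_Ts_sq hv]
  have : ⟪v, V.P j v⟫ = V.b v j := inner_proj_self v (V.M j)
  rw [this]; rfl

lemma norm_Tw_sq_le (j : ℕ) : ‖Ts v s (V.P j v)‖ ^ 2 ≤ V.b v j := by
  rw [norm_Tw_sq hv]
  have := sb_pos hs0 hs1
  nlinarith [sq_nonneg (V.b v j)]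

lemma ratio_le {j l : ℕ} (h : j ≤ l) :
    (1 - (2 * s - s ^ 2) * V.b v j) / (1 - (2 * s - s ^ 2) * V.b v l) ≤ 1 := by
  rw [div_le_one (den_pos hv hs0 hs1 V l)]
  have := b_anti V (v := v) h
  have := sb_pos hs0 hs1
  nlinarith

lemma ratio_nonneg (j l : ℕ) :
    0 ≤ (1 - (2 * s - s ^ 2) * V.b v j) / (1 - (2 * s - s ^ 2) * V.b v l) :=
  div_nonneg (den_pos hv hs0 hs1 V j).le (den_pos hv hs0 hs1 V l).le

lemma norm_rot_P_Tw_sq_le {j l : ℕ} (h : j ≤ l) :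
    ‖(V.rot v s).P l (Ts v s (V.P j v))‖ ^ 2 ≤ V.b v l := by
  rw [rot_P_Tw hv hs0 hs1 V h, norm_smul, mul_pow, Real.norm_eq_abs, sq_abs]
  have h1 := ratio_le hv hs0 hs1 V h
  have h2 := ratio_nonneg hv hs0 hs1 V j l
  have h3 := norm_Tw_sq_le hv hs0 hs1 V l
  have h4 : ((1 - (2 * s - s ^ 2) * V.b v j) / (1 - (2 * s - s ^ 2) * V.b v l)) ^ 2 ≤ 1 := by
    nlinarith
  have h5 := sq_nonneg ‖Ts v s (V.P l v)‖
  nlinarith

/-- size of `u_j` -/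
theorem norm_uu_sq_le {i j : ℕ} (hij : i ≤ j) (hj : j ≤ V.n) :
    ‖uu V v s i j‖ ^ 2 ≤ ∑ l ∈ Finset.Ico j V.n, ((th⁻¹) ^ (l - i)) ^ 2 * V.b v l := by
  unfold uu
  rw [Hi_eq, FlagAlg557.norm_comb_sq (V.rot v s).anti, rot_n,
    ← Finset.sum_Ico_consecutive _ hij hj]
  have h1 : ∑ l ∈ Finset.Ico i j, ((th⁻¹) ^ (l - i)) ^ 2 *
      ‖FlagAlg557.Q (V.rot v s).M l (Ts v s (V.P j v))‖ ^ 2 = 0 := by
    refine Finset.sum_eq_zero fun l hl => ?_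
    have hl' := (Finset.mem_Ico.1 hl).2
    have hm : Ts v s (V.P j v) ∈ (V.rot v s).M j := Tw_mem hv hs0 hs1 V j
    have e : FlagAlg557.Q (V.rot v s).M l (Ts v s (V.P j v)) = 0 := by
      rw [FlagAlg557.Q_apply, FlagAlg557.P_of_mem ((V.rot v s).anti hl'.le hm),
        FlagAlg557.P_of_mem ((V.rot v s).anti (Nat.succ_le_of_lt hl') hm), sub_self]
    rw [e]; simp
  rw [h1, zero_add]
  refine Finset.sum_le_sum fun l hl => ?_
  refine mul_le_mul_of_nonneg_left ?_ (sq_nonneg _)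
  have hl' := (Finset.mem_Ico.1 hl).1
  rw [FlagAlg557.norm_Q_sq' (V.rot v s).anti]
  have h2 := norm_rot_P_Tw_sq_le hv hs0 hs1 V hl'
  have h3 : 0 ≤ ‖FlagAlg557.P (V.rot v s).M (l + 1) (Ts v s (V.P j v))‖ ^ 2 := sq_nonneg _
  have h4 : ‖FlagAlg557.P (V.rot v s).M l (Ts v s (V.P j v))‖ ^ 2 ≤ V.b v l := h2
  linarith

/-- the operator `R = Hi'_i T H_i` -/
noncomputable def RR (V : Flag E) (v : E) (s : ℝ) (i : ℕ) : E →L[ℝ] E :=
  (V.rot v s).Hi i ∘L (Ts v s ∘L V.H i)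

omit hv hs0 hs1 in
lemma RR_adj (i : ℕ) (t : E) :
    (RR V v s i).adjoint t = V.H i (Ts v s ((V.rot v s).Hi i t)) := by
  refine ext_inner_right ℝ fun y => ?_
  rw [ContinuousLinearMap.adjoint_inner_left]
  unfold RR
  rw [ContinuousLinearMap.comp_apply, ContinuousLinearMap.comp_apply, ← Hi_comm, ← Ts_comm,
    ← H_comm]

omit hv hs0 hs1 in
/-- `H' R g = T H g` -/
lemma H_RR {i : ℕ} (hi : i ≤ V.n) (g : E) :
    (V.rot v s).H i (RR V v s i g) = Ts v s (V.H i g) := by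
  unfold RR
  rw [ContinuousLinearMap.comp_apply, ContinuousLinearMap.comp_apply]
  rw [H_Hi (V.rot v s) (i := i) hi]
  refine rot_P_of_mem V ?_
  refine Submodule.mem_map_of_mem (f := (Ts v s).toLinearMap) ?_
  rw [H_eq]
  exact FlagAlg557.comb_mem V.anti i V.n _ g

/-- the block vector `p = Q'_i T w_i` -/
noncomputable def pp (V : Flag E) (v : E) (s : ℝ) (i : ℕ) : E :=
  (V.rot v s).Q i (Ts v s (V.P i v))

lemma pp_eq {i : ℕ} (hi : i < V.n) : uu V v s i i = pp V v s i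
      + ((1 - (2 * s - s ^ 2) * V.b v i) / (1 - (2 * s - s ^ 2) * V.b v (i + 1))) •
        uu V v s i (i + 1) := by
  unfold uu
  rw [← map_smul, ← rot_P_Tw hv hs0 hs1 V (Nat.le_succ i)]
  have h1 : Ts v s (V.P i v) = pp V v s i + (V.rot v s).P (i + 1) (Ts v s (V.P i v)) := by
    unfold pp
    have h2 : (V.rot v s).P i (Ts v s (V.P i v)) = Ts v s (V.P i v) :=
      rot_P_of_mem V (Tw_mem hv hs0 hs1 V i)
    rw [Q_eq, FlagAlg557.Q_apply]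
    have h3 : FlagAlg557.P (V.rot v s).M i (Ts v s (V.P i v)) = Ts v s (V.P i v) := h2
    rw [h3]
    change _ = _ - (V.rot v s).P (i + 1) (Ts v s (V.P i v)) + _
    abel
  have h4 : (V.rot v s).Hi i (pp V v s i) = pp V v s i := by
    unfold pp
    rw [Hi_eq, Q_eq, rot_n, FlagAlg557.comb_Q (V.rot v s).anti (Finset.mem_Ico.2 ⟨le_rfl, hi⟩)]
    simp
  conv_lhs => rw [h1, map_add, h4]

lemma norm_pp_sq_ge (i : ℕ) :
    (1 - (2 * s - s ^ 2)) * V.b v i - V.b v (i + 1) ≤ ‖pp V v s i‖ ^ 2 := by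
  unfold pp
  rw [Q_eq, FlagAlg557.norm_Q_sq' (V.rot v s).anti]
  have h2 : FlagAlg557.P (V.rot v s).M i (Ts v s (V.P i v)) = Ts v s (V.P i v) :=
    rot_P_of_mem V (Tw_mem hv hs0 hs1 V i)
  have h3 : ‖FlagAlg557.P (V.rot v s).M (i + 1) (Ts v s (V.P i v))‖ ^ 2 ≤ V.b v (i + 1) :=
    norm_rot_P_Tw_sq_le hv hs0 hs1 V (Nat.le_succ i)
  rw [h2, norm_Tw_sq hv]
  have h4 := b_le_one hv V i
  have h5 := b_nonneg V (v := v) i
  have h6 := sb_pos hs0 hs1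
  have h7 : 0 ≤ (2 * s - s ^ 2) * (V.b v i * (1 - V.b v i)) :=
    mul_nonneg h6.le (mul_nonneg h5 (by linarith))
  nlinarith

lemma norm_pp_sq_le (i : ℕ) : ‖pp V v s i‖ ^ 2 ≤ 1 := by
  unfold pp
  rw [Q_eq, FlagAlg557.norm_Q_sq' (V.rot v s).anti]
  have h2 : FlagAlg557.P (V.rot v s).M i (Ts v s (V.P i v)) = Ts v s (V.P i v) :=
    rot_P_of_mem V (Tw_mem hv hs0 hs1 V i)
  rw [h2]
  have h4 := b_le_one hv V i
  have h5 := norm_Tw_sq_le hv hs0 hs1 V i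
  have h6 : 0 ≤ ‖FlagAlg557.P (V.rot v s).M (i + 1) (Ts v s (V.P i v))‖ ^ 2 := sq_nonneg _
  linarith

/-- **the covariance inequality for `R`** -/
theorem RR_bound {i : ℕ} (hi : i < V.n) (t : E) :
    ‖(RR V v s i).adjoint t‖ ^ 2 + (2 * s - s ^ 2) / 2 * ⟪pp V v s i, t⟫ ^ 2
      ≤ ‖t‖ ^ 2 + ∑ j ∈ Finset.Ico (i + 1) V.n,
        (2 * ((2 * s - s ^ 2) / (1 - (2 * s - s ^ 2))) * (th ^ (j - i - 1)) ^ 2)
          * ⟪uu V v s i j, t⟫ ^ 2 := by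
  set sb := 2 * s - s ^ 2 with hsb
  have hsb0 : 0 < sb := sb_pos hs0 hs1
  have hsb1 : sb < 1 := sb_lt hs0 hs1
  set cb := sb / (1 - sb) with hcb
  have hcb0 : 0 ≤ cb := div_nonneg hsb0.le (by linarith)
  have hcj : ∀ j, sb / (1 - sb * V.b v j) ≤ cb := by
    intro j
    rw [hcb]
    exact div_le_div_of_nonneg_left hsb0.le (by linarith) (den_ge hv hs0 hs1 V j)
  have hcj0 : ∀ j, 0 ≤ sb / (1 - sb * V.b v j) := fun j =>
    div_nonneg hsb0.le (den_pos hv hs0 hs1 V j).le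
  have hcj1 : ∀ j, sb ≤ sb / (1 - sb * V.b v j) := by
    intro j
    rw [le_div_iff₀ (den_pos hv hs0 hs1 V j)]
    have := b_nonneg V (v := v) j
    have : 0 ≤ sb * V.b v j := by positivity
    nlinarith
  have h0 := cov_identity hv hs0 hs1 V hi ((V.rot v s).Hi i t)
  rw [← RR_adj V i t, H_Hi (V.rot v s) (i := i) hi.le] at h0
  have hin : ∀ j, ⟪Ts v s (V.P j v), (V.rot v s).Hi i t⟫ = ⟪uu V v s i j, t⟫ := by
    intro j
    unfold uu
    rw [Hi_comm]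
  simp only [hin, ← hsb] at h0
  have hP : ‖(V.rot v s).P i t‖ ^ 2 ≤ ‖t‖ ^ 2 := by
    have : ‖(V.rot v s).P i t‖ ≤ ‖t‖ := ((V.rot v s).M i).norm_starProjection_apply_le t
    have h := norm_nonneg ((V.rot v s).P i t)
    gcongr
  -- the own term
  set r := (1 - sb * V.b v i) / (1 - sb * V.b v (i + 1)) with hr
  have hr0 : 0 ≤ r := ratio_nonneg hv hs0 hs1 V i (i + 1)
  have hr1 : r ≤ 1 := ratio_le hv hs0 hs1 V (Nat.le_succ i)
  have hpe : ⟪uu V v s i i, t⟫ = ⟪pp V v s i, t⟫ + r * ⟪uu V v s i (i + 1), t⟫ := by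
    rw [pp_eq hv hs0 hs1 V hi, inner_add_left, real_inner_smul_left]
  have hown : ⟪pp V v s i, t⟫ ^ 2 / 2 - ⟪uu V v s i (i + 1), t⟫ ^ 2 ≤ ⟪uu V v s i i, t⟫ ^ 2 := by
    rw [hpe]
    set a := ⟪pp V v s i, t⟫
    set c := ⟪uu V v s i (i + 1), t⟫
    have h1 : (r * c) ^ 2 ≤ c ^ 2 := by
      rw [mul_pow]
      have : r ^ 2 ≤ 1 := by nlinarith
      nlinarith [sq_nonneg c]
    nlinarith [sq_nonneg (a + 2 * (r * c))]
  -- the term with i+1 is in the sum or zero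
  have hlast : cb * ⟪uu V v s i (i + 1), t⟫ ^ 2 ≤ ∑ j ∈ Finset.Ico (i + 1) V.n,
      (if j = i + 1 then cb * ⟪uu V v s i j, t⟫ ^ 2 else 0) := by
    by_cases hin' : i + 1 < V.n
    · rw [Finset.sum_ite_eq' _ _ _, if_pos (Finset.mem_Ico.2 ⟨le_rfl, hin'⟩)]
    · have : uu V v s i (i + 1) = 0 := by
        unfold uu
        rw [P_of_ge V (by omega)]; simp
      rw [this]
      simp only [inner_zero_left]
      have : Finset.Ico (i + 1) V.n = ∅ := Finset.Ico_eq_empty (by omega)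
      rw [this]; simp
  have hsum : ∑ j ∈ Finset.Ico (i + 1) V.n, wt (j - i) *
        (sb / (1 - sb * V.b v j) * ⟪uu V v s i j, t⟫ ^ 2)
      + ∑ j ∈ Finset.Ico (i + 1) V.n, (if j = i + 1 then cb * ⟪uu V v s i j, t⟫ ^ 2 else 0)
      ≤ ∑ j ∈ Finset.Ico (i + 1) V.n,
        (2 * cb * (th ^ (j - i - 1)) ^ 2) * ⟪uu V v s i j, t⟫ ^ 2 := by
    rw [← Finset.sum_add_distrib]
    refine Finset.sum_le_sum fun j hj => ?_
    set q := ⟪uu V v s i j, t⟫ ^ 2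
    have hq : 0 ≤ q := sq_nonneg _
    have h1 : wt (j - i) * (sb / (1 - sb * V.b v j) * q) ≤ (th ^ (j - i - 1)) ^ 2 * (cb * q) := by
      refine mul_le_mul ?_ (mul_le_mul_of_nonneg_right (hcj j) hq) (mul_nonneg (hcj0 j) hq)
        (sq_nonneg _)
      unfold wt
      have : (1 - th ^ 2 : ℝ) ≤ 1 := by nlinarith [th_pos]
      nlinarith [sq_nonneg (th ^ (j - i - 1))]
    have h2 : (if j = i + 1 then cb * q else 0) ≤ (th ^ (j - i - 1)) ^ 2 * (cb * q) := by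
      split_ifs with h
      · subst h
        have : i + 1 - i - 1 = 0 := by omega
        rw [this]; simp
      · have : 0 ≤ cb * q := mul_nonneg hcb0 hq
        positivity
    nlinarith
  have hown2 : sb / 2 * ⟪pp V v s i, t⟫ ^ 2 - cb * ⟪uu V v s i (i + 1), t⟫ ^ 2
      ≤ sb / (1 - sb * V.b v i) * ⟪uu V v s i i, t⟫ ^ 2 := by
    have h1 := mul_le_mul_of_nonneg_left hown (hcj0 i)
    have h2 : sb / 2 * ⟪pp V v s i, t⟫ ^ 2 ≤ sb / (1 - sb * V.b v i) *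
        (⟪pp V v s i, t⟫ ^ 2 / 2) := by
      have := mul_le_mul_of_nonneg_right (hcj1 i) (sq_nonneg ⟪pp V v s i, t⟫)
      linarith
    have h3 : sb / (1 - sb * V.b v i) * ⟪uu V v s i (i + 1), t⟫ ^ 2
        ≤ cb * ⟪uu V v s i (i + 1), t⟫ ^ 2 :=
      mul_le_mul_of_nonneg_right (hcj i) (sq_nonneg _)
    nlinarith
  linarith

end rot

end Crest.Agent.R239.FlagCov732
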