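import Crest.Agent.R239.GDef_521
import Crest.Agent.R239.Dom_640
import Crest.Agent.R239.Mom_764

/-!
# R239 / S0370, `g`-space line: API of `GDef_521` (helper521)
-/

set_option autoImplicit false
set_option linter.unusedSectionVars false
open MeasureTheory ProbabilityTheory Set
open scoped RealInnerProductSpace

namespace Crest.Agent.R239.GS

open Crest.Agent.R239

variable {E : Type*} [NormedAddCommGroup E] [InnerProductSpace ℝ E] [FiniteDimensional ℝ E]
  [MeasurableSpace E] [BorelSpace E]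

namespace Flag

variable (V : Flag E)

/-- square root of `A i` -/
noncomputable def G (i : ℕ) : E →L[ℝ] E := FlagAlg557.comb V.M i V.n fun j => √th ^ (j - i)

lemma inner_A (i : ℕ) (x : E) :
    ⟪V.A i x, x⟫ = ∑ j ∈ Finset.Ico i V.n, th ^ (j - i) * ‖V.Q j x‖ ^ 2 := by
  rw [A, FlagAlg557.H, FlagAlg557.comb_apply, sum_inner]
  refine Finset.sum_congr rfl fun j _ => ?_
  rw [inner_smul_left, FlagAlg557.norm_Q_sq V.anti]
  simp

lemma norm_G_sq (i : ℕ) (x : E) : ‖V.G i x‖ ^ 2 = ⟪V.A i x, x⟫ := by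
  rw [inner_A, G, FlagAlg557.norm_comb_sq V.anti]
  refine Finset.sum_congr rfl fun j _ => ?_
  rw [← pow_mul, mul_comm (j - i) 2, pow_mul, Real.sq_sqrt th_pos.le]

lemma psd (i : ℕ) : PSD (V.A i) where
  sa x y := FlagAlg557.inner_comb_comm _ _ _ x y
  nn x := by rw [← norm_G_sq]; positivity

lemma k_nonneg (i : ℕ) : 0 ≤ V.k i := by
  unfold k
  have := Submodule.finrank_mono (V.anti (Nat.le_succ i))
  have h : (Module.finrank ℝ (V.M (i + 1)) : ℝ) ≤ Module.finrank ℝ (V.M i) := by exact_mod_cast this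
  linarith

lemma r_nonneg (i : ℕ) : 0 ≤ V.r i :=
  Finset.sum_nonneg fun j _ => mul_nonneg (pow_nonneg th_pos.le _) (V.k_nonneg j)

lemma integrable_norm_sq (B : E →L[ℝ] E) :
    Integrable (fun g : E => ‖B g‖ ^ 2) (stdGaussian E) := Dom640.integrable_norm_sq B

lemma integral_Q_sq (j : ℕ) : ∫ g, ‖V.Q j g‖ ^ 2 ∂(stdGaussian E) = V.k j := by
  have h : (fun g : E => ‖V.Q j g‖ ^ 2)
      = fun g => ‖(V.M j).starProjection g‖ ^ 2 - ‖(V.M (j + 1)).starProjection g‖ ^ 2 := by
    funext g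
    exact FlagAlg557.norm_Q_sq' V.anti j g
  rw [h, integral_sub (integrable_norm_sq _) (integrable_norm_sq _),
    Mom764.integral_norm_sq_starProjection, Mom764.integral_norm_sq_starProjection]
  rfl

lemma trace (i : ℕ) : ∫ g, ‖V.G i g‖ ^ 2 ∂(stdGaussian E) = V.r i := by
  simp only [norm_G_sq, inner_A]
  rw [integral_finsetSum _ fun j _ => (integrable_norm_sq _).const_mul _]
  refine Finset.sum_congr rfl fun j _ => ?_
  rw [integral_const_mul, integral_Q_sq]

lemma sum_k (i : ℕ) (hi : i ≤ V.n) :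
    ∑ j ∈ Finset.Ico i V.n, V.k j = Module.finrank ℝ (V.M i) := by
  have : ∀ m, i ≤ m → ∑ j ∈ Finset.Ico i m, V.k j
      = (Module.finrank ℝ (V.M i) : ℝ) - Module.finrank ℝ (V.M m) := by
    intro m hm
    induction m, hm using Nat.le_induction with
    | base => simp
    | succ m hm ih => rw [Finset.sum_Ico_succ_top hm, ih, k]; ring
  rw [this V.n hi, V.bot_n]
  simp

lemma A_eq_zero_of_le {i : ℕ} (h : V.n ≤ i) : V.A i = 0 := by
  rw [A, FlagAlg557.H, FlagAlg557.comb, Finset.Ico_eq_empty (by omega), Finset.sum_empty]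

lemma r_eq_zero_of_le {i : ℕ} (h : V.n ≤ i) : V.r i = 0 := by
  rw [r, Finset.Ico_eq_empty (by omega), Finset.sum_empty]

lemma A_eq_zero_of_bot {i : ℕ} (h : V.M i = ⊥) : V.A i = 0 := by
  ext x
  have h1 := FlagAlg557.comb_mem V.anti i V.n (fun j => th ^ (j - i)) x
  rw [h] at h1
  exact (Submodule.mem_bot ℝ).1 h1

lemma finrank_le_r {i : ℕ} (hi : i ≤ V.n) (h : V.r i = 0) : V.M i = ⊥ := by
  have h1 : ∀ j ∈ Finset.Ico i V.n, th ^ (j - i) * V.k j = 0 :=
    (Finset.sum_eq_zero_iff_of_nonneg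
      (fun j _ => mul_nonneg (pow_nonneg th_pos.le _) (V.k_nonneg j))).1 h
  have h2 : ∑ j ∈ Finset.Ico i V.n, V.k j = 0 := by
    apply Finset.sum_eq_zero
    intro j hj
    rcases mul_eq_zero.1 (h1 j hj) with h3 | h3
    · exact absurd h3 (pow_pos th_pos _).ne'
    · exact h3
  rw [sum_k V i hi] at h2
  have h3 : Module.finrank ℝ (V.M i) = 0 := by exact_mod_cast h2
  exact Submodule.finrank_eq_zero.1 h3

lemma bot_of_r {i : ℕ} (h : V.r i = 0) : V.M i = ⊥ := by
  rcases le_total i V.n with hi | hi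
  · exact V.finrank_le_r hi h
  · exact V.bot i hi

/-- the cap set at level `i` -/
def capset (rho : ℝ) (i : ℕ) : Set E := {g | ⟪V.A i g, g⟫ ≤ rho ^ 2 * V.r i}

lemma capset_eq {rho : ℝ} (hr : 0 ≤ rho) (i : ℕ) :
    V.capset rho i = {g | ‖V.G i g‖ ≤ rho * √(V.r i)} := by
  ext g
  simp only [capset, mem_ofPred_eq]
  rw [← norm_G_sq]
  have h : rho ^ 2 * V.r i = (rho * √(V.r i)) ^ 2 := by
    rw [mul_pow, Real.sq_sqrt (V.r_nonneg i)]
  rw [h]
  constructor
  · intro h2
    exact (abs_le_of_sq_le_sq' h2 (by positivity)).2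
  · intro h2
    exact pow_le_pow_left₀ (norm_nonneg _) h2 2

lemma isClosed_capset (rho : ℝ) (i : ℕ) : IsClosed (V.capset rho i) := by
  unfold capset
  exact isClosed_le (by fun_prop) continuous_const

lemma convex_capset {rho : ℝ} (hr : 0 ≤ rho) (i : ℕ) : Convex ℝ (V.capset rho i) := by
  rw [capset_eq V hr]
  have h : ConvexOn ℝ univ fun g : E => ‖V.G i g‖ := by
    have h1 := (convexOn_norm (E := E) convex_univ).comp_linearMap (V.G i : E →ₗ[ℝ] E)
    simpa [Function.comp_def] using h1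
  simpa using h.convex_le (rho * √(V.r i))

lemma symm_capset (rho : ℝ) (i : ℕ) : ∀ x ∈ V.capset rho i, -x ∈ V.capset rho i := by
  intro x hx
  simp only [capset, mem_ofPred_eq, map_neg, inner_neg_left, inner_neg_right, neg_neg] at hx ⊢
  exact hx

/-- **one cut**: intersecting with the cap costs the factor `1 - 1/rho^2` -/
lemma cut_cap {rho : ℝ} (hr : 0 < rho) (i : ℕ) {K : Set E} (hK : MeasurableSet K)
    (cK : Convex ℝ K) (sK : ∀ x ∈ K, -x ∈ K) :
    (1 - 1 / rho ^ 2) * (stdGaussian E).real K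
      ≤ (stdGaussian E).real (K ∩ V.capset rho i) := by
  rcases eq_or_lt_of_le (V.r_nonneg i) with h | h
  · have h1 := V.A_eq_zero_of_bot (V.bot_of_r h.symm)
    have h2 : V.capset rho i = univ := by
      ext g
      simp [capset, h1, ← h]
    rw [h2, inter_univ]
    have h3 : (0 : ℝ) ≤ (stdGaussian E).real K := measureReal_nonneg
    have h4 : 0 ≤ 1 / rho ^ 2 := by positivity
    nlinarith
  · rw [capset_eq V hr.le]
    have h1 := Dom640.cut hK cK sK (V.G i) (r := rho * √(V.r i)) (by positivity)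
    rw [V.trace i, mul_pow, Real.sq_sqrt h.le] at h1
    have h2 : V.r i / (rho ^ 2 * V.r i) = 1 / rho ^ 2 := by
      field_simp
    rw [h2] at h1
    exact h1

end Flag

lemma Par.Ok.rho_pos {p : Par} (hp : p.Ok) : 0 < p.rho := by linarith [hp.rho_ge]

lemma Par.Ok.rho_inv {p : Par} (hp : p.Ok) : 1 / p.rho ^ 2 ≤ 1 / 256 := by
  apply one_div_le_one_div_of_le (by norm_num)
  nlinarith [hp.rho_ge]

lemma Par.Ok.lam_pos {p : Par} (hp : p.Ok) (i : ℕ) : 0 < p.lam i := by
  have := hp.a_ge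
  unfold Par.lam
  positivity

lemma Par.lam_succ (p : Par) (i : ℕ) : p.lam (i + 1) = p.a * p.lam i := by
  unfold Par.lam; ring

lemma Par.Ok.inc_ge {p : Par} (hp : p.Ok) (i : ℕ) : 15 / 16 * p.lam i ≤ p.inc i := by
  unfold Par.inc
  rcases Nat.eq_zero_or_pos i with h | h
  · simp [h, Par.lam]; norm_num
  · obtain ⟨j, rfl⟩ : ∃ j, i = j + 1 := ⟨i - 1, by omega⟩
    rw [if_neg (by omega), Nat.add_sub_cancel, p.lam_succ]
    have h1 := hp.lam_pos j
    have h2 := hp.a_ge
    nlinarith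

lemma Par.Ok.inc_pos {p : Par} (hp : p.Ok) (i : ℕ) : 0 < p.inc i := by
  have := hp.inc_ge i
  have := hp.lam_pos i
  linarith

lemma neg_log_le {x : ℝ} (hx : 1 / 2 ≤ 1 - x) (hx0 : 0 ≤ x) : -Real.log (1 - x) ≤ 2 * x := by
  have h1 : (0 : ℝ) < 1 - x := by linarith
  have h2 := Real.one_sub_inv_le_log_of_pos h1
  have h3 : 1 - (1 - x)⁻¹ = -(x / (1 - x)) := by
    field_simp
    ring
  have h4 : x / (1 - x) ≤ 2 * x := by
    rw [div_le_iff₀ h1]
    nlinarith
  rw [h3] at h2
  linarith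

/-- the cap body -/
lemma adm_cap {p : Par} (hp : p.Ok) (V : Flag E) (i : ℕ) : AdmV p V i (V.capset p.rho i) where
  closed := V.isClosed_capset _ _
  convex := V.convex_capset hp.rho_pos.le _
  symm := V.symm_capset _ _
  cap := fun _ hx => hx
  pos := by
    have h1 := V.cut_cap hp.rho_pos i (K := univ) MeasurableSet.univ convex_univ (by simp)
    rw [univ_inter] at h1
    have h2 := hp.rho_inv
    have h3 : (stdGaussian E).real (univ : Set E) = 1 := by simp
    rw [h3] at h1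
    linarith

lemma adm_ne {p : Par} (hp : p.Ok) (V : Flag E) (i : ℕ) : ∃ B, AdmV p V i B :=
  ⟨_, adm_cap hp V i⟩

lemma neg_log_cap_le {p : Par} (hp : p.Ok) (V : Flag E) (i : ℕ) :
    -Real.log ((stdGaussian E).real (V.capset p.rho i)) ≤ 2 / p.rho ^ 2 := by
  have h1 := V.cut_cap hp.rho_pos i (K := univ) MeasurableSet.univ convex_univ (by simp)
  rw [univ_inter] at h1
  have h3 : (stdGaussian E).real (univ : Set E) = 1 := by simp
  rw [h3, mul_one] at h1
  have h2 := hp.rho_inv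
  have h4 : 0 < 1 - 1 / p.rho ^ 2 := by linarith
  have h5 := Real.log_le_log h4 h1
  have h6 := neg_log_le (x := 1 / p.rho ^ 2) (by linarith) (by positivity)
  have h7 : 2 * (1 / p.rho ^ 2) = 2 / p.rho ^ 2 := by ring
  linarith

lemma hs_zero {B : Set E} (hB : B.Nonempty) : hs B 0 = 0 := by
  unfold hs
  have : (fun g : E => ⟪(0 : E), g⟫) '' B = {0} := by
    simp only [inner_zero_left]
    exact hB.image_const 0
  rw [this, csSup_singleton]

/-- level functional of a zero level -/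
lemma DV_eq_zero {p : Par} (hp : p.Ok) {V : Flag E} {i : ℕ} (h : V.A i = 0) (hr : V.r i = 0)
    (m : Multiset E) : DV p V m i = 0 := by
  apply le_antisymm _ (D_nonneg (V.psd i) m _ (hp.lam_pos i).le)
  have h1 : AdmV p V i univ := by
    refine ⟨isClosed_univ, convex_univ, by simp, ?_, by simp⟩
    intro x _
    simp [h, hr]
  refine (h1.D_le (V.psd i) m (hp.lam_pos i).le).trans ?_
  unfold val
  have h2 : (m.map fun z => hs (univ : Set E) (V.A i z)) = m.map fun _ => (0 : ℝ) := by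
    apply Multiset.map_congr rfl
    intro z _
    rw [h, zero_apply, hs_zero univ_nonempty]
  rw [h2]
  simp

lemma DV_zero_le {p : Par} (hp : p.Ok) (V : Flag E) (i : ℕ) :
    DV p V 0 i ≤ p.kap * p.inc i * Module.finrank ℝ (V.M i) := by
  by_cases hM : V.M i = ⊥
  · have h1 := V.A_eq_zero_of_bot hM
    have h2 : V.r i = 0 := by
      rcases le_total V.n i with h | h
      · exact V.r_eq_zero_of_le h
      · have h3 := V.sum_k i h
        rw [hM, finrank_bot] at h3
        have h4 := (Finset.sum_eq_zero_iff_of_nonneg (fun j _ => V.k_nonneg j)).1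
          (by exact_mod_cast h3)
        exact Finset.sum_eq_zero fun j hj => by rw [h4 j hj, mul_zero]
    rw [DV_eq_zero hp h1 h2, hM, finrank_bot]
    simp
  · have h1 : (1 : ℝ) ≤ Module.finrank ℝ (V.M i) := by
      have : Module.finrank ℝ (V.M i) ≠ 0 := fun h => hM (Submodule.finrank_eq_zero.1 h)
      exact_mod_cast Nat.one_le_iff_ne_zero.2 this
    have h2 := (adm_cap hp V i).D_le (V.psd i) 0 (hp.lam_pos i).le
    unfold val at h2
    simp only [Multiset.map_zero, Multiset.sum_zero, zero_sub] at h2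
    have h3 := neg_log_cap_le hp V i
    have h4 := hp.lam_pos i
    have h5 : DV p V 0 i ≤ p.lam i * (2 / p.rho ^ 2) := by
      unfold DV
      nlinarith
    have h6 : 2 / p.rho ^ 2 ≤ p.kap / 8 := by
      rw [div_le_iff₀ (by have := hp.rho_pos; positivity)]
      have := hp.kap_rho
      linarith
    have h7 := hp.inc_ge i
    have h8 := hp.kap_pos
    calc DV p V 0 i ≤ p.lam i * (2 / p.rho ^ 2) := h5
      _ ≤ p.lam i * (p.kap / 8) := by gcongr
      _ ≤ p.kap * p.inc i * 1 := by nlinarith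
      _ ≤ _ := by
        gcongr
        exact mul_nonneg h8.le (hp.inc_pos i).le

lemma J_zero_le {p : Par} (hp : p.Ok) (V : Flag E) : J p V 0 ≤ 0 :=
  Finset.sum_nonpos fun i _ => by linarith [DV_zero_le hp V i]

/-! ### (U2) -/

lemma sum_geom_le (x : ℕ → ℝ) (hx : ∀ j, 0 ≤ x j) (n : ℕ) :
    ∑ i ∈ Finset.range n, ∑ j ∈ Finset.Ico i n, th ^ (j - i) * x j
      ≤ 5 * ∑ j ∈ Finset.range n, x j := by
  have h1 : ∑ i ∈ Finset.range n, ∑ j ∈ Finset.Ico i n, th ^ (j - i) * x j
      = ∑ j ∈ Finset.range n, ∑ i ∈ Finset.range (j + 1), th ^ (j - i) * x j := by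
    apply Finset.sum_comm'
    intro i j
    simp only [Finset.mem_range, Finset.mem_Ico]
    omega
  rw [h1, Finset.mul_sum]
  apply Finset.sum_le_sum
  intro j _
  rw [← Finset.sum_mul]
  apply mul_le_mul_of_nonneg_right _ (hx j)
  have h2 : ∑ i ∈ Finset.range (j + 1), th ^ (j - i) = ∑ i ∈ Finset.range (j + 1), th ^ i := by
    rw [← Finset.sum_range_reflect]
    apply Finset.sum_congr rfl
    intro i hi
    have := Finset.mem_range.1 hi
    congr 1
    omega
  rw [h2, geom_sum_eq (by norm_num [th])]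
  have h3 : 0 < th ^ (j + 1) := pow_pos th_pos _
  have h4 : (th - 1 : ℝ) = -(1 / 5) := by norm_num [th]
  rw [h4]
  rw [div_le_iff_of_neg (by norm_num)]
  linarith

lemma sum_inner_A_le (V : Flag E) (z : E) :
    ∑ i ∈ Finset.range V.n, ⟪V.A i z, z⟫ ≤ 5 * ‖z‖ ^ 2 := by
  simp only [Flag.inner_A]
  refine (sum_geom_le (fun j => ‖V.Q j z‖ ^ 2) (fun j => sq_nonneg _) V.n).trans ?_
  gcongr
  have h := FlagAlg557.sum_norm_Q_sq V.anti 0 V.n (Nat.zero_le _) z
  rw [Finset.range_eq_Ico, h]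
  have h1 : ‖FlagAlg557.P V.M 0 z‖ ≤ ‖z‖ := (V.M 0).norm_starProjection_apply_le z
  have h2 := norm_nonneg (FlagAlg557.P V.M 0 z)
  nlinarith [sq_nonneg ‖FlagAlg557.P V.M V.n z‖]

lemma sum_r_le (V : Flag E) : ∑ i ∈ Finset.range V.n, V.r i ≤ 5 * Module.finrank ℝ E := by
  refine (sum_geom_le V.k V.k_nonneg V.n).trans ?_
  gcongr
  rw [Finset.range_eq_Ico, V.sum_k 0 (Nat.zero_le _)]
  exact_mod_cast Submodule.finrank_le (V.M 0)

lemma J_cons {p : Par} (hp : p.Ok) (V : Flag E) (z : E) (m : Multiset E) :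
    J p V (z ::ₘ m) ≤ J p V m + 5 * p.rho * √(Module.finrank ℝ E) * ‖z‖ := by
  have h1 : J p V (z ::ₘ m)
      ≤ J p V m + ∑ i ∈ Finset.range V.n, √⟪V.A i z, z⟫ * √(p.rho ^ 2 * V.r i) := by
    unfold J
    rw [← Finset.sum_add_distrib]
    apply Finset.sum_le_sum
    intro i _
    have := D_cons (V.psd i) (adm_ne hp V i) (hp.lam_pos i).le z m
    rw [Real.sqrt_mul ((V.psd i).nn z)] at this
    unfold DV
    linarith
  refine h1.trans ?_
  gcongr
  refine (Real.sum_sqrt_mul_sqrt_le _ (fun i => (V.psd i).nn z)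
    (fun i => mul_nonneg (sq_nonneg _) (V.r_nonneg i))).trans ?_
  rw [← Finset.mul_sum, Real.sqrt_mul (sq_nonneg _), Real.sqrt_sq hp.rho_pos.le]
  have h2 : √(∑ i ∈ Finset.range V.n, ⟪V.A i z, z⟫) ≤ √5 * ‖z‖ := by
    rw [← Real.sqrt_sq (norm_nonneg z), ← Real.sqrt_mul (by norm_num)]
    exact Real.sqrt_le_sqrt (sum_inner_A_le V z)
  have h3 : √(∑ i ∈ Finset.range V.n, V.r i) ≤ √5 * √(Module.finrank ℝ E) := by
    rw [← Real.sqrt_mul (by norm_num)]
    exact Real.sqrt_le_sqrt (sum_r_le V)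
  calc √(∑ i ∈ Finset.range V.n, ⟪V.A i z, z⟫) * (p.rho * √(∑ i ∈ Finset.range V.n, V.r i))
      ≤ (√5 * ‖z‖) * (p.rho * (√5 * √(Module.finrank ℝ E))) := by
        have := hp.rho_pos
        gcongr
    _ = (√5 * √5) * p.rho * √(Module.finrank ℝ E) * ‖z‖ := by ring
    _ = _ := by rw [Real.mul_self_sqrt (by norm_num)]

lemma J_le {p : Par} (hp : p.Ok) (V : Flag E) (m : Multiset E) :
    J p V m ≤ (m.map fun z => 5 * p.rho * √(Module.finrank ℝ E) * ‖z‖).sum := by
  induction m using Multiset.induction_on with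
  | empty => simpa using J_zero_le hp V
  | cons z m ih =>
    rw [Multiset.map_cons, Multiset.sum_cons]
    have := J_cons hp V z m
    linarith

lemma J_bdd {p : Par} (hp : p.Ok) (m : Multiset E) :
    BddAbove (Set.range fun V : Flag E => J p V m) := by
  refine ⟨(m.map fun z => 5 * p.rho * √(Module.finrank ℝ E) * ‖z‖).sum, ?_⟩
  rintro _ ⟨V, rfl⟩
  exact J_le hp V m

lemma J_le_U {p : Par} (hp : p.Ok) (V : Flag E) (m : Multiset E) : J p V m ≤ U p m :=
  le_csSup (J_bdd hp m) ⟨V, rfl⟩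

/-- the trivial flag -/
def triv (E : Type*) [NormedAddCommGroup E] [InnerProductSpace ℝ E] : Flag E :=
  ⟨0, fun _ => ⊥, fun _ _ _ => le_rfl, fun _ _ => rfl⟩

lemma U_le {p : Par} {m : Multiset E} {c : ℝ} (h : ∀ V : Flag E, J p V m ≤ c) : U p m ≤ c := by
  have hn : (Set.range fun V : Flag E => J p V m).Nonempty := ⟨_, triv E, rfl⟩
  apply csSup_le hn
  rintro _ ⟨V, rfl⟩
  exact h V

/-- (U2) -/
theorem U_cons {p : Par} (hp : p.Ok) (z : E) (m : Multiset E) :
    U p (z ::ₘ m) ≤ U p m + 5 * p.rho * √(Module.finrank ℝ E) * ‖z‖ :=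
  U_le fun V => (J_cons hp V z m).trans (by linarith [J_le_U hp V m])

lemma J_mono {p : Par} (hp : p.Ok) (V : Flag E) (s : Multiset (E × E)) :
    J p V (s.map fun q => q.1 + q.2) ≤ J p V (s.map Prod.fst + s.map Prod.snd) := by
  apply Finset.sum_le_sum
  intro i _
  have := D_mono (V.psd i) (adm_ne hp V i) (hp.lam_pos i).le s
  unfold DV
  linarith

/-- (U1) -/
theorem U_mono {p : Par} (hp : p.Ok) (s : Multiset (E × E)) :
    U p (s.map fun q => q.1 + q.2) ≤ U p (s.map Prod.fst + s.map Prod.snd) :=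
  U_le fun V => (J_mono hp V s).trans (J_le_U hp V _)

/-- (U0) -/
theorem U_nonneg (p : Par) (hp : p.Ok) (m : Multiset E) : 0 ≤ U p m := by
  have h := J_le_U hp (triv E) m
  have h2 : J p (triv E) m = 0 := by simp [J, triv]
  rw [h2] at h
  exact h

/-- near-maximisers -/
theorem exists_nearMax {p : Par} (hp : p.Ok) (m : Multiset E) {e : ℝ} (he : 0 < e) :
    ∃ V : Flag E, NearMax p V m e ∧ U p m ≤ J p V m + e := by
  obtain ⟨_, ⟨V, rfl⟩, hV⟩ := exists_lt_of_lt_csSup
    (s := Set.range fun V : Flag E => J p V m) ⟨_, triv E, rfl⟩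
    (show U p m - e < sSup _ by unfold U; linarith)
  have hV' : U p m ≤ J p V m + e := by
    simp only at hV
    linarith
  exact ⟨V, fun V' => (J_le_U hp V' m).trans hV', hV'⟩

end Crest.Agent.R239.GS
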