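import Crest.Agent.R239.FlagAlg_557
import Crest.Agent.R239.Cmp_142
import Crest.Agent.R239.L0_942

/-!
# R239 / S0370: the static flag potential in `g`-space (helper521, insurance line)

One Euclidean space `E`, one measure `γ = stdGaussian E`; a level is a positive operator `A`
(square root of the covariance), bodies are symmetric closed convex `B ⊆ {⟪A g, g⟫ ≤ R2}`.
-/

set_option autoImplicit false
set_option linter.unusedSectionVars false
open MeasureTheory ProbabilityTheory Set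
open scoped RealInnerProductSpace

namespace Crest.Agent.R239.GS

variable {E : Type*} [NormedAddCommGroup E] [InnerProductSpace ℝ E] [FiniteDimensional ℝ E]
  [MeasurableSpace E] [BorelSpace E]

/-- support function -/
noncomputable def hs (B : Set E) (w : E) : ℝ := sSup ((fun g : E => ⟪w, g⟫) '' B)

/-- positive operators -/
structure PSD (A : E →L[ℝ] E) : Prop where
  sa : ∀ x y, ⟪A x, y⟫ = ⟪x, A y⟫
  nn : ∀ x, 0 ≤ ⟪A x, x⟫

/-- admissible bodies -/
structure Adm (A : E →L[ℝ] E) (R2 : ℝ) (B : Set E) : Prop where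
  closed : IsClosed B
  convex : Convex ℝ B
  symm : ∀ x ∈ B, -x ∈ B
  cap : ∀ x ∈ B, ⟪A x, x⟫ ≤ R2
  pos : 0 < (stdGaussian E).real B

/-- value of a body -/
noncomputable def val (m : Multiset E) (A : E →L[ℝ] E) (lam : ℝ) (B : Set E) : ℝ :=
  (m.map fun z => hs B (A z)).sum - lam * Real.log ((stdGaussian E).real B)

/-- level functional -/
noncomputable def D (m : Multiset E) (A : E →L[ℝ] E) (R2 lam : ℝ) : ℝ :=
  sInf {x | ∃ B, Adm A R2 B ∧ x = val m A lam B}

/-! ## API -/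

lemma PSD.cs {A : E →L[ℝ] E} (hA : PSD A) (x y : E) :
    ⟪A x, y⟫ ^ 2 ≤ ⟪A x, x⟫ * ⟪A y, y⟫ := by
  have h : ∀ t : ℝ, 0 ≤ ⟪A x, x⟫ * (t * t) + (2 * ⟪A x, y⟫) * t + ⟪A y, y⟫ := by
    intro t
    have h1 := hA.nn (t • x + y)
    have h2 : ⟪A (t • x + y), t • x + y⟫
        = ⟪A x, x⟫ * (t * t) + (2 * ⟪A x, y⟫) * t + ⟪A y, y⟫ := by
      have e : ⟪A y, x⟫ = ⟪A x, y⟫ := by rw [hA.sa y x, real_inner_comm]
      simp only [map_add, map_smul, inner_add_left, inner_add_right, inner_smul_left,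
        inner_smul_right, RCLike.conj_to_real, e]
      ring
    rw [h2] at h1
    exact h1
  have := discrim_le_zero h
  unfold discrim at this
  nlinarith

lemma Adm.nonempty {A : E →L[ℝ] E} {R2 : ℝ} {B : Set E} (h : Adm A R2 B) : B.Nonempty := by
  rw [nonempty_iff_ne_empty]
  rintro rfl
  have := h.pos
  simp at this

lemma Adm.zero_mem {A : E →L[ℝ] E} {R2 : ℝ} {B : Set E} (h : Adm A R2 B) : (0 : E) ∈ B := by
  obtain ⟨x, hx⟩ := h.nonempty
  have := h.convex hx (h.symm x hx) (by norm_num : (0 : ℝ) ≤ 1 / 2) (by norm_num : (0 : ℝ) ≤ 1 / 2)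
    (by norm_num)
  simpa using this

lemma Adm.R2_nonneg {A : E →L[ℝ] E} {R2 : ℝ} {B : Set E} (h : Adm A R2 B) : 0 ≤ R2 := by
  simpa using h.cap 0 h.zero_mem

lemma Adm.inner_le {A : E →L[ℝ] E} {R2 : ℝ} {B : Set E} (hA : PSD A) (h : Adm A R2 B) (z : E)
    {g : E} (hg : g ∈ B) : ⟪A z, g⟫ ≤ √(⟪A z, z⟫ * R2) := by
  apply Real.le_sqrt_of_sq_le
  exact (hA.cs z g).trans (mul_le_mul_of_nonneg_left (h.cap g hg) (hA.nn z))

lemma Adm.bdd {A : E →L[ℝ] E} {R2 : ℝ} {B : Set E} (hA : PSD A) (h : Adm A R2 B) (z : E) :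
    BddAbove ((fun g : E => ⟪A z, g⟫) '' B) := by
  refine ⟨√(⟪A z, z⟫ * R2), ?_⟩
  rintro _ ⟨g, hg, rfl⟩
  exact h.inner_le hA z hg

lemma Adm.le_hs {A : E →L[ℝ] E} {R2 : ℝ} {B : Set E} (hA : PSD A) (h : Adm A R2 B) (z : E)
    {g : E} (hg : g ∈ B) : ⟪A z, g⟫ ≤ hs B (A z) :=
  le_csSup (h.bdd hA z) ⟨g, hg, rfl⟩

lemma Adm.abs_le_hs {A : E →L[ℝ] E} {R2 : ℝ} {B : Set E} (hA : PSD A) (h : Adm A R2 B) (z : E)
    {g : E} (hg : g ∈ B) : |⟪A z, g⟫| ≤ hs B (A z) := by
  rw [abs_le]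
  constructor
  · have := h.le_hs hA z (h.symm g hg)
    rw [inner_neg_right] at this
    linarith
  · exact h.le_hs hA z hg

lemma hs_le {B : Set E} (hB : B.Nonempty) {w : E} {c : ℝ} (h : ∀ g ∈ B, ⟪w, g⟫ ≤ c) :
    hs B w ≤ c := by
  apply csSup_le (hB.image _)
  rintro _ ⟨g, hg, rfl⟩
  exact h g hg

lemma Adm.hs_nonneg {A : E →L[ℝ] E} {R2 : ℝ} {B : Set E} (hA : PSD A) (h : Adm A R2 B) (z : E) :
    0 ≤ hs B (A z) := by
  have := h.le_hs hA z h.zero_mem
  simpa using this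

lemma Adm.hs_le_sqrt {A : E →L[ℝ] E} {R2 : ℝ} {B : Set E} (hA : PSD A) (h : Adm A R2 B) (z : E) :
    hs B (A z) ≤ √(⟪A z, z⟫ * R2) :=
  hs_le h.nonempty fun _ hg => h.inner_le hA z hg

lemma Adm.hs_add_le {A : E →L[ℝ] E} {R2 : ℝ} {B : Set E} (hA : PSD A) (h : Adm A R2 B) (z w : E) :
    hs B (A (z + w)) ≤ hs B (A z) + hs B (A w) := by
  apply hs_le h.nonempty
  intro g hg
  rw [map_add, inner_add_left]
  exact add_le_add (h.le_hs hA z hg) (h.le_hs hA w hg)

lemma log_nonpos' (B : Set E) : Real.log ((stdGaussian E).real B) ≤ 0 := by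
  apply Real.log_nonpos measureReal_nonneg
  exact measureReal_le_one

lemma sum_map_nonneg' (m : Multiset E) (f : E → ℝ) (h : ∀ z, 0 ≤ f z) : 0 ≤ (m.map f).sum := by
  apply Multiset.sum_nonneg
  intro x hx
  obtain ⟨z, _, rfl⟩ := Multiset.mem_map.1 hx
  exact h z

lemma Adm.val_nonneg {A : E →L[ℝ] E} {R2 : ℝ} {B : Set E} (hA : PSD A) (h : Adm A R2 B)
    (m : Multiset E) {lam : ℝ} (hl : 0 ≤ lam) : 0 ≤ val m A lam B := by
  have h1 := sum_map_nonneg' m (fun z => hs B (A z)) (h.hs_nonneg hA)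
  have h2 := mul_nonpos_of_nonneg_of_nonpos hl (log_nonpos' B)
  unfold val
  linarith

lemma D_bddBelow {A : E →L[ℝ] E} (hA : PSD A) (m : Multiset E) (R2 : ℝ) {lam : ℝ}
    (hl : 0 ≤ lam) : BddBelow {x | ∃ B, Adm A R2 B ∧ x = val m A lam B} := by
  refine ⟨0, ?_⟩
  rintro _ ⟨B, hB, rfl⟩
  exact hB.val_nonneg hA m hl

lemma D_nonneg {A : E →L[ℝ] E} (hA : PSD A) (m : Multiset E) (R2 : ℝ) {lam : ℝ}
    (hl : 0 ≤ lam) : 0 ≤ D m A R2 lam := by
  apply Real.sInf_nonneg
  rintro _ ⟨B, hB, rfl⟩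
  exact hB.val_nonneg hA m hl

lemma Adm.D_le {A : E →L[ℝ] E} {R2 : ℝ} {B : Set E} (hA : PSD A) (h : Adm A R2 B)
    (m : Multiset E) {lam : ℝ} (hl : 0 ≤ lam) : D m A R2 lam ≤ val m A lam B :=
  csInf_le (D_bddBelow hA m R2 hl) ⟨B, h, rfl⟩

/-- near-optimal bodies -/
lemma exists_near {A : E →L[ℝ] E} {R2 : ℝ} (hne : ∃ B, Adm A R2 B)
    (m : Multiset E) (lam : ℝ) {e : ℝ} (he : 0 < e) :
    ∃ B, Adm A R2 B ∧ val m A lam B < D m A R2 lam + e := by
  obtain ⟨B0, hB0⟩ := hne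
  obtain ⟨x, ⟨B, hB, rfl⟩, hx⟩ := exists_lt_of_csInf_lt
    (s := {x | ∃ B, Adm A R2 B ∧ x = val m A lam B}) ⟨_, B0, hB0, rfl⟩
    (show sInf _ < D m A R2 lam + e from by unfold D; linarith)
  exact ⟨B, hB, hx⟩

lemma le_D {A : E →L[ℝ] E} {R2 : ℝ} (hne : ∃ B, Adm A R2 B) (m : Multiset E) {lam c : ℝ}
    (h : ∀ B, Adm A R2 B → c ≤ val m A lam B) : c ≤ D m A R2 lam := by
  obtain ⟨B0, hB0⟩ := hne
  have hn : ({x | ∃ B, Adm A R2 B ∧ x = val m A lam B} : Set ℝ).Nonempty := ⟨_, B0, hB0, rfl⟩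
  apply le_csInf hn
  rintro _ ⟨B, hB, rfl⟩
  exact h B hB

/-- (U1) at one level -/
lemma D_mono {A : E →L[ℝ] E} (hA : PSD A) {R2 : ℝ} (hne : ∃ B, Adm A R2 B) {lam : ℝ}
    (hl : 0 ≤ lam) (s : Multiset (E × E)) :
    D (s.map fun p => p.1 + p.2) A R2 lam ≤ D (s.map Prod.fst + s.map Prod.snd) A R2 lam := by
  apply le_D hne
  intro B hB
  refine (hB.D_le hA _ hl).trans ?_
  unfold val
  have : ((s.map fun p => p.1 + p.2).map fun z => hs B (A z)).sum
      ≤ ((s.map Prod.fst + s.map Prod.snd).map fun z => hs B (A z)).sum := by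
    rw [Multiset.map_add, Multiset.sum_add, Multiset.map_map, Multiset.map_map, Multiset.map_map,
      ← Multiset.sum_map_add]
    apply Multiset.sum_map_le_sum_map
    intro p _
    exact hB.hs_add_le hA _ _
  linarith

lemma D_cons {A : E →L[ℝ] E} (hA : PSD A) {R2 : ℝ} (hne : ∃ B, Adm A R2 B) {lam : ℝ}
    (hl : 0 ≤ lam) (z : E) (m : Multiset E) :
    D (z ::ₘ m) A R2 lam ≤ D m A R2 lam + √(⟪A z, z⟫ * R2) := by
  have : D (z ::ₘ m) A R2 lam - √(⟪A z, z⟫ * R2) ≤ D m A R2 lam := by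
    apply le_D hne
    intro B hB
    have h1 := hB.D_le hA (z ::ₘ m) hl
    have h2 := hB.hs_le_sqrt hA z
    unfold val at h1 ⊢
    rw [Multiset.map_cons, Multiset.sum_cons] at h1
    linarith
  linarith

/-! ## Flags -/

/-- decay between levels -/
noncomputable def th : ℝ := 4 / 5

lemma th_pos : 0 < th := by norm_num [th]
lemma th_lt_one : th < 1 := by norm_num [th]

/-- a flag: decreasing subspaces, zero from `n` on -/
structure Flag (E : Type*) [NormedAddCommGroup E] [InnerProductSpace ℝ E] where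
  n : ℕ
  M : ℕ → Submodule ℝ E
  anti : Antitone M
  bot : ∀ i, n ≤ i → M i = ⊥

namespace Flag

variable (V : Flag E)

/-- level operator -/
noncomputable def A (i : ℕ) : E →L[ℝ] E := FlagAlg557.H V.M th V.n i

/-- its inverse on `M i` -/
noncomputable def S (i : ℕ) : E →L[ℝ] E := FlagAlg557.Hi V.M th V.n i

/-- projection -/
noncomputable abbrev P (i : ℕ) : E →L[ℝ] E := FlagAlg557.P V.M i

/-- block projection -/
noncomputable abbrev Q (i : ℕ) : E →L[ℝ] E := FlagAlg557.Q V.M i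

/-- dimension of the block -/
noncomputable def k (i : ℕ) : ℝ :=
  (Module.finrank ℝ (V.M i) : ℝ) - (Module.finrank ℝ (V.M (i + 1)) : ℝ)

/-- trace of `A i` -/
noncomputable def r (i : ℕ) : ℝ := ∑ j ∈ Finset.Ico i V.n, th ^ (j - i) * V.k j

lemma bot_n : V.M V.n = ⊥ := V.bot _ le_rfl

end Flag

/-- the flag `T_s M_j`, `T_s = 1 - s v vᵀ` -/
noncomputable def Flag.rot (V : Flag E) (v : E) (s : ℝ) : Flag E where
  n := V.n
  M j := (V.M j).map (ProjRot557.Tr v s : E →ₗ[ℝ] E)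
  anti := fun _ _ h => Submodule.map_mono (V.anti h)
  bot := fun i h => by rw [V.bot i h, Submodule.map_bot]

/-- demotion of `w` from block `i` to block `i-1` -/
noncomputable def Flag.dem (V : Flag E) (i : ℕ) (w : E)
    (hw : ∀ x ∈ V.M (i + 1), ⟪w, x⟫ = 0) : Flag E where
  n := V.n
  M j := if j = i then V.M i ⊓ (Submodule.span ℝ {w})ᗮ else V.M j
  anti := by
    intro j l hjl x hx
    by_cases hj : j = i
    · by_cases hl : l = i
      · simp only [hj, hl, if_true] at hx ⊢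
        exact hx
      · have hl' : i + 1 ≤ l := by omega
        simp only [hl, if_false] at hx
        simp only [hj, if_true]
        refine ⟨V.anti (by omega) hx, ?_⟩
        exact (Submodule.mem_orthogonal_singleton_iff_inner_right).2 (hw x (V.anti hl' hx))
    · by_cases hl : l = i
      · simp only [hl, if_true] at hx
        simp only [hj, if_false]
        exact V.anti (by omega) hx.1
      · simp only [hl, if_false] at hx
        simp only [hj, if_false]
        exact V.anti hjl hx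
  bot := fun j h => by
    by_cases hj : j = i
    · simp only [hj, if_true]
      rw [V.bot i (hj ▸ h), bot_inf_eq]
    · simp only [hj, if_false]
      exact V.bot j h

/-- insertion of `v` at the levels `≤ I` -/
noncomputable def Flag.ins (V : Flag E) (I : ℕ) (v : E) : Flag E where
  n := max V.n (I + 1)
  M j := if j ≤ I then V.M j ⊔ Submodule.span ℝ {v} else V.M j
  anti := by
    intro j l hjl
    by_cases hl : l ≤ I
    · have hj : j ≤ I := hjl.trans hl
      simp only [hj, hl, if_true]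
      exact sup_le_sup_right (V.anti hjl) _
    · by_cases hj : j ≤ I
      · simp only [hj, hl, if_true, if_false]
        exact (V.anti hjl).trans le_sup_left
      · simp only [hj, hl, if_false]
        exact V.anti hjl
  bot := fun j h => by
    have h1 : ¬ j ≤ I := by
      have := le_max_right V.n (I + 1)
      omega
    simp only [h1, if_false]
    exact V.bot j ((le_max_left _ _).trans h)

/-- the operator `w wᵀ` -/
noncomputable def rk (w : E) : E →L[ℝ] E :=
  ContinuousLinearMap.toSpanSingleton ℝ w ∘L innerSL ℝ w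

@[simp] lemma rk_apply (w x : E) : rk w x = ⟪w, x⟫ • w := by simp [rk]

/-- parameters -/
structure Par where
  rho : ℝ
  kap : ℝ
  a : ℝ

/-- levels `lam i = a ^ i` -/
noncomputable def Par.lam (p : Par) (i : ℕ) : ℝ := p.a ^ i

/-- increments `lam i - lam (i-1)` -/
noncomputable def Par.inc (p : Par) (i : ℕ) : ℝ := if i = 0 then 1 else p.lam i - p.lam (i - 1)

structure Par.Ok (p : Par) : Prop where
  a_ge : 16 ≤ p.a
  kap_pos : 0 < p.kap
  kap_le : p.kap ≤ 1
  rho_ge : 16 ≤ p.rho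
  kap_rho : 16 ≤ p.kap * p.rho ^ 2

/-- level functional of a flag -/
noncomputable def DV (p : Par) (V : Flag E) (m : Multiset E) (i : ℕ) : ℝ :=
  D m (V.A i) (p.rho ^ 2 * V.r i) (p.lam i)

/-- the potential of a flag (Abel form of the penalty) -/
noncomputable def J (p : Par) (V : Flag E) (m : Multiset E) : ℝ :=
  ∑ i ∈ Finset.range V.n, (DV p V m i - p.kap * p.inc i * Module.finrank ℝ (V.M i))

/-- the potential -/
noncomputable def U (p : Par) (m : Multiset E) : ℝ := sSup (Set.range fun V : Flag E => J p V m)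

/-- near-maximiser -/
def NearMax (p : Par) (V : Flag E) (m : Multiset E) (e : ℝ) : Prop :=
  ∀ V' : Flag E, J p V' m ≤ J p V m + e

/-- admissible body at level `i` of a flag -/
abbrev AdmV (p : Par) (V : Flag E) (i : ℕ) (B : Set E) : Prop :=
  Adm (V.A i) (p.rho ^ 2 * V.r i) B

/-- value at level `i` of a flag -/
noncomputable abbrev valV (p : Par) (V : Flag E) (i : ℕ) (m : Multiset E) (B : Set E) : ℝ :=
  val m (V.A i) (p.lam i) B

end Crest.Agent.R239.GS
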