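import Crest.Agent.R239.GApi_521

/-!
# R239 / S0370, `g`-space line: transport between flags at one level, demotion (helper521)
-/

set_option autoImplicit false
set_option linter.unusedSectionVars false
open MeasureTheory ProbabilityTheory Set
open scoped RealInnerProductSpace

namespace Crest.Agent.R239.GS

open Crest.Agent.R239

variable {E : Type*} [NormedAddCommGroup E] [InnerProductSpace ℝ E] [FiniteDimensional ℝ E]
  [MeasurableSpace E] [BorelSpace E]

lemma neg_log_one_sub_le {p : Par} (hp : p.Ok) : -Real.log (1 - 1 / p.rho ^ 2) ≤ 2 / p.rho ^ 2 := by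
  have h6 := neg_log_le (x := 1 / p.rho ^ 2) (by linarith [hp.rho_inv]) (by positivity)
  have h7 : 2 * (1 / p.rho ^ 2) = 2 / p.rho ^ 2 := by ring
  linarith

/-- **Transport** of bodies from a flag `V'` to a flag `V` at level `i`: pull back by `R`, then one
cut by the cap. -/
theorem transport {p : Par} (hp : p.Ok) {V V' : Flag E} {i : ℕ} {R : E →L[ℝ] E}
    (hR : ∀ g, V'.A i (R g) = V.A i g) {c : ℝ}
    (hγ : ∀ B : Set E, IsClosed B → Convex ℝ B → (∀ x ∈ B, -x ∈ B) →
      Real.exp (-c) * (stdGaussian E).real B ≤ (stdGaussian E).real (R ⁻¹' B)) (m : Multiset E) :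
    DV p V m i ≤ DV p V' m i + p.lam i * (c + 2 / p.rho ^ 2) := by
  have key : DV p V m i - p.lam i * (c + 2 / p.rho ^ 2) ≤ DV p V' m i := by
    apply le_D (adm_ne hp V' i)
    intro B' hB'
    have hl := hp.lam_pos i
    have h1 := hγ B' hB'.closed hB'.convex hB'.symm
    have cR : IsClosed (R ⁻¹' B') := hB'.closed.preimage R.continuous
    have vR : Convex ℝ (R ⁻¹' B') := hB'.convex.linear_preimage (R : E →ₗ[ℝ] E)
    have sR : ∀ x ∈ R ⁻¹' B', -x ∈ R ⁻¹' B' := by
      intro x hx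
      simp only [mem_preimage, map_neg] at hx ⊢
      exact hB'.symm _ hx
    have h2 := V.cut_cap hp.rho_pos i cR.measurableSet vR sR
    have hr := hp.rho_inv
    have h3 : 0 < 1 - 1 / p.rho ^ 2 := by linarith
    have h4 : (1 - 1 / p.rho ^ 2) * (Real.exp (-c) * (stdGaussian E).real B')
        ≤ (stdGaussian E).real (R ⁻¹' B' ∩ V.capset p.rho i) :=
      (mul_le_mul_of_nonneg_left h1 h3.le).trans h2
    have h5 : 0 < (1 - 1 / p.rho ^ 2) * (Real.exp (-c) * (stdGaussian E).real B') :=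
      mul_pos h3 (mul_pos (Real.exp_pos _) hB'.pos)
    have hB : AdmV p V i (R ⁻¹' B' ∩ V.capset p.rho i) := by
      refine ⟨cR.inter (V.isClosed_capset _ _), vR.inter (V.convex_capset hp.rho_pos.le _), ?_, ?_,
        lt_of_lt_of_le h5 h4⟩
      · rintro x ⟨hx, hx'⟩
        exact ⟨sR x hx, V.symm_capset _ _ x hx'⟩
      · rintro x ⟨_, hx'⟩
        exact hx'
    have h6 := hB.D_le (V.psd i) m hl.le
    have h7 := Real.log_le_log h5 h4
    rw [Real.log_mul h3.ne' (mul_pos (Real.exp_pos _) hB'.pos).ne',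
      Real.log_mul (Real.exp_pos _).ne' hB'.pos.ne', Real.log_exp] at h7
    have h8 := neg_log_one_sub_le hp
    have h9 : (m.map fun z => hs (R ⁻¹' B' ∩ V.capset p.rho i) (V.A i z)).sum
        ≤ (m.map fun z => hs B' (V'.A i z)).sum := by
      apply Multiset.sum_map_le_sum_map
      intro z _
      apply hs_le hB.nonempty
      rintro g ⟨hg, _⟩
      have e : ⟪V.A i z, g⟫ = ⟪V'.A i z, R g⟫ := by
        rw [(V.psd i).sa, ← hR, (V'.psd i).sa]
      rw [e]
      exact hB'.le_hs (V'.psd i) z hg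
    have h10 : p.lam i * (Real.log (1 - 1 / p.rho ^ 2) + (-c + Real.log ((stdGaussian E).real B')))
        ≤ p.lam i * Real.log ((stdGaussian E).real (R ⁻¹' B' ∩ V.capset p.rho i)) :=
      mul_le_mul_of_nonneg_left h7 hl.le
    have h11 : p.lam i * (-Real.log (1 - 1 / p.rho ^ 2)) ≤ p.lam i * (2 / p.rho ^ 2) :=
      mul_le_mul_of_nonneg_left h8 hl.le
    unfold DV
    unfold val at h6 ⊢
    linarith
  linarith

/-- transport along a contraction -/
theorem transport_contraction {p : Par} (hp : p.Ok) {V V' : Flag E} {i : ℕ} {R : E →L[ℝ] E}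
    (hR : ∀ g, V'.A i (R g) = V.A i g) (hR1 : ∀ g, ‖R g‖ ≤ ‖g‖) (m : Multiset E) :
    DV p V m i ≤ DV p V' m i + p.lam i * (2 / p.rho ^ 2) := by
  have := transport hp hR (c := 0) (fun B hB cB sB => by
    have h := Cmp142.contraction R hR1 hB.measurableSet cB sB
    have h2 := ENNReal.toReal_mono (measure_ne_top _ _) h
    rw [neg_zero, Real.exp_zero, one_mul]
    exact h2) m
  simpa using this

/-! ### Algebra -/

lemma Flag.A_rec (V : Flag E) {i : ℕ} (h : i < V.n) (x : E) :
    V.A i x = V.Q i x + th • V.A (i + 1) x := by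
  rw [Flag.A, Flag.A, FlagAlg557.H, FlagAlg557.H, FlagAlg557.comb_apply, FlagAlg557.comb_apply,
    Finset.sum_eq_sum_Ico_succ_bot h, Finset.smul_sum]
  simp only [Nat.sub_self, pow_zero, one_smul]
  congr 1
  refine Finset.sum_congr rfl fun j hj => ?_
  have := (Finset.mem_Ico.1 hj).1
  rw [smul_smul, ← pow_succ']
  congr 2
  omega

lemma Flag.r_rec (V : Flag E) {i : ℕ} (h : i < V.n) : V.r i = V.k i + th * V.r (i + 1) := by
  rw [Flag.r, Flag.r, Finset.sum_eq_sum_Ico_succ_bot h, Finset.mul_sum]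
  simp only [Nat.sub_self, pow_zero, one_mul]
  congr 1
  refine Finset.sum_congr rfl fun j hj => ?_
  have := (Finset.mem_Ico.1 hj).1
  rw [← mul_assoc, ← pow_succ']
  congr 2
  omega

/-- `A_l` depends only on `M j`, `j ≥ l` -/
lemma A_congr {V V' : Flag E} (hn : V.n = V'.n) {l : ℕ} (h : ∀ j, l ≤ j → V.M j = V'.M j) :
    V.A l = V'.A l := by
  unfold Flag.A FlagAlg557.H FlagAlg557.comb
  rw [hn]
  refine Finset.sum_congr rfl fun j hj => ?_
  have := (Finset.mem_Ico.1 hj).1
  simp only [FlagAlg557.Q, FlagAlg557.P]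
  rw [ProjRot557.P_congr (h j this), ProjRot557.P_congr (h (j + 1) (by omega))]

lemma r_congr {V V' : Flag E} (hn : V.n = V'.n) {l : ℕ} (h : ∀ j, l ≤ j → V.M j = V'.M j) :
    V.r l = V'.r l := by
  unfold Flag.r Flag.k
  rw [hn]
  refine Finset.sum_congr rfl fun j hj => ?_
  have := (Finset.mem_Ico.1 hj).1
  rw [h j this, h (j + 1) (by omega)]

lemma DV_congr {p : Par} {V V' : Flag E} (hn : V.n = V'.n) {l : ℕ}
    (h : ∀ j, l ≤ j → V.M j = V'.M j) (m : Multiset E) : DV p V m l = DV p V' m l := by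
  unfold DV
  rw [A_congr hn h, r_congr hn h]

lemma sum_lam_le {p : Par} (hp : p.Ok) (i : ℕ) :
    ∑ l ∈ Finset.range (i + 1), p.lam l ≤ 2 * p.lam i := by
  induction i with
  | zero => simp [Par.lam]
  | succ i ih =>
    rw [Finset.sum_range_succ, p.lam_succ]
    have h1 := hp.lam_pos i
    have h2 := hp.a_ge
    nlinarith

section dem

variable (V : Flag E) (i : ℕ) (w : E) (hw : ∀ x ∈ V.M (i + 1), ⟪w, x⟫ = 0)

lemma dem_M_ne {j : ℕ} (h : j ≠ i) : (V.dem i w hw).M j = V.M j := by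
  simp [Flag.dem, h]

lemma dem_M_eq : (V.dem i w hw).M i = V.M i ⊓ (Submodule.span ℝ {w})ᗮ := by
  simp [Flag.dem]

lemma dem_P_ne {j : ℕ} (h : j ≠ i) : (V.dem i w hw).P j = V.P j :=
  ProjRot557.P_congr (dem_M_ne V i w hw h)

variable (hw1 : ‖w‖ = 1) (hwi : w ∈ V.M i)
include hw1 hwi

lemma dem_P_eq (x : E) : (V.dem i w hw).P i x = V.P i x - ⟪w, x⟫ • w := by
  have h := ProjRot557.P_congr (dem_M_eq V i w hw)
  show ((V.dem i w hw).M i).starProjection x = _
  rw [h]
  exact ProjRot557.P_inf_orth (V.M i) hw1 hwi x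

lemma dem_lt_n : i < V.n := by
  by_contra h
  have := V.bot i (not_lt.1 h)
  rw [this, Submodule.mem_bot] at hwi
  rw [hwi, norm_zero] at hw1
  norm_num at hw1

lemma dem_A_eq (x : E) : (V.dem i w hw).A i x = V.A i x - ⟪w, x⟫ • w := by
  have hn : i < V.n := dem_lt_n V i w hw1 hwi
  rw [Flag.A_rec _ (show i < (V.dem i w hw).n from hn), Flag.A_rec _ hn,
    A_congr (V := V.dem i w hw) (V' := V) rfl (l := i + 1)
      (fun j hj => dem_M_ne V i w hw (by omega)), FlagAlg557.Q_apply, FlagAlg557.Q_apply]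
  have h1 : FlagAlg557.P (V.dem i w hw).M i x = V.P i x - ⟪w, x⟫ • w :=
    dem_P_eq V i w hw hw1 hwi x
  have h2 : FlagAlg557.P (V.dem i w hw).M (i + 1) = V.P (i + 1) :=
    dem_P_ne V i w hw (by omega)
  rw [h1, h2]
  abel

lemma dem_A_lt (l d : ℕ) (h : l + (d + 1) = i) (x : E) :
    (V.dem i w hw).A l x = V.A l x + ((th ^ d - th ^ (d + 1)) * ⟪w, x⟫) • w := by
  have hn : i < V.n := dem_lt_n V i w hw1 hwi
  induction d generalizing l with
  | zero =>
    have hl : l < V.n := by omega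
    subst h
    rw [Flag.A_rec _ (show l < (V.dem (l + (0 + 1)) w hw).n from hl), Flag.A_rec _ hl]
    have h3 := dem_A_eq V (l + (0 + 1)) w hw hw1 hwi x
    simp only [zero_add] at h3 ⊢
    rw [h3, FlagAlg557.Q_apply, FlagAlg557.Q_apply]
    have h1 := dem_P_eq V (l + (0 + 1)) w hw hw1 hwi x
    simp only [zero_add] at h1
    have h2 : FlagAlg557.P (V.dem (l + 1) w hw).M l = V.P l :=
      dem_P_ne V (l + 1) w hw (by omega)
    have h1' : FlagAlg557.P (V.dem (l + 1) w hw).M (l + 1) x = V.P (l + 1) x - ⟪w, x⟫ • w := h1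
    rw [h2, h1']
    module
  | succ d ih =>
    have hl : l < V.n := by omega
    rw [Flag.A_rec _ (show l < (V.dem i w hw).n from hl), Flag.A_rec _ hl,
      ih (l + 1) (by omega), FlagAlg557.Q_apply, FlagAlg557.Q_apply]
    have h2 : FlagAlg557.P (V.dem i w hw).M l = V.P l := dem_P_ne V i w hw (by omega)
    have h3 : FlagAlg557.P (V.dem i w hw).M (l + 1) = V.P (l + 1) :=
      dem_P_ne V i w hw (by omega)
    rw [h2, h3]
    module

include hw in
lemma dem_P_w (j : ℕ) : V.P j w = if j ≤ i then w else 0 := by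
  split_ifs with h
  · exact FlagAlg557.P_of_mem (V.anti h hwi)
  · apply (V.M j).starProjection_apply_eq_zero_iff.2
    rw [Submodule.mem_orthogonal]
    intro x hx
    rw [real_inner_comm]
    exact hw x (V.anti (by omega) hx)

include hw in
lemma dem_A_w (l d : ℕ) (h : l + d = i) : V.A l w = th ^ d • w := by
  have hn : i < V.n := dem_lt_n V i w hw1 hwi
  have hb : V.A (i + 1) w = 0 := by
    have : V.A (i + 1) w = V.A (i + 1) (V.P (i + 1) w) := by
      rw [Flag.A, FlagAlg557.H, FlagAlg557.comb_P V.anti]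
    rw [this, dem_P_w V i w hw hw1 hwi, if_neg (by omega), map_zero]
  induction d generalizing l with
  | zero =>
    obtain rfl : l = i := by omega
    rw [Flag.A_rec _ hn, hb, FlagAlg557.Q_apply, dem_P_w V l w hw hw1 hwi,
      dem_P_w V l w hw hw1 hwi, if_pos le_rfl, if_neg (by omega)]
    simp
  | succ d ih =>
    have hl : l < V.n := by omega
    rw [Flag.A_rec _ hl, ih (l + 1) (by omega), FlagAlg557.Q_apply, dem_P_w V i w hw hw1 hwi,
      dem_P_w V i w hw hw1 hwi, if_pos (by omega), if_pos (by omega), sub_self, zero_add, smul_smul,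
      pow_succ']

/-- below the level `i` the demotion costs one cut -/
lemma dem_DV_lt {p : Par} (hp : p.Ok) {l : ℕ} (hl : l < i) (m : Multiset E) :
    DV p V m l ≤ DV p (V.dem i w hw) m l + p.lam l * (2 / p.rho ^ 2) := by
  obtain ⟨d, hd⟩ : ∃ d, l + (d + 1) = i := ⟨i - l - 1, by omega⟩
  have hww : ⟪w, w⟫ = (1 : ℝ) := by rw [real_inner_self_eq_norm_sq, hw1]; norm_num
  refine transport_contraction hp (V := V) (V' := V.dem i w hw)
    (R := ContinuousLinearMap.id ℝ E - (1 - th) • rk w) (fun g => ?_) (fun g => ?_) m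
  · have e1 : (ContinuousLinearMap.id ℝ E - (1 - th) • rk w) g = g - ((1 - th) * ⟪w, g⟫) • w := by
      simp [smul_smul]
    rw [e1, map_sub, map_smul, dem_A_lt V i w hw hw1 hwi l d hd,
      dem_A_lt V i w hw hw1 hwi l d hd, dem_A_w V i w hw hw1 hwi l (d + 1) (by omega), hww]
    have : th ^ (d + 1) = th ^ d * th := pow_succ _ _
    rw [this]
    module
  · have e1 : (ContinuousLinearMap.id ℝ E - (1 - th) • rk w) g = g - ((1 - th) * ⟪w, g⟫) • w := by
      simp [smul_smul]
    rw [e1]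
    have h2 : ‖g - ((1 - th) * ⟪w, g⟫) • w‖ ^ 2 ≤ ‖g‖ ^ 2 := by
      rw [norm_sub_sq_real, inner_smul_right, norm_smul, hw1, real_inner_comm, Real.norm_eq_abs,
        mul_one, sq_abs]
      have h3 := th_pos
      have h4 := th_lt_one
      nlinarith [mul_nonneg (mul_nonneg (sub_nonneg.2 h4.le) (by linarith : (0:ℝ) ≤ 1 + th))
        (sq_nonneg ⟪w, g⟫)]
    exact (abs_le_of_sq_le_sq' h2 (norm_nonneg _)).2

lemma dem_r_eq : (V.dem i w hw).r i = V.r i - 1 := by
  have hn : i < V.n := dem_lt_n V i w hw1 hwi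
  rw [Flag.r_rec _ (show i < (V.dem i w hw).n from hn), Flag.r_rec _ hn,
    r_congr (V := V.dem i w hw) (V' := V) rfl (l := i + 1)
      (fun j hj => dem_M_ne V i w hw (by omega)), Flag.k, Flag.k, dem_M_eq,
    dem_M_ne V i w hw (by omega : i + 1 ≠ i)]
  have := ProjRot557.finrank_inf_orth (M := V.M i) hw1 hwi
  have h2 : (Module.finrank ℝ (V.M i ⊓ (Submodule.span ℝ {w})ᗮ : Submodule ℝ E) : ℝ) + 1
      = Module.finrank ℝ (V.M i) := by exact_mod_cast this
  linarith

/-- **DEMOTION** for an arbitrary flag -/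
theorem dem_J {p : Par} (hp : p.Ok) (m : Multiset E) (hi : 1 ≤ i) :
    J p V m + (D m (V.A i - rk w) (p.rho ^ 2 * (V.r i - 1)) (p.lam i) - DV p V m i)
      + p.kap * (p.lam i - p.lam (i - 1)) - 4 / p.rho ^ 2 * p.lam (i - 1)
      ≤ J p (V.dem i w hw) m := by
  have hn : i < V.n := dem_lt_n V i w hw1 hwi
  have hsplit : ∀ f : ℕ → ℝ, ∑ l ∈ Finset.range V.n, f l
      = ∑ l ∈ Finset.range i, f l + (f i + ∑ l ∈ Finset.Ico (i + 1) V.n, f l) := by
    intro f
    rw [Finset.range_eq_Ico, ← Finset.sum_Ico_consecutive f (Nat.zero_le i) hn.le,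
      Finset.sum_eq_sum_Ico_succ_bot hn, Finset.range_eq_Ico]
  unfold J
  rw [show (V.dem i w hw).n = V.n from rfl, hsplit, hsplit]
  have hhi : ∑ l ∈ Finset.Ico (i + 1) V.n,
      (DV p (V.dem i w hw) m l - p.kap * p.inc l * Module.finrank ℝ ((V.dem i w hw).M l))
      = ∑ l ∈ Finset.Ico (i + 1) V.n, (DV p V m l - p.kap * p.inc l * Module.finrank ℝ (V.M l)) := by
    refine Finset.sum_congr rfl fun l hl => ?_
    have := (Finset.mem_Ico.1 hl).1
    rw [DV_congr (V := V.dem i w hw) (V' := V) rfl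
      (fun j hj => dem_M_ne V i w hw (by omega)), dem_M_ne V i w hw (by omega)]
  have hlo : ∑ l ∈ Finset.range i, (DV p V m l - p.kap * p.inc l * Module.finrank ℝ (V.M l))
      - 4 / p.rho ^ 2 * p.lam (i - 1)
      ≤ ∑ l ∈ Finset.range i,
      (DV p (V.dem i w hw) m l - p.kap * p.inc l * Module.finrank ℝ ((V.dem i w hw).M l)) := by
    have h1 : ∑ l ∈ Finset.range i, (DV p V m l - p.kap * p.inc l * Module.finrank ℝ (V.M l))
        ≤ ∑ l ∈ Finset.range i,
        ((DV p (V.dem i w hw) m l - p.kap * p.inc l * Module.finrank ℝ ((V.dem i w hw).M l))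
          + p.lam l * (2 / p.rho ^ 2)) := by
      apply Finset.sum_le_sum
      intro l hl
      have hl' := Finset.mem_range.1 hl
      rw [dem_M_ne V i w hw (by omega)]
      linarith [dem_DV_lt V i w hw hw1 hwi hp hl' m]
    rw [Finset.sum_add_distrib, ← Finset.sum_mul] at h1
    obtain ⟨i', rfl⟩ : ∃ i', i = i' + 1 := ⟨i - 1, by omega⟩
    have h2 := sum_lam_le hp i'
    simp only [Nat.add_sub_cancel] at *
    have h3 : 0 ≤ 2 / p.rho ^ 2 := by positivity
    have h4 : (∑ l ∈ Finset.range (i' + 1), p.lam l) * (2 / p.rho ^ 2)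
        ≤ (2 * p.lam i') * (2 / p.rho ^ 2) := mul_le_mul_of_nonneg_right h2 h3
    have h5 : 2 * p.lam i' * (2 / p.rho ^ 2) = 4 / p.rho ^ 2 * p.lam i' := by ring
    linarith
  have hmid : DV p (V.dem i w hw) m i = D m (V.A i - rk w) (p.rho ^ 2 * (V.r i - 1)) (p.lam i) := by
    unfold DV
    rw [dem_r_eq V i w hw hw1 hwi]
    congr 1
    ext x
    rw [dem_A_eq V i w hw hw1 hwi]
    simp
  have hfr : (Module.finrank ℝ ((V.dem i w hw).M i) : ℝ) = Module.finrank ℝ (V.M i) - 1 := by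
    rw [dem_M_eq]
    have := ProjRot557.finrank_inf_orth (M := V.M i) hw1 hwi
    have h2 : (Module.finrank ℝ (V.M i ⊓ (Submodule.span ℝ {w})ᗮ : Submodule ℝ E) : ℝ) + 1
        = Module.finrank ℝ (V.M i) := by exact_mod_cast this
    linarith
  have hinc : p.inc i = p.lam i - p.lam (i - 1) := by
    unfold Par.inc
    rw [if_neg (by omega)]
  rw [hhi, hmid, hfr, hinc]
  linarith

end dem

end Crest.Agent.R239.GS
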