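import Mathlib

/-! R239 / S0370, G-line (helper586): numerical part of the tilt estimate T1. -/

set_option autoImplicit false

namespace Crest.Agent.R239.GS586

open Finset

/-- weighted tail `Σ_{j > i} (25/8)^(j-i) b_j` -/
noncomputable def BB (b : ℕ → ℝ) (n i : ℕ) : ℝ := ∑ j ∈ Ico (i + 1) n, (25 / 8 : ℝ) ^ (j - i) * b j

lemma BB_nonneg {b : ℕ → ℝ} (hb : ∀ i, 0 ≤ b i) (n i : ℕ) : 0 ≤ BB b n i :=
  sum_nonneg fun j _ => mul_nonneg (by positivity) (hb j)

lemma geom_le {q : ℝ} (h0 : 0 ≤ q) (h1 : q ≤ 1 / 2) (j : ℕ) :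
    ∑ i ∈ range j, q ^ (j - i) ≤ 2 * q := by
  have h2 : ∀ j : ℕ, ∑ i ∈ range j, q ^ (j - i) ≤ 2 * q := by
    intro j
    induction j with
    | zero => simp; exact h0
    | succ j ih =>
      rw [sum_range_succ]
      have h3 : ∑ i ∈ range j, q ^ (j + 1 - i) = q * ∑ i ∈ range j, q ^ (j - i) := by
        rw [mul_sum]
        refine sum_congr rfl fun i hi => ?_
        have : j + 1 - i = (j - i) + 1 := by have := mem_range.1 hi; omega
        rw [this, pow_succ]; ring
      rw [h3]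
      have h4 : j + 1 - j = 1 := by omega
      rw [h4, pow_one]
      nlinarith
  exact h2 j

lemma sum_pow_le {a : ℝ} (ha : 2 ≤ a) (m : ℕ) : ∑ i ∈ range (m + 1), a ^ i ≤ 2 * a ^ m := by
  induction m with
  | zero => simp
  | succ m ih =>
    rw [sum_range_succ]
    have : a ^ (m + 1) = a * a ^ m := by ring
    have h0 : 0 ≤ a ^ m := by positivity
    nlinarith

lemma sum_set_pow_le {a W : ℝ} (ha : 2 ≤ a) (hW : 0 ≤ W) (S : Finset ℕ) (hS : ∀ i ∈ S, a ^ i ≤ W) :
    ∑ i ∈ S, a ^ i ≤ 2 * W := by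
  rcases S.eq_empty_or_nonempty with h | h
  · rw [h, sum_empty]; linarith
  · have h1 : S ⊆ range (S.max' h + 1) := fun i hi => mem_range.2 (Nat.lt_succ_of_le (S.le_max' i hi))
    calc ∑ i ∈ S, a ^ i ≤ ∑ i ∈ range (S.max' h + 1), a ^ i :=
          sum_le_sum_of_subset_of_nonneg h1 fun i _ _ => by positivity
      _ ≤ 2 * a ^ (S.max' h) := sum_pow_le ha _
      _ ≤ 2 * W := by
          have := hS _ (S.max'_mem h)
          linarith

lemma sum_BB {a : ℝ} (ha : 25 / 4 ≤ a) {b : ℕ → ℝ} (hb : ∀ i, 0 ≤ b i) (n : ℕ) :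
    ∑ i ∈ range n, a ^ i * BB b n i ≤ 25 / (4 * a) * ∑ i ∈ range n, a ^ i * b i := by
  have ha0 : 0 < a := by linarith
  have h1 : ∑ i ∈ range n, a ^ i * BB b n i
      = ∑ j ∈ range n, ∑ i ∈ range j, (25 / (8 * a)) ^ (j - i) * (a ^ j * b j) := by
    have e1 : ∀ i ∈ range n, a ^ i * BB b n i
        = ∑ j ∈ Ico (i + 1) n, (25 / (8 * a)) ^ (j - i) * (a ^ j * b j) := by
      intro i _
      rw [BB, mul_sum]
      refine sum_congr rfl fun j hj => ?_
      have hj' := mem_Ico.1 hj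
      have e2 : a ^ j = a ^ i * a ^ (j - i) := by rw [← pow_add]; congr 1; omega
      have e3 : (25 / (8 * a)) ^ (j - i) * a ^ (j - i) = (25 / 8 : ℝ) ^ (j - i) := by
        rw [← mul_pow]; congr 1; field_simp
      rw [e2]
      calc a ^ i * ((25 / 8) ^ (j - i) * b j) = a ^ i * (((25 / (8 * a)) ^ (j - i) * a ^ (j - i)) * b j) := by
            rw [e3]
        _ = _ := by ring
    rw [sum_congr rfl e1]
    apply sum_comm'
    intro i j
    simp only [mem_range, mem_Ico]
    omega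
  rw [h1, mul_sum]
  refine sum_le_sum fun j _ => ?_
  rw [← sum_mul]
  have h2 := geom_le (q := 25 / (8 * a)) (by positivity)
    (by rw [div_le_div_iff₀ (by positivity) (by norm_num)]; linarith) j
  have h3 : 25 / (4 * a) = 2 * (25 / (8 * a)) := by field_simp; ring
  rw [h3]
  exact mul_le_mul_of_nonneg_right h2 (mul_nonneg (by positivity) (hb j))

/-- **T1, numerical part.** -/
theorem T1num (n I : ℕ) (a g dl ε C e0 R : ℝ) (b x rem : ℕ → ℝ) (ha : 25 / 4 ≤ a)
    (hb0 : ∀ i, 0 ≤ b i) (hb1 : ∀ i, b i ≤ 1) (hbn : ∀ i, n ≤ i → b i = 0)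
    (hR : ∑ i ∈ range n, rem i ≤ R)
    (hg : 0 < g) (hdl : 0 < dl) (hε : 0 ≤ ε) (hC : 0 ≤ C)
    (hW0 : 0 ≤ e0 + ∑ i ∈ range n, (a ^ i * (ε * b i + C * BB b n i) + rem i))
    (lo : ∀ i < n, -(a ^ i * (ε * b i + C * BB b n i) + rem i) ≤ x i)
    (hsum : ∑ i ∈ range n, x i ≤ e0)
    (hi : ∀ i, I < i → i < n →
      e0 + ∑ i ∈ range n, (a ^ i * (ε * b i + C * BB b n i) + rem i) ≤ dl * a ^ i →
      g * a ^ i * (b i - b (i + 1)) - (a ^ i * (ε * b i + C * BB b n i) + rem i) ≤ x i)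
    (hεK : 8 * ε * (1 / g + 1 / dl) ≤ 1) (hCa : 25 * C / (4 * a) ≤ ε) :
    ∑ i ∈ Ico (I + 1) n, a ^ i * b i ≤ 4 * (1 / g + 1 / dl) * (e0 + 4 * ε * a ^ I + R) := by
  classical
  have ha0 : 0 < a := by linarith
  have ha2 : 2 ≤ a := by linarith
  set loss : ℕ → ℝ := fun i => a ^ i * (ε * b i + C * BB b n i) + rem i with hloss
  set ERR : ℝ := ∑ i ∈ range n, loss i with hERR
  set W : ℝ := e0 + ERR with hW
  set Y : ℝ := ∑ i ∈ Ico (I + 1) n, a ^ i * b i with hY
  set Z : ℝ := ∑ i ∈ range n, a ^ i * b i with hZ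
  have hY0 : 0 ≤ Y := sum_nonneg fun i _ => mul_nonneg (by positivity) (hb0 i)
  -- Z ≤ Y + 2 a^I
  have hZY : Z ≤ Y + 2 * a ^ I := by
    have h1 : Z ≤ ∑ i ∈ range (I + 1), a ^ i * b i + Y := by
      rw [hZ, hY]
      have hsub : range n ⊆ range (I + 1) ∪ Ico (I + 1) n := by
        intro i hi
        simp only [mem_union, mem_range, mem_Ico] at *
        omega
      refine (sum_le_sum_of_subset_of_nonneg hsub fun i _ _ =>
        mul_nonneg (by positivity) (hb0 i)).trans ?_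
      rw [sum_union]
      rw [disjoint_left]
      intro i h1 h2
      simp only [mem_range, mem_Ico] at *
      omega
    have h2 : ∑ i ∈ range (I + 1), a ^ i * b i ≤ ∑ i ∈ range (I + 1), a ^ i :=
      sum_le_sum fun i _ => mul_le_of_le_one_right (by positivity) (hb1 i)
    have h3 := sum_pow_le ha2 I
    linarith
  -- ERR ≤ 2 ε Z + R
  have hERRle : ERR ≤ 2 * ε * Z + R := by
    have h1 : ERR = ε * Z + C * ∑ i ∈ range n, a ^ i * BB b n i + ∑ i ∈ range n, rem i := by
      rw [hERR, hZ, mul_sum, mul_sum, ← sum_add_distrib, ← sum_add_distrib]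
      refine sum_congr rfl fun i _ => ?_
      simp only [hloss]; ring
    have h2 := sum_BB ha hb0 n
    have h3 : C * ∑ i ∈ range n, a ^ i * BB b n i ≤ ε * Z := by
      calc C * ∑ i ∈ range n, a ^ i * BB b n i ≤ C * (25 / (4 * a) * Z) :=
            mul_le_mul_of_nonneg_left h2 hC
        _ = (25 * C / (4 * a)) * Z := by ring
        _ ≤ ε * Z := mul_le_mul_of_nonneg_right hCa
            (sum_nonneg fun i _ => mul_nonneg (by positivity) (hb0 i))
    linarith
  set G : ℕ → Prop := fun i => W ≤ dl * a ^ i with hG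
  set YG : ℝ := ∑ i ∈ (Ico (I + 1) n).filter G, a ^ i * b i with hYG
  set YN : ℝ := ∑ i ∈ (Ico (I + 1) n).filter (fun i => ¬ G i), a ^ i * b i with hYN
  have hsplit : YG + YN = Y := sum_filter_add_sum_filter_not _ _ _
  have hYN1 : YN ≤ 2 * (W / dl) := by
    refine le_trans (sum_le_sum (g := fun i => a ^ i) fun i _ =>
      mul_le_of_le_one_right (by positivity) (hb1 i)) ?_
    apply sum_set_pow_le ha2 (div_nonneg hW0 hdl.le)
    intro i hi
    have := (mem_filter.1 hi).2
    simp only [hG, not_le] at this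
    rw [le_div_iff₀ hdl]
    linarith
  have hYG0 : 0 ≤ YG := sum_nonneg fun i _ => mul_nonneg (by positivity) (hb0 i)
  -- shifted sum
  have hshift : ∑ i ∈ (Ico (I + 1) n).filter G, a ^ i * b (i + 1) ≤ YG / a := by
    rw [le_div_iff₀ ha0, sum_mul]
    have e1 : ∑ i ∈ (Ico (I + 1) n).filter G, a ^ i * b (i + 1) * a
        = ∑ i ∈ ((Ico (I + 1) n).filter G).map ⟨Nat.succ, Nat.succ_injective⟩, a ^ i * b i := by
      rw [sum_map]
      refine sum_congr rfl fun i _ => ?_
      simp only [Function.Embedding.coeFn_mk, Nat.succ_eq_add_one]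
      ring
    rw [e1]
    have e2 : ∑ i ∈ ((Ico (I + 1) n).filter G).map ⟨Nat.succ, Nat.succ_injective⟩, a ^ i * b i
        = ∑ i ∈ (((Ico (I + 1) n).filter G).map ⟨Nat.succ, Nat.succ_injective⟩).filter (· < n),
          a ^ i * b i := by
      symm
      apply sum_filter_of_ne
      intro i _ h
      by_contra h2
      exact h (by rw [hbn i (not_lt.1 h2), mul_zero])
    rw [e2]
    apply sum_le_sum_of_subset_of_nonneg
    · intro i hi
      obtain ⟨h1, h2⟩ := mem_filter.1 hi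
      obtain ⟨j, hj, rfl⟩ := mem_map.1 h1
      obtain ⟨h3, h4⟩ := mem_filter.1 hj
      simp only [Function.Embedding.coeFn_mk, Nat.succ_eq_add_one] at h2 ⊢
      rw [mem_filter]
      constructor
      · rw [mem_Ico] at h3 ⊢; omega
      · simp only [hG] at h4 ⊢
        refine h4.trans ?_
        have : a ^ (j + 1) = a * a ^ j := by ring
        rw [this]
        have h5 : 0 ≤ dl * a ^ j := by positivity
        nlinarith
    · intro i _ _
      exact mul_nonneg (by positivity) (hb0 i)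
  -- gain
  have hgain : g * (YG - YG / a) ≤ W := by
    have h1 : ∑ i ∈ range n, ((if I < i ∧ G i then g * a ^ i * (b i - b (i + 1)) else 0) - loss i)
        ≤ ∑ i ∈ range n, x i := by
      refine sum_le_sum fun i hin => ?_
      have hin' := mem_range.1 hin
      split_ifs with h
      · exact hi i h.1 hin' h.2
      · have := lo i hin'
        simp only [hloss]
        linarith
    rw [sum_sub_distrib] at h1
    have h2 : ∑ i ∈ range n, (if I < i ∧ G i then g * a ^ i * (b i - b (i + 1)) else 0)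
        = ∑ i ∈ (Ico (I + 1) n).filter G, g * a ^ i * (b i - b (i + 1)) := by
      rw [← sum_filter]
      apply sum_congr _ fun _ _ => rfl
      ext i
      simp only [mem_filter, mem_range, mem_Ico]
      constructor
      · rintro ⟨h1, h2, h3⟩; exact ⟨⟨h2, h1⟩, h3⟩
      · rintro ⟨⟨h1, h2⟩, h3⟩; exact ⟨h2, h1, h3⟩
    have h3 : ∑ i ∈ (Ico (I + 1) n).filter G, g * a ^ i * (b i - b (i + 1))
        = g * (YG - ∑ i ∈ (Ico (I + 1) n).filter G, a ^ i * b (i + 1)) := by
      rw [hYG, ← sum_sub_distrib, mul_sum]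
      refine sum_congr rfl fun i _ => by ring
    have h4 : g * (YG - YG / a)
        ≤ g * (YG - ∑ i ∈ (Ico (I + 1) n).filter G, a ^ i * b (i + 1)) :=
      mul_le_mul_of_nonneg_left (by linarith) hg.le
    linarith
  have hYG1 : YG ≤ 2 * (W / g) := by
    have h1 : YG / a ≤ YG / 2 := div_le_div_of_nonneg_left hYG0 (by norm_num) ha2
    have h2 : g * (YG / 2) ≤ W := le_trans (mul_le_mul_of_nonneg_left (by linarith) hg.le) hgain
    have h3 : YG / 2 ≤ W / g := by
      rw [le_div_iff₀ hg]; linarith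
    linarith
  set K : ℝ := 1 / g + 1 / dl with hK
  have hK0 : 0 < K := by positivity
  have hYW : Y ≤ 2 * K * W := by
    have : 2 * K * W = 2 * (W / g) + 2 * (W / dl) := by rw [hK]; ring
    linarith
  have hWle : W ≤ e0 + 2 * ε * (Y + 2 * a ^ I) + R := by
    have h1 : 2 * ε * Z ≤ 2 * ε * (Y + 2 * a ^ I) := mul_le_mul_of_nonneg_left hZY (by linarith)
    linarith
  have h5 : Y ≤ 2 * K * (e0 + 2 * ε * (Y + 2 * a ^ I) + R) :=
    hYW.trans (mul_le_mul_of_nonneg_left hWle (by positivity))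
  have h6 : 2 * K * (2 * ε * Y) ≤ Y / 2 := by
    have : 2 * K * (2 * ε * Y) = (8 * ε * K) * (Y / 2) := by ring
    rw [this]
    exact mul_le_of_le_one_left (by linarith) hεK
  have h7 : 2 * K * (e0 + 2 * ε * (Y + 2 * a ^ I) + R)
      = 2 * K * (2 * ε * Y) + 2 * K * (e0 + 4 * ε * a ^ I + R) := by ring
  nlinarith

end Crest.Agent.R239.GS586
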