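import Crest.Agent.R239.GDef_521
import Crest.Agent.R239.GT1num_586

/-! R239 / S0370, G-line (helper586): tilt estimate T1 and growth of the potential (U3), from the
block statements. -/

set_option autoImplicit false
set_option linter.unusedSectionVars false
open MeasureTheory ProbabilityTheory Set
open scoped RealInnerProductSpace

namespace Crest.Agent.R239.GS586

open Crest.Agent.R239.GS
open Crest.Agent.R239.L0 (mrg spl)

variable {E : Type*} [NormedAddCommGroup E] [InnerProductSpace ℝ E] [FiniteDimensional ℝ E]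
  [MeasurableSpace E] [BorelSpace E]

/-- all near-optimal bodies of level `i` are thin in all block directions -/
def Thin (p : Par) (V : Flag E) (m : Multiset E) (i : ℕ) (c dl : ℝ) : Prop :=
  ∀ B, AdmV p V i B → valV p V i m B ≤ DV p V m i + dl * p.lam i →
    ∀ w : E, ‖w‖ = 1 → V.Q i w = w →
      ∫ g in B, ⟪w, g⟫ ^ 2 ∂(stdGaussian E) ≤ (1 - c) * (stdGaussian E).real B

/-- coordinates of `v` -/
noncomputable def bb (V : Flag E) (v : E) (i : ℕ) : ℝ := ‖V.P i v‖ ^ 2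

/-- statement of the block THIN (521) -/
def T_THIN : Prop := ∀ kap : ℝ, 0 < kap → kap ≤ 1 → ∃ c dl rho0 : ℝ, 0 < c ∧ c < 1 ∧ 0 < dl ∧
  ∀ (d : ℕ) (p : Par), p.Ok → p.kap = kap → rho0 ≤ p.rho →
    ∀ (V : Flag (EuclideanSpace ℝ (Fin d))) (m : Multiset (EuclideanSpace ℝ (Fin d))) (i : ℕ),
      1 ≤ i → NearMax p V m (dl * p.lam i) → Thin p V m i c dl

/-- statement of the block TILT (562) -/
def T_TILT : Prop := ∀ c dl : ℝ, 0 < c → c < 1 → 0 < dl → ∃ s g : ℝ, 0 < s ∧ s < 1 ∧ 0 < g ∧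
  ∀ eps : ℝ, 0 < eps → ∃ C R rho0 : ℝ, 0 ≤ C ∧ 0 ≤ R ∧
    ∀ (d : ℕ) (p : Par), p.Ok → rho0 ≤ p.rho →
      ∀ (V : Flag (EuclideanSpace ℝ (Fin d))) (m : Multiset (EuclideanSpace ℝ (Fin d)))
        (v : EuclideanSpace ℝ (Fin d)) (I : ℕ), ‖v‖ = 1 → L0.S m v ≤ p.lam I →
        ∃ rem : ℕ → ℝ, (∀ i, 0 ≤ rem i) ∧ ∑ i ∈ Finset.range V.n, rem i ≤ R * p.lam I ∧
          (∀ i < V.n, DV p V m i ≤ DV p (V.rot v s) m i
            + (p.lam i * (eps * bb V v i + C * BB (bb V v) V.n i) + rem i)) ∧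
          (∀ i, I < i → i < V.n → Thin p (V.rot v s) m i c dl →
            DV p V m i + g * p.lam i * (bb V v i - bb V v (i + 1)) ≤ DV p (V.rot v s) m i
              + (p.lam i * (eps * bb V v i + C * BB (bb V v) V.n i) + rem i))

/-- statement of the block GROWTH (505) -/
def T_GROWTH : Prop := ∃ C1 : ℝ, 1 ≤ C1 ∧ ∀ C3 : ℝ, ∃ eta : ℝ, 0 < eta ∧
  ∀ (d : ℕ) (p : Par), p.Ok → ∀ (V : Flag (EuclideanSpace ℝ (Fin d))) (I : ℕ)
    (v : EuclideanSpace ℝ (Fin d)) (s : Multiset (EuclideanSpace ℝ (Fin d) × EuclideanSpace ℝ (Fin d)))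
    (eta' : ℝ), ‖v‖ = 1 → v ∈ V.M I → ‖V.S I v‖ ^ 2 ≤ C3 → 0 < eta' → eta' ≤ eta →
    C1 * eta' * L0.S (spl s) v = p.lam I → 2 * L0.S (mrg s) v < L0.S (spl s) v →
    DV p V (mrg s) I + 2 / 5 * p.lam I / C1 ≤ DV p V (spl s) I

/-- statement of the block INSERTION -/
def T_INS : Prop := ∀ (d : ℕ) (p : Par), p.Ok → ∀ (V : Flag (EuclideanSpace ℝ (Fin d)))
  (m : Multiset (EuclideanSpace ℝ (Fin d))) (v : EuclideanSpace ℝ (Fin d)) (I : ℕ), ‖v‖ = 1 →
    J p V m - p.lam I * (p.kap + 8 / p.rho ^ 2 + 2 / (p.a * th ^ 2)) ≤ J p (V.ins I v) m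

/-- soft facts on the potential -/
structure SoftAPI (p : Par) (C : ℝ) : Prop where
  nonneg : ∀ (d : ℕ) (m : Multiset (EuclideanSpace ℝ (Fin d))), 0 ≤ U p m
  le_U : ∀ (d : ℕ) (V : Flag (EuclideanSpace ℝ (Fin d))) (m : Multiset (EuclideanSpace ℝ (Fin d))),
    J p V m ≤ U p m
  near : ∀ (d : ℕ) (m : Multiset (EuclideanSpace ℝ (Fin d))) (e : ℝ), 0 < e →
    ∃ V : Flag (EuclideanSpace ℝ (Fin d)), NearMax p V m e
  mono : ∀ (d : ℕ) (V : Flag (EuclideanSpace ℝ (Fin d)))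
    (s : Multiset (EuclideanSpace ℝ (Fin d) × EuclideanSpace ℝ (Fin d))) (i : ℕ),
    DV p V (mrg s) i ≤ DV p V (spl s) i
  cons : ∀ (d : ℕ) (z : EuclideanSpace ℝ (Fin d)) (m : Multiset (EuclideanSpace ℝ (Fin d))),
    U p (z ::ₘ m) ≤ U p m + C * Real.sqrt d * ‖z‖

/-- statement of the soft block -/
def T_SOFT : Prop := ∀ p : Par, p.Ok → ∃ C : ℝ, SoftAPI p C

/-! ## Coordinates -/

omit [MeasurableSpace E] [BorelSpace E] in
lemma bb_nonneg (V : Flag E) (v : E) (i : ℕ) : 0 ≤ bb V v i := sq_nonneg _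

omit [MeasurableSpace E] [BorelSpace E] in
lemma bb_le_one (V : Flag E) {v : E} (hv : ‖v‖ = 1) (i : ℕ) : bb V v i ≤ 1 := by
  have h : ‖V.P i v‖ ≤ ‖v‖ := Submodule.norm_starProjection_apply_le (V.M i) v
  rw [hv] at h
  have h0 := norm_nonneg (V.P i v)
  unfold bb
  nlinarith

omit [MeasurableSpace E] [BorelSpace E] in
lemma bb_zero (V : Flag E) (v : E) {i : ℕ} (hi : V.n ≤ i) : bb V v i = 0 := by
  unfold bb
  rw [FlagAlg557.P_eq_zero (V.bot i hi)]
  simp

/-! ## T1 -/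

/-- **(T1)** tilt estimate for near-maximisers -/
def T_T1 : Prop := ∀ kap : ℝ, 0 < kap → kap ≤ 1 → ∃ C8 rho0 a0 : ℝ, 0 < C8 ∧
  ∀ (d : ℕ) (p : Par), p.Ok → p.kap = kap → rho0 ≤ p.rho → a0 ≤ p.a →
    ∀ (V : Flag (EuclideanSpace ℝ (Fin d))) (m : Multiset (EuclideanSpace ℝ (Fin d))) (I : ℕ)
      (v : EuclideanSpace ℝ (Fin d)), ‖v‖ = 1 → L0.S m v ≤ p.lam I → NearMax p V m 1 →
      ∑ i ∈ Finset.Ico (I + 1) V.n, p.lam i * bb V v i ≤ C8 * p.lam I

lemma J_rot (p : Par) (V : Flag E) (m : Multiset E) {v : E} (hv : ‖v‖ = 1) {s : ℝ} (hs : s ≠ 1) :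
    J p (V.rot v s) m - J p V m
      = ∑ i ∈ Finset.range V.n, (DV p (V.rot v s) m i - DV p V m i) := by
  unfold J
  have : (V.rot v s).n = V.n := rfl
  rw [this, ← Finset.sum_sub_distrib]
  refine Finset.sum_congr rfl fun i _ => ?_
  have h : Module.finrank ℝ ((V.rot v s).M i) = Module.finrank ℝ (V.M i) :=
    ProjRot557.finrank_map_Tr (V.M i) hv hs
  rw [h]
  ring

theorem t1 (hthin : T_THIN) (htilt : T_TILT) : T_T1 := by
  intro kap hk0 hk1
  obtain ⟨c, dl, rho1, hc0, hc1, hdl, hTh⟩ := hthin kap hk0 hk1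
  obtain ⟨s, g, hs0, hs1, hg, hTi⟩ := htilt c dl hc0 hc1 hdl
  set K : ℝ := 1 / g + 1 / dl with hK
  have hK0 : 0 < K := by positivity
  set eps : ℝ := 1 / (8 * K) with heps
  have heps0 : 0 < eps := by positivity
  obtain ⟨C, R, rho2, hC0, hR0, hTi⟩ := hTi eps heps0
  refine ⟨4 * K * (1 + 4 * eps + R), max rho1 rho2, 25 * C / (4 * eps), by positivity, ?_⟩
  intro d p hp hpk hrho ha V m I v hv hS hNM
  have hr1 : rho1 ≤ p.rho := (le_max_left _ _).trans hrho
  have hr2 : rho2 ≤ p.rho := (le_max_right _ _).trans hrho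
  obtain ⟨rem, hrem0, hremR, hlo, hhi⟩ := hTi d p hp hr2 V m v I hv hS
  have ha16 : (16 : ℝ) ≤ p.a := hp.a_ge
  have ha0 : 0 < p.a := by linarith
  have hl1 : ∀ i, (1 : ℝ) ≤ p.a ^ i := fun i => one_le_pow₀ (by linarith)
  have hlam : ∀ i, p.lam i = p.a ^ i := fun _ => rfl
  have hloss0 : ∀ i, 0 ≤ p.a ^ i * (eps * bb V v i + C * BB (bb V v) V.n i) + rem i := by
    intro i
    have h1 := bb_nonneg V v i
    have h2 := BB_nonneg (bb_nonneg V v) V.n i
    have h3 := hrem0 i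
    have h4 : 0 ≤ p.a ^ i := by positivity
    positivity
  have hJ := J_rot p V m hv hs1.ne
  have hlo' : ∀ i < V.n, -(p.a ^ i * (eps * bb V v i + C * BB (bb V v) V.n i) + rem i)
      ≤ DV p (V.rot v s) m i - DV p V m i := by
    intro i hi
    have := hlo i hi
    rw [hlam] at this
    linarith
  have hmain := T1num V.n I p.a g dl eps C 1 (R * p.lam I) (bb V v)
    (fun i => DV p (V.rot v s) m i - DV p V m i) rem (by linarith) (bb_nonneg V v)
    (bb_le_one V hv) (fun i hi => bb_zero V v hi) hremR hg hdl heps0.le hC0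
    (add_nonneg zero_le_one (Finset.sum_nonneg fun i _ => hloss0 i)) hlo'
    (by
      rw [← hJ]
      have := hNM (V.rot v s)
      linarith)
    (by
      intro i hIi hin hW
      have hnm : NearMax p (V.rot v s) m (dl * p.lam i) := by
        intro V'
        have h1 := hNM V'
        have h2 : -∑ i ∈ Finset.range V.n,
            (p.a ^ i * (eps * bb V v i + C * BB (bb V v) V.n i) + rem i)
            ≤ ∑ i ∈ Finset.range V.n, (DV p (V.rot v s) m i - DV p V m i) := by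
          rw [← Finset.sum_neg_distrib]
          exact Finset.sum_le_sum fun i hi => hlo' i (Finset.mem_range.1 hi)
        rw [← hJ] at h2
        rw [hlam]
        linarith
      have hthin' := hTh d p hp hpk hr1 (V.rot v s) m i (by omega) hnm
      have := hhi i hIi hin hthin'
      rw [hlam] at this
      linarith)
    (by
      rw [heps, ← hK]
      apply le_of_eq
      field_simp)
    (by
      rw [div_le_iff₀ (by positivity)]
      rw [div_le_iff₀ (by positivity)] at ha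
      linarith)
  have e1 : ∑ i ∈ Finset.Ico (I + 1) V.n, p.a ^ i * bb V v i
      = ∑ i ∈ Finset.Ico (I + 1) V.n, p.lam i * bb V v i := rfl
  rw [e1, ← hK] at hmain
  refine hmain.trans ?_
  rw [hlam]
  have h5 : 1 + 4 * eps * p.a ^ I + R * p.a ^ I ≤ (1 + 4 * eps + R) * p.a ^ I := by
    have := hl1 I
    nlinarith
  calc 4 * K * (1 + 4 * eps * p.a ^ I + R * p.a ^ I)
      ≤ 4 * K * ((1 + 4 * eps + R) * p.a ^ I) := mul_le_mul_of_nonneg_left h5 (by positivity)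
    _ = _ := by ring

end Crest.Agent.R239.GS586
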