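import Crest.Agent.R239.GG_505
import Crest.Agent.R239.GApi_521

/-!
# R239 / S0370, g-space line: GROWTH, final form (helper505)
-/

set_option autoImplicit false
set_option linter.unusedSectionVars false
open MeasureTheory ProbabilityTheory Set
open scoped RealInnerProductSpace

namespace Crest.Agent.R239.G505

open Crest.Agent.R239 Crest.Agent.R239.GS
open Crest.Agent.R239.L0 (mrg spl S)

variable {E : Type*} [NormedAddCommGroup E] [InnerProductSpace ℝ E] [FiniteDimensional ℝ E]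
  [MeasurableSpace E] [BorelSpace E]

lemma trA (V : Flag E) (i : ℕ) : ∫ g, ⟪V.A i g, g⟫ ∂(stdGaussian E) = V.r i := by
  rw [← V.trace i]
  exact integral_congr_ae (ae_of_all _ fun g => (V.norm_G_sq i g).symm)

/-- **GROWTH**, `C₁ = 32000`: `32000 C3 η ≤ 1`, `32000 η S(spl s, v) = lam I`. -/
theorem growth_line {p : Par} (hp : p.Ok) (V : Flag E) {I : ℕ} {v : E}
    (hv : ‖v‖ = 1) (hvM : v ∈ V.M I) {C3 : ℝ} (hC3 : 1 ≤ C3)
    (hS : ‖V.S I v‖ ^ 2 ≤ C3) {η : ℝ} (hη : 0 < η) (hη1 : 32000 * C3 * η ≤ 1)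
    (s : Multiset (E × E)) (hS2 : 2 * S (mrg s) v ≤ S (spl s) v)
    (hlamI : 32000 * η * S (spl s) v = p.lam I) :
    DV p V (mrg s) I + (2 / 5) * (p.lam I / 32000) ≤ DV p V (spl s) I := by
  have hI : I < V.n := by
    by_contra hcon
    push Not at hcon
    have h0 := V.bot I hcon
    rw [h0, Submodule.mem_bot] at hvM
    rw [hvM, norm_zero] at hv
    norm_num at hv
  exact growth p hp.rho_ge V hI hv hvM (hp.lam_pos I) hC3 hS hη hη1 (adm_ne hp V I) (trA V I) s hS2
    hlamI

end Crest.Agent.R239.G505
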