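import Mathlib
import Crest.Agent.R239.Gr1_655
import Crest.Agent.R239.L0_942

/-!
# R239 (S0370), block G6 = B1 (growth), part 3: algebra of support functions

`O = Wd K v η 0` is the opening of `K` by `η[-v,v]`, `Wd K v 0 h` is `K + h[-v,v]`.
-/

set_option autoImplicit false

open Set
open scoped RealInnerProductSpace

namespace Crest.Agent.R239.Gr3435

open Crest.Agent.R239.Gr655 Crest.Agent.R239.L0

section core

variable {E : Type*} [NormedAddCommGroup E] [InnerProductSpace ℝ E]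

/-- support function as a supremum over the set -/
noncomputable def sf (K : Set E) (z : E) : ℝ := sSup ((fun x => ⟪x, z⟫) '' K)

theorem sf_le {K : Set E} (hne : K.Nonempty) {z : E} {c : ℝ} (h : ∀ x ∈ K, ⟪x, z⟫ ≤ c) :
    sf K z ≤ c :=
  csSup_le (hne.image _) (by rintro _ ⟨x, hx, rfl⟩; exact h x hx)

theorem le_sf {K : Set E} (hb : Bornology.IsBounded K) {x : E} (hx : x ∈ K) (z : E) :
    ⟪x, z⟫ ≤ sf K z := by
  refine le_csSup ?_ ⟨x, hx, rfl⟩
  obtain ⟨R, hR⟩ := hb.exists_norm_le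
  refine ⟨R * ‖z‖, ?_⟩
  rintro _ ⟨y, hy, rfl⟩
  exact (real_inner_le_norm y z).trans (mul_le_mul_of_nonneg_right (hR y hy) (norm_nonneg _))

/-- pointwise: eroded points -/
theorem er_le {K : Set E} {v : E} {η : ℝ} {y z : E} {c : ℝ} (hy : y ∈ Er K v η)
    (hc : ∀ x ∈ K, ⟪x, z⟫ ≤ c) : ⟪y, z⟫ + η * |⟪v, z⟫| ≤ c := by
  rcases le_total 0 ⟪v, z⟫ with h | h
  · have := hc _ hy.1
    rw [inner_add_left, real_inner_smul_left] at this
    rw [abs_of_nonneg h]; exact this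
  · have := hc _ hy.2
    rw [inner_sub_left, real_inner_smul_left] at this
    rw [abs_of_nonpos h]; linarith

/-- pointwise: points of the opening -/
theorem op_le {K : Set E} {v : E} {η : ℝ} {x z z₁ z₂ : E} {c₁ c₂ : ℝ}
    (hx : x ∈ Wd K v η 0) (hz : z = z₁ + z₂)
    (h₁ : ∀ x ∈ K, ⟪x, z₁⟫ ≤ c₁) (h₂ : ∀ x ∈ K, ⟪x, z₂⟫ ≤ c₂) :
    ⟪x, z⟫ ≤ (c₁ - η * |⟪v, z₁⟫|) + (c₂ - η * |⟪v, z₂⟫|) + η * |⟪v, z⟫| := by
  obtain ⟨s, hs, hy⟩ := hx
  rw [add_zero] at hs
  have e1 := er_le hy h₁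
  have e2 := er_le hy h₂
  have e3 : ⟪x, z⟫ = ⟪x + s • v, z₁⟫ + ⟪x + s • v, z₂⟫ - s * ⟪v, z⟫ := by
    rw [hz]
    simp only [inner_add_left, inner_add_right, real_inner_smul_left]
    ring
  have e4 : -(s * ⟪v, z⟫) ≤ η * |⟪v, z⟫| := by
    calc -(s * ⟪v, z⟫) ≤ |s * ⟪v, z⟫| := neg_le_abs _
      _ = |s| * |⟪v, z⟫| := abs_mul _ _
      _ ≤ η * |⟪v, z⟫| := mul_le_mul_of_nonneg_right hs (abs_nonneg _)
  linarith

/-- pointwise: points of the extension -/
theorem ext_le {K : Set E} {v : E} {h : ℝ} {x z : E} {c : ℝ}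
    (hx : x ∈ Wd K v 0 h) (hc : ∀ x ∈ K, ⟪x, z⟫ ≤ c) :
    ⟪x, z⟫ ≤ c + h * |⟪v, z⟫| := by
  obtain ⟨s, hs, hy, -⟩ := hx
  rw [zero_add] at hs
  rw [zero_smul, add_zero] at hy
  have e1 := hc _ hy
  rw [inner_add_left, real_inner_smul_left] at e1
  have e4 : -(s * ⟪v, z⟫) ≤ h * |⟪v, z⟫| := by
    calc -(s * ⟪v, z⟫) ≤ |s * ⟪v, z⟫| := neg_le_abs _
      _ = |s| * |⟪v, z⟫| := abs_mul _ _
      _ ≤ h * |⟪v, z⟫| := mul_le_mul_of_nonneg_right hs (abs_nonneg _)
  linarith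

/-- the sum of the support function over a population -/
noncomputable def Es (K : Set E) (m : Multiset E) : ℝ := (m.map (sf K)).sum

theorem Es_add (K : Set E) (m m' : Multiset E) : Es K (m + m') = Es K m + Es K m' := by
  simp [Es]

/-- opening, for populations -/
theorem Es_op {K : Set E} (hb : Bornology.IsBounded K) {v : E} {η : ℝ}
    (hne : (Wd K v η 0).Nonempty) (s : Multiset (E × E)) :
    Es (Wd K v η 0) (mrg s) ≤ Es K (spl s) - η * (S (spl s) v - S (mrg s) v) := by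
  induction s using Multiset.induction_on with
  | empty => simp [Es, mrg, spl, S]
  | cons p s ih =>
    have e1 : mrg (p ::ₘ s) = (p.1 + p.2) ::ₘ mrg s := by simp [mrg]
    have e2 : spl (p ::ₘ s) = {p.1} + {p.2} + spl s := by
      simp only [spl, Multiset.map_cons]
      rw [← Multiset.singleton_add, ← Multiset.singleton_add]
      abel
    have e3 : sf (Wd K v η 0) (p.1 + p.2) ≤ (sf K p.1 - η * |⟪v, p.1⟫|)
        + (sf K p.2 - η * |⟪v, p.2⟫|) + η * |⟪v, p.1 + p.2⟫| :=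
      sf_le hne fun x hx => op_le hx rfl (fun y hy => le_sf hb hy _) (fun y hy => le_sf hb hy _)
    have e4 : Es (Wd K v η 0) (mrg (p ::ₘ s))
        = sf (Wd K v η 0) (p.1 + p.2) + Es (Wd K v η 0) (mrg s) := by
      rw [e1]; simp [Es]
    have e5 : Es K (spl (p ::ₘ s)) = sf K p.1 + sf K p.2 + Es K (spl s) := by
      rw [e2, Es_add, Es_add]; simp [Es]
    have e6 : S (mrg (p ::ₘ s)) v = |⟪v, p.1 + p.2⟫| + S (mrg s) v := by
      rw [e1, S_cons]
    have e7 : S (spl (p ::ₘ s)) v = |⟪v, p.1⟫| + |⟪v, p.2⟫| + S (spl s) v := by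
      rw [e2, S_add, S_add]; simp [S]
    rw [e4, e5, e6, e7]
    linarith

/-- extension, for populations -/
theorem Es_ext {K K' : Set E} (hb : Bornology.IsBounded K) {v : E} {h : ℝ}
    (hne : K'.Nonempty) (hK' : K' ⊆ Wd K v 0 h) (m : Multiset E) :
    Es K' m ≤ Es K m + h * S m v := by
  induction m using Multiset.induction_on with
  | empty => simp [Es, S]
  | cons z m ih =>
    have e3 : sf K' z ≤ sf K z + h * |⟪v, z⟫| :=
      sf_le hne fun x hx => ext_le (hK' hx) (fun y hy => le_sf hb hy _)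
    have e4 : Es K' (z ::ₘ m) = sf K' z + Es K' m := by simp [Es]
    have e5 : Es K (z ::ₘ m) = sf K z + Es K m := by simp [Es]
    rw [e4, e5, S_cons]
    linarith

theorem wd_zero_sub {K : Set E} (hK : Convex ℝ K) (v : E) {η : ℝ} (hη : 0 ≤ η) :
    Wd K v η 0 ⊆ K := by
  refine (Wd_sub hK v hη le_rfl).trans ?_
  rintro x ⟨s, hs, h, -⟩
  rw [zero_add] at hs
  have : s = 0 := abs_nonpos_iff.1 hs
  simpa [this] using h

theorem sub_wd (K : Set E) (v : E) {h : ℝ} (hh : 0 ≤ h) : K ⊆ Wd K v 0 h := by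
  intro x hx
  exact ⟨0, by simpa using hh, by simpa [Er] using hx⟩

theorem convex_Wd {K : Set E} (hK : Convex ℝ K) (v : E) (t h : ℝ) : Convex ℝ (Wd K v t h) := by
  intro x hx y hy a b ha hb hab
  have := Wd_concave hK v ha hb hab hx hy
  rwa [← add_mul, hab, one_mul] at this

theorem symm_Wd {K : Set E} (hs : ∀ x ∈ K, -x ∈ K) (v : E) (t h : ℝ) :
    ∀ x ∈ Wd K v t h, -x ∈ Wd K v t h := by
  rintro x ⟨s, hs1, h1, h2⟩
  refine ⟨-s, by rwa [abs_neg], ?_, ?_⟩
  · have := hs _ h2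
    have e : -x + -s • v + t • v = -(x + s • v - t • v) := by module
    rw [e]; exact this
  · have := hs _ h1
    have e : -x + -s • v - t • v = -(x + s • v + t • v) := by module
    rw [e]; exact this

end core

/-! ### the value inequality, for an arbitrary monotone measure functional -/

section value

variable {E : Type*} [NormedAddCommGroup E] [InnerProductSpace ℝ E]

/-- `1 - ℓ` of the mass is kept: cost in the logarithm -/
theorem log_keep {a b l : ℝ} (ha : 0 < a) (hl0 : 0 ≤ l) (hl : l ≤ 1 / 2) (h : (1 - l) * a ≤ b) :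
    Real.log a - 2 * l ≤ Real.log b := by
  have hb : 0 < (1 - l) * a := mul_pos (by linarith) ha
  have h1 : Real.log ((1 - l) * a) ≤ Real.log b := Real.log_le_log hb h
  rw [Real.log_mul (by linarith) ha.ne'] at h1
  have h2 : 1 - (1 - l)⁻¹ ≤ Real.log (1 - l) := Real.one_sub_inv_le_log_of_pos (by linarith)
  have h3 : (1 - l)⁻¹ ≤ 1 + 2 * l := by
    rw [inv_le_comm₀ (by linarith) (by positivity), ← one_div, div_le_iff₀ (by positivity)]
    nlinarith
  linarith

/-- hazard from near-optimality -/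
theorem hazard {g : Set E → ℝ} {K K' : Set E} (hb : Bornology.IsBounded K)
    {v : E} {h lam e : ℝ} (hlam : 0 < lam)
    (hne : K'.Nonempty) (hK' : K' ⊆ Wd K v 0 h) (m : Multiset E)
    (hgK : 0 < g K) (hgK' : 0 < g K')
    (hnear : Es K m - lam * Real.log (g K) ≤ Es K' m - lam * Real.log (g K') + e) :
    g K' ≤ Real.exp ((h * S m v + e) / lam) * g K := by
  have h1 := Es_ext hb hne hK' m
  have h2 : lam * (Real.log (g K') - Real.log (g K)) ≤ h * S m v + e := by linarith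
  have h3 : Real.log (g K') ≤ (h * S m v + e) / lam + Real.log (g K) := by
    have : Real.log (g K') - Real.log (g K) ≤ (h * S m v + e) / lam := by
      rw [le_div_iff₀ hlam]; linarith
    linarith
  calc g K' = Real.exp (Real.log (g K')) := (Real.exp_log hgK').symm
    _ ≤ Real.exp ((h * S m v + e) / lam + Real.log (g K)) := Real.exp_le_exp.2 h3
    _ = _ := by rw [Real.exp_add, Real.exp_log hgK]

/-- growth of the value, given the loss of the opening -/
theorem value_growth {g : Set E → ℝ} {K : Set E} (hb : Bornology.IsBounded K)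
    {v : E} {η lam l : ℝ} (hlam : 0 ≤ lam) (hl0 : 0 ≤ l) (hl : l ≤ 1 / 2)
    (hne : (Wd K v η 0).Nonempty) (s : Multiset (E × E))
    (hgK : 0 < g K) (hO : (1 - l) * g K ≤ g (Wd K v η 0)) :
    Es (Wd K v η 0) (mrg s) - lam * Real.log (g (Wd K v η 0)) ≤
      Es K (spl s) - lam * Real.log (g K) - η * (S (spl s) v - S (mrg s) v) + 2 * l * lam := by
  have h1 := Es_op hb hne s
  have h2 := log_keep hgK hl0 hl hO
  have h3 := mul_le_mul_of_nonneg_left h2 hlam
  nlinarith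

/-- **B1, abstract form.**  `Dm`, `Dm'` are the infima of the value over the admissible bodies
(closed convex symmetric `K ⊆ L` with `0 < g K`), for the population before / after the splitting.
`hloss` is the only analytic input: hazard of the extension by `h` implies that the opening by `η`
keeps `1 - l` of the mass. -/
theorem growth_abs {g : Set E → ℝ} (gmono : ∀ A B : Set E, A ⊆ B → g A ≤ g B)
    {L : Set E} (hLb : Bornology.IsBounded L) (hLc : IsClosed L) (hLv : Convex ℝ L)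
    (hLs : ∀ x ∈ L, -x ∈ L)
    {Adm : Set E → Prop}
    (hAdm : ∀ K, Adm K ↔ IsClosed K ∧ Convex ℝ K ∧ (∀ x ∈ K, -x ∈ K) ∧ K ⊆ L ∧ 0 < g K)
    (g0 : g ∅ = 0)
    {v : E} {η h lam l β : ℝ} (hη : 0 ≤ η) (hh : 0 ≤ h) (hlam : 0 < lam)
    (hl0 : 0 ≤ l) (hl : l ≤ 1 / 2)
    (hloss : ∀ K, Adm K → g (Wd K v 0 h ∩ L) ≤ Real.exp β * g K →
      (1 - l) * g K ≤ g (Wd K v η 0))
    (s : Multiset (E × E)) {Dm Dm' : ℝ}
    (hD : IsGLB {r | ∃ K, Adm K ∧ r = Es K (mrg s) - lam * Real.log (g K)} Dm)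
    (hD' : IsGLB {r | ∃ K, Adm K ∧ r = Es K (spl s) - lam * Real.log (g K)} Dm')
    (hβ : h * S (spl s) v / lam < β) :
    Dm ≤ Dm' - η * (S (spl s) v - S (mrg s) v) + 2 * l * lam := by
  refine le_of_forall_pos_le_add fun ε hε => ?_
  -- a near optimal body
  set δ : ℝ := min ε ((β - h * S (spl s) v / lam) * lam) with hδ
  have hδ0 : 0 < δ := lt_min hε (mul_pos (by linarith) hlam)
  obtain ⟨_, ⟨K, hK, rfl⟩, hKlt⟩ : ∃ r ∈ {r | ∃ K, Adm K ∧ r = Es K (spl s)
      - lam * Real.log (g K)}, r < Dm' + δ := by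
    by_contra hcon
    push Not at hcon
    have := hD'.2 hcon
    linarith
  obtain ⟨Kc, Kv, Ks, KL, Kg⟩ := (hAdm K).1 hK
  have hb : Bornology.IsBounded K := hLb.subset KL
  -- the extension is admissible
  have hsub : K ⊆ Wd K v 0 h ∩ L := fun x hx => ⟨sub_wd K v hh hx, KL hx⟩
  have hext : Adm (Wd K v 0 h ∩ L) := by
    refine (hAdm _).2 ⟨(isClosed_Wd Kc v 0 h).inter hLc, (convex_Wd Kv v 0 h).inter hLv, ?_,
      inter_subset_right, lt_of_lt_of_le Kg (gmono _ _ hsub)⟩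
    rintro x ⟨h1, h2⟩
    exact ⟨symm_Wd Ks v 0 h x h1, hLs x h2⟩
  have hKne : K.Nonempty := by
    rcases K.eq_empty_or_nonempty with h0 | h0
    · rw [h0, g0] at Kg; exact absurd Kg (lt_irrefl _)
    · exact h0
  have hz := hazard (g := g) (K' := Wd K v 0 h ∩ L) hb (v := v) (h := h) (lam := lam) (e := δ) hlam
    (hKne.mono hsub) inter_subset_left (spl s) Kg (lt_of_lt_of_le Kg (gmono _ _ hsub))
    (by
      have := hD'.1 ⟨_, hext, rfl⟩
      linarith)
  have hexp : Real.exp ((h * S (spl s) v + δ) / lam) ≤ Real.exp β := by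
    apply Real.exp_le_exp.2
    rw [div_le_iff₀ hlam]
    have h1 : δ ≤ (β - h * S (spl s) v / lam) * lam := min_le_right _ _
    have h2 : (β - h * S (spl s) v / lam) * lam = β * lam - h * S (spl s) v := by
      field_simp
    linarith
  have hO := hloss K hK (hz.trans (mul_le_mul_of_nonneg_right hexp Kg.le))
  have hOpos : 0 < g (Wd K v η 0) := lt_of_lt_of_le (mul_pos (by linarith) Kg) hO
  have hOne : (Wd K v η 0).Nonempty := by
    rcases (Wd K v η 0).eq_empty_or_nonempty with h0 | h0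
    · rw [h0, g0] at hOpos; exact absurd hOpos (lt_irrefl _)
    · exact h0
  have hOadm : Adm (Wd K v η 0) :=
    (hAdm _).2 ⟨isClosed_Wd Kc v η 0, convex_Wd Kv v η 0, symm_Wd Ks v η 0,
      (wd_zero_sub Kv v hη).trans KL, hOpos⟩
  have hv := value_growth (g := g) hb hlam.le hl0 hl hOne s Kg hO
  have hd := hD.1 ⟨_, hOadm, rfl⟩
  have hδε : δ ≤ ε := min_le_left _ _
  linarith

/-- **B1, numerical form** (`lam ∈ [C₁ η s', 2 C₁ η s']`, `s' > 2 s`, loss `1/(40 C₁)`):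
growth at least `0.4 η s'`. -/
theorem growth_num {g : Set E → ℝ} (gmono : ∀ A B : Set E, A ⊆ B → g A ≤ g B)
    {L : Set E} (hLb : Bornology.IsBounded L) (hLc : IsClosed L) (hLv : Convex ℝ L)
    (hLs : ∀ x ∈ L, -x ∈ L)
    {Adm : Set E → Prop}
    (hAdm : ∀ K, Adm K ↔ IsClosed K ∧ Convex ℝ K ∧ (∀ x ∈ K, -x ∈ K) ∧ K ⊆ L ∧ 0 < g K)
    (g0 : g ∅ = 0)
    {v : E} {η T C₁ lam β : ℝ} (hη : 0 ≤ η) (hT : 0 ≤ T) (hlam : 0 < lam)
    (hC₁ : 1 ≤ C₁)
    (hloss : ∀ K, Adm K → g (Wd K v 0 (T * η) ∩ L) ≤ Real.exp β * g K →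
      (1 - 1 / (40 * C₁)) * g K ≤ g (Wd K v η 0))
    (s : Multiset (E × E)) {Dm Dm' : ℝ}
    (hD : IsGLB {r | ∃ K, Adm K ∧ r = Es K (mrg s) - lam * Real.log (g K)} Dm)
    (hD' : IsGLB {r | ∃ K, Adm K ∧ r = Es K (spl s) - lam * Real.log (g K)} Dm')
    (hβ : T / C₁ < β)
    (h1 : C₁ * η * S (spl s) v ≤ lam) (h2 : lam ≤ 2 * C₁ * η * S (spl s) v)
    (hs : 2 * S (mrg s) v ≤ S (spl s) v) :
    Dm + 2 / 5 * (η * S (spl s) v) ≤ Dm' := by
  have hC0 : 0 < C₁ := by linarith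
  have hS : 0 ≤ S (spl s) v := S_nonneg _ _
  have hβ' : T * η * S (spl s) v / lam < β := by
    refine lt_of_le_of_lt ?_ hβ
    rw [div_le_div_iff₀ hlam hC0]
    calc T * η * S (spl s) v * C₁ = T * (C₁ * η * S (spl s) v) := by ring
      _ ≤ T * lam := mul_le_mul_of_nonneg_left h1 hT
  have key := growth_abs gmono hLb hLc hLv hLs hAdm g0 (v := v) (η := η) (h := T * η) (lam := lam)
    (l := 1 / (40 * C₁)) (β := β) hη (mul_nonneg hT hη) hlam (by positivity)
    (by rw [div_le_div_iff₀ (by positivity) (by norm_num)]; linarith) hloss s hD hD' hβ'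
  have h3 : 2 * (1 / (40 * C₁)) * lam ≤ η * S (spl s) v / 10 := by
    calc 2 * (1 / (40 * C₁)) * lam ≤ 2 * (1 / (40 * C₁)) * (2 * C₁ * η * S (spl s) v) := by gcongr
      _ = η * S (spl s) v / 10 := by field_simp; ring
  have h4 : η * (S (spl s) v - S (mrg s) v) ≥ η * S (spl s) v / 2 := by
    nlinarith
  linarith

end value

end Crest.Agent.R239.Gr3435
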