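import Crest.Agent.R239.GT1_505
import Crest.Agent.R239.Gr2_655
import Crest.Agent.R239.Gr3_435
import Crest.Agent.R239.Dom_640

/-!
# R239 / S0370, g-space line (GDef_521): GROWTH at level `I` (helper505)
-/

set_option autoImplicit false
set_option linter.unusedSectionVars false
open MeasureTheory ProbabilityTheory Set
open scoped RealInnerProductSpace

namespace Crest.Agent.R239.G505

open Crest.Agent.R239 Crest.Agent.R239.GS Crest.Agent.R239.Gr655 Crest.Agent.R239.Gr3435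
open Crest.Agent.R239.L0 (mrg spl S)

variable {E : Type*} [NormedAddCommGroup E] [InnerProductSpace ℝ E] [FiniteDimensional ℝ E]
  [MeasurableSpace E] [BorelSpace E]

/-- square root of `A i` -/
noncomputable def sqA (V : Flag E) (i : ℕ) : E →L[ℝ] E :=
  FlagAlg557.comb V.M i V.n fun j => √(th ^ (j - i))

lemma norm_sqA_sq (V : Flag E) (i : ℕ) (g : E) : ‖sqA V i g‖ ^ 2 = ⟪V.A i g, g⟫ := by
  unfold sqA
  rw [FlagAlg557.norm_comb_sq V.anti]
  unfold Flag.A FlagAlg557.H
  rw [FlagAlg557.comb_apply, sum_inner]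
  refine Finset.sum_congr rfl fun j _ => ?_
  rw [Real.sq_sqrt (pow_nonneg th_pos.le _), real_inner_smul_left, FlagAlg557.norm_Q_sq V.anti]

lemma psdA (V : Flag E) (i : ℕ) : PSD (V.A i) :=
  ⟨A_sa V i, fun x => by rw [← norm_sqA_sq]; positivity⟩

/-- support functions of the opening -/
lemma sum_op {B : Set E} {A : E →L[ℝ] E} {R2 : ℝ} (hA : PSD A) (hB : Adm A R2 B) {w v : E}
    (hw : A w = v) {η : ℝ} (hne : (Wd B w η 0).Nonempty) (s : Multiset (E × E)) :
    ((mrg s).map fun z => hs (Wd B w η 0) (A z)).sum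
      ≤ ((spl s).map fun z => hs B (A z)).sum - η * (S (spl s) v - S (mrg s) v) := by
  have hv : ∀ z, ⟪w, A z⟫ = ⟪v, z⟫ := fun z => by rw [← hw, hA.sa]
  induction s using Multiset.induction_on with
  | empty => simp [mrg, spl, S]
  | cons p s ih =>
    have e1 : mrg (p ::ₘ s) = (p.1 + p.2) ::ₘ mrg s := by simp [mrg]
    have e2 : spl (p ::ₘ s) = {p.1} + {p.2} + spl s := by
      simp only [spl, Multiset.map_cons]
      rw [← Multiset.singleton_add, ← Multiset.singleton_add]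
      abel
    have e3 : hs (Wd B w η 0) (A (p.1 + p.2)) ≤ (hs B (A p.1) - η * |⟪v, p.1⟫|)
        + (hs B (A p.2) - η * |⟪v, p.2⟫|) + η * |⟪v, p.1 + p.2⟫| := by
      refine hs_le hne fun x hx => ?_
      have h := op_le (z := A (p.1 + p.2)) (z₁ := A p.1) (z₂ := A p.2) hx (map_add A p.1 p.2)
        (fun y hy => by rw [real_inner_comm]; exact hB.le_hs hA p.1 hy)
        (fun y hy => by rw [real_inner_comm]; exact hB.le_hs hA p.2 hy)
      rw [hv, hv, hv] at h
      rw [real_inner_comm]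
      exact h
    rw [e1, e2]
    simp only [Multiset.map_cons, Multiset.sum_cons, Multiset.map_add, Multiset.sum_add,
      Multiset.map_singleton, Multiset.sum_singleton, L0.S_cons, L0.S_add]
    have e6 : S ({p.1} : Multiset E) v = |⟪v, p.1⟫| := by simp [S]
    have e7 : S ({p.2} : Multiset E) v = |⟪v, p.2⟫| := by simp [S]
    rw [e6, e7]
    linarith

/-- support functions of the extension -/
lemma sum_ext {B B' : Set E} {A : E →L[ℝ] E} {R2 : ℝ} (hA : PSD A) (hB : Adm A R2 B) {w v : E}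
    (hw : A w = v) {h : ℝ} (hne : B'.Nonempty) (hB' : B' ⊆ Wd B w 0 h) (m : Multiset E) :
    (m.map fun z => hs B' (A z)).sum ≤ (m.map fun z => hs B (A z)).sum + h * S m v := by
  have hv : ∀ z, ⟪w, A z⟫ = ⟪v, z⟫ := fun z => by rw [← hw, hA.sa]
  induction m using Multiset.induction_on with
  | empty => simp [S]
  | cons z m ih =>
    have e3 : hs B' (A z) ≤ hs B (A z) + h * |⟪v, z⟫| := by
      refine hs_le hne fun x hx => ?_
      have h := ext_le (z := A z) (hB' hx)
        (fun y hy => by rw [real_inner_comm]; exact hB.le_hs hA z hy)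
      rw [hv] at h
      rw [real_inner_comm]
      exact h
    simp only [Multiset.map_cons, Multiset.sum_cons, L0.S_cons]
    linarith

/-- the norm of the cap form is at most its trace -/
lemma inner_A_le_trace (V : Flag E) (i : ℕ) {r : ℝ}
    (htr : ∫ g, ⟪V.A i g, g⟫ ∂(stdGaussian E) = r) (w : E) : ⟪V.A i w, w⟫ ≤ r * ‖w‖ ^ 2 := by
  have hA := psdA V i
  rcases (hA.nn w).eq_or_lt with h0 | hpos
  · rw [← h0, ← htr]
    exact mul_nonneg (integral_nonneg fun g => hA.nn g) (sq_nonneg _)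
  · have hint : Integrable (fun g => ⟪V.A i g, g⟫) (stdGaussian E) := by
      have := Dom640.integrable_norm_sq (H := E) (sqA V i)
      refine this.congr (ae_of_all _ fun g => ?_)
      exact norm_sqA_sq V i g
    have h1 : ∫ g, ⟪V.A i w, g⟫ ^ 2 ∂(stdGaussian E) ≤ ⟪V.A i w, w⟫ * r := by
      rw [← htr, ← integral_const_mul]
      refine integral_mono (Dom640.integrable_inner_sq _) (hint.const_mul _) fun g => ?_
      exact hA.cs w g
    rw [Dom640.integral_inner_sq] at h1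
    have h2 : ⟪V.A i w, w⟫ ≤ ‖V.A i w‖ * ‖w‖ := real_inner_le_norm _ _
    have h3 : ⟪V.A i w, w⟫ ^ 2 ≤ ‖V.A i w‖ ^ 2 * ‖w‖ ^ 2 := by
      rw [← mul_pow]; exact pow_le_pow_left₀ hpos.le h2 2
    have h4 : ⟪V.A i w, w⟫ ^ 2 ≤ ⟪V.A i w, w⟫ * r * ‖w‖ ^ 2 :=
      h3.trans (mul_le_mul_of_nonneg_right h1 (sq_nonneg _))
    have h5 : ⟪V.A i w, w⟫ * ⟪V.A i w, w⟫ ≤ ⟪V.A i w, w⟫ * (r * ‖w‖ ^ 2) := by
      nlinarith
    exact le_of_mul_le_mul_left h5 hpos

lemma isClosed_cap (V : Flag E) (i : ℕ) (R : ℝ) : IsClosed {x : E | ‖sqA V i x‖ ≤ R} :=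
  isClosed_le (sqA V i).continuous.norm continuous_const

lemma convex_cap (V : Flag E) (i : ℕ) (R : ℝ) : Convex ℝ {x : E | ‖sqA V i x‖ ≤ R} := by
  intro x hx y hy a b ha hb hab
  have hx' : ‖sqA V i x‖ ≤ R := hx
  have hy' : ‖sqA V i y‖ ≤ R := hy
  show ‖sqA V i (a • x + b • y)‖ ≤ R
  rw [map_add, map_smul, map_smul]
  calc ‖a • sqA V i x + b • sqA V i y‖ ≤ ‖a • sqA V i x‖ + ‖b • sqA V i y‖ := norm_add_le _ _
    _ = a * ‖sqA V i x‖ + b * ‖sqA V i y‖ := by
        rw [norm_smul, norm_smul, Real.norm_of_nonneg ha, Real.norm_of_nonneg hb]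
    _ ≤ a * R + b * R := add_le_add (mul_le_mul_of_nonneg_left hx' ha)
        (mul_le_mul_of_nonneg_left hy' hb)
    _ = R := by rw [← add_mul, hab, one_mul]

lemma symm_cap (V : Flag E) (i : ℕ) (R : ℝ) :
    ∀ x ∈ {x : E | ‖sqA V i x‖ ≤ R}, -x ∈ {x : E | ‖sqA V i x‖ ≤ R} := by
  intro x hx
  show ‖sqA V i (-x)‖ ≤ R
  rw [map_neg, norm_neg]
  exact hx

/-- one Markov cut at the cap of level `i` -/
lemma cut_cap (V : Flag E) (i : ℕ) {r : ℝ}
    (htr : ∫ g, ⟪V.A i g, g⟫ ∂(stdGaussian E) = r) {K : Set E} (hK : MeasurableSet K)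
    (cK : Convex ℝ K) (sK : ∀ x ∈ K, -x ∈ K) {R : ℝ} (hR : 0 < R) :
    (1 - r / R ^ 2) * (stdGaussian E).real K
      ≤ (stdGaussian E).real (K ∩ {x | ‖sqA V i x‖ ≤ R}) := by
  have h := Dom640.cut hK cK sK (sqA V i) hR
  have e : ∫ x, ‖sqA V i x‖ ^ 2 ∂(stdGaussian E) = r := by
    rw [← htr]
    exact integral_congr_ae (ae_of_all _ fun g => norm_sqA_sq V i g)
  rw [e] at h
  exact h

lemma cap_iff (V : Flag E) (i : ℕ) {R2 : ℝ} (hR : 0 ≤ R2) (x : E) :
    ⟪V.A i x, x⟫ ≤ R2 ↔ ‖sqA V i x‖ ≤ √R2 := by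
  rw [← norm_sqA_sq]
  exact (Real.le_sqrt (norm_nonneg _) hR).symm

set_option maxHeartbeats 2000000 in
/-- **GROWTH at level `I`**, `C₁ = 32000`. -/
theorem growth (p : Par) (hrho : 16 ≤ p.rho) (V : Flag E) {I : ℕ} (hI : I < V.n) {v : E}
    (hv : ‖v‖ = 1) (hvM : v ∈ V.M I) (hlam : 0 < p.lam I) {C3 : ℝ} (hC3 : 1 ≤ C3)
    (hS : ‖V.S I v‖ ^ 2 ≤ C3) {η : ℝ} (hη : 0 < η) (hη1 : 32000 * C3 * η ≤ 1)
    (hne : ∃ B, AdmV p V I B) (htr : ∫ g, ⟪V.A I g, g⟫ ∂(stdGaussian E) = V.r I)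
    (s : Multiset (E × E)) (hS2 : 2 * S (mrg s) v ≤ S (spl s) v)
    (hlamI : 32000 * η * S (spl s) v = p.lam I) :
    DV p V (mrg s) I + (2 / 5) * (p.lam I / 32000) ≤ DV p V (spl s) I := by
  set A := V.A I with hAdef
  have hA : PSD A := psdA V I
  set w := V.S I v with hwdef
  have hw : A w = v := by
    rw [hAdef, hwdef, A_S V hI.le, P_of_mem V hvM]
  have hvw : 1 ≤ ⟪A w, w⟫ := by
    rw [hw, hwdef, inner_S V hI v, P_of_mem V hvM, hv]
    have : 0 ≤ ∑ j ∈ Finset.Ico (I + 1) V.n, om1 (j - I) * ‖V.P j v‖ ^ 2 :=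
      Finset.sum_nonneg fun j _ => mul_nonneg (om1_nonneg _) (sq_nonneg _)
    linarith
  have hw0 : w ≠ 0 := by
    rintro h
    rw [h, map_zero, inner_zero_left] at hvw
    linarith
  set r := V.r I with hr
  have htrw := inner_A_le_trace V I htr w
  have hwC : ‖w‖ ≤ C3 := by
    have : ‖w‖ ^ 2 ≤ C3 ^ 2 := hS.trans (by nlinarith)
    exact (abs_le_of_sq_le_sq' this (by linarith)).2
  have hr0 : 0 < r := by
    by_contra hcon
    push Not at hcon
    have h1 : r * ‖w‖ ^ 2 ≤ 0 := mul_nonpos_of_nonpos_of_nonneg hcon (sq_nonneg _)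
    have h2 : (1 : ℝ) ≤ r * ‖w‖ ^ 2 := hvw.trans htrw
    linarith
  set ρ := p.rho with hρ
  have hρ0 : 0 < ρ := by linarith
  set R2 := ρ ^ 2 * r with hR2
  have hR20 : 0 < R2 := by positivity
  set R := √R2 with hR
  have hR0 : 0 < R := Real.sqrt_pos.2 hR20
  have hRsq : R ^ 2 = R2 := Real.sq_sqrt hR20.le
  have hReq : R = ρ * √r := by
    rw [hR, hR2, Real.sqrt_mul (by positivity), Real.sqrt_sq hρ0.le]
  -- the small slack
  set e := min (p.lam I / 100) (p.lam I / 32000 / 20) with he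
  have he0 : 0 < e := by rw [he]; positivity
  obtain ⟨B, hB, hBe⟩ := exists_near hne (spl s) (p.lam I) he0
  have hBc : B ⊆ {x | ‖sqA V I x‖ ≤ R} := fun x hx => (cap_iff V I hR20.le x).1 (hB.cap x hx)
  -- extension
  set W := Wd B w 0 (3200 * η) with hW
  have hTη : 0 ≤ 3200 * η := by positivity
  have hBW : B ⊆ W := sub_wd B w hTη
  have hWcl : IsClosed W := isClosed_Wd hB.closed w 0 _
  have hWcv : Convex ℝ W := convex_Wd hB.convex w 0 _
  have hWsy : ∀ x ∈ W, -x ∈ W := symm_Wd hB.symm w 0 _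
  set K1 := W ∩ {x | ‖sqA V I x‖ ≤ R} with hK1
  have hBK1 : B ⊆ K1 := fun x hx => ⟨hBW hx, hBc hx⟩
  have hK1A : AdmV p V I K1 :=
    { closed := hWcl.inter (isClosed_cap V I R)
      convex := hWcv.inter (convex_cap V I R)
      symm := fun x hx => ⟨hWsy x hx.1, symm_cap V I R x hx.2⟩
      cap := fun x hx => (cap_iff V I hR20.le x).2 hx.2
      pos := hB.pos.trans_le (measureReal_mono hBK1) }
  have hD1 := hK1A.D_le hA (spl s) hlam.le
  have hext := sum_ext hA hB hw hK1A.nonempty (B' := K1) (fun x hx => hx.1) (spl s)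
  have hTS : 3200 * η * S (spl s) v = p.lam I / 10 := by linarith
  rw [hTS] at hext
  have hgB := hB.pos
  have hgK := hK1A.pos
  set lB := Real.log ((stdGaussian E).real B) with hlB
  set lK := Real.log ((stdGaussian E).real K1) with hlK
  have hhaz0 : lK - lB ≤ 11 / 100 := by
    have h1 : val (spl s) A (p.lam I) B < val (spl s) A (p.lam I) K1 + e := hBe.trans_le (by linarith)
    unfold val at h1
    have h2 : p.lam I * (lK - lB) < p.lam I / 10 + e := by
      rw [← hlB, ← hlK] at h1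
      linarith
    have h3 : e ≤ p.lam I / 100 := min_le_left _ _
    have h4 : p.lam I * (lK - lB) ≤ p.lam I * (11 / 100) := by linarith
    exact le_of_mul_le_mul_left h4 hlam
  have hhaz : (stdGaussian E).real K1 ≤ Real.exp (11 / 100) * (stdGaussian E).real B := by
    have h1 : lK ≤ 11 / 100 + lB := by linarith
    have h2 := Real.exp_le_exp.2 h1
    rw [Real.exp_add, hlK, hlB, Real.exp_log hgK, Real.exp_log hgB] at h2
    exact h2
  -- the loss of the opening
  have hTw : 3200 * η * ‖w‖ ≤ 1 / 10 := by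
    have : 3200 * η * ‖w‖ ≤ 3200 * η * C3 := mul_le_mul_of_nonneg_left hwC hTη
    nlinarith
  have hcutW := cut_cap V I htr hWcl.measurableSet hWcv hWsy (R := R / 2) (by positivity)
  have hratio : r / (R / 2) ^ 2 = 4 / ρ ^ 2 := by
    rw [div_pow, hRsq, hR2]
    field_simp
    norm_num
  rw [hratio] at hcutW
  have hmeasc : MeasurableSet {x : E | ‖sqA V I x‖ ≤ R / 2} := (isClosed_cap V I _).measurableSet
  have htail : (stdGaussian E).real (W ∩ {x | R / 2 < ‖sqA V I x‖})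
      ≤ (4 / ρ ^ 2) * (stdGaussian E).real W := by
    have h1 := measureReal_inter_add_sdiff (μ := stdGaussian E) (s := W) hmeasc
    have h2 : W \ {x | ‖sqA V I x‖ ≤ R / 2} = W ∩ {x | R / 2 < ‖sqA V I x‖} := by
      ext x; simp [not_le]
    rw [h2] at h1
    linarith
  have hρ2 : (256 : ℝ) ≤ ρ ^ 2 := by nlinarith
  have h4ρ : 4 / ρ ^ 2 ≤ 1 / 64 := by
    rw [div_le_div_iff₀ (by positivity) (by norm_num)]
    linarith
  have h4ρ0 : 0 ≤ 4 / ρ ^ 2 := by positivity
  have hsw : ‖sqA V I w‖ ≤ √r * C3 := by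
    have h1 : ‖sqA V I w‖ ^ 2 ≤ (√r * C3) ^ 2 := by
      rw [norm_sqA_sq, mul_pow, Real.sq_sqrt hr0.le]
      refine htrw.trans (mul_le_mul_of_nonneg_left ?_ hr0.le)
      exact hS.trans (by nlinarith)
    exact (abs_le_of_sq_le_sq' h1 (by positivity)).2
  have hloss := loss_level (ι := Unit) {()} (ContinuousLinearMap.id ℝ E) (K := B) hB.convex
    hB.closed (v := w) (w := w) rfl hw0 (η := η) (T := 3200) (a := Real.exp (11 / 100)) (ε := 1 / 20)
    (k := 1 / 5) hη (by norm_num) hTw (fun _ => sqA V I) (fun _ => R) (fun _ => 4 / ρ ^ 2)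
    (fun _ _ => hR0) (fun _ _ x hx => hBc hx) (fun _ _ => h4ρ0) (fun _ _ => by linarith)
    (fun _ _ => htail)
    (by
      rw [Finset.sum_singleton]
      have h1 : 3200 * η * ‖sqA V I w‖ ≤ √r * (1 / 10) := by
        calc 3200 * η * ‖sqA V I w‖ ≤ 3200 * η * (√r * C3) := mul_le_mul_of_nonneg_left hsw hTη
          _ = √r * (3200 * η * C3) := by ring
          _ ≤ √r * (1 / 10) := by
            apply mul_le_mul_of_nonneg_left _ (Real.sqrt_nonneg _)
            nlinarith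
      have hsr : 0 < √r := Real.sqrt_pos.2 hr0
      rw [div_le_iff₀ hR0, hReq]
      have h2 : 4 * (3200 * η * ‖sqA V I w‖) * (4 / ρ ^ 2) ≤ 4 * (√r * (1 / 10)) * (1 / 64) := by
        apply mul_le_mul _ h4ρ h4ρ0 (by positivity)
        linarith
      nlinarith)
    (by norm_num)
    (by
      have : (ContinuousLinearMap.id ℝ E) ⁻¹' (Wd B w 0 (3200 * η)) ∩
          {x | ∀ j ∈ ({()} : Finset Unit), ‖(fun _ => sqA V I) j x‖ ≤ (fun _ => R) j} = K1 := by
        ext x
        simp [hK1, hW]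
      rw [this]
      exact hhaz)
    (by norm_num) (by norm_num)
    (by
      have h1 : Real.exp (11 / 100) ≤ 1.12 := by
        have := Real.exp_bound' (x := 11 / 100) (by norm_num) (by norm_num) (n := 3) (by norm_num)
        refine this.trans ?_
        norm_num [Finset.sum_range_succ, Nat.factorial]
      linarith)
  have hlB' : (stdGaussian E).real (B \ Wd B w η 0) ≤ 1 / 1280000 * (stdGaussian E).real B := by
    have e1 : (40 * (1 / 5) / 3200 ^ 2 : ℝ) = 1 / 1280000 := by norm_num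
    rw [e1] at hloss
    exact hloss
  set O := Wd B w η 0 with hO
  have hOB : O ⊆ B := wd_zero_sub hB.convex w hη.le
  have hOcl : IsClosed O := isClosed_Wd hB.closed w η 0
  have hOm : (1 - 1 / 1280000) * (stdGaussian E).real B ≤ (stdGaussian E).real O := by
    have h1 := measureReal_inter_add_sdiff (μ := stdGaussian E) (s := B) hOcl.measurableSet
    rw [inter_eq_self_of_subset_right hOB] at h1
    linarith
  have hOA : AdmV p V I O :=
    { closed := hOcl
      convex := convex_Wd hB.convex w η 0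
      symm := symm_Wd hB.symm w η 0
      cap := fun x hx => hB.cap x (hOB hx)
      pos := lt_of_lt_of_le (by positivity) hOm }
  have hkeep := log_keep hgB (by norm_num) (by norm_num) hOm
  have hD2 := hOA.D_le hA (mrg s) hlam.le
  have hop := sum_op hA hB hw hOA.nonempty s
  unfold DV
  unfold val at hD2 hBe
  have h5 : e ≤ p.lam I / 32000 / 20 := min_le_right _ _
  have h6 : η * (S (spl s) v - S (mrg s) v) ≥ p.lam I / 32000 / 2 := by
    have : η * (S (spl s) v - S (mrg s) v) ≥ η * (S (spl s) v / 2) :=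
      mul_le_mul_of_nonneg_left (by linarith) hη.le
    nlinarith
  have h7 : p.lam I * (lB - 2 * (1 / 1280000)) ≤ p.lam I * Real.log ((stdGaussian E).real O) :=
    mul_le_mul_of_nonneg_left hkeep hlam.le
  rw [← hlB] at hBe
  have h8 : p.rho ^ 2 * V.r I = R2 := rfl
  linarith

end Crest.Agent.R239.G505
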