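import Crest.Agent.R239.GT1_505
import Crest.Agent.R239.GApi_521

/-!
# R239 / S0370, g-space line: INSERTION (helper505)
-/

set_option autoImplicit false
set_option linter.unusedSectionVars false
open MeasureTheory ProbabilityTheory Set
open scoped RealInnerProductSpace

namespace Crest.Agent.R239.G505

open Crest.Agent.R239 Crest.Agent.R239.GS Crest.Agent.R239.ProjRot557

variable {E : Type*} [NormedAddCommGroup E] [InnerProductSpace ℝ E] [FiniteDimensional ℝ E]
  [MeasurableSpace E] [BorelSpace E]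

/-! ### Padding -/

lemma Q_of_ge (V : Flag E) {j : ℕ} (h : V.n ≤ j) : FlagAlg557.Q V.M j = 0 := by
  ext x
  have h1 : FlagAlg557.P V.M j x = 0 := FlagAlg557.P_eq_zero (V.bot j h) x
  have h2 : FlagAlg557.P V.M (j + 1) x = 0 := FlagAlg557.P_eq_zero (V.bot (j + 1) (by omega)) x
  rw [FlagAlg557.Q_apply, h1, h2]
  simp

/-- the same flag with a larger `n` -/
def pad (V : Flag E) (N : ℕ) (h : V.n ≤ N) : Flag E where
  n := N
  M := V.M
  anti := V.anti
  bot := fun i hi => V.bot i (h.trans hi)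

lemma k_of_ge (V : Flag E) {j : ℕ} (h : V.n ≤ j) : V.k j = 0 := by
  unfold Flag.k
  rw [V.bot j h, V.bot (j + 1) (by omega)]
  simp

lemma A_pad (V : Flag E) (N : ℕ) (h : V.n ≤ N) (i : ℕ) : (pad V N h).A i = V.A i := by
  unfold Flag.A FlagAlg557.H FlagAlg557.comb
  show ∑ j ∈ Finset.Ico i N, _ • FlagAlg557.Q V.M j = ∑ j ∈ Finset.Ico i V.n, _ • FlagAlg557.Q V.M j
  symm
  apply Finset.sum_subset (Finset.Ico_subset_Ico_right h)
  intro j hj hj'
  have : V.n ≤ j := by
    simp only [Finset.mem_Ico] at hj hj'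
    omega
  rw [Q_of_ge V this, smul_zero]

lemma r_pad (V : Flag E) (N : ℕ) (h : V.n ≤ N) (i : ℕ) : (pad V N h).r i = V.r i := by
  unfold Flag.r
  show ∑ j ∈ Finset.Ico i N, _ * V.k j = ∑ j ∈ Finset.Ico i V.n, _ * V.k j
  symm
  apply Finset.sum_subset (Finset.Ico_subset_Ico_right h)
  intro j hj hj'
  have : V.n ≤ j := by
    simp only [Finset.mem_Ico] at hj hj'
    omega
  rw [k_of_ge V this, mul_zero]

lemma DV_pad (p : Par) (V : Flag E) (N : ℕ) (h : V.n ≤ N) (m : Multiset E) (i : ℕ) :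
    DV p (pad V N h) m i = DV p V m i := by
  unfold DV
  rw [A_pad, r_pad]

lemma J_pad {p : Par} (hp : p.Ok) (V : Flag E) (N : ℕ) (h : V.n ≤ N) (m : Multiset E) :
    J p (pad V N h) m = J p V m := by
  unfold J
  show ∑ i ∈ Finset.range N, _ = ∑ i ∈ Finset.range V.n, _
  symm
  have e : ∀ i, DV p (pad V N h) m i - p.kap * p.inc i * Module.finrank ℝ ((pad V N h).M i)
      = DV p V m i - p.kap * p.inc i * Module.finrank ℝ (V.M i) := fun i => by
    rw [DV_pad]; rfl
  rw [Finset.sum_congr rfl fun i _ => e i]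
  apply Finset.sum_subset (Finset.range_subset_range.2 h)
  intro i hi hi'
  have hn : V.n ≤ i := by
    simp only [Finset.mem_range] at hi hi'
    omega
  rw [DV_eq_zero hp (V.A_eq_zero_of_le hn) (V.r_eq_zero_of_le hn), V.bot i hn]
  simp

/-! ### Comparison of two flags at one level -/

/-- body transfer along a contraction-like map -/
theorem level_cmp {p : Par} (hp : p.Ok) {V W : Flag E} {i : ℕ} (hi : i ≤ W.n)
    (hM : V.M i ≤ W.M i) {ι : Type*} (s : Finset ι) (w : ι → E)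
    (h : ∀ g, ‖cR V W (ContinuousLinearMap.id ℝ E) i g‖ ^ 2 ≤ ‖g‖ ^ 2 + ∑ k ∈ s, ⟪w k, g⟫ ^ 2)
    (m : Multiset E) :
    DV p V m i ≤ DV p W m i + p.lam i * ((∑ k ∈ s, ‖w k‖ ^ 2) / 2 + 2 / p.rho ^ 2) := by
  set R := cR V W (ContinuousLinearMap.id ℝ E) i with hR
  have hlam := hp.lam_pos i
  have key : DV p V m i - p.lam i * ((∑ k ∈ s, ‖w k‖ ^ 2) / 2 + 2 / p.rho ^ 2) ≤ DV p W m i := by
    apply le_D (adm_ne hp W i)
    intro B' hB'
    have hcmp := Cmp142.cmp_sum_real hB'.closed.measurableSet hB'.convex hB'.symm s R w h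
    set B := R ⁻¹' B' ∩ V.capset p.rho i with hB
    have hRcl : IsClosed (R ⁻¹' B') := hB'.closed.preimage R.continuous
    have hRcv : Convex ℝ (R ⁻¹' B') := hB'.convex.linear_preimage R.toLinearMap
    have hRsy : ∀ x ∈ R ⁻¹' B', -x ∈ R ⁻¹' B' := by
      intro x hx
      show R (-x) ∈ B'
      rw [map_neg]
      exact hB'.symm _ hx
    have hcut := V.cut_cap hp.rho_pos i hRcl.measurableSet hRcv hRsy
    have hinv := hp.rho_inv
    have hinv0 : 0 ≤ 1 / p.rho ^ 2 := by positivity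
    have hpre : 0 < (stdGaussian E).real (R ⁻¹' B') :=
      lt_of_lt_of_le (mul_pos (Real.exp_pos _) hB'.pos) hcmp
    have hBpos : 0 < (stdGaussian E).real B :=
      lt_of_lt_of_le (mul_pos (by linarith) hpre) hcut
    have hBA : AdmV p V i B :=
      { closed := hRcl.inter (V.isClosed_capset _ _)
        convex := hRcv.inter (V.convex_capset hp.rho_pos.le i)
        symm := fun x hx => ⟨hRsy x hx.1, V.symm_capset p.rho i x hx.2⟩
        cap := fun x hx => hx.2
        pos := hBpos }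
    have hD := hBA.D_le (V.psd i) m hlam.le
    have hhs : ∀ z, hs B (V.A i z) ≤ hs B' (W.A i z) := by
      intro z
      refine hs_le hBA.nonempty fun g hg => ?_
      have e1 : ⟪V.A i z, g⟫ = ⟪W.A i z, R g⟫ := by
        rw [A_sa, A_sa, hR, A_cR V W _ hi (fun x hx => hM hx)]
        rfl
      rw [e1]
      exact hB'.le_hs (W.psd i) z hg.1
    have hsum : (m.map fun z => hs B (V.A i z)).sum ≤ (m.map fun z => hs B' (W.A i z)).sum :=
      Multiset.sum_map_le_sum_map _ _ fun z _ => hhs z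
    have hlog : Real.log ((stdGaussian E).real B') - (∑ k ∈ s, ‖w k‖ ^ 2) / 2 - 2 / p.rho ^ 2
        ≤ Real.log ((stdGaussian E).real B) := by
      have h1 : Real.log ((1 - 1 / p.rho ^ 2) * (Real.exp (-(∑ k ∈ s, ‖w k‖ ^ 2) / 2)
          * (stdGaussian E).real B')) ≤ Real.log ((stdGaussian E).real B) := by
        apply Real.log_le_log
        · exact mul_pos (by linarith) (mul_pos (Real.exp_pos _) hB'.pos)
        · exact (mul_le_mul_of_nonneg_left hcmp (by linarith)).trans hcut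
      rw [Real.log_mul (by linarith) (mul_pos (Real.exp_pos _) hB'.pos).ne',
        Real.log_mul (Real.exp_pos _).ne' hB'.pos.ne', Real.log_exp] at h1
      have h2 := neg_log_le (x := 1 / p.rho ^ 2) (by linarith) hinv0
      have h3 : 2 * (1 / p.rho ^ 2) = 2 / p.rho ^ 2 := by ring
      linarith
    unfold DV
    unfold val at hD ⊢
    have := mul_le_mul_of_nonneg_left hlog hlam.le
    linarith
  linarith

/-! ### Insertion -/

/-- normal vector of the inserted direction -/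
noncomputable def uu (M : Submodule ℝ E) (v : E) : E :=
  open Classical in if v ∈ M then 0 else newDir M v

lemma norm_uu_le (M : Submodule ℝ E) (v : E) : ‖uu M v‖ ≤ 1 := by
  unfold uu
  split_ifs with h
  · simp
  · rw [norm_newDir h]

lemma norm_P_ins_sq (M : Submodule ℝ E) (v x : E) :
    ‖(M ⊔ Submodule.span ℝ {v}).starProjection x‖ ^ 2
      = ‖M.starProjection x‖ ^ 2 + ⟪uu M v, x⟫ ^ 2 := by
  unfold uu
  split_ifs with h
  · rw [P_congr (sup_span_of_mem h)]
    simp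
  · exact norm_P_insert_sq h x

lemma norm_A_le (V : Flag E) (i : ℕ) (x : E) : ‖V.A i x‖ ≤ ‖x‖ :=
  (FlagAlg557.norm_H_le V.anti th_pos th_lt_one.le V.n i V.bot_n x).trans
    (Submodule.norm_starProjection_apply_le _ _)

lemma ins_M_le (V : Flag E) (I : ℕ) (v : E) {j : ℕ} (hj : j ≤ I) :
    (V.ins I v).M j = V.M j ⊔ Submodule.span ℝ {v} := by
  show (if j ≤ I then _ else _) = _
  rw [if_pos hj]

lemma ins_M_gt (V : Flag E) (I : ℕ) (v : E) {j : ℕ} (hj : I < j) :
    (V.ins I v).M j = V.M j := by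
  show (if j ≤ I then _ else _) = _
  rw [if_neg (by omega)]

/-- the pointwise inequality of the insertion -/
lemma ins_pointwise (V : Flag E) (I : ℕ) (v : E) {i : ℕ} (hi : i ≤ I) (hn : I < V.n)
    (hn' : (V.ins I v).n = V.n) (g : E) :
    ‖cR V (V.ins I v) (ContinuousLinearMap.id ℝ E) i g‖ ^ 2
      ≤ ‖g‖ ^ 2 + ∑ j ∈ Finset.Ico (i + 1) (I + 1),
        ⟪√(FlagAlg557.om th (j - i)) • V.A i (uu (V.M j) v), g⟫ ^ 2 := by
  set W := V.ins I v with hW
  set x := V.A i g with hx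
  have hxM : x ∈ V.M i := A_mem V i g
  rw [cR_apply]
  show ‖W.S i x‖ ^ 2 ≤ _
  rw [norm_S_sq W (by rw [hn']; omega) x, hn']
  have hS : ‖V.S i x‖ ^ 2 ≤ ‖g‖ ^ 2 := by
    rw [hx, S_A V (by omega)]
    exact pow_le_pow_left₀ (norm_nonneg _) (Submodule.norm_starProjection_apply_le _ _) 2
  rw [norm_S_sq V (by omega) x] at hS
  have e1 : W.P i x = x := P_of_mem W (by
    rw [hW, ins_M_le V I v hi]
    exact Submodule.mem_sup_left hxM)
  have e2 : V.P i x = x := P_of_mem V hxM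
  rw [e1]
  rw [e2] at hS
  have hom : ∀ j, 0 ≤ FlagAlg557.om th (j - i) := fun j =>
    FlagAlg557.om_nonneg th_pos th_lt_one.le _
  have e3 : ∀ j ∈ Finset.Ico (i + 1) V.n, FlagAlg557.om th (j - i) * ‖W.P j x‖ ^ 2
      = FlagAlg557.om th (j - i) * ‖V.P j x‖ ^ 2
        + (if j ≤ I then ⟪√(FlagAlg557.om th (j - i)) • V.A i (uu (V.M j) v), g⟫ ^ 2 else 0) := by
    intro j _
    by_cases hj : j ≤ I
    · rw [if_pos hj]
      have h1 : ‖W.P j x‖ ^ 2 = ‖V.P j x‖ ^ 2 + ⟪uu (V.M j) v, x⟫ ^ 2 := by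
        have h2 : W.P j x = (V.M j ⊔ Submodule.span ℝ {v}).starProjection x := by
          show (W.M j).starProjection x = _
          rw [P_congr (ins_M_le V I v hj)]
        rw [h2, norm_P_ins_sq]
        rfl
      rw [h1, real_inner_smul_left, mul_pow, Real.sq_sqrt (hom j), A_sa, ← hx]
      ring
    · rw [if_neg hj, add_zero]
      have h2 : W.P j x = V.P j x := by
        show (W.M j).starProjection x = _
        rw [P_congr (ins_M_gt V I v (by omega))]
        rfl
      rw [h2]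
  rw [Finset.sum_congr rfl e3, Finset.sum_add_distrib]
  have e4 : ∑ j ∈ Finset.Ico (i + 1) V.n,
      (if j ≤ I then ⟪√(FlagAlg557.om th (j - i)) • V.A i (uu (V.M j) v), g⟫ ^ 2 else 0)
      = ∑ j ∈ Finset.Ico (i + 1) (I + 1),
        ⟪√(FlagAlg557.om th (j - i)) • V.A i (uu (V.M j) v), g⟫ ^ 2 := by
    rw [← Finset.sum_filter]
    apply Finset.sum_congr _ fun _ _ => rfl
    ext j
    simp only [Finset.mem_filter, Finset.mem_Ico]
    omega
  rw [e4]
  linarith

lemma sum_om_Ico (i I : ℕ) (hi : i ≤ I) :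
    ∑ j ∈ Finset.Ico (i + 1) (I + 1), FlagAlg557.om th (j - i) = (25 / 16 : ℝ) ^ (I - i) - 1 := by
  have h := FlagAlg557.sum_om th (I - i)
  have e : ((th ^ (I - i))⁻¹) ^ 2 = (25 / 16 : ℝ) ^ (I - i) := by
    rw [← inv_pow, ← pow_mul, mul_comm, pow_mul]
    congr 1
    norm_num [th]
  rw [e] at h
  rw [← h]
  have := Finset.sum_Ico_add' (fun k => FlagAlg557.om th (k - i)) 1 (I - i + 1) i
  have e1 : 1 + i = i + 1 := by omega
  have e2 : I - i + 1 + i = I + 1 := by omega
  rw [e1, e2] at this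
  rw [← this]
  refine Finset.sum_congr rfl fun k _ => ?_
  rw [Nat.add_sub_cancel]

/-- one level of the insertion -/
lemma ins_level {p : Par} (hp : p.Ok) (V : Flag E) (I : ℕ) (v : E) {i : ℕ} (hi : i ≤ I)
    (hn : I < V.n) (hn' : (V.ins I v).n = V.n) (m : Multiset E) :
    DV p V m i ≤ DV p (V.ins I v) m i
      + p.lam i * (((25 / 16 : ℝ) ^ (I - i) - 1) / 2 + 2 / p.rho ^ 2) := by
  have h := level_cmp hp (V := V) (W := V.ins I v) (i := i) (by rw [hn']; omega)
    (by rw [ins_M_le V I v hi]; exact le_sup_left) (Finset.Ico (i + 1) (I + 1))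
    (fun j => √(FlagAlg557.om th (j - i)) • V.A i (uu (V.M j) v))
    (ins_pointwise V I v hi hn hn') m
  refine h.trans ?_
  have hlam := hp.lam_pos i
  have h1 : ∑ k ∈ Finset.Ico (i + 1) (I + 1),
      ‖√(FlagAlg557.om th (k - i)) • V.A i (uu (V.M k) v)‖ ^ 2 ≤ (25 / 16 : ℝ) ^ (I - i) - 1 := by
    rw [← sum_om_Ico i I hi]
    refine Finset.sum_le_sum fun j _ => ?_
    rw [norm_smul, mul_pow, Real.norm_eq_abs, sq_abs,
      Real.sq_sqrt (FlagAlg557.om_nonneg th_pos th_lt_one.le _)]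
    have h2 : ‖V.A i (uu (V.M j) v)‖ ≤ 1 := (norm_A_le V i _).trans (norm_uu_le _ _)
    have h3 : ‖V.A i (uu (V.M j) v)‖ ^ 2 ≤ 1 := by
      have := norm_nonneg (V.A i (uu (V.M j) v))
      nlinarith
    have := mul_le_mul_of_nonneg_left h3 (FlagAlg557.om_nonneg th_pos th_lt_one.le (j - i))
    linarith
  have h4 : p.lam i * ((∑ k ∈ Finset.Ico (i + 1) (I + 1),
      ‖√(FlagAlg557.om th (k - i)) • V.A i (uu (V.M k) v)‖ ^ 2) / 2 + 2 / p.rho ^ 2)
      ≤ p.lam i * (((25 / 16 : ℝ) ^ (I - i) - 1) / 2 + 2 / p.rho ^ 2) :=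
    mul_le_mul_of_nonneg_left (by linarith) hlam.le
  linarith

lemma DV_congr (p : Par) {V W : Flag E} (hn : V.n = W.n) {i : ℕ}
    (hM : ∀ j, i ≤ j → V.M j = W.M j) (m : Multiset E) : DV p V m i = DV p W m i := by
  have hA : V.A i = W.A i := by
    unfold Flag.A FlagAlg557.H FlagAlg557.comb
    rw [hn]
    refine Finset.sum_congr rfl fun j hj => ?_
    have hj' := (Finset.mem_Ico.1 hj).1
    have : FlagAlg557.Q V.M j = FlagAlg557.Q W.M j := by
      show (V.M j).starProjection - (V.M (j + 1)).starProjection = _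
      rw [P_congr (hM j hj'), P_congr (hM (j + 1) (by omega))]
      rfl
    rw [this]
  have hr : V.r i = W.r i := by
    unfold Flag.r
    rw [hn]
    refine Finset.sum_congr rfl fun j hj => ?_
    have hj' := (Finset.mem_Ico.1 hj).1
    unfold Flag.k
    rw [hM j hj', hM (j + 1) (by omega)]
  unfold DV
  rw [hA, hr]

lemma finrank_ins_le (M : Submodule ℝ E) (v : E) :
    (Module.finrank ℝ (M ⊔ Submodule.span ℝ {v} : Submodule ℝ E) : ℝ)
      ≤ Module.finrank ℝ M + 1 := by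
  by_cases h : v ∈ M
  · rw [sup_span_of_mem h]; linarith
  · rw [finrank_insert h]; push_cast; linarith

lemma sum_inc (p : Par) (I : ℕ) : ∑ i ∈ Finset.range (I + 1), p.inc i = p.lam I := by
  induction I with
  | zero => simp [Par.inc, Par.lam]
  | succ I ih =>
    rw [Finset.sum_range_succ, ih]
    simp [Par.inc]

lemma sum_geo1 {a : ℝ} (ha : 16 ≤ a) (I : ℕ) :
    ∑ i ∈ Finset.range (I + 1), a ^ i * (25 / 16 : ℝ) ^ (I - i) ≤ a ^ I * (1 + 2 / a) := by
  have ha0 : 0 < a := by linarith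
  induction I with
  | zero =>
    simp
    positivity
  | succ I ih =>
    rw [Finset.sum_range_succ]
    have e : ∑ i ∈ Finset.range (I + 1), a ^ i * (25 / 16 : ℝ) ^ (I + 1 - i)
        = (25 / 16) * ∑ i ∈ Finset.range (I + 1), a ^ i * (25 / 16 : ℝ) ^ (I - i) := by
      rw [Finset.mul_sum]
      refine Finset.sum_congr rfl fun i hi => ?_
      have : I + 1 - i = (I - i) + 1 := by
        have := Finset.mem_range.1 hi
        omega
      rw [this, pow_succ]
      ring
    rw [e, Nat.sub_self, pow_zero, mul_one]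
    have hI : 0 < a ^ I := by positivity
    have h2 : (25 / 16 : ℝ) * (a ^ I * (1 + 2 / a)) + a ^ (I + 1) ≤ a ^ (I + 1) * (1 + 2 / a) := by
      have e2 : a ^ (I + 1) * (1 + 2 / a) = a ^ (I + 1) + 2 * a ^ I := by
        rw [pow_succ]; field_simp
      have h3 : 2 / a ≤ 1 / 8 := by
        rw [div_le_div_iff₀ ha0 (by norm_num)]; linarith
      rw [e2]
      nlinarith
    linarith

lemma sum_geo2 {a : ℝ} (ha : 16 ≤ a) (I : ℕ) :
    ∑ i ∈ Finset.range (I + 1), a ^ i ≤ a ^ I * (16 / 15) := by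
  have ha0 : 0 < a := by linarith
  induction I with
  | zero => norm_num
  | succ I ih =>
    rw [Finset.sum_range_succ]
    have hI : 0 < a ^ I := by positivity
    rw [pow_succ]
    nlinarith

lemma ins_num {p : Par} (hp : p.Ok) (I : ℕ) :
    ∑ i ∈ Finset.range (I + 1), (p.lam i * (((25 / 16 : ℝ) ^ (I - i) - 1) / 2 + 2 / p.rho ^ 2)
        + p.kap * p.inc i)
      ≤ p.lam I * (p.kap + 3 / p.rho ^ 2 + 1 / p.a) := by
  rw [Finset.sum_add_distrib, ← Finset.mul_sum, sum_inc]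
  have e : ∀ i ∈ Finset.range (I + 1),
      p.lam i * (((25 / 16 : ℝ) ^ (I - i) - 1) / 2 + 2 / p.rho ^ 2)
      = (1 / 2) * (p.a ^ i * (25 / 16 : ℝ) ^ (I - i)) + (2 / p.rho ^ 2 - 1 / 2) * p.a ^ i := by
    intro i _
    unfold Par.lam
    ring
  rw [Finset.sum_congr rfl e, Finset.sum_add_distrib, ← Finset.mul_sum, ← Finset.mul_sum]
  have h1 := sum_geo1 hp.a_ge I
  have h2 := sum_geo2 hp.a_ge I
  have h3 : p.a ^ I ≤ ∑ i ∈ Finset.range (I + 1), p.a ^ i :=
    Finset.single_le_sum (f := fun i => p.a ^ i) (fun i _ => by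
      have := hp.a_ge
      positivity) (Finset.mem_range.2 (Nat.lt_succ_self I))
  have ha0 : 0 < p.a := by have := hp.a_ge; linarith
  have hr := hp.rho_pos
  have h4 : 0 ≤ 2 / p.rho ^ 2 := by positivity
  have h5 : (2 / p.rho ^ 2) * ∑ i ∈ Finset.range (I + 1), p.a ^ i
      ≤ (2 / p.rho ^ 2) * (p.a ^ I * (16 / 15)) := mul_le_mul_of_nonneg_left h2 h4
  have hI : 0 < p.a ^ I := by positivity
  have h6 : (2 / p.rho ^ 2) * (p.a ^ I * (16 / 15)) ≤ p.a ^ I * (3 / p.rho ^ 2) := by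
    have : (2 / p.rho ^ 2) * (p.a ^ I * (16 / 15)) = p.a ^ I * ((32 / 15) / p.rho ^ 2) := by ring
    rw [this]
    apply mul_le_mul_of_nonneg_left _ hI.le
    gcongr
    norm_num
  have h7 : (1 / 2 : ℝ) * (p.a ^ I * (1 + 2 / p.a)) = p.a ^ I / 2 + p.a ^ I * (1 / p.a) := by ring
  unfold Par.lam
  nlinarith

/-- **INSERTION** -/
theorem ins_line {p : Par} (hp : p.Ok) (V : Flag E) (I : ℕ) (v : E) (m : Multiset E) :
    J p V m - p.lam I * (p.kap + 3 / p.rho ^ 2 + 1 / p.a) ≤ J p (V.ins I v) m := by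
  -- padding
  set N := max V.n (I + 1) with hN
  have hVN : V.n ≤ N := le_max_left _ _
  set V₁ := pad V N hVN with hV₁
  have hn : I < V₁.n := lt_of_lt_of_le (Nat.lt_succ_self I) (le_max_right V.n (I + 1))
  have hn' : (V₁.ins I v).n = V₁.n := by
    show max N (I + 1) = N
    exact max_eq_left (le_max_right _ _)
  have hW : J p (V₁.ins I v) m = J p (V.ins I v) m := by
    have hle : (V.ins I v).n ≤ N := le_of_eq rfl
    have h0 : V₁.ins I v = pad (V.ins I v) N hle := by
      unfold Flag.ins pad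
      congr 1
    rw [h0, J_pad hp]
  rw [← hW, ← J_pad hp V N hVN m]
  show J p V₁ m - _ ≤ _
  set W := V₁.ins I v with hWdef
  have hterm : ∀ i ∈ Finset.range V₁.n,
      DV p V₁ m i - p.kap * p.inc i * Module.finrank ℝ (V₁.M i)
      ≤ (DV p W m i - p.kap * p.inc i * Module.finrank ℝ (W.M i))
        + (if i ≤ I then (p.lam i * (((25 / 16 : ℝ) ^ (I - i) - 1) / 2 + 2 / p.rho ^ 2)
        + p.kap * p.inc i) else 0) := by
    intro i _
    by_cases hi : i ≤ I
    · rw [if_pos hi]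
      have h1 := ins_level hp V₁ I v hi hn hn' m
      have h2 : (Module.finrank ℝ (W.M i) : ℝ) ≤ Module.finrank ℝ (V₁.M i) + 1 := by
        rw [hWdef, ins_M_le V₁ I v hi]
        exact finrank_ins_le _ _
      have h3 : 0 ≤ p.kap * p.inc i := (mul_pos hp.kap_pos (hp.inc_pos i)).le
      have h4 := mul_le_mul_of_nonneg_left h2 h3
      linarith
    · rw [if_neg hi, add_zero]
      have h1 : DV p V₁ m i = DV p W m i :=
        DV_congr p hn'.symm (fun j hj => (ins_M_gt V₁ I v (by omega)).symm) m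
      rw [h1, hWdef, ins_M_gt V₁ I v (by omega)]
  have hsum := Finset.sum_le_sum hterm
  rw [Finset.sum_add_distrib] at hsum
  have e4 : ∑ i ∈ Finset.range V₁.n,
      (if i ≤ I then (p.lam i * (((25 / 16 : ℝ) ^ (I - i) - 1) / 2 + 2 / p.rho ^ 2)
        + p.kap * p.inc i) else 0)
      = ∑ i ∈ Finset.range (I + 1), (p.lam i * (((25 / 16 : ℝ) ^ (I - i) - 1) / 2
        + 2 / p.rho ^ 2) + p.kap * p.inc i) := by
    rw [← Finset.sum_filter]
    apply Finset.sum_congr _ fun _ _ => rfl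
    ext j
    simp only [Finset.mem_filter, Finset.mem_range]
    omega
  rw [e4] at hsum
  have hnum := ins_num hp I
  unfold J
  rw [hn']
  linarith

end Crest.Agent.R239.G505
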