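import Mathlib

/-!
# R239 (583's proof): linear algebra of the flag moves (helper557)

For a subspace `M` of a finite dimensional real inner product space `E`, `P M = M.starProjection`.

* ROTATION (C1): `Tr v s x = x - s ⟪v, x⟫ v`, `‖v‖ = 1`, `sb = 2 s - s²`, `b = ‖P M v‖²`,
  `sb * b < 1`: explicit projection on `M.map (Tr v s)` and the formula for its norm.
* INSERTION: projection on `M ⊔ ℝ n` for a unit vector `n ⟂ M`.
* DEMOTION: projection on `M ⊓ (ℝ w)ᗮ` for a unit vector `w ∈ M`.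
-/

set_option autoImplicit false
set_option linter.unusedSectionVars false

open scoped RealInnerProductSpace
open Submodule

namespace Crest.Agent.R239.ProjRot557

variable {E : Type*} [NormedAddCommGroup E] [InnerProductSpace ℝ E] [FiniteDimensional ℝ E]

/-! ### Generalities -/

lemma inner_P_left (M : Submodule ℝ E) (x y : E) (hy : y ∈ M) :
    ⟪M.starProjection x, y⟫ = ⟪x, y⟫ := by
  have h := M.starProjection_inner_eq_zero x y hy
  rw [inner_sub_left] at h
  linarith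

lemma inner_P_right (M : Submodule ℝ E) (x y : E) (hx : x ∈ M) :
    ⟪x, M.starProjection y⟫ = ⟪x, y⟫ := by
  rw [real_inner_comm, inner_P_left M y x hx, real_inner_comm]

lemma inner_P_P (M : Submodule ℝ E) (x y : E) :
    ⟪M.starProjection x, M.starProjection y⟫ = ⟪M.starProjection x, y⟫ :=
  inner_P_right M _ y (M.starProjection_apply_mem x)

lemma inner_P_comm (M : Submodule ℝ E) (x y : E) :
    ⟪M.starProjection x, y⟫ = ⟪x, M.starProjection y⟫ := by
  rw [← inner_P_P, inner_P_left M x _ (M.starProjection_apply_mem y)]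

lemma norm_P_sq (M : Submodule ℝ E) (x : E) :
    ‖M.starProjection x‖ ^ 2 = ⟪M.starProjection x, x⟫ := by
  rw [← real_inner_self_eq_norm_sq, inner_P_P]

lemma norm_P_sub_sq (M : Submodule ℝ E) (x : E) :
    ‖x - M.starProjection x‖ ^ 2 = ‖x‖ ^ 2 - ‖M.starProjection x‖ ^ 2 := by
  rw [norm_sub_sq_real, real_inner_comm, ← norm_P_sq]
  ring

lemma P_P_of_le {M N : Submodule ℝ E} (h : M ≤ N) (x : E) :
    M.starProjection (N.starProjection x) = M.starProjection x := by
  apply eq_starProjection_of_mem_of_inner_eq_zero (M.starProjection_apply_mem x)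
  intro w hw
  rw [inner_sub_left, inner_P_left N x w (h hw), inner_P_left M x w hw]
  ring

lemma P_P_of_le' {M N : Submodule ℝ E} (h : M ≤ N) (x : E) :
    N.starProjection (M.starProjection x) = M.starProjection x :=
  starProjection_eq_self_iff.2 (h (M.starProjection_apply_mem x))

lemma P_congr {M N : Submodule ℝ E} (h : M = N) : M.starProjection = N.starProjection := by
  subst h; rfl

/-! ### Rotation -/

/-- `T = 1 - s v vᵀ`. -/
noncomputable def Tr (v : E) (s : ℝ) : E →L[ℝ] E :=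
  ContinuousLinearMap.id ℝ E - s • (ContinuousLinearMap.toSpanSingleton ℝ v ∘L innerSL ℝ v)

lemma Tr_apply (v : E) (s : ℝ) (x : E) : Tr v s x = x - (s * ⟪v, x⟫) • v := by
  simp [Tr, mul_smul]

/-- `sb = 2 s - s²`. -/
def sbar (s : ℝ) : ℝ := 2 * s - s ^ 2

lemma sbar_eq (s : ℝ) : sbar s = 2 * s - s ^ 2 := rfl

lemma one_sub_sbar (s : ℝ) : 1 - sbar s = (1 - s) ^ 2 := by
  unfold sbar; ring

lemma inner_Tr_Tr {v : E} (hv : ‖v‖ = 1) (s : ℝ) (x y : E) :
    ⟪Tr v s x, Tr v s y⟫ = ⟪x, y⟫ - sbar s * ⟪v, x⟫ * ⟪v, y⟫ := by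
  rw [Tr_apply, Tr_apply]
  simp only [inner_sub_left, inner_sub_right, inner_smul_left, inner_smul_right,
    real_inner_self_eq_norm_sq, hv, RCLike.conj_to_real]
  rw [real_inner_comm v x]
  unfold sbar
  ring

lemma norm_Tr_sq {v : E} (hv : ‖v‖ = 1) (s : ℝ) (x : E) :
    ‖Tr v s x‖ ^ 2 = ‖x‖ ^ 2 - sbar s * ⟪v, x⟫ ^ 2 := by
  rw [← real_inner_self_eq_norm_sq, inner_Tr_Tr hv, real_inner_self_eq_norm_sq]
  ring

lemma inner_v_Tr {v : E} (hv : ‖v‖ = 1) (s : ℝ) (x : E) :
    ⟪v, Tr v s x⟫ = (1 - s) * ⟪v, x⟫ := by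
  rw [Tr_apply, inner_sub_right, inner_smul_right, real_inner_self_eq_norm_sq, hv]
  ring

lemma Tr_injective {v : E} (hv : ‖v‖ = 1) {s : ℝ} (hs : s ≠ 1) :
    Function.Injective (Tr v s) := by
  rw [injective_iff_map_eq_zero]
  intro x hx
  have h1 : ⟪v, x⟫ = 0 := by
    have := inner_v_Tr hv s x
    rw [hx, inner_zero_right] at this
    have h2 : (1 - s) ≠ 0 := sub_ne_zero.2 (Ne.symm hs)
    exact (mul_eq_zero.1 this.symm).resolve_left h2
  rw [Tr_apply, h1, mul_zero, zero_smul, sub_zero] at hx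
  exact hx

/-- the explicit preimage of the projection of `T x` on `T M` -/
noncomputable def rotPre (M : Submodule ℝ E) (v : E) (s : ℝ) (x : E) : E :=
  M.starProjection x - (sbar s * (⟪v, x⟫ - ⟪M.starProjection v, x⟫) /
    (1 - sbar s * ‖M.starProjection v‖ ^ 2)) • M.starProjection v

lemma rotPre_mem (M : Submodule ℝ E) (v : E) (s : ℝ) (x : E) : rotPre M v s x ∈ M :=
  M.sub_mem (M.starProjection_apply_mem x) (M.smul_mem _ (M.starProjection_apply_mem v))

/-- ROTATION: `P_{TM} (T x) = T (rotPre M v s x)`. -/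
theorem P_map_Tr (M : Submodule ℝ E) {v : E} (hv : ‖v‖ = 1) {s : ℝ}
    (hb : sbar s * ‖M.starProjection v‖ ^ 2 < 1) (x : E) :
    (M.map (Tr v s : E →ₗ[ℝ] E)).starProjection (Tr v s x) = Tr v s (rotPre M v s x) := by
  apply eq_starProjection_of_mem_of_inner_eq_zero
  · exact Submodule.mem_map_of_mem (rotPre_mem M v s x)
  · rintro w ⟨y, hy, rfl⟩
    have hne : (1 - sbar s * ‖M.starProjection v‖ ^ 2) ≠ 0 := by linarith
    have h1 : ⟪v, M.starProjection x⟫ = ⟪M.starProjection v, x⟫ := (inner_P_comm M v x).symm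
    have h2 : ⟪v, M.starProjection v⟫ = ‖M.starProjection v‖ ^ 2 := by
      rw [norm_P_sq, real_inner_comm]
    have h3 : ⟪M.starProjection v, y⟫ = ⟪v, y⟫ := inner_P_left M v y hy
    have h4 : ⟪M.starProjection x, y⟫ = ⟪x, y⟫ := inner_P_left M x y hy
    rw [inner_sub_left]
    change ⟪Tr v s x, Tr v s y⟫ - ⟪Tr v s (rotPre M v s x), Tr v s y⟫ = 0
    rw [inner_Tr_Tr hv, inner_Tr_Tr hv, rotPre]
    simp only [inner_sub_left, inner_sub_right, inner_smul_left, inner_smul_right,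
      RCLike.conj_to_real, h1, h2, h3, h4]
    field_simp
    ring

/-- ROTATION, norm formula (C1): `ξ = ⟪v, x⟫`, `a = ξ - ⟪P_M v, x⟫`, `b = ‖P_M v‖²`. -/
theorem norm_P_map_Tr_sq (M : Submodule ℝ E) {v : E} (hv : ‖v‖ = 1) {s : ℝ}
    (hb : sbar s * ‖M.starProjection v‖ ^ 2 < 1) (x : E) :
    ‖(M.map (Tr v s : E →ₗ[ℝ] E)).starProjection (Tr v s x)‖ ^ 2
      = ‖M.starProjection x‖ ^ 2 - sbar s * ⟪v, x⟫ ^ 2
        + sbar s * (⟪v, x⟫ - ⟪M.starProjection v, x⟫) ^ 2
            / (1 - sbar s * ‖M.starProjection v‖ ^ 2) := by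
  have hne : (1 - sbar s * ‖M.starProjection v‖ ^ 2) ≠ 0 := by linarith
  have h1 : ⟪v, M.starProjection x⟫ = ⟪M.starProjection v, x⟫ := (inner_P_comm M v x).symm
  have h2 : ⟪v, M.starProjection v⟫ = ‖M.starProjection v‖ ^ 2 := by
    rw [norm_P_sq, real_inner_comm]
  have h5 : ⟪M.starProjection x, M.starProjection v⟫ = ⟪M.starProjection v, x⟫ := by
    rw [real_inner_comm, inner_P_P]
  rw [P_map_Tr M hv hb, norm_Tr_sq hv, rotPre]
  rw [norm_sub_sq_real, norm_smul, mul_pow, Real.norm_eq_abs, sq_abs, inner_smul_right, h5,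
    inner_sub_right, inner_smul_right, h1, h2]
  field_simp
  ring

/-- For `s = 1` the map `T` is the projection on `vᗮ`. -/
lemma Tr_one_mem {v : E} (hv : ‖v‖ = 1) (x : E) : ⟪v, Tr v 1 x⟫ = 0 := by
  rw [inner_v_Tr hv]; ring

lemma finrank_map_Tr (M : Submodule ℝ E) {v : E} (hv : ‖v‖ = 1) {s : ℝ} (hs : s ≠ 1) :
    Module.finrank ℝ (M.map (Tr v s : E →ₗ[ℝ] E)) = Module.finrank ℝ M :=
  (Submodule.equivMapOfInjective (Tr v s : E →ₗ[ℝ] E) (Tr_injective hv hs) M).finrank_eq.symm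


/-! ### Insertion -/

/-- projection on `M ⊔ ℝ n`, `n` a unit vector orthogonal to `M` -/
theorem P_sup_span (M : Submodule ℝ E) {n : E} (hn : ‖n‖ = 1) (hM : ∀ y ∈ M, ⟪n, y⟫ = 0) (x : E) :
    (M ⊔ (ℝ ∙ n)).starProjection x = M.starProjection x + ⟪n, x⟫ • n := by
  apply eq_starProjection_of_mem_of_inner_eq_zero
  · exact Submodule.add_mem_sup (M.starProjection_apply_mem x)
      (Submodule.smul_mem _ _ (Submodule.mem_span_singleton_self n))
  · intro w hw
    obtain ⟨y, hy, z, hz, rfl⟩ := Submodule.mem_sup.1 hw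
    obtain ⟨c, rfl⟩ := Submodule.mem_span_singleton.1 hz
    have h1 : ⟪M.starProjection x, n⟫ = 0 := by
      rw [real_inner_comm]; exact hM _ (M.starProjection_apply_mem x)
    have h2 : ⟪M.starProjection x, y⟫ = ⟪x, y⟫ := inner_P_left M x y hy
    simp only [inner_sub_left, inner_add_left, inner_add_right, inner_smul_left, inner_smul_right,
      RCLike.conj_to_real, h1, h2, hM y hy, real_inner_self_eq_norm_sq, hn]
    rw [real_inner_comm n x]
    ring

theorem norm_P_sup_span_sq (M : Submodule ℝ E) {n : E} (hn : ‖n‖ = 1)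
    (hM : ∀ y ∈ M, ⟪n, y⟫ = 0) (x : E) :
    ‖(M ⊔ (ℝ ∙ n)).starProjection x‖ ^ 2 = ‖M.starProjection x‖ ^ 2 + ⟪n, x⟫ ^ 2 := by
  rw [P_sup_span M hn hM, norm_add_sq_real, inner_smul_right, norm_smul, hn, mul_one,
    Real.norm_eq_abs, sq_abs]
  have h1 : ⟪M.starProjection x, n⟫ = 0 := by
    rw [real_inner_comm]; exact hM _ (M.starProjection_apply_mem x)
  rw [h1]; ring

/-- the new unit direction when `v` is inserted in `M` -/
noncomputable def newDir (M : Submodule ℝ E) (v : E) : E :=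
  ‖v - M.starProjection v‖⁻¹ • (v - M.starProjection v)

lemma sub_P_ne_zero {M : Submodule ℝ E} {v : E} (hv : v ∉ M) : v - M.starProjection v ≠ 0 := by
  intro h
  exact hv (starProjection_eq_self_iff.1 (sub_eq_zero.1 h).symm)

lemma norm_newDir {M : Submodule ℝ E} {v : E} (hv : v ∉ M) : ‖newDir M v‖ = 1 := by
  rw [newDir, norm_smul, norm_inv, norm_norm,
    inv_mul_cancel₀ (norm_ne_zero_iff.2 (sub_P_ne_zero hv))]

lemma inner_newDir_of_mem (M : Submodule ℝ E) (v : E) : ∀ y ∈ M, ⟪newDir M v, y⟫ = 0 := by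
  intro y hy
  rw [newDir, inner_smul_left, M.starProjection_inner_eq_zero v y hy, mul_zero]

lemma sup_span_newDir {M : Submodule ℝ E} {v : E} (hv : v ∉ M) :
    M ⊔ (ℝ ∙ newDir M v) = M ⊔ (ℝ ∙ v) := by
  have h0 : ‖v - M.starProjection v‖ ≠ 0 := norm_ne_zero_iff.2 (sub_P_ne_zero hv)
  apply le_antisymm
  · refine sup_le le_sup_left ?_
    rw [Submodule.span_singleton_le_iff_mem, newDir]
    refine Submodule.smul_mem _ _ (Submodule.sub_mem _ ?_ ?_)
    · exact Submodule.mem_sup_right (Submodule.mem_span_singleton_self v)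
    · exact Submodule.mem_sup_left (M.starProjection_apply_mem v)
  · refine sup_le le_sup_left ?_
    rw [Submodule.span_singleton_le_iff_mem]
    have h1 : M.starProjection v + ‖v - M.starProjection v‖ • newDir M v = v := by
      rw [newDir, smul_smul, mul_inv_cancel₀ h0, one_smul]; abel
    have h2 : M.starProjection v + ‖v - M.starProjection v‖ • newDir M v ∈
        M ⊔ (ℝ ∙ newDir M v) :=
      Submodule.add_mem_sup (M.starProjection_apply_mem v)
        (Submodule.smul_mem _ _ (Submodule.mem_span_singleton_self _))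
    rwa [h1] at h2

theorem norm_P_insert_sq {M : Submodule ℝ E} {v : E} (hv : v ∉ M) (x : E) :
    ‖(M ⊔ (ℝ ∙ v)).starProjection x‖ ^ 2 = ‖M.starProjection x‖ ^ 2 + ⟪newDir M v, x⟫ ^ 2 := by
  rw [← P_congr (sup_span_newDir hv)]
  exact norm_P_sup_span_sq M (norm_newDir hv) (inner_newDir_of_mem M v) x

theorem P_insert {M : Submodule ℝ E} {v : E} (hv : v ∉ M) (x : E) :
    (M ⊔ (ℝ ∙ v)).starProjection x = M.starProjection x + ⟪newDir M v, x⟫ • newDir M v := by
  rw [← P_congr (sup_span_newDir hv)]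
  exact P_sup_span M (norm_newDir hv) (inner_newDir_of_mem M v) x

lemma sup_span_of_mem {M : Submodule ℝ E} {v : E} (hv : v ∈ M) : M ⊔ (ℝ ∙ v) = M :=
  sup_eq_left.2 ((Submodule.span_singleton_le_iff_mem v M).2 hv)

lemma finrank_insert {M : Submodule ℝ E} {v : E} (hv : v ∉ M) :
    Module.finrank ℝ (M ⊔ (ℝ ∙ v) : Submodule ℝ E) = Module.finrank ℝ M + 1 := by
  have hv0 : v ≠ 0 := fun h => hv (h ▸ M.zero_mem)
  have h1 := Submodule.finrank_sup_add_finrank_inf_eq M (ℝ ∙ v)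
  have h2 : M ⊓ (ℝ ∙ v) = ⊥ := by
    rw [Submodule.eq_bot_iff]
    rintro x ⟨hx, hx'⟩
    obtain ⟨c, rfl⟩ := Submodule.mem_span_singleton.1 hx'
    by_cases hc : c = 0
    · simp [hc]
    · exact absurd ((M.smul_mem_iff hc).1 hx) hv
  rw [h2, finrank_bot, add_zero, finrank_span_singleton hv0] at h1
  exact h1

/-! ### Demotion -/

/-- projection on `M ⊓ wᗮ`, `w` a unit vector of `M` -/
theorem P_inf_orth (M : Submodule ℝ E) {w : E} (hw : ‖w‖ = 1) (hM : w ∈ M) (x : E) :
    (M ⊓ (ℝ ∙ w)ᗮ).starProjection x = M.starProjection x - ⟪w, x⟫ • w := by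
  apply eq_starProjection_of_mem_of_inner_eq_zero
  · refine ⟨M.sub_mem (M.starProjection_apply_mem x) (M.smul_mem _ hM), ?_⟩
    rw [SetLike.mem_coe, Submodule.mem_orthogonal_singleton_iff_inner_right, inner_sub_right, inner_smul_right,
      real_inner_self_eq_norm_sq, hw, inner_P_right M w x hM]
    ring
  · rintro y ⟨hy, hy'⟩
    rw [SetLike.mem_coe, Submodule.mem_orthogonal_singleton_iff_inner_right] at hy'
    simp only [inner_sub_left, inner_smul_left, RCLike.conj_to_real, inner_P_left M x y hy, hy']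
    ring

theorem norm_P_inf_orth_sq (M : Submodule ℝ E) {w : E} (hw : ‖w‖ = 1) (hM : w ∈ M) (x : E) :
    ‖(M ⊓ (ℝ ∙ w)ᗮ).starProjection x‖ ^ 2 = ‖M.starProjection x‖ ^ 2 - ⟪w, x⟫ ^ 2 := by
  rw [P_inf_orth M hw hM, norm_sub_sq_real, inner_smul_right, norm_smul, hw, mul_one,
    Real.norm_eq_abs, sq_abs, inner_P_left M x w hM, real_inner_comm x w]
  ring

lemma finrank_inf_orth {M : Submodule ℝ E} {w : E} (hw : ‖w‖ = 1) (hM : w ∈ M) :
    Module.finrank ℝ (M ⊓ (ℝ ∙ w)ᗮ : Submodule ℝ E) + 1 = Module.finrank ℝ M := by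
  have hw0 : w ≠ 0 := by
    intro h; rw [h, norm_zero] at hw; exact zero_ne_one hw
  have h1 : w ∉ (M ⊓ (ℝ ∙ w)ᗮ : Submodule ℝ E) := by
    rintro ⟨_, h⟩
    rw [SetLike.mem_coe, Submodule.mem_orthogonal_singleton_iff_inner_right, real_inner_self_eq_norm_sq, hw] at h
    norm_num at h
  rw [← finrank_insert h1]
  suffices h : (M ⊓ (ℝ ∙ w)ᗮ : Submodule ℝ E) ⊔ (ℝ ∙ w) = M by rw [h]
  apply le_antisymm
  · exact sup_le inf_le_left ((Submodule.span_singleton_le_iff_mem w M).2 hM)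
  · intro x hx
    have h3 : (x - ⟪w, x⟫ • w) + ⟪w, x⟫ • w = x := by abel
    have h4 : (x - ⟪w, x⟫ • w) + ⟪w, x⟫ • w ∈ (M ⊓ (ℝ ∙ w)ᗮ : Submodule ℝ E) ⊔ (ℝ ∙ w) := by
      refine Submodule.add_mem_sup ⟨M.sub_mem hx (M.smul_mem _ hM), ?_⟩
        (Submodule.smul_mem _ _ (Submodule.mem_span_singleton_self _))
      rw [SetLike.mem_coe, Submodule.mem_orthogonal_singleton_iff_inner_right, inner_sub_right,
        inner_smul_right, real_inner_self_eq_norm_sq, hw]
      ring
    rwa [h3] at h4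

end Crest.Agent.R239.ProjRot557
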