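import Crest.Agent.R239.GDef_521
import Crest.Agent.R239.ProjRot_557

/-!
# R239 / S0370, g-space line (GDef_521): flag algebra of one level (helper505)
-/

set_option autoImplicit false
set_option linter.unusedSectionVars false
open MeasureTheory ProbabilityTheory Set
open scoped RealInnerProductSpace

namespace Crest.Agent.R239.G505

open Crest.Agent.R239 Crest.Agent.R239.GS Crest.Agent.R239.ProjRot557

variable {E : Type*} [NormedAddCommGroup E] [InnerProductSpace ℝ E] [FiniteDimensional ℝ E]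
  [MeasurableSpace E] [BorelSpace E]

lemma A_mem (V : Flag E) (i : ℕ) (g : E) : V.A i g ∈ V.M i := FlagAlg557.comb_mem V.anti _ _ _ _

lemma A_sa (V : Flag E) (i : ℕ) (x y : E) : ⟪V.A i x, y⟫ = ⟪x, V.A i y⟫ :=
  FlagAlg557.inner_comb_comm _ _ _ _ _

lemma S_A (V : Flag E) {i : ℕ} (h : i ≤ V.n) (g : E) : V.S i (V.A i g) = V.P i g :=
  FlagAlg557.Hi_H V.anti th_pos h V.bot_n g

lemma A_S (V : Flag E) {i : ℕ} (h : i ≤ V.n) (g : E) : V.A i (V.S i g) = V.P i g :=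
  FlagAlg557.H_Hi V.anti th_pos h V.bot_n g

lemma P_of_mem (V : Flag E) {i : ℕ} {x : E} (hx : x ∈ V.M i) : V.P i x = x :=
  FlagAlg557.P_of_mem hx

lemma inner_A_eq (V : Flag E) {i : ℕ} (h : i ≤ V.n) (g : E) :
    ⟪V.A i g, g⟫ = ⟪V.A i g, V.S i (V.A i g)⟫ := by
  rw [S_A V h, ← FlagAlg557.inner_P_comm', P_of_mem V (A_mem V i g)]

/-- comparison map between two flags -/
noncomputable def cR (V W : Flag E) (T : E →L[ℝ] E) (i : ℕ) : E →L[ℝ] E :=
  W.S i ∘L T ∘L V.A i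

lemma cR_apply (V W : Flag E) (T : E →L[ℝ] E) (i : ℕ) (g : E) :
    cR V W T i g = W.S i (T (V.A i g)) := rfl

lemma A_cR (V W : Flag E) (T : E →L[ℝ] E) {i : ℕ} (hi : i ≤ W.n)
    (hT : ∀ x ∈ V.M i, T x ∈ W.M i) (g : E) : W.A i (cR V W T i g) = T (V.A i g) := by
  rw [cR_apply, A_S W hi, P_of_mem W (hT _ (A_mem V i g))]

/-- the precision form -/
lemma norm_S_sq (W : Flag E) {i : ℕ} (h : i < W.n) (x : E) :
    ‖W.S i x‖ ^ 2 = ‖W.P i x‖ ^ 2 + ∑ j ∈ Finset.Ico (i + 1) W.n,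
      FlagAlg557.om th (j - i) * ‖W.P j x‖ ^ 2 :=
  FlagAlg557.norm_Hi_sq W.anti h W.bot_n x

/-- weights of the cap form -/
noncomputable def om1 (m : ℕ) : ℝ := (th ^ m)⁻¹ - (th ^ (m - 1))⁻¹

lemma om1_nonneg (m : ℕ) : 0 ≤ om1 m := by
  unfold om1
  have ha : (th ^ (m - 1))⁻¹ ≤ (th ^ m)⁻¹ := by
    apply inv_anti₀ (pow_pos th_pos _)
    exact pow_le_pow_of_le_one th_pos.le th_lt_one.le (Nat.sub_le m 1)
  linarith

lemma om1_le (m : ℕ) : om1 m ≤ (5 / 4 : ℝ) ^ m := by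
  unfold om1
  have h0 : 0 ≤ (th ^ (m - 1))⁻¹ := by have := th_pos; positivity
  have : (th ^ m)⁻¹ = (5 / 4 : ℝ) ^ m := by
    rw [← inv_pow]; congr 1; norm_num [th]
  linarith

/-- the cap form -/
lemma inner_S (W : Flag E) {i : ℕ} (h : i < W.n) (x : E) :
    ⟪x, W.S i x⟫ = ‖W.P i x‖ ^ 2 + ∑ j ∈ Finset.Ico (i + 1) W.n, om1 (j - i) * ‖W.P j x‖ ^ 2 := by
  have e0 : ⟪x, W.S i x⟫ = ∑ j ∈ Finset.Ico i W.n, (th ^ (j - i))⁻¹ * ‖W.Q j x‖ ^ 2 := by
    unfold Flag.S FlagAlg557.Hi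
    rw [FlagAlg557.comb_apply, inner_sum]
    refine Finset.sum_congr rfl fun j _ => ?_
    rw [inner_smul_right, real_inner_comm, FlagAlg557.norm_Q_sq W.anti]
  rw [e0]
  have key : ∀ m, i + 1 ≤ m → m ≤ W.n →
      ∑ j ∈ Finset.Ico i m, (th ^ (j - i))⁻¹ * ‖W.Q j x‖ ^ 2
        = ‖W.P i x‖ ^ 2 + ∑ j ∈ Finset.Ico (i + 1) m, om1 (j - i) * ‖W.P j x‖ ^ 2
          - (th ^ (m - 1 - i))⁻¹ * ‖W.P m x‖ ^ 2 := by
    intro m hm
    induction m, hm using Nat.le_induction with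
    | base =>
      intro _
      rw [Nat.Ico_succ_singleton, Finset.sum_singleton, FlagAlg557.norm_Q_sq' W.anti]
      simp
    | succ m hm ih =>
      intro hmn
      rw [Finset.sum_Ico_succ_top (by omega), ih (by omega), Finset.sum_Ico_succ_top hm,
        FlagAlg557.norm_Q_sq' W.anti, om1]
      have e1 : m + 1 - 1 - i = m - i := by omega
      have e2 : m - i - 1 = m - 1 - i := by omega
      rw [e1, e2]
      ring
  rw [key W.n h le_rfl, FlagAlg557.P_eq_zero W.bot_n]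
  simp

end Crest.Agent.R239.G505
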