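import Crest.Agent.R239.GDef_521

/-!
# R239 / S0370, G-line (helper521): linear algebra of the tilt (helper562)

`V` a flag, `v` a unit vector, `T = 1 - s v vᵀ`, `W = V.rot v s`, `x = V.A i g`,
`R = W.S i ∘ T ∘ V.A i`.
-/

set_option autoImplicit false
set_option linter.unusedSectionVars false
open MeasureTheory ProbabilityTheory Set
open scoped RealInnerProductSpace

namespace Crest.Agent.R239.GS562

open Crest.Agent.R239.GS Crest.Agent.R239.FlagAlg557 Crest.Agent.R239.ProjRot557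

variable {E : Type*} [NormedAddCommGroup E] [InnerProductSpace ℝ E] [FiniteDimensional ℝ E]
  [MeasurableSpace E] [BorelSpace E]

/-- `b_j = |P_j v|²` -/
noncomputable def b (V : Flag E) (v : E) (j : ℕ) : ℝ := ‖V.P j v‖ ^ 2

/-- `BB_i = Σ_{j > i} (25/8)^(j-i) b_j` -/
noncomputable def BB (V : Flag E) (v : E) (i : ℕ) : ℝ :=
  ∑ j ∈ Finset.Ico (i + 1) V.n, (25 / 8 : ℝ) ^ (j - i) * b V v j

lemma b_nonneg (V : Flag E) (v : E) (j : ℕ) : 0 ≤ b V v j := sq_nonneg _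

lemma BB_nonneg (V : Flag E) (v : E) (i : ℕ) : 0 ≤ BB V v i :=
  Finset.sum_nonneg fun j _ => mul_nonneg (by positivity) (b_nonneg V v j)

lemma b_anti (V : Flag E) (v : E) {i j : ℕ} (h : i ≤ j) : b V v j ≤ b V v i := by
  unfold b
  have := norm_P_anti V.anti h v
  exact pow_le_pow_left₀ (norm_nonneg _) this 2

lemma b_le_one (V : Flag E) {v : E} (hv : ‖v‖ = 1) (j : ℕ) : b V v j ≤ 1 := by
  unfold b
  have : ‖V.P j v‖ ≤ ‖v‖ := (V.M j).norm_starProjection_apply_le v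
  rw [hv] at this
  nlinarith [norm_nonneg (V.P j v)]

lemma b_bot (V : Flag E) (v : E) {j : ℕ} (h : V.n ≤ j) : b V v j = 0 := by
  unfold b
  rw [P_eq_zero (V.bot j h) v]
  simp

/-- `b_{i+1} ≤ (8/25) BB_i` -/
lemma b_succ_le (V : Flag E) (v : E) (i : ℕ) : b V v (i + 1) ≤ 8 / 25 * BB V v i := by
  by_cases h : i + 1 < V.n
  · have h1 : (25 / 8 : ℝ) ^ (i + 1 - i) * b V v (i + 1) ≤ BB V v i := by
      unfold BB
      exact Finset.single_le_sum (f := fun j => (25 / 8 : ℝ) ^ (j - i) * b V v j)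
        (fun j _ => mul_nonneg (by positivity) (b_nonneg V v j))
        (Finset.mem_Ico.2 ⟨le_rfl, h⟩)
    have h2 : i + 1 - i = 1 := by omega
    rw [h2, pow_one] at h1
    linarith
  · rw [b_bot V v (by omega)]
    have := BB_nonneg V v i
    linarith

section rot

variable (V : Flag E) {v : E} (hv : ‖v‖ = 1) {s : ℝ}

/-- projections of the tilted flag -/
lemma norm_rot_P_sq {j : ℕ} (hb : sbar s * b V v j < 1) (hv : ‖v‖ = 1) (x : E) :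
    ‖(V.rot v s).P j (Tr v s x)‖ ^ 2
      = ‖V.P j x‖ ^ 2 - sbar s * ⟪v, x⟫ ^ 2
        + sbar s * (⟪v, x⟫ - ⟪V.P j v, x⟫) ^ 2 / (1 - sbar s * b V v j) :=
  norm_P_map_Tr_sq (V.M j) hv hb x

lemma rot_P {j : ℕ} (hb : sbar s * b V v j < 1) (hv : ‖v‖ = 1) (x : E) :
    (V.rot v s).P j (Tr v s x) = Tr v s (rotPre (V.M j) v s x) :=
  P_map_Tr (V.M j) hv hb x

lemma A_mem (i : ℕ) (g : E) : V.A i g ∈ V.M i := comb_mem V.anti i V.n _ g

/-- the pull back map -/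
noncomputable def Rm (V : Flag E) (v : E) (s : ℝ) (i : ℕ) : E →L[ℝ] E :=
  (V.rot v s).S i ∘L Tr v s ∘L V.A i

lemma Tr_A_mem (v : E) (s : ℝ) (i : ℕ) (g : E) : Tr v s (V.A i g) ∈ (V.rot v s).M i :=
  Submodule.mem_map_of_mem (f := (Tr v s : E →ₗ[ℝ] E)) (A_mem V i g)

/-- `A' R = T A` -/
lemma A_Rm {i : ℕ} (hi : i < V.n) (g : E) :
    (V.rot v s).A i (Rm V v s i g) = Tr v s (V.A i g) := by
  have h := H_Hi (V.rot v s).anti th_pos (i := i) (n := (V.rot v s).n) hi.le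
    (V.rot v s).bot_n (Tr v s (V.A i g))
  rw [P_of_mem (Tr_A_mem V v s i g)] at h
  exact h

/-- support functions -/
lemma inner_A {i : ℕ} (hi : i < V.n) (z g : E) :
    ⟪V.A i z, g⟫ = ⟪(V.rot v s).A i z, Rm V v s i g⟫ + s * ⟪V.A i v, g⟫ * ⟪v, z⟫ := by
  have h1 : ⟪V.A i z, g⟫ = ⟪z, V.A i g⟫ := inner_comb_comm i V.n _ z g
  have h2 : ⟪V.A i v, g⟫ = ⟪v, V.A i g⟫ := inner_comb_comm i V.n _ v g
  have h3 : ⟪(V.rot v s).A i z, Rm V v s i g⟫ = ⟪z, (V.rot v s).A i (Rm V v s i g)⟫ :=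
    inner_comb_comm i _ _ z _
  rw [h1, h2, h3, A_Rm V hi, Tr_apply, inner_sub_right, inner_smul_right,
    real_inner_comm v z]
  ring

/-- the difference formula, for any base `t` -/
lemma form_diff {t : ℝ} {i : ℕ} (hi : i < V.n) (hv : ‖v‖ = 1)
    (hb : ∀ j, sbar s * b V v j < 1) {x : E} (hx : x ∈ V.M i) :
    ‖Hi (V.rot v s).M t V.n i (Tr v s x)‖ ^ 2
      = ‖Hi V.M t V.n i x‖ ^ 2 - sbar s * ⟪v, x⟫ ^ 2
        + sbar s * ∑ j ∈ Finset.Ico (i + 1) V.n, om t (j - i) *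
          ((⟪v, x⟫ - ⟪V.P j v, x⟫) ^ 2 / (1 - sbar s * b V v j) - ⟪v, x⟫ ^ 2) := by
  rw [norm_Hi_sq (V.rot v s).anti hi (V.rot v s).bot_n, norm_Hi_sq V.anti hi V.bot_n]
  have h1 : ‖FlagAlg557.P (V.rot v s).M i (Tr v s x)‖ ^ 2
      = ‖FlagAlg557.P V.M i x‖ ^ 2 - sbar s * ⟪v, x⟫ ^ 2 := by
    have hx' : Tr v s x ∈ (V.rot v s).M i :=
      Submodule.mem_map_of_mem (f := (Tr v s : E →ₗ[ℝ] E)) hx
    rw [P_of_mem hx', P_of_mem hx, norm_Tr_sq hv]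
  have h2 : ∀ j ∈ Finset.Ico (i + 1) V.n, om t (j - i) * ‖FlagAlg557.P (V.rot v s).M j (Tr v s x)‖ ^ 2
      = om t (j - i) * ‖FlagAlg557.P V.M j x‖ ^ 2 + sbar s * (om t (j - i) *
          ((⟪v, x⟫ - ⟪V.P j v, x⟫) ^ 2 / (1 - sbar s * b V v j) - ⟪v, x⟫ ^ 2)) := by
    intro j _
    have := norm_rot_P_sq V (hb j) hv x
    have h3 : ‖FlagAlg557.P (V.rot v s).M j (Tr v s x)‖ ^ 2 = ‖FlagAlg557.P V.M j x‖ ^ 2
      - sbar s * ⟪v, x⟫ ^ 2
        + sbar s * (⟪v, x⟫ - ⟪V.P j v, x⟫) ^ 2 / (1 - sbar s * b V v j) := this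
    rw [h3]
    ring
  rw [h1, Finset.sum_congr rfl h2, Finset.sum_add_distrib, Finset.mul_sum]
  ring

end rot

end Crest.Agent.R239.GS562
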