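import Crest.Agent.R239.GTiltA_562

/-!
# R239 / S0370, G-line: quadratic inequality for the pull back map (helper562)
-/

set_option autoImplicit false
set_option linter.unusedSectionVars false
open MeasureTheory ProbabilityTheory Set
open scoped RealInnerProductSpace

namespace Crest.Agent.R239.GS562

open Crest.Agent.R239.GS Crest.Agent.R239.FlagAlg557 Crest.Agent.R239.ProjRot557

variable {E : Type*} [NormedAddCommGroup E] [InnerProductSpace ℝ E] [FiniteDimensional ℝ E]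
  [MeasurableSpace E] [BorelSpace E]

/-- fixed weights -/
noncomputable def em (ep : ℝ) (m : ℕ) : ℝ := ep * (8 / 25) ^ m

lemma em_pos {ep : ℝ} (h : 0 < ep) (m : ℕ) : 0 < em ep m := by
  unfold em; positivity

lemma scal {sb b e a z : ℝ} (h0 : 0 ≤ sb) (h1 : sb ≤ 1 / 2) (hb0 : 0 ≤ b) (hb1 : b ≤ 1)
    (he : 0 < e) : a ^ 2 / (1 - sb * b) - (a + z) ^ 2 ≤ (b + e) * a ^ 2 + z ^ 2 / e - z ^ 2 := by
  have hy : sb * b ≤ 1 / 2 := by nlinarith
  have h2 : a ^ 2 / (1 - sb * b) ≤ (1 + b) * a ^ 2 := by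
    rw [div_le_iff₀ (by linarith)]
    have h3 : 1 ≤ (1 + b) * (1 - sb * b) := by
      have : 0 ≤ b * (1 - sb - sb * b) := mul_nonneg hb0 (by nlinarith)
      nlinarith
    nlinarith [mul_le_mul_of_nonneg_left h3 (sq_nonneg a)]
  have h4 : 0 ≤ e * a ^ 2 + 2 * a * z + z ^ 2 / e := by
    have : e * a ^ 2 + 2 * a * z + z ^ 2 / e = (e * a + z) ^ 2 / e := by field_simp; ring
    rw [this]; positivity
  nlinarith

section

variable (V : Flag E) {v : E} {s : ℝ}

lemma norm_S_A_le {i : ℕ} (hi : i < V.n) (g : E) :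
    ‖Hi V.M th V.n i (V.A i g)‖ ^ 2 ≤ ‖g‖ ^ 2 := by
  have h : Hi V.M th V.n i (V.A i g) = FlagAlg557.P V.M i g :=
    Hi_H V.anti th_pos hi.le V.bot_n g
  rw [h]
  have : ‖FlagAlg557.P V.M i g‖ ≤ ‖g‖ := (V.M i).norm_starProjection_apply_le g
  exact pow_le_pow_left₀ (norm_nonneg _) this 2

/-- main quadratic inequality -/
lemma quad {ep : ℝ} (hep : 0 < ep) {i : ℕ} (hi : i < V.n) (hv : ‖v‖ = 1)
    (h0 : 0 ≤ sbar s) (h1 : sbar s ≤ 1 / 2) (g : E) :
    ‖Rm V v s i g‖ ^ 2 + sbar s * ⟪v, V.A i g⟫ ^ 2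
        + sbar s * ∑ j ∈ Finset.Ico (i + 1) V.n, om th (j - i) * ⟪V.P j v, V.A i g⟫ ^ 2
      ≤ ‖g‖ ^ 2 + ∑ j ∈ Finset.Ico (i + 1) V.n, (sbar s * om th (j - i)) *
        ((b V v j + em ep (j - i)) * (⟪v, V.A i g⟫ - ⟪V.P j v, V.A i g⟫) ^ 2
          + ⟪V.P j v, V.A i g⟫ ^ 2 / em ep (j - i)) := by
  have hb : ∀ j, sbar s * b V v j < 1 := by
    intro j
    have := b_le_one V hv j
    have := b_nonneg V v j
    nlinarith
  have h2 := form_diff V (t := th) hi hv hb (A_mem V i g)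
  have h3 : Hi (V.rot v s).M th V.n i (Tr v s (V.A i g)) = Rm V v s i g := rfl
  rw [h3] at h2
  have h4 := norm_S_A_le V hi g
  have h5 : sbar s * ∑ j ∈ Finset.Ico (i + 1) V.n, om th (j - i) *
          ((⟪v, V.A i g⟫ - ⟪V.P j v, V.A i g⟫) ^ 2 / (1 - sbar s * b V v j) - ⟪v, V.A i g⟫ ^ 2)
        + sbar s * ∑ j ∈ Finset.Ico (i + 1) V.n, om th (j - i) * ⟪V.P j v, V.A i g⟫ ^ 2
      ≤ ∑ j ∈ Finset.Ico (i + 1) V.n, (sbar s * om th (j - i)) *
        ((b V v j + em ep (j - i)) * (⟪v, V.A i g⟫ - ⟪V.P j v, V.A i g⟫) ^ 2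
          + ⟪V.P j v, V.A i g⟫ ^ 2 / em ep (j - i)) := by
    rw [← mul_add, ← Finset.sum_add_distrib, Finset.mul_sum]
    apply Finset.sum_le_sum
    intro j _
    have ho : 0 ≤ sbar s * om th (j - i) := mul_nonneg h0 (om_nonneg th_pos th_lt_one.le _)
    have h6 := scal (sb := sbar s) (b := b V v j) (e := em ep (j - i))
      (a := ⟪v, V.A i g⟫ - ⟪V.P j v, V.A i g⟫) (z := ⟪V.P j v, V.A i g⟫) h0 h1
      (b_nonneg V v j) (b_le_one V hv j) (em_pos hep _)
    rw [sub_add_cancel] at h6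
    have h7 := mul_le_mul_of_nonneg_left h6 ho
    nlinarith
  linarith

/-- index set and vectors of the squares -/
noncomputable def wv (V : Flag E) (v : E) (s ep : ℝ) (i : ℕ) (k : ℕ × Bool) : E :=
  if k.2 then √(sbar s * om th (k.1 - i) * (b V v k.1 + em ep (k.1 - i)))
      • V.A i (v - V.P k.1 v)
    else √(sbar s * om th (k.1 - i) * (2 + 1 / em ep (k.1 - i))) • V.A i (V.P k.1 v)

noncomputable def ws (V : Flag E) (i : ℕ) : Finset (ℕ × Bool) :=
  Finset.Ico (i + 1) V.n ×ˢ (Finset.univ : Finset Bool)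

lemma sum_ws (i : ℕ) (f : ℕ × Bool → ℝ) :
    ∑ k ∈ ws V i, f k = ∑ j ∈ Finset.Ico (i + 1) V.n, (f (j, true) + f (j, false)) := by
  unfold ws
  rw [Finset.sum_product]
  exact Finset.sum_congr rfl fun j _ => Fintype.sum_bool _

lemma inner_A_sym (i : ℕ) (x g : E) : ⟪V.A i x, g⟫ = ⟪x, V.A i g⟫ := inner_comb_comm i V.n _ x g

lemma sum_inner_wv {ep : ℝ} (hep : 0 < ep) (i : ℕ) (h0 : 0 ≤ sbar s) (g : E) :
    ∑ k ∈ ws V i, ⟪wv V v s ep i k, g⟫ ^ 2
      = ∑ j ∈ Finset.Ico (i + 1) V.n, ((sbar s * om th (j - i)) *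
        ((b V v j + em ep (j - i)) * (⟪v, V.A i g⟫ - ⟪V.P j v, V.A i g⟫) ^ 2
          + ⟪V.P j v, V.A i g⟫ ^ 2 / em ep (j - i))
          + 2 * (sbar s * (om th (j - i) * ⟪V.P j v, V.A i g⟫ ^ 2))) := by
  rw [sum_ws]
  apply Finset.sum_congr rfl
  intro j _
  have ho : 0 ≤ sbar s * om th (j - i) := mul_nonneg h0 (om_nonneg th_pos th_lt_one.le _)
  have he := em_pos hep (j - i)
  have hb := b_nonneg V v j
  have h1 : 0 ≤ sbar s * om th (j - i) * (b V v j + em ep (j - i)) := by positivity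
  have h2 : 0 ≤ sbar s * om th (j - i) * (2 + 1 / em ep (j - i)) := by positivity
  simp only [wv, if_true, Bool.false_eq_true, if_false, real_inner_smul_left, mul_pow,
    Real.sq_sqrt h1, Real.sq_sqrt h2, inner_A_sym, inner_sub_left]
  ring

lemma sum_norm_wv {ep : ℝ} (hep : 0 < ep) (i : ℕ) (h0 : 0 ≤ sbar s) :
    ∑ k ∈ ws V i, ‖wv V v s ep i k‖ ^ 2
      = ∑ j ∈ Finset.Ico (i + 1) V.n,
        (sbar s * om th (j - i) * (b V v j + em ep (j - i)) * ‖V.A i (v - V.P j v)‖ ^ 2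
          + sbar s * om th (j - i) * (2 + 1 / em ep (j - i)) * ‖V.A i (V.P j v)‖ ^ 2) := by
  rw [sum_ws]
  apply Finset.sum_congr rfl
  intro j _
  have ho : 0 ≤ sbar s * om th (j - i) := mul_nonneg h0 (om_nonneg th_pos th_lt_one.le _)
  have he := em_pos hep (j - i)
  have hb := b_nonneg V v j
  have h1 : 0 ≤ sbar s * om th (j - i) * (b V v j + em ep (j - i)) := by positivity
  have h2 : 0 ≤ sbar s * om th (j - i) * (2 + 1 / em ep (j - i)) := by positivity
  simp only [wv, if_true, Bool.false_eq_true, if_false, norm_smul, mul_pow, Real.norm_eq_abs,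
    sq_abs, Real.sq_sqrt h1, Real.sq_sqrt h2]

lemma om_le (m : ℕ) : om th m ≤ (25 / 16) ^ m := by
  rcases Nat.eq_zero_or_pos m with rfl | hm
  · simp [om]
  · rw [om_eq th_pos m hm]
    have h1 : ((th ^ m)⁻¹) ^ 2 = (25 / 16 : ℝ) ^ m := by
      unfold th
      rw [← inv_pow, ← pow_mul, mul_comm m 2, pow_mul]
      norm_num
    rw [h1]
    have h2 : (0 : ℝ) ≤ (25 / 16) ^ m := by positivity
    have h3 : 1 - th ^ 2 ≤ 1 := by nlinarith [sq_nonneg th]
    nlinarith

lemma sum_half (i n : ℕ) : ∑ j ∈ Finset.Ico (i + 1) n, (1 / 2 : ℝ) ^ (j - i) ≤ 1 := by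
  by_cases h : i + 1 ≤ n
  · have key : ∀ m, i + 1 ≤ m → ∑ j ∈ Finset.Ico (i + 1) m, (1 / 2 : ℝ) ^ (j - i)
        = 1 - 2 * (1 / 2) ^ (m - i) := by
      intro m hm
      induction m, hm using Nat.le_induction with
      | base =>
        have : i + 1 - i = 1 := by omega
        simp [this]
      | succ m hm ih =>
        rw [Finset.sum_Ico_succ_top hm, ih]
        have : m + 1 - i = (m - i) + 1 := by omega
        rw [this, pow_succ]
        ring
    rw [key n h]
    have : (0 : ℝ) ≤ (1 / 2) ^ (n - i) := by positivity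
    linarith
  · rw [Finset.Ico_eq_empty (by omega)]
    simp

/-- trace bound -/
lemma trace_le {ep : ℝ} (hep : 0 < ep) {i : ℕ} (hi : i < V.n) (hv : ‖v‖ = 1)
    (h0 : 0 ≤ sbar s) :
    ∑ k ∈ ws V i, ‖wv V v s ep i k‖ ^ 2
      ≤ sbar s * (ep * b V v i + (3 + 1 / ep) * BB V v i) := by
  rw [sum_norm_wv V hep i h0]
  have key : ∀ j ∈ Finset.Ico (i + 1) V.n,
      (sbar s * om th (j - i) * (b V v j + em ep (j - i)) * ‖V.A i (v - V.P j v)‖ ^ 2
          + sbar s * om th (j - i) * (2 + 1 / em ep (j - i)) * ‖V.A i (V.P j v)‖ ^ 2)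
        ≤ sbar s * (ep * b V v i * (1 / 2) ^ (j - i)
            + (3 + 1 / ep) * ((25 / 8) ^ (j - i) * b V v j)) := by
    intro j hj
    have hj' := Finset.mem_Ico.1 hj
    set m := j - i with hm
    have ho := om_nonneg th_pos th_lt_one.le m
    have ho2 := om_le m
    have he := em_pos hep m
    have hbj := b_nonneg V v j
    have hbi := b_nonneg V v i
    have hbi1 := b_le_one V hv i
    have hbj1 := b_le_one V hv j
    have hA1 : ‖V.A i (v - V.P j v)‖ ^ 2 ≤ b V v i := by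
      have h := norm_H_sub_sq_le V.anti th_pos th_lt_one.le (i := i) (j := j) (n := V.n)
        (by omega) (by omega) v
      have h' : ‖V.A i (v - V.P j v)‖ ^ 2 ≤ b V v i - b V v j := h
      linarith
    have hA2 : ‖V.A i (V.P j v)‖ ^ 2 ≤ (16 / 25) ^ m * b V v j := by
      have h := norm_H_P_le V.anti th_pos th_lt_one.le (i := i) (j := j) (n := V.n)
        (by omega) (by omega) V.bot_n v
      have h' : ‖V.A i (V.P j v)‖ ≤ th ^ m * ‖V.P j v‖ := h
      have h2 := pow_le_pow_left₀ (norm_nonneg _) h' 2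
      have h3 : (th ^ m * ‖V.P j v‖) ^ 2 = (16 / 25) ^ m * b V v j := by
        unfold b th
        rw [mul_pow, ← pow_mul, mul_comm m 2, pow_mul]
        norm_num
      rw [h3] at h2
      exact h2
    have hA1' := sq_nonneg ‖V.A i (v - V.P j v)‖
    have hA2' := sq_nonneg ‖V.A i (V.P j v)‖
    have p1 : (0 : ℝ) < (25 / 16) ^ m := by positivity
    have p2 : (0 : ℝ) < (16 / 25) ^ m := by positivity
    have p3 : (0 : ℝ) < (1 / 2) ^ m := by positivity
    have p4 : (25 / 16 : ℝ) ^ m * (16 / 25) ^ m = 1 := by rw [← mul_pow]; norm_num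
    have p5 : (25 / 16 : ℝ) ^ m * (8 / 25) ^ m = (1 / 2) ^ m := by rw [← mul_pow]; norm_num
    have p6 : (25 / 16 : ℝ) ^ m ≤ (25 / 8) ^ m := pow_le_pow_left₀ (by norm_num) (by norm_num) m
    have p7 : (1 : ℝ) ≤ (25 / 8) ^ m := one_le_pow₀ (by norm_num)
    have p8 : (8 / 25 : ℝ) ^ m * (25 / 8) ^ m = 1 := by rw [← mul_pow]; norm_num
    have t1 : om th m * (b V v j + em ep m) * ‖V.A i (v - V.P j v)‖ ^ 2
        ≤ (25 / 8) ^ m * b V v j + ep * b V v i * (1 / 2) ^ m := by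
      calc om th m * (b V v j + em ep m) * ‖V.A i (v - V.P j v)‖ ^ 2
          ≤ (25 / 16) ^ m * (b V v j + em ep m) * b V v i := by
            apply mul_le_mul (mul_le_mul_of_nonneg_right ho2 (by positivity)) hA1 hA1'
              (by positivity)
        _ = (25 / 16) ^ m * b V v j * b V v i
            + ep * b V v i * ((25 / 16) ^ m * (8 / 25) ^ m) := by unfold em; ring
        _ ≤ (25 / 8) ^ m * b V v j * 1 + ep * b V v i * (1 / 2) ^ m := by
            rw [p5]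
            gcongr
        _ = _ := by ring
    have t2 : om th m * (2 + 1 / em ep m) * ‖V.A i (V.P j v)‖ ^ 2
        ≤ (2 + 1 / ep) * ((25 / 8) ^ m * b V v j) := by
      have e1 : 1 / em ep m = 1 / ep * (25 / 8) ^ m := by
        unfold em
        rw [one_div, mul_inv, ← inv_pow]
        norm_num
      calc om th m * (2 + 1 / em ep m) * ‖V.A i (V.P j v)‖ ^ 2
          ≤ (25 / 16) ^ m * (2 + 1 / em ep m) * ((16 / 25) ^ m * b V v j) := by
            apply mul_le_mul (mul_le_mul_of_nonneg_right ho2 (by positivity)) hA2 hA2'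
              (by positivity)
        _ = (2 + 1 / ep * (25 / 8) ^ m) * b V v j * ((25 / 16) ^ m * (16 / 25) ^ m) := by
            rw [e1]; ring
        _ = (2 * 1 + 1 / ep * (25 / 8) ^ m) * b V v j := by rw [p4]; ring
        _ ≤ (2 * (25 / 8) ^ m + 1 / ep * (25 / 8) ^ m) * b V v j := by
            gcongr
        _ = _ := by ring
    have t3 := add_le_add t1 t2
    have t4 := mul_le_mul_of_nonneg_left t3 h0
    calc _ = sbar s * (om th m * (b V v j + em ep m) * ‖V.A i (v - V.P j v)‖ ^ 2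
          + om th m * (2 + 1 / em ep m) * ‖V.A i (V.P j v)‖ ^ 2) := by ring
      _ ≤ _ := t4
      _ = _ := by ring
  refine (Finset.sum_le_sum key).trans ?_
  rw [← Finset.mul_sum]
  apply mul_le_mul_of_nonneg_left _ h0
  rw [Finset.sum_add_distrib, ← Finset.mul_sum, ← Finset.mul_sum]
  have h1 := sum_half i V.n
  have h2 : 0 ≤ ep * b V v i := mul_nonneg hep.le (b_nonneg V v i)
  have h3 : ep * b V v i * ∑ j ∈ Finset.Ico (i + 1) V.n, (1 / 2 : ℝ) ^ (j - i)
      ≤ ep * b V v i := by nlinarith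
  unfold BB
  linarith

end

end Crest.Agent.R239.GS562
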