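import Crest.Agent.R239.GTiltB_562
import Crest.Agent.R239.Mom_764

/-!
# R239 / S0370, G-line: the cap under the tilt, the thin direction, the trace (helper562)
-/

set_option autoImplicit false
set_option linter.unusedSectionVars false
open MeasureTheory ProbabilityTheory Set
open scoped RealInnerProductSpace

namespace Crest.Agent.R239.GS562

open Crest.Agent.R239.GS Crest.Agent.R239.FlagAlg557 Crest.Agent.R239.ProjRot557

variable {E : Type*} [NormedAddCommGroup E] [InnerProductSpace ℝ E] [FiniteDimensional ℝ E]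
  [MeasurableSpace E] [BorelSpace E]

section

variable (V : Flag E) {v : E} {s : ℝ}

/-- square root of `A i` -/
noncomputable def Gm (V : Flag E) (i : ℕ) : E →L[ℝ] E :=
  comb V.M i V.n fun j => √(th ^ (j - i))

lemma inner_A_eq (i : ℕ) (g : E) :
    ⟪V.A i g, g⟫ = ∑ j ∈ Finset.Ico i V.n, th ^ (j - i) * ‖V.Q j g‖ ^ 2 := by
  have h : V.A i g = comb V.M i V.n (fun j => th ^ (j - i)) g := rfl
  rw [h, comb_apply, sum_inner]
  apply Finset.sum_congr rfl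
  intro j _
  rw [real_inner_smul_left, norm_Q_sq V.anti]

lemma norm_Gm_sq (i : ℕ) (g : E) : ‖Gm V i g‖ ^ 2 = ⟪V.A i g, g⟫ := by
  rw [inner_A_eq, Gm, norm_comb_sq V.anti]
  apply Finset.sum_congr rfl
  intro j _
  rw [Real.sq_sqrt (pow_nonneg th_pos.le _)]

lemma psd_A (i : ℕ) : PSD (V.A i) where
  sa := fun x y => inner_comb_comm i V.n _ x y
  nn := fun x => by
    rw [← norm_Gm_sq]
    positivity

lemma inner_A_self_le (i : ℕ) (hi : i < V.n) (w : E) : ⟪V.A i w, w⟫ ≤ ‖V.P i w‖ ^ 2 := by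
  have h := norm_P_sq_sum V.anti hi.le V.bot_n w
  rw [inner_A_eq]
  have h' : ‖V.P i w‖ ^ 2 = ∑ j ∈ Finset.Ico i V.n, ‖FlagAlg557.Q V.M j w‖ ^ 2 := h
  rw [h']
  apply Finset.sum_le_sum
  intro j _
  have : th ^ (j - i) ≤ 1 := pow_le_one₀ th_pos.le th_lt_one.le
  nlinarith [sq_nonneg ‖V.Q j w‖]

/-- the cap form in terms of `x = A g` -/
lemma capform (i : ℕ) (y : E) :
    ⟪V.A i y, y⟫ = ‖Hi V.M (√th) V.n i (V.A i y)‖ ^ 2 := by
  rw [inner_A_eq, Hi, norm_comb_sq V.anti]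
  apply Finset.sum_congr rfl
  intro j hj
  have h : FlagAlg557.Q V.M j (V.A i y) = th ^ (j - i) • FlagAlg557.Q V.M j y :=
    Q_comb V.anti hj _ y
  rw [h, norm_smul, Real.norm_eq_abs, mul_pow, sq_abs]
  have h2 : ((√th ^ (j - i))⁻¹) ^ 2 = (th ^ (j - i))⁻¹ := by
    rw [inv_pow, ← pow_mul, mul_comm, pow_mul, Real.sq_sqrt th_pos.le]
  rw [h2]
  have h3 : th ^ (j - i) ≠ 0 := pow_ne_zero _ th_pos.ne'
  field_simp

lemma om_sqrt_nonneg (m : ℕ) : 0 ≤ om (√th) m :=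
  om_nonneg (Real.sqrt_pos.2 th_pos) (Real.sqrt_le_one.2 th_lt_one.le) m

lemma om_sqrt_le (m : ℕ) : om (√th) m ≤ (5 / 4) ^ m := by
  have h0 : (√th ^ m)⁻¹ ^ 2 = (5 / 4 : ℝ) ^ m := by
    rw [inv_pow, ← pow_mul, mul_comm, pow_mul, Real.sq_sqrt th_pos.le]
    unfold th
    rw [← inv_pow]
    norm_num
  unfold om
  rw [h0]
  have : 0 ≤ (√th ^ (m - 1))⁻¹ ^ 2 := sq_nonneg _
  linarith

/-- coefficient of the cap excess -/
noncomputable def hc (V : Flag E) (v : E) (s : ℝ) (i : ℕ) : ℝ := sbar s * (2 * b V v i + BB V v i)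

lemma hc_nonneg (h0 : 0 ≤ sbar s) (i : ℕ) : 0 ≤ hc V v s i :=
  mul_nonneg h0 (by have := b_nonneg V v i; have := BB_nonneg V v i; linarith)

/-- cap form under the pull back: `N ≤ N' + h N` -/
lemma cap_pull {i : ℕ} (hi : i < V.n) (hv : ‖v‖ = 1)
    (h0 : 0 ≤ sbar s) (h1 : sbar s ≤ 1 / 2) (g : E) :
    (1 - hc V v s i) * ⟪V.A i g, g⟫ ≤ ⟪(V.rot v s).A i (Rm V v s i g), Rm V v s i g⟫ := by
  have hb : ∀ j, sbar s * b V v j < 1 := by
    intro j
    have := b_le_one V hv j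
    have := b_nonneg V v j
    nlinarith
  have h2 := form_diff V (t := √th) hi hv hb (A_mem V i g)
  have h3 := capform (V.rot v s) i (Rm V v s i g)
  rw [A_Rm V hi] at h3
  have h4 := capform V i g
  have h3' : ⟪(V.rot v s).A i (Rm V v s i g), Rm V v s i g⟫
      = ‖Hi (V.rot v s).M (√th) V.n i (Tr v s (V.A i g))‖ ^ 2 := by
    rw [A_Rm V hi]; exact h3
  rw [h3', h2, ← h4]
  set N := ⟪V.A i g, g⟫ with hN
  have hN0 : 0 ≤ N := (psd_A V i).nn g
  set xi := ⟪v, V.A i g⟫ with hxi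
  have hxi2 : xi ^ 2 ≤ b V v i * N := by
    have h := (psd_A V i).cs v g
    rw [inner_A_sym V i v g] at h
    exact h.trans (mul_le_mul_of_nonneg_right (inner_A_self_le V i hi v) hN0)
  have key : ∀ j ∈ Finset.Ico (i + 1) V.n,
      om (√th) (j - i) * (xi ^ 2 - (xi - ⟪V.P j v, V.A i g⟫) ^ 2 / (1 - sbar s * b V v j))
        ≤ (1 / 2) ^ (j - i) * (b V v i * N) + (25 / 8) ^ (j - i) * b V v j * N := by
    intro j hj
    have hj' := Finset.mem_Ico.1 hj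
    set m := j - i with hm
    set ze := ⟪V.P j v, V.A i g⟫ with hze
    have hze2 : ze ^ 2 ≤ (4 / 5) ^ m * b V v j * N := by
      have h := (psd_A V i).cs (V.P j v) g
      rw [inner_A_sym V i (V.P j v) g] at h
      refine h.trans (mul_le_mul_of_nonneg_right ?_ hN0)
      have e1 : V.A i (V.P j v) = th ^ m • V.A j v :=
        H_P V.anti (i := i) (j := j) (n := V.n) (by omega) (by omega) v
      rw [e1, real_inner_smul_left]
      have e2 : ⟪V.A j v, V.P j v⟫ = ⟪V.A j v, v⟫ := by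
        rw [← inner_P_comm' (M := V.M) j (V.A j v) v]
        congr 1
        exact P_of_mem (A_mem V j v)
      rw [e2]
      have e3 := inner_A_self_le V j (by omega) v
      have : th ^ m = (4 / 5 : ℝ) ^ m := rfl
      rw [this]
      exact mul_le_mul_of_nonneg_left e3 (by positivity)
    have hy : sbar s * b V v j ≤ 1 / 2 := by
      have := b_le_one V hv j
      have := b_nonneg V v j
      nlinarith
    have hy0 : 0 ≤ sbar s * b V v j := mul_nonneg h0 (b_nonneg V v j)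
    have h5 : (xi - ze) ^ 2 ≤ (xi - ze) ^ 2 / (1 - sbar s * b V v j) := by
      rw [le_div_iff₀ (by linarith)]
      nlinarith [sq_nonneg (xi - ze)]
    have ho := om_sqrt_nonneg m
    have ho2 := om_sqrt_le m
    have p1 : (0 : ℝ) < (2 / 5) ^ m := by positivity
    have p2 : (0 : ℝ) < (5 / 2) ^ m := by positivity
    have p3 : (2 / 5 : ℝ) ^ m * (5 / 2) ^ m = 1 := by rw [← mul_pow]; norm_num
    have p4 : (5 / 4 : ℝ) ^ m * (2 / 5) ^ m = (1 / 2) ^ m := by rw [← mul_pow]; norm_num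
    have p5 : (5 / 4 : ℝ) ^ m * (5 / 2) ^ m * (4 / 5) ^ m = (5 / 2) ^ m := by
      rw [← mul_pow, ← mul_pow]; norm_num
    have p6 : (5 / 2 : ℝ) ^ m ≤ (25 / 8) ^ m := pow_le_pow_left₀ (by norm_num) (by norm_num) m
    have hcross : 2 * xi * ze ≤ (2 / 5) ^ m * xi ^ 2 + (5 / 2) ^ m * ze ^ 2 := by
      have : 0 ≤ (2 / 5 : ℝ) ^ m * (xi - (5 / 2) ^ m * ze) ^ 2 := by positivity
      have e : (2 / 5 : ℝ) ^ m * (xi - (5 / 2) ^ m * ze) ^ 2
          = (2 / 5) ^ m * xi ^ 2 - 2 * ((2 / 5) ^ m * (5 / 2) ^ m) * xi * ze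
            + ((2 / 5) ^ m * (5 / 2) ^ m) * (5 / 2) ^ m * ze ^ 2 := by ring
      rw [e, p3] at this
      linarith
    have h6 : xi ^ 2 - (xi - ze) ^ 2 / (1 - sbar s * b V v j)
        ≤ (2 / 5) ^ m * (b V v i * N) + (5 / 2) ^ m * ((4 / 5) ^ m * b V v j * N) := by
      have q1 := mul_le_mul_of_nonneg_left hxi2 p1.le
      have q2 := mul_le_mul_of_nonneg_left hze2 p2.le
      nlinarith [sq_nonneg ze]
    have h7 : 0 ≤ (2 / 5) ^ m * (b V v i * N) + (5 / 2) ^ m * ((4 / 5) ^ m * b V v j * N) := by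
      have := b_nonneg V v i
      have := b_nonneg V v j
      positivity
    calc om (√th) m * (xi ^ 2 - (xi - ze) ^ 2 / (1 - sbar s * b V v j))
        ≤ om (√th) m * ((2 / 5) ^ m * (b V v i * N) + (5 / 2) ^ m * ((4 / 5) ^ m * b V v j * N)) :=
          mul_le_mul_of_nonneg_left h6 ho
      _ ≤ (5 / 4) ^ m * ((2 / 5) ^ m * (b V v i * N) + (5 / 2) ^ m * ((4 / 5) ^ m * b V v j * N)) :=
          mul_le_mul_of_nonneg_right ho2 h7
      _ = ((5 / 4) ^ m * (2 / 5) ^ m) * (b V v i * N)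
          + ((5 / 4) ^ m * (5 / 2) ^ m * (4 / 5) ^ m) * b V v j * N := by ring
      _ ≤ (1 / 2) ^ m * (b V v i * N) + (25 / 8) ^ m * b V v j * N := by
          rw [p4, p5]
          have := b_nonneg V v j
          gcongr
  have hsum := Finset.sum_le_sum key
  rw [Finset.sum_add_distrib, ← Finset.sum_mul, ← Finset.sum_mul] at hsum
  have hhalf := sum_half i V.n
  have hbN : 0 ≤ b V v i * N := mul_nonneg (b_nonneg V v i) hN0
  have e1 : (∑ j ∈ Finset.Ico (i + 1) V.n, (1 / 2 : ℝ) ^ (j - i)) * (b V v i * N)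
      ≤ b V v i * N := by nlinarith
  have e2 : (∑ j ∈ Finset.Ico (i + 1) V.n, (25 / 8 : ℝ) ^ (j - i) * b V v j) = BB V v i := rfl
  rw [e2] at hsum
  have e3 : ∑ j ∈ Finset.Ico (i + 1) V.n,
        om (√th) (j - i) * (xi ^ 2 - (xi - ⟪V.P j v, V.A i g⟫) ^ 2 / (1 - sbar s * b V v j))
      = - ∑ j ∈ Finset.Ico (i + 1) V.n, om (√th) (j - i) *
          ((xi - ⟪V.P j v, V.A i g⟫) ^ 2 / (1 - sbar s * b V v j) - xi ^ 2) := by
    rw [← Finset.sum_neg_distrib]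
    exact Finset.sum_congr rfl fun j _ => by ring
  rw [e3] at hsum
  set Sg := ∑ j ∈ Finset.Ico (i + 1) V.n, om (√th) (j - i) *
          ((xi - ⟪V.P j v, V.A i g⟫) ^ 2 / (1 - sbar s * b V v j) - xi ^ 2) with hSg
  have h8 : -Sg ≤ b V v i * N + BB V v i * N := by linarith
  have h9 := mul_le_mul_of_nonneg_left h8 h0
  have h10 := mul_le_mul_of_nonneg_left hxi2 h0
  unfold hc
  nlinarith

/-! ### the trace -/

lemma k_nonneg (j : ℕ) : 0 ≤ V.k j := by
  unfold Flag.k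
  have : Module.finrank ℝ (V.M (j + 1)) ≤ Module.finrank ℝ (V.M j) :=
    Submodule.finrank_mono (V.anti (Nat.le_succ j))
  have h : (Module.finrank ℝ (V.M (j + 1)) : ℝ) ≤ Module.finrank ℝ (V.M j) := by exact_mod_cast this
  linarith

lemma r_nonneg (i : ℕ) : 0 ≤ V.r i :=
  Finset.sum_nonneg fun j _ => mul_nonneg (pow_nonneg th_pos.le _) (k_nonneg V j)

lemma k_rot (hv : ‖v‖ = 1) (hs : s ≠ 1) (j : ℕ) : (V.rot v s).k j = V.k j := by
  unfold Flag.k
  have h : ∀ j, Module.finrank ℝ ((V.rot v s).M j) = Module.finrank ℝ (V.M j) :=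
    fun j => finrank_map_Tr (V.M j) hv hs
  rw [h, h]

lemma r_rot (hv : ‖v‖ = 1) (hs : s ≠ 1) (i : ℕ) : (V.rot v s).r i = V.r i := by
  unfold Flag.r
  exact Finset.sum_congr rfl fun j _ => by rw [k_rot V hv hs]

lemma integrable_norm_Q_sq (j : ℕ) : Integrable (fun g : E => ‖V.Q j g‖ ^ 2) (stdGaussian E) :=
  Mom764.integrable_norm_sq (V.Q j)

lemma integral_norm_Q_sq (j : ℕ) : ∫ g, ‖V.Q j g‖ ^ 2 ∂(stdGaussian E) = V.k j := by
  have h : (fun g : E => ‖V.Q j g‖ ^ 2)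
      = fun g => ‖(V.M j).starProjection g‖ ^ 2 - ‖(V.M (j + 1)).starProjection g‖ ^ 2 := by
    funext g; exact norm_Q_sq' V.anti j g
  rw [h, integral_sub (Mom764.integrable_norm_sq _) (Mom764.integrable_norm_sq _),
    Mom764.integral_norm_sq_starProjection, Mom764.integral_norm_sq_starProjection]
  rfl

lemma integral_norm_Gm_sq (i : ℕ) : ∫ g, ‖Gm V i g‖ ^ 2 ∂(stdGaussian E) = V.r i := by
  have h : (fun g : E => ‖Gm V i g‖ ^ 2)
      = fun g => ∑ j ∈ Finset.Ico i V.n, th ^ (j - i) * ‖V.Q j g‖ ^ 2 := by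
    funext g; rw [norm_Gm_sq, inner_A_eq]
  rw [h, integral_finsetSum _ fun j _ => (integrable_norm_Q_sq V j).const_mul _]
  unfold Flag.r
  refine Finset.sum_congr rfl fun j _ => ?_
  rw [integral_const_mul, integral_norm_Q_sq]

lemma sum_k (i : ℕ) (m : ℕ) (h : i ≤ m) :
    ∑ j ∈ Finset.Ico i m, V.k j
      = (Module.finrank ℝ (V.M i) : ℝ) - (Module.finrank ℝ (V.M m) : ℝ) := by
  induction m, h using Nat.le_induction with
  | base => simp
  | succ m hm ih => rw [Finset.sum_Ico_succ_top hm, ih, Flag.k]; ring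

/-- `r = 0` forces the level operator to vanish -/
lemma A_eq_zero_of_r {i : ℕ} (hi : i < V.n) (hr : V.r i = 0) (g : E) : V.A i g = 0 := by
  have h1 : ∀ j ∈ Finset.Ico i V.n, V.k j = 0 := by
    intro j hj
    have h := (Finset.sum_eq_zero_iff_of_nonneg (fun j _ =>
      mul_nonneg (pow_nonneg th_pos.le (j - i)) (k_nonneg V j))).1 hr j hj
    rcases mul_eq_zero.1 h with h | h
    · exact absurd h (pow_ne_zero _ th_pos.ne')
    · exact h
  have h2 := sum_k V i V.n hi.le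
  rw [Finset.sum_eq_zero h1, V.bot_n, finrank_bot] at h2
  have h3 : Module.finrank ℝ (V.M i) = 0 := by
    have : (Module.finrank ℝ (V.M i) : ℝ) = 0 := by push_cast at h2; linarith
    exact_mod_cast this
  have h4 : V.M i = ⊥ := Submodule.finrank_eq_zero.1 h3
  have h5 := A_mem V i g
  rw [h4] at h5
  exact (Submodule.mem_bot ℝ).1 h5

/-! ### the thin direction -/

lemma Q_Rm {i : ℕ} (hi : i < V.n) (g : E) :
    (V.rot v s).Q i (Rm V v s i g) = (V.rot v s).Q i (Tr v s (V.A i g)) := by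
  have h : (V.rot v s).Q i (Rm V v s i g)
      = (th ^ (i - i))⁻¹ • (V.rot v s).Q i (Tr v s (V.A i g)) :=
    Q_comb (V.rot v s).anti (Finset.mem_Ico.2 ⟨le_rfl, hi⟩) _ _
  rw [h]
  simp

/-- `⟪Q'_i v, R g⟫ = (1-s) a / B`, `a = ξ - ζ_{i+1}` -/
lemma inner_Q_Rm {i : ℕ} (hi : i < V.n) (hv : ‖v‖ = 1) (h0 : 0 ≤ sbar s) (h1 : sbar s ≤ 1 / 2)
    (g : E) :
    ⟪(V.rot v s).Q i v, Rm V v s i g⟫
      = (1 - s) * (⟪v, V.A i g⟫ - ⟪V.P (i + 1) v, V.A i g⟫)
          / (1 - sbar s * b V v (i + 1)) := by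
  have hb : sbar s * b V v (i + 1) < 1 := by
    have := b_le_one V hv (i + 1)
    have := b_nonneg V v (i + 1)
    nlinarith
  have e1 : ⟪(V.rot v s).Q i v, Rm V v s i g⟫ = ⟪v, (V.rot v s).Q i (Rm V v s i g)⟫ :=
    inner_Q_comm i v _
  rw [e1, Q_Rm V hi]
  have e2 : (V.rot v s).Q i (Tr v s (V.A i g))
      = Tr v s (V.A i g) - Tr v s (rotPre (V.M (i + 1)) v s (V.A i g)) := by
    have q1 : (V.rot v s).P i (Tr v s (V.A i g)) = Tr v s (V.A i g) :=
      P_of_mem (Tr_A_mem V v s i g)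
    have q2 := rot_P V hb hv (V.A i g)
    have q3 : (V.rot v s).Q i (Tr v s (V.A i g))
      = (V.rot v s).P i (Tr v s (V.A i g)) - (V.rot v s).P (i + 1) (Tr v s (V.A i g)) := rfl
    rw [q3, q1, q2]
  rw [e2, inner_sub_right, inner_v_Tr hv, inner_v_Tr hv, rotPre, inner_sub_right,
    inner_smul_right]
  have e3 : ⟪v, (V.M (i + 1)).starProjection (V.A i g)⟫ = ⟪V.P (i + 1) v, V.A i g⟫ :=
    (inner_P_comm (V.M (i + 1)) v (V.A i g)).symm
  have e4 : ⟪v, (V.M (i + 1)).starProjection v⟫ = b V v (i + 1) := by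
    rw [real_inner_comm, ← norm_P_sq]
    rfl
  have e5 : ‖(V.M (i + 1)).starProjection v‖ ^ 2 = b V v (i + 1) := rfl
  rw [e3, e4, e5]
  have hne : 1 - sbar s * b V v (i + 1) ≠ 0 := by linarith
  have e6 : ⟪(V.M (i + 1)).starProjection v, V.A i g⟫ = ⟪V.P (i + 1) v, V.A i g⟫ := rfl
  rw [e6]
  field_simp
  ring

lemma alg1 {sb b : ℝ} (hne : 1 - sb * b ≠ 0) :
    b - sb * (1 ^ 2) ^ 2 + sb * (1 ^ 2 - b) ^ 2 / (1 - sb * b)
      = (1 - sb) * ((1 - sb) * b / (1 - sb * b)) := by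
  rw [eq_comm, ← mul_div_assoc, div_eq_iff hne, add_mul, div_mul_cancel₀ _ hne]
  ring

lemma alg2 {t sb b0 b1 : ℝ} (e1 : 1 - sb * b0 ≠ 0) (e2 : 1 - sb * b1 ≠ 0) :
    t * b0 / (1 - sb * b0) - t * b1 / (1 - sb * b1)
      = t * (b0 - b1) / ((1 - sb * b0) * (1 - sb * b1)) := by
  rw [div_sub_div _ _ e1 e2]
  congr 1
  ring

lemma norm_rot_P_v {j : ℕ} (hb : sbar s * b V v j < 1) (hv : ‖v‖ = 1) (hs : s ≠ 1) :
    ‖(V.rot v s).P j v‖ ^ 2 = (1 - s) ^ 2 * b V v j / (1 - sbar s * b V v j) := by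
  have h := norm_rot_P_sq V hb hv v
  have hT : Tr v s v = (1 - s) • v := by
    rw [Tr_apply, real_inner_self_eq_norm_sq, hv]
    module
  have h1s : (1 - s) ≠ 0 := sub_ne_zero.2 (Ne.symm hs)
  rw [hT, map_smul, norm_smul, mul_pow, Real.norm_eq_abs, sq_abs, real_inner_self_eq_norm_sq,
    hv] at h
  have e4 : ⟪V.P j v, v⟫ = b V v j := by
    rw [show ⟪V.P j v, v⟫ = ‖V.P j v‖ ^ 2 from (norm_P_sq (V.M j) v).symm]
    rfl
  rw [e4, show ‖V.P j v‖ ^ 2 = b V v j from rfl] at h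
  have hne : 1 - sbar s * b V v j ≠ 0 := by linarith
  have h2 := one_sub_sbar s
  have h3 : (1 - s) ^ 2 * ‖(V.rot v s).P j v‖ ^ 2
      = (1 - s) ^ 2 * ((1 - s) ^ 2 * b V v j / (1 - sbar s * b V v j)) := by
    rw [h, ← h2]
    exact alg1 hne
  exact mul_left_cancel₀ (pow_ne_zero 2 h1s) h3

/-- `|Q'_i v|²` -/
lemma norm_rot_Q_v {i : ℕ} (hv : ‖v‖ = 1) (hs : s ≠ 1) (h0 : 0 ≤ sbar s) (h1 : sbar s ≤ 1 / 2) :
    ‖(V.rot v s).Q i v‖ ^ 2 = (1 - s) ^ 2 * (b V v i - b V v (i + 1))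
      / ((1 - sbar s * b V v i) * (1 - sbar s * b V v (i + 1))) := by
  have hb : ∀ j, sbar s * b V v j < 1 := by
    intro j
    have := b_le_one V hv j
    have := b_nonneg V v j
    nlinarith
  have h : ‖(V.rot v s).Q i v‖ ^ 2 = ‖(V.rot v s).P i v‖ ^ 2 - ‖(V.rot v s).P (i + 1) v‖ ^ 2 :=
    norm_Q_sq' (V.rot v s).anti i v
  rw [h, norm_rot_P_v V (hb i) hv hs, norm_rot_P_v V (hb (i + 1)) hv hs]
  have e1 : 1 - sbar s * b V v i ≠ 0 := by linarith [hb i]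
  have e2 : 1 - sbar s * b V v (i + 1) ≠ 0 := by linarith [hb (i + 1)]
  exact alg2 e1 e2

/-- the thin direction: `n = Q'_i v / |Q'_i v|`, `al² ⟪n, R g⟫² ≤ a²` -/
lemma exists_dir {i : ℕ} (hi : i < V.n) (hv : ‖v‖ = 1) (hs : s ≠ 1) (h0 : 0 ≤ sbar s)
    (h1 : sbar s ≤ 1 / 2) (hal : b V v (i + 1) < b V v i) :
    ∃ n : E, ‖n‖ = 1 ∧ (V.rot v s).Q i n = n ∧ ∀ g,
      (b V v i - b V v (i + 1)) * ⟪n, Rm V v s i g⟫ ^ 2
        ≤ (⟪v, V.A i g⟫ - ⟪V.P (i + 1) v, V.A i g⟫) ^ 2 := by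
  have hb : ∀ j, sbar s * b V v j ≤ 1 / 2 := by
    intro j
    have := b_le_one V hv j
    have := b_nonneg V v j
    nlinarith
  set q := (V.rot v s).Q i v with hq
  have hn := norm_rot_Q_v V (i := i) hv hs h0 h1
  have h1s : 0 < (1 - s) ^ 2 := by
    have : (1 - s) ≠ 0 := sub_ne_zero.2 (Ne.symm hs)
    positivity
  have B0 : 0 < 1 - sbar s * b V v i := by linarith [hb i]
  have B1 : 0 < 1 - sbar s * b V v (i + 1) := by linarith [hb (i + 1)]
  have hal' : 0 < b V v i - b V v (i + 1) := by linarith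
  have hq2 : 0 < ‖q‖ ^ 2 := by rw [hn]; positivity
  have hq0 : 0 < ‖q‖ := by
    rcases (norm_nonneg q).eq_or_lt with h | h
    · rw [← h] at hq2; simp at hq2
    · exact h
  refine ⟨‖q‖⁻¹ • q, ?_, ?_, ?_⟩
  · rw [norm_smul, norm_inv, norm_norm, inv_mul_cancel₀ hq0.ne']
  · rw [map_smul]
    congr 1
    exact Q_Q_self (V.rot v s).anti i v
  · intro g
    rw [real_inner_smul_left, mul_pow, inv_pow, inner_Q_Rm V hi hv h0 h1, hn]
    set a := ⟪v, V.A i g⟫ - ⟪V.P (i + 1) v, V.A i g⟫ with ha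
    have e : (b V v i - b V v (i + 1)) * (((1 - s) ^ 2 * (b V v i - b V v (i + 1)) /
        ((1 - sbar s * b V v i) * (1 - sbar s * b V v (i + 1))))⁻¹ *
        ((1 - s) * a / (1 - sbar s * b V v (i + 1))) ^ 2)
        = a ^ 2 * ((1 - sbar s * b V v i) / (1 - sbar s * b V v (i + 1))) := by
      field_simp
    rw [e]
    have h3 : (1 - sbar s * b V v i) / (1 - sbar s * b V v (i + 1)) ≤ 1 := by
      rw [div_le_one B1]
      nlinarith
    nlinarith [sq_nonneg a]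

end

end Crest.Agent.R239.GS562
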