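import Crest.Agent.R239.Dom_640

/-! R239: radial cut.  If a symmetric convex `K` lies in the slightly dilated ellipsoid
`‖B x‖ ≤ (1 + τ) R`, cutting it down to `‖B x‖ ≤ R` costs only a factor `exp (-16 τ / ρ²)`. -/

set_option autoImplicit false
open MeasureTheory ProbabilityTheory Set
open scoped RealInnerProductSpace

namespace Crest.Agent.R239.RadCut631

open Crest.Agent.R239 Crest.Agent.R239.Dom640

lemma exp_le_one_sub {y : ℝ} (h0 : 0 ≤ y) (h1 : y ≤ 1 / 2) : Real.exp (-(2 * y)) ≤ 1 - y := by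
  have h2 : 1 + 2 * y ≤ Real.exp (2 * y) := by
    have := Real.add_one_le_exp (2 * y); linarith
  have h3 : 0 < 1 + 2 * y := by linarith
  rw [Real.exp_neg]
  calc (Real.exp (2 * y))⁻¹ ≤ (1 + 2 * y)⁻¹ := inv_anti₀ h3 h2
    _ ≤ 1 - y := by
        rw [inv_le_iff_one_le_mul₀ h3]
        nlinarith

variable {E : Type*} [NormedAddCommGroup E] [InnerProductSpace ℝ E] [FiniteDimensional ℝ E]
  [MeasurableSpace E] [BorelSpace E]
variable {F : Type*} [NormedAddCommGroup F] [InnerProductSpace ℝ F] [FiniteDimensional ℝ F]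
  [MeasurableSpace F] [BorelSpace F]
variable {H : Type*} [NormedAddCommGroup H] [InnerProductSpace ℝ H] [FiniteDimensional ℝ H]

/-- **Radial cut.** -/
theorem rad_cut (A : F →L[ℝ] E) {K : Set E} (hK : MeasurableSet K) (cK : Convex ℝ K)
    (hs : ∀ x ∈ K, -x ∈ K) (B : E →L[ℝ] H) {R ρ τ : ℝ} (hR : 0 < R) (hρ : 16 ≤ ρ)
    (hm : ∫ x, ‖B x‖ ^ 2 ∂(gau A) ≤ R ^ 2 / ρ ^ 2) (hτ : 0 ≤ τ)
    (hb : τ ≤ 1 / 2 → ∀ x ∈ K, ‖B x‖ ≤ (1 + τ) * R) :
    Real.exp (-(16 * τ / ρ ^ 2)) * (gau A).real K ≤ (gau A).real (K ∩ {x | ‖B x‖ ≤ R}) := by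
  have hρ0 : 0 < ρ := by linarith
  have hρ2 : 256 ≤ ρ ^ 2 := by nlinarith
  have hρ2' : 0 < ρ ^ 2 := by positivity
  have hR2 : 0 < R ^ 2 := by positivity
  have hK0 : 0 ≤ (gau A).real K := measureReal_nonneg
  -- plain cut at radius r
  have hcut : ∀ c : ℝ, 0 < c → (1 - c ^ 2 / ρ ^ 2) * (gau A).real K
      ≤ (gau A).real (K ∩ {x | ‖B x‖ ≤ R / c}) := by
    intro c hc
    have h := gau_cut A hK cK hs B (r := R / c) (by positivity)
    refine le_trans (mul_le_mul_of_nonneg_right ?_ hK0) h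
    have : (∫ x, ‖B x‖ ^ 2 ∂(gau A)) / (R / c) ^ 2 ≤ c ^ 2 / ρ ^ 2 := by
      rw [div_le_iff₀ (by positivity)]
      calc _ ≤ R ^ 2 / ρ ^ 2 := hm
        _ = c ^ 2 / ρ ^ 2 * (R / c) ^ 2 := by field_simp
    linarith
  rcases le_or_gt τ (1 / 2) with h12 | h12
  · -- radial log-concavity
    set l : ℝ := τ / (1 / 2 + τ) with hl
    have hd : 0 < 1 / 2 + τ := by linarith
    rcases hτ.eq_or_lt with h0 | h0
    · have : K ∩ {x | ‖B x‖ ≤ R} = K := by
        apply inter_eq_left.2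
        intro x hx
        have := hb h12 x hx
        rw [← h0] at this
        simpa using this
      rw [this, ← h0]
      simp
    have hl0 : 0 < l := div_pos h0 hd
    have hl1 : l < 1 := by rw [hl, div_lt_one hd]; linarith
    have hl2 : l ≤ 2 * τ := by
      rw [hl, div_le_iff₀ hd]; nlinarith
    have mB : ∀ r : ℝ, MeasurableSet {x : E | ‖B x‖ ≤ r} := fun r =>
      measurableSet_le B.continuous.norm.measurable measurable_const
    have h1 := gau_pr_real A hl0 hl1 hK (hK.inter (mB (R / 2))) (hK.inter (mB R))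
      (fun x hx y hy => by
        refine ⟨cK hx hy.1 (by linarith) hl0.le (by ring), ?_⟩
        have hx' := hb h12 x hx
        have hy' : ‖B y‖ ≤ R / 2 := hy.2
        show ‖B ((1 - l) • x + l • y)‖ ≤ R
        rw [map_add, map_smul, map_smul]
        calc ‖(1 - l) • B x + l • B y‖ ≤ ‖(1 - l) • B x‖ + ‖l • B y‖ := norm_add_le _ _
          _ = (1 - l) * ‖B x‖ + l * ‖B y‖ := by
              rw [norm_smul, norm_smul, Real.norm_of_nonneg (by linarith),
                Real.norm_of_nonneg hl0.le]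
          _ ≤ (1 - l) * ((1 + τ) * R) + l * (R / 2) := by
              gcongr
          _ = ((1 + τ) - l * (1 / 2 + τ)) * R := by ring
          _ = R := by
              have : l * (1 / 2 + τ) = τ := by rw [hl]; field_simp
              rw [this]; ring)
    have h2 := hcut 2 (by norm_num)
    have h3 : Real.exp (-(2 * (4 / ρ ^ 2))) * (gau A).real K
        ≤ (gau A).real (K ∩ {x | ‖B x‖ ≤ R / 2}) := by
      refine le_trans (mul_le_mul_of_nonneg_right ?_ hK0) h2
      have h4 : (4 : ℝ) / ρ ^ 2 ≤ 1 / 2 := by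
        rw [div_le_iff₀ hρ2']; linarith
      have := exp_le_one_sub (y := 4 / ρ ^ 2) (by positivity) h4
      norm_num
      norm_num at this
      exact this
    rcases hK0.eq_or_lt with hz | hz
    · rw [← hz, mul_zero]
      exact measureReal_nonneg
    have h5 : (Real.exp (-(2 * (4 / ρ ^ 2))) * (gau A).real K) ^ l
        ≤ ((gau A).real (K ∩ {x | ‖B x‖ ≤ R / 2})) ^ l :=
      Real.rpow_le_rpow (by positivity) h3 hl0.le
    have h6 : ((gau A).real K) ^ (1 - l) * (Real.exp (-(2 * (4 / ρ ^ 2))) * (gau A).real K) ^ l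
        = Real.exp (-(8 * l / ρ ^ 2)) * (gau A).real K := by
      rw [Real.mul_rpow (Real.exp_pos _).le hz.le, ← Real.exp_mul]
      have e1 : ((gau A).real K) ^ (1 - l) * ((gau A).real K) ^ l = (gau A).real K := by
        rw [← Real.rpow_add hz]; simp
      calc _ = Real.exp (-(2 * (4 / ρ ^ 2)) * l)
            * (((gau A).real K) ^ (1 - l) * ((gau A).real K) ^ l) := by ring
        _ = _ := by rw [e1]; congr 2; ring
    calc Real.exp (-(16 * τ / ρ ^ 2)) * (gau A).real K
        ≤ Real.exp (-(8 * l / ρ ^ 2)) * (gau A).real K := by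
          refine mul_le_mul_of_nonneg_right (Real.exp_le_exp.2 ?_) hK0
          have : 8 * l / ρ ^ 2 ≤ 16 * τ / ρ ^ 2 := by
            apply div_le_div_of_nonneg_right _ hρ2'.le; linarith
          linarith
      _ = _ := h6.symm
      _ ≤ _ := mul_le_mul_of_nonneg_left h5 (Real.rpow_nonneg hK0 _)
      _ ≤ _ := h1
  · have h2 := hcut 1 one_pos
    simp only [div_one] at h2
    refine le_trans (mul_le_mul_of_nonneg_right ?_ hK0) h2
    have h4 : (1 : ℝ) / ρ ^ 2 ≤ 1 / 2 := by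
      rw [div_le_iff₀ hρ2']; linarith
    have h5 := exp_le_one_sub (y := 1 / ρ ^ 2) (by positivity) h4
    have h6 : Real.exp (-(16 * τ / ρ ^ 2)) ≤ Real.exp (-(2 * (1 / ρ ^ 2))) := by
      apply Real.exp_le_exp.2
      have : 2 * (1 / ρ ^ 2) ≤ 16 * τ / ρ ^ 2 := by
        rw [mul_one_div]
        apply div_le_div_of_nonneg_right _ hρ2'.le; linarith
      linarith
    have h7 : (1 : ℝ) - 1 ^ 2 / ρ ^ 2 = 1 - 1 / ρ ^ 2 := by norm_num
    rw [h7]
    exact h6.trans h5

end Crest.Agent.R239.RadCut631
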