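import Crest.Agent.R239.GTiltC_562
import Crest.Agent.R239.Cmp2_142
import Crest.Agent.R239.RadCut_631
import Crest.Agent.R239.RemLev_864

/-!
# R239 / S0370, G-line: one level comparison under the tilt (helper562)
-/

set_option autoImplicit false
set_option linter.unusedSectionVars false
open MeasureTheory ProbabilityTheory Set
open scoped RealInnerProductSpace

namespace Crest.Agent.R239.GS562

open Crest.Agent.R239.GS Crest.Agent.R239.FlagAlg557 Crest.Agent.R239.ProjRot557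

variable {E : Type*} [NormedAddCommGroup E] [InnerProductSpace ℝ E] [FiniteDimensional ℝ E]
  [MeasurableSpace E] [BorelSpace E]

/-- `S_mu(v)` -/
noncomputable def Sv (m : Multiset E) (v : E) : ℝ := (m.map fun z => |⟪v, z⟫|).sum

lemma Sv_nonneg (m : Multiset E) (v : E) : 0 ≤ Sv m v :=
  sum_map_nonneg' m _ fun _ => abs_nonneg _

section

variable (V : Flag E) {v : E} {s : ℝ}

lemma isClosed_slab (w : E) (t : ℝ) : IsClosed {x : E | |⟪w, x⟫| ≤ t} :=
  isClosed_le (by fun_prop) continuous_const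

lemma convex_slab (w : E) (r : ℝ) : Convex ℝ {x : E | |⟪w, x⟫| ≤ r} := by
  intro x hx y hy a b ha hb hab
  simp only [mem_ofPred_eq] at *
  rw [inner_add_right, inner_smul_right, inner_smul_right]
  calc |a * ⟪w, x⟫ + b * ⟪w, y⟫| ≤ |a * ⟪w, x⟫| + |b * ⟪w, y⟫| := abs_add_le _ _
    _ = a * |⟪w, x⟫| + b * |⟪w, y⟫| := by rw [abs_mul, abs_mul, abs_of_nonneg ha, abs_of_nonneg hb]
    _ ≤ a * r + b * r := add_le_add (mul_le_mul_of_nonneg_left hx ha)
        (mul_le_mul_of_nonneg_left hy hb)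
    _ = r := by rw [← add_mul, hab, one_mul]

lemma isClosed_ball (G : E →L[ℝ] E) (r : ℝ) : IsClosed {x : E | ‖G x‖ ≤ r} :=
  isClosed_le (by fun_prop) continuous_const

lemma convex_ball (G : E →L[ℝ] E) (r : ℝ) : Convex ℝ {x : E | ‖G x‖ ≤ r} := by
  intro x hx y hy a b ha hb hab
  simp only [mem_ofPred_eq] at *
  rw [map_add, map_smul, map_smul]
  calc ‖a • G x + b • G y‖ ≤ ‖a • G x‖ + ‖b • G y‖ := norm_add_le _ _
    _ = a * ‖G x‖ + b * ‖G y‖ := by
        rw [norm_smul, norm_smul, Real.norm_of_nonneg ha, Real.norm_of_nonneg hb]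
    _ ≤ a * r + b * r := add_le_add (mul_le_mul_of_nonneg_left hx ha)
        (mul_le_mul_of_nonneg_left hy hb)
    _ = r := by rw [← add_mul, hab, one_mul]

lemma cap_iff {rho : ℝ} (hr : 0 ≤ rho) (i : ℕ) (x : E) :
    ‖Gm V i x‖ ≤ rho * √(V.r i) ↔ ⟪V.A i x, x⟫ ≤ rho ^ 2 * V.r i := by
  have h0 := r_nonneg V i
  have h1 : (rho * √(V.r i)) ^ 2 = rho ^ 2 * V.r i := by rw [mul_pow, Real.sq_sqrt h0]
  rw [← norm_Gm_sq, ← h1]
  exact (pow_le_pow_iff_left₀ (norm_nonneg _) (by positivity) two_ne_zero).symm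

/-- radial cut at level `i` -/
lemma cap_cut {rho : ℝ} (hrho : 16 ≤ rho) {i : ℕ} (hi : i < V.n) {K : Set E}
    (mK : MeasurableSet K) (cK : Convex ℝ K) (sK : ∀ x ∈ K, -x ∈ K) {h : ℝ} (hh : 0 ≤ h)
    (hb : h ≤ 1 / 2 → ∀ x ∈ K, (1 - h) * ⟪V.A i x, x⟫ ≤ rho ^ 2 * V.r i) :
    Real.exp (-(16 * h / rho ^ 2)) * (stdGaussian E).real K
      ≤ (stdGaussian E).real (K ∩ {x | ‖Gm V i x‖ ≤ rho * √(V.r i)}) := by
  have hr0 : 0 < rho := by linarith
  rcases (r_nonneg V i).eq_or_lt with hr | hr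
  · have h1 : K ∩ {x | ‖Gm V i x‖ ≤ rho * √(V.r i)} = K := by
      apply inter_eq_left.2
      intro x _
      show ‖Gm V i x‖ ≤ rho * √(V.r i)
      rw [cap_iff V hr0.le, A_eq_zero_of_r V hi hr.symm x, ← hr]
      simp
    rw [h1]
    have h2 : Real.exp (-(16 * h / rho ^ 2)) ≤ 1 := by
      apply Real.exp_le_one_iff.2
      have : 0 ≤ 16 * h / rho ^ 2 := by positivity
      linarith
    nlinarith [measureReal_nonneg (μ := stdGaussian E) (s := K)]
  · have h0 := RadCut631.rad_cut (ContinuousLinearMap.id ℝ E) mK cK sK (Gm V i)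
      (R := rho * √(V.r i)) (ρ := rho) (τ := h) (by positivity) hrho (by
        rw [gau_id, integral_norm_Gm_sq, mul_pow, Real.sq_sqrt hr.le]
        apply le_of_eq
        field_simp) hh (by
        intro h12 x hx
        have h1 := hb h12 x hx
        have h2 : ‖Gm V i x‖ ^ 2 ≤ ((1 + h) * (rho * √(V.r i))) ^ 2 := by
          rw [norm_Gm_sq, mul_pow, mul_pow, Real.sq_sqrt hr.le]
          have h3 : 1 ≤ (1 + h) ^ 2 * (1 - h) := by
            have : (1 + h) ^ 2 * (1 - h) = 1 + h * (1 - h - h ^ 2) := by ring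
            rw [this]
            have : 0 ≤ h * (1 - h - h ^ 2) := mul_nonneg hh (by nlinarith)
            linarith
          have hN := (psd_A V i).nn x
          have h4 : 0 ≤ (1 + h) ^ 2 := by positivity
          nlinarith [mul_le_mul_of_nonneg_left h1 h4, mul_le_mul_of_nonneg_right h3 hN]
        exact (pow_le_pow_iff_left₀ (norm_nonneg _) (by positivity) two_ne_zero).1 h2)
    rw [gau_id] at h0
    exact h0

/-- admissible bodies exist -/
lemma exists_adm {p : Par} (hp : p.Ok) {i : ℕ} (hi : i < V.n) : ∃ B : Set E, AdmV p V i B := by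
  have hrho := hp.rho_ge
  refine ⟨univ ∩ {x | ‖Gm V i x‖ ≤ p.rho * √(V.r i)}, ?_, ?_, ?_, ?_, ?_⟩
  · exact isClosed_univ.inter (isClosed_ball _ _)
  · exact convex_univ.inter (convex_ball _ _)
  · intro x hx
    refine ⟨mem_univ _, ?_⟩
    show ‖Gm V i (-x)‖ ≤ _
    rw [map_neg, norm_neg]
    exact hx.2
  · intro x hx
    exact (cap_iff V (by linarith) i x).1 hx.2
  · have h := cap_cut V hrho hi (K := (univ : Set E)) MeasurableSet.univ convex_univ
      (fun x _ => mem_univ _) (h := 1) (by norm_num) (fun h => by norm_num at h)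
    refine lt_of_lt_of_le ?_ h
    have : (stdGaussian E).real (univ : Set E) = 1 := by simp
    rw [this]
    positivity

/-- **one level comparison** -/
theorem comp {p : Par} (hp : p.Ok) (hv : ‖v‖ = 1) (hs0 : 0 < s) (hs1 : s < 1)
    (h1 : sbar s ≤ 1 / 2) {i : ℕ} (hi : i < V.n) (m : Multiset E) {B' : Set E}
    (hB : AdmV p (V.rot v s) i B') {X t : ℝ}
    (hX : Real.exp (-X) * (stdGaussian E).real B' ≤ (stdGaussian E).real (Rm V v s i ⁻¹' B'))
    (hsl : 0 < (stdGaussian E).real {x | |⟪V.A i v, x⟫| ≤ t}) :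
    DV p V m i ≤ valV p (V.rot v s) i m B'
      + (s * t * Sv m v - p.lam i * Real.log ((stdGaussian E).real {x | |⟪V.A i v, x⟫| ≤ t}))
      + p.lam i * (X + 16 * hc V v s i / p.rho ^ 2) := by
  have hsb0 : 0 ≤ sbar s := by unfold sbar; nlinarith
  have hrho := hp.rho_ge
  have ha : 16 ≤ p.a := hp.a_ge
  have hlam : 0 < p.lam i := by unfold Par.lam; positivity
  set γ := stdGaussian E with hγ
  set K1 : Set E := Rm V v s i ⁻¹' B' with hK1
  set sl : Set E := {x | |⟪V.A i v, x⟫| ≤ t} with hsld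
  set cp : Set E := {x | ‖Gm V i x‖ ≤ p.rho * √(V.r i)} with hcp
  have cB : IsClosed B' := hB.closed
  have K1c : IsClosed K1 := cB.preimage (Rm V v s i).continuous
  have K1v : Convex ℝ K1 := hB.convex.linear_preimage (Rm V v s i : E →ₗ[ℝ] E)
  have K1s : ∀ x ∈ K1, -x ∈ K1 := by
    intro x hx
    show Rm V v s i (-x) ∈ B'
    rw [map_neg]
    exact hB.symm _ hx
  have slc : IsClosed sl := isClosed_slab _ _
  have slv : Convex ℝ sl := convex_slab _ _
  have sls : ∀ x ∈ sl, -x ∈ sl := by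
    intro x hx
    show |⟪V.A i v, -x⟫| ≤ t
    rw [inner_neg_right, abs_neg]
    exact hx
  have hslab : γ.real K1 * γ.real sl ≤ γ.real (K1 ∩ sl) :=
    Dom640.slab_real K1c.measurableSet K1v K1s _ _
  have hcut := cap_cut V hrho hi (K := K1 ∩ sl) (K1c.inter slc).measurableSet (K1v.inter slv)
    (fun x hx => ⟨K1s x hx.1, sls x hx.2⟩) (h := hc V v s i) (hc_nonneg V hsb0 i) (by
      intro _ x hx
      have h2 := cap_pull V hi hv hsb0 h1 x
      have h3 := hB.cap _ hx.1
      rw [r_rot V hv hs1.ne] at h3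
      exact h2.trans h3)
  have hB0 : 0 < γ.real B' := hB.pos
  have hlow : Real.exp (-(16 * hc V v s i / p.rho ^ 2)) * (Real.exp (-X) * γ.real B' * γ.real sl)
      ≤ γ.real (K1 ∩ sl ∩ cp) := by
    refine le_trans (mul_le_mul_of_nonneg_left ?_ (Real.exp_pos _).le) hcut
    exact (mul_le_mul_of_nonneg_right hX hsl.le).trans hslab
  have hpos0 : 0 < Real.exp (-(16 * hc V v s i / p.rho ^ 2))
      * (Real.exp (-X) * γ.real B' * γ.real sl) := by positivity
  have hadm : AdmV p V i (K1 ∩ sl ∩ cp) := by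
    refine ⟨(K1c.inter slc).inter (isClosed_ball _ _), (K1v.inter slv).inter (convex_ball _ _),
      ?_, ?_, lt_of_lt_of_le hpos0 hlow⟩
    · intro x hx
      refine ⟨⟨K1s x hx.1.1, sls x hx.1.2⟩, ?_⟩
      show ‖Gm V i (-x)‖ ≤ _
      rw [map_neg, norm_neg]
      exact hx.2
    · intro x hx
      exact (cap_iff V (by linarith) i x).1 hx.2
  have hD := hadm.D_le (psd_A V i) m (lam := p.lam i) hlam.le
  refine hD.trans ?_
  -- the logarithm
  have hlog : Real.log (γ.real B') + Real.log (γ.real sl) - X - 16 * hc V v s i / p.rho ^ 2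
      ≤ Real.log (γ.real (K1 ∩ sl ∩ cp)) := by
    have h2 := Real.log_le_log hpos0 hlow
    rw [Real.log_mul (Real.exp_pos _).ne' (by positivity), Real.log_exp,
      Real.log_mul (by positivity) hsl.ne', Real.log_mul (Real.exp_pos _).ne' hB0.ne',
      Real.log_exp] at h2
    linarith
  -- the support functions
  have hsum : (m.map fun z => hs (K1 ∩ sl ∩ cp) (V.A i z)).sum
      ≤ (m.map fun z => hs B' ((V.rot v s).A i z)).sum + s * t * Sv m v := by
    have e1 : (m.map fun z => hs B' ((V.rot v s).A i z)).sum + s * t * Sv m v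
        = (m.map fun z => hs B' ((V.rot v s).A i z) + s * t * |⟪v, z⟫|).sum := by
      rw [Multiset.sum_map_add, Multiset.sum_map_mul_left]
      rfl
    rw [e1]
    apply Multiset.sum_map_le_sum_map
    intro z _
    apply hs_le hadm.nonempty
    intro g hg
    rw [inner_A V hi z g (v := v) (s := s)]
    have h2 : ⟪(V.rot v s).A i z, Rm V v s i g⟫ ≤ hs B' ((V.rot v s).A i z) :=
      hB.le_hs (psd_A (V.rot v s) i) z hg.1.1
    have h3 : |⟪V.A i v, g⟫| ≤ t := hg.1.2
    have h4 : s * ⟪V.A i v, g⟫ * ⟪v, z⟫ ≤ s * t * |⟪v, z⟫| := by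
      calc s * ⟪V.A i v, g⟫ * ⟪v, z⟫ ≤ |s * ⟪V.A i v, g⟫ * ⟪v, z⟫| := le_abs_self _
        _ = s * |⟪V.A i v, g⟫| * |⟪v, z⟫| := by rw [abs_mul, abs_mul, abs_of_pos hs0]
        _ ≤ s * t * |⟪v, z⟫| := by gcongr
    linarith
  unfold valV val
  have h5 := mul_le_mul_of_nonneg_left hlog hlam.le
  nlinarith

/-- comparison without gain -/
lemma cmp_no {ep : ℝ} (hep : 0 < ep) {i : ℕ} (hi : i < V.n) (hv : ‖v‖ = 1)
    (h0 : 0 ≤ sbar s) (h1 : sbar s ≤ 1 / 2) {B' : Set E} (hc1 : IsClosed B')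
    (hc2 : Convex ℝ B') (hc3 : ∀ x ∈ B', -x ∈ B') :
    Real.exp (-(sbar s * (ep * b V v i + (3 + 1 / ep) * BB V v i) / 2)) * (stdGaussian E).real B'
      ≤ (stdGaussian E).real (Rm V v s i ⁻¹' B') := by
  have h := Cmp142.cmp_sum_real hc1.measurableSet hc2 hc3 (ws V i) (Rm V v s i)
    (wv V v s ep i) (by
      intro g
      rw [sum_inner_wv V hep i h0, Finset.sum_add_distrib]
      have hq := quad V hep hi hv h0 h1 g
      have h2 : 0 ≤ sbar s * ⟪v, V.A i g⟫ ^ 2 := mul_nonneg h0 (sq_nonneg _)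
      have h3 : 0 ≤ sbar s * ∑ j ∈ Finset.Ico (i + 1) V.n,
          om th (j - i) * ⟪V.P j v, V.A i g⟫ ^ 2 :=
        mul_nonneg h0 (Finset.sum_nonneg fun j _ =>
          mul_nonneg (om_nonneg th_pos th_lt_one.le _) (sq_nonneg _))
      have h4 : 0 ≤ ∑ j ∈ Finset.Ico (i + 1) V.n,
          2 * (sbar s * (om th (j - i) * ⟪V.P j v, V.A i g⟫ ^ 2)) :=
        Finset.sum_nonneg fun j _ => by
          have := om_nonneg th_pos th_lt_one.le (j - i)
          positivity
      linarith)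
  refine le_trans (mul_le_mul_of_nonneg_right ?_ measureReal_nonneg) h
  apply Real.exp_le_exp.2
  have := trace_le V hep hi hv h0
  linarith

/-- comparison with gain in the thin direction -/
lemma cmp_thin {ep c : ℝ} (hep : 0 < ep) (hc0 : 0 < c) {i : ℕ} (hi : i < V.n) (hv : ‖v‖ = 1)
    (hs : s ≠ 1) (h0 : 0 ≤ sbar s) (h1 : sbar s ≤ 1 / 2) (h2c : sbar s ≤ 2 * c) {B' : Set E}
    (hc1 : IsClosed B') (hc2 : Convex ℝ B') (hc3 : ∀ x ∈ B', -x ∈ B')
    (hthin : ∀ w : E, ‖w‖ = 1 → (V.rot v s).Q i w = w →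
      ∫ x in B', ⟪w, x⟫ ^ 2 ∂(stdGaussian E) ≤ (1 - c) * (stdGaussian E).real B') :
    Real.exp (-(sbar s * (ep * b V v i + (3 + 1 / ep) * BB V v i) / 2
        - sbar s * (b V v i - b V v (i + 1)) * c / 8)) * (stdGaussian E).real B'
      ≤ (stdGaussian E).real (Rm V v s i ⁻¹' B') := by
  rcases (b_anti V v (Nat.le_succ i)).eq_or_lt with heq | hlt
  · have h := cmp_no V hep hi hv h0 h1 hc1 hc2 hc3
    rw [show b V v (i + 1) = b V v i from heq, sub_self, mul_zero, zero_mul, zero_div, sub_zero]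
    exact h
  · obtain ⟨n, hn1, hn2, hn3⟩ := exists_dir V hi hv hs h0 h1 hlt
    have hal : 0 < b V v i - b V v (i + 1) := sub_pos.2 hlt
    have hal1 : b V v i - b V v (i + 1) ≤ 1 := by
      have := b_le_one V hv i
      have := b_nonneg V v (i + 1)
      linarith
    set τ := sbar s / 2 * (b V v i - b V v (i + 1)) with hτ
    have hτ0 : 0 ≤ τ := by positivity
    have h := Cmp142.cmp_gain hc1.measurableSet hc2 hc3 (ws V i) (Rm V v s i)
      (wv V v s ep i) hn1 hτ0 (by
        intro g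
        rw [sum_inner_wv V hep i h0, Finset.sum_add_distrib]
        have hq := quad V hep hi hv h0 h1 g
        have hg := hn3 g
        have hz : ⟪V.P (i + 1) v, V.A i g⟫ ^ 2 ≤ 16 / 9 * ∑ j ∈ Finset.Ico (i + 1) V.n,
            om th (j - i) * ⟪V.P j v, V.A i g⟫ ^ 2 := by
          by_cases h' : i + 1 < V.n
          · have h3 := Finset.single_le_sum
              (f := fun j => om th (j - i) * ⟪V.P j v, V.A i g⟫ ^ 2)
              (fun j _ => mul_nonneg (om_nonneg th_pos th_lt_one.le _) (sq_nonneg _))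
              (Finset.mem_Ico.2 ⟨le_rfl, h'⟩)
            have h4 : i + 1 - i = 1 := by omega
            have h5 : om th 1 = 9 / 16 := by
              rw [om_eq th_pos 1 le_rfl]; unfold th; norm_num
            simp only [h4, h5] at h3
            linarith
          · have h3 : V.P (i + 1) v = 0 := P_eq_zero (V.bot _ (by omega)) v
            rw [h3, inner_zero_left]
            have : 0 ≤ ∑ j ∈ Finset.Ico (i + 1) V.n,
                om th (j - i) * ⟪V.P j v, V.A i g⟫ ^ 2 :=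
              Finset.sum_nonneg fun j _ =>
                mul_nonneg (om_nonneg th_pos th_lt_one.le _) (sq_nonneg _)
            linarith
        have h5 : ∑ j ∈ Finset.Ico (i + 1) V.n,
            2 * (sbar s * (om th (j - i) * ⟪V.P j v, V.A i g⟫ ^ 2))
            = 2 * (sbar s * ∑ j ∈ Finset.Ico (i + 1) V.n,
              om th (j - i) * ⟪V.P j v, V.A i g⟫ ^ 2) := by
          rw [Finset.mul_sum, Finset.mul_sum]
        rw [h5]
        set Z := ∑ j ∈ Finset.Ico (i + 1) V.n, om th (j - i) * ⟪V.P j v, V.A i g⟫ ^ 2 with hZ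
        have h6 : τ * ⟪n, Rm V v s i g⟫ ^ 2
            ≤ sbar s / 2 * (⟪v, V.A i g⟫ - ⟪V.P (i + 1) v, V.A i g⟫) ^ 2 := by
          rw [hτ, mul_assoc]
          exact mul_le_mul_of_nonneg_left hg (by positivity)
        have h7 : sbar s / 2 * (⟪v, V.A i g⟫ - ⟪V.P (i + 1) v, V.A i g⟫) ^ 2
            ≤ sbar s * ⟪v, V.A i g⟫ ^ 2 + sbar s * ⟪V.P (i + 1) v, V.A i g⟫ ^ 2 := by
          nlinarith [mul_nonneg h0 (sq_nonneg (⟪v, V.A i g⟫ + ⟪V.P (i + 1) v, V.A i g⟫))]
        have h8 := mul_le_mul_of_nonneg_left hz h0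
        have h9 : 0 ≤ sbar s * Z := mul_nonneg h0 (Finset.sum_nonneg fun j _ =>
                mul_nonneg (om_nonneg th_pos th_lt_one.le _) (sq_nonneg _))
        nlinarith) (hthin n hn1 hn2)
    refine le_trans (mul_le_mul_of_nonneg_right ?_ measureReal_nonneg) h
    apply Real.exp_le_exp.2
    have h3 := trace_le V hep hi hv h0
    have hτ2 : τ ≤ sbar s / 2 := by
      rw [hτ]
      nlinarith
    have h4 : τ * c / 4 ≤ τ * c / 2 - τ ^ 2 / 4 := by
      have : 0 ≤ τ * (c / 4 - τ / 4) := mul_nonneg hτ0 (by linarith)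
      nlinarith
    have h5 : sbar s * (b V v i - b V v (i + 1)) * c / 8 = τ * c / 4 := by
      rw [hτ]; ring
    rw [h5]
    linarith

end

end Crest.Agent.R239.GS562
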