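import Crest.Agent.R239.GTiltD_562

/-!
# R239 / S0370, G-line: tilt comparison, final statements (helper562)
-/

set_option autoImplicit false
set_option linter.unusedSectionVars false
open MeasureTheory ProbabilityTheory Set
open scoped RealInnerProductSpace

namespace Crest.Agent.R239.GS562

open Crest.Agent.R239.GS Crest.Agent.R239.FlagAlg557 Crest.Agent.R239.ProjRot557

variable {E : Type*} [NormedAddCommGroup E] [InnerProductSpace ℝ E] [FiniteDimensional ℝ E]
  [MeasurableSpace E] [BorelSpace E]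

/-- every near-optimal body has small variance in every block direction -/
def ThinV (p : Par) (W : Flag E) (m : Multiset E) (i : ℕ) (c' dl : ℝ) : Prop :=
  ∀ B, AdmV p W i B → valV p W i m B ≤ DV p W m i + dl * p.lam i →
    ∀ w : E, ‖w‖ = 1 → W.Q i w = w →
      ∫ x in B, ⟪w, x⟫ ^ 2 ∂(stdGaussian E) ≤ (1 - c') * (stdGaussian E).real B

/-- parameters of `FDef` -/
noncomputable def toFD (p : Par) : FD.Par := ⟨p.rho, p.kap, p.a, 1⟩

lemma toFD_ok {p : Par} (hp : p.Ok) : (toFD p).Ok :=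
  ⟨one_pos, hp.a_ge, hp.kap_pos, hp.kap_le, hp.rho_ge, hp.kap_rho⟩

lemma toFD_lam (p : Par) (i : ℕ) : (toFD p).lam i = p.lam i := by
  simp [toFD, FD.Par.lam, Par.lam]

lemma lam_pos {p : Par} (hp : p.Ok) (i : ℕ) : 0 < p.lam i := by
  have := hp.a_ge
  unfold Par.lam
  positivity

lemma lam_le_half {p : Par} (hp : p.Ok) {i I : ℕ} (h : i ≤ I) :
    p.lam i ≤ p.lam I * (1 / 2) ^ (I - i) := by
  obtain ⟨k, rfl⟩ := Nat.exists_eq_add_of_le h
  have ha := hp.a_ge
  have e : i + k - i = k := by omega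
  rw [e]
  unfold Par.lam
  rw [pow_add]
  have h1 : (1 : ℝ) ≤ p.a ^ k * (1 / 2) ^ k := by
    rw [← mul_pow]
    exact one_le_pow₀ (by linarith)
  have h2 : (0 : ℝ) < p.a ^ i := by positivity
  nlinarith

section

variable (V : Flag E) {v : E} {s : ℝ}

lemma norm_A_v_le (i : ℕ) (v : E) : ‖V.A i v‖ ^ 2 ≤ b V v i := by
  have h : ‖V.A i v‖ ≤ ‖V.P i v‖ :=
    norm_H_le V.anti th_pos th_lt_one.le V.n i V.bot_n v
  exact pow_le_pow_left₀ (norm_nonneg _) h 2

/-- slab remainder above `I` -/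
lemma rem_hi' {p : Par} (hp : p.Ok) {I i : ℕ} (hI : I < i) {S : ℝ} (hS0 : 0 ≤ S)
    (hS : S ≤ p.lam I) (hs0 : 0 ≤ s) (hs1 : s ≤ 1) {e : ℝ} (he : 0 < e) (he1 : e ≤ 1) (w : E) :
    ∃ t, 0 < t ∧ 0 < (stdGaussian E).real {x | |⟪w, x⟫| ≤ t} ∧
      s * t * S - p.lam i * Real.log ((stdGaussian E).real {x | |⟪w, x⟫| ≤ t}) ≤
        e * p.lam i * ‖w‖ ^ 2 + 7 / e * p.lam I * (1 / 2) ^ (i - I) := by
  have h := Rem864.rem_hi (toFD_ok hp) hI hS0 (by rw [toFD_lam]; exact hS) hs0 hs1 he he1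
    (ContinuousLinearMap.id ℝ E) w
  simp only [gau_id, toFD_lam, adjoint_id'] at h
  exact h

lemma rem_lo' {p : Par} (hp : p.Ok) {I i : ℕ} (hI : i ≤ I) {S : ℝ} (hS0 : 0 ≤ S)
    (hS : S ≤ p.lam I) (hs0 : 0 ≤ s) (hs1 : s ≤ 1) (w : E) (hw : ‖w‖ ^ 2 ≤ 4) :
    ∃ t, 0 < t ∧ 0 < (stdGaussian E).real {x | |⟪w, x⟫| ≤ t} ∧
      s * t * S - p.lam i * Real.log ((stdGaussian E).real {x | |⟪w, x⟫| ≤ t}) ≤
        8 * p.lam I * (1 / 2) ^ (I - i) := by
  have h := Rem864.rem_lo (toFD_ok hp) hI hS0 (by rw [toFD_lam]; exact hS) hs0 hs1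
    (ContinuousLinearMap.id ℝ E) w (by rw [adjoint_id']; exact hw)
  simp only [gau_id, toFD_lam] at h
  exact h

/-- comparison of the infima -/
lemma comp_inf {p : Par} (hp : p.Ok) (hv : ‖v‖ = 1) (hs0 : 0 < s) (hs1 : s < 1)
    (h1 : sbar s ≤ 1 / 2) {i : ℕ} (hi : i < V.n) (m : Multiset E) {X t dl : ℝ} (hdl : 0 < dl)
    (hX : ∀ B', AdmV p (V.rot v s) i B' →
      valV p (V.rot v s) i m B' ≤ DV p (V.rot v s) m i + dl →
      Real.exp (-X) * (stdGaussian E).real B' ≤ (stdGaussian E).real (Rm V v s i ⁻¹' B'))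
    (hsl : 0 < (stdGaussian E).real {x | |⟪V.A i v, x⟫| ≤ t}) :
    DV p V m i ≤ DV p (V.rot v s) m i
      + (s * t * Sv m v - p.lam i * Real.log ((stdGaussian E).real {x | |⟪V.A i v, x⟫| ≤ t}))
      + p.lam i * (X + 16 * hc V v s i / p.rho ^ 2) := by
  apply le_of_forall_pos_le_add
  intro ε hε
  obtain ⟨B', hB', hval⟩ := exists_near (exists_adm (V.rot v s) hp hi) m (p.lam i)
    (lt_min hε hdl)
  have h2 : valV p (V.rot v s) i m B' ≤ DV p (V.rot v s) m i + dl := by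
    have : min ε dl ≤ dl := min_le_right _ _
    unfold valV DV
    linarith
  have h3 := comp V hp hv hs0 hs1 h1 hi m hB' (hX B' hB' h2) hsl
  have h4 : valV p (V.rot v s) i m B' ≤ DV p (V.rot v s) m i + ε := by
    have : min ε dl ≤ ε := min_le_left _ _
    unfold valV DV
    linarith
  linarith

/-- above `I`, thin -/
theorem tilt_hi {p : Par} (hp : p.Ok) {c dl : ℝ} (hc0 : 0 < c) (hc1 : c < 1) (hdl : 0 < dl)
    (hv : ‖v‖ = 1) (hs0 : 0 < s) (hs1 : s < 1) (h1 : sbar s ≤ 1 / 2) (h2 : sbar s ≤ 2 * c)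
    (hsb : 0 < sbar s) (hrho : 1024 / c ≤ p.rho ^ 2) {m : Multiset E} {I i : ℕ}
    (hS : Sv m v ≤ p.lam I) (hi : i < V.n) (hI : I < i) (hthin : ThinV p (V.rot v s) m i c dl) :
    DV p V m i + p.lam i * (sbar s * c / 32 * b V v i - (2 + 8 / c) * BB V v i)
        - 7 / (sbar s * c / 32) * p.lam I * (1 / 2) ^ (i - I)
      ≤ DV p (V.rot v s) m i := by
  have hl := lam_pos hp i
  have hlI := lam_pos hp I
  have he : 0 < sbar s * c / 32 := by positivity
  have he1 : sbar s * c / 32 ≤ 1 := by nlinarith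
  obtain ⟨t, _, ht2, ht3⟩ := rem_hi' (s := s) hp hI (Sv_nonneg m v) hS hs0.le hs1.le he he1
    (V.A i v)
  have hbb := BB_nonneg V v i
  have hb0 := b_nonneg V v i
  have hb1 := b_succ_le V v i
  have hA := norm_A_v_le V i v
  have hep : 0 < c / 16 := by positivity
  have h3 := comp_inf V hp hv hs0 hs1 h1 hi m (dl := dl * p.lam i)
    (X := sbar s * (c / 16 * b V v i + (3 + 1 / (c / 16)) * BB V v i) / 2
        - sbar s * (b V v i - b V v (i + 1)) * c / 8) (by positivity) (by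
      intro B' hB' hval
      exact cmp_thin V hep hc0 hi hv hs1.ne hsb.le h1 h2 hB'.closed hB'.convex hB'.symm
        (hthin B' hB' hval)) ht2
  have hr : 16 / p.rho ^ 2 ≤ c / 64 := by
    have : 0 < p.rho ^ 2 := lt_of_lt_of_le (by positivity) hrho
    rw [div_le_iff₀ this]
    rw [div_le_iff₀ hc0] at hrho
    linarith
  have h4 : 16 * hc V v s i / p.rho ^ 2 ≤ c / 64 * (sbar s * (2 * b V v i + BB V v i)) := by
    have : 16 * hc V v s i / p.rho ^ 2 = 16 / p.rho ^ 2 * (sbar s * (2 * b V v i + BB V v i)) := by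
      unfold hc; ring
    rw [this]
    exact mul_le_mul_of_nonneg_right hr (by positivity)
  -- the bracket
  have h5 : sbar s * c / 32 * b V v i + (sbar s * (c / 16 * b V v i + (3 + 1 / (c / 16)) * BB V v i) / 2
        - sbar s * (b V v i - b V v (i + 1)) * c / 8 + 16 * hc V v s i / p.rho ^ 2)
      ≤ -(sbar s * c / 32 * b V v i) + (2 + 8 / c) * BB V v i := by
    have e1 : 1 / (c / 16) = 16 / c := by rw [one_div_div]
    rw [e1]
    have q1 : sbar s * c * b V v (i + 1) ≤ 8 / 25 * BB V v i := by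
      have w1 : sbar s * c ≤ 1 := by nlinarith
      have w2 := b_nonneg V v (i + 1)
      nlinarith
    have q2 : sbar s * ((3 + 16 / c) * BB V v i) ≤ 1 / 2 * ((3 + 16 / c) * BB V v i) :=
      mul_le_mul_of_nonneg_right h1 (by positivity)
    have q3 : c * (sbar s * BB V v i) ≤ BB V v i := by
      have w1 : sbar s * c ≤ 1 := by nlinarith
      nlinarith
    have q4 : (1 : ℝ) / 2 * ((3 + 16 / c) * BB V v i) = 3 / 2 * BB V v i + 8 / c * BB V v i := by
      ring
    rw [q4] at q2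
    have q5 : 0 ≤ 8 / c * BB V v i := by positivity
    linarith
  have h6 : sbar s * c / 32 * p.lam i * ‖V.A i v‖ ^ 2 ≤ p.lam i * (sbar s * c / 32 * b V v i) := by
    have := mul_le_mul_of_nonneg_left hA (by positivity : 0 ≤ sbar s * c / 32 * p.lam i)
    linarith
  have h7 := mul_le_mul_of_nonneg_left h5 hl.le
  linarith

/-- above `I`, no thinness -/
theorem tilt_mid {p : Par} (hp : p.Ok) {ep : ℝ} (hep : 0 < ep)
    (hv : ‖v‖ = 1) (hs0 : 0 < s) (hs1 : s < 1) (h1 : sbar s ≤ 1 / 2)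
    (hsb : 0 < sbar s) (hrho : 64 / ep ≤ p.rho ^ 2) {m : Multiset E} {I i : ℕ}
    (hS : Sv m v ≤ p.lam I) (hi : i < V.n) (hI : I < i) :
    DV p V m i - p.lam i * (ep * b V v i + (2 + 1 / ep) * BB V v i)
        - 7 / (min (ep / 4) 1) * p.lam I * (1 / 2) ^ (i - I)
      ≤ DV p (V.rot v s) m i := by
  have hl := lam_pos hp i
  have hlI := lam_pos hp I
  have he : 0 < min (ep / 4) 1 := lt_min (by positivity) one_pos
  have he1 : min (ep / 4) 1 ≤ 1 := min_le_right _ _
  have he2 : min (ep / 4) 1 ≤ ep / 4 := min_le_left _ _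
  set e := min (ep / 4) 1 with hedef
  obtain ⟨t, _, ht2, ht3⟩ := rem_hi' (s := s) hp hI (Sv_nonneg m v) hS hs0.le hs1.le he he1
    (V.A i v)
  have hbb := BB_nonneg V v i
  have hb0 := b_nonneg V v i
  have hA := norm_A_v_le V i v
  have h3 := comp_inf V hp hv hs0 hs1 h1 hi m (dl := 1)
    (X := sbar s * (ep * b V v i + (3 + 1 / ep) * BB V v i) / 2) one_pos (by
      intro B' hB' _
      exact cmp_no V hep hi hv hsb.le h1 hB'.closed hB'.convex hB'.symm) ht2
  have hr : 16 / p.rho ^ 2 ≤ ep / 4 := by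
    have : 0 < p.rho ^ 2 := lt_of_lt_of_le (by positivity) hrho
    rw [div_le_iff₀ this]
    rw [div_le_iff₀ hep] at hrho
    linarith
  have hr2 : 16 / p.rho ^ 2 ≤ 1 := by
    have := hp.rho_ge
    rw [div_le_iff₀ (by positivity)]
    nlinarith
  have h4 : 16 * hc V v s i / p.rho ^ 2 ≤ ep / 4 * b V v i + 1 / 2 * BB V v i := by
    have e0 : 16 * hc V v s i / p.rho ^ 2
        = 16 / p.rho ^ 2 * (sbar s * 2 * b V v i) + 16 / p.rho ^ 2 * (sbar s * BB V v i) := by
      unfold hc; ring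
    rw [e0]
    have w1 : 16 / p.rho ^ 2 * (sbar s * 2 * b V v i) ≤ ep / 4 * (1 * b V v i) := by
      apply mul_le_mul hr _ (by positivity) (by positivity)
      apply mul_le_mul_of_nonneg_right _ hb0
      linarith
    have w2 : 16 / p.rho ^ 2 * (sbar s * BB V v i) ≤ 1 * (1 / 2 * BB V v i) := by
      apply mul_le_mul hr2 _ (by positivity) (by positivity)
      exact mul_le_mul_of_nonneg_right h1 hbb
    linarith
  have h5 : e * b V v i + (sbar s * (ep * b V v i + (3 + 1 / ep) * BB V v i) / 2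
        + 16 * hc V v s i / p.rho ^ 2)
      ≤ ep * b V v i + (2 + 1 / ep) * BB V v i := by
    have q1 : e * b V v i ≤ ep / 4 * b V v i := mul_le_mul_of_nonneg_right he2 hb0
    have q2 : sbar s * (ep * b V v i + (3 + 1 / ep) * BB V v i)
        ≤ 1 / 2 * (ep * b V v i + (3 + 1 / ep) * BB V v i) :=
      mul_le_mul_of_nonneg_right h1 (by positivity)
    have q3 : 0 ≤ 1 / ep * BB V v i := by positivity
    have q4 : 0 ≤ ep * b V v i := by positivity
    nlinarith
  have h6 : e * p.lam i * ‖V.A i v‖ ^ 2 ≤ p.lam i * (e * b V v i) := by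
    have := mul_le_mul_of_nonneg_left hA (by positivity : 0 ≤ e * p.lam i)
    linarith
  have h7 := mul_le_mul_of_nonneg_left h5 hl.le
  linarith

/-- at the levels `≤ I` -/
theorem tilt_lo {p : Par} (hp : p.Ok)
    (hv : ‖v‖ = 1) (hs0 : 0 < s) (hs1 : s < 1) (h1 : sbar s ≤ 1 / 2)
    (hsb : 0 < sbar s) {m : Multiset E} {I i : ℕ}
    (hS : Sv m v ≤ p.lam I) (hi : i < V.n) (hI : i ≤ I) :
    DV p V m i - p.lam i * (2 * BB V v i) - 9 * p.lam I * (1 / 2) ^ (I - i)
      ≤ DV p (V.rot v s) m i := by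
  have hl := lam_pos hp i
  have hlI := lam_pos hp I
  have hbb := BB_nonneg V v i
  have hb0 := b_nonneg V v i
  have hb1 := b_le_one V hv i
  have hA := norm_A_v_le V i v
  obtain ⟨t, _, ht2, ht3⟩ := rem_lo' (s := s) hp hI (Sv_nonneg m v) hS hs0.le hs1.le
    (V.A i v) (by linarith)
  have h3 := comp_inf V hp hv hs0 hs1 h1 hi m (dl := 1)
    (X := sbar s * (1 * b V v i + (3 + 1 / 1) * BB V v i) / 2) one_pos (by
      intro B' hB' _
      exact cmp_no V one_pos hi hv hsb.le h1 hB'.closed hB'.convex hB'.symm) ht2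
  have hr2 : 16 / p.rho ^ 2 ≤ 1 / 16 := by
    have := hp.rho_ge
    rw [div_le_iff₀ (by positivity)]
    nlinarith
  have h4 : 16 * hc V v s i / p.rho ^ 2 ≤ 1 / 16 * b V v i + 1 / 32 * BB V v i := by
    have e0 : 16 * hc V v s i / p.rho ^ 2
        = 16 / p.rho ^ 2 * (sbar s * (2 * b V v i + BB V v i)) := by
      unfold hc; ring
    rw [e0]
    have w1 : 16 / p.rho ^ 2 * (sbar s * (2 * b V v i + BB V v i))
        ≤ 1 / 16 * (1 / 2 * (2 * b V v i + BB V v i)) := by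
      apply mul_le_mul hr2 _ (by positivity) (by positivity)
      exact mul_le_mul_of_nonneg_right h1 (by positivity)
    linarith
  have h5 : sbar s * (1 * b V v i + (3 + 1 / 1) * BB V v i) / 2
        + 16 * hc V v s i / p.rho ^ 2 ≤ 1 + 2 * BB V v i := by
    have q2 : sbar s * (1 * b V v i + (3 + 1 / 1) * BB V v i)
        ≤ 1 / 2 * (1 * b V v i + (3 + 1 / 1) * BB V v i) :=
      mul_le_mul_of_nonneg_right h1 (by positivity)
    linarith
  have h7 := mul_le_mul_of_nonneg_left h5 hl.le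
  have h8 := lam_le_half hp hI
  linarith

end

/-- **TILT**, all three comparisons -/
theorem target_tilt : ∀ c' dl : ℝ, 0 < c' → c' < 1 → 0 < dl → ∃ s c9 : ℝ, 0 < s ∧ s < 1 ∧ 0 < c9 ∧
    ∀ ep : ℝ, 0 < ep → ∃ C9 rho0 : ℝ, 0 < C9 ∧ ∀ (d : ℕ) (p : Par), p.Ok → rho0 ≤ p.rho →
      ∀ (V : Flag (EuclideanSpace ℝ (Fin d))) (m : Multiset (EuclideanSpace ℝ (Fin d)))
        (v : EuclideanSpace ℝ (Fin d)) (I i : ℕ), ‖v‖ = 1 → Sv m v ≤ p.lam I → i < V.n →
        (I < i → ThinV p (V.rot v s) m i c' dl →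
          DV p V m i + p.lam i * (c9 * b V v i - C9 * BB V v i)
            - C9 * p.lam I * (1 / 2) ^ (i - I) ≤ DV p (V.rot v s) m i) ∧
        (I < i → DV p V m i - p.lam i * (ep * b V v i + C9 * BB V v i)
            - C9 * p.lam I * (1 / 2) ^ (i - I) ≤ DV p (V.rot v s) m i) ∧
        (i ≤ I → DV p V m i - p.lam i * C9 * BB V v i
            - C9 * p.lam I * (1 / 2) ^ (I - i) ≤ DV p (V.rot v s) m i) := by
  intro c dl hc0 hc1 hdl
  set s : ℝ := min (1 / 4) c with hs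
  have hs0 : 0 < s := lt_min (by norm_num) hc0
  have hs4 : s ≤ 1 / 4 := min_le_left _ _
  have hsc : s ≤ c := min_le_right _ _
  have hs1 : s < 1 := by linarith
  have h1 : sbar s ≤ 1 / 2 := by unfold sbar; nlinarith
  have h2 : sbar s ≤ 2 * c := by unfold sbar; nlinarith
  have hsb : 0 < sbar s := by unfold sbar; nlinarith
  refine ⟨s, sbar s * c / 32, hs0, hs1, by positivity, ?_⟩
  intro ep hep
  have he2 : 0 < min (ep / 4) 1 := lt_min (by positivity) one_pos
  set C9 : ℝ := (2 + 8 / c) + 7 / (sbar s * c / 32) + (2 + 1 / ep) + 7 / (min (ep / 4) 1) + 9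
    with hC9
  have k1 : 0 < 8 / c := by positivity
  have k2 : 0 < 7 / (sbar s * c / 32) := by positivity
  have k3 : 0 < 1 / ep := by positivity
  have k4 : 0 < 7 / (min (ep / 4) 1) := by positivity
  refine ⟨C9, 1024 / c + 64 / ep, by rw [hC9]; linarith, ?_⟩
  intro d p hp hrho V m v I i hv hS hi
  have hr16 := hp.rho_ge
  have hr2 : p.rho ≤ p.rho ^ 2 := by nlinarith
  have hr3 : 1024 / c ≤ p.rho ^ 2 := by
    have : 0 < 64 / ep := by positivity
    linarith
  have hr4 : 64 / ep ≤ p.rho ^ 2 := by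
    have : 0 < 1024 / c := by positivity
    linarith
  have hbb := BB_nonneg V v i
  have hl := lam_pos hp i
  have hlI := lam_pos hp I
  have hlb : 0 ≤ p.lam i * BB V v i := by positivity
  refine ⟨fun hI hth => ?_, fun hI => ?_, fun hI => ?_⟩
  · have h := tilt_hi V hp hc0 hc1 hdl hv hs0 hs1 h1 h2 hsb hr3 hS hi hI hth
    have hw : 0 ≤ p.lam I * (1 / 2) ^ (i - I) := by positivity
    have e1 : (2 + 8 / c) * (p.lam i * BB V v i) ≤ C9 * (p.lam i * BB V v i) :=
      mul_le_mul_of_nonneg_right (by rw [hC9]; linarith) hlb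
    have e2 : 7 / (sbar s * c / 32) * (p.lam I * (1 / 2) ^ (i - I))
        ≤ C9 * (p.lam I * (1 / 2) ^ (i - I)) :=
      mul_le_mul_of_nonneg_right (by rw [hC9]; linarith) hw
    linarith
  · have h := tilt_mid V hp hep hv hs0 hs1 h1 hsb hr4 hS hi hI
    have hw : 0 ≤ p.lam I * (1 / 2) ^ (i - I) := by positivity
    have e1 : (2 + 1 / ep) * (p.lam i * BB V v i) ≤ C9 * (p.lam i * BB V v i) :=
      mul_le_mul_of_nonneg_right (by rw [hC9]; linarith) hlb
    have e2 : 7 / (min (ep / 4) 1) * (p.lam I * (1 / 2) ^ (i - I))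
        ≤ C9 * (p.lam I * (1 / 2) ^ (i - I)) :=
      mul_le_mul_of_nonneg_right (by rw [hC9]; linarith) hw
    linarith
  · have h := tilt_lo V hp hv hs0 hs1 h1 hsb hS hi hI
    have hw : 0 ≤ p.lam I * (1 / 2) ^ (I - i) := by positivity
    have e1 : 2 * (p.lam i * BB V v i) ≤ C9 * (p.lam i * BB V v i) :=
      mul_le_mul_of_nonneg_right (by rw [hC9]; linarith) hlb
    have e2 : 9 * (p.lam I * (1 / 2) ^ (I - i))
        ≤ C9 * (p.lam I * (1 / 2) ^ (I - i)) :=
      mul_le_mul_of_nonneg_right (by rw [hC9]; linarith) hw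
    linarith

end Crest.Agent.R239.GS562
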