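import Mathlib
import Crest.Agent.R239.Gau1
import Crest.Agent.R239.Gr2_655
import Crest.Agent.R239.Gr3_435

/-!
# R239 (S0370), block G6 = B1 (growth), part 4: one level, over an abstract level map `H`

`growth_level`: level map `H : E →L[ℝ] E` with range in `M`, caps `‖B j x‖ ≤ R j` (`j ∈ s`),
`v = H w`, `T = 3200`, `C₁ = 64000`.
-/

set_option autoImplicit false

open MeasureTheory ProbabilityTheory Set
open scoped RealInnerProductSpace

namespace Crest.Agent.R239.Gr4435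

open Crest.Agent.R239 Crest.Agent.R239.Gr655 Crest.Agent.R239.L0 Crest.Agent.R239.Gr3435

variable {E : Type*} [NormedAddCommGroup E] [InnerProductSpace ℝ E] [FiniteDimensional ℝ E]
  [MeasurableSpace E] [BorelSpace E]
variable {G : Type*} [NormedAddCommGroup G] [InnerProductSpace ℝ G]

/-- the loss input of `growth_num`, from `loss_level` -/
theorem hloss_level {ι : Type*} (s : Finset ι) (H : E →L[ℝ] E) (M : Set E) (hM : ∀ x, H x ∈ M)
    (B : ι → E →L[ℝ] G) (R e : ι → ℝ) (hR : ∀ j ∈ s, 0 < R j)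
    {L : Set E} (hL : L = {x | x ∈ M ∧ ∀ j ∈ s, ‖B j x‖ ≤ R j}) (hLc : IsClosed L)
    {v w : E} (hw : H w = v) (hw0 : w ≠ 0) {η : ℝ} (hη : 0 < η)
    (h1 : 3200 * η * ‖w‖ ≤ 1 / 10)
    (he0 : ∀ j ∈ s, 0 ≤ e j) (he1 : ∀ j ∈ s, e j ≤ 1 / 2)
    (hcut : ∀ j ∈ s, ∀ W : Set E, IsClosed W → Convex ℝ W → (∀ x ∈ W, -x ∈ W) →
      (stdGaussian E).real (W ∩ {x | R j / 2 < ‖B j (H x)‖}) ≤ e j * (stdGaussian E).real W)
    (hsum : ∑ j ∈ s, 4 * (3200 * η * ‖B j v‖) * e j / R j ≤ 1 / 25)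
    {K : Set E} (Kc : IsClosed K) (Kv : Convex ℝ K) (Ks : ∀ x ∈ K, -x ∈ K) (KL : K ⊆ L)
    (hz : (gau H).real (Wd K v 0 (3200 * η) ∩ L) ≤ Real.exp (1 / 19) * (gau H).real K) :
    (1 - 1 / (40 * 64000)) * (gau H).real K ≤ (gau H).real (Wd K v η 0) := by
  have hWc : IsClosed (Wd K v 0 (3200 * η)) := isClosed_Wd Kc v 0 _
  have hOc : IsClosed (Wd K v η 0) := isClosed_Wd Kc v η 0
  rw [gau_real_apply H (hWc.inter hLc).measurableSet, gau_real_apply H Kc.measurableSet] at hz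
  rw [gau_real_apply H Kc.measurableSet, gau_real_apply H hOc.measurableSet]
  have eset : H ⁻¹' (Wd K v 0 (3200 * η) ∩ L)
      = H ⁻¹' (Wd K v 0 (3200 * η)) ∩ {x | ∀ j ∈ s, ‖(B j ∘L H) x‖ ≤ R j} := by
    rw [preimage_inter]
    congr 1
    ext x
    rw [hL]
    simp [hM x]
  rw [eset] at hz
  have hexp : Real.exp (1 / 19) ≤ (1 + 1 / 10) * (1 - 1 / 25) := by
    have h := Real.add_one_le_exp (-(1 / 19) : ℝ)
    have h2 : Real.exp (1 / 19) * Real.exp (-(1 / 19)) = 1 := by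
      rw [← Real.exp_add]; simp
    have h3 : 0 < Real.exp (1 / 19) := Real.exp_pos _
    nlinarith
  have key := loss_level s H Kv Kc hw hw0 (η := η) (T := 3200) (a := Real.exp (1 / 19))
    (ε := 1 / 25) (k := 1 / 10) hη (by norm_num) h1 (fun j => B j ∘L H) R e hR
    (fun j hj x hx => by
      have := KL hx
      rw [hL] at this
      exact this.2 j hj) he0 he1
    (fun j hj => hcut j hj _ (hWc.preimage H.continuous)
      ((convex_Wd Kv v 0 _).linear_preimage H.toLinearMap) (fun x hx => by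
        have := symm_Wd Ks v 0 (3200 * η) _ hx
        simpa using this))
    (by simpa [hw] using hsum) (by norm_num) hz (by norm_num) (by norm_num) hexp
  have hsub : H ⁻¹' (Wd K v η 0) ⊆ H ⁻¹' K := preimage_mono (wd_zero_sub Kv v hη.le)
  have hd : (stdGaussian E).real (H ⁻¹' (K \ Wd K v η 0))
      = (stdGaussian E).real (H ⁻¹' K) - (stdGaussian E).real (H ⁻¹' (Wd K v η 0)) := by
    rw [preimage_sdiff]
    exact measureReal_sdiff hsub (hOc.preimage H.continuous).measurableSet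
  rw [hd] at key
  have e1 : (40 : ℝ) * (1 / 10) / 3200 ^ 2 = 1 / (40 * 64000) := by norm_num
  rw [e1] at key
  linarith

/-- **B1 (growth) at one level**, `T = 3200`, `C₁ = 64000`. -/
theorem growth_level {ι : Type*} (s : Finset ι) (H : E →L[ℝ] E) (M : Set E) (hM : ∀ x, H x ∈ M)
    (B : ι → E →L[ℝ] G) (R e : ι → ℝ) (hR : ∀ j ∈ s, 0 < R j)
    {L : Set E} (hL : L = {x | x ∈ M ∧ ∀ j ∈ s, ‖B j x‖ ≤ R j})
    (hLb : Bornology.IsBounded L) (hLc : IsClosed L) (hLv : Convex ℝ L) (hLs : ∀ x ∈ L, -x ∈ L)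
    {Adm : Set E → Prop}
    (hAdm : ∀ K, Adm K ↔ IsClosed K ∧ Convex ℝ K ∧ (∀ x ∈ K, -x ∈ K) ∧ K ⊆ L ∧
      0 < (gau H).real K)
    {v w : E} (hw : H w = v) (hw0 : w ≠ 0) {η : ℝ} (hη : 0 < η)
    (h1 : 3200 * η * ‖w‖ ≤ 1 / 10)
    (he0 : ∀ j ∈ s, 0 ≤ e j) (he1 : ∀ j ∈ s, e j ≤ 1 / 2)
    (hcut : ∀ j ∈ s, ∀ W : Set E, IsClosed W → Convex ℝ W → (∀ x ∈ W, -x ∈ W) →
      (stdGaussian E).real (W ∩ {x | R j / 2 < ‖B j (H x)‖}) ≤ e j * (stdGaussian E).real W)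
    (hsum : ∑ j ∈ s, 4 * (3200 * η * ‖B j v‖) * e j / R j ≤ 1 / 25)
    (p : Multiset (E × E)) {lam Dm Dm' : ℝ} (hlam : 0 < lam)
    (hD : IsGLB {r | ∃ K, Adm K ∧ r = Es K (mrg p) - lam * Real.log ((gau H).real K)} Dm)
    (hD' : IsGLB {r | ∃ K, Adm K ∧ r = Es K (spl p) - lam * Real.log ((gau H).real K)} Dm')
    (h2 : 64000 * η * S (spl p) v ≤ lam) (h3 : lam ≤ 2 * 64000 * η * S (spl p) v)
    (hs : 2 * S (mrg p) v ≤ S (spl p) v) :
    Dm + 2 / 5 * (η * S (spl p) v) ≤ Dm' := by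
  refine growth_num (g := fun K => (gau H).real K) (fun A B h => measureReal_mono h) hLb hLc hLv hLs
    hAdm (by simp) (v := v) (η := η) (T := 3200) (C₁ := 64000) (lam := lam) (β := 1 / 19) hη.le
    (by norm_num) hlam (by norm_num) ?_ p hD hD' (by norm_num) h2 h3 hs
  intro K hK hz
  obtain ⟨Kc, Kv, Ks, KL, -⟩ := (hAdm K).1 hK
  exact hloss_level s H M hM B R e hR hL hLc hw hw0 hη h1 he0 he1 hcut hsum Kc Kv Ks KL hz

end Crest.Agent.R239.Gr4435
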