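import Mathlib
import Crest.Agent.R239.FDef
import Crest.Agent.R239.FlagAlg_557
import Crest.Agent.R239.Dom_640
import Crest.Agent.R239.Gr4_435

/-!
# R239 (S0370), block G6 = B1 (growth), part 5: wiring over `FDef`

Flag facts (`flag_H_Hi`, `integral_P_H`, `cap_eq`, `cap_pos`, `isGLB_D`) and `target_growth`.
-/

set_option autoImplicit false
set_option linter.unusedSectionVars false

open MeasureTheory ProbabilityTheory Set
open scoped RealInnerProductSpace

namespace Crest.Agent.R239.Gr5435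

open Crest.Agent.R239 Crest.Agent.R239.FD

/-! ### full support of the standard Gaussian -/

section pos

variable {E : Type*} [NormedAddCommGroup E] [InnerProductSpace ℝ E] [FiniteDimensional ℝ E]
  [MeasurableSpace E] [BorelSpace E]

theorem std_openPos : (stdGaussian E).IsOpenPosMeasure := by
  have h1 : (gaussianReal 0 1).IsOpenPosMeasure :=
    (gaussianReal_absolutelyContinuous' 0 one_ne_zero).isOpenPosMeasure
  have h2 : (Measure.pi (fun _ : Fin (Module.finrank ℝ E) => gaussianReal 0 1)).IsOpenPosMeasure :=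
    inferInstance
  unfold stdGaussian
  refine Continuous.isOpenPosMeasure_map (by fun_prop) ?_
  intro y
  refine ⟨fun i => (stdOrthonormalBasis ℝ E).repr y i, ?_⟩
  exact (stdOrthonormalBasis ℝ E).sum_repr y

theorem std_ball_pos {r : ℝ} (hr : 0 < r) : 0 < (stdGaussian E).real (Metric.ball (0 : E) r) := by
  have := std_openPos (E := E)
  exact ENNReal.toReal_pos (Metric.measure_ball_pos _ _ hr).ne' (measure_ne_top _ _)

end pos

/-! ### traces -/

section trace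

variable {E : Type*} [NormedAddCommGroup E] [InnerProductSpace ℝ E] [FiniteDimensional ℝ E]

theorem sum_star_sq (M : Submodule ℝ E) :
    ∑ i, ‖M.starProjection (stdOrthonormalBasis ℝ E i)‖ ^ 2 = (Module.finrank ℝ M : ℝ) := by
  have h1 : LinearMap.IsProj M (M.starProjection : E →L[ℝ] E).toLinearMap :=
    ⟨fun x => M.starProjection_apply_mem x,
      fun x hx => Submodule.starProjection_eq_self_iff.2 hx⟩
  have h2 := h1.trace
  rw [← h2, LinearMap.trace_eq_sum_inner _ (stdOrthonormalBasis ℝ E)]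
  refine Finset.sum_congr rfl fun i _ => ?_
  have := ProjRot557.norm_P_sq M (stdOrthonormalBasis ℝ E i)
  rw [this, real_inner_comm]
  rfl

variable [MeasurableSpace E] [BorelSpace E]

theorem integral_star_sq (M : Submodule ℝ E) :
    ∫ x, ‖M.starProjection x‖ ^ 2 ∂(stdGaussian E) = (Module.finrank ℝ M : ℝ) := by
  rw [Dom640.integral_norm_sq, ← sum_star_sq M]
  refine Finset.sum_congr rfl fun i _ => ?_
  congr 2
  refine ext_inner_left ℝ fun y => ?_
  rw [ContinuousLinearMap.adjoint_inner_right, Submodule.inner_starProjection_left_eq_right]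

end trace

/-! ### flags -/

section flag

variable {E : Type*} [NormedAddCommGroup E] [InnerProductSpace ℝ E] [FiniteDimensional ℝ E]
  [MeasurableSpace E] [BorelSpace E]

theorem th_pos : 0 < th := by unfold th; norm_num

theorem th_le : th ≤ 1 := by unfold th; norm_num

variable (V : Flag E)

theorem P_eq (j : ℕ) : V.P j = FlagAlg557.P V.M j := rfl

theorem Q_eq (j : ℕ) : V.Q j = FlagAlg557.Q V.M j := rfl

theorem H_eq (i : ℕ) : V.H i = FlagAlg557.H V.M th V.n i := rfl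

theorem Hi_eq (i : ℕ) : V.Hi i = FlagAlg557.Hi V.M th V.n i := by
  simp only [Flag.Hi, FlagAlg557.Hi, FlagAlg557.comb, inv_pow]
  rfl

theorem bot_n : V.M V.n = ⊥ := V.bot _ le_rfl

theorem H_mem (i : ℕ) (x : E) : V.H i x ∈ V.M i :=
  FlagAlg557.comb_mem V.anti i V.n _ x

theorem flag_H_Hi {i : ℕ} (h : i ≤ V.n) {x : E} (hx : x ∈ V.M i) : V.H i (V.Hi i x) = x := by
  rw [H_eq, Hi_eq, FlagAlg557.H_Hi V.anti th_pos h (bot_n V), FlagAlg557.P_of_mem hx]

theorem norm_H_le' (i : ℕ) (x : E) : ‖V.H i x‖ ≤ ‖x‖ :=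
  (FlagAlg557.norm_H_le V.anti th_pos th_le V.n i (bot_n V) x).trans
    ((V.M i).norm_starProjection_apply_le x)

theorem P_zero_of_ge {j : ℕ} (h : V.n ≤ j) (x : E) : V.P j x = 0 :=
  FlagAlg557.P_eq_zero (V.bot j h) x

theorem k_cast (j : ℕ) : (V.k j : ℝ) = Module.finrank ℝ (V.M j) - Module.finrank ℝ (V.M (j + 1)) := by
  unfold Flag.k
  rw [Nat.cast_sub (Submodule.finrank_mono (V.anti (Nat.le_succ j)))]

theorem integral_Q_sq (j : ℕ) : ∫ x, ‖V.Q j x‖ ^ 2 ∂(stdGaussian E) = V.k j := by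
  have h : ∀ x, ‖V.Q j x‖ ^ 2 = ‖V.P j x‖ ^ 2 - ‖V.P (j + 1) x‖ ^ 2 := fun x =>
    FlagAlg557.norm_Q_sq' V.anti j x
  simp only [h]
  rw [integral_sub (Dom640.integrable_norm_sq _) (Dom640.integrable_norm_sq _), k_cast]
  congr 1
  · exact integral_star_sq _
  · exact integral_star_sq _

theorem M_succ_of_k {j : ℕ} (hk : V.k j = 0) : V.M (j + 1) = V.M j := by
  refine Submodule.eq_of_le_of_finrank_le (V.anti (Nat.le_succ j)) ?_
  unfold Flag.k at hk
  omega

theorem Q_zero_of_k {j : ℕ} (hk : V.k j = 0) (x : E) : V.Q j x = 0 := by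
  have h1 : V.P (j + 1) = V.P j := by
    unfold Flag.P
    simp only [M_succ_of_k V hk]
  unfold Flag.Q
  rw [h1, sub_self]
  rfl

/-- square root of the cap gauge -/
noncomputable def Bc (i : ℕ) : E →L[ℝ] E :=
  FlagAlg557.comb V.M i V.n fun j => Real.sqrt ((th⁻¹) ^ (j - i))

theorem norm_Bc_sq (i : ℕ) (x : E) : ‖Bc V i x‖ ^ 2 = V.N i x := by
  rw [Bc, FlagAlg557.norm_comb_sq V.anti, Flag.N]
  refine Finset.sum_congr rfl fun j _ => ?_
  rw [Real.sq_sqrt (pow_nonneg (inv_nonneg.2 th_pos.le) _), Q_eq]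

theorem norm_Bc_H_sq (i : ℕ) (x : E) :
    ‖Bc V i (V.H i x)‖ ^ 2 = ∑ j ∈ Finset.Ico i V.n, th ^ (j - i) * ‖V.Q j x‖ ^ 2 := by
  rw [Bc, H_eq, FlagAlg557.H, FlagAlg557.comb_comb V.anti, FlagAlg557.norm_comb_sq V.anti]
  refine Finset.sum_congr rfl fun j _ => ?_
  rw [mul_pow, Real.sq_sqrt (pow_nonneg (inv_nonneg.2 th_pos.le) _), Q_eq, inv_pow]
  have h : th ^ (j - i) ≠ 0 := pow_ne_zero _ th_pos.ne'
  field_simp

/-- `E_{g_i} N_i = rr i` -/
theorem integral_Bc_H (i : ℕ) : ∫ x, ‖Bc V i (V.H i x)‖ ^ 2 ∂(stdGaussian E) = V.rr i := by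
  simp only [norm_Bc_H_sq]
  rw [integral_finsetSum _ fun l _ => (Dom640.integrable_norm_sq (V.Q l)).const_mul _, Flag.rr]
  refine Finset.sum_congr rfl fun l _ => ?_
  rw [integral_const_mul, integral_Q_sq]

theorem rr_nonneg (i : ℕ) : 0 ≤ V.rr i :=
  Finset.sum_nonneg fun _ _ => mul_nonneg (pow_nonneg th_pos.le _) (Nat.cast_nonneg _)

theorem k_zero_of_rr {i : ℕ} (h : V.rr i = 0) {j : ℕ} (hj : j ∈ Finset.Ico i V.n) : V.k j = 0 := by
  have h1 := (Finset.sum_eq_zero_iff_of_nonneg (fun l _ =>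
    mul_nonneg (pow_nonneg th_pos.le (l - i)) (Nat.cast_nonneg (V.k l)))).1 h j hj
  rcases mul_eq_zero.1 h1 with h2 | h2
  · exact absurd h2 (pow_ne_zero _ th_pos.ne')
  · exact_mod_cast h2

theorem N_nonneg (i : ℕ) (x : E) : 0 ≤ V.N i x := by
  rw [← norm_Bc_sq]; positivity

/-- on `M i` the gauge dominates the norm -/
theorem norm_sq_le_N {i : ℕ} {x : E} (hx : x ∈ V.M i) : ‖x‖ ^ 2 ≤ V.N i x := by
  rcases le_or_gt i V.n with h | h
  · have h1 : ‖x‖ ^ 2 = ∑ j ∈ Finset.Ico i V.n, ‖V.Q j x‖ ^ 2 := by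
      have := FlagAlg557.norm_P_sq_sum V.anti h (bot_n V) x
      rw [FlagAlg557.P_of_mem hx] at this
      exact this
    rw [h1]
    refine Finset.sum_le_sum fun j _ => ?_
    have h2 : 1 ≤ (th⁻¹) ^ (j - i) := one_le_pow₀ (by
      rw [one_le_inv₀ th_pos]; exact th_le)
    nlinarith [sq_nonneg ‖V.Q j x‖]
  · have h1 : x = 0 := by
      have := V.bot i h.le
      rw [this] at hx
      exact (Submodule.mem_bot ℝ).1 hx
    rw [h1, norm_zero]
    have := N_nonneg V i (0 : E)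
    simpa using this

theorem cap_iff {rho : ℝ} (hr : 0 ≤ rho) (i : ℕ) (x : E) :
    x ∈ V.cap rho i ↔ x ∈ V.M i ∧ ‖Bc V i x‖ ≤ rho * Real.sqrt (V.rr i) := by
  have h0 : 0 ≤ rho * Real.sqrt (V.rr i) := mul_nonneg hr (Real.sqrt_nonneg _)
  have h1 : (rho * Real.sqrt (V.rr i)) ^ 2 = rho ^ 2 * V.rr i := by
    rw [mul_pow, Real.sq_sqrt (rr_nonneg V i)]
  have h2 : ‖Bc V i x‖ ≤ rho * Real.sqrt (V.rr i) ↔ V.N i x ≤ rho ^ 2 * V.rr i := by
    rw [← h1, ← norm_Bc_sq, sq_le_sq₀ (norm_nonneg _) h0]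
  rw [h2]
  rfl

theorem cap_eq {rho : ℝ} (hr : 0 ≤ rho) (i : ℕ) : V.cap rho i = {x | x ∈ (V.M i : Set E) ∧
    ∀ _j ∈ ({()} : Finset Unit), ‖Bc V i x‖ ≤ rho * Real.sqrt (V.rr i)} := by
  ext x
  rw [cap_iff V hr]
  simp

theorem cap_closed (rho : ℝ) (i : ℕ) : IsClosed (V.cap rho i) := by
  have : V.cap rho i = (V.M i : Set E) ∩ {x | ‖Bc V i x‖ ^ 2 ≤ rho ^ 2 * V.rr i} := by
    ext x
    simp [Flag.cap, norm_Bc_sq]
  rw [this]
  exact (Submodule.closed_of_finiteDimensional _).inter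
    (isClosed_le ((Bc V i).continuous.norm.pow 2) continuous_const)

theorem cap_neg (rho : ℝ) (i : ℕ) : V.cap (-rho) i = V.cap rho i := by
  simp [Flag.cap]

theorem cap_convex (rho : ℝ) (i : ℕ) : Convex ℝ (V.cap rho i) := by
  wlog hr : 0 ≤ rho generalizing rho
  · rw [← cap_neg]
    exact this (-rho) (by linarith)
  intro x hx y hy a b ha hb hab
  rw [cap_iff V hr] at *
  refine ⟨(V.M i).add_mem ((V.M i).smul_mem _ hx.1) ((V.M i).smul_mem _ hy.1), ?_⟩
  rw [map_add, map_smul, map_smul]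
  have h1 := hx.2
  have h2 := hy.2
  calc ‖a • Bc V i x + b • Bc V i y‖ ≤ ‖a • Bc V i x‖ + ‖b • Bc V i y‖ := norm_add_le _ _
    _ = a * ‖Bc V i x‖ + b * ‖Bc V i y‖ := by
        rw [norm_smul, norm_smul, Real.norm_of_nonneg ha, Real.norm_of_nonneg hb]
    _ ≤ a * (rho * Real.sqrt (V.rr i)) + b * (rho * Real.sqrt (V.rr i)) := by gcongr
    _ = (a + b) * (rho * Real.sqrt (V.rr i)) := by ring
    _ = _ := by rw [hab, one_mul]

theorem cap_symm (rho : ℝ) (i : ℕ) : ∀ x ∈ V.cap rho i, -x ∈ V.cap rho i := by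
  rintro x ⟨hx1, hx2⟩
  refine ⟨(V.M i).neg_mem hx1, ?_⟩
  rw [← norm_Bc_sq, map_neg, norm_neg, norm_Bc_sq]
  exact hx2

theorem cap_bounded (rho : ℝ) (i : ℕ) : Bornology.IsBounded (V.cap rho i) := by
  refine (isBounded_iff_forall_norm_le).2 ⟨Real.sqrt (rho ^ 2 * V.rr i), ?_⟩
  rintro x ⟨hx1, hx2⟩
  exact Real.le_sqrt_of_sq_le ((norm_sq_le_N V hx1).trans hx2)

/-- the mass of the cap body -/
theorem cap_mass {rho : ℝ} (hr : 0 < rho) (i : ℕ) :
    1 - 1 / rho ^ 2 ≤ (gau (V.H i)).real (V.cap rho i) := by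
  rw [gau_real_apply _ (cap_closed V rho i).measurableSet]
  have e : V.H i ⁻¹' (V.cap rho i) = {x | ‖(Bc V i ∘L V.H i) x‖ ≤ rho * Real.sqrt (V.rr i)} := by
    ext x
    rw [mem_preimage, cap_iff V hr.le]
    simp [H_mem V i x]
  rw [e]
  rcases (rr_nonneg V i).eq_or_lt with h0 | h0
  · have h1 : {x : E | ‖(Bc V i ∘L V.H i) x‖ ≤ rho * Real.sqrt (V.rr i)} = univ := by
      refine eq_univ_of_forall fun x => ?_
      have h2 : ‖Bc V i (V.H i x)‖ ^ 2 = 0 := by
        rw [norm_Bc_H_sq]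
        refine Finset.sum_eq_zero fun j hj => ?_
        rw [Q_zero_of_k V (k_zero_of_rr V h0.symm hj)]
        simp
      have h3 : ‖Bc V i (V.H i x)‖ = 0 := by simpa using h2
      show ‖(Bc V i) (V.H i x)‖ ≤ _
      rw [h3]
      positivity
    rw [h1]
    simp
    positivity
  · have hR : 0 < rho * Real.sqrt (V.rr i) := mul_pos hr (Real.sqrt_pos.2 h0)
    have := Dom640.cut (E := E) (K := univ) MeasurableSet.univ convex_univ (fun x _ => mem_univ _)
      (Bc V i ∘L V.H i) hR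
    have e2 : ∫ x, ‖(Bc V i ∘L V.H i) x‖ ^ 2 ∂(stdGaussian E) = V.rr i := integral_Bc_H V i
    rw [e2, univ_inter, mul_pow, Real.sq_sqrt h0.le] at this
    have e3 : V.rr i / (rho ^ 2 * V.rr i) = 1 / rho ^ 2 := by
      field_simp
    rw [e3] at this
    simpa using this

/-- the cap body has positive mass -/
theorem cap_pos {rho : ℝ} (hr : 1 < rho) (i : ℕ) : 0 < (gau (V.H i)).real (V.cap rho i) := by
  refine lt_of_lt_of_le ?_ (cap_mass V (by linarith) i)
  have : 1 / rho ^ 2 < 1 := by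
    rw [div_lt_one (by positivity)]
    nlinarith
  linarith

theorem adm_cap {p : Par} (hr : 1 < p.rho) (i : ℕ) : Adm p V i (V.cap p.rho i) :=
  ⟨cap_closed V _ i, cap_convex V _ i, cap_symm V _ i, Subset.rfl, cap_pos V hr i⟩

theorem adm_nonempty {p : Par} {i : ℕ} {K : Set E} (h : Adm p V i K) : K.Nonempty := by
  rcases K.eq_empty_or_nonempty with h0 | h0
  · have := h.2.2.2.2
    rw [h0] at this
    simp at this
  · exact h0

theorem adm_zero {p : Par} {i : ℕ} {K : Set E} (h : Adm p V i K) : (0 : E) ∈ K := by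
  obtain ⟨x, hx⟩ := adm_nonempty V h
  have h1 : Convex ℝ K := h.2.1
  have := h1 hx (h.2.2.1 x hx) (a := 1 / 2) (b := 1 / 2) (by norm_num) (by norm_num)
    (by norm_num)
  simpa using this

theorem adm_bounded {p : Par} {i : ℕ} {K : Set E} (h : Adm p V i K) : Bornology.IsBounded K :=
  (cap_bounded V p.rho i).subset h.2.2.2.1

theorem hs_nonneg {K : Set E} (hb : Bornology.IsBounded K) (h0 : (0 : E) ∈ K) (z : E) :
    0 ≤ hs K z := by
  have := Gr3435.le_sf hb h0 z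
  rwa [inner_zero_left] at this

theorem Eh_nonneg {K : Set E} (hb : Bornology.IsBounded K) (h0 : (0 : E) ∈ K) (μ : Multiset E) :
    0 ≤ Eh K μ := by
  refine Multiset.sum_nonneg fun x hx => ?_
  obtain ⟨z, _, rfl⟩ := Multiset.mem_map.1 hx
  exact hs_nonneg hb h0 z

theorem lam_pos {p : Par} (hp : p.Ok) (i : ℕ) : 0 < p.lam i :=
  mul_pos hp.tau_pos (pow_pos (by linarith [hp.A_ge]) _)

theorem val_nonneg {p : Par} (hp : p.Ok) {i : ℕ} {K : Set E} (h : Adm p V i K) (μ : Multiset E) :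
    0 ≤ val p V i μ K := by
  have h1 := Eh_nonneg (adm_bounded V h) (adm_zero V h) μ
  have h2 : Real.log ((gau (V.H i)).real K) ≤ 0 :=
    Real.log_nonpos measureReal_nonneg measureReal_le_one
  have h3 := lam_pos hp i
  unfold val
  nlinarith

theorem isGLB_D {p : Par} (hp : p.Ok) (i : ℕ) (μ : Multiset E) :
    IsGLB (val p V i μ '' {K | Adm p V i K}) (D p V i μ) := by
  refine isGLB_csInf ⟨_, _, adm_cap V (by linarith [hp.rho_ge]) i, rfl⟩ ⟨0, ?_⟩
  rintro _ ⟨K, hK, rfl⟩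
  exact val_nonneg V hp hK μ

theorem isGLB_D' {p : Par} (hp : p.Ok) (i : ℕ) (μ : Multiset E) :
    IsGLB {r | ∃ K, Adm p V i K ∧ r = Gr3435.Es K μ - p.lam i * Real.log ((gau (V.H i)).real K)}
      (D p V i μ) := by
  have h := isGLB_D V hp i μ
  have e : {r | ∃ K, Adm p V i K ∧ r = Gr3435.Es K μ - p.lam i * Real.log ((gau (V.H i)).real K)}
      = val p V i μ '' {K | Adm p V i K} := by
    ext r
    constructor
    · rintro ⟨K, hK, rfl⟩
      exact ⟨K, hK, rfl⟩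
    · rintro ⟨K, hK, rfl⟩
      exact ⟨K, hK, rfl⟩
  rw [e]
  exact h

/-- Chebyshev cut for the cap gauge -/
theorem hcut {rho : ℝ} (hr : 0 < rho) {i : ℕ} (h0 : 0 < V.rr i) {W : Set E} (hW : IsClosed W)
    (cW : Convex ℝ W) (sW : ∀ x ∈ W, -x ∈ W) :
    (stdGaussian E).real (W ∩ {x | rho * Real.sqrt (V.rr i) / 2 < ‖Bc V i (V.H i x)‖})
      ≤ 4 / rho ^ 2 * (stdGaussian E).real W := by
  have hR : 0 < rho * Real.sqrt (V.rr i) / 2 := by
    have := Real.sqrt_pos.2 h0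
    positivity
  have h1 := Dom640.cut hW.measurableSet cW sW (Bc V i ∘L V.H i) hR
  have e2 : ∫ x, ‖(Bc V i ∘L V.H i) x‖ ^ 2 ∂(stdGaussian E) = V.rr i := integral_Bc_H V i
  have e3 : V.rr i / (rho * Real.sqrt (V.rr i) / 2) ^ 2 = 4 / rho ^ 2 := by
    rw [div_pow, mul_pow, Real.sq_sqrt h0.le]
    field_simp
    norm_num
  rw [e2, e3] at h1
  have mB : MeasurableSet {x : E | ‖(Bc V i ∘L V.H i) x‖ ≤ rho * Real.sqrt (V.rr i) / 2} :=
    measurableSet_le (Bc V i ∘L V.H i).continuous.norm.measurable measurable_const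
  have h2 := measureReal_inter_add_sdiff (μ := stdGaussian E) (s := W) mB
  have e4 : W ∩ {x | rho * Real.sqrt (V.rr i) / 2 < ‖Bc V i (V.H i x)‖}
      = W \ {x : E | ‖(Bc V i ∘L V.H i) x‖ ≤ rho * Real.sqrt (V.rr i) / 2} := by
    ext x
    simp
  rw [e4]
  linarith

/-- **growth, over `FDef`** -/
theorem growth_flag {p : Par} (hp : p.Ok) {C3 C4 eta : ℝ}
    (he3 : 32000 * eta * (1 + |C3|) ≤ 1) (he4 : 1000 * eta * (1 + |C4|) ≤ 1) :
    P_GROWTH E p 64000 C3 C4 eta := by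
  intro V I v s eta' hv hvM hC3 hC4 hrr hS heta hle hlam
  have hv0 : v ≠ 0 := by
    rintro rfl
    simp at hv
  have hI : I ≤ V.n := by
    by_contra hcon
    push Not at hcon
    rw [V.bot I hcon.le] at hvM
    exact hv0 ((Submodule.mem_bot ℝ).1 hvM)
  have hrho : 16 ≤ p.rho := hp.rho_ge
  have hr0 : 0 < p.rho := by linarith
  have hrr0 : 0 < V.rr I := lt_of_lt_of_le (pow_pos th_pos 2) hrr
  have hw : V.H I (V.Hi I v) = v := flag_H_Hi V hI hvM
  have hw0 : V.Hi I v ≠ 0 := by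
    intro h
    rw [h, map_zero] at hw
    exact hv0 hw.symm
  have hwn : ‖V.Hi I v‖ ≤ 1 + |C3| := by
    have h1 : ‖V.Hi I v‖ ^ 2 ≤ |C3| := hC3.trans (le_abs_self _)
    nlinarith [norm_nonneg (V.Hi I v), abs_nonneg C3]
  have hBn : ‖Bc V I v‖ ≤ 1 + |C4| := by
    have h1 : ‖Bc V I v‖ ^ 2 ≤ |C4| := by
      rw [norm_Bc_sq]
      exact hC4.trans (le_abs_self _)
    nlinarith [norm_nonneg (Bc V I v), abs_nonneg C4]
  have hsq : th ≤ Real.sqrt (V.rr I) := Real.le_sqrt_of_sq_le hrr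
  set R : ℝ := p.rho * Real.sqrt (V.rr I) with hR
  have hR0 : 0 < R := mul_pos hr0 (Real.sqrt_pos.2 hrr0)
  have hR1 : p.rho * (4 / 5) ≤ R := by
    have : th = 4 / 5 := rfl
    rw [this] at hsq
    exact mul_le_mul_of_nonneg_left hsq hr0.le
  have h1 : 3200 * eta' * ‖V.Hi I v‖ ≤ 1 / 10 := by
    have h2 : 3200 * eta' * ‖V.Hi I v‖ ≤ 3200 * eta * (1 + |C3|) := by
      have : 0 ≤ 3200 * eta := by linarith
      gcongr
    linarith
  have hsum : ∑ _j ∈ ({()} : Finset Unit), 4 * (3200 * eta' * ‖Bc V I v‖) * (4 / p.rho ^ 2) / R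
      ≤ 1 / 25 := by
    rw [Finset.sum_singleton, div_le_iff₀ hR0]
    have h2 : eta' * ‖Bc V I v‖ ≤ 1 / 1000 := by
      have h3 : eta' * ‖Bc V I v‖ ≤ eta * (1 + |C4|) := by
        have : 0 ≤ eta := by linarith
        gcongr
      linarith
    have h4 : (4 : ℝ) / p.rho ^ 2 ≤ 4 / 16 ^ 2 := by
      apply div_le_div_of_nonneg_left (by norm_num) (by norm_num)
      exact pow_le_pow_left₀ (by norm_num) hrho 2
    have h5 : 0 ≤ (4 : ℝ) / p.rho ^ 2 := by positivity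
    have h6 : 0 ≤ eta' * ‖Bc V I v‖ := by positivity
    calc 4 * (3200 * eta' * ‖Bc V I v‖) * (4 / p.rho ^ 2)
        = 12800 * ((eta' * ‖Bc V I v‖) * (4 / p.rho ^ 2)) := by ring
      _ ≤ 12800 * ((1 / 1000) * (4 / 16 ^ 2)) := by gcongr
      _ ≤ 1 / 25 * (16 * (4 / 5)) := by norm_num
      _ ≤ 1 / 25 * (p.rho * (4 / 5)) := by gcongr
      _ ≤ 1 / 25 * R := by gcongr
  have key := Gr4435.growth_level (ι := Unit) (G := E) {()} (V.H I) (V.M I : Set E)
    (fun x => H_mem V I x) (fun _ => Bc V I) (fun _ => R) (fun _ => 4 / p.rho ^ 2)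
    (fun _ _ => hR0) (cap_eq V hr0.le I) (cap_bounded V p.rho I) (cap_closed V p.rho I)
    (cap_convex V p.rho I) (cap_symm V p.rho I) (Adm := Adm p V I) (fun K => Iff.rfl)
    hw hw0 heta h1 (fun _ _ => by positivity)
    (fun _ _ => by
      rw [div_le_div_iff₀ (by positivity) (by norm_num)]
      nlinarith)
    (fun _ _ W hW cW sW => hcut V hr0 hrr0 hW cW sW) hsum s (lam_pos hp I)
    (isGLB_D' V hp I _) (isGLB_D' V hp I _) hlam.le
    (by
      have hlp := lam_pos hp I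
      have : 64000 * eta' * L0.S (L0.spl s) v = p.lam I := hlam
      linarith)
    hS.le
  have e : 2 / 5 * (p.lam I / 64000) = 2 / 5 * (eta' * L0.S (L0.spl s) v) := by
    have : 64000 * eta' * L0.S (L0.spl s) v = p.lam I := hlam
    rw [← this]
    ring
  rw [e]
  exact key

end flag

/-- **G6**: `Target_GROWTH` -/
theorem target_growth : Target_GROWTH := by
  refine ⟨64000, by norm_num, fun C3 C4 => ?_⟩
  have h3 : 1 ≤ 1 + |C3| := by linarith [abs_nonneg C3]
  have h4 : 1 ≤ 1 + |C4| := by linarith [abs_nonneg C4]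
  have h34 : 1 ≤ (1 + |C3|) * (1 + |C4|) := one_le_mul_of_one_le_of_one_le h3 h4
  refine ⟨1 / (32000 * ((1 + |C3|) * (1 + |C4|))), by positivity, ?_, fun d p hp => ?_⟩
  · rw [div_le_one (by positivity)]
    linarith
  · refine growth_flag hp ?_ ?_
    · have e : 32000 * (1 / (32000 * ((1 + |C3|) * (1 + |C4|)))) * (1 + |C3|) = 1 / (1 + |C4|) := by
        field_simp
      rw [e, div_le_one (by positivity)]
      exact h4
    · have e : 1000 * (1 / (32000 * ((1 + |C3|) * (1 + |C4|)))) * (1 + |C4|)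
          = 1 / (32 * (1 + |C3|)) := by
        field_simp
        norm_num
      rw [e, div_le_one (by positivity)]
      linarith

end Crest.Agent.R239.Gr5435
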