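import Crest.Agent.R239.AdmHalf_606
import Crest.Agent.R239.F6b_696
import Crest.Agent.R239.Mom_764
import Crest.Agent.R239.Dom_640

/-!
# R239 (S0370): the cap form `N i` as a norm, its mean under level `i`, the cap cut (helper655)

* `Bm V i`: linear map with `‖Bm V i x‖ ^ 2 = V.N i x`;
* `int_N`: `∫ V.N i (V.H i x) ∂stdGaussian = V.rr i`;
* `cap_cut`: cutting a symmetric convex set of level `i` by `V.N i x ≤ r ^ 2 * V.rr i` costs at most
  the factor `1 - 1 / r ^ 2`;
* `cap_pos`: the cap has positive measure; `adm_cap`.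
-/

set_option autoImplicit false
set_option linter.unusedSectionVars false
open MeasureTheory ProbabilityTheory Set
open scoped RealInnerProductSpace

namespace Crest.Agent.R239.GrF655

open Crest.Agent.R239 Crest.Agent.R239.FD

variable {E : Type*} [NormedAddCommGroup E] [InnerProductSpace ℝ E] [FiniteDimensional ℝ E]
  [MeasurableSpace E] [BorelSpace E]

lemma th_pos : (0 : ℝ) < th := by norm_num [th]

/-- square root of the cap form -/
noncomputable def Bm (V : Flag E) (i : ℕ) : E →L[ℝ] E :=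
  ∑ j ∈ Finset.Ico i V.n, (Real.sqrt th⁻¹) ^ (j - i) • V.Q j

lemma norm_Bm_sq (V : Flag E) (i : ℕ) (x : E) : ‖Bm V i x‖ ^ 2 = V.N i x := by
  have h := FlagAlg557.norm_comb_sq (M := V.M) V.anti i V.n (fun j => (Real.sqrt th⁻¹) ^ (j - i)) x
  have h2 : ‖Bm V i x‖ ^ 2
      = ∑ j ∈ Finset.Ico i V.n, ((Real.sqrt th⁻¹) ^ (j - i)) ^ 2 * ‖V.Q j x‖ ^ 2 := h
  rw [h2, Flag.N]
  refine Finset.sum_congr rfl fun j _ => ?_
  rw [← pow_mul, mul_comm (j - i) 2, pow_mul, Real.sq_sqrt (by norm_num [th])]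

lemma k_cast (V : Flag E) (j : ℕ) :
    (V.k j : ℝ) = (Module.finrank ℝ (V.M j) : ℝ) - Module.finrank ℝ (V.M (j + 1)) := by
  have h : Module.finrank ℝ (V.M (j + 1)) ≤ Module.finrank ℝ (V.M j) :=
    Submodule.finrank_mono (V.anti (Nat.le_succ j))
  rw [Flag.k, Nat.cast_sub h]

lemma rr_nonneg (V : Flag E) (i : ℕ) : 0 ≤ V.rr i :=
  Finset.sum_nonneg fun _ _ => mul_nonneg (pow_nonneg th_pos.le _) (Nat.cast_nonneg _)

lemma int_Q_H (V : Flag E) {i j : ℕ} (hj : j ∈ Finset.Ico i V.n) :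
    ∫ g, ‖V.Q j (V.H i g)‖ ^ 2 ∂(stdGaussian E) = th ^ (2 * (j - i)) * (V.k j : ℝ) := by
  rw [Finset.mem_Ico] at hj
  have h := Mom764.integral_norm_Q_sq (M := V.M) V.anti th hj.1 hj.2
  rw [k_cast]
  exact h

/-- `E_{g_i} N_i = rr i` -/
theorem int_N (V : Flag E) (i : ℕ) : ∫ g, V.N i (V.H i g) ∂(stdGaussian E) = V.rr i := by
  have h0 : ∀ j, Integrable (fun g : E => ‖V.Q j (V.H i g)‖ ^ 2) (stdGaussian E) := fun j =>
    Mom764.integrable_norm_sq ((V.Q j).comp (V.H i))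
  unfold Flag.N Flag.rr
  rw [integral_finsetSum _ fun j _ => (h0 j).const_mul _]
  refine Finset.sum_congr rfl fun j hj => ?_
  rw [integral_const_mul, int_Q_H V hj]
  have : (th⁻¹) ^ (j - i) * th ^ (2 * (j - i)) = th ^ (j - i) := by
    rw [two_mul, pow_add, ← mul_assoc, ← mul_pow, inv_mul_cancel₀ th_pos.ne', one_pow, one_mul]
  rw [← mul_assoc, this]

theorem int_Bm (V : Flag E) (i : ℕ) :
    ∫ g, ‖(Bm V i ∘L V.H i) g‖ ^ 2 ∂(stdGaussian E) = V.rr i := by
  rw [← int_N V i]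
  refine integral_congr_ae (Filter.Eventually.of_forall fun g => ?_)
  exact norm_Bm_sq V i (V.H i g)

/-- one cut by the cap form, in `g`-space -/
theorem cap_cut (V : Flag E) (i : ℕ) {W : Set E} (hW : MeasurableSet W) (cW : Convex ℝ W)
    (sW : ∀ x ∈ W, -x ∈ W) {R : ℝ} (hR : 0 < R) :
    (1 - V.rr i / R ^ 2) * (stdGaussian E).real W
      ≤ (stdGaussian E).real (W ∩ {x | ‖Bm V i (V.H i x)‖ ≤ R}) := by
  have h := Dom640.cut hW cW sW (Bm V i ∘L V.H i) hR
  rw [int_Bm] at h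
  exact h

/-- the loss form of the cut -/
theorem cap_cut_compl (V : Flag E) (i : ℕ) {W : Set E} (hW : MeasurableSet W) (cW : Convex ℝ W)
    (sW : ∀ x ∈ W, -x ∈ W) {R : ℝ} (hR : 0 < R) :
    (stdGaussian E).real (W ∩ {x | R < ‖Bm V i (V.H i x)‖})
      ≤ V.rr i / R ^ 2 * (stdGaussian E).real W := by
  have h := cap_cut V i hW cW sW hR
  have mB : MeasurableSet {x : E | ‖Bm V i (V.H i x)‖ ≤ R} :=
    measurableSet_le (by fun_prop) measurable_const
  have h1 : (stdGaussian E).real (W ∩ {x | ‖Bm V i (V.H i x)‖ ≤ R})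
      + (stdGaussian E).real (W \ {x | ‖Bm V i (V.H i x)‖ ≤ R}) = (stdGaussian E).real W :=
    measureReal_inter_add_sdiff mB
  have h2 : W \ {x | ‖Bm V i (V.H i x)‖ ≤ R} = W ∩ {x | R < ‖Bm V i (V.H i x)‖} := by
    ext x; simp
  rw [h2] at h1
  linarith

lemma cap_eq (V : Flag E) (i : ℕ) {rho : ℝ} (h0 : 0 ≤ rho) :
    V.cap rho i = {x | x ∈ V.M i ∧ ‖Bm V i x‖ ≤ rho * Real.sqrt (V.rr i)} := by
  ext x
  simp only [Flag.cap, mem_ofPred_eq]
  refine and_congr_right fun _ => ?_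
  rw [← norm_Bm_sq]
  have e : rho ^ 2 * V.rr i = (rho * Real.sqrt (V.rr i)) ^ 2 := by
    rw [mul_pow, Real.sq_sqrt (rr_nonneg V i)]
  rw [e]
  exact pow_le_pow_iff_left₀ (norm_nonneg _) (mul_nonneg h0 (Real.sqrt_nonneg _)) (by norm_num)

/-- the cap has measure `≥ 1 - 1/rho²` -/
theorem cap_ge (V : Flag E) (i : ℕ) {rho : ℝ} (h0 : 0 < rho) (hr : 0 < V.rr i) :
    1 - 1 / rho ^ 2 ≤ (gau (V.H i)).real (V.cap rho i) := by
  have h := cap_cut V i (W := univ) MeasurableSet.univ convex_univ (fun _ _ => mem_univ _)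
    (R := rho * Real.sqrt (V.rr i)) (mul_pos h0 (Real.sqrt_pos.2 hr))
  rw [gau_real_apply _ (AdmHalf606.cap_closed V i rho).measurableSet]
  have e : V.H i ⁻¹' (V.cap rho i)
      = univ ∩ {x | ‖Bm V i (V.H i x)‖ ≤ rho * Real.sqrt (V.rr i)} := by
    rw [cap_eq V i h0.le]
    ext x
    simp only [mem_preimage, mem_ofPred_eq, univ_inter]
    exact ⟨fun h => h.2, fun h => ⟨F6b696.H_mem V i x, h⟩⟩
  rw [e]
  refine le_trans (le_of_eq ?_) h
  have e2 : V.rr i / (rho * Real.sqrt (V.rr i)) ^ 2 = 1 / rho ^ 2 := by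
    rw [mul_pow, Real.sq_sqrt hr.le]
    field_simp
  rw [e2]
  simp

/-- if `rr i = 0` then `M i = 0` -/
lemma M_eq_bot (V : Flag E) (i : ℕ) (hr : V.rr i = 0) : V.M i = ⊥ := by
  have h1 : ∀ j ∈ Finset.Ico i V.n, th ^ (j - i) * (V.k j : ℝ) = 0 :=
    (Finset.sum_eq_zero_iff_of_nonneg fun j _ =>
      mul_nonneg (pow_nonneg th_pos.le _) (Nat.cast_nonneg _)).1 hr
  have h2 : ∀ j ∈ Finset.Ico i V.n, Module.finrank ℝ (V.M j) = Module.finrank ℝ (V.M (j + 1)) := by
    intro j hj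
    have h := h1 j hj
    have h3 : (V.k j : ℝ) = 0 := by
      rcases mul_eq_zero.1 h with h | h
      · exact absurd h (pow_pos th_pos _).ne'
      · exact h
    rw [k_cast] at h3
    have : (Module.finrank ℝ (V.M j) : ℝ) = Module.finrank ℝ (V.M (j + 1)) := by linarith
    exact_mod_cast this
  rcases le_or_gt V.n i with h | h
  · exact V.bot i h
  · have key : ∀ m, i ≤ m → m ≤ V.n → Module.finrank ℝ (V.M i) = Module.finrank ℝ (V.M m) := by
      intro m hm
      induction m, hm using Nat.le_induction with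
      | base => intro _; rfl
      | succ m hm ih =>
        intro h'
        rw [ih (by omega), h2 m (Finset.mem_Ico.2 ⟨hm, by omega⟩)]
    have h4 := key V.n h.le le_rfl
    rw [V.bot V.n le_rfl, finrank_bot] at h4
    exact Submodule.finrank_eq_zero.1 h4

/-- the cap always has positive measure (for `rho > 1`) -/
theorem cap_pos (V : Flag E) (i : ℕ) {rho : ℝ} (h1 : 1 < rho) :
    0 < (gau (V.H i)).real (V.cap rho i) := by
  rcases (rr_nonneg V i).eq_or_lt with h | h
  · rw [gau_real_apply _ (AdmHalf606.cap_closed V i rho).measurableSet]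
    have e : V.H i ⁻¹' (V.cap rho i) = univ := by
      rw [eq_univ_iff_forall]
      intro x
      have h2 : V.H i x = 0 := by
        have := F6b696.H_mem V i x
        rw [M_eq_bot V i h.symm] at this
        simpa using this
      rw [mem_preimage, h2]
      exact ⟨(V.M i).zero_mem, by rw [AdmHalf606.N_zero, ← h]; simp⟩
    rw [e]
    simp
  · refine lt_of_lt_of_le ?_ (cap_ge V i (by linarith) h)
    have : (1 : ℝ) < rho ^ 2 := by nlinarith
    have h3 : 1 / rho ^ 2 < 1 := by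
      rw [div_lt_one (by positivity)]; exact this
    linarith

theorem adm_cap {p : Par} (hp : p.Ok) (V : Flag E) (i : ℕ) : Adm p V i (V.cap p.rho i) :=
  ⟨AdmHalf606.cap_closed V i _, AdmHalf606.cap_convex V i _, fun _ hx => AdmHalf606.cap_neg V i _ hx,
    Subset.rfl, cap_pos V i (by have := hp.rho_ge; linarith)⟩

/-- `D i` is the greatest lower bound of the values of the admissible bodies -/
theorem isGLB_D {p : Par} (hp : p.Ok) (V : Flag E) (i : ℕ) (μ : Multiset E) :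
    IsGLB (val p V i μ '' {K | Adm p V i K}) (D p V i μ) := by
  have hlam : ∀ i, 0 ≤ p.lam i := fun i => by
    have h1 := hp.tau_pos
    have h2 := hp.A_ge
    unfold Par.lam
    have : 0 ≤ p.A := by linarith
    positivity
  refine isGLB_csInf ⟨_, mem_image_of_mem _ (adm_cap hp V i)⟩ ⟨0, ?_⟩
  rintro _ ⟨K, hK, rfl⟩
  exact F6b696.val_nonneg hlam hK

end Crest.Agent.R239.GrF655
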