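import Mathlib

/-!
# R239, block B1 (growth): the set-only core

Abstract finite measure `m` on a real vector space, `K` convex compact, direction `v`,
`h = 2 J η`.  If `m (K + h[-v,v]) ≤ (1+e) m K` then the opening of `K` by `η[-v,v]` has almost full
measure: the loss is `≤ C e / J²`.
-/

set_option autoImplicit false

open MeasureTheory Set
open scoped Pointwise

namespace Crest.Agent.R239.GC925

variable {F : Type*} [NormedAddCommGroup F] [NormedSpace ℝ F]

/-- points at distance `≤ a + h` (along `v`) from the centre of a piece `y + [-a,a] v ⊆ K`. -/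
def Oset (K : Set F) (v : F) (h a : ℝ) : Set F :=
  {x | ∃ s : ℝ, |s| ≤ a + h ∧ x + (s + a) • v ∈ K ∧ x + (s - a) • v ∈ K}

/-- the line through `x` parallel to `v` meets `K` in a piece of half length `≥ a`. -/
def Long (K : Set F) (v : F) (a : ℝ) : Set F :=
  {x | ∃ s : ℝ, x + (s + a) • v ∈ K ∧ x + (s - a) • v ∈ K}

lemma seg_mem {K : Set F} (hK : Convex ℝ K) {v x : F} {a b c : ℝ}
    (ha : x + a • v ∈ K) (hb : x + b • v ∈ K) (hac : a ≤ c) (hcb : c ≤ b) : x + c • v ∈ K := by
  rcases eq_or_lt_of_le (hac.trans hcb) with h | h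
  · have : c = a := le_antisymm (by rw [h]; exact hcb) hac
    rwa [this]
  · have hd : 0 < b - a := by linarith
    have := hK ha hb (a := (b - c) / (b - a)) (b := (c - a) / (b - a))
      (div_nonneg (by linarith) hd.le) (div_nonneg (by linarith) hd.le)
      (by field_simp; ring)
    convert this using 1
    have e1 : (b - c) / (b - a) + (c - a) / (b - a) = 1 := by field_simp; ring
    have e2 : (b - c) / (b - a) * a + (c - a) / (b - a) * b = c := by field_simp; ring
    calc x + c • v = ((b - c) / (b - a) + (c - a) / (b - a)) • x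
          + ((b - c) / (b - a) * a + (c - a) / (b - a) * b) • v := by rw [e1, e2, one_smul]
      _ = _ := by module

lemma Oset_subset_Long (K : Set F) (v : F) (h a : ℝ) : Oset K v h a ⊆ Long K v a := by
  rintro x ⟨s, -, h1, h2⟩
  exact ⟨s, h1, h2⟩

lemma Oset_subset_zero {K : Set F} (hK : Convex ℝ K) (v : F) {h a : ℝ} (hh : 0 ≤ h) (ha : 0 ≤ a) :
    Oset K v h a ⊆ Oset K v h 0 := by
  rintro x ⟨s, hs, h1, h2⟩
  obtain ⟨hs1, hs2⟩ := abs_le.1 hs
  -- the point of `[s-a, s+a]` closest to zero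
  have key : ∃ c : ℝ, s - a ≤ c ∧ c ≤ s + a ∧ |c| ≤ h := by
    rcases le_total 0 (s - a) with h0 | h0
    · exact ⟨s - a, le_rfl, by linarith, by rw [abs_of_nonneg h0]; linarith⟩
    · rcases le_total 0 (s + a) with h3 | h3
      · exact ⟨0, h0, h3, by simpa using hh⟩
      · exact ⟨s + a, by linarith, le_rfl, by rw [abs_of_nonpos h3]; linarith⟩
  obtain ⟨c, hc1, hc2, hc3⟩ := key
  have hm := seg_mem hK h2 h1 hc1 hc2
  exact ⟨c, by simpa using hc3, by simpa using hm, by simpa using hm⟩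

lemma zero_inter_Long {K : Set F} (hK : Convex ℝ K) (v : F) {h a : ℝ} (ha : 0 ≤ a) :
    Oset K v h 0 ∩ Long K v a ⊆ Oset K v h a := by
  rintro x ⟨⟨s₀, hs₀, h1, -⟩, ⟨s₁, h3, h4⟩⟩
  rw [zero_add] at hs₀
  rw [add_zero] at h1
  obtain ⟨hs1, hs2⟩ := abs_le.1 hs₀
  rcases lt_or_ge s₀ (s₁ - a) with hlt | hge
  · refine ⟨s₀ + a, ?_, ?_, ?_⟩
    · rw [abs_le]; constructor <;> linarith
    · exact seg_mem hK h1 h3 (by linarith) (by linarith)
    · simpa using h1
  · rcases lt_or_ge (s₁ + a) s₀ with hlt' | hge'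
    · refine ⟨s₀ - a, ?_, ?_, ?_⟩
      · rw [abs_le]; constructor <;> linarith
      · simpa using h1
      · exact seg_mem hK h4 h1 (by linarith) (by linarith)
    · exact ⟨s₁, by rw [abs_le]; constructor <;> linarith, h3, h4⟩

lemma Oset_eq {K : Set F} (hK : Convex ℝ K) (v : F) {h a : ℝ} (hh : 0 ≤ h) (ha : 0 ≤ a) :
    Oset K v h a = Oset K v h 0 ∩ Long K v a :=
  Subset.antisymm (subset_inter (Oset_subset_zero hK v hh ha) (Oset_subset_Long K v h a))
    (zero_inter_Long hK v ha)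

lemma subset_Oset_zero {K : Set F} (v : F) {h : ℝ} (hh : 0 ≤ h) : K ⊆ Oset K v h 0 := by
  intro x hx
  exact ⟨0, by simpa using hh, by simpa using hx, by simpa using hx⟩

lemma Oset_zero_zero (K : Set F) (v : F) : Oset K v 0 0 = K := by
  ext x
  constructor
  · rintro ⟨s, hs, h1, -⟩
    have : s = 0 := by simpa using hs
    simpa [this] using h1
  · intro hx; exact subset_Oset_zero v le_rfl hx

/-- the line property is translation invariant along `v` -/
lemma Long_translate {K : Set F} {v x : F} {a : ℝ} (t : ℝ) :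
    x + t • v ∈ Long K v a ↔ x ∈ Long K v a := by
  constructor
  · rintro ⟨s, h1, h2⟩
    refine ⟨s + t, ?_, ?_⟩
    · convert h1 using 1; module
    · convert h2 using 1; module
  · rintro ⟨s, h1, h2⟩
    refine ⟨s - t, ?_, ?_⟩
    · convert h1 using 1; module
    · convert h2 using 1; module

lemma Oset_convex {K : Set F} (hK : Convex ℝ K) (v : F) (h a b t : ℝ) (ht0 : 0 ≤ t) (ht1 : t ≤ 1) :
    (1 - t) • Oset K v h a + t • Oset K v h b ⊆ Oset K v h ((1 - t) * a + t * b) := by
  rintro _ ⟨_, ⟨x, ⟨s, hs, h1, h2⟩, rfl⟩, _, ⟨y, ⟨r, hr, h3, h4⟩, rfl⟩, rfl⟩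
  have h1t : 0 ≤ 1 - t := by linarith
  refine ⟨(1 - t) * s + t * r, ?_, ?_, ?_⟩
  · calc |(1 - t) * s + t * r| ≤ |(1 - t) * s| + |t * r| := abs_add_le _ _
      _ = (1 - t) * |s| + t * |r| := by rw [abs_mul, abs_mul, abs_of_nonneg h1t, abs_of_nonneg ht0]
      _ ≤ (1 - t) * (a + h) + t * (b + h) := by gcongr
      _ = (1 - t) * a + t * b + h := by ring
  · have := hK h1 h3 h1t ht0 (by ring)
    convert this using 1
    simp only [smul_add]
    module
  · have := hK h2 h4 h1t ht0 (by ring)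
    convert this using 1
    simp only [smul_add]
    module

lemma Oset_isConvex {K : Set F} (hK : Convex ℝ K) (v : F) (h a : ℝ) : Convex ℝ (Oset K v h a) := by
  rw [convex_iff_pointwise_add_subset]
  intro p q hp hq hpq
  have hp' : p = 1 - q := by linarith
  subst hp'
  have := Oset_convex hK v h a a q hq (by linarith)
  have e : (1 - q) * a + q * a = a := by ring
  rwa [e] at this

lemma Oset_isCompact {K : Set F} (hK : IsCompact K) (v : F) (h a : ℝ) :
    IsCompact (Oset K v h a) := by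
  have h1 : IsCompact (((fun y : F => y + a • v) ⁻¹' K) ∩ ((fun y : F => y - a • v) ⁻¹' K)) := by
    have hc : IsClosed K := hK.isClosed
    have : ((fun y : F => y + a • v) ⁻¹' K) = (fun y : F => y - a • v) '' K := by
      ext y; constructor
      · intro hy; exact ⟨y + a • v, hy, by simp⟩
      · rintro ⟨z, hz, rfl⟩; simpa using hz
    rw [this]
    exact (hK.image (by fun_prop)).inter_right (hc.preimage (by fun_prop))
  have h2 : IsCompact (Icc (-(a + h)) (a + h)) := isCompact_Icc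
  have h3 := (h1.prod h2).image (f := fun p : F × ℝ => p.1 - p.2 • v) (by fun_prop)
  convert h3 using 1
  ext x
  constructor
  · rintro ⟨s, hs, hs1, hs2⟩
    refine ⟨(x + s • v, s), ⟨⟨?_, ?_⟩, ?_⟩, ?_⟩
    · change x + s • v + a • v ∈ K
      convert hs1 using 1; module
    · change x + s • v - a • v ∈ K
      convert hs2 using 1; module
    · exact abs_le.1 hs
    · simp
  · rintro ⟨⟨y, s⟩, ⟨⟨hy1, hy2⟩, hs⟩, rfl⟩
    refine ⟨s, abs_le.2 hs, ?_, ?_⟩
    · change y + a • v ∈ K at hy1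
      convert hy1 using 1; simp only; module
    · change y - a • v ∈ K at hy2
      convert hy2 using 1; simp only; module

/-- real inequality: `(1-u)^(1/J) ≥ 1 - 2u/J` for `0 ≤ u ≤ 1/2` -/
lemma one_sub_rpow_ge {u : ℝ} (hu0 : 0 ≤ u) (hu : u ≤ 1 / 2) {J : ℕ} (hJ : 1 ≤ J) :
    1 - 2 * u / J ≤ (1 - u) ^ (1 / (J : ℝ)) := by
  have hJ' : (1 : ℝ) ≤ J := by exact_mod_cast hJ
  have hJ0 : (0 : ℝ) < J := by linarith
  have hw0 : 0 ≤ 1 - 2 * u / J := by
    have : 2 * u / J ≤ 1 := by rw [div_le_one hJ0]; linarith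
    linarith
  have h1 : (1 - 2 * u / J) ^ J ≤ 1 - u := by
    have a1 : 1 - 2 * u / J ≤ Real.exp (-(2 * u / J)) := by
      have := Real.add_one_le_exp (-(2 * u / J)); linarith
    have a2 : (1 - 2 * u / J) ^ J ≤ Real.exp (-(2 * u / J)) ^ J := pow_le_pow_left₀ hw0 a1 J
    have a3 : Real.exp (-(2 * u / J)) ^ J = Real.exp (-(2 * u)) := by
      rw [← Real.exp_nat_mul]; congr 1; field_simp
    have a4 : Real.exp (-(2 * u)) ≤ 1 - u := by
      have b1 : 1 + 2 * u ≤ Real.exp (2 * u) := by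
        have := Real.add_one_le_exp (2 * u); linarith
      have b2 : 0 < Real.exp (2 * u) := Real.exp_pos _
      rw [Real.exp_neg, inv_le_comm₀ b2 (by linarith)]
      have b3 : (1 - u)⁻¹ ≤ 1 + 2 * u := by
        rw [inv_le_comm₀ (by linarith) (by linarith)]
        rw [inv_le_iff_one_le_mul₀ (by linarith)]
        nlinarith
      linarith
    rw [a3] at a2
    linarith
  calc 1 - 2 * u / J = ((1 - 2 * u / J) ^ J) ^ (1 / (J : ℝ)) := by
        rw [← Real.rpow_natCast, ← Real.rpow_mul hw0, mul_one_div_cancel hJ0.ne', Real.rpow_one]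
    _ ≤ _ := Real.rpow_le_rpow (pow_nonneg hw0 J) h1 (by positivity)

variable [MeasurableSpace F] [BorelSpace F]

/-- log-concavity of a measure on convex compact sets -/
def PLset (m : Measure F) : Prop :=
  ∀ A B : Set F, Convex ℝ A → Convex ℝ B → IsCompact A → IsCompact B → A.Nonempty → B.Nonempty →
    ∀ t : ℝ, 0 ≤ t → t ≤ 1 → m.real A ^ (1 - t) * m.real B ^ t ≤ m.real ((1 - t) • A + t • B)

/-- translations towards the middle hyperplane `{l = 0}` do not lose much measure -/
def TrOK (m : Measure F) (l : F → ℝ) (v : F) (h c₀ : ℝ) : Prop :=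
  ∀ τ : ℝ, 0 ≤ τ → τ ≤ h → ∀ S : Set F, MeasurableSet S →
    (S ⊆ {x | 0 ≤ l x} → c₀ * m.real S ≤ m.real ((fun x => x + τ • v) ⁻¹' S)) ∧
    (S ⊆ {x | l x ≤ 0} → c₀ * m.real S ≤ m.real ((fun x => x + (-τ) • v) ⁻¹' S))

omit [NormedAddCommGroup F] [NormedSpace ℝ F] [BorelSpace F] in
/-- both halves -/
lemma half_half {m : Measure F} [IsFiniteMeasure m] {l : F → ℝ} {B : Set F} {x y : ℝ}
    (h1 : m.real (B ∩ {x | 0 ≤ l x}) ≤ x) (h2 : m.real (B ∩ {x | l x ≤ 0}) ≤ y) :
    m.real B ≤ x + y := by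
  have hsub : B ⊆ (B ∩ {x | 0 ≤ l x}) ∪ (B ∩ {x | l x ≤ 0}) := by
    intro z hz
    rcases le_total 0 (l z) with h | h
    · exact Or.inl ⟨hz, h⟩
    · exact Or.inr ⟨hz, h⟩
  calc m.real B ≤ m.real ((B ∩ {x | 0 ≤ l x}) ∪ (B ∩ {x | l x ≤ 0})) :=
        measureReal_mono hsub (measure_ne_top _ _)
    _ ≤ m.real (B ∩ {x | 0 ≤ l x}) + m.real (B ∩ {x | l x ≤ 0}) := measureReal_union_le _ _
    _ ≤ x + y := add_le_add h1 h2

/-- step (a) -/
lemma step_a {m : Measure F} [IsFiniteMeasure m] {l : F → ℝ} (hl : Measurable l) {v : F}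
    {h c₀ : ℝ} (hh : 0 ≤ h) (hc0 : 0 < c₀) (hTr : TrOK m l v h c₀) {K : Set F}
    (hKc : Convex ℝ K) (hKk : IsCompact K) :
    m.real (Oset K v h 0) - m.real (Oset K v h (h / 2)) ≤
      (1 + 2 / c₀) * (m.real (Oset K v h 0) - m.real K) := by
  have hO0 := (Oset_isCompact hKk v h 0).measurableSet
  have hO1 := (Oset_isCompact hKk v h (h / 2)).measurableSet
  have hKm := hKk.measurableSet
  have hh2 : 0 ≤ h / 2 := by linarith
  have hsub01 : Oset K v h (h / 2) ⊆ Oset K v h 0 := Oset_subset_zero hKc v hh hh2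
  have hsubK : K ⊆ Oset K v h 0 := subset_Oset_zero v hh
  set D := m.real (Oset K v h 0) - m.real K with hD
  have hDeq : m.real (Oset K v h 0 \ K) = D := by
    rw [measureReal_sdiff hsubK hKm]
  set B := K \ Oset K v h (h / 2) with hBdef
  have hBm : MeasurableSet B := hKm.diff hO1
  have hnL : ∀ x ∈ B, x ∉ Long K v (h / 2) := by
    intro x hx hL
    exact hx.2 (zero_inter_Long hKc v hh2 ⟨hsubK hx.1, hL⟩)
  have hB1 : m.real (B ∩ {x | 0 ≤ l x}) ≤ D / c₀ := by
    have hm1 : MeasurableSet (B ∩ {x | 0 ≤ l x}) := hBm.inter (measurableSet_le measurable_const hl)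
    have := (hTr h hh le_rfl _ hm1).1 inter_subset_right
    rw [le_div_iff₀ hc0]
    calc m.real (B ∩ {x | 0 ≤ l x}) * c₀ = c₀ * m.real (B ∩ {x | 0 ≤ l x}) := by ring
      _ ≤ _ := this
      _ ≤ m.real (Oset K v h 0 \ K) := by
          apply measureReal_mono _ (measure_ne_top _ _)
          intro x hx
          have hx1 : x + h • v ∈ B := hx.1
          refine ⟨⟨h, by rw [abs_of_nonneg hh]; linarith, by simpa using hx1.1,
            by simpa using hx1.1⟩, ?_⟩
          intro hxK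
          apply hnL _ hx1
          refine ⟨-(h / 2), ?_, ?_⟩
          · convert hx1.1 using 1; module
          · convert hxK using 1; module
      _ = D := hDeq
  have hB2 : m.real (B ∩ {x | l x ≤ 0}) ≤ D / c₀ := by
    have hm1 : MeasurableSet (B ∩ {x | l x ≤ 0}) := hBm.inter (measurableSet_le hl measurable_const)
    have := (hTr h hh le_rfl _ hm1).2 inter_subset_right
    rw [le_div_iff₀ hc0]
    calc m.real (B ∩ {x | l x ≤ 0}) * c₀ = c₀ * m.real (B ∩ {x | l x ≤ 0}) := by ring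
      _ ≤ _ := this
      _ ≤ m.real (Oset K v h 0 \ K) := by
          apply measureReal_mono _ (measure_ne_top _ _)
          intro x hx
          have hx1 : x + (-h) • v ∈ B := hx.1
          refine ⟨⟨-h, by rw [abs_neg, abs_of_nonneg hh]; linarith, by simpa using hx1.1,
            by simpa using hx1.1⟩, ?_⟩
          intro hxK
          apply hnL _ hx1
          refine ⟨h / 2, ?_, ?_⟩
          · convert hxK using 1; module
          · convert hx1.1 using 1; module
      _ = D := hDeq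
  have hBt : m.real B ≤ D / c₀ + D / c₀ := half_half hB1 hB2
  have hU : Oset K v h 0 \ Oset K v h (h / 2) ⊆ (Oset K v h 0 \ K) ∪ B := by
    intro x hx
    by_cases hxK : x ∈ K
    · exact Or.inr ⟨hxK, hx.2⟩
    · exact Or.inl ⟨hx.1, hxK⟩
  calc m.real (Oset K v h 0) - m.real (Oset K v h (h / 2))
      = m.real (Oset K v h 0 \ Oset K v h (h / 2)) := (measureReal_sdiff hsub01 hO1).symm
    _ ≤ m.real ((Oset K v h 0 \ K) ∪ B) := measureReal_mono hU (measure_ne_top _ _)
    _ ≤ m.real (Oset K v h 0 \ K) + m.real B := measureReal_union_le _ _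
    _ ≤ D + (D / c₀ + D / c₀) := by rw [hDeq]; gcongr
    _ = (1 + 2 / c₀) * D := by ring

/-- step (c): the short fibres have `J` disjoint translates in `Oset 0 \ Oset η` -/
lemma step_c {m : Measure F} [IsFiniteMeasure m] {l : F → ℝ} (hl : Measurable l) {v : F}
    {h η c₀ : ℝ} {J : ℕ} (hη : 0 < η) (hh : h = 2 * J * η) (hc0 : 0 < c₀)
    (hTr : TrOK m l v h c₀) {K : Set F} (hKc : Convex ℝ K) (hKk : IsCompact K) :
    (J : ℝ) * c₀ * m.real (K \ Oset K v 0 η) ≤
      2 * (m.real (Oset K v h 0) - m.real (Oset K v h η)) := by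
  have hh0 : 0 ≤ h := by rw [hh]; positivity
  have hO0 := (Oset_isCompact hKk v h 0).measurableSet
  have hO1 := (Oset_isCompact hKk v h η).measurableSet
  have hO2 := (Oset_isCompact hKk v 0 η).measurableSet
  have hKm := hKk.measurableSet
  have hsub01 : Oset K v h η ⊆ Oset K v h 0 := Oset_subset_zero hKc v hh0 hη.le
  set A := K \ Oset K v 0 η with hAdef
  have hAm : MeasurableSet A := hKm.diff hO2
  have hnL : ∀ x ∈ A, x ∉ Long K v η := by
    intro x hx hL
    apply hx.2
    apply zero_inter_Long hKc v hη.le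
    exact ⟨by rw [Oset_zero_zero]; exact hx.1, hL⟩
  set D := m.real (Oset K v h 0) - m.real (Oset K v h η) with hD
  have hDeq : m.real (Oset K v h 0 \ Oset K v h η) = D := by
    rw [measureReal_sdiff hsub01 hO1]
  -- general statement for the two signs
  have gen : ∀ (σ : ℝ) (S : Set F), |σ| = 1 → MeasurableSet S → S ⊆ A →
      (∀ τ : ℝ, 0 ≤ τ → τ ≤ h → c₀ * m.real S ≤ m.real ((fun x => x + (σ * τ) • v) ⁻¹' S)) →
      (J : ℝ) * c₀ * m.real S ≤ D := by
    intro σ S hσ hS hSA hSt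
    have hσ2 : σ * σ = 1 := by
      rw [← abs_mul_abs_self, hσ]; norm_num
    let T : ℕ → Set F := fun j => (fun x => x + (σ * (2 * η * (j + 1))) • v) ⁻¹' S
    have hTm : ∀ j, MeasurableSet (T j) := fun j => by
      apply hS.preimage
      exact (by fun_prop : Continuous fun x : F => x + (σ * (2 * η * (j + 1))) • v).measurable
    have hTsub : ∀ j ∈ Finset.range J, T j ⊆ Oset K v h 0 \ Oset K v h η := by
      intro j hj x hx
      have hj' : (j : ℝ) + 1 ≤ J := by exact_mod_cast Finset.mem_range.1 hj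
      have hxA : x + (σ * (2 * η * (j + 1))) • v ∈ A := hSA hx
      constructor
      · refine ⟨σ * (2 * η * (j + 1)), ?_, ?_, ?_⟩
        · rw [abs_mul, hσ, one_mul, abs_of_nonneg (by positivity), hh]
          nlinarith
        · simpa using hxA.1
        · simpa using hxA.1
      · intro hx2
        apply hnL _ hxA
        rw [Long_translate]
        exact Oset_subset_Long K v h η hx2
    have hdisj : Set.PairwiseDisjoint (↑(Finset.range J)) T := by
      have key : ∀ i j : ℕ, i < j → Disjoint (T i) (T j) := by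
        intro i j hij
        rw [Set.disjoint_left]
        intro x hxi hxj
        have hxiA : x + (σ * (2 * η * (i + 1))) • v ∈ A := hSA hxi
        have hxjA : x + (σ * (2 * η * (j + 1))) • v ∈ A := hSA hxj
        apply hnL _ hxiA
        rw [Long_translate]
        have hij' : (i : ℝ) + 1 ≤ j := by exact_mod_cast hij
        rcases (abs_eq (by norm_num : (0 : ℝ) ≤ 1)).1 hσ with h1 | h1
        · subst h1
          refine ⟨2 * η * (i + 1) + η, ?_, ?_⟩
          · refine seg_mem hKc (a := 1 * (2 * η * (i + 1))) (b := 1 * (2 * η * (j + 1)))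
              hxiA.1 hxjA.1 ?_ ?_ <;> nlinarith
          · refine seg_mem hKc (a := 1 * (2 * η * (i + 1))) (b := 1 * (2 * η * (j + 1)))
              hxiA.1 hxjA.1 ?_ ?_ <;> nlinarith
        · subst h1
          refine ⟨-(2 * η * (i + 1)) - η, ?_, ?_⟩
          · refine seg_mem hKc (a := -1 * (2 * η * (j + 1))) (b := -1 * (2 * η * (i + 1)))
              hxjA.1 hxiA.1 ?_ ?_ <;> nlinarith
          · refine seg_mem hKc (a := -1 * (2 * η * (j + 1))) (b := -1 * (2 * η * (i + 1)))
              hxjA.1 hxiA.1 ?_ ?_ <;> nlinarith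
      intro i _ j _ hij
      rcases lt_or_gt_of_ne hij with h1 | h1
      · exact key i j h1
      · exact (key j i h1).symm
    have hsum : ∑ j ∈ Finset.range J, m.real (T j) ≤ D := by
      rw [← measureReal_biUnion_finset hdisj (fun j _ => hTm j), ← hDeq]
      exact measureReal_mono (Set.iUnion₂_subset hTsub) (measure_ne_top _ _)
    have hlow : ∀ j ∈ Finset.range J, c₀ * m.real S ≤ m.real (T j) := by
      intro j hj
      have hj' : (j : ℝ) + 1 ≤ J := by exact_mod_cast Finset.mem_range.1 hj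
      apply hSt
      · positivity
      · rw [hh]; nlinarith
    calc (J : ℝ) * c₀ * m.real S = ∑ j ∈ Finset.range J, c₀ * m.real S := by
          rw [Finset.sum_const, Finset.card_range, nsmul_eq_mul]; ring
      _ ≤ ∑ j ∈ Finset.range J, m.real (T j) := Finset.sum_le_sum hlow
      _ ≤ D := hsum
  have g1 : (J : ℝ) * c₀ * m.real (A ∩ {x | 0 ≤ l x}) ≤ D := by
    have hm1 : MeasurableSet (A ∩ {x | 0 ≤ l x}) := hAm.inter (measurableSet_le measurable_const hl)
    apply gen 1 _ (by simp) hm1 inter_subset_left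
    intro τ h0 h1
    simpa using (hTr τ h0 h1 _ hm1).1 inter_subset_right
  have g2 : (J : ℝ) * c₀ * m.real (A ∩ {x | l x ≤ 0}) ≤ D := by
    have hm1 : MeasurableSet (A ∩ {x | l x ≤ 0}) := hAm.inter (measurableSet_le hl measurable_const)
    apply gen (-1) _ (by simp) hm1 inter_subset_left
    intro τ h0 h1
    have := (hTr τ h0 h1 _ hm1).2 inter_subset_right
    simpa using this
  rcases Nat.eq_zero_or_pos J with hJ | hJ
  · have hD0 : 0 ≤ D := by rw [← hDeq]; exact measureReal_nonneg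
    subst hJ
    simp only [Nat.cast_zero, zero_mul]
    linarith
  · have hJ' : (0 : ℝ) < J := by exact_mod_cast hJ
    have hJc : 0 < (J : ℝ) * c₀ := by positivity
    have h1 : m.real (A ∩ {x | 0 ≤ l x}) ≤ D / (J * c₀) := by
      rw [le_div_iff₀ hJc]; linarith
    have h2 : m.real (A ∩ {x | l x ≤ 0}) ≤ D / (J * c₀) := by
      rw [le_div_iff₀ hJc]; linarith
    have h3 := half_half h1 h2
    calc (J : ℝ) * c₀ * m.real A ≤ (J : ℝ) * c₀ * (D / (J * c₀) + D / (J * c₀)) := by gcongr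
      _ = 2 * D := by field_simp; ring

/-- **B1 core.** -/
theorem growth_core {m : Measure F} [IsFiniteMeasure m] (hPL : PLset m) {l : F → ℝ}
    (hl : Measurable l) {v : F} {h η c₀ e : ℝ} {J : ℕ} (hJ : 1 ≤ J) (hη : 0 < η)
    (hh : h = 2 * J * η) (hc0 : 0 < c₀) (hTr : TrOK m l v h c₀) {K : Set F}
    (hKc : Convex ℝ K) (hKk : IsCompact K) (hm : 0 < m.real K)
    (he : (1 + 2 / c₀) * e ≤ 1 / 2)
    (hgrow : m.real (Oset K v h 0) ≤ (1 + e) * m.real K) :
    m.real (K \ Oset K v 0 η) ≤ 4 * (1 + 2 / c₀) / c₀ * (1 + e) * e / (J : ℝ) ^ 2 * m.real K := by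
  have hh0 : 0 ≤ h := by rw [hh]; positivity
  have hJ' : (1 : ℝ) ≤ J := by exact_mod_cast hJ
  have hJ0 : (0 : ℝ) < J := by linarith
  set X := m.real (Oset K v h 0) with hX
  have hKX : m.real K ≤ X := measureReal_mono (subset_Oset_zero v hh0) (measure_ne_top _ _)
  have hX0 : 0 < X := lt_of_lt_of_le hm hKX
  have he0 : 0 ≤ e := by
    by_contra hneg
    push Not at hneg
    nlinarith
  set u := (1 + 2 / c₀) * e with hu
  have hu0 : 0 ≤ u := by positivity
  have ha := step_a hl hh0 hc0 hTr hKc hKk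
  have hXe : X - m.real K ≤ e * X := by nlinarith
  have hY : X * (1 - u) ≤ m.real (Oset K v h (h / 2)) := by
    have : (1 + 2 / c₀) * (X - m.real K) ≤ (1 + 2 / c₀) * (e * X) := by gcongr
    have h2 : (1 + 2 / c₀) * (e * X) = u * X := by rw [hu]; ring
    linarith
  have h1u : (0 : ℝ) ≤ 1 - u := by linarith
  have hY0 : 0 < m.real (Oset K v h (h / 2)) := lt_of_lt_of_le (by nlinarith) hY
  -- PL
  have hne : ∀ S : Set F, 0 < m.real S → S.Nonempty := by
    intro S hS
    by_contra hcon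
    rw [Set.not_nonempty_iff_eq_empty] at hcon
    simp [hcon] at hS
  have ht0 : (0 : ℝ) ≤ 1 / J := by positivity
  have ht1 : 1 / (J : ℝ) ≤ 1 := by rw [div_le_one hJ0]; exact hJ'
  have hpl := hPL (Oset K v h 0) (Oset K v h (h / 2)) (Oset_isConvex hKc v h 0)
    (Oset_isConvex hKc v h (h / 2)) (Oset_isCompact hKk v h 0) (Oset_isCompact hKk v h (h / 2))
    (hne _ hX0) (hne _ hY0) (1 / J) ht0 ht1
  have hsub : (1 - 1 / (J : ℝ)) • Oset K v h 0 + (1 / (J : ℝ)) • Oset K v h (h / 2) ⊆
      Oset K v h η := by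
    have := Oset_convex hKc v h 0 (h / 2) (1 / J) ht0 ht1
    have e1 : (1 - 1 / (J : ℝ)) * 0 + 1 / J * (h / 2) = η := by rw [hh]; field_simp; ring
    rwa [e1] at this
  have hO : X * (1 - 2 * u / J) ≤ m.real (Oset K v h η) := by
    calc X * (1 - 2 * u / J) ≤ X * (1 - u) ^ (1 / (J : ℝ)) := by
          gcongr
          exact one_sub_rpow_ge hu0 he hJ
      _ = X ^ (1 - 1 / (J : ℝ)) * (X * (1 - u)) ^ (1 / (J : ℝ)) := by
          rw [Real.mul_rpow hX0.le h1u, ← mul_assoc, ← Real.rpow_add hX0]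
          simp
      _ ≤ X ^ (1 - 1 / (J : ℝ)) * (m.real (Oset K v h (h / 2))) ^ (1 / (J : ℝ)) := by
          gcongr
      _ ≤ _ := hpl
      _ ≤ _ := measureReal_mono hsub (measure_ne_top _ _)
  have hc := step_c hl hη hh hc0 hTr hKc hKk
  have hfin : (J : ℝ) * c₀ * m.real (K \ Oset K v 0 η) ≤ 2 * (X * (2 * u / J)) := by
    refine hc.trans ?_
    have : X - m.real (Oset K v h η) ≤ X * (2 * u / J) := by linarith
    linarith
  have hJc : 0 < (J : ℝ) * c₀ := by positivity
  have h4 : m.real (K \ Oset K v 0 η) ≤ (4 * u / (J ^ 2 * c₀)) * X := by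
    rw [← mul_le_mul_iff_right₀ hJc]
    calc (J : ℝ) * c₀ * m.real (K \ Oset K v 0 η) ≤ 2 * (X * (2 * u / J)) := hfin
      _ = (J : ℝ) * c₀ * ((4 * u / (J ^ 2 * c₀)) * X) := by field_simp; ring
  calc m.real (K \ Oset K v 0 η) ≤ (4 * u / (J ^ 2 * c₀)) * X := h4
    _ ≤ (4 * u / (J ^ 2 * c₀)) * ((1 + e) * m.real K) := by gcongr
    _ = _ := by rw [hu]; field_simp

end Crest.Agent.R239.GC925
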