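import Crest.Agent.R239.InsCut_488
import Crest.Agent.R239.Cmp_142

/-! R239 block F3 (helper488): the level measure of the inserted flag against the old one, from (CMP). -/

set_option autoImplicit false
set_option linter.unusedSectionVars false
open Submodule MeasureTheory ProbabilityTheory Set
open scoped RealInnerProductSpace

namespace Crest.Agent.R239.Ins488

open Crest.Agent.R239.Ins556

variable {E : Type*} [NormedAddCommGroup E] [InnerProductSpace ℝ E] [FiniteDimensional ℝ E]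
  [MeasurableSpace E] [BorelSpace E]

lemma inner_Hc (M : ℕ → Submodule ℝ E) (c : ℝ) (n i : ℕ) (x y : E) :
    ⟪Hc M c n i x, y⟫ = ⟪x, Hc M c n i y⟫ := by
  rw [Hc_apply, Hc_apply, sum_inner, inner_sum]
  refine Finset.sum_congr rfl fun j _ => ?_
  rw [inner_smul_left, inner_smul_right, inner_Qp_left]
  simp

lemma norm_Hc_le {M : ℕ → Submodule ℝ E} (hM : Antitone M) {c : ℝ} (h0 : 0 ≤ c) (h1 : c ≤ 1)
    {n i : ℕ} (hin : i ≤ n) (x : E) : ‖Hc M c n i x‖ ≤ ‖x‖ := by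
  have e1 : ‖Hc M c n i x‖ ^ 2 ≤ ∑ j ∈ Finset.Ico i n, ‖Qp M j x‖ ^ 2 := by
    rw [norm_sq_Hc hM]
    refine Finset.sum_le_sum fun j _ => ?_
    have h2 : (c ^ 2) ^ (j - i) ≤ 1 := pow_le_one₀ (by positivity) (pow_le_one₀ h0 h1)
    have h3 := sq_nonneg ‖Qp M j x‖
    nlinarith
  have e2 : ∀ m, i ≤ m → ∑ j ∈ Finset.Ico i m, ‖Qp M j x‖ ^ 2 =
      ‖(M i).starProjection x‖ ^ 2 - ‖(M m).starProjection x‖ ^ 2 := by
    intro m hm
    induction m, hm using Nat.le_induction with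
    | base => simp
    | succ m hm ih => rw [Finset.sum_Ico_succ_top hm, ih, norm_sq_Qp hM]; ring
  rw [e2 n hin] at e1
  have e3 : ‖(M i).starProjection x‖ ^ 2 ≤ ‖x‖ ^ 2 :=
    pow_le_pow_left₀ (norm_nonneg _) (norm_starProjection_apply_le _ _) 2
  have e4 : ‖Hc M c n i x‖ ^ 2 ≤ ‖x‖ ^ 2 := by
    nlinarith [sq_nonneg ‖(M n).starProjection x‖]
  exact (sq_le_sq₀ (norm_nonneg _) (norm_nonneg _)).mp e4

/-- **(B2)** -/
theorem ins_measure {M : ℕ → Submodule ℝ E} (hM : Antitone M) (v : E)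
    {n i I : ℕ} (hi : i ≤ I) (hI : I < n) (hn : M n = ⊥) {th : ℝ} (h0 : 0 < th) (h1 : th ≤ 1)
    {K : Set E} (hc : Convex ℝ K) (hK : IsClosed K) (hs : ∀ x ∈ K, -x ∈ K) :
    Real.exp (-(((th ^ 2)⁻¹) ^ (I - i) - 1) / 2) *
      (stdGaussian E).real {g | Hc (insM M v I) th n i g ∈ K} ≤
      (stdGaussian E).real {g | Hc M th n i g ∈ K} := by
  have hin : i ≤ n := hi.trans hI.le
  have hM' : Antitone (insM M v I) := insM_antitone hM v I
  have hn' : insM M v I n = ⊥ := insM_bot hI hn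
  have hth0 : th ≠ 0 := h0.ne'
  set c := th⁻¹ with hcdef
  have hc0 : 0 < c := inv_pos.mpr h0
  have hc1 : 1 ≤ c := (one_le_inv₀ h0).mpr h1
  have hc2 : 1 ≤ c ^ 2 := one_le_pow₀ hc1
  have hwt : ∀ j ∈ Finset.Ioc i I, 0 ≤ (c ^ 2) ^ (j - i) - (c ^ 2) ^ (j - i - 1) := by
    intro j hj
    have : (c ^ 2) ^ (j - i - 1) ≤ (c ^ 2) ^ (j - i) := pow_le_pow_right₀ hc2 (by omega)
    linarith
  set H := Hc M th n i with hH
  set H' := Hc (insM M v I) th n i with hH'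
  set R : E →L[ℝ] E := (Hc (insM M v I) c n i).comp H with hR
  set a : ℕ → E := fun j => Real.sqrt ((c ^ 2) ^ (j - i) - (c ^ 2) ^ (j - i - 1)) •
    H (nn (M j) v) with ha
  have hnorm : ∀ g, ‖R g‖ ^ 2 ≤ ‖g‖ ^ 2 + ∑ j ∈ Finset.Ioc i I, ⟪a j, g⟫ ^ 2 := by
    intro g
    have hx : H g ∈ M i := Hc_mem hM th n i g
    have e1 : ‖R g‖ ^ 2 = ‖Hc M c n i (H g)‖ ^ 2 + ∑ j ∈ Finset.Ioc i I,
        ((c ^ 2) ^ (j - i) - (c ^ 2) ^ (j - i - 1)) * ⟪nn (M j) v, H g⟫ ^ 2 :=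
      ins_form hM v (c := c) hi hI hx
    rw [e1]
    have e2 : ‖Hc M c n i (H g)‖ ^ 2 ≤ ‖g‖ ^ 2 := norm_sq_HcHc_le hM hth0 hin hn g
    have e3 : ∑ j ∈ Finset.Ioc i I, ((c ^ 2) ^ (j - i) - (c ^ 2) ^ (j - i - 1)) *
        ⟪nn (M j) v, H g⟫ ^ 2 = ∑ j ∈ Finset.Ioc i I, ⟪a j, g⟫ ^ 2 := by
      refine Finset.sum_congr rfl fun j hj => ?_
      rw [ha]
      simp only
      rw [inner_smul_left, mul_pow, hH, inner_Hc]
      simp only [conj_trivial]
      rw [Real.sq_sqrt (hwt j hj)]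
    linarith
  have htot : ∑ j ∈ Finset.Ioc i I, ‖a j‖ ^ 2 ≤ ((th ^ 2)⁻¹) ^ (I - i) - 1 := by
    have e1 : ∀ j ∈ Finset.Ioc i I, ‖a j‖ ^ 2 ≤ (c ^ 2) ^ (j - i) - (c ^ 2) ^ (j - i - 1) := by
      intro j hj
      rw [ha]
      simp only
      rw [norm_smul, mul_pow, Real.norm_eq_abs, sq_abs, Real.sq_sqrt (hwt j hj)]
      have h2 : ‖H (nn (M j) v)‖ ≤ 1 :=
        (norm_Hc_le hM h0.le h1 hin _).trans (norm_nn_le (M j) v)
      have h3 : ‖H (nn (M j) v)‖ ^ 2 ≤ 1 := pow_le_one₀ (norm_nonneg _) h2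
      nlinarith [hwt j hj]
    refine (Finset.sum_le_sum e1).trans ?_
    rw [sum_weights hi, hcdef, inv_pow]
  have hK0c : IsClosed {g | H' g ∈ K} := hK.preimage H'.continuous
  have hK0v : Convex ℝ {g | H' g ∈ K} := hc.is_linear_preimage H'.toLinearMap.isLinear
  have hK0s : ∀ x ∈ {g | H' g ∈ K}, -x ∈ {g | H' g ∈ K} := by
    intro x hx
    show H' (-x) ∈ K
    rw [map_neg]
    exact hs _ hx
  have hmain := Cmp142.cmp_sum_real hK0c.measurableSet hK0v hK0s (Finset.Ioc i I) R a hnorm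
  have hset : R ⁻¹' {g | H' g ∈ K} = {g | H g ∈ K} := by
    ext g
    have hx : H g ∈ insM M v I i := le_insM M v I i (Hc_mem hM th n i g)
    have : H' (R g) = H g := Hc_Hc_inv hM' hth0 hin hn' hx
    show H' (R g) ∈ K ↔ H g ∈ K
    rw [this]
  rw [hset] at hmain
  refine le_trans ?_ hmain
  refine mul_le_mul_of_nonneg_right ?_ measureReal_nonneg
  apply Real.exp_le_exp.mpr
  linarith

end Crest.Agent.R239.Ins488
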