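import Crest.Agent.R239.FDef
import Crest.Agent.R239.InsCmp_488

/-! R239 block F3 (helper488): FDef forms of the cap cut and of the level comparison. -/

set_option autoImplicit false
set_option linter.unusedSectionVars false
open Submodule MeasureTheory ProbabilityTheory Set
open scoped RealInnerProductSpace

namespace Crest.Agent.R239.Ins488

open Crest.Agent.R239.Ins556 Crest.Agent.R239.FD

variable {E : Type*} [NormedAddCommGroup E] [InnerProductSpace ℝ E] [FiniteDimensional ℝ E]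
  [MeasurableSpace E] [BorelSpace E]

lemma th_pos : 0 < th := by norm_num [th]
lemma th_le_one : th ≤ 1 := by norm_num [th]
lemma th_ne : th ≠ 0 := th_pos.ne'

omit [MeasurableSpace E] [BorelSpace E] in
lemma proj_congr {S T : Submodule ℝ E} (h : S = T) : S.starProjection = T.starProjection := by
  subst h; rfl

omit [MeasurableSpace E] [BorelSpace E] in
lemma Q_eq (V : Flag E) (j : ℕ) : V.Q j = Qp V.M j := rfl

omit [MeasurableSpace E] [BorelSpace E] in
lemma H_eq (V : Flag E) (i : ℕ) : V.H i = Hc V.M th V.n i := rfl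

omit [MeasurableSpace E] [BorelSpace E] in
lemma k_cast (V : Flag E) (j : ℕ) :
    (V.k j : ℝ) = (Module.finrank ℝ ↥(V.M j) : ℝ) - (Module.finrank ℝ ↥(V.M (j + 1)) : ℝ) := by
  unfold Flag.k
  exact Nat.cast_sub (Submodule.finrank_mono (V.anti (Nat.le_succ j)))

omit [MeasurableSpace E] [BorelSpace E] in
lemma H_mem (V : Flag E) (i : ℕ) (x : E) : V.H i x ∈ V.M i := Hc_mem V.anti th V.n i x

omit [MeasurableSpace E] [BorelSpace E] in
lemma Q_eq_zero_of_le (V : Flag E) {j : ℕ} (h : V.n ≤ j) : V.Q j = 0 := by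
  unfold Flag.Q Flag.P
  rw [proj_congr (V.bot j h), proj_congr (V.bot (j + 1) (h.trans (Nat.le_succ j))), sub_self]

/-- sums over `Ico i m`, `m ≥ n`, of block terms do not depend on `m`. -/
lemma sum_ext_n {α : Type*} [AddCommMonoid α] (f : ℕ → α) {i n m : ℕ} (hnm : n ≤ m)
    (h0 : ∀ j, n ≤ j → f j = 0) : ∑ j ∈ Finset.Ico i m, f j = ∑ j ∈ Finset.Ico i n, f j := by
  symm
  apply Finset.sum_subset
  · intro j hj
    rw [Finset.mem_Ico] at hj ⊢
    omega
  · intro j hj hj'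
    rw [Finset.mem_Ico] at hj hj'
    exact h0 j (by omega)

omit [MeasurableSpace E] [BorelSpace E] in
lemma H_eq_of_le (V : Flag E) (i : ℕ) {m : ℕ} (hm : V.n ≤ m) : V.H i = Hc V.M th m i := by
  rw [H_eq]
  unfold Hc
  symm
  apply sum_ext_n _ hm
  intro j hj
  rw [← Q_eq, Q_eq_zero_of_le V hj, smul_zero]

omit [MeasurableSpace E] [BorelSpace E] in
/-- the level operator only depends on the subspaces `M j`, `j ≥ i`. -/
lemma H_congr {V V' : Flag E} {i : ℕ} (h : ∀ j, i ≤ j → V'.M j = V.M j) : V'.H i = V.H i := by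
  rw [H_eq_of_le V i (le_max_left V.n V'.n), H_eq_of_le V' i (le_max_right V.n V'.n)]
  unfold Hc
  refine Finset.sum_congr rfl fun j hj => ?_
  have hij := (Finset.mem_Ico.mp hj).1
  have : Qp V'.M j = Qp V.M j := by
    unfold Qp
    rw [proj_congr (h j hij), proj_congr (h (j + 1) (hij.trans (Nat.le_succ j)))]
  rw [this]

omit [MeasurableSpace E] [BorelSpace E] in
lemma k_eq_zero_of_le (V : Flag E) {j : ℕ} (h : V.n ≤ j) : V.k j = 0 := by
  unfold Flag.k
  rw [V.bot j h]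
  simp

omit [MeasurableSpace E] [BorelSpace E] in
lemma rr_congr {V V' : Flag E} {i : ℕ} (h : ∀ j, i ≤ j → V'.M j = V.M j) : V'.rr i = V.rr i := by
  unfold Flag.rr
  rw [← sum_ext_n (fun j => th ^ (j - i) * (V.k j : ℝ)) (le_max_left V.n V'.n)
    (fun j hj => by rw [k_eq_zero_of_le V hj]; simp)]
  rw [← sum_ext_n (fun j => th ^ (j - i) * (V'.k j : ℝ)) (le_max_right V.n V'.n)
    (fun j hj => by rw [k_eq_zero_of_le V' hj]; simp)]
  refine Finset.sum_congr rfl fun j hj => ?_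
  have hij := (Finset.mem_Ico.mp hj).1
  unfold Flag.k
  rw [h j hij, h (j + 1) (hij.trans (Nat.le_succ j))]

omit [MeasurableSpace E] [BorelSpace E] in
lemma N_congr {V V' : Flag E} {i : ℕ} (h : ∀ j, i ≤ j → V'.M j = V.M j) (x : E) :
    V'.N i x = V.N i x := by
  unfold Flag.N
  rw [← sum_ext_n (fun j => (th⁻¹) ^ (j - i) * ‖V.Q j x‖ ^ 2) (le_max_left V.n V'.n)
    (fun j hj => by rw [Q_eq_zero_of_le V hj]; simp)]
  rw [← sum_ext_n (fun j => (th⁻¹) ^ (j - i) * ‖V'.Q j x‖ ^ 2) (le_max_right V.n V'.n)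
    (fun j hj => by rw [Q_eq_zero_of_le V' hj]; simp)]
  refine Finset.sum_congr rfl fun j hj => ?_
  have hij := (Finset.mem_Ico.mp hj).1
  have : V'.Q j = V.Q j := by
    unfold Flag.Q Flag.P
    rw [proj_congr (h j hij), proj_congr (h (j + 1) (hij.trans (Nat.le_succ j)))]
  rw [this]

omit [MeasurableSpace E] [BorelSpace E] in
lemma cap_congr {V V' : Flag E} {i : ℕ} (h : ∀ j, i ≤ j → V'.M j = V.M j) (rho : ℝ) :
    V'.cap rho i = V.cap rho i := by
  ext x
  show (x ∈ V'.M i ∧ _ ≤ _) ↔ (x ∈ V.M i ∧ _ ≤ _)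
  rw [h i le_rfl, N_congr h, rr_congr h]

/-- `D` at level `i` only depends on the subspaces `M j`, `j ≥ i`. -/
lemma D_congr (p : Par) {V V' : Flag E} {i : ℕ} (h : ∀ j, i ≤ j → V'.M j = V.M j)
    (μ : Multiset E) : D p V' i μ = D p V i μ := by
  unfold D val Adm
  rw [H_congr h, cap_congr h]

/-! ### structure of the caps -/

omit [MeasurableSpace E] [BorelSpace E] in
lemma N_eq_sq (V : Flag E) (i : ℕ) (x : E) :
    V.N i x = ‖Hc V.M (Real.sqrt th⁻¹) V.n i x‖ ^ 2 := by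
  rw [norm_sq_Hc V.anti, Real.sq_sqrt (inv_pos.mpr th_pos).le]
  rfl

omit [MeasurableSpace E] [BorelSpace E] in
lemma rr_nonneg (V : Flag E) (i : ℕ) : 0 ≤ V.rr i :=
  Finset.sum_nonneg fun _ _ => mul_nonneg (pow_nonneg th_pos.le _) (Nat.cast_nonneg _)

omit [MeasurableSpace E] [BorelSpace E] in
lemma isClosed_cap (V : Flag E) (rho : ℝ) (i : ℕ) : IsClosed (V.cap rho i) := by
  have h1 : IsClosed (V.M i : Set E) := Submodule.closed_of_finiteDimensional _
  have h2 : IsClosed {x : E | V.N i x ≤ rho ^ 2 * V.rr i} := by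
    simp_rw [N_eq_sq]
    exact isClosed_le (by fun_prop) continuous_const
  exact h1.inter h2

omit [MeasurableSpace E] [BorelSpace E] in
lemma convex_cap (V : Flag E) (rho : ℝ) (i : ℕ) : Convex ℝ (V.cap rho i) := by
  have h1 : Convex ℝ (V.M i : Set E) := (V.M i).convex
  have h2 : Convex ℝ {x : E | V.N i x ≤ rho ^ 2 * V.rr i} := by
    have hr : 0 ≤ rho ^ 2 * V.rr i := mul_nonneg (sq_nonneg _) (rr_nonneg V i)
    have : {x : E | V.N i x ≤ rho ^ 2 * V.rr i} =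
        (Hc V.M (Real.sqrt th⁻¹) V.n i : E → E) ⁻¹'
          Metric.closedBall 0 (Real.sqrt (rho ^ 2 * V.rr i)) := by
      ext x
      show V.N i x ≤ _ ↔ _ ∈ Metric.closedBall (0 : E) _
      rw [N_eq_sq, mem_closedBall_zero_iff]
      exact (Real.le_sqrt (norm_nonneg _) hr).symm
    rw [this]
    exact (convex_closedBall (0 : E) _).is_linear_preimage
      (Hc V.M (Real.sqrt th⁻¹) V.n i).toLinearMap.isLinear
  exact h1.inter h2

omit [MeasurableSpace E] [BorelSpace E] in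
lemma neg_mem_cap (V : Flag E) (rho : ℝ) (i : ℕ) : ∀ x ∈ V.cap rho i, -x ∈ V.cap rho i := by
  intro x hx
  refine ⟨Submodule.neg_mem _ hx.1, ?_⟩
  have h := hx.2
  rw [N_eq_sq] at h ⊢
  rwa [map_neg, norm_neg]

/-- **cap cut** over FDef: one Markov cut per level. -/
theorem cut_cap (V : Flag E) (i : ℕ) {rho : ℝ} (hrho : 0 < rho) {K : Set E} (hc : Convex ℝ K)
    (hK : MeasurableSet K) (hs : ∀ x ∈ K, -x ∈ K) :
    (1 - 1 / rho ^ 2) * (gau (V.H i)).real K ≤ (gau (V.H i)).real (K ∩ V.cap rho i) := by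
  have h := cut_ell V.anti th_pos hrho V.n i hc hK hs
  rw [gau_real_apply _ hK, gau_real_apply _ (hK.inter (isClosed_cap V rho i).measurableSet)]
  refine h.trans (le_of_eq ?_)
  congr 1
  ext g
  show (_ ∧ _) ↔ (_ ∧ (_ ∧ _))
  refine and_congr Iff.rfl ?_
  constructor
  · intro h1
    refine ⟨H_mem V i g, ?_⟩
    have e : V.rr i = ∑ j ∈ Finset.Ico i V.n, th ^ (j - i) *
        ((Module.finrank ℝ ↥(V.M j) : ℝ) - (Module.finrank ℝ ↥(V.M (j + 1)) : ℝ)) := by
      unfold Flag.rr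
      exact Finset.sum_congr rfl fun j _ => by rw [k_cast]
    rw [e]
    exact h1
  · intro h1
    have h2 := h1.2
    have e : V.rr i = ∑ j ∈ Finset.Ico i V.n, th ^ (j - i) *
        ((Module.finrank ℝ ↥(V.M j) : ℝ) - (Module.finrank ℝ ↥(V.M (j + 1)) : ℝ)) := by
      unfold Flag.rr
      exact Finset.sum_congr rfl fun j _ => by rw [k_cast]
    rw [e] at h2
    exact h2

/-- **level comparison** of the inserted flag over FDef. -/
theorem ins_gau {V V' : Flag E} {v : E} {I i : ℕ} (hgt : ∀ j, I < j → V'.M j = V.M j)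
    (hle : ∀ j, j ≤ I → V'.M j = V.M j ⊔ Submodule.span ℝ {v}) (hi : i ≤ I)
    {K : Set E} (hc : Convex ℝ K) (hK : IsClosed K) (hs : ∀ x ∈ K, -x ∈ K) :
    Real.exp (-(((th ^ 2)⁻¹) ^ (I - i) - 1) / 2) * (gau (V'.H i)).real K ≤
      (gau (V.H i)).real K := by
  set m := max (max V.n V'.n) (I + 1) with hm
  have hm1 : V.n ≤ m := (le_max_left _ _).trans (le_max_left _ _)
  have hm2 : V'.n ≤ m := (le_max_right _ _).trans (le_max_left _ _)
  have hm3 : I < m := Nat.lt_of_lt_of_le (Nat.lt_succ_self I) (le_max_right _ _)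
  have hM' : V'.M = insM V.M v I := by
    funext j
    by_cases hj : j ≤ I
    · rw [hle j hj, insM_le hj]
    · rw [hgt j (not_le.mp hj), insM_gt (not_le.mp hj)]
  have h := ins_measure V.anti v hi hm3 (V.bot m hm1) th_pos th_le_one hc hK hs
  rw [gau_real_apply _ hK.measurableSet, gau_real_apply _ hK.measurableSet,
    H_eq_of_le V i hm1, H_eq_of_le V' i hm2, hM']
  exact h

/-! ### elementary facts on `hs`, `val`, `D` -/

omit [MeasurableSpace E] [BorelSpace E] in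
lemma norm_sq_le_N (V : Flag E) {i : ℕ} {x : E} (hx : x ∈ V.M i) : ‖x‖ ^ 2 ≤ V.N i x := by
  rcases le_or_gt i V.n with hi | hi
  · have h1 : ‖(V.M i).starProjection x‖ ^ 2 = ∑ j ∈ Finset.Ico i V.n, ‖Qp V.M j x‖ ^ 2 := by
      rw [← sum_Qp hi (V.bot V.n le_rfl) x, norm_sq_sum_orth]
      intro j _ k _ hjk
      exact inner_Qp_Qp_ne V.anti hjk x x
    rw [Submodule.starProjection_eq_self_iff.mpr hx] at h1
    rw [h1]
    unfold Flag.N
    refine Finset.sum_le_sum fun j _ => ?_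
    have h2 : 1 ≤ (th⁻¹) ^ (j - i) := one_le_pow₀ ((one_le_inv₀ th_pos).mpr th_le_one)
    have h3 : 0 ≤ ‖V.Q j x‖ ^ 2 := sq_nonneg _
    show ‖V.Q j x‖ ^ 2 ≤ (th⁻¹) ^ (j - i) * ‖V.Q j x‖ ^ 2
    nlinarith
  · rw [V.bot i hi.le, Submodule.mem_bot] at hx
    subst hx
    unfold Flag.N
    rw [Finset.Ico_eq_empty_of_le hi.le]
    simp

omit [MeasurableSpace E] [BorelSpace E] in
lemma norm_le_of_mem_cap (V : Flag E) {rho : ℝ} {i : ℕ} {x : E} (hx : x ∈ V.cap rho i) :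
    ‖x‖ ≤ Real.sqrt (rho ^ 2 * V.rr i) := by
  have h := (norm_sq_le_N V hx.1).trans hx.2
  exact (Real.le_sqrt (norm_nonneg _) (mul_nonneg (sq_nonneg _) (rr_nonneg V i))).mpr h

omit [MeasurableSpace E] [BorelSpace E] in
lemma bdd_inner (V : Flag E) {rho : ℝ} {i : ℕ} {K : Set E} (hK : K ⊆ V.cap rho i) (z : E) :
    BddAbove ((fun x : E => ⟪x, z⟫) '' K) := by
  refine ⟨Real.sqrt (rho ^ 2 * V.rr i) * ‖z‖, ?_⟩
  rintro _ ⟨x, hx, rfl⟩
  calc ⟪x, z⟫ ≤ ‖x‖ * ‖z‖ := real_inner_le_norm x z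
    _ ≤ _ := mul_le_mul_of_nonneg_right (norm_le_of_mem_cap V (hK hx)) (norm_nonneg z)

omit [FiniteDimensional ℝ E] [MeasurableSpace E] [BorelSpace E] in
lemma hs_mono' {K K' : Set E} (hne : K.Nonempty) (h : K ⊆ K') (z : E)
    (hb : BddAbove ((fun x : E => ⟪x, z⟫) '' K')) : hs K z ≤ hs K' z :=
  csSup_le_csSup hb (hne.image _) (image_mono h)

omit [FiniteDimensional ℝ E] [MeasurableSpace E] [BorelSpace E] in
lemma Eh_mono' {K K' : Set E} (hne : K.Nonempty) (h : K ⊆ K') (μ : Multiset E)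
    (hb : ∀ z, BddAbove ((fun x : E => ⟪x, z⟫) '' K')) : Eh K μ ≤ Eh K' μ := by
  unfold Eh
  exact Multiset.sum_map_le_sum_map _ _ fun z _ => hs_mono' hne h z (hb z)

omit [FiniteDimensional ℝ E] [MeasurableSpace E] [BorelSpace E] in
lemma zero_mem_of {K : Set E} (hne : K.Nonempty) (hc : Convex ℝ K) (hs : ∀ x ∈ K, -x ∈ K) :
    (0 : E) ∈ K := by
  obtain ⟨x, hx⟩ := hne
  have h := hc hx (hs x hx) (by norm_num : (0 : ℝ) ≤ 1 / 2) (by norm_num : (0 : ℝ) ≤ 1 / 2)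
    (by norm_num)
  simpa using h

omit [FiniteDimensional ℝ E] [MeasurableSpace E] [BorelSpace E] in
lemma hs_nonneg' {K : Set E} (h0 : (0 : E) ∈ K) (z : E)
    (hb : BddAbove ((fun x : E => ⟪x, z⟫) '' K)) : 0 ≤ hs K z :=
  le_csSup hb ⟨0, h0, by simp⟩

omit [FiniteDimensional ℝ E] [MeasurableSpace E] [BorelSpace E] in
lemma Eh_nonneg' {K : Set E} (h0 : (0 : E) ∈ K) (μ : Multiset E)
    (hb : ∀ z, BddAbove ((fun x : E => ⟪x, z⟫) '' K)) : 0 ≤ Eh K μ := by
  unfold Eh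
  refine Multiset.sum_nonneg fun a ha => ?_
  obtain ⟨z, _, rfl⟩ := Multiset.mem_map.mp ha
  exact hs_nonneg' h0 z (hb z)

lemma Adm.nonempty' {p : Par} {V : Flag E} {i : ℕ} {K : Set E} (h : Adm p V i K) : K.Nonempty := by
  rw [nonempty_iff_ne_empty]
  rintro rfl
  have := h.2.2.2.2
  simp at this

lemma gau_real_le_one (A : E →L[ℝ] E) (K : Set E) : (gau A).real K ≤ 1 := by
  have : IsProbabilityMeasure (gau A) := inferInstance
  exact measureReal_le_one

lemma lam_pos {p : Par} (hp : p.Ok) (i : ℕ) : 0 < p.lam i :=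
  mul_pos hp.tau_pos (pow_pos (by linarith [hp.A_ge]) _)

lemma val_nonneg {p : Par} (hp : p.Ok) {V : Flag E} {i : ℕ} {K : Set E} (h : Adm p V i K)
    (μ : Multiset E) : 0 ≤ val p V i μ K := by
  unfold val
  have h1 : 0 ≤ Eh K μ := Eh_nonneg' (zero_mem_of (Adm.nonempty' h) h.2.1 h.2.2.1) μ
    fun z => bdd_inner V h.2.2.2.1 z
  have h2 : Real.log ((gau (V.H i)).real K) ≤ 0 :=
    Real.log_nonpos measureReal_nonneg (gau_real_le_one _ _)
  have h3 := (lam_pos hp i)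
  nlinarith

lemma bddBelow_val {p : Par} (hp : p.Ok) (V : Flag E) (i : ℕ) (μ : Multiset E) :
    BddBelow (val p V i μ '' {K | Adm p V i K}) := by
  refine ⟨0, ?_⟩
  rintro _ ⟨K, hK, rfl⟩
  exact val_nonneg hp hK μ

lemma D_le_val {p : Par} (hp : p.Ok) {V : Flag E} {i : ℕ} {K : Set E} (h : Adm p V i K)
    (μ : Multiset E) : D p V i μ ≤ val p V i μ K :=
  csInf_le (bddBelow_val hp V i μ) ⟨K, h, rfl⟩

lemma one_sub_pos {p : Par} (hp : p.Ok) : 0 < 1 - 1 / p.rho ^ 2 := by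
  have h1 : (256 : ℝ) ≤ p.rho ^ 2 := by nlinarith [hp.rho_ge]
  have h2 : 1 / p.rho ^ 2 ≤ 1 / 256 := one_div_le_one_div_of_le (by norm_num) h1
  linarith

lemma adm_cap {p : Par} (hp : p.Ok) (V : Flag E) (i : ℕ) : Adm p V i (V.cap p.rho i) := by
  refine ⟨isClosed_cap V _ i, convex_cap V _ i, neg_mem_cap V _ i, Subset.rfl, ?_⟩
  have hrho : 0 < p.rho := by linarith [hp.rho_ge]
  have h := cut_cap V i hrho convex_univ MeasurableSet.univ (fun x _ => mem_univ (-x))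
  rw [univ_inter] at h
  have h1 : (gau (V.H i)).real univ = 1 := by
    have : IsProbabilityMeasure (gau (V.H i)) := inferInstance
    exact probReal_univ
  rw [h1, mul_one] at h
  exact lt_of_lt_of_le (one_sub_pos hp) h

lemma log_one_sub_ge {p : Par} (hp : p.Ok) : -(2 / p.rho ^ 2) ≤ Real.log (1 - 1 / p.rho ^ 2) := by
  have h1 : (256 : ℝ) ≤ p.rho ^ 2 := by nlinarith [hp.rho_ge]
  have h2 : 1 / p.rho ^ 2 ≤ 1 / 256 := one_div_le_one_div_of_le (by norm_num) h1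
  have h0 : 0 < 1 / p.rho ^ 2 := by positivity
  set x := 1 / p.rho ^ 2 with hx
  have hpos : 0 < 1 - x := by linarith
  have h3 : 1 - (1 - x)⁻¹ ≤ Real.log (1 - x) := Real.one_sub_inv_le_log_of_pos hpos
  have h4 : (1 - x)⁻¹ ≤ 1 + 2 * x := by
    rw [inv_le_iff_one_le_mul₀ hpos]
    nlinarith
  have h5 : 2 / p.rho ^ 2 = 2 * x := by rw [hx]; ring
  rw [h5]
  linarith

/-- **(B4)** level inequality of the insertion step. -/
theorem lev_ins {p : Par} (hp : p.Ok) (V V' : Flag E) (v : E) (I : ℕ)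
    (hM : V'.M = insM V.M v I) (μ : Multiset E) {i : ℕ} (hi : i ≤ I) :
    D p V i μ - p.lam i * ((((th⁻¹ ^ 2) ^ (I - i) - 1) / 2) + 2 / p.rho ^ 2) ≤ D p V' i μ := by
  have hgt : ∀ j, I < j → V'.M j = V.M j := fun j hj => by rw [hM, insM_gt hj]
  have hle : ∀ j, j ≤ I → V'.M j = V.M j ⊔ Submodule.span ℝ {v} := fun j hj => by
    rw [hM, insM_le hj]
  have hrho : 0 < p.rho := by linarith [hp.rho_ge]
  refine le_csInf ⟨_, ⟨_, adm_cap hp V' i, rfl⟩⟩ ?_
  rintro _ ⟨K', hK', rfl⟩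
  have hK : K' ∩ V.cap p.rho i ⊆ K' := inter_subset_left
  set K := K' ∩ V.cap p.rho i with hKdef
  have h1 := ins_gau hgt hle hi hK'.2.1 hK'.1 hK'.2.2.1
  have h2 := cut_cap V i hrho hK'.2.1 hK'.1.measurableSet hK'.2.2.1
  rw [← hKdef] at h2
  set e := Real.exp (-(((th ^ 2)⁻¹) ^ (I - i) - 1) / 2) with he
  have he0 : 0 < e := Real.exp_pos _
  have hg' : 0 < (gau (V'.H i)).real K' := hK'.2.2.2.2
  have hg : 0 < (gau (V.H i)).real K' := lt_of_lt_of_le (mul_pos he0 hg') h1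
  have hgK : 0 < (gau (V.H i)).real K := lt_of_lt_of_le (mul_pos (one_sub_pos hp) hg) h2
  have hadm : Adm p V i K := by
    refine ⟨hK'.1.inter (isClosed_cap V _ i), hK'.2.1.inter (convex_cap V _ i), ?_,
      inter_subset_right, hgK⟩
    intro x hx
    exact ⟨hK'.2.2.1 x hx.1, neg_mem_cap V _ i x hx.2⟩
  have h3 := D_le_val hp hadm μ
  have h4 : Eh K μ ≤ Eh K' μ := Eh_mono' (Adm.nonempty' hadm) hK μ
    fun z => bdd_inner V' hK'.2.2.2.1 z
  have h5 : Real.log ((gau (V'.H i)).real K') - (((th⁻¹ ^ 2) ^ (I - i) - 1) / 2)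
      - 2 / p.rho ^ 2 ≤ Real.log ((gau (V.H i)).real K) := by
    have h6 : Real.log ((1 - 1 / p.rho ^ 2) * (e * (gau (V'.H i)).real K')) ≤
        Real.log ((gau (V.H i)).real K) := by
      apply Real.log_le_log (mul_pos (one_sub_pos hp) (mul_pos he0 hg'))
      exact le_trans (mul_le_mul_of_nonneg_left h1 (one_sub_pos hp).le) h2
    rw [Real.log_mul (one_sub_pos hp).ne' (mul_pos he0 hg').ne', Real.log_mul he0.ne' hg'.ne', he,
      Real.log_exp] at h6
    have h7 := log_one_sub_ge hp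
    have h8 : (th ^ 2)⁻¹ = th⁻¹ ^ 2 := (inv_pow th 2).symm
    rw [h8] at h6
    linarith
  have h9 := (lam_pos hp i)
  have h10 := mul_le_mul_of_nonneg_left h5 h9.le
  unfold val at h3 ⊢
  linarith

end Crest.Agent.R239.Ins488
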