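import Crest.Agent.R239.InsF_488

/-! R239 (helper488): near-optimal bodies. -/

set_option autoImplicit false
open MeasureTheory ProbabilityTheory Set

namespace Crest.Agent.R239.Ins488

open Crest.Agent.R239.FD

variable {E : Type*} [NormedAddCommGroup E] [InnerProductSpace ℝ E] [FiniteDimensional ℝ E]
  [MeasurableSpace E] [BorelSpace E]

theorem exists_nearOpt {p : Par} (hp : p.Ok) (V : Flag E) (i : ℕ) (μ : Multiset E) {sl : ℝ}
    (hsl : 0 < sl) : ∃ K, NearOpt p V i μ K sl := by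
  have hne : (val p V i μ '' {K | Adm p V i K}).Nonempty := ⟨_, ⟨_, adm_cap hp V i, rfl⟩⟩
  have hlt : sInf (val p V i μ '' {K | Adm p V i K}) < D p V i μ + sl := by
    show D p V i μ < D p V i μ + sl
    linarith
  obtain ⟨_, ⟨K, hK, rfl⟩, h⟩ := exists_lt_of_csInf_lt hne hlt
  exact ⟨K, hK, h.le⟩

theorem D_nonneg {p : Par} (hp : p.Ok) (V : Flag E) (i : ℕ) (μ : Multiset E) :
    0 ≤ D p V i μ := by
  have hne : (val p V i μ '' {K | Adm p V i K}).Nonempty := ⟨_, ⟨_, adm_cap hp V i, rfl⟩⟩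
  refine le_csInf hne ?_
  rintro _ ⟨K, hK, rfl⟩
  exact val_nonneg hp hK μ

/-- lower bounds of `D` are checked on admissible bodies. -/
theorem le_D {p : Par} (hp : p.Ok) (V : Flag E) (i : ℕ) (μ : Multiset E) {c : ℝ}
    (h : ∀ K, Adm p V i K → c ≤ val p V i μ K) : c ≤ D p V i μ := by
  have hne : (val p V i μ '' {K | Adm p V i K}).Nonempty := ⟨_, ⟨_, adm_cap hp V i, rfl⟩⟩
  refine le_csInf hne ?_
  rintro _ ⟨K, hK, rfl⟩
  exact h K hK

end Crest.Agent.R239.Ins488
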