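import Mathlib

/-! R239 / S0370, block L12 (insertion), part 1: linear algebra of `M ⊔ ℝ ∙ v` (helper556). -/

set_option autoImplicit false
set_option linter.unusedSectionVars false
open Submodule
open scoped RealInnerProductSpace

namespace Crest.Agent.R239.Ins556

variable {E : Type*} [NormedAddCommGroup E] [InnerProductSpace ℝ E] [FiniteDimensional ℝ E]

/-- normalised component of `v` orthogonal to `M` (zero if `v ∈ M`). -/
noncomputable def nn (M : Submodule ℝ E) (v : E) : E :=
  ‖v - M.starProjection v‖⁻¹ • (v - M.starProjection v)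

lemma nn_mem_orth (M : Submodule ℝ E) (v : E) : nn M v ∈ Mᗮ :=
  Submodule.smul_mem _ _ (sub_starProjection_mem_orthogonal v)

lemma nn_mem_sup (M : Submodule ℝ E) (v : E) : nn M v ∈ M ⊔ ℝ ∙ v := by
  refine Submodule.smul_mem _ _ (Submodule.sub_mem _ ?_ ?_)
  · exact (le_sup_right : ℝ ∙ v ≤ M ⊔ ℝ ∙ v) (Submodule.mem_span_singleton_self v)
  · exact (le_sup_left : M ≤ M ⊔ ℝ ∙ v) (starProjection_apply_mem M v)

lemma nn_eq_zero {M : Submodule ℝ E} {v : E} (h : v ∈ M) : nn M v = 0 := by
  have : M.starProjection v = v := starProjection_eq_self_iff.2 h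
  simp [nn, this]

lemma norm_nn {M : Submodule ℝ E} {v : E} (h : v ∉ M) : ‖nn M v‖ = 1 := by
  have h1 : v - M.starProjection v ≠ 0 := by
    intro h0
    apply h
    have : M.starProjection v = v := (sub_eq_zero.1 h0).symm
    exact starProjection_eq_self_iff.1 this
  unfold nn
  rw [norm_smul, norm_inv, norm_norm]
  exact inv_mul_cancel₀ (norm_ne_zero_iff.2 h1)

lemma norm_nn_le (M : Submodule ℝ E) (v : E) : ‖nn M v‖ ≤ 1 := by
  by_cases h : v ∈ M
  · simp [nn_eq_zero h]
  · exact (norm_nn h).le

lemma starProjection_sup (M : Submodule ℝ E) (v x : E) :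
    (M ⊔ ℝ ∙ v).starProjection x = M.starProjection x + ⟪nn M v, x⟫ • nn M v := by
  apply eq_starProjection_of_mem_orthogonal
  · exact Submodule.add_mem _ ((le_sup_left : M ≤ M ⊔ ℝ ∙ v) (starProjection_apply_mem M x))
      (Submodule.smul_mem _ _ (nn_mem_sup M v))
  · rw [Submodule.mem_orthogonal]
    intro y hy
    rw [Submodule.mem_sup] at hy
    obtain ⟨a, ha, b, hb, rfl⟩ := hy
    obtain ⟨c, rfl⟩ := Submodule.mem_span_singleton.1 hb
    have hn := nn_mem_orth M v
    have h1 : ⟪a, nn M v⟫ = 0 := (Submodule.mem_orthogonal _ _).1 hn a ha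
    have h2 : ⟪a, x - M.starProjection x⟫ = 0 :=
      (Submodule.mem_orthogonal _ _).1 (sub_starProjection_mem_orthogonal x) a ha
    -- `v = P v + r • n`
    have hv : v = M.starProjection v + ‖v - M.starProjection v‖ • nn M v := by
      unfold nn
      by_cases h0 : v - M.starProjection v = 0
      · rw [h0]; simp only [norm_zero, smul_zero, add_zero]
        exact sub_eq_zero.1 h0
      · rw [smul_smul, mul_inv_cancel₀ (norm_ne_zero_iff.2 h0), one_smul]
        abel
    have h3 : ⟪M.starProjection v, x - M.starProjection x⟫ = 0 :=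
      (Submodule.mem_orthogonal _ _).1 (sub_starProjection_mem_orthogonal x) _
        (starProjection_apply_mem M v)
    have h4 : ⟪M.starProjection v, nn M v⟫ = 0 :=
      (Submodule.mem_orthogonal _ _).1 hn _ (starProjection_apply_mem M v)
    have h5 : ⟪nn M v, M.starProjection x⟫ = 0 := by
      rw [real_inner_comm]
      exact (Submodule.mem_orthogonal _ _).1 hn _ (starProjection_apply_mem M x)
    have key : ⟪v, x - (M.starProjection x + ⟪nn M v, x⟫ • nn M v)⟫ = 0 := by
      have e : x - (M.starProjection x + ⟪nn M v, x⟫ • nn M v)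
          = (x - M.starProjection x) - ⟪nn M v, x⟫ • nn M v := by abel
      have gen : ∀ w : E, w = M.starProjection v + ‖v - M.starProjection v‖ • nn M v →
          ⟪w, x - (M.starProjection x + ⟪nn M v, x⟫ • nn M v)⟫ = 0 := by
        intro w hw
        rw [e, hw, inner_sub_right, inner_add_left, inner_add_left, inner_smul_left,
          inner_smul_left, inner_smul_right, inner_smul_right, h3, h4, inner_sub_right, h5]
        simp only [conj_trivial]
        by_cases h : v ∈ M
        · simp [nn_eq_zero h]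
        · have : ⟪nn M v, nn M v⟫ = 1 := by
            rw [real_inner_self_eq_norm_sq, norm_nn h]; norm_num
          rw [this]; ring
      exact gen v hv
    rw [inner_add_left, inner_smul_left, key]
    have e : x - (M.starProjection x + ⟪nn M v, x⟫ • nn M v)
          = (x - M.starProjection x) - ⟪nn M v, x⟫ • nn M v := by abel
    rw [e, inner_sub_right, h2, inner_smul_right, h1]
    simp

lemma inner_proj_nn (M : Submodule ℝ E) (v x : E) : ⟪M.starProjection x, nn M v⟫ = 0 :=
  (Submodule.mem_orthogonal _ _).1 (nn_mem_orth M v) _ (starProjection_apply_mem M x)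

lemma norm_sq_starProjection_sup (M : Submodule ℝ E) (v x : E) :
    ‖(M ⊔ ℝ ∙ v).starProjection x‖ ^ 2 = ‖M.starProjection x‖ ^ 2 + ⟪nn M v, x⟫ ^ 2 := by
  rw [starProjection_sup, norm_add_sq_real, inner_smul_right, inner_proj_nn, norm_smul]
  by_cases h : v ∈ M
  · simp [nn_eq_zero h]
  · rw [norm_nn h]
    simp [Real.norm_eq_abs, sq_abs]

lemma finrank_sup (M : Submodule ℝ E) (v : E) [Decidable (v ∈ M)] :
    Module.finrank ℝ ↥(M ⊔ ℝ ∙ v) = Module.finrank ℝ ↥M + (if v ∈ M then 0 else 1) := by
  split_ifs with h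
  · have : M ⊔ ℝ ∙ v = M := by
      rw [sup_eq_left, Submodule.span_singleton_le_iff_mem]; exact h
    rw [this]; simp
  · have h1 := Submodule.finrank_sup_add_finrank_inf_eq M (ℝ ∙ v)
    have hv : v ≠ 0 := by rintro rfl; exact h (Submodule.zero_mem _)
    have h2 : M ⊓ ℝ ∙ v = ⊥ := by
      rw [← disjoint_iff, Submodule.disjoint_span_singleton' hv]
      exact h
    rw [h2, finrank_bot, finrank_span_singleton hv] at h1
    simpa using h1

/-- The inserted flag. -/
noncomputable def insM (M : ℕ → Submodule ℝ E) (v : E) (I : ℕ) (i : ℕ) : Submodule ℝ E :=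
  if i ≤ I then M i ⊔ ℝ ∙ v else M i

lemma insM_le {M : ℕ → Submodule ℝ E} {v : E} {I i : ℕ} (h : i ≤ I) :
    insM M v I i = M i ⊔ ℝ ∙ v := if_pos h

lemma insM_gt {M : ℕ → Submodule ℝ E} {v : E} {I i : ℕ} (h : I < i) :
    insM M v I i = M i := if_neg (not_le.2 h)

lemma le_insM (M : ℕ → Submodule ℝ E) (v : E) (I i : ℕ) : M i ≤ insM M v I i := by
  unfold insM; split_ifs
  · exact le_sup_left
  · exact le_rfl

lemma insM_antitone {M : ℕ → Submodule ℝ E} (hM : Antitone M) (v : E) (I : ℕ) :
    Antitone (insM M v I) := by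
  intro i j hij
  by_cases hj : j ≤ I
  · rw [insM_le hj, insM_le (hij.trans hj)]
    exact sup_le_sup_right (hM hij) _
  · rw [insM_gt (not_le.1 hj)]
    exact (hM hij).trans (le_insM M v I i)

lemma insM_bot {M : ℕ → Submodule ℝ E} {v : E} {I N : ℕ} (hI : I < N) (hN : M N = ⊥) :
    insM M v I N = ⊥ := by rw [insM_gt hI, hN]

/-- penalty of the inserted flag (real form, one dimension at level `I`). -/
lemma pen_ins {M : ℕ → Submodule ℝ E} (hM : Antitone M) (v : E) {I N : ℕ} (lam : ℕ → ℝ)
    (hl : ∀ i, 0 ≤ lam i) (hI : I < N) :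
    ∑ j ∈ Finset.range N, lam j * ((Module.finrank ℝ ↥(insM M v I j) : ℝ)
        - (Module.finrank ℝ ↥(insM M v I (j + 1)) : ℝ))
      ≤ ∑ j ∈ Finset.range N, lam j * ((Module.finrank ℝ ↥(M j) : ℝ)
        - (Module.finrank ℝ ↥(M (j + 1)) : ℝ)) + lam I := by
  classical
  have hd : ∀ j, (Module.finrank ℝ ↥(insM M v I j) : ℝ)
      = (Module.finrank ℝ ↥(M j) : ℝ) + (if j ≤ I ∧ v ∉ M j then 1 else 0) := by
    intro j
    by_cases hj : j ≤ I
    · rw [insM_le hj, finrank_sup]
      by_cases hv : v ∈ M j <;> simp [hj, hv]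
    · rw [insM_gt (not_le.1 hj)]
      simp [hj]
  have h1 : ∑ j ∈ Finset.range N, lam j * ((if j = I then (1 : ℝ) else 0)) = lam I := by
    simp [Finset.sum_ite_eq', hI]
  calc ∑ j ∈ Finset.range N, lam j * ((Module.finrank ℝ ↥(insM M v I j) : ℝ)
        - (Module.finrank ℝ ↥(insM M v I (j + 1)) : ℝ))
      ≤ ∑ j ∈ Finset.range N, (lam j * ((Module.finrank ℝ ↥(M j) : ℝ)
        - (Module.finrank ℝ ↥(M (j + 1)) : ℝ)) + lam j * ((if j = I then (1 : ℝ) else 0))) := by
        apply Finset.sum_le_sum
        intro j _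
        rw [← mul_add]
        apply mul_le_mul_of_nonneg_left _ (hl j)
        rw [hd, hd]
        have hmono : v ∈ M (j + 1) → v ∈ M j := fun h => hM (Nat.le_succ j) h
        by_cases h1 : j = I
        · subst h1
          by_cases hv : v ∈ M j
          · simp [hv]
          · simp only [le_refl, hv, not_false_eq_true, and_self, ↓reduceIte, add_le_iff_nonpos_right,
              Nat.not_succ_le_self, false_and, Nat.succ_eq_add_one, add_zero]
            linarith
        · by_cases h2 : j < I
          · have h3 : j ≤ I := h2.le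
            have h4 : j + 1 ≤ I := h2
            by_cases hv : v ∈ M j
            · by_cases hv' : v ∈ M (j + 1)
              · simp [hv, hv', h1, h3, h4]
              · simp only [h3, hv, not_true_eq_false, and_false, ↓reduceIte, add_zero, h4, hv',
                  not_false_eq_true, and_self, h1]
                linarith
            · have hv' : v ∉ M (j + 1) := fun h => hv (hmono h)
              simp [hv, hv', h1, h3, h4]
          · have h3 : ¬ j ≤ I := fun h => h2 (lt_of_le_of_ne h h1)
            have h4 : ¬ j + 1 ≤ I := fun h => h2 h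
            simp [h1, h3, h4]
    _ = _ := by rw [Finset.sum_add_distrib, h1]

lemma starProjection_trans {M K : Submodule ℝ E} (h : K ≤ M) (x : E) :
    K.starProjection x = K.starProjection (M.starProjection x) := by
  have h1 := starProjection_comp_starProjection_of_le h
  have h2 := congrArg (fun f => f x) h1
  simpa using h2.symm

/-- the level form of the inserted flag on `M i ⊔ ℝ ∙ v`. -/
lemma form_ins {M : ℕ → Submodule ℝ E} (hM : Antitone M) (v : E) {i I N : ℕ} (w : ℕ → ℝ)
    (hi : i ≤ I) (hI : I ≤ N) {x : E} (hx : x ∈ insM M v I i) :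
    ‖x‖ ^ 2 + ∑ j ∈ Finset.Ioc i N, w j * ‖(insM M v I j).starProjection x‖ ^ 2
      = (‖(M i).starProjection x‖ ^ 2
          + ∑ j ∈ Finset.Ioc i N, w j * ‖(M j).starProjection ((M i).starProjection x)‖ ^ 2)
        + ⟪nn (M i) v, x⟫ ^ 2 + ∑ j ∈ Finset.Ioc i I, w j * ⟪nn (M j) v, x⟫ ^ 2 := by
  have h0 : ‖x‖ ^ 2 = ‖(M i).starProjection x‖ ^ 2 + ⟪nn (M i) v, x⟫ ^ 2 := by
    rw [insM_le hi] at hx
    rw [← norm_sq_starProjection_sup, starProjection_eq_self_iff.2 hx]
  have h1 : ∑ j ∈ Finset.Ioc i N, w j * ‖(insM M v I j).starProjection x‖ ^ 2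
      = ∑ j ∈ Finset.Ioc i N, w j * ‖(M j).starProjection ((M i).starProjection x)‖ ^ 2
        + ∑ j ∈ Finset.Ioc i I, w j * ⟪nn (M j) v, x⟫ ^ 2 := by
    have h2 : ∑ j ∈ Finset.Ioc i I, w j * ⟪nn (M j) v, x⟫ ^ 2
        = ∑ j ∈ Finset.Ioc i N, (if j ≤ I then w j * ⟪nn (M j) v, x⟫ ^ 2 else 0) := by
      rw [← Finset.sum_filter]
      apply Finset.sum_congr _ (fun _ _ => rfl)
      ext j
      simp only [Finset.mem_Ioc, Finset.mem_filter]
      omega
    rw [h2, ← Finset.sum_add_distrib]
    apply Finset.sum_congr rfl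
    intro j hj
    have hij : i ≤ j := (Finset.mem_Ioc.1 hj).1.le
    rw [← starProjection_trans (hM hij)]
    by_cases hjI : j ≤ I
    · rw [insM_le hjI, norm_sq_starProjection_sup, if_pos hjI]; ring
    · rw [insM_gt (not_le.1 hjI), if_neg hjI]; ring
  rw [h1, h0]; ring

end Crest.Agent.R239.Ins556
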