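import Crest.Agent.R239.Ins_556b

/-! R239 / S0370, block F3 (insertion), part 3: the geometric sums over levels (helper556). -/

set_option autoImplicit false
set_option linter.unusedSectionVars false
set_option linter.unusedVariables false
open Submodule
open scoped RealInnerProductSpace

namespace Crest.Agent.R239.Ins556

lemma geo_T {lam : ℕ → ℝ} {A a : ℝ} (hA : 2 * a ≤ A) (hA0 : 0 < A) (ha : 0 ≤ a)
    (hl : ∀ i, lam (i + 1) = A * lam i) (h0 : ∀ i, 0 ≤ lam i) (I : ℕ) :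
    ∑ i ∈ Finset.range (I + 1), lam i * a ^ (I - i) ≤ 2 * lam I := by
  induction I with
  | zero => simp; linarith [h0 0]
  | succ I ih =>
    rw [Finset.sum_range_succ]
    have h1 : ∑ i ∈ Finset.range (I + 1), lam i * a ^ (I + 1 - i)
        = a * ∑ i ∈ Finset.range (I + 1), lam i * a ^ (I - i) := by
      rw [Finset.mul_sum]
      apply Finset.sum_congr rfl
      intro i hi
      have : I + 1 - i = (I - i) + 1 := by have := Finset.mem_range.1 hi; omega
      rw [this, pow_succ]; ring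
    rw [h1, Nat.sub_self, pow_zero, mul_one]
    have h2 : a * ∑ i ∈ Finset.range (I + 1), lam i * a ^ (I - i) ≤ a * (2 * lam I) :=
      mul_le_mul_of_nonneg_left ih ha
    have h3 : a * (2 * lam I) ≤ lam (I + 1) := by
      rw [hl]; nlinarith [h0 I]
    linarith

/-- exponent costs -/
lemma geo_exp {lam : ℕ → ℝ} {A a : ℝ} (hA : 2 * a ≤ A) (hA0 : 0 < A) (ha : 0 ≤ a)
    (hl : ∀ i, lam (i + 1) = A * lam i) (h0 : ∀ i, 0 ≤ lam i) (I : ℕ) :
    ∑ i ∈ Finset.range (I + 1), lam i * ((a ^ (I - i) - 1) / 2) ≤ (a / A) * lam I := by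
  rw [Finset.sum_range_succ, Nat.sub_self, pow_zero, sub_self, zero_div, mul_zero, add_zero]
  cases I with
  | zero => simp; exact mul_nonneg (div_nonneg ha hA0.le) (h0 0)
  | succ I =>
    have h1 : ∑ i ∈ Finset.range (I + 1), lam i * ((a ^ (I + 1 - i) - 1) / 2)
        ≤ ∑ i ∈ Finset.range (I + 1), (a / 2) * (lam i * a ^ (I - i)) := by
      apply Finset.sum_le_sum
      intro i hi
      have : I + 1 - i = (I - i) + 1 := by have := Finset.mem_range.1 hi; omega
      rw [this, pow_succ]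
      nlinarith [h0 i]
    rw [← Finset.mul_sum] at h1
    have h2 := geo_T hA hA0 ha hl h0 I
    have h3 : (a / 2) * ∑ i ∈ Finset.range (I + 1), lam i * a ^ (I - i) ≤ (a / 2) * (2 * lam I) :=
      mul_le_mul_of_nonneg_left h2 (by linarith)
    have h4 : (a / 2) * (2 * lam I) = (a / A) * lam (I + 1) := by
      rw [hl]; field_simp
    linarith

/-- cut costs -/
lemma geo_cut {lam : ℕ → ℝ} {A : ℝ} (hA : 2 ≤ A)
    (hl : ∀ i, lam (i + 1) = A * lam i) (h0 : ∀ i, 0 ≤ lam i) (I : ℕ) :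
    ∑ i ∈ Finset.range (I + 1), lam i * ((I + 1 - i : ℕ) : ℝ) ≤ 4 * lam I := by
  have hs : ∀ I, ∑ i ∈ Finset.range (I + 1), lam i ≤ 2 * lam I := by
    intro I
    have := geo_T (a := 1) (by linarith) (by linarith) zero_le_one hl h0 I
    simpa using this
  induction I with
  | zero => simp; linarith [h0 0]
  | succ I ih =>
    rw [Finset.sum_range_succ]
    have h1 : ∑ i ∈ Finset.range (I + 1), lam i * ((I + 1 + 1 - i : ℕ) : ℝ)
        = ∑ i ∈ Finset.range (I + 1), lam i * ((I + 1 - i : ℕ) : ℝ)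
          + ∑ i ∈ Finset.range (I + 1), lam i := by
      rw [← Finset.sum_add_distrib]
      apply Finset.sum_congr rfl
      intro i hi
      have : I + 1 + 1 - i = (I + 1 - i) + 1 := by have := Finset.mem_range.1 hi; omega
      rw [this]; push_cast; ring
    rw [h1]
    have h2 := hs I
    have h3 : I + 1 + 1 - (I + 1) = 1 := by omega
    rw [h3, hl]
    push_cast
    nlinarith [h0 I]

section ext

variable {E : Type*} [NormedAddCommGroup E] [InnerProductSpace ℝ E] [FiniteDimensional ℝ E]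

lemma bot_of_ge {M : ℕ → Submodule ℝ E} (hM : Antitone M) {n j : ℕ} (hn : M n = ⊥) (h : n ≤ j) :
    M j = ⊥ := le_bot_iff.1 (hn ▸ hM h)

lemma Qp_eq_zero {M : ℕ → Submodule ℝ E} (hM : Antitone M) {n j : ℕ} (hn : M n = ⊥)
    (h : n ≤ j) : Qp M j = 0 := by
  ext x
  rw [Qp_apply, bot_of_ge hM hn h, bot_of_ge hM hn (h.trans (Nat.le_succ j))]
  simp

/-- the operators do not depend on the length of the flag -/
lemma Hc_ext {M : ℕ → Submodule ℝ E} (hM : Antitone M) (c : ℝ) {n n' i : ℕ} (hn : M n = ⊥)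
    (h : n ≤ n') : Hc M c n' i = Hc M c n i := by
  unfold Hc
  symm
  apply Finset.sum_subset
  · intro j hj
    rw [Finset.mem_Ico] at hj ⊢
    exact ⟨hj.1, hj.2.trans_le h⟩
  · intro j hj hj'
    have : n ≤ j := by
      rw [Finset.mem_Ico] at hj hj'
      by_contra h'
      exact hj' ⟨hj.1, not_le.1 h'⟩
    rw [Qp_eq_zero hM hn this, smul_zero]

lemma Qp_insM_gt {M : ℕ → Submodule ℝ E} {v : E} {I j : ℕ} (h : I < j) :
    Qp (insM M v I) j = Qp M j := by
  ext x
  rw [Qp_apply, Qp_apply, insM_gt h, insM_gt (h.trans (Nat.lt_succ_self j))]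

lemma Hc_insM_gt {M : ℕ → Submodule ℝ E} {v : E} {c : ℝ} {n I i : ℕ} (h : I < i) :
    Hc (insM M v I) c n i = Hc M c n i := by
  unfold Hc
  apply Finset.sum_congr rfl
  intro j hj
  rw [Qp_insM_gt (h.trans_le (Finset.mem_Ico.1 hj).1)]

lemma norm_Hc_le {M : ℕ → Submodule ℝ E} (hM : Antitone M) {c : ℝ} (hc : |c| ≤ 1) {n i : ℕ}
    (hin : i ≤ n) (hn : M n = ⊥) (x : E) : ‖Hc M c n i x‖ ≤ ‖x‖ := by
  have h1 : ‖Hc M c n i x‖ ^ 2 ≤ ‖x‖ ^ 2 := by
    rw [norm_sq_Hc hM]
    calc ∑ j ∈ Finset.Ico i n, (c ^ 2) ^ (j - i) * ‖Qp M j x‖ ^ 2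
        ≤ ∑ j ∈ Finset.Ico i n, ‖Qp M j x‖ ^ 2 := by
          apply Finset.sum_le_sum
          intro j _
          have h2 : (c ^ 2) ^ (j - i) ≤ 1 := by
            apply pow_le_one₀ (sq_nonneg c)
            rw [← sq_abs]
            exact pow_le_one₀ (abs_nonneg c) hc
          nlinarith [sq_nonneg ‖Qp M j x‖]
      _ = ‖∑ j ∈ Finset.Ico i n, Qp M j x‖ ^ 2 := by
          rw [norm_sq_sum_orth]
          intro j _ k _ hjk
          exact inner_Qp_Qp_ne hM hjk x x
      _ ≤ ‖x‖ ^ 2 := by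
          rw [sum_Qp hin hn]
          exact pow_le_pow_left₀ (norm_nonneg _) (norm_starProjection_apply_le _ _) 2
  exact (pow_le_pow_iff_left₀ (norm_nonneg _) (norm_nonneg _) two_ne_zero).1 h1

lemma inner_Hc_left (M : ℕ → Submodule ℝ E) (c : ℝ) (n i : ℕ) (x y : E) :
    ⟪Hc M c n i x, y⟫ = ⟪x, Hc M c n i y⟫ := by
  rw [Hc_apply, Hc_apply, sum_inner, inner_sum]
  apply Finset.sum_congr rfl
  intro j _
  rw [inner_smul_left, inner_smul_right, inner_Qp_left]
  simp

end ext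

end Crest.Agent.R239.Ins556
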