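import Crest.Agent.R239.FDef
import Crest.Agent.R239.Gau4
import Crest.Agent.R239.Ins_556c

/-! R239 / S0370, block F3 (insertion), part 4: one cut over FDef (helper556). -/

set_option autoImplicit false
set_option linter.unusedSectionVars false
set_option linter.unusedVariables false
open MeasureTheory ProbabilityTheory Submodule
open scoped RealInnerProductSpace

namespace Crest.Agent.R239.Ins556

open Crest.Agent.R239 (gau)
open Crest.Agent.R239.FD

variable {E : Type*} [NormedAddCommGroup E] [InnerProductSpace ℝ E] [FiniteDimensional ℝ E]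
  [MeasurableSpace E] [BorelSpace E]

omit [FiniteDimensional ℝ E] [MeasurableSpace E] [BorelSpace E] in
lemma th_pos : 0 < th := by unfold th; norm_num

omit [FiniteDimensional ℝ E] [MeasurableSpace E] [BorelSpace E] in
lemma th_lt : th < 1 := by unfold th; norm_num

lemma Q_eq (V : Flag E) (j : ℕ) : V.Q j = Qp V.M j := rfl
lemma H_eq (V : Flag E) (i : ℕ) : V.H i = Hc V.M th V.n i := rfl
lemma Hi_eq (V : Flag E) (i : ℕ) : V.Hi i = Hc V.M th⁻¹ V.n i := rfl

lemma integrable_inner_sq (n : E) : Integrable (fun x => ⟪n, x⟫ ^ 2) (stdGaussian E) := by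
  have h := (IsGaussian.memLp_dual (stdGaussian E) (innerSL ℝ n) 2 (by simp)).integrable_sq
  simpa using h

lemma integral_inner_sq (n : E) : ∫ x, ⟪n, x⟫ ^ 2 ∂(stdGaussian E) = ‖n‖ ^ 2 := by
  have h := integral_norm_sq_gau (ContinuousLinearMap.id ℝ E) n
  rw [gau_id] at h
  simpa using h

lemma norm_sq_proj_eq (M : Submodule ℝ E) (x : E) :
    ‖M.starProjection x‖ ^ 2
      = ∑ k, ⟪((stdOrthonormalBasis ℝ M k : M) : E), x⟫ ^ 2 := by
  have h1 : ‖M.starProjection x‖ ^ 2 = ‖M.orthogonalProjectionOnto x‖ ^ 2 := rfl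
  rw [h1, ← (stdOrthonormalBasis ℝ M).sum_sq_inner_right]
  apply Finset.sum_congr rfl
  intro k _
  congr 1
  exact inner_orthogonalProjectionOnto_eq_of_mem_left _ _

lemma integrable_norm_sq_proj (M : Submodule ℝ E) :
    Integrable (fun g => ‖M.starProjection g‖ ^ 2) (stdGaussian E) := by
  simp_rw [norm_sq_proj_eq]
  exact integrable_finsetSum _ fun i _ => integrable_inner_sq _

lemma integral_norm_sq_proj (M : Submodule ℝ E) :
    ∫ g, ‖M.starProjection g‖ ^ 2 ∂(stdGaussian E) = (Module.finrank ℝ M : ℝ) := by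
  simp_rw [norm_sq_proj_eq]
  rw [integral_finsetSum _ fun i _ => integrable_inner_sq _]
  simp_rw [integral_inner_sq]
  have : ∀ k, ‖((stdOrthonormalBasis ℝ M k : M) : E)‖ ^ 2 = 1 := by
    intro k
    have := (stdOrthonormalBasis ℝ M).orthonormal.1 k
    have h2 : ‖((stdOrthonormalBasis ℝ M k : M) : E)‖ = 1 := this
    rw [h2]; norm_num
  simp [this]

lemma integrable_norm_sq_Qp {M : ℕ → Submodule ℝ E} (hM : Antitone M) (j : ℕ) :
    Integrable (fun g => ‖Qp M j g‖ ^ 2) (stdGaussian E) := by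
  simp_rw [norm_sq_Qp hM]
  exact (integrable_norm_sq_proj _).sub (integrable_norm_sq_proj _)

lemma integral_norm_sq_Qp {M : ℕ → Submodule ℝ E} (hM : Antitone M) (j : ℕ) :
    ∫ g, ‖Qp M j g‖ ^ 2 ∂(stdGaussian E)
      = ((Module.finrank ℝ (M j) - Module.finrank ℝ (M (j + 1)) : ℕ) : ℝ) := by
  simp_rw [norm_sq_Qp hM]
  rw [integral_sub (integrable_norm_sq_proj _) (integrable_norm_sq_proj _),
    integral_norm_sq_proj, integral_norm_sq_proj,
    Nat.cast_sub (Submodule.finrank_mono (hM (Nat.le_succ j)))]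

/-- `P_j H_i = Σ_{l ≥ j} th^(l-i) Q_l` for `j ≥ i` -/
lemma norm_sq_P_Hc {M : ℕ → Submodule ℝ E} (hM : Antitone M) (c : ℝ) {n i j : ℕ}
    (hij : i ≤ j) (x : E) :
    ‖(M j).starProjection (Hc M c n i x)‖ ^ 2
      = ∑ l ∈ Finset.Ico j n, (c ^ 2) ^ (l - i) * ‖Qp M l x‖ ^ 2 := by
  have h1 : (M j).starProjection (Hc M c n i x)
      = ∑ l ∈ Finset.Ico j n, (c ^ (l - i)) • Qp M l x := by
    rw [Hc_apply, map_sum]
    symm
    apply Finset.sum_subset_zero_on_sdiff
    · intro l hl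
      rw [Finset.mem_Ico] at hl ⊢
      exact ⟨hij.trans hl.1, hl.2⟩
    · intro l hl
      rw [Finset.mem_sdiff, Finset.mem_Ico, Finset.mem_Ico] at hl
      have hlj : l < j := by
        by_contra h
        exact hl.2 ⟨not_lt.1 h, hl.1.2⟩
      rw [map_smul, Qp_apply, map_sub, proj_proj_le hM hlj.le,
        proj_proj_le hM (by omega : l + 1 ≤ j), sub_self, smul_zero]
    · intro l hl
      rw [map_smul, proj_Qp_le hM (Finset.mem_Ico.1 hl).1]
  rw [h1, norm_sq_sum_orth]
  · apply Finset.sum_congr rfl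
    intro l _
    rw [norm_smul, mul_pow, Real.norm_eq_abs, sq_abs, ← pow_mul, ← pow_mul, mul_comm 2 (l - i)]
  · intro l _ k _ hlk
    rw [inner_smul_left, inner_smul_right, inner_Qp_Qp_ne hM hlk]
    simp

/-- cutting a symmetric convex body by `‖B x‖ ≤ r` -/
lemma cut_one (hD : P_DOM E) {K : Set E} (mK : MeasurableSet K) (cK : Convex ℝ K)
    (sK : ∀ x ∈ K, -x ∈ K) (B : E →L[ℝ] E) {r e : ℝ} (hr : 0 < r)
    (hI : Integrable (fun g => ‖B g‖ ^ 2) (stdGaussian E))
    (he : ∫ g, ‖B g‖ ^ 2 ∂(stdGaussian E) ≤ e * r ^ 2) :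
    (1 - e) * (stdGaussian E).real K ≤ (stdGaussian E).real (K ∩ {x | ‖B x‖ ≤ r}) := by
  have hT : ∀ g, ⟪(B.adjoint ∘L B) g, g⟫ = ‖B g‖ ^ 2 := by
    intro g
    rw [ContinuousLinearMap.comp_apply, ContinuousLinearMap.adjoint_inner_left,
      real_inner_self_eq_norm_sq]
  have h1 := hD (B.adjoint ∘L B) (ContinuousLinearMap.isPositive_adjoint_comp_self B) K mK cK sK
  simp_rw [hT] at h1
  have mS : MeasurableSet {x : E | ‖B x‖ ≤ r} := by
    exact measurableSet_le (by fun_prop) measurable_const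
  have h2 : (stdGaussian E).real K = (stdGaussian E).real (K ∩ {x | ‖B x‖ ≤ r})
      + (stdGaussian E).real (K \ {x | ‖B x‖ ≤ r}) := by
    rw [measureReal_inter_add_sdiff mS]
  have h3 : r ^ 2 * (stdGaussian E).real (K \ {x | ‖B x‖ ≤ r})
      ≤ ∫ g in K, ‖B g‖ ^ 2 ∂(stdGaussian E) := by
    calc r ^ 2 * (stdGaussian E).real (K \ {x | ‖B x‖ ≤ r})
        = ∫ g in K \ {x | ‖B x‖ ≤ r}, r ^ 2 ∂(stdGaussian E) := by
          rw [setIntegral_const, smul_eq_mul, mul_comm]
      _ ≤ ∫ g in K \ {x | ‖B x‖ ≤ r}, ‖B g‖ ^ 2 ∂(stdGaussian E) := by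
          apply setIntegral_mono_on (integrableOn_const (by finiteness)) hI.integrableOn
            (mK.diff mS)
          intro x hx
          have : r < ‖B x‖ := not_le.1 hx.2
          exact pow_le_pow_left₀ hr.le this.le 2
      _ ≤ ∫ g in K, ‖B g‖ ^ 2 ∂(stdGaussian E) := by
          apply setIntegral_mono_set hI.integrableOn
          · exact Filter.Eventually.of_forall (fun x => by positivity)
          · exact (Set.sdiff_subset).eventuallyLE
  have h4 : r ^ 2 * (stdGaussian E).real (K \ {x | ‖B x‖ ≤ r})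
      ≤ r ^ 2 * (e * (stdGaussian E).real K) := by
    have h5 : (∫ g, ‖B g‖ ^ 2 ∂(stdGaussian E)) * (stdGaussian E).real K
        ≤ (e * r ^ 2) * (stdGaussian E).real K :=
      mul_le_mul_of_nonneg_right he measureReal_nonneg
    nlinarith
  have h6 : (stdGaussian E).real (K \ {x | ‖B x‖ ≤ r}) ≤ e * (stdGaussian E).real K :=
    le_of_mul_le_mul_left h4 (by positivity)
  linarith

end Crest.Agent.R239.Ins556
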