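import Crest.Agent.R239.FDef
import Crest.Agent.R239.Ins_556c

/-! R239 / S0370, block F3 (insertion), part 5: dependence of `D`, `J` on the flag (helper556). -/

set_option autoImplicit false
set_option linter.unusedSectionVars false
set_option linter.unusedVariables false
open MeasureTheory ProbabilityTheory Submodule
open scoped RealInnerProductSpace

namespace Crest.Agent.R239.Ins556

open Crest.Agent.R239 (gau)
open Crest.Agent.R239.FD

variable {E : Type*} [NormedAddCommGroup E] [InnerProductSpace ℝ E] [FiniteDimensional ℝ E]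
  [MeasurableSpace E] [BorelSpace E]

section ext

lemma sP_congr {A B : Submodule ℝ E} (h : A = B) : A.starProjection = B.starProjection := by
  subst h; rfl

lemma fr_congr {A B : Submodule ℝ E} (h : A = B) : Module.finrank ℝ A = Module.finrank ℝ B := by
  subst h; rfl

lemma Q_zero (V : Flag E) {j : ℕ} (h : V.n ≤ j) : V.Q j = 0 := by
  have h1 : V.P j = 0 := by
    unfold Flag.P; rw [sP_congr (V.bot j h)]; exact starProjection_bot
  have h2 : V.P (j + 1) = 0 := by
    unfold Flag.P; rw [sP_congr (V.bot (j + 1) (h.trans (Nat.le_succ j)))]; exact starProjection_bot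
  unfold Flag.Q; rw [h1, h2, sub_zero]

lemma k_zero (V : Flag E) {j : ℕ} (h : V.n ≤ j) : V.k j = 0 := by
  unfold Flag.k
  rw [fr_congr (V.bot j h), finrank_bot]
  exact Nat.zero_sub _

/-- a sum over `Ico i V.n` of terms vanishing from `V.n` on -/
lemma sum_Ico_ext {α : Type*} [AddCommMonoid α] (f : ℕ → α) {n N i : ℕ} (h : n ≤ N)
    (h0 : ∀ j, n ≤ j → f j = 0) : ∑ j ∈ Finset.Ico i n, f j = ∑ j ∈ Finset.Ico i N, f j := by
  apply Finset.sum_subset
  · intro j hj
    rw [Finset.mem_Ico] at hj ⊢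
    exact ⟨hj.1, hj.2.trans_le h⟩
  · intro j hj hj'
    have : n ≤ j := by
      rw [Finset.mem_Ico] at hj hj'
      by_contra h'
      exact hj' ⟨hj.1, not_le.1 h'⟩
    exact h0 j this

lemma H_long (V : Flag E) (i : ℕ) {N : ℕ} (h : V.n ≤ N) :
    V.H i = ∑ j ∈ Finset.Ico i N, th ^ (j - i) • V.Q j :=
  sum_Ico_ext _ h fun j hj => by rw [Q_zero V hj, smul_zero]

lemma Hi_long (V : Flag E) (i : ℕ) {N : ℕ} (h : V.n ≤ N) :
    V.Hi i = ∑ j ∈ Finset.Ico i N, (th⁻¹) ^ (j - i) • V.Q j :=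
  sum_Ico_ext _ h fun j hj => by rw [Q_zero V hj, smul_zero]

lemma rr_long (V : Flag E) (i : ℕ) {N : ℕ} (h : V.n ≤ N) :
    V.rr i = ∑ j ∈ Finset.Ico i N, th ^ (j - i) * (V.k j : ℝ) :=
  sum_Ico_ext _ h fun j hj => by rw [k_zero V hj]; simp

lemma N_long (V : Flag E) (i : ℕ) {N : ℕ} (h : V.n ≤ N) (x : E) :
    V.N i x = ∑ j ∈ Finset.Ico i N, (th⁻¹) ^ (j - i) * ‖V.Q j x‖ ^ 2 :=
  sum_Ico_ext _ h fun j hj => by rw [Q_zero V hj]; simp

variable {V V' : Flag E} {i : ℕ}

lemma Q_congr (h : ∀ j, i ≤ j → V'.M j = V.M j) {j : ℕ} (hj : i ≤ j) : V'.Q j = V.Q j := by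
  unfold Flag.Q Flag.P
  rw [sP_congr (h j hj), sP_congr (h (j + 1) (hj.trans (Nat.le_succ j)))]

lemma k_congr (h : ∀ j, i ≤ j → V'.M j = V.M j) {j : ℕ} (hj : i ≤ j) : V'.k j = V.k j := by
  unfold Flag.k
  rw [fr_congr (h j hj), fr_congr (h (j + 1) (hj.trans (Nat.le_succ j)))]

/-- `H i` depends on the spaces `M j`, `j ≥ i` only -/
lemma H_congr (h : ∀ j, i ≤ j → V'.M j = V.M j) : V'.H i = V.H i := by
  rw [H_long V' i (le_max_left V'.n V.n), H_long V i (le_max_right V'.n V.n)]
  apply Finset.sum_congr rfl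
  intro j hj
  rw [Q_congr h (Finset.mem_Ico.1 hj).1]

lemma Hi_congr (h : ∀ j, i ≤ j → V'.M j = V.M j) : V'.Hi i = V.Hi i := by
  rw [Hi_long V' i (le_max_left V'.n V.n), Hi_long V i (le_max_right V'.n V.n)]
  apply Finset.sum_congr rfl
  intro j hj
  rw [Q_congr h (Finset.mem_Ico.1 hj).1]

lemma rr_congr (h : ∀ j, i ≤ j → V'.M j = V.M j) : V'.rr i = V.rr i := by
  rw [rr_long V' i (le_max_left V'.n V.n), rr_long V i (le_max_right V'.n V.n)]
  apply Finset.sum_congr rfl
  intro j hj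
  rw [k_congr h (Finset.mem_Ico.1 hj).1]

lemma N_congr (h : ∀ j, i ≤ j → V'.M j = V.M j) (x : E) : V'.N i x = V.N i x := by
  rw [N_long V' i (le_max_left V'.n V.n), N_long V i (le_max_right V'.n V.n)]
  apply Finset.sum_congr rfl
  intro j hj
  rw [Q_congr h (Finset.mem_Ico.1 hj).1]

lemma cap_congr (h : ∀ j, i ≤ j → V'.M j = V.M j) (rho : ℝ) : V'.cap rho i = V.cap rho i := by
  unfold Flag.cap
  rw [h i le_rfl, rr_congr h]
  simp_rw [N_congr h]

lemma Adm_congr (h : ∀ j, i ≤ j → V'.M j = V.M j) (p : Par) (K : Set E) :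
    Adm p V' i K ↔ Adm p V i K := by
  unfold Adm
  rw [cap_congr h, H_congr h]

lemma val_congr (h : ∀ j, i ≤ j → V'.M j = V.M j) (p : Par) (μ : Multiset E) (K : Set E) :
    val p V' i μ K = val p V i μ K := by
  unfold val
  rw [H_congr h]

/-- **`D_i` depends on the spaces `M j`, `j ≥ i` only** -/
lemma D_congr (h : ∀ j, i ≤ j → V'.M j = V.M j) (p : Par) (μ : Multiset E) :
    D p V' i μ = D p V i μ := by
  unfold D
  have h1 : {K | Adm p V' i K} = {K | Adm p V i K} := by
    ext K; exact Adm_congr h p K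
  rw [h1]
  congr 1
  apply Set.image_congr
  intro K _
  exact val_congr h p μ K

end ext

section top

/-- support function of `{0}` -/
lemma hs_zero (z : E) : hs ({0} : Set E) z = 0 := by
  unfold hs
  rw [Set.image_singleton, inner_zero_left]
  exact csSup_singleton 0

lemma Eh_zero (μ : Multiset E) : Eh ({0} : Set E) μ = 0 := by
  unfold Eh
  have : hs ({0} : Set E) = fun _ => 0 := funext hs_zero
  rw [this]
  simp

lemma H_top (V : Flag E) {i : ℕ} (h : V.n ≤ i) : V.H i = 0 := by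
  unfold Flag.H
  rw [Finset.Ico_eq_empty (by omega), Finset.sum_empty]

lemma cap_top (V : Flag E) {i : ℕ} (h : V.n ≤ i) (rho : ℝ) : V.cap rho i = {0} := by
  unfold Flag.cap Flag.N Flag.rr
  rw [Finset.Ico_eq_empty (by omega)]
  ext x
  rw [V.bot i h]
  simp

lemma gau_zero_real {K : Set E} (mK : MeasurableSet K) (h0 : (0 : E) ∈ K) :
    (gau (0 : E →L[ℝ] E)).real K = 1 := by
  rw [gau_real_apply _ mK]
  have : (⇑(0 : E →L[ℝ] E)) ⁻¹' K = Set.univ := by
    ext x; simp [h0]
  rw [this]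
  exact probReal_univ

/-- **levels `≥ n` have `D = 0`** -/
lemma D_top (p : Par) (V : Flag E) {i : ℕ} (h : V.n ≤ i) (μ : Multiset E) : D p V i μ = 0 := by
  have h1 : {K : Set E | Adm p V i K} = {{0}} := by
    ext K
    constructor
    · rintro ⟨h1, h2, h3, h4, h5⟩
      rw [cap_top V h] at h4
      rcases Set.subset_singleton_iff_eq.1 h4 with h6 | h6
      · rw [h6] at h5; simp at h5
      · exact h6
    · rintro rfl
      refine ⟨isClosed_singleton, convex_singleton 0, ?_, ?_, ?_⟩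
      · intro x hx
        rw [Set.mem_singleton_iff] at hx ⊢
        rw [hx, neg_zero]
      · rw [cap_top V h]
      · rw [H_top V h, gau_zero_real (measurableSet_singleton 0) rfl]; exact one_pos
  unfold D
  rw [h1, Set.image_singleton, csInf_singleton]
  unfold val
  rw [Eh_zero, H_top V h, gau_zero_real (measurableSet_singleton 0) rfl, Real.log_one]
  ring

/-- **`J` as a sum over any longer range** -/
lemma J_long (p : Par) (V : Flag E) (μ : Multiset E) {N : ℕ} (h : V.n ≤ N) :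
    J p V μ = ∑ i ∈ Finset.range N, (D p V i μ - p.kap * p.lam i * V.k i) := by
  unfold J
  rw [Finset.range_eq_Ico, Finset.range_eq_Ico]
  apply sum_Ico_ext _ h
  intro j hj
  rw [D_top p V hj, k_zero V hj]
  simp

/-- `J` depends on the spaces only -/
lemma J_congr (p : Par) {V V' : Flag E} (h : ∀ j, V'.M j = V.M j) (μ : Multiset E) :
    J p V' μ = J p V μ := by
  rw [J_long p V' μ (le_max_left V'.n V.n), J_long p V μ (le_max_right V'.n V.n)]
  apply Finset.sum_congr rfl
  intro i _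
  rw [D_congr (fun j _ => h j), k_congr (fun j _ => h j) le_rfl]

end top

end Crest.Agent.R239.Ins556
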