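import Crest.Agent.R239.Ins_556e

/-! R239 / S0370, block F3 (insertion), part 6: the inserted flag, sums (helper556). -/

set_option autoImplicit false
set_option linter.unusedSectionVars false
set_option linter.unusedVariables false
open MeasureTheory ProbabilityTheory Submodule
open scoped RealInnerProductSpace

namespace Crest.Agent.R239.Ins556

open Crest.Agent.R239 (gau)
open Crest.Agent.R239.FD

variable {E : Type*} [NormedAddCommGroup E] [InnerProductSpace ℝ E] [FiniteDimensional ℝ E]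
  [MeasurableSpace E] [BorelSpace E]

/-- the inserted flag -/
noncomputable def insFlag (V : Flag E) (v : E) (I : ℕ) : Flag E where
  n := max V.n (I + 1)
  M := insM V.M v I
  anti := insM_antitone V.anti v I
  bot := fun i hi => by
    rw [insM_gt (by omega)]
    exact V.bot i (by omega)

lemma k_cast (V : Flag E) (j : ℕ) :
    (V.k j : ℝ) = (Module.finrank ℝ (V.M j) : ℝ) - (Module.finrank ℝ (V.M (j + 1)) : ℝ) := by
  unfold Flag.k
  rw [Nat.cast_sub (Submodule.finrank_mono (V.anti (Nat.le_succ j)))]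

/-- the level inequality needed for insertion -/
def LevIns (E : Type*) [NormedAddCommGroup E] [InnerProductSpace ℝ E] [FiniteDimensional ℝ E]
    [MeasurableSpace E] [BorelSpace E] (p : Par) : Prop :=
  ∀ (V V' : Flag E) (v : E) (I : ℕ), V'.M = insM V.M v I → ∀ (μ : Multiset E) (i : ℕ), i ≤ I →
    D p V i μ - p.lam i * ((((th⁻¹ ^ 2) ^ (I - i) - 1) / 2) + 2 / p.rho ^ 2) ≤ D p V' i μ

lemma p_ins {p : Par} (hp : p.Ok) (hL : LevIns E p) : P_INS E p := by
  intro V μ v I hv
  refine ⟨insFlag V v I, fun i hi => insM_gt hi, fun i hi => insM_le hi, ?_⟩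
  set V' := insFlag V v I with hV'
  set N := max V.n (I + 1) with hN
  have hVN : V.n ≤ N := le_max_left _ _
  have hIN : I < N := by omega
  have hA : 16 ≤ p.A := hp.A_ge
  have hlam : ∀ i, 0 ≤ p.lam i := fun i =>
    mul_nonneg hp.tau_pos.le (pow_nonneg (by linarith) i)
  have hlam1 : ∀ i, p.lam (i + 1) = p.A * p.lam i := fun i => by
    unfold Par.lam; rw [pow_succ]; ring
  rw [J_long p V μ hVN, J_long p V' μ (le_refl V'.n)]
  have e1 : V'.n = N := rfl
  rw [e1]
  simp only [Finset.sum_sub_distrib]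
  -- penalties
  have hpen : ∑ i ∈ Finset.range N, p.kap * p.lam i * (V'.k i : ℝ)
      ≤ ∑ i ∈ Finset.range N, p.kap * p.lam i * (V.k i : ℝ) + p.kap * p.lam I := by
    have h1 := pen_ins V.anti v (I := I) (N := N) p.lam hlam hIN
    have h2 : ∀ W : Flag E, ∑ i ∈ Finset.range N, p.kap * p.lam i * (W.k i : ℝ)
        = p.kap * ∑ j ∈ Finset.range N, p.lam j * ((Module.finrank ℝ (W.M j) : ℝ)
          - (Module.finrank ℝ (W.M (j + 1)) : ℝ)) := by
      intro W
      rw [Finset.mul_sum]
      apply Finset.sum_congr rfl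
      intro j _
      rw [k_cast]; ring
    rw [h2 V', h2 V, ← mul_add]
    exact mul_le_mul_of_nonneg_left h1 hp.kap_pos.le
  -- levels
  have hlev : ∀ i ∈ Finset.range N, D p V i μ ≤ D p V' i μ
      + (if i ≤ I then p.lam i * ((((th⁻¹ ^ 2) ^ (I - i) - 1) / 2) + 2 / p.rho ^ 2) else 0) := by
    intro i _
    by_cases hi : i ≤ I
    · rw [if_pos hi]
      have := hL V V' v I rfl μ i hi
      linarith
    · rw [if_neg hi, add_zero]
      have h3 : D p V' i μ = D p V i μ :=
        D_congr (fun j hj => insM_gt (by omega)) p μ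
      rw [h3]
  have hs := Finset.sum_le_sum hlev
  rw [Finset.sum_add_distrib] at hs
  have h4 : ∑ i ∈ Finset.range N,
      (if i ≤ I then p.lam i * ((((th⁻¹ ^ 2) ^ (I - i) - 1) / 2) + 2 / p.rho ^ 2) else 0)
      = ∑ i ∈ Finset.range (I + 1), p.lam i * (((th⁻¹ ^ 2) ^ (I - i) - 1) / 2)
        + ∑ i ∈ Finset.range (I + 1), p.lam i * (2 / p.rho ^ 2) := by
    rw [← Finset.sum_add_distrib, ← Finset.sum_filter]
    have h5 : (Finset.range N).filter (fun i => i ≤ I) = Finset.range (I + 1) := by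
      ext i; simp only [Finset.mem_filter, Finset.mem_range]; omega
    rw [h5]
    apply Finset.sum_congr rfl
    intro i _
    ring
  rw [h4] at hs
  have hth : (th⁻¹ ^ 2 : ℝ) = 25 / 16 := by unfold th; norm_num
  have h6 := geo_exp (lam := p.lam) (A := p.A) (a := th⁻¹ ^ 2) (by rw [hth]; linarith)
    (by linarith) (by rw [hth]; norm_num) hlam1 hlam I
  have h7 := geo_T (lam := p.lam) (A := p.A) (a := 1) (by linarith) (by linarith) zero_le_one
    hlam1 hlam I
  simp only [one_pow, mul_one] at h7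
  have h8 : ∑ i ∈ Finset.range (I + 1), p.lam i * (2 / p.rho ^ 2) ≤ 4 / p.rho ^ 2 * p.lam I := by
    rw [← Finset.sum_mul]
    have : (0:ℝ) ≤ 2 / p.rho ^ 2 := by positivity
    calc (∑ i ∈ Finset.range (I + 1), p.lam i) * (2 / p.rho ^ 2)
        ≤ (2 * p.lam I) * (2 / p.rho ^ 2) := mul_le_mul_of_nonneg_right h7 this
      _ = 4 / p.rho ^ 2 * p.lam I := by ring
  have h9 : th⁻¹ ^ 2 / p.A * p.lam I ≤ 2 / (p.A * th ^ 2) * p.lam I := by
    apply mul_le_mul_of_nonneg_right _ (hlam I)
    have hA0 : 0 < p.A := by linarith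
    have ht : 0 < th ^ 2 := by unfold th; norm_num
    have e : th⁻¹ ^ 2 / p.A = 1 / (p.A * th ^ 2) := by
      rw [inv_pow]; field_simp
    rw [e]
    apply div_le_div_of_nonneg_right _ (by positivity)
    norm_num
  have h10 : 4 / p.rho ^ 2 * p.lam I ≤ 8 / p.rho ^ 2 * p.lam I := by
    apply mul_le_mul_of_nonneg_right _ (hlam I)
    have : (0:ℝ) ≤ 1 / p.rho ^ 2 := by positivity
    have h11 : 8 / p.rho ^ 2 = 4 / p.rho ^ 2 + 4 * (1 / p.rho ^ 2) := by ring
    rw [h11]
    linarith
  linarith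

end Crest.Agent.R239.Ins556
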