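import Crest.Agent.R239.PRot_711

/-! R239, LINE D (helper859, doc 2447), block D3 (helper711): levels above `I`.

`W` is any flag with `W.M j = T_1 (V.M j)` for `j ≥ i`, `T_1 = 1 - v vᵀ`, `‖v‖ = 1`
(`V.rot v 1`, or `V'` of LINE D at a level `i > I`). -/

set_option autoImplicit false
set_option linter.unusedSectionVars false
open MeasureTheory ProbabilityTheory Finset
open scoped RealInnerProductSpace

namespace Crest.Agent.R239.LD3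

open Crest.Agent.R239.FD
open Crest.Agent.R239 (gau)
open Crest.Agent.R239.PRot711

variable {E : Type*} [NormedAddCommGroup E] [InnerProductSpace ℝ E] [FiniteDimensional ℝ E]

/-- `W.M j = T_1 (V.M j)` for `j ≥ i`. -/
structure IsT1 (V W : Flag E) (v : E) (i : ℕ) : Prop where
  n : W.n = V.n
  M : ∀ j, i ≤ j → W.M j = (V.M j).map (Ts v 1).toLinearMap

lemma isT1_rot (V : Flag E) (v : E) (i : ℕ) : IsT1 V (V.rot v 1) v i := ⟨rfl, fun _ _ => rfl⟩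

lemma IsT1.mono {V W : Flag E} {v : E} {i j : ℕ} (h : IsT1 V W v i) (hij : i ≤ j) :
    IsT1 V W v j := ⟨h.n, fun l hl => h.M l (hij.trans hl)⟩

section one
variable {v : E} (hv : ‖v‖ = 1)
include hv

lemma inner_v_Ts1 (x : E) : ⟪v, Ts v 1 x⟫ = 0 := by
  rw [FD.Ts_apply, inner_sub_right, inner_smul_right, real_inner_self_eq_norm_sq, hv]
  ring

lemma inner_Ts1_Ts1 (x y : E) : ⟪Ts v 1 x, Ts v 1 y⟫ = ⟪x, y⟫ - ⟪v, x⟫ * ⟪v, y⟫ := by
  rw [Ts_eq_apply, Ts_eq_apply, Rot203.inner_Ts_Ts hv]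
  ring

lemma norm_Ts1_sq (x : E) : ‖Ts v 1 x‖ ^ 2 = ‖x‖ ^ 2 - ⟪v, x⟫ ^ 2 := by
  rw [← real_inner_self_eq_norm_sq, inner_Ts1_Ts1 hv, real_inner_self_eq_norm_sq]
  ring

/-- the projection formula at `s = 1`, with `0/0 = 0` if `v ∈ M`. -/
theorem norm_proj_Ts1_sq (M : Submodule ℝ E) (x : E) :
    ‖(M.map (Ts v 1).toLinearMap).starProjection (Ts v 1 x)‖ ^ 2 =
      ‖M.starProjection x‖ ^ 2 - ⟪v, x⟫ ^ 2
        + (⟪v, x⟫ - ⟪M.starProjection v, x⟫) ^ 2 / (1 - ‖M.starProjection v‖ ^ 2) := by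
  by_cases hb : 1 - ‖M.starProjection v‖ ^ 2 = 0
  · have hv2 : ⟪v, v⟫ = (1:ℝ) := by rw [real_inner_self_eq_norm_sq, hv]; norm_num
    have hPv : M.starProjection v = v := by
      have h1 : ⟪v - M.starProjection v, M.starProjection v⟫ = 0 :=
        Submodule.starProjection_inner_eq_zero _ _ (Submodule.starProjection_apply_mem _ _)
      rw [inner_sub_left, real_inner_self_eq_norm_sq] at h1
      have h2 : ‖v - M.starProjection v‖ ^ 2 = 0 := by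
        rw [norm_sub_sq_real, hv]; linarith
      have h3 : v - M.starProjection v = 0 := by
        have := pow_eq_zero_iff (two_ne_zero) |>.1 h2
        exact norm_eq_zero.1 this
      exact (sub_eq_zero.1 h3).symm
    have hvM : v ∈ M := by rw [← hPv]; exact Submodule.starProjection_apply_mem _ _
    have e : (M.map (Ts v 1).toLinearMap).starProjection (Ts v 1 x)
        = Ts v 1 (M.starProjection x) := by
      apply Submodule.eq_starProjection_of_mem_of_inner_eq_zero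
      · exact Submodule.mem_map_of_mem (Submodule.starProjection_apply_mem _ _)
      · intro w hw
        obtain ⟨y, hy, rfl⟩ := Submodule.mem_map.mp hw
        rw [ContinuousLinearMap.coe_coe, ← map_sub, inner_Ts1_Ts1 hv]
        have h1 : ⟪x - M.starProjection x, y⟫ = 0 := Submodule.starProjection_inner_eq_zero _ _ hy
        have h2 : ⟪v, x - M.starProjection x⟫ = 0 := by
          rw [real_inner_comm]
          exact Submodule.starProjection_inner_eq_zero _ _ hvM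
        rw [h1, h2]; ring
    have h4 : ⟪v, M.starProjection x⟫ = ⟪v, x⟫ := by
      have h2 : ⟪v, x - M.starProjection x⟫ = 0 := by
        rw [real_inner_comm]
        exact Submodule.starProjection_inner_eq_zero _ _ hvM
      rw [inner_sub_right] at h2; linarith
    rw [e, norm_Ts1_sq hv, hb, div_zero, h4, add_zero]
  · have h := Rot203.norm_proj_Ts_sq hv M 1 x (by norm_num; exact hb)
    rw [Ts_eq, Ts_eq_apply, h]
    norm_num

end one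

section flag
variable {V W : Flag E} {v : E} {i : ℕ}

/-- (a) -/
theorem norm_P_sq (hT : IsT1 V W v i) (hv : ‖v‖ = 1) {j : ℕ} (hij : i ≤ j) (x : E) :
    ‖W.P j (Ts v 1 x)‖ ^ 2 = ‖V.P j x‖ ^ 2 - ⟪v, x⟫ ^ 2
      + ⟪v - V.P j v, x⟫ ^ 2 / (1 - V.b v j) := by
  have e : W.P j = ((V.M j).map (Ts v 1).toLinearMap).starProjection := by
    unfold Flag.P
    simp only [hT.M j hij]
  rw [e, norm_proj_Ts1_sq hv, inner_sub_left]
  rfl

lemma sub_P_mem_zero {x : E} (hx : x ∈ V.M i) : ⟪v - V.P i v, x⟫ = 0 :=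
  Submodule.starProjection_inner_eq_zero (K := V.M i) v x hx

lemma mem_W (hT : IsT1 V W v i) {x : E} (hx : x ∈ V.M i) : Ts v 1 x ∈ W.M i := by
  rw [hT.M i le_rfl]
  exact Submodule.mem_map_of_mem hx

/-- precision form of `W` on `T x` -/
theorem norm_Hi_sq_T (hT : IsT1 V W v i) (hv : ‖v‖ = 1) (hi : i < V.n) {x : E}
    (hx : x ∈ V.M i) :
    ‖W.Hi i (Ts v 1 x)‖ ^ 2 = ‖V.Hi i x‖ ^ 2 - ⟪v, x⟫ ^ 2
      - ∑ j ∈ Ico (i + 1) V.n, om (j - i) *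
        (⟪v, x⟫ ^ 2 - ⟪v - V.P j v, x⟫ ^ 2 / (1 - V.b v j)) := by
  have hPx : V.P i x = x := Submodule.starProjection_eq_self_iff.2 hx
  rw [norm_Hi_sq W (by rw [hT.n]; exact hi), norm_Hi_sq V hi, hT.n, norm_P_sq hT hv le_rfl,
    sub_P_mem_zero hx, hPx]
  have : ∀ j ∈ Ico (i + 1) V.n, om (j - i) * ‖W.P j (Ts v 1 x)‖ ^ 2
      = om (j - i) * ‖V.P j x‖ ^ 2 - om (j - i) *
        (⟪v, x⟫ ^ 2 - ⟪v - V.P j v, x⟫ ^ 2 / (1 - V.b v j)) := by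
    intro j hj
    rw [norm_P_sq hT hv (by have := mem_Ico.mp hj; omega)]
    ring
  rw [sum_congr rfl this, sum_sub_distrib]
  ring

/-- gauge of `W` on `T x` -/
theorem N_T (hT : IsT1 V W v i) (hv : ‖v‖ = 1) (hi : i < V.n) {x : E} (hx : x ∈ V.M i) :
    W.N i (Ts v 1 x) = V.N i x - ⟪v, x⟫ ^ 2
      - ∑ j ∈ Ico (i + 1) V.n, omN (j - i) *
        (⟪v, x⟫ ^ 2 - ⟪v - V.P j v, x⟫ ^ 2 / (1 - V.b v j)) := by
  have hPx : V.P i x = x := Submodule.starProjection_eq_self_iff.2 hx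
  rw [N_eq W (by rw [hT.n]; exact hi), N_eq V hi, hT.n, norm_P_sq hT hv le_rfl,
    sub_P_mem_zero hx, hPx]
  have : ∀ j ∈ Ico (i + 1) V.n, omN (j - i) * ‖W.P j (Ts v 1 x)‖ ^ 2
      = omN (j - i) * ‖V.P j x‖ ^ 2 - omN (j - i) *
        (⟪v, x⟫ ^ 2 - ⟪v - V.P j v, x⟫ ^ 2 / (1 - V.b v j)) := by
    intro j hj
    rw [norm_P_sq hT hv (by have := mem_Ico.mp hj; omega)]
    ring
  rw [sum_congr rfl this, sum_sub_distrib]
  ring

end flag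

/-! ### flag calculus over `FDef` -/
section fcalc
variable (V : Flag E) (v : E) (i : ℕ)

lemma P_mem (j : ℕ) (x : E) : V.P j x ∈ V.M j := QPlus711.Pj_mem j x
lemma P_of_mem {j : ℕ} {x : E} (hx : x ∈ V.M j) : V.P j x = x := QPlus711.Pj_of_mem hx
lemma H_mem (g : E) : V.H i g ∈ V.M i := QPlus711.Hm_mem V.anti _ _ _ _
lemma Hi_mem (g : E) : V.Hi i g ∈ V.M i := QPlus711.Hm_mem V.anti _ _ _ _
lemma inner_H (x y : E) : ⟪V.H i x, y⟫ = ⟪x, V.H i y⟫ := QPlus711.inner_Hm_left _ _ _ _ _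
lemma inner_Hi (x y : E) : ⟪V.Hi i x, y⟫ = ⟪x, V.Hi i y⟫ := QPlus711.inner_Hm_left _ _ _ _ _
lemma inner_P (j : ℕ) (x y : E) : ⟪V.P j x, y⟫ = ⟪x, V.P j y⟫ := QPlus711.inner_Pj_left _ _ _
lemma inner_Q (j : ℕ) (x y : E) : ⟪V.Q j x, y⟫ = ⟪x, V.Q j y⟫ := QPlus711.inner_Qj_left _ _ _

lemma inner_P_of_mem {j : ℕ} {x y : E} (hy : y ∈ V.M j) : ⟪V.P j x, y⟫ = ⟪x, y⟫ := by
  rw [inner_P, P_of_mem V hy]

variable {V v i}

lemma Hi_H (hi : i ≤ V.n) (g : E) : V.Hi i (V.H i g) = V.P i g :=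
  QPlus711.Hm_inv_Hm V.anti hi (bot_n V) th_ne g
lemma H_Hi (hi : i ≤ V.n) (g : E) : V.H i (V.Hi i g) = V.P i g :=
  QPlus711.Hm_Hm_inv V.anti hi (bot_n V) th_ne g

lemma norm_P_le (j : ℕ) (x : E) : ‖V.P j x‖ ≤ ‖x‖ := (V.M j).norm_starProjection_apply_le x

lemma Q_mem (j : ℕ) (x : E) : V.Q j x ∈ V.M j :=
  (V.M j).sub_mem (P_mem V j x) (V.anti (Nat.le_succ j) (P_mem V (j + 1) x))

lemma H_of_Q (hi : i < V.n) (x : E) : V.H i (V.Q i x) = V.Q i x := by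
  rw [H_eq, QPlus711.Hm_apply, Finset.sum_eq_single i]
  · simp only [Nat.sub_self, pow_zero, one_smul]
    exact QPlus711.Qj_Qj_self V.anti i x
  · intro j _ hj
    rw [Q_eq, QPlus711.Qj_Qj_ne V.anti hj, smul_zero]
  · intro h; exact absurd (mem_Ico.2 ⟨le_rfl, hi⟩) h

lemma Hi_of_Q (hi : i < V.n) (x : E) : V.Hi i (V.Q i x) = V.Q i x := by
  rw [Hi_eq, QPlus711.Hm_apply, Finset.sum_eq_single i]
  · simp only [Nat.sub_self, pow_zero, one_smul]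
    exact QPlus711.Qj_Qj_self V.anti i x
  · intro j _ hj
    rw [Q_eq, QPlus711.Qj_Qj_ne V.anti hj, smul_zero]
  · intro h; exact absurd (mem_Ico.2 ⟨le_rfl, hi⟩) h

/-- `‖Q_i v‖² = b_i - b_{i+1}`. -/
lemma norm_Q_sq (j : ℕ) (x : E) : ‖V.Q j x‖ ^ 2 = ‖V.P j x‖ ^ 2 - ‖V.P (j + 1) x‖ ^ 2 :=
  QPlus711.norm_Qj_sq V.anti j x

lemma b_anti {j l : ℕ} (h : j ≤ l) : V.b v l ≤ V.b v j :=
  QPlus711.norm_Pj_sq_antitone V.anti v h

lemma inner_P_self (j : ℕ) (x : E) : ⟪x, V.P j x⟫ = ‖V.P j x‖ ^ 2 := by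
  rw [← real_inner_self_eq_norm_sq, inner_P, P_of_mem V (P_mem V j x)]

/-- polarised precision identity. -/
lemma inner_Hi_Hi (hi : i < V.n) (x y : E) :
    ⟪V.Hi i x, V.Hi i y⟫ = ⟪V.P i x, V.P i y⟫
      + ∑ j ∈ Ico (i + 1) V.n, om (j - i) * ⟪V.P j x, V.P j y⟫ := by
  have h1 := norm_Hi_sq V hi (x + y)
  have h2 := norm_Hi_sq V hi x
  have h3 := norm_Hi_sq V hi y
  simp only [map_add, norm_add_sq_real] at h1
  have : ∑ j ∈ Ico (i + 1) V.n, om (j - i) * (‖V.P j x‖ ^ 2 + 2 * ⟪V.P j x, V.P j y⟫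
      + ‖V.P j y‖ ^ 2) = ∑ j ∈ Ico (i + 1) V.n, om (j - i) * ‖V.P j x‖ ^ 2
      + 2 * ∑ j ∈ Ico (i + 1) V.n, om (j - i) * ⟪V.P j x, V.P j y⟫
      + ∑ j ∈ Ico (i + 1) V.n, om (j - i) * ‖V.P j y‖ ^ 2 := by
    rw [mul_sum, ← sum_add_distrib, ← sum_add_distrib]
    exact sum_congr rfl fun _ _ => by ring
  rw [this] at h1
  linarith

/-- `l = ⟪Hi_i v, g⟫ = ξ + ∑ om ζ_j`. -/
lemma inner_Hi_v (hi : i < V.n) (g : E) :
    ⟪V.Hi i v, g⟫ = ⟪v, V.H i g⟫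
      + ∑ j ∈ Ico (i + 1) V.n, om (j - i) * ⟪V.P j v, V.H i g⟫ := by
  have h := inner_Hi_Hi hi v (V.H i g)
  rw [Hi_H hi.le, ← inner_P, P_of_mem V (Hi_mem V i v), inner_P_of_mem V
    (P_mem V i (V.H i g)), P_of_mem V (H_mem V i g)] at h
  rw [h]
  congr 1
  refine sum_congr rfl fun j _ => ?_
  rw [inner_P_of_mem V (P_mem V j (V.H i g)), ← inner_P]

/-- the weights `c_j = b_j/(1-b_j)` -/
noncomputable def cj (V : Flag E) (v : E) (j : ℕ) : ℝ := V.b v j / (1 - V.b v j)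

lemma cj_nonneg (hv : ‖v‖ = 1) (j : ℕ) : 0 ≤ cj V v j := by
  unfold cj
  have h1 := b_le_one V hv j
  have h2 := b_nonneg V v j
  exact div_nonneg h2 (by linarith)

lemma sub_P_eq_zero (hv : ‖v‖ = 1) {j : ℕ} (hb : 1 - V.b v j = 0) : v - V.P j v = 0 := by
  have h1 := inner_P_self (V := V) j v
  have h2 : ‖v - V.P j v‖ ^ 2 = 0 := by
    rw [norm_sub_sq_real, h1, hv]
    unfold Flag.b at hb
    linarith
  exact norm_eq_zero.1 (pow_eq_zero_iff (two_ne_zero) |>.1 h2)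

lemma a_div (hv : ‖v‖ = 1) (j : ℕ) (x : E) : ⟪v - V.P j v, x⟫ ^ 2 / (1 - V.b v j)
    = ⟪v - V.P j v, x⟫ ^ 2 + cj V v j * ⟪v - V.P j v, x⟫ ^ 2 := by
  by_cases hb : 1 - V.b v j = 0
  · rw [sub_P_eq_zero hv hb, inner_zero_left]; simp
  · unfold cj; field_simp; ring

/-- exact rank-one form (212 / 208) of `q` at `s = 1`. -/
theorem q_eq (hv : ‖v‖ = 1) (hi : i < V.n) (g : E) :
    ⟪v, V.H i g⟫ ^ 2 + ∑ j ∈ Ico (i + 1) V.n, om (j - i) *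
        (⟪v, V.H i g⟫ ^ 2 - ⟪v - V.P j v, V.H i g⟫ ^ 2 / (1 - V.b v j))
      = ⟪V.Hi i v, g⟫ ^ 2 - (⟪V.Hi i v - V.H i v, g⟫ ^ 2
        + ∑ j ∈ Ico (i + 1) V.n, om (j - i) * ⟪V.H i (V.P j v), g⟫ ^ 2
        + ∑ j ∈ Ico (i + 1) V.n, om (j - i) * (cj V v j * ⟪V.H i (v - V.P j v), g⟫ ^ 2)) := by
  have hl := inner_Hi_v (V := V) (v := v) hi g
  rw [inner_sub_left, inner_H, hl, add_sub_cancel_left]
  simp only [inner_H, a_div hv]
  set ξ := ⟪v, V.H i g⟫ with hξ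
  have : ∀ j ∈ Ico (i + 1) V.n, om (j - i) * (ξ ^ 2 - (⟪v - V.P j v, V.H i g⟫ ^ 2
      + cj V v j * ⟪v - V.P j v, V.H i g⟫ ^ 2))
      = 2 * ξ * (om (j - i) * ⟪V.P j v, V.H i g⟫) - om (j - i) * ⟪V.P j v, V.H i g⟫ ^ 2
        - om (j - i) * (cj V v j * ⟪v - V.P j v, V.H i g⟫ ^ 2) := by
    intro j _
    have : ⟪v - V.P j v, V.H i g⟫ = ξ - ⟪V.P j v, V.H i g⟫ := by rw [inner_sub_left]
    rw [this]; ring
  rw [sum_congr rfl this, sum_sub_distrib, sum_sub_distrib, ← mul_sum]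
  ring

/-! ### traces -/

lemma norm_Hi_v_sq (hi : i < V.n) : ‖V.Hi i v‖ ^ 2 = V.b v i
    + ∑ j ∈ Ico (i + 1) V.n, om (j - i) * V.b v j := norm_Hi_sq V hi v

/-- `E[Z² + ∑ om ζ_j²] = ∑ om b_j`. -/
lemma trace_Z (hi : i < V.n) : ‖V.Hi i v - V.H i v‖ ^ 2
    + ∑ j ∈ Ico (i + 1) V.n, om (j - i) * ‖V.H i (V.P j v)‖ ^ 2
      = ∑ j ∈ Ico (i + 1) V.n, om (j - i) * V.b v j := by
  have h1 := norm_Hi_sq V hi (V.H i v)
  rw [Hi_H hi.le, P_of_mem V (H_mem V i v)] at h1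
  have h2 : ∀ j ∈ Ico (i + 1) V.n, om (j - i) * ‖V.H i (V.P j v)‖ ^ 2
      = om (j - i) * ‖V.P j (V.H i v)‖ ^ 2 := by
    intro j hj
    have : V.P j (V.H i v) = V.H i (V.P j v) :=
      QPlus711.Pj_Hm V.anti (by have := mem_Ico.mp hj; omega) _ _
    rw [this]
  rw [sum_congr rfl h2]
  have h3 : ⟪V.Hi i v, V.H i v⟫ = V.b v i := by
    rw [inner_Hi, Hi_H hi.le, inner_P_self]; rfl
  rw [norm_sub_sq_real, h3, norm_Hi_v_sq hi]
  have h4 : ‖V.P i v‖ ^ 2 = V.b v i := rfl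
  rw [h4] at h1
  linarith

lemma inner_Hi_Q (hi : i < V.n) : ⟪V.Hi i v, V.Q i v⟫ = ‖V.Q i v‖ ^ 2 := by
  rw [inner_Hi, Hi_of_Q hi, ← real_inner_self_eq_norm_sq, inner_Q]
  congr 1
  exact (QPlus711.Qj_Qj_self V.anti i v).symm

lemma norm_r_sq (hi : i < V.n) : ‖V.Hi i v - V.Q i v‖ ^ 2
    = V.b v (i + 1) + ∑ j ∈ Ico (i + 1) V.n, om (j - i) * V.b v j := by
  rw [norm_sub_sq_real, inner_Hi_Q hi, norm_Hi_v_sq hi, norm_Q_sq]
  unfold Flag.b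
  ring

/-- `E a_j² ≤ 1 - b_j`. -/
lemma norm_a_sq_le (hv : ‖v‖ = 1) (j : ℕ) : ‖V.H i (v - V.P j v)‖ ^ 2 ≤ 1 - V.b v j := by
  have h1 : ‖V.H i (v - V.P j v)‖ ≤ ‖v - V.P j v‖ := by
    have hth : (0 : ℝ) ≤ th ^ 2 := by positivity
    have hth1 : th ^ 2 ≤ 1 := by unfold th; norm_num
    have h2 : ‖V.H i (v - V.P j v)‖ ^ 2 ≤ ‖v - V.P j v‖ ^ 2 := by
      rcases le_or_gt i V.n with hi | hi
      · rw [H_eq, QPlus711.norm_Hm_sq V.anti]
        have key : ∀ l ∈ Ico i V.n, (th ^ 2) ^ (l - i) * ‖QPlus711.Qj V.M l (v - V.P j v)‖ ^ 2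
            ≤ ‖QPlus711.Qj V.M l (v - V.P j v)‖ ^ 2 := by
          intro l _
          exact mul_le_of_le_one_left (by positivity) (pow_le_one₀ hth hth1)
        refine (Finset.sum_le_sum key).trans ?_
        rw [QPlus711.sum_norm_Qj_sq V.anti hi]
        have h3 : ‖QPlus711.Pj V.M i (v - V.P j v)‖ ≤ ‖v - V.P j v‖ := norm_P_le (V := V) i _
        have h4 := norm_nonneg (QPlus711.Pj V.M i (v - V.P j v))
        nlinarith [sq_nonneg ‖QPlus711.Pj V.M V.n (v - V.P j v)‖]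
      · have h0 : V.H i (v - V.P j v) = 0 := by
          rw [H_eq, QPlus711.Hm_apply, Ico_eq_empty (by omega), sum_empty]
        rw [h0, norm_zero]
        nlinarith [sq_nonneg ‖v - V.P j v‖]
    exact abs_le_of_sq_le_sq' h2 (norm_nonneg _) |>.2
  have h5 : ‖v - V.P j v‖ ^ 2 = 1 - V.b v j := by
    rw [norm_sub_sq_real, inner_P_self, hv]; unfold Flag.b; ring
  rw [← h5]
  exact pow_le_pow_left₀ (norm_nonneg _) h1 2

lemma sum_om_b_le : V.b v (i + 1)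
    + 3 * ∑ j ∈ Ico (i + 1) V.n, om (j - i) * V.b v j ≤ BB V v i := by
  have h1 : ∑ j ∈ Ico (i + 1) V.n, om (j - i) * V.b v j ≤ 9 / 50 * BB V v i := by
    unfold BB
    rw [mul_sum]
    refine sum_le_sum fun j hj => ?_
    obtain ⟨m, hm⟩ : ∃ m, j - i = m + 1 := ⟨j - i - 1, by have := mem_Ico.mp hj; omega⟩
    rw [hm]
    have hb := b_nonneg V v j
    have h2 : om (m + 1) ≤ 9 / 50 * (25 / 8) ^ (m + 1) := by
      have e : om (m + 1) = 9 / 25 * (25 / 16) ^ (m + 1) := by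
        rw [om, pow_mul, show (th⁻¹ : ℝ) ^ 2 = 25 / 16 by unfold th; norm_num,
          show (1 : ℝ) - th ^ 2 = 9 / 25 by unfold th; norm_num]
        ring
      have e2 : (25 / 8 : ℝ) ^ (m + 1) = (25 / 16) ^ (m + 1) * 2 ^ (m + 1) := by
        rw [← mul_pow]; norm_num
      have h3 : (2 : ℝ) ≤ 2 ^ (m + 1) := by
        have : (1:ℝ) ≤ 2 ^ m := one_le_pow₀ (by norm_num)
        rw [pow_succ]; linarith
      rw [e, e2]
      nlinarith [show (0:ℝ) < (25 / 16) ^ (m + 1) by positivity]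
    nlinarith
  have h2 : V.b v (i + 1) ≤ 8 / 25 * BB V v i := by
    rcases Nat.lt_or_ge (i + 1) V.n with h | h
    · unfold BB
      have h3 : (25 / 8 : ℝ) ^ (i + 1 - i) * V.b v (i + 1)
          ≤ ∑ j ∈ Ico (i + 1) V.n, (25 / 8 : ℝ) ^ (j - i) * V.b v j :=
        single_le_sum (f := fun j => (25 / 8 : ℝ) ^ (j - i) * V.b v j)
          (fun j _ => by have := b_nonneg V v j; positivity) (mem_Ico.2 ⟨le_rfl, h⟩)
      rw [Nat.add_sub_cancel_left, pow_one] at h3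
      linarith
    · have h0 : V.b v (i + 1) = 0 := by
        have h5 := P_mem V (i + 1) v
        rw [V.bot _ h, Submodule.mem_bot] at h5
        unfold Flag.b
        rw [h5]; simp
      have h4 : 0 ≤ BB V v i := by
        unfold BB
        exact sum_nonneg fun j _ => by have := b_nonneg V v j; positivity
      rw [h0]; linarith
  linarith [show 0 ≤ BB V v i by
        unfold BB
        exact sum_nonneg fun j _ => by have := b_nonneg V v j; positivity]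

/-! ### the inequality (N) at a level `i > I` -/

/-- index type of the family -/
abbrev Ix := Bool ⊕ (ℕ ⊕ ℕ)

/-- index set -/
def Jx (V : Flag E) (i : ℕ) : Finset Ix :=
  (univ : Finset Bool).disjSum ((Ico (i + 1) V.n).disjSum (Ico (i + 1) V.n))

/-- the vectors -/
noncomputable def ux (V : Flag E) (v : E) (i : ℕ) : Ix → E :=
  Sum.elim (fun b => bif b then V.Hi i v - V.H i v else V.Hi i v - V.Q i v)
    (Sum.elim (fun j => √(om (j - i)) • V.H i (V.P j v))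
      (fun j => √(om (j - i) * cj V v j) • V.H i (v - V.P j v)))

lemma sum_Jx (f : E → ℝ) : ∑ k ∈ Jx V i, f (ux V v i k)
    = f (V.Hi i v - V.H i v) + f (V.Hi i v - V.Q i v)
      + (∑ j ∈ Ico (i + 1) V.n, f (√(om (j - i)) • V.H i (V.P j v))
        + ∑ j ∈ Ico (i + 1) V.n, f (√(om (j - i) * cj V v j) • V.H i (v - V.P j v))) := by
  unfold Jx
  rw [sum_disjSum, sum_disjSum]
  simp [ux]

lemma inner_smul_sqrt_sq {c : ℝ} (hc : 0 ≤ c) (w g : E) : ⟪√c • w, g⟫ ^ 2 = c * ⟪w, g⟫ ^ 2 := by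
  rw [inner_smul_left, mul_pow]
  simp [Real.sq_sqrt hc]

lemma norm_smul_sqrt_sq {c : ℝ} (hc : 0 ≤ c) (w : E) : ‖√c • w‖ ^ 2 = c * ‖w‖ ^ 2 := by
  rw [norm_smul, mul_pow, Real.norm_eq_abs, sq_abs, Real.sq_sqrt hc]

/-- the total norm is at most `BB` -/
theorem sum_norm_ux (hv : ‖v‖ = 1) (hi : i < V.n) :
    ∑ k ∈ Jx V i, ‖ux V v i k‖ ^ 2 ≤ BB V v i := by
  rw [sum_Jx (fun w => ‖w‖ ^ 2)]
  have h1 : ∀ j ∈ Ico (i + 1) V.n, ‖√(om (j - i)) • V.H i (V.P j v)‖ ^ 2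
      = om (j - i) * ‖V.H i (V.P j v)‖ ^ 2 := fun j _ => norm_smul_sqrt_sq (om_pos _).le _
  have h2 : ∑ j ∈ Ico (i + 1) V.n, ‖√(om (j - i) * cj V v j) • V.H i (v - V.P j v)‖ ^ 2
      ≤ ∑ j ∈ Ico (i + 1) V.n, om (j - i) * V.b v j := by
    refine sum_le_sum fun j _ => ?_
    have hc := cj_nonneg (V := V) hv j
    rw [norm_smul_sqrt_sq (mul_nonneg (om_pos _).le hc), mul_assoc]
    refine mul_le_mul_of_nonneg_left ?_ (om_pos _).le
    have h3 := norm_a_sq_le (V := V) (i := i) hv j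
    by_cases hb : 1 - V.b v j = 0
    · unfold cj; rw [hb, div_zero, zero_mul]; exact b_nonneg V v j
    · have h4 : cj V v j * (1 - V.b v j) = V.b v j := by unfold cj; field_simp
      rw [← h4]
      have h5 : cj V v j * (1 - V.b v j) = V.b v j := h4
      calc cj V v j * ‖V.H i (v - V.P j v)‖ ^ 2 ≤ cj V v j * (1 - V.b v j) :=
            mul_le_mul_of_nonneg_left h3 hc
        _ = cj V v j * (1 - V.b v j) := rfl
  rw [sum_congr rfl h1]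
  have h3 := trace_Z (V := V) (v := v) hi
  have h4 := norm_r_sq (V := V) (v := v) hi
  have h5 := sum_om_b_le (V := V) (v := v) (i := i)
  linarith

variable {W : Flag E}

/-- **(N) at a level `i > I`** (all `v`, `v ∈ M_i` allowed). -/
theorem N_base (hT : IsT1 V W v i) (hv : ‖v‖ = 1) (hi : i < V.n) (g : E) :
    ‖W.Hi i (Ts v 1 (V.H i g))‖ ^ 2 + 1 / 2 * ⟪V.Q i v, g⟫ ^ 2
      ≤ ‖g‖ ^ 2 + ∑ k ∈ Jx V i, ⟪ux V v i k, g⟫ ^ 2 := by
  rw [norm_Hi_sq_T hT hv hi (H_mem V i g), sum_Jx (fun w => ⟪w, g⟫ ^ 2), Hi_H hi.le]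
  have h1 : ∀ j ∈ Ico (i + 1) V.n, ⟪√(om (j - i)) • V.H i (V.P j v), g⟫ ^ 2
      = om (j - i) * ⟪V.H i (V.P j v), g⟫ ^ 2 := fun j _ => inner_smul_sqrt_sq (om_pos _).le _ _
  have h2 : ∀ j ∈ Ico (i + 1) V.n, ⟪√(om (j - i) * cj V v j) • V.H i (v - V.P j v), g⟫ ^ 2
      = om (j - i) * (cj V v j * ⟪V.H i (v - V.P j v), g⟫ ^ 2) := fun j _ => by
    rw [inner_smul_sqrt_sq (mul_nonneg (om_pos _).le (cj_nonneg (V := V) hv j)), mul_assoc]
  rw [sum_congr rfl h1, sum_congr rfl h2]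
  have h3 := q_eq (V := V) hv hi g
  have h4 : ‖V.P i g‖ ^ 2 ≤ ‖g‖ ^ 2 := pow_le_pow_left₀ (norm_nonneg _) (norm_P_le i g) 2
  have h5 : ⟪V.Hi i v, g⟫ = ⟪V.Q i v, g⟫ + ⟪V.Hi i v - V.Q i v, g⟫ := by
    rw [← inner_add_left]; simp
  have h6 : 1 / 2 * ⟪V.Q i v, g⟫ ^ 2 ≤ ⟪V.Hi i v, g⟫ ^ 2 + ⟪V.Hi i v - V.Q i v, g⟫ ^ 2 := by
    rw [h5]
    nlinarith [sq_nonneg (⟪V.Q i v, g⟫ + 2 * ⟪V.Hi i v - V.Q i v, g⟫)]
  linarith

/-- `W.H i (R g) = T (V.H i g)`. -/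
theorem H_R (hT : IsT1 V W v i) (hi : i ≤ V.n) (g : E) :
    W.H i (W.Hi i (Ts v 1 (V.H i g))) = Ts v 1 (V.H i g) := by
  rw [H_Hi (by rw [hT.n]; exact hi), P_of_mem W (mem_W hT (H_mem V i g))]

/-! ### the own-block vector of `W` -/

/-- `z = Q_i v + (α²/(1-b_{i+1})) P_{i+1} v`, so that `T z` spans the new direction. -/
noncomputable def zz (V : Flag E) (v : E) (i : ℕ) : E :=
  V.Q i v + (‖V.Q i v‖ ^ 2 / (1 - V.b v (i + 1))) • V.P (i + 1) v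

lemma zz_mem : zz V v i ∈ V.M i :=
  (V.M i).add_mem (Q_mem i v) ((V.M i).smul_mem _ (V.anti (Nat.le_succ i) (P_mem V (i + 1) v)))

lemma al_sq (V : Flag E) (v : E) (i : ℕ) : ‖V.Q i v‖ ^ 2 = V.b v i - V.b v (i + 1) :=
  norm_Q_sq i v

/-- `⟪v, x⟫ = ⟪Q_i v, x⟫ + ⟪P_{i+1} v, x⟫` on `M_i`. -/
lemma inner_v_of_mem {x : E} (hx : x ∈ V.M i) :
    ⟪v, x⟫ = ⟪V.Q i v, x⟫ + ⟪V.P (i + 1) v, x⟫ := by
  rw [← inner_add_left]
  have : V.Q i v + V.P (i + 1) v = V.P i v := by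
    show (V.P i - V.P (i + 1)) v + V.P (i + 1) v = V.P i v
    simp
  rw [this, inner_P_of_mem V hx]

/-- `⟪T z, T x⟫ = (1-b_i)/(1-b_{i+1}) ⟪Q_i v, x⟫` for `x ∈ M_i`. -/
lemma inner_Tz (hv : ‖v‖ = 1) (hb : V.b v (i + 1) < 1) {x : E} (hx : x ∈ V.M i) :
    ⟪Ts v 1 (zz V v i), Ts v 1 x⟫
      = (1 - V.b v i) / (1 - V.b v (i + 1)) * ⟪V.Q i v, x⟫ := by
  have hne : 1 - V.b v (i + 1) ≠ 0 := by linarith
  have h1 : ⟪v, zz V v i⟫ = ‖V.Q i v‖ ^ 2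
      + ‖V.Q i v‖ ^ 2 / (1 - V.b v (i + 1)) * V.b v (i + 1) := by
    unfold zz
    rw [inner_add_right, inner_smul_right, inner_P_self]
    have : ⟪v, V.Q i v⟫ = ‖V.Q i v‖ ^ 2 := by
      rw [← real_inner_self_eq_norm_sq, inner_Q]
      congr 1
      exact (QPlus711.Qj_Qj_self V.anti i v).symm
    rw [this]; rfl
  have h2 := inner_v_of_mem (V := V) (v := v) hx
  rw [inner_Ts1_Ts1 hv, h1, h2]
  unfold zz
  rw [inner_add_left, inner_smul_left, al_sq]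
  simp only [RCLike.conj_to_real]
  field_simp
  ring

lemma inner_Q_of_next {x : E} (hx : x ∈ V.M (i + 1)) : ⟪V.Q i v, x⟫ = 0 := by
  show ⟪(V.P i - V.P (i + 1)) v, x⟫ = 0
  rw [_root_.sub_apply, inner_sub_left, inner_P_of_mem V hx,
    inner_P_of_mem V (V.anti (Nat.le_succ i) hx), sub_self]

lemma inner_Q_zz : ⟪V.Q i v, zz V v i⟫ = ‖V.Q i v‖ ^ 2 := by
  unfold zz
  rw [inner_add_right, inner_smul_right, inner_Q_of_next (P_mem V (i + 1) v), mul_zero, add_zero,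
    real_inner_self_eq_norm_sq]

lemma norm_Tz_sq (hv : ‖v‖ = 1) (hb : V.b v (i + 1) < 1) :
    ‖Ts v 1 (zz V v i)‖ ^ 2
      = (1 - V.b v i) / (1 - V.b v (i + 1)) * ‖V.Q i v‖ ^ 2 := by
  rw [← real_inner_self_eq_norm_sq, inner_Tz hv hb zz_mem, inner_Q_zz]

lemma Q_Tz (hT : IsT1 V W v i) (hv : ‖v‖ = 1) (hb : V.b v (i + 1) < 1) :
    W.Q i (Ts v 1 (zz V v i)) = Ts v 1 (zz V v i) := by
  show (W.P i - W.P (i + 1)) _ = _
  have h1 : W.P i (Ts v 1 (zz V v i)) = Ts v 1 (zz V v i) := P_of_mem W (mem_W hT zz_mem)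
  have h2 : W.P (i + 1) (Ts v 1 (zz V v i)) = 0 := by
    refine Submodule.eq_starProjection_of_mem_of_inner_eq_zero (zero_mem _) ?_ |>.trans ?_
    · intro w hw
      rw [hT.M (i + 1) (Nat.le_succ i)] at hw
      obtain ⟨y, hy, rfl⟩ := Submodule.mem_map.mp hw
      rw [ContinuousLinearMap.coe_coe, sub_zero, inner_Tz hv hb (V.anti (Nat.le_succ i) hy),
        inner_Q_of_next hy, mul_zero]
    · rfl
  rw [_root_.sub_apply, h1, h2, sub_zero]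

/-- (b) the unit vector of the block `i` of `W` in the direction `T v`. -/
theorem exists_n' (hT : IsT1 V W v i) (hv : ‖v‖ = 1) (hb : V.b v i < 1) (ha : V.Q i v ≠ 0) :
    ∃ n' : E, ‖n'‖ = 1 ∧ W.Q i n' = n' ∧ ∀ x ∈ V.M i,
      ‖V.Q i v‖ ^ 2 * ⟪n', Ts v 1 x⟫ ^ 2 ≤ ⟪V.Q i v, x⟫ ^ 2 := by
  have hb1 : V.b v (i + 1) < 1 := (b_anti (V := V) (v := v) (Nat.le_succ i)).trans_lt hb
  have hκ : 0 < (1 - V.b v i) / (1 - V.b v (i + 1)) := div_pos (by linarith) (by linarith)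
  have hκ1 : (1 - V.b v i) / (1 - V.b v (i + 1)) ≤ 1 := by
    rw [div_le_one (by linarith)]
    linarith [b_anti (V := V) (v := v) (Nat.le_succ i)]
  have ha2 : 0 < ‖V.Q i v‖ ^ 2 := by have := norm_pos_iff.2 ha; positivity
  set z := Ts v 1 (zz V v i) with hz
  have hz2 := norm_Tz_sq hv hb1
  rw [← hz] at hz2
  have hz0 : 0 < ‖z‖ ^ 2 := by rw [hz2]; positivity
  have hzn : ‖z‖ ≠ 0 := by intro h; rw [h] at hz0; norm_num at hz0
  refine ⟨‖z‖⁻¹ • z, ?_, ?_, ?_⟩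
  · rw [norm_smul, norm_inv, norm_norm, inv_mul_cancel₀ hzn]
  · rw [map_smul, Q_Tz hT hv hb1]
  · intro x hx
    rw [inner_smul_left, inner_Tz hv hb1 hx]
    simp only [RCLike.conj_to_real, mul_pow, inv_pow]
    rw [hz2]
    set κ := (1 - V.b v i) / (1 - V.b v (i + 1)) with hκd
    have : ‖V.Q i v‖ ^ 2 * ((κ * ‖V.Q i v‖ ^ 2)⁻¹ * (κ ^ 2 * ⟪V.Q i v, x⟫ ^ 2))
        = κ * ⟪V.Q i v, x⟫ ^ 2 := by
      field_simp
    rw [this]
    exact mul_le_of_le_one_left (by positivity) hκ1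

lemma Hi_of_Q_eq (hi : i < V.n) {w : E} (hw : V.Q i w = w) : V.Hi i w = w := by
  have := Hi_of_Q (V := V) hi w
  rwa [hw] at this

/-- **(N) at a level `i > I` with the own-block vector of `W`** (gain `‖Q_i v‖²/2`). -/
theorem N_gain (hT : IsT1 V W v i) (hv : ‖v‖ = 1) (hi : i < V.n) (hb : V.b v i < 1)
    (ha : V.Q i v ≠ 0) : ∃ n' : E, ‖n'‖ = 1 ∧ W.Q i n' = n' ∧ ∀ g : E,
      ‖W.Hi i (Ts v 1 (V.H i g))‖ ^ 2
        + ‖V.Q i v‖ ^ 2 / 2 * ⟪n', W.Hi i (Ts v 1 (V.H i g))⟫ ^ 2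
      ≤ ‖g‖ ^ 2 + ∑ k ∈ Jx V i, ⟪ux V v i k, g⟫ ^ 2 := by
  obtain ⟨n', h1, h2, h3⟩ := exists_n' hT hv hb ha
  refine ⟨n', h1, h2, fun g => ?_⟩
  have h4 := N_base hT hv hi g
  have h5 : ⟪n', W.Hi i (Ts v 1 (V.H i g))⟫ = ⟪n', Ts v 1 (V.H i g)⟫ := by
    rw [← inner_Hi, Hi_of_Q_eq (V := W) (by rw [hT.n]; exact hi) h2]
  have h6 := h3 _ (H_mem V i g)
  have h7 : ⟪V.Q i v, V.H i g⟫ = ⟪V.Q i v, g⟫ := by
    rw [← inner_H, H_of_Q hi]
  rw [h5]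
  rw [h7] at h6
  linarith

end fcalc

end Crest.Agent.R239.LD3
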