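import Mathlib
import Crest.Agent.R239.FDef
import Crest.Agent.R239.L0_942

/-!
R239 (S0370), line D / one-step (U3): final wiring from the TWO-SIDED growth statement
(`C1 eta S' ≤ lam_I ≤ 2 C1 eta S'`) with `U = Σ_{k < K} Ut (bottom level 2^k, ratio 2^K)`.
-/

set_option autoImplicit false
set_option linter.unusedSectionVars false
open MeasureTheory ProbabilityTheory
open scoped RealInnerProductSpace

namespace Crest.Agent.R239.LD718

open Crest.Agent.R239.FD

variable {E : Type*} [NormedAddCommGroup E] [InnerProductSpace ℝ E] [FiniteDimensional ℝ E]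
  [MeasurableSpace E] [BorelSpace E]

/-- (U3), two-sided form, for one parameter set -/
def P_U3two (E : Type*) [NormedAddCommGroup E] [InnerProductSpace ℝ E] [FiniteDimensional ℝ E]
    [MeasurableSpace E] [BorelSpace E] (p : Par) (C1 eta c : ℝ) : Prop :=
  ∀ (I : ℕ) (v : E) (s : Multiset (E × E)), ‖v‖ = 1 →
    2 * S (s.map fun q => q.1 + q.2) v < S (s.map Prod.fst + s.map Prod.snd) v →
    C1 * eta * S (s.map Prod.fst + s.map Prod.snd) v ≤ p.lam I →
    p.lam I ≤ 2 * (C1 * eta * S (s.map Prod.fst + s.map Prod.snd) v) →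
    Ut p (s.map fun q => q.1 + q.2) + c * S (s.map Prod.fst + s.map Prod.snd) v
      ≤ Ut p (s.map Prod.fst + s.map Prod.snd)

/-- target: the two-sided one-parameter growth -/
def Target_U3two : Prop := ∃ C1 eta c kap rho A0 : ℝ, 0 < C1 ∧ 0 < eta ∧ 0 < c ∧
  ∀ A tau : ℝ, A0 ≤ A → 0 < tau → (⟨rho, kap, A, tau⟩ : Par).Ok ∧
    ∀ d : ℕ, P_U3two (EuclideanSpace ℝ (Fin d)) ⟨rho, kap, A, tau⟩ C1 eta c

/-- the zero flag -/
def flag0 (E : Type*) [NormedAddCommGroup E] [InnerProductSpace ℝ E] : Flag E where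
  n := 0
  M := fun _ => ⊥
  anti := fun _ _ _ => le_rfl
  bot := fun _ _ => rfl

lemma J_flag0 (p : Par) (μ : Multiset E) : J p (flag0 E) μ = 0 := by
  simp [J, flag0]

/-- bound of `J` for all flags -/
lemma J_le {p : Par} {C : ℝ} (h2 : P_U2 E p C) (h0 : P_J0 E p) (V : Flag E) (μ : Multiset E) :
    J p V μ ≤ (μ.map fun z => C * Real.sqrt (Module.finrank ℝ E) * ‖z‖).sum := by
  induction μ using Multiset.induction_on with
  | empty => simpa using h0 V
  | cons z μ ih =>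
    rw [Multiset.map_cons, Multiset.sum_cons]
    have := h2 V z μ
    linarith

lemma J_bdd {p : Par} {C : ℝ} (h2 : P_U2 E p C) (h0 : P_J0 E p) (μ : Multiset E) :
    BddAbove (Set.range fun V : Flag E => J p V μ) := by
  refine ⟨(μ.map fun z => C * Real.sqrt (Module.finrank ℝ E) * ‖z‖).sum, ?_⟩
  rintro _ ⟨V, rfl⟩
  exact J_le h2 h0 V μ

lemma J_le_Ut {p : Par} {C : ℝ} (h2 : P_U2 E p C) (h0 : P_J0 E p) (V : Flag E) (μ : Multiset E) :
    J p V μ ≤ Ut p μ := le_csSup (J_bdd h2 h0 μ) ⟨V, rfl⟩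

lemma Ut_le {p : Par} {μ : Multiset E} {a : ℝ} (h : ∀ V : Flag E, J p V μ ≤ a) : Ut p μ ≤ a := by
  refine csSup_le ⟨_, ⟨flag0 E, rfl⟩⟩ ?_
  rintro _ ⟨V, rfl⟩
  exact h V

lemma Ut_nonneg {p : Par} {C : ℝ} (h2 : P_U2 E p C) (h0 : P_J0 E p) (μ : Multiset E) :
    0 ≤ Ut p μ := by
  have := J_le_Ut h2 h0 (flag0 E) μ
  rwa [J_flag0] at this

lemma Ut_mono {p : Par} {C : ℝ} (h2 : P_U2 E p C) (h0 : P_J0 E p) (h1 : P_D_mono E p)
    (s : Multiset (E × E)) :
    Ut p (s.map fun q => q.1 + q.2) ≤ Ut p (s.map Prod.fst + s.map Prod.snd) := by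
  refine Ut_le fun V => le_trans ?_ (J_le_Ut h2 h0 V _)
  unfold J
  refine Finset.sum_le_sum fun i _ => ?_
  have := h1 V i s
  linarith

lemma Ut_lip {p : Par} {C : ℝ} (h2 : P_U2 E p C) (h0 : P_J0 E p) (z : E) (μ : Multiset E) :
    Ut p (z ::ₘ μ) ≤ Ut p μ + C * Real.sqrt (Module.finrank ℝ E) * ‖z‖ := by
  refine Ut_le fun V => ?_
  have a := h2 V z μ
  have b := J_le_Ut h2 h0 V μ
  linarith

lemma exists_pow_two {x : ℝ} (hx : 1 ≤ x) : ∃ n : ℕ, x ≤ 2 ^ n ∧ (2 : ℝ) ^ n ≤ 2 * x := by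
  obtain ⟨n, h1, h2⟩ := exists_nat_pow_near hx (by norm_num : (1 : ℝ) < 2)
  refine ⟨n + 1, h2.le, ?_⟩
  rw [pow_succ]
  linarith

/-- **final wiring of the two-sided line** -/
theorem S0370_of_two (hU2 : ∀ p : Par, p.Ok → ∃ C : ℝ, 0 ≤ C ∧ ∀ d : ℕ,
      P_U2 (EuclideanSpace ℝ (Fin d)) p C ∧ P_J0 (EuclideanSpace ℝ (Fin d)) p ∧
      P_D_mono (EuclideanSpace ℝ (Fin d)) p) (h3 : Target_U3two) :
    ∃ C : ℝ, ∀ (d N : ℕ) (v : Fin N → EuclideanSpace ℝ (Fin d)),
      (∀ i, ‖v i‖ ≤ 1) →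
      ∃ ε : Fin N → ℤ, (∀ i, ε i = 1 ∨ ε i = -1) ∧
        ∀ k : ℕ, k ≤ N →
          ‖∑ i ∈ Finset.univ.filter (fun i : Fin N => (i : ℕ) < k), (ε i : ℝ) • v i‖
            ≤ C * Real.sqrt d := by
  obtain ⟨C1, eta, c, kap, rho, A0, hC1, heta, hc, H⟩ := h3
  obtain ⟨K, hK1, hK2⟩ : ∃ K : ℕ, A0 ≤ 2 ^ K ∧ 1 ≤ K := by
    obtain ⟨K, hK⟩ := pow_unbounded_of_one_lt A0 (by norm_num : (1 : ℝ) < 2)
    refine ⟨K + 1, ?_, by omega⟩
    rw [pow_succ]
    have : (0 : ℝ) < 2 ^ K := by positivity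
    linarith
  set q : ℕ → Par := fun k => ⟨rho, kap, 2 ^ K, 2 ^ k⟩ with hq
  have hOk : ∀ k, (q k).Ok := fun k => (H (2 ^ K) (2 ^ k) hK1 (by positivity)).1
  have hG : ∀ k d, P_U3two (EuclideanSpace ℝ (Fin d)) (q k) C1 eta c := fun k =>
    (H (2 ^ K) (2 ^ k) hK1 (by positivity)).2
  choose Cq hCq0 hCq using fun k => hU2 (q k) (hOk k)
  refine L0.S0370_of_U (∑ k ∈ Finset.range K, Cq k) c (c / (C1 * eta)) hc
    (fun d m => ∑ k ∈ Finset.range K, Ut (q k) m) ?_ ?_ ?_ ?_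
  · intro d m
    exact Finset.sum_nonneg fun k _ => Ut_nonneg (hCq k d).1 (hCq k d).2.1 m
  · intro d s
    exact Finset.sum_le_sum fun k _ => Ut_mono (hCq k d).1 (hCq k d).2.1 (hCq k d).2.2 s
  · intro d z m
    rw [Finset.sum_mul, Finset.sum_mul, ← Finset.sum_add_distrib]
    refine Finset.sum_le_sum fun k _ => ?_
    have := Ut_lip (hCq k d).1 (hCq k d).2.1 z m
    rwa [finrank_euclideanSpace_fin] at this
  · intro d v s hv
    have hmono : ∀ k, Ut (q k) (L0.mrg s) ≤ Ut (q k) (L0.spl s) := fun k =>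
      Ut_mono (hCq k d).1 (hCq k d).2.1 (hCq k d).2.2 s
    have hsum : ∑ k ∈ Finset.range K, Ut (q k) (L0.mrg s)
        ≤ ∑ k ∈ Finset.range K, Ut (q k) (L0.spl s) := Finset.sum_le_sum fun k _ => hmono k
    have hdl : 0 ≤ c / (C1 * eta) := by positivity
    have hm0 := L0.S_nonneg (L0.mrg s) v
    rcases le_or_gt (L0.S (L0.spl s) v) (2 * L0.S (L0.mrg s) v) with h | h
    · have : c * (L0.S (L0.spl s) v - 2 * L0.S (L0.mrg s) v) ≤ 0 :=
        mul_nonpos_of_nonneg_of_nonpos hc.le (by linarith)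
      linarith
    · have hCe : 0 < C1 * eta := by positivity
      rcases le_or_gt (C1 * eta * L0.S (L0.spl s) v) 1 with h1 | h1
      · have h2 : c * L0.S (L0.spl s) v ≤ c / (C1 * eta) := by
          rw [le_div_iff₀ hCe]
          nlinarith
        nlinarith
      · obtain ⟨n, hn1, hn2⟩ := exists_pow_two h1.le
        have hlam : (q (n % K)).lam (n / K) = 2 ^ n := by
          simp only [Par.lam, hq]
          rw [← pow_mul, ← pow_add, Nat.mod_add_div]
        have hk : n % K < K := Nat.mod_lt _ (by omega)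
        have hg := hG (n % K) d (n / K) v s hv h (by rw [hlam]; exact hn1)
          (by rw [hlam]; exact hn2)
        have h3 : ∑ k ∈ Finset.range K, Ut (q k) (L0.mrg s) + c * L0.S (L0.spl s) v
            ≤ ∑ k ∈ Finset.range K, Ut (q k) (L0.spl s) := by
          rw [← Finset.add_sum_erase _ _ (Finset.mem_range.2 hk),
            ← Finset.add_sum_erase (Finset.range K) (fun k => Ut (q k) (L0.spl s))
              (Finset.mem_range.2 hk)]
          have h4 : ∑ k ∈ (Finset.range K).erase (n % K), Ut (q k) (L0.mrg s)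
              ≤ ∑ k ∈ (Finset.range K).erase (n % K), Ut (q k) (L0.spl s) :=
            Finset.sum_le_sum fun k _ => hmono k
          have h5 : Ut (q (n % K)) (L0.mrg s) + c * L0.S (L0.spl s) v
              ≤ Ut (q (n % K)) (L0.spl s) := hg
          linarith
        have h6 : c * (L0.S (L0.spl s) v - 2 * L0.S (L0.mrg s) v) ≤ c * L0.S (L0.spl s) v := by
          nlinarith
        linarith

end Crest.Agent.R239.LD718
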