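import Mathlib

/-!
R239 (S0370), one-step line (doc 2447 / 2444), block (f): the sum over all levels, real sequences
only.  `lam i = tau A^i`, `b i = ‖P_i v‖^2`, `DV`, `DW` the level values of the two flags.
-/

set_option autoImplicit false
set_option linter.unusedVariables false

namespace Crest.Agent.R239.LD718

open Finset

lemma geo_lt {R A : ℝ} (hR : 0 ≤ R) (hA : 0 < A) (h : 2 * R ≤ A) (j : ℕ) :
    ∑ i ∈ range j, A ^ i * R ^ (j - i) ≤ 2 * (R / A) * A ^ j := by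
  induction j with
  | zero => simp; positivity
  | succ j ih =>
    have e : ∑ i ∈ range (j + 1), A ^ i * R ^ (j + 1 - i)
        = R * (∑ i ∈ range j, A ^ i * R ^ (j - i) + A ^ j) := by
      rw [sum_range_succ, mul_add, mul_sum]
      congr 1
      · refine sum_congr rfl fun i hi => ?_
        have hij : i < j := mem_range.1 hi
        have : j + 1 - i = (j - i) + 1 := by omega
        rw [this, pow_succ]
        ring
      · have : j + 1 - j = 1 := by omega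
        rw [this, pow_one]
        ring
    have hAj : 0 < A ^ j := pow_pos hA j
    have h1 : 2 * (R / A) ≤ 1 := by
      rw [← mul_div_assoc, div_le_one hA]
      exact h
    have h2 : ∑ i ∈ range j, A ^ i * R ^ (j - i) ≤ A ^ j := by nlinarith
    rw [e]
    calc R * (∑ i ∈ range j, A ^ i * R ^ (j - i) + A ^ j) ≤ R * (A ^ j + A ^ j) := by gcongr
      _ = 2 * (R / A) * A ^ (j + 1) := by
        rw [pow_succ]
        field_simp
        ring

lemma geo_le {A : ℝ} (hA : 2 ≤ A) (I : ℕ) : ∑ i ∈ range (I + 1), A ^ i ≤ 2 * A ^ I := by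
  induction I with
  | zero => simp
  | succ I ih =>
    rw [sum_range_succ]
    have : 0 < A ^ I := by positivity
    rw [pow_succ A I]
    nlinarith

lemma geo_Ico {A : ℝ} (hA : 2 ≤ A) {I m : ℕ} (h : I ≤ m) :
    ∑ i ∈ Ico (I + 1) (m + 1), A ^ i ≤ 2 * (A ^ m - A ^ I) := by
  induction m, h using Nat.le_induction with
  | base => simp
  | succ m hm ih =>
    rw [sum_Ico_succ_top (by omega)]
    have : 0 < A ^ m := by positivity
    rw [pow_succ A m]
    nlinarith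

lemma geo_half (I n : ℕ) : ∑ i ∈ Ico (I + 1) n, (1 / 2 : ℝ) ^ (i - I) ≤ 1 := by
  rcases le_or_gt n (I + 1) with h | h
  · rw [Ico_eq_empty (by omega)]
    simp
  · obtain ⟨k, rfl⟩ : ∃ k, n = I + 1 + k := ⟨n - (I + 1), by omega⟩
    rw [sum_Ico_eq_sum_range]
    have e : I + 1 + k - (I + 1) = k := by omega
    rw [e]
    have h2 : ∀ k : ℕ, ∑ i ∈ range k, (1 / 2 : ℝ) ^ (I + 1 + i - I) ≤ 1 - (1 / 2) ^ k := by
      intro k
      induction k with
      | zero => simp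
      | succ k ih =>
        rw [sum_range_succ]
        have e2 : I + 1 + k - I = k + 1 := by omega
        rw [e2, pow_succ]
        linarith
    have := h2 k
    have h3 : (0 : ℝ) ≤ (1 / 2) ^ k := by positivity
    linarith

/-- Abel summation: the sizes are controlled by the increments -/
lemma abel_lam {A tau : ℝ} (hA : 2 ≤ A) (ht : 0 < tau) {b : ℕ → ℝ} {n : ℕ}
    (hb0 : ∀ i, 0 ≤ b i) (hbn : ∀ i, n ≤ i → b i = 0) (m : ℕ) :
    ∑ i ∈ Ico (m + 1) n, tau * A ^ i * b i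
      ≤ 2 * ∑ i ∈ Ico (m + 1) n, tau * A ^ i * (b i - b (i + 1)) := by
  have h1 : ∑ i ∈ Ico (m + 1) n, tau * A ^ i * b (i + 1)
      ≤ (1 / 2) * ∑ i ∈ Ico (m + 1) n, tau * A ^ i * b i := by
    have h2 : ∑ i ∈ Ico (m + 1) n, tau * A ^ i * b (i + 1)
        ≤ ∑ i ∈ Ico (m + 1) n, (1 / 2) * (tau * A ^ (i + 1) * b (i + 1)) := by
      refine sum_le_sum fun i _ => ?_
      have h3 : 0 ≤ tau * A ^ i * b (i + 1) := by
        have := hb0 (i + 1)
        positivity
      rw [pow_succ]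
      nlinarith
    refine h2.trans ?_
    rw [← mul_sum]
    refine mul_le_mul_of_nonneg_left ?_ (by norm_num)
    rcases le_or_gt n (m + 1) with h | h
    · rw [Ico_eq_empty (by omega)]
      simp
    · have e1 : ∑ i ∈ Ico (m + 1) n, tau * A ^ (i + 1) * b (i + 1)
          = ∑ i ∈ Ico (m + 2) (n + 1), tau * A ^ i * b i := by
        rw [← sum_Ico_add' (fun i => tau * A ^ i * b i) (m + 1) n 1]
      rw [e1, sum_Ico_succ_top (by omega), hbn n le_rfl, mul_zero, add_zero]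
      refine sum_le_sum_of_subset_of_nonneg (Ico_subset_Ico (by omega) le_rfl) fun i _ _ => ?_
      have := hb0 i
      positivity
  have e : ∑ i ∈ Ico (m + 1) n, tau * A ^ i * (b i - b (i + 1))
      = ∑ i ∈ Ico (m + 1) n, tau * A ^ i * b i - ∑ i ∈ Ico (m + 1) n, tau * A ^ i * b (i + 1) := by
    rw [← sum_sub_distrib]
    exact sum_congr rfl fun i _ => by ring
  rw [e]
  linarith

/-- double sum at the levels `≤ I` -/
lemma dbl_lo {R A tau : ℝ} (hR : 0 ≤ R) (hA : 0 < A) (h : 2 * R ≤ A) (ht : 0 < tau) {b : ℕ → ℝ}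
    (hb0 : ∀ i, 0 ≤ b i) (I n : ℕ) :
    ∑ i ∈ range (I + 1), tau * A ^ i * ∑ j ∈ Ico (I + 1) n, R ^ (j - i) * b j
      ≤ 2 * (R / A) * ∑ j ∈ Ico (I + 1) n, tau * A ^ j * b j := by
  simp_rw [mul_sum]
  rw [sum_comm]
  refine sum_le_sum fun j hj => ?_
  have hj1 : I + 1 ≤ j := (mem_Ico.1 hj).1
  have h1 := geo_lt hR hA h j
  have h2 : ∑ i ∈ range (I + 1), A ^ i * R ^ (j - i) ≤ ∑ i ∈ range j, A ^ i * R ^ (j - i) :=
    sum_le_sum_of_subset_of_nonneg (range_subset_range.2 hj1) fun i _ _ => by positivity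
  have e : ∑ i ∈ range (I + 1), tau * A ^ i * (R ^ (j - i) * b j)
      = tau * b j * ∑ i ∈ range (I + 1), A ^ i * R ^ (j - i) := by
    rw [mul_sum]
    exact sum_congr rfl fun i _ => by ring
  rw [e]
  have hb := hb0 j
  calc tau * b j * ∑ i ∈ range (I + 1), A ^ i * R ^ (j - i)
      ≤ tau * b j * (2 * (R / A) * A ^ j) :=
        mul_le_mul_of_nonneg_left (h2.trans h1) (by positivity)
    _ = 2 * (R / A) * (tau * A ^ j * b j) := by ring

/-- double sum at the levels `> I` -/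
lemma dbl_hi {R A tau : ℝ} (hR : 0 ≤ R) (hA : 0 < A) (h : 2 * R ≤ A) (ht : 0 < tau) {b : ℕ → ℝ}
    (hb0 : ∀ i, 0 ≤ b i) (I n : ℕ) :
    ∑ i ∈ Ico (I + 1) n, tau * A ^ i * ∑ j ∈ Ico (i + 1) n, R ^ (j - i) * b j
      ≤ 2 * (R / A) * ∑ j ∈ Ico (I + 1) n, tau * A ^ j * b j := by
  have e0 : ∀ i ∈ Ico (I + 1) n, tau * A ^ i * ∑ j ∈ Ico (i + 1) n, R ^ (j - i) * b j
      = ∑ j ∈ Ico (I + 1) n, if i < j then tau * A ^ i * (R ^ (j - i) * b j) else 0 := by
    intro i hi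
    have hi1 := mem_Ico.1 hi
    rw [mul_sum, ← sum_filter]
    refine sum_congr ?_ fun _ _ => rfl
    ext j
    simp only [mem_Ico, mem_filter]
    omega
  rw [sum_congr rfl e0, sum_comm, mul_sum]
  refine sum_le_sum fun j hj => ?_
  have h1 := geo_lt hR hA h j
  have hb := hb0 j
  have h2 : ∑ i ∈ Ico (I + 1) n, (if i < j then tau * A ^ i * (R ^ (j - i) * b j) else 0)
      ≤ ∑ i ∈ range j, tau * A ^ i * (R ^ (j - i) * b j) := by
    rw [← sum_filter]
    refine sum_le_sum_of_subset_of_nonneg ?_ fun i _ _ => by positivity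
    intro i hi
    exact mem_range.2 (mem_filter.1 hi).2
  have e : ∑ i ∈ range j, tau * A ^ i * (R ^ (j - i) * b j)
      = tau * b j * ∑ i ∈ range j, A ^ i * R ^ (j - i) := by
    rw [mul_sum]
    exact sum_congr rfl fun i _ => by ring
  rw [e] at h2
  calc _ ≤ tau * b j * ∑ i ∈ range j, A ^ i * R ^ (j - i) := h2
    _ ≤ tau * b j * (2 * (R / A) * A ^ j) := mul_le_mul_of_nonneg_left h1 (by positivity)
    _ = 2 * (R / A) * (tau * A ^ j * b j) := by ring

/-- **sum over the levels**: real sequences.  `m` = a level above which everything gains. -/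
theorem level_sum {A tau kap sm K R c1 c2 c3 th2 ls : ℝ} {n I m : ℕ}
    {b DV DW G kV kW : ℕ → ℝ}
    (hA : 2 ≤ A) (hRA : 2 * R ≤ A) (hR : 0 ≤ R) (hth : 0 ≤ th2) (hthA : 2 * th2 ≤ A)
    (ht : 0 < tau) (hK : 0 ≤ K) (hsm : 0 ≤ sm) (hc2 : 0 ≤ c2) (hc3 : 0 ≤ c3) (hc1 : 0 < c1)
    (hcc : 2 * (sm + 4 * K * (R / A)) ≤ c1)
    (hb0 : ∀ i, 0 ≤ b i) (hb1 : ∀ i, b i ≤ 1) (hbn : ∀ i, n ≤ i → b i = 0)
    (hIn : I < n) (hIm : I ≤ m) (hmn : m < n)
    (hlo : ∀ i, i ≤ I → DV i - tau * A ^ i * (c2 + c3 * (th2 ^ (I - i) - 1)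
        + K * ∑ j ∈ Ico (I + 1) n, R ^ (j - i) * b j) ≤ DW i)
    (hG : ∀ i, I < i → i < n → 0 ≤ G i)
    (hhi : ∀ i, I < i → i < n → DV i + G i
        - tau * A ^ i * (sm * b i + K * ∑ j ∈ Ico (i + 1) n, R ^ (j - i) * b j)
        - sm * (1 / 2) ^ (i - I) * (tau * A ^ I) ≤ DW i)
    (hpen : ∑ i ∈ range n, tau * A ^ i * kW i
        ≤ ∑ i ∈ range n, tau * A ^ i * kV i + tau * A ^ I - ls)
    (hgain : c1 * ∑ i ∈ Ico (m + 1) n, tau * A ^ i * (b i - b (i + 1))
        ≤ ∑ i ∈ Ico (m + 1) n, G i + kap * ls)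
    (hkap : 0 ≤ kap) :
    ∑ i ∈ range n, (DV i - kap * (tau * A ^ i) * kV i)
        - tau * A ^ I * (kap + sm + 2 * c2 + 2 * c3 * (th2 / A))
        - 2 * (sm + 4 * K * (R / A)) * (tau * A ^ m - tau * A ^ I)
      ≤ ∑ i ∈ range n, (DW i - kap * (tau * A ^ i) * kW i) := by
  have hA0 : 0 < A := by linarith
  have hAI : 0 < tau * A ^ I := by positivity
  set Lam : ℝ := ∑ j ∈ Ico (I + 1) n, tau * A ^ j * b j with hLam
  set s2 : ℝ := sm + 4 * K * (R / A) with hs2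
  have hs2n : 0 ≤ s2 := by positivity
  -- levels ≤ I
  have L1 : ∑ i ∈ range (I + 1), DV i - (2 * c2 + 2 * c3 * (th2 / A)) * (tau * A ^ I)
      - K * (2 * (R / A) * Lam) ≤ ∑ i ∈ range (I + 1), DW i := by
    have h1 : ∑ i ∈ range (I + 1), (DV i - tau * A ^ i * (c2 + c3 * (th2 ^ (I - i) - 1)
        + K * ∑ j ∈ Ico (I + 1) n, R ^ (j - i) * b j))
        ≤ ∑ i ∈ range (I + 1), DW i :=
      sum_le_sum fun i hi => hlo i (by have := mem_range.1 hi; omega)
    have h2 : ∑ i ∈ range (I + 1), (DV i - tau * A ^ i * (c2 + c3 * (th2 ^ (I - i) - 1)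
        + K * ∑ j ∈ Ico (I + 1) n, R ^ (j - i) * b j))
        = ∑ i ∈ range (I + 1), DV i - c2 * tau * ∑ i ∈ range (I + 1), A ^ i
          - c3 * tau * ∑ i ∈ range (I + 1), A ^ i * (th2 ^ (I - i) - 1)
          - K * ∑ i ∈ range (I + 1), tau * A ^ i * ∑ j ∈ Ico (I + 1) n, R ^ (j - i) * b j := by
      rw [mul_sum _ _ (c2 * tau), mul_sum _ _ (c3 * tau), mul_sum _ _ K, ← sum_sub_distrib,
        ← sum_sub_distrib, ← sum_sub_distrib]
      exact sum_congr rfl fun i _ => by ring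
    have h3 : ∑ i ∈ range (I + 1), A ^ i * (th2 ^ (I - i) - 1) ≤ 2 * (th2 / A) * A ^ I := by
      rw [sum_range_succ, Nat.sub_self, pow_zero, sub_self, mul_zero, add_zero]
      refine le_trans (sum_le_sum fun i _ => ?_) (geo_lt hth hA0 hthA I)
      have : 0 < A ^ i := by positivity
      nlinarith
    have h4 := geo_le hA I
    have h5 := dbl_lo hR hA0 hRA ht hb0 I n
    have h6 : c2 * tau * ∑ i ∈ range (I + 1), A ^ i ≤ c2 * tau * (2 * A ^ I) :=
      mul_le_mul_of_nonneg_left h4 (by positivity)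
    have h7 : c3 * tau * ∑ i ∈ range (I + 1), A ^ i * (th2 ^ (I - i) - 1)
        ≤ c3 * tau * (2 * (th2 / A) * A ^ I) := mul_le_mul_of_nonneg_left h3 (by positivity)
    have h8 := mul_le_mul_of_nonneg_left h5 hK
    rw [h2] at h1
    have e1 : (2 * c2 + 2 * c3 * (th2 / A)) * (tau * A ^ I)
        = c2 * tau * (2 * A ^ I) + c3 * tau * (2 * (th2 / A) * A ^ I) := by ring
    rw [e1]
    linarith
  -- levels > I
  have L2 : ∑ i ∈ Ico (I + 1) n, DV i + ∑ i ∈ Ico (I + 1) n, G i - sm * Lam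
      - K * (2 * (R / A) * Lam) - sm * (tau * A ^ I) ≤ ∑ i ∈ Ico (I + 1) n, DW i := by
    have h1 : ∑ i ∈ Ico (I + 1) n, (DV i + G i
        - tau * A ^ i * (sm * b i + K * ∑ j ∈ Ico (i + 1) n, R ^ (j - i) * b j)
        - sm * (1 / 2) ^ (i - I) * (tau * A ^ I)) ≤ ∑ i ∈ Ico (I + 1) n, DW i :=
      sum_le_sum fun i hi => hhi i (by have := mem_Ico.1 hi; omega) (mem_Ico.1 hi).2
    have h2 : ∑ i ∈ Ico (I + 1) n, (DV i + G i
        - tau * A ^ i * (sm * b i + K * ∑ j ∈ Ico (i + 1) n, R ^ (j - i) * b j)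
        - sm * (1 / 2) ^ (i - I) * (tau * A ^ I))
        = ∑ i ∈ Ico (I + 1) n, DV i + ∑ i ∈ Ico (I + 1) n, G i - sm * Lam
          - K * ∑ i ∈ Ico (I + 1) n, tau * A ^ i * ∑ j ∈ Ico (i + 1) n, R ^ (j - i) * b j
          - sm * (tau * A ^ I) * ∑ i ∈ Ico (I + 1) n, (1 / 2 : ℝ) ^ (i - I) := by
      rw [hLam, mul_sum _ _ sm, mul_sum _ _ K, mul_sum _ _ (sm * (tau * A ^ I)),
        ← sum_add_distrib, ← sum_sub_distrib, ← sum_sub_distrib, ← sum_sub_distrib]
      exact sum_congr rfl fun i _ => by ring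
    have h3 := dbl_hi hR hA0 hRA ht hb0 I n
    have h4 := mul_le_mul_of_nonneg_left h3 hK
    have h5 : sm * (tau * A ^ I) * ∑ i ∈ Ico (I + 1) n, (1 / 2 : ℝ) ^ (i - I)
        ≤ sm * (tau * A ^ I) * 1 := mul_le_mul_of_nonneg_left (geo_half I n) (by positivity)
    rw [h2] at h1
    linarith
  -- `Lam`
  have L3 : Lam ≤ 2 * (tau * A ^ m - tau * A ^ I)
      + 2 * ∑ i ∈ Ico (m + 1) n, tau * A ^ i * (b i - b (i + 1)) := by
    have e : Lam = ∑ i ∈ Ico (I + 1) (m + 1), tau * A ^ i * b i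
        + ∑ i ∈ Ico (m + 1) n, tau * A ^ i * b i :=
      (sum_Ico_consecutive _ (by omega) (by omega)).symm
    have h1 : ∑ i ∈ Ico (I + 1) (m + 1), tau * A ^ i * b i
        ≤ tau * ∑ i ∈ Ico (I + 1) (m + 1), A ^ i := by
      rw [mul_sum]
      refine sum_le_sum fun i _ => ?_
      have h2 := hb1 i
      have h3 : 0 < tau * A ^ i := by positivity
      nlinarith
    have h4 := mul_le_mul_of_nonneg_left (geo_Ico hA hIm) ht.le
    have h5 := abel_lam hA ht hb0 hbn m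
    rw [e]
    linarith
  -- gains
  have L4 : ∑ i ∈ Ico (m + 1) n, G i ≤ ∑ i ∈ Ico (I + 1) n, G i :=
    sum_le_sum_of_subset_of_nonneg (Ico_subset_Ico (by omega) le_rfl) fun i hi _ =>
      hG i (by have := mem_Ico.1 hi; omega) (mem_Ico.1 hi).2
  have L5 : s2 * Lam ≤ 2 * s2 * (tau * A ^ m - tau * A ^ I)
      + (∑ i ∈ Ico (I + 1) n, G i + kap * ls) := by
    have hX : 0 ≤ ∑ i ∈ Ico (m + 1) n, tau * A ^ i * (b i - b (i + 1)) := by
      have h5 := abel_lam hA ht hb0 hbn m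
      have h6 : 0 ≤ ∑ i ∈ Ico (m + 1) n, tau * A ^ i * b i :=
        sum_nonneg fun i _ => by have := hb0 i; positivity
      linarith
    have h1 := mul_le_mul_of_nonneg_left L3 hs2n
    have h2 := mul_le_mul_of_nonneg_right hcc hX
    linarith
  have e1 : ∑ i ∈ range n, (DV i - kap * (tau * A ^ i) * kV i)
      = ∑ i ∈ range (I + 1), DV i + ∑ i ∈ Ico (I + 1) n, DV i
        - kap * ∑ i ∈ range n, tau * A ^ i * kV i := by
    rw [sum_range_add_sum_Ico _ (by omega), mul_sum, ← sum_sub_distrib]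
    exact sum_congr rfl fun i _ => by ring
  have e2 : ∑ i ∈ range n, (DW i - kap * (tau * A ^ i) * kW i)
      = ∑ i ∈ range (I + 1), DW i + ∑ i ∈ Ico (I + 1) n, DW i
        - kap * ∑ i ∈ range n, tau * A ^ i * kW i := by
    rw [sum_range_add_sum_Ico _ (by omega), mul_sum, ← sum_sub_distrib]
    exact sum_congr rfl fun i _ => by ring
  have h9 := mul_le_mul_of_nonneg_left hpen hkap
  rw [e1, e2]
  have e3 : s2 * Lam = sm * Lam + K * (2 * (R / A) * Lam) + K * (2 * (R / A) * Lam) := by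
    rw [hs2]; ring
  have e4 : tau * A ^ I * (kap + sm + 2 * c2 + 2 * c3 * (th2 / A))
      = kap * (tau * A ^ I) + sm * (tau * A ^ I) + (2 * c2 + 2 * c3 * (th2 / A)) * (tau * A ^ I) := by
    ring
  have e5 : kap * (∑ i ∈ range n, tau * A ^ i * kV i + tau * A ^ I - ls)
      = kap * ∑ i ∈ range n, tau * A ^ i * kV i + kap * (tau * A ^ I) - kap * ls := by ring
  rw [e4]
  rw [e5] at h9
  linarith

end Crest.Agent.R239.LD718
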