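import Crest.Agent.R239.Lev0_285
import Crest.Agent.R239.F5_336

/-! R239 / S0370 (helper285): `P_LEVlo` and the bad case of `P_LEVhi`, hypothesis free. -/

set_option autoImplicit false
open MeasureTheory ProbabilityTheory
open scoped RealInnerProductSpace

namespace Crest.Agent.R239.Lev0F285

open Crest.Agent.R239.FD Crest.Agent.R239.Lev0285

variable {E : Type*} [NormedAddCommGroup E] [InnerProductSpace ℝ E] [FiniteDimensional ℝ E]
  [MeasurableSpace E] [BorelSpace E]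

theorem f5r : F5R E := fun V v s i _ _ _ _ g => F5336.f5_R V v s i g

theorem f5n : F5N E := fun V _ _ i hv h0 h1 hsb => F5336.f5_N V hv h0 h1 hsb i

/-- `P_LEVlo`, all parameters -/
theorem levlo {p : Par} (hp : p.Ok) {s C9 : ℝ} (hs0 : 0 < s) (hs1 : s < 1)
    (hsb : 2 * s - s ^ 2 ≤ 1 / 2) (hC : 6 ≤ C9) : P_LEVlo E p s C9 :=
  Lev0285.levlo f5n f5r hp hs0 hs1 hsb hC

theorem levhi_bad {p : Par} (hp : p.Ok) {s c9 C9 c0 : ℝ} (hs0 : 0 < s)
    (hs1 : s < 1) (hsb : 2 * s - s ^ 2 ≤ 1 / 2) (hc9 : 0 ≤ c9) (hc0 : 0 < c0)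
    (hC : 1 + (3 + c9) / c0 ≤ C9) (V : Flag E) (μ : Multiset E) (v : E) (I i : ℕ) (hv : ‖v‖ = 1)
    (hS : S μ v ≤ p.lam I) (hIi : I ≤ i) (hi : i < V.n) (hBB : c0 ≤ BB V v i) :
    D p V i μ + p.lam i * (c9 * V.b v i - C9 * BB V v i) ≤ D p (V.rot v s) i μ :=
  Lev0285.levhi_bad f5n f5r hp hs0 hs1 hsb hc9 hc0 hC V μ v I i hv hS hIi hi hBB

end Crest.Agent.R239.Lev0F285
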