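import Crest.Agent.R239.FDef
import Crest.Agent.R239.Ins_556b
import Crest.Agent.R239.Cmp_142
import Crest.Agent.R239.Dom_640
import Crest.Agent.R239.F6core_696
import Crest.Agent.R239.RemG_864

/-! R239 / S0370 (helper285), part of `Target_LEV`: COMPARE FIRST, CUT IN THE `V`-WORLD.
Gives `P_LEVlo` completely and the case `BB V v i ≥ c0` of `P_LEVhi`. -/

set_option autoImplicit false
set_option linter.unusedSectionVars false
set_option linter.unusedVariables false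
open MeasureTheory ProbabilityTheory Submodule
open scoped RealInnerProductSpace

namespace Crest.Agent.R239.Lev0285

open Crest.Agent.R239 (gau)
open Crest.Agent.R239.FD
open Crest.Agent.R239.Ins556 (Qp Hc Qp_apply norm_sq_Qp norm_sq_Hc Hc_apply Qp_Hc Hc_mem sum_Qp
  Hc_Hc Hc_Hc_inv)

variable {E : Type*} [NormedAddCommGroup E] [InnerProductSpace ℝ E] [FiniteDimensional ℝ E]
  [MeasurableSpace E] [BorelSpace E]

/-! ### the cap -/

omit [FiniteDimensional ℝ E] [MeasurableSpace E] [BorelSpace E] in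
lemma th_pos : 0 < th := by unfold th; norm_num

omit [FiniteDimensional ℝ E] [MeasurableSpace E] [BorelSpace E] in
lemma th_le_one : th ≤ 1 := by unfold th; norm_num

/-- square root of the gauge -/
noncomputable def Bm (V : Flag E) (i : ℕ) : E →L[ℝ] E := Hc V.M (Real.sqrt th⁻¹) V.n i

lemma norm_sq_Bm (V : Flag E) (i : ℕ) (x : E) : ‖Bm V i x‖ ^ 2 = V.N i x := by
  unfold Bm Flag.N
  rw [norm_sq_Hc V.anti, Real.sq_sqrt (inv_nonneg.2 th_pos.le)]
  rfl

lemma N_nonneg (V : Flag E) (i : ℕ) (x : E) : 0 ≤ V.N i x := by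
  rw [← norm_sq_Bm]; positivity

lemma rr_nonneg (V : Flag E) (i : ℕ) : 0 ≤ V.rr i :=
  Finset.sum_nonneg fun j _ => mul_nonneg (pow_nonneg th_pos.le _) (Nat.cast_nonneg _)

lemma N_le_iff (V : Flag E) (i : ℕ) {rho : ℝ} (hr : 0 ≤ rho) (x : E) :
    V.N i x ≤ rho ^ 2 * V.rr i ↔ ‖Bm V i x‖ ≤ rho * Real.sqrt (V.rr i) := by
  rw [← norm_sq_Bm]
  have h1 : rho ^ 2 * V.rr i = (rho * Real.sqrt (V.rr i)) ^ 2 := by
    rw [mul_pow, Real.sq_sqrt (rr_nonneg V i)]
  rw [h1]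
  exact sq_le_sq₀ (norm_nonneg _) (mul_nonneg hr (Real.sqrt_nonneg _))

lemma cap_eq (V : Flag E) (i : ℕ) {rho : ℝ} (hr : 0 ≤ rho) :
    V.cap rho i = (V.M i : Set E) ∩ {x | ‖Bm V i x‖ ≤ rho * Real.sqrt (V.rr i)} := by
  ext x
  simp only [Flag.cap, Set.mem_ofPred_eq, Set.mem_inter_iff, SetLike.mem_coe, N_le_iff V i hr]

lemma cap_closed (V : Flag E) (i : ℕ) {rho : ℝ} (hr : 0 ≤ rho) : IsClosed (V.cap rho i) := by
  rw [cap_eq V i hr]
  exact (Submodule.closed_of_finiteDimensional _).inter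
    (isClosed_le ((Bm V i).continuous.norm) continuous_const)

lemma cap_convex (V : Flag E) (i : ℕ) {rho : ℝ} (hr : 0 ≤ rho) : Convex ℝ (V.cap rho i) := by
  rw [cap_eq V i hr]
  refine (V.M i).convex.inter ?_
  have h : {x | ‖Bm V i x‖ ≤ rho * Real.sqrt (V.rr i)}
      = (Bm V i) ⁻¹' (Metric.closedBall 0 (rho * Real.sqrt (V.rr i))) := by
    ext x; simp
  rw [h]
  exact (convex_closedBall _ _).is_linear_preimage (Bm V i).toLinearMap.isLinear

lemma cap_symm (V : Flag E) (i : ℕ) {rho : ℝ} (hr : 0 ≤ rho) :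
    ∀ x ∈ V.cap rho i, -x ∈ V.cap rho i := by
  rw [cap_eq V i hr]
  rintro x ⟨h1, h2⟩
  refine ⟨(V.M i).neg_mem h1, ?_⟩
  simp only [Set.mem_ofPred_eq, map_neg, norm_neg] at h2 ⊢
  exact h2

/-- `‖x‖² ≤ N i x` on `M i` -/
lemma norm_sq_le_N (V : Flag E) {i : ℕ} (hi : i ≤ V.n) {x : E} (hx : x ∈ V.M i) :
    ‖x‖ ^ 2 ≤ V.N i x := by
  have h1 : Hc V.M 1 V.n i x = x := by
    rw [Hc_apply]
    simp only [one_pow, one_smul]
    rw [sum_Qp hi (V.bot _ le_rfl)]
    exact starProjection_eq_self_iff.2 hx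
  have h2 := norm_sq_Hc V.anti 1 V.n i x
  rw [h1] at h2
  rw [h2]
  unfold Flag.N
  refine Finset.sum_le_sum fun j hj => ?_
  have h3 : (1 : ℝ) ≤ th⁻¹ ^ (j - i) := one_le_pow₀ ((one_le_inv₀ th_pos).2 th_le_one)
  rw [one_pow, one_pow]
  exact mul_le_mul_of_nonneg_right h3 (sq_nonneg _)

lemma cap_compact (V : Flag E) {i : ℕ} (hi : i ≤ V.n) {rho : ℝ} (hr : 0 ≤ rho) :
    IsCompact (V.cap rho i) := by
  refine Metric.isCompact_of_isClosed_isBounded (cap_closed V i hr) ?_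
  refine (Metric.isBounded_closedBall (x := (0 : E)) (r := rho * Real.sqrt (V.rr i))).subset ?_
  intro x hx
  rw [mem_closedBall_zero_iff]
  have h1 := norm_sq_le_N V hi hx.1
  have h2 := (N_le_iff V i hr x).1 hx.2
  rw [← norm_sq_Bm] at h1
  exact (pow_le_pow_iff_left₀ (norm_nonneg _) (norm_nonneg _) (by norm_num)).1 h1 |>.trans h2

/-! ### mean of the gauge -/

lemma integral_inner_sq (n : E) : ∫ x, ⟪n, x⟫ ^ 2 ∂(stdGaussian E) = ‖n‖ ^ 2 :=
  Dom640.integral_inner_sq n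

lemma norm_sq_proj_eq (M : Submodule ℝ E) (x : E) :
    ‖M.starProjection x‖ ^ 2
      = ∑ k, ⟪((stdOrthonormalBasis ℝ M k : M) : E), x⟫ ^ 2 := by
  have h1 : ‖M.starProjection x‖ ^ 2 = ‖M.orthogonalProjectionOnto x‖ ^ 2 := rfl
  rw [h1, ← (stdOrthonormalBasis ℝ M).sum_sq_inner_right]
  apply Finset.sum_congr rfl
  intro k _
  congr 1
  exact Submodule.inner_orthogonalProjectionOnto_eq_of_mem_left _ _

lemma integrable_norm_sq_proj (M : Submodule ℝ E) :
    Integrable (fun g => ‖M.starProjection g‖ ^ 2) (stdGaussian E) := by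
  simp_rw [norm_sq_proj_eq]
  exact integrable_finsetSum _ fun i _ => Dom640.integrable_inner_sq _

lemma integral_norm_sq_proj (M : Submodule ℝ E) :
    ∫ g, ‖M.starProjection g‖ ^ 2 ∂(stdGaussian E) = (Module.finrank ℝ M : ℝ) := by
  simp_rw [norm_sq_proj_eq]
  rw [integral_finsetSum _ fun i _ => Dom640.integrable_inner_sq _]
  simp_rw [integral_inner_sq]
  have : ∀ k, ‖((stdOrthonormalBasis ℝ M k : M) : E)‖ ^ 2 = 1 := by
    intro k
    have h2 : ‖((stdOrthonormalBasis ℝ M k : M) : E)‖ = 1 :=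
      (stdOrthonormalBasis ℝ M).orthonormal.1 k
    rw [h2, one_pow]
  simp [this]

lemma integrable_norm_sq_Qp {M : ℕ → Submodule ℝ E} (hM : Antitone M) (j : ℕ) :
    Integrable (fun g => ‖Qp M j g‖ ^ 2) (stdGaussian E) := by
  simp_rw [norm_sq_Qp hM]
  exact (integrable_norm_sq_proj _).sub (integrable_norm_sq_proj _)

lemma integral_norm_sq_Qp {M : ℕ → Submodule ℝ E} (hM : Antitone M) (j : ℕ) :
    ∫ g, ‖Qp M j g‖ ^ 2 ∂(stdGaussian E)
      = ((Module.finrank ℝ (M j) - Module.finrank ℝ (M (j + 1)) : ℕ) : ℝ) := by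
  simp_rw [norm_sq_Qp hM]
  rw [integral_sub (integrable_norm_sq_proj _) (integrable_norm_sq_proj _),
    integral_norm_sq_proj, integral_norm_sq_proj,
    Nat.cast_sub (Submodule.finrank_mono (hM (Nat.le_succ j)))]

lemma N_H (V : Flag E) (i : ℕ) (g : E) :
    V.N i (V.H i g) = ∑ j ∈ Finset.Ico i V.n, th ^ (j - i) * ‖Qp V.M j g‖ ^ 2 := by
  unfold Flag.N
  refine Finset.sum_congr rfl fun j hj => ?_
  have h1 : V.Q j (V.H i g) = (th ^ (j - i)) • Qp V.M j g := Qp_Hc V.anti th hj g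
  rw [h1, norm_smul, mul_pow, Real.norm_eq_abs, sq_abs]
  have h2 : th⁻¹ ^ (j - i) * th ^ (j - i) = 1 := by
    rw [← mul_pow, inv_mul_cancel₀ th_pos.ne', one_pow]
  linear_combination (th ^ (j - i) * ‖Qp V.M j g‖ ^ 2) * h2

lemma integral_N (V : Flag E) (i : ℕ) :
    ∫ x, ‖Bm V i x‖ ^ 2 ∂(gau (V.H i)) = V.rr i := by
  have e : ∀ g, ‖Bm V i (V.H i g)‖ ^ 2
      = ∑ j ∈ Finset.Ico i V.n, th ^ (j - i) * ‖Qp V.M j g‖ ^ 2 := fun g => by
    rw [norm_sq_Bm, N_H]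
  unfold gau
  rw [integral_map (V.H i).continuous.aemeasurable (by fun_prop)]
  simp_rw [e]
  rw [integral_finsetSum _ fun j _ => (integrable_norm_sq_Qp V.anti j).const_mul _]
  unfold Flag.rr
  refine Finset.sum_congr rfl fun j _ => ?_
  rw [integral_const_mul, integral_norm_sq_Qp V.anti]
  rfl

lemma H_mem (V : Flag E) (i : ℕ) (g : E) : V.H i g ∈ V.M i := Hc_mem V.anti th V.n i g

/-- **one cut by the cap** -/
lemma cut_cap (V : Flag E) (i : ℕ) {rho : ℝ} (hr : 0 < rho) {K : Set E} (hK : MeasurableSet K)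
    (cK : Convex ℝ K) (sK : ∀ x ∈ K, -x ∈ K) :
    (1 - 1 / rho ^ 2) * (gau (V.H i)).real K ≤ (gau (V.H i)).real (K ∩ V.cap rho i) := by
  have hm : MeasurableSet (K ∩ {x | ‖Bm V i x‖ ≤ rho * Real.sqrt (V.rr i)}) :=
    hK.inter (measurableSet_le (Bm V i).continuous.norm.measurable measurable_const)
  have h1 : K ∩ V.cap rho i
      = (K ∩ {x | ‖Bm V i x‖ ≤ rho * Real.sqrt (V.rr i)}) ∩ (V.M i : Set E) := by
    rw [cap_eq V i hr.le]; ext x; simp only [Set.mem_inter_iff]; tauto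
  rw [h1, F6core696.gau_real_inter_range (H_mem V i) hm]
  rcases (rr_nonneg V i).eq_or_lt with h0 | h0
  · -- degenerate case
    have h2 : ∀ᵐ x ∂(gau (V.H i)), ‖Bm V i x‖ ^ 2 = 0 := by
      have hint : Integrable (fun x => ‖Bm V i x‖ ^ 2) (gau (V.H i)) := by
        unfold gau
        rw [integrable_map_measure (by fun_prop) (V.H i).continuous.aemeasurable]
        exact Dom640.integrable_norm_sq (Bm V i ∘L V.H i)
      have h3 := (integral_eq_zero_iff_of_nonneg (fun x => sq_nonneg _) hint).1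
        ((integral_N V i).trans h0.symm)
      filter_upwards [h3] with x hx using hx
    have h3 : (gau (V.H i)).real (K ∩ {x | ‖Bm V i x‖ ≤ rho * Real.sqrt (V.rr i)})
        = (gau (V.H i)).real K := by
      refine measureReal_congr ?_
      filter_upwards [h2] with x hx
      have h4 : ‖Bm V i x‖ = 0 := by simpa using hx
      apply propext
      show x ∈ K ∩ _ ↔ x ∈ K
      simp only [Set.mem_inter_iff, Set.mem_ofPred_eq, h4, ← h0, Real.sqrt_zero, mul_zero, le_refl,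
        and_true]
    rw [h3]
    have h5 : 0 ≤ 1 / rho ^ 2 := by positivity
    nlinarith [measureReal_nonneg (μ := gau (V.H i)) (s := K)]
  · have hs : 0 < rho * Real.sqrt (V.rr i) := mul_pos hr (Real.sqrt_pos.2 h0)
    have h2 := Dom640.gau_cut (V.H i) hK cK sK (Bm V i) hs
    rw [integral_N, mul_pow, Real.sq_sqrt h0.le] at h2
    have h3 : V.rr i / (rho ^ 2 * V.rr i) = 1 / rho ^ 2 := by
      field_simp
    rw [h3] at h2
    exact h2

/-! ### values -/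

lemma hs_nonneg {K : Set E} (hK : IsCompact K) (h0 : (0 : E) ∈ K) (z : E) : 0 ≤ hs K z := by
  have := F6core696.le_hs hK h0 z
  rwa [inner_zero_left] at this

lemma Eh_nonneg {K : Set E} (hK : IsCompact K) (h0 : (0 : E) ∈ K) (μ : Multiset E) : 0 ≤ Eh K μ := by
  unfold Eh
  refine Multiset.sum_nonneg fun x hx => ?_
  obtain ⟨z, _, rfl⟩ := Multiset.mem_map.1 hx
  exact hs_nonneg hK h0 z

lemma zero_mem {K : Set E} (cK : Convex ℝ K) (sK : ∀ x ∈ K, -x ∈ K) {μ : Measure E}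
    (h : 0 < μ.real K) : (0 : E) ∈ K := by
  have hne : K.Nonempty := by
    rw [Set.nonempty_iff_ne_empty]
    rintro rfl
    simp at h
  obtain ⟨x, hx⟩ := hne
  have h1 := cK hx (sK x hx) (by norm_num : (0 : ℝ) ≤ 1 / 2) (by norm_num : (0 : ℝ) ≤ 1 / 2)
    (by norm_num)
  simpa using h1

lemma adm_compact {p : Par} (hp : p.Ok) {V : Flag E} {i : ℕ} (hi : i ≤ V.n) {K : Set E}
    (hK : Adm p V i K) : IsCompact K :=
  (cap_compact V hi (by linarith [hp.rho_ge])).of_isClosed_subset hK.1 hK.2.2.2.1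

lemma adm_zero {p : Par} {V : Flag E} {i : ℕ} {K : Set E} (hK : Adm p V i K) : (0 : E) ∈ K :=
  zero_mem hK.2.1 hK.2.2.1 hK.2.2.2.2

lemma lam_pos {p : Par} (hp : p.Ok) (i : ℕ) : 0 < p.lam i :=
  mul_pos hp.tau_pos (pow_pos (by linarith [hp.A_ge]) i)

lemma val_nonneg {p : Par} (hp : p.Ok) {V : Flag E} {i : ℕ} (hi : i ≤ V.n) (μ : Multiset E)
    {K : Set E} (hK : Adm p V i K) : 0 ≤ val p V i μ K := by
  unfold val
  have h1 := Eh_nonneg (adm_compact hp hi hK) (adm_zero hK) μ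
  have h2 : Real.log ((gau (V.H i)).real K) ≤ 0 :=
    Real.log_nonpos measureReal_nonneg (by
      have : IsProbabilityMeasure (gau (V.H i)) := inferInstance
      exact measureReal_le_one)
  have h3 := lam_pos hp i
  nlinarith

lemma D_le {p : Par} (hp : p.Ok) {V : Flag E} {i : ℕ} (hi : i ≤ V.n) (μ : Multiset E)
    {K : Set E} (hK : Adm p V i K) : D p V i μ ≤ val p V i μ K := by
  refine csInf_le ⟨0, ?_⟩ ⟨K, hK, rfl⟩
  rintro _ ⟨K', hK', rfl⟩
  exact val_nonneg hp hi μ hK'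

lemma adm_cap {p : Par} (hp : p.Ok) (V : Flag E) (i : ℕ) : Adm p V i (V.cap p.rho i) := by
  have hr : 0 < p.rho := by linarith [hp.rho_ge]
  refine ⟨cap_closed V i hr.le, cap_convex V i hr.le, cap_symm V i hr.le, le_rfl, ?_⟩
  have h1 := cut_cap V i hr (K := Set.univ) MeasurableSet.univ convex_univ (fun _ _ => trivial)
  rw [Set.univ_inter] at h1
  have h2 : (gau (V.H i)).real Set.univ = 1 := by
    have : IsProbabilityMeasure (gau (V.H i)) := inferInstance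
    exact probReal_univ
  rw [h2, mul_one] at h1
  refine lt_of_lt_of_le ?_ h1
  have h3 : (1 : ℝ) / p.rho ^ 2 < 1 := by
    rw [div_lt_one (by positivity)]
    nlinarith [hp.rho_ge]
  linarith

lemma le_D {p : Par} (hp : p.Ok) {V : Flag E} {i : ℕ} (μ : Multiset E) {c : ℝ}
    (h : ∀ K, Adm p V i K → c ≤ val p V i μ K) : c ≤ D p V i μ := by
  refine le_csInf ⟨_, V.cap p.rho i, adm_cap hp V i, rfl⟩ ?_
  rintro _ ⟨K, hK, rfl⟩
  exact h K hK

/-! ### the slab -/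

lemma adjoint_H (V : Flag E) (i : ℕ) (v w : E) : ⟪V.H i v, w⟫ = ⟪v, V.H i w⟫ := by
  have e : ∀ x, V.H i x = ∑ j ∈ Finset.Ico i V.n, (th ^ (j - i)) • Qp V.M j x :=
    fun x => Hc_apply V.M th V.n i x
  rw [e, e, sum_inner, inner_sum]
  refine Finset.sum_congr rfl fun j _ => ?_
  rw [inner_smul_left, inner_smul_right, Ins556.inner_Qp_left]
  simp

lemma norm_H_le (V : Flag E) {i : ℕ} (hi : i ≤ V.n) (v : E) : ‖V.H i v‖ ≤ ‖v‖ := by
  have h1 : ‖V.H i v‖ ^ 2 = ∑ j ∈ Finset.Ico i V.n, (th ^ 2) ^ (j - i) * ‖Qp V.M j v‖ ^ 2 :=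
    norm_sq_Hc V.anti th V.n i v
  have h2 := norm_sq_Hc V.anti 1 V.n i v
  rw [Hc_apply] at h2
  simp only [one_pow, one_smul, one_mul] at h2
  rw [sum_Qp hi (V.bot _ le_rfl)] at h2
  have h3 : ‖V.H i v‖ ^ 2 ≤ ‖(V.M i).starProjection v‖ ^ 2 := by
    rw [h1, h2]
    refine Finset.sum_le_sum fun j _ => ?_
    have h4 : (th ^ 2) ^ (j - i) ≤ 1 :=
      pow_le_one₀ (by positivity) (pow_le_one₀ th_pos.le th_le_one)
    nlinarith [sq_nonneg ‖Qp V.M j v‖]
  have h5 := norm_starProjection_apply_le (V.M i) v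
  have h6 : ‖V.H i v‖ ≤ ‖(V.M i).starProjection v‖ :=
    (pow_le_pow_iff_left₀ (norm_nonneg _) (norm_nonneg _) (by norm_num)).1 h3
  exact h6.trans h5

lemma slab_lower (V : Flag E) {i : ℕ} (hi : i ≤ V.n) {v : E} (hv : ‖v‖ = 1) {t : ℝ} (h0 : 0 ≤ t)
    (h1 : t ≤ 1) : Real.exp (-1) * t ≤ (gau (V.H i)).real {x | |⟪v, x⟫| ≤ t} := by
  rw [Rem864.gau_slab]
  refine Rem864.gaussV_lower _ ?_ h0 h1
  have h2 : (V.H i).adjoint v = V.H i v := by
    refine ext_inner_right ℝ fun y => ?_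
    rw [ContinuousLinearMap.adjoint_inner_left, adjoint_H]
  rw [h2]
  push_cast
  have h3 := norm_H_le V hi v
  rw [hv] at h3
  have h4 : (0 : ℝ) ≤ ‖V.H i v‖ := norm_nonneg _
  nlinarith

/-! ### comparison first, cuts in the `V`-world -/

/-- helper336's `f5_R` -/
def F5R (E : Type*) [NormedAddCommGroup E] [InnerProductSpace ℝ E] [FiniteDimensional ℝ E] : Prop :=
  ∀ (V : Flag E) (v : E) (s : ℝ) (i : ℕ), ‖v‖ = 1 → 0 < s → s < 1 → 2 * s - s ^ 2 ≤ 1 / 2 →
    ∀ g, (V.rot v s).H i ((V.rot v s).Hi i (Ts v s (V.H i g))) = Ts v s (V.H i g)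

/-- helper336's `f5_N` -/
def F5N (E : Type*) [NormedAddCommGroup E] [InnerProductSpace ℝ E] [FiniteDimensional ℝ E] : Prop :=
  ∀ (V : Flag E) (v : E) (s : ℝ) (i : ℕ), ‖v‖ = 1 → 0 < s → s < 1 → 2 * s - s ^ 2 ≤ 1 / 2 →
    ∃ (J : Finset ℕ) (u : ℕ → E),
      (∀ g, ‖(V.rot v s).Hi i (Ts v s (V.H i g))‖ ^ 2 + (2 * s - s ^ 2) / 2 * ⟪V.Q i v, g⟫ ^ 2
        ≤ ‖g‖ ^ 2 + ∑ k ∈ J, ⟪u k, g⟫ ^ 2) ∧
      ∑ k ∈ J, ‖u k‖ ^ 2 ≤ (2 * s - s ^ 2) * BB V v i

theorem lev0 (hN : F5N E) (hR : F5R E) {p : Par} (hp : p.Ok) (V : Flag E) (μ : Multiset E) (v : E)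
    {s t : ℝ} {i : ℕ} (hv : ‖v‖ = 1) (hs0 : 0 < s) (hs1 : s < 1) (hsb : 2 * s - s ^ 2 ≤ 1 / 2)
    (ht0 : 0 < t) (ht1 : t ≤ 1) (hi : i < V.n) :
    D p V i μ ≤ D p (V.rot v s) i μ
      + p.lam i * ((2 * s - s ^ 2) * BB V v i / 2 + 2 - Real.log t) + s * t * S μ v := by
  have hr : 0 < p.rho := by linarith [hp.rho_ge]
  have hl := lam_pos hp i
  suffices h : ∀ K', Adm p (V.rot v s) i K' →
      D p V i μ - (p.lam i * ((2 * s - s ^ 2) * BB V v i / 2 + 2 - Real.log t) + s * t * S μ v)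
        ≤ val p (V.rot v s) i μ K' by
    have := le_D hp μ h
    linarith
  intro K' hK'
  have hin : i ≤ (V.rot v s).n := hi.le
  have cK' : IsCompact K' := adm_compact hp hin hK'
  have mK' : MeasurableSet K' := hK'.1.measurableSet
  set T := Ts v s with hT
  set H := V.H i with hH
  set H' := (V.rot v s).H i with hH'
  set R : E →L[ℝ] E := (V.rot v s).Hi i ∘L T ∘L H with hRdef
  have hcomm : ∀ g, T (H g) = H' (R g) := fun g => (hR V v s i hv hs0 hs1 hsb g).symm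
  obtain ⟨J, u, hu, hsum⟩ := hN V v s i hv hs0 hs1 hsb
  have hsb0 : 0 < 2 * s - s ^ 2 := by nlinarith
  have hcmp0 := Cmp142.cmp_sum_real (E := E) (F := E) (K := H' ⁻¹' K')
    (H'.continuous.measurable mK') (Dom640.pre_conv H' hK'.2.1) (Dom640.pre_symm H' hK'.2.2.1) J R u
    (fun g => by
      have h1 := hu g
      have h2 : 0 ≤ (2 * s - s ^ 2) / 2 * ⟪V.Q i v, g⟫ ^ 2 := by positivity
      have h3 : R g = (V.rot v s).Hi i (T (H g)) := rfl
      rw [h3]; linarith)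
  -- measure of the pulled back body
  have hpre : (gau H).real (T ⁻¹' K') = (stdGaussian E).real (R ⁻¹' (H' ⁻¹' K')) :=
    F6core696.gau_preimage_eq hcomm mK'
  have hH'K : (gau H').real K' = (stdGaussian E).real (H' ⁻¹' K') :=
    Crest.Agent.R239.gau_real_apply H' mK'
  rw [← hpre, ← hH'K] at hcmp0
  -- slab
  have mT : MeasurableSet (T ⁻¹' K') := T.continuous.measurable mK'
  have cT : Convex ℝ (T ⁻¹' K') := Dom640.pre_conv T hK'.2.1
  have sT := Dom640.pre_symm T hK'.2.2.1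
  have hslab := Dom640.gau_slab_real H mT cT sT v t
  have hsl := slab_lower V hi.le hv ht0.le ht1
  rw [← hH] at hsl
  -- cap
  set K1 : Set E := T ⁻¹' K' ∩ {x | |⟪v, x⟫| ≤ t} with hK1
  have clsl : IsClosed {x : E | |⟪v, x⟫| ≤ t} := isClosed_le (by fun_prop) continuous_const
  have cvsl : Convex ℝ {x : E | |⟪v, x⟫| ≤ t} := by
    have e : {x : E | |⟪v, x⟫| ≤ t} = (innerSL ℝ v) ⁻¹' (Set.Icc (-t) t) := by
      ext x; simp [abs_le]
    rw [e]
    exact (convex_Icc _ _).is_linear_preimage (innerSL ℝ v).toLinearMap.isLinear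
  have sysl : ∀ x ∈ {x : E | |⟪v, x⟫| ≤ t}, -x ∈ {x : E | |⟪v, x⟫| ≤ t} := by
    intro x hx
    simp only [Set.mem_ofPred_eq, inner_neg_right, abs_neg] at hx ⊢
    exact hx
  have cl1 : IsClosed K1 := (hK'.1.preimage T.continuous).inter clsl
  have cv1 : Convex ℝ K1 := cT.inter cvsl
  have sy1 : ∀ x ∈ K1, -x ∈ K1 := fun x hx => ⟨sT x hx.1, sysl x hx.2⟩
  have hcap := cut_cap V i hr cl1.measurableSet cv1 sy1
  rw [← hH] at hcap
  set K : Set E := K1 ∩ V.cap p.rho i with hK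
  -- lower bound of the measure
  have ha : 0 < (gau H').real K' := hK'.2.2.2.2
  set e1 : ℝ := ∑ k ∈ J, ‖u k‖ ^ 2 with he1
  have hρ : (1 : ℝ) / p.rho ^ 2 ≤ 1 / 256 := by
    apply one_div_le_one_div_of_le (by norm_num)
    nlinarith [hp.rho_ge]
  have hρ0 : (0 : ℝ) ≤ 1 / p.rho ^ 2 := by positivity
  have hmeas : Real.exp (-1) * (Real.exp (-1) * t * (Real.exp (-e1 / 2) * (gau H').real K'))
      ≤ (gau H).real K := by
    have h1 : Real.exp (-1) * t * (Real.exp (-e1 / 2) * (gau H').real K') ≤ (gau H).real K1 := by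
      refine le_trans ?_ hslab
      rw [mul_comm]
      exact mul_le_mul hcmp0 hsl (by positivity) measureReal_nonneg
    have h2 : Real.exp (-1) ≤ 1 - 1 / p.rho ^ 2 := by
      have := Real.exp_neg_one_lt_d9
      linarith
    refine le_trans ?_ hcap
    exact mul_le_mul h2 h1 (by positivity) (by linarith)
  have hpos : 0 < Real.exp (-1) * (Real.exp (-1) * t * (Real.exp (-e1 / 2) * (gau H').real K')) := by
    positivity
  have hKpos : 0 < (gau H).real K := lt_of_lt_of_le hpos hmeas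
  have hKadm : Adm p V i K := by
    refine ⟨cl1.inter (cap_closed V i hr.le), cv1.inter (cap_convex V i hr.le), ?_, ?_, hKpos⟩
    · exact fun x hx => ⟨sy1 x hx.1, cap_symm V i hr.le x hx.2⟩
    · exact fun x hx => hx.2
  have hD := D_le hp hi.le μ hKadm
  have hEh : Eh K μ ≤ Eh K' μ + s * t * S μ v := by
    have h0 : (0 : E) ∈ K := adm_zero hKadm
    exact F6core696.Eh_pullback cK' ⟨0, h0⟩ hs0.le (fun x => Ts_apply v s x)
      (fun x hx => hx.1.1) (fun x hx => hx.1.2) μ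
  have hlog : Real.log (Real.exp (-1) *
      (Real.exp (-1) * t * (Real.exp (-e1 / 2) * (gau H').real K'))) ≤ Real.log ((gau H).real K) :=
    Real.log_le_log hpos hmeas
  rw [Real.log_mul (Real.exp_ne_zero _) (by positivity), Real.log_mul (by positivity) (by positivity),
    Real.log_mul (Real.exp_ne_zero _) ht0.ne', Real.log_mul (Real.exp_ne_zero _) ha.ne',
    Real.log_exp, Real.log_exp] at hlog
  have hv1 : val p V i μ K = Eh K μ - p.lam i * Real.log ((gau H).real K) := rfl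
  have hv2 : val p (V.rot v s) i μ K' = Eh K' μ - p.lam i * Real.log ((gau H').real K') := rfl
  have hfin : p.lam i * (-1 + (-1 + Real.log t + (-e1 / 2 + Real.log ((gau H').real K'))))
      ≤ p.lam i * Real.log ((gau H).real K) := mul_le_mul_of_nonneg_left hlog hl.le
  have hfin2 : p.lam i * (e1 / 2) ≤ p.lam i * ((2 * s - s ^ 2) * BB V v i / 2) :=
    mul_le_mul_of_nonneg_left (by linarith) hl.le
  rw [hv2]
  rw [hv1] at hD
  nlinarith [hD, hEh, hfin, hfin2]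

lemma BB_nonneg (V : Flag E) (v : E) (i : ℕ) : 0 ≤ BB V v i :=
  Finset.sum_nonneg fun j _ => mul_nonneg (by positivity) (sq_nonneg _)

lemma b_le_one (V : Flag E) {v : E} (hv : ‖v‖ = 1) (i : ℕ) : V.b v i ≤ 1 := by
  unfold Flag.b
  have h := norm_starProjection_apply_le (V.M i) v
  rw [hv] at h
  exact pow_le_one₀ (norm_nonneg _) h

lemma S_nonneg (μ : Multiset E) (v : E) : 0 ≤ S μ v := by
  unfold S
  refine Multiset.sum_nonneg fun x hx => ?_
  obtain ⟨z, _, rfl⟩ := Multiset.mem_map.1 hx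
  exact abs_nonneg _

/-- `P_LEVlo` for every admissible parameter, `C9 ≥ 6` -/
theorem levlo (hN : F5N E) (hR : F5R E) {p : Par} (hp : p.Ok) {s C9 : ℝ} (hs0 : 0 < s)
    (hs1 : s < 1) (hsb : 2 * s - s ^ 2 ≤ 1 / 2) (hC : 6 ≤ C9) : P_LEVlo E p s C9 := by
  intro V μ v I i hv hS hiI hi
  obtain ⟨m, rfl⟩ := Nat.exists_eq_add_of_le hiI
  rw [Nat.add_sub_cancel_left]
  have hl := lam_pos hp i
  have hlI := lam_pos hp (i + m)
  have h2m : (0 : ℝ) < (1 / 2) ^ m := by positivity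
  have h2m1 : ((1 : ℝ) / 2) ^ m ≤ 1 := pow_le_one₀ (by norm_num) (by norm_num)
  have h := lev0 hN hR hp V μ v hv hs0 hs1 hsb h2m h2m1 hi
  have hlog : Real.log ((1 / 2 : ℝ) ^ m) = -(m * Real.log 2) := by
    rw [Real.log_pow, one_div, Real.log_inv]; ring
  rw [hlog] at h
  have hBB := BB_nonneg V v i
  -- `lam i * 16^m ≤ lam (i+m)`
  have hA : p.lam i * 16 ^ m ≤ p.lam (i + m) := by
    unfold Par.lam
    rw [pow_add]
    have h1 : (16 : ℝ) ^ m ≤ p.A ^ m := pow_le_pow_left₀ (by norm_num) hp.A_ge m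
    have h2 : 0 ≤ p.tau * p.A ^ i := (lam_pos hp i).le
    calc p.tau * p.A ^ i * 16 ^ m ≤ p.tau * p.A ^ i * p.A ^ m :=
          mul_le_mul_of_nonneg_left h1 h2
      _ = p.tau * (p.A ^ i * p.A ^ m) := by ring
  have hm : (m : ℝ) * Real.log 2 ≤ m := by
    have : Real.log 2 ≤ 1 := by have := Real.log_two_lt_d9; linarith
    nlinarith [Nat.cast_nonneg (α := ℝ) m]
  have h8 : (2 + (m : ℝ)) ≤ 2 * 8 ^ m := by
    have : (m : ℝ) + 1 ≤ 2 ^ m := by
      have h := Nat.lt_two_pow_self (n := m)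
      exact_mod_cast h
    have h3 : (2 : ℝ) ^ m ≤ 8 ^ m := pow_le_pow_left₀ (by norm_num) (by norm_num) m
    have h4 : (1 : ℝ) ≤ 8 ^ m := one_le_pow₀ (by norm_num)
    linarith
  have hcost : p.lam i * (2 + (m : ℝ)) ≤ 2 * (p.lam (i + m) * (1 / 2) ^ m) := by
    have h5 : (16 : ℝ) ^ m * (1 / 2) ^ m = 8 ^ m := by
      rw [← mul_pow]; norm_num
    calc p.lam i * (2 + (m : ℝ)) ≤ p.lam i * (2 * 8 ^ m) := mul_le_mul_of_nonneg_left h8 hl.le
      _ = 2 * (p.lam i * 16 ^ m * (1 / 2) ^ m) := by rw [← h5]; ring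
      _ ≤ 2 * (p.lam (i + m) * (1 / 2) ^ m) := by
          have := mul_le_mul_of_nonneg_right hA h2m.le
          linarith
  have hS0 := S_nonneg μ v
  have hSt : s * (1 / 2) ^ m * S μ v ≤ p.lam (i + m) * (1 / 2) ^ m := by
    have h6 : s * S μ v ≤ p.lam (i + m) := by nlinarith
    calc s * (1 / 2) ^ m * S μ v = (s * S μ v) * (1 / 2) ^ m := by ring
      _ ≤ p.lam (i + m) * (1 / 2) ^ m := mul_le_mul_of_nonneg_right h6 h2m.le
  have hBBc : p.lam i * ((2 * s - s ^ 2) * BB V v i / 2) ≤ p.lam i * C9 * BB V v i := by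
    have h7 : (2 * s - s ^ 2) * BB V v i / 2 ≤ C9 * BB V v i := by nlinarith
    calc p.lam i * ((2 * s - s ^ 2) * BB V v i / 2) ≤ p.lam i * (C9 * BB V v i) :=
          mul_le_mul_of_nonneg_left h7 hl.le
      _ = p.lam i * C9 * BB V v i := by ring
  have hend : 3 * (p.lam (i + m) * (1 / 2) ^ m) ≤ C9 * p.lam (i + m) * (1 / 2) ^ m := by
    have h9 : 0 ≤ p.lam (i + m) * (1 / 2) ^ m := by positivity
    nlinarith
  have hlm : p.lam i * (m * Real.log 2) ≤ p.lam i * m := mul_le_mul_of_nonneg_left hm hl.le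
  nlinarith

/-- the case `c0 ≤ BB V v i` of `P_LEVhi` (no thinness, no gain needed) -/
theorem levhi_bad (hN : F5N E) (hR : F5R E) {p : Par} (hp : p.Ok) {s c9 C9 c0 : ℝ} (hs0 : 0 < s)
    (hs1 : s < 1) (hsb : 2 * s - s ^ 2 ≤ 1 / 2) (hc9 : 0 ≤ c9) (hc0 : 0 < c0)
    (hC : 1 + (3 + c9) / c0 ≤ C9) (V : Flag E) (μ : Multiset E) (v : E) (I i : ℕ) (hv : ‖v‖ = 1)
    (hS : S μ v ≤ p.lam I) (hIi : I ≤ i) (hi : i < V.n) (hBB : c0 ≤ BB V v i) :
    D p V i μ + p.lam i * (c9 * V.b v i - C9 * BB V v i) ≤ D p (V.rot v s) i μ := by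
  have hl := lam_pos hp i
  have h := lev0 hN hR hp V μ v hv hs0 hs1 hsb one_pos le_rfl hi
  rw [Real.log_one] at h
  have hb := b_le_one V hv i
  have hll : p.lam I ≤ p.lam i := by
    unfold Par.lam
    exact mul_le_mul_of_nonneg_left (pow_le_pow_right₀ (by linarith [hp.A_ge]) hIi) hp.tau_pos.le
  have hS0 := S_nonneg μ v
  have hSs : s * 1 * S μ v ≤ p.lam i := by nlinarith
  have hB0 : 0 ≤ BB V v i := BB_nonneg V v i
  have h1 : 3 + c9 ≤ (3 + c9) / c0 * BB V v i := by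
    have h2 : (3 + c9) / c0 * c0 = 3 + c9 := by field_simp
    have h3 : 0 ≤ (3 + c9) / c0 := by positivity
    nlinarith
  have h2 : (2 * s - s ^ 2) * BB V v i / 2 + 3 + c9 * V.b v i ≤ C9 * BB V v i := by
    have h4 : c9 * V.b v i ≤ c9 := by nlinarith
    have h5 : (1 + (3 + c9) / c0) * BB V v i ≤ C9 * BB V v i := mul_le_mul_of_nonneg_right hC hB0
    nlinarith
  have h3 := mul_le_mul_of_nonneg_left h2 hl.le
  nlinarith

end Crest.Agent.R239.Lev0285
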