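import Crest.Agent.R239.CmpR_174
import Crest.Agent.R239.Gr2_655
import Crest.Agent.R239.Dom_640

/-! # R239: one-body core of the one-level comparison (helper203)

* `scale1`: squeezing a thin body along `n` loses mass `exp(-s1 c / 4)`.
* `core`: pull back by `R`, cut by a slab and by one ellipsoid, everything in the squeezed space. -/

set_option autoImplicit false
set_option linter.unusedSectionVars false
open MeasureTheory ProbabilityTheory Set
open scoped RealInnerProductSpace ENNReal NNReal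

namespace Crest.Agent.R239.Lev203

open Crest.Agent.R239 Crest.Agent.R239.CmpR174

variable {E : Type*} [NormedAddCommGroup E] [InnerProductSpace ℝ E] [FiniteDimensional ℝ E]
  [MeasurableSpace E] [BorelSpace E]
variable {F : Type*} [NormedAddCommGroup F] [InnerProductSpace ℝ F] [FiniteDimensional ℝ F]
  [MeasurableSpace F] [BorelSpace F]
variable {H : Type*} [NormedAddCommGroup H] [InnerProductSpace ℝ H] [FiniteDimensional ℝ H]

lemma exp_le_quad {y : ℝ} (hy : 0 ≤ y) : Real.exp y ≤ 1 + y + y ^ 2 * Real.exp y := by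
  have h1 : 1 - y ≤ Real.exp (-y) := by have := Real.add_one_le_exp (-y); linarith
  have h2 : (1 - y) * Real.exp y ≤ 1 := by
    calc (1 - y) * Real.exp y ≤ Real.exp (-y) * Real.exp y := by gcongr
      _ = 1 := by rw [← Real.exp_add]; simp
  have h3 : (1 + y) * ((1 - y) * Real.exp y) ≤ (1 + y) * 1 := by gcongr
  nlinarith

lemma pow4_le {T : ℝ} (hT : 0 ≤ T) : T ^ 2 ≤ 32 * Real.exp (T / 4) := by
  have := Real.quadratic_le_exp_of_nonneg (x := T / 4) (by positivity)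
  nlinarith

/-- pointwise bound of the tilt -/
lemma exp_tilt_le {s1 T : ℝ} (h0 : 0 ≤ s1) (h1 : s1 ≤ 1 / 4) (hT : 0 ≤ T) :
    Real.exp (s1 * T / 2) ≤ 1 + s1 / 2 * T + 8 * s1 ^ 2 * Real.exp (3 / 4 * T / 2) := by
  have h := exp_le_quad (y := s1 * T / 2) (by positivity)
  have h2 := pow4_le hT
  have h3 : Real.exp (s1 * T / 2) ≤ Real.exp (T / 8) := by
    apply Real.exp_le_exp.2; nlinarith
  have h4 : Real.exp (T / 4) * Real.exp (T / 8) = Real.exp (3 / 4 * T / 2) := by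
    rw [← Real.exp_add]; congr 1; ring
  have h5 : (s1 * T / 2) ^ 2 * Real.exp (s1 * T / 2)
      ≤ 8 * s1 ^ 2 * Real.exp (3 / 4 * T / 2) := by
    calc (s1 * T / 2) ^ 2 * Real.exp (s1 * T / 2)
        = s1 ^ 2 / 4 * (T ^ 2 * Real.exp (s1 * T / 2)) := by ring
      _ ≤ s1 ^ 2 / 4 * ((32 * Real.exp (T / 4)) * Real.exp (T / 8)) := by gcongr
      _ = 8 * s1 ^ 2 * (Real.exp (T / 4) * Real.exp (T / 8)) := by ring
      _ = _ := by rw [h4]
  linarith

/-- `γ(C⁻¹ W) ≤ γ W` for the stretch `C = Sc n c`, `c ≥ 1`. -/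
lemma squeeze_le {n : E} (hn : ‖n‖ = 1) {c : ℝ} (hc : 1 ≤ c) {W : Set E} (hW : MeasurableSet W)
    (cW : Convex ℝ W) (sW : ∀ x ∈ W, -x ∈ W) :
    stdGaussian E (Sc n c ⁻¹' W) ≤ stdGaussian E W := by
  have hc0 : 0 < c := by linarith
  have h := cmp_contr (Sc n c⁻¹ : E →L[ℝ] E) (fun g => by
      rw [norm_Sc_sq hn]
      have : (c⁻¹) ^ 2 ≤ 1 := by
        rw [inv_pow]; exact inv_le_one_of_one_le₀ (one_le_pow₀ hc)
      nlinarith [sq_nonneg ⟪n, g⟫])
    (K := Sc n c ⁻¹' W) ((Sc n c).continuous.measurable hW) (cW.linear_preimage (Sc n c).toLinearMap)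
    (fun x hx => by
      have : Sc n c (-x) = -Sc n c x := map_neg _ _
      rw [mem_preimage, this]; exact sW _ hx)
  have e : Sc n c⁻¹ ⁻¹' (Sc n c ⁻¹' W) = W := by
    ext x
    have : Sc n c (Sc n c⁻¹ x) = x := by
      rw [Sc_apply, inner_n_Sc hn, Sc_apply]
      have hz : (c⁻¹ - 1) * ⟪n, x⟫ + (c - 1) * (c⁻¹ * ⟪n, x⟫) = 0 := by
        field_simp
        ring
      rw [add_assoc, ← add_smul, hz, zero_smul, add_zero]
    simp only [mem_preimage, this]
  rwa [e] at h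

/-- (SCALE1) -/
theorem scale1 {n : E} (hn : ‖n‖ = 1) {s1 c c' : ℝ} (h0 : 0 ≤ s1) (hs1 : s1 ≤ c' / 64)
    (hc' : c' ≤ 1) (hc : 0 < c) (hcs : c ^ 2 * (1 - s1) = 1) {W : Set E} (hW : MeasurableSet W)
    (cW : Convex ℝ W) (sW : ∀ x ∈ W, -x ∈ W)
    (hthin : ∫ x in W, ⟪n, x⟫ ^ 2 ∂(stdGaussian E) ≤ (1 - c') * (stdGaussian E).real W) :
    (stdGaussian E).real (Sc n c ⁻¹' W) ≤ Real.exp (-(s1 * c' / 4)) * (stdGaussian E).real W := by
  have hs14 : s1 ≤ 1 / 4 := by linarith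
  have hint : Integrable (fun x : E => ⟪n, x⟫ ^ 2) (stdGaussian E) := by
    have h2 : MemLp (fun x : E => ⟪n, x⟫) 2 (stdGaussian E) :=
      (IsGaussian.memLp_dual (stdGaussian E) (innerSL ℝ n) 2 (by norm_num))
    exact h2.integrable_sq
  -- the mass of the strong tilt
  have hA : ∫⁻ x in W, ENNReal.ofReal (Real.exp (3 / 4 * ⟪n, x⟫ ^ 2 / 2)) ∂(stdGaussian E)
      ≤ 2 * stdGaussian E W := by
    have h1 := scale_measure hn (c := 2) (τ := -(3 / 4)) (by norm_num) (by norm_num) hW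
    have h2 := squeeze_le hn (c := 2) (by norm_num) hW cW sW
    rw [h1] at h2
    have e : ∀ x : E, Real.exp (-(-(3 / 4) * ⟪n, x⟫ ^ 2 / 2)) = Real.exp (3 / 4 * ⟪n, x⟫ ^ 2 / 2) := by
      intro x; congr 1; ring
    simp only [e] at h2
    have h3 : (2 : ℝ≥0∞) * (ENNReal.ofReal (2 : ℝ)⁻¹ *
        ∫⁻ x in W, ENNReal.ofReal (Real.exp (3 / 4 * ⟪n, x⟫ ^ 2 / 2)) ∂(stdGaussian E))
        ≤ 2 * stdGaussian E W := by gcongr
    rw [← mul_assoc] at h3
    have h4 : (2 : ℝ≥0∞) * ENNReal.ofReal (2 : ℝ)⁻¹ = 1 := by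
      rw [← ENNReal.ofReal_ofNat 2, ← ENNReal.ofReal_mul (by norm_num)]
      norm_num
    rwa [h4, one_mul] at h3
  have hB : ∫⁻ x in W, ENNReal.ofReal (⟪n, x⟫ ^ 2) ∂(stdGaussian E)
      ≤ ENNReal.ofReal ((1 - c') * (stdGaussian E).real W) := by
    rw [← ofReal_integral_eq_lintegral_ofReal hint.integrableOn
      (Filter.Eventually.of_forall fun x => sq_nonneg _)]
    exact ENNReal.ofReal_le_ofReal hthin
  have h1 := scale_measure hn (c := c) (τ := -s1) hc (by linarith) hW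
  have hup : ∫⁻ x in W, ENNReal.ofReal (Real.exp (-(-s1 * ⟪n, x⟫ ^ 2 / 2))) ∂(stdGaussian E)
      ≤ ENNReal.ofReal ((1 + s1 / 2 * (1 - c') + 16 * s1 ^ 2) * (stdGaussian E).real W) := by
    have hW' : stdGaussian E W = ENNReal.ofReal ((stdGaussian E).real W) := by
      rw [measureReal_def, ENNReal.ofReal_toReal (measure_ne_top _ _)]
    calc ∫⁻ x in W, ENNReal.ofReal (Real.exp (-(-s1 * ⟪n, x⟫ ^ 2 / 2))) ∂(stdGaussian E)
        ≤ ∫⁻ x in W, (1 + ENNReal.ofReal (s1 / 2) * ENNReal.ofReal (⟪n, x⟫ ^ 2)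
            + ENNReal.ofReal (8 * s1 ^ 2) * ENNReal.ofReal (Real.exp (3 / 4 * ⟪n, x⟫ ^ 2 / 2)))
            ∂(stdGaussian E) := by
          refine lintegral_mono fun x => ?_
          rw [← ENNReal.ofReal_one, ← ENNReal.ofReal_mul (by positivity),
            ← ENNReal.ofReal_mul (by positivity), ← ENNReal.ofReal_add (by norm_num) (by positivity),
            ← ENNReal.ofReal_add (by positivity) (by positivity)]
          apply ENNReal.ofReal_le_ofReal
          have := exp_tilt_le h0 hs14 (sq_nonneg ⟪n, x⟫)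
          have e : -(-s1 * ⟪n, x⟫ ^ 2 / 2) = s1 * ⟪n, x⟫ ^ 2 / 2 := by ring
          rw [e]
          exact this
      _ = stdGaussian E W + ENNReal.ofReal (s1 / 2) *
            ∫⁻ x in W, ENNReal.ofReal (⟪n, x⟫ ^ 2) ∂(stdGaussian E)
          + ENNReal.ofReal (8 * s1 ^ 2) *
            ∫⁻ x in W, ENNReal.ofReal (Real.exp (3 / 4 * ⟪n, x⟫ ^ 2 / 2)) ∂(stdGaussian E) := by
          rw [lintegral_add_left (by fun_prop), lintegral_add_left (by fun_prop),
            lintegral_const_mul _ (by fun_prop), lintegral_const_mul _ (by fun_prop)]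
          simp
      _ ≤ stdGaussian E W + ENNReal.ofReal (s1 / 2) *
            ENNReal.ofReal ((1 - c') * (stdGaussian E).real W)
          + ENNReal.ofReal (8 * s1 ^ 2) * (2 * stdGaussian E W) := by gcongr
      _ = ENNReal.ofReal ((1 + s1 / 2 * (1 - c') + 16 * s1 ^ 2) * (stdGaussian E).real W) := by
          have h2 : (2 : ℝ≥0∞) = ENNReal.ofReal 2 := by rw [ENNReal.ofReal_ofNat]
          have hr : 0 ≤ (stdGaussian E).real W := measureReal_nonneg
          have h1c : 0 ≤ 1 - c' := by linarith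
          rw [hW', h2, ← ENNReal.ofReal_mul (by positivity), ← ENNReal.ofReal_mul (by positivity),
            ← ENNReal.ofReal_mul (by positivity), ← ENNReal.ofReal_add (by positivity) (by positivity),
            ← ENNReal.ofReal_add (by positivity) (by positivity)]
          congr 1
          ring
  have h5 : (stdGaussian E).real (Sc n c ⁻¹' W)
      ≤ c⁻¹ * ((1 + s1 / 2 * (1 - c') + 16 * s1 ^ 2) * (stdGaussian E).real W) := by
    have hr : 0 ≤ (stdGaussian E).real W := measureReal_nonneg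
    have h1c : 0 ≤ 1 - c' := by linarith
    have h6 : stdGaussian E (Sc n c ⁻¹' W)
        ≤ ENNReal.ofReal (c⁻¹ * ((1 + s1 / 2 * (1 - c') + 16 * s1 ^ 2) * (stdGaussian E).real W)) := by
      rw [h1, ENNReal.ofReal_mul (by positivity)]
      gcongr
    have := ENNReal.toReal_mono ENNReal.ofReal_ne_top h6
    rwa [ENNReal.toReal_ofReal (by positivity)] at this
  have h1c : 0 ≤ 1 - c' := by linarith
  have h7 : c⁻¹ ≤ Real.exp (-(s1 / 2)) := by
    have hci : c⁻¹ = √(1 - s1) := by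
      rw [eq_comm, Real.sqrt_eq_iff_mul_self_eq (by linarith) (by positivity)]
      have : c ≠ 0 := hc.ne'
      field_simp
      linarith
    rw [hci, Real.sqrt_le_left (Real.exp_pos _).le, ← Real.exp_nat_mul]
    have := Real.add_one_le_exp (-s1)
    push_cast
    calc 1 - s1 ≤ Real.exp (-s1) := by linarith
      _ = Real.exp (2 * (-(s1 / 2))) := by congr 1; ring
  have h8 : 1 + s1 / 2 * (1 - c') + 16 * s1 ^ 2 ≤ Real.exp (s1 / 2 * (1 - c') + 16 * s1 ^ 2) := by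
    have := Real.add_one_le_exp (s1 / 2 * (1 - c') + 16 * s1 ^ 2)
    linarith
  calc (stdGaussian E).real (Sc n c ⁻¹' W)
      ≤ c⁻¹ * ((1 + s1 / 2 * (1 - c') + 16 * s1 ^ 2) * (stdGaussian E).real W) := h5
    _ ≤ Real.exp (-(s1 / 2)) * (Real.exp (s1 / 2 * (1 - c') + 16 * s1 ^ 2)
          * (stdGaussian E).real W) := by
        gcongr
    _ = Real.exp (-(s1 / 2) + (s1 / 2 * (1 - c') + 16 * s1 ^ 2)) * (stdGaussian E).real W := by
        rw [Real.exp_add (-(s1 / 2)) (s1 / 2 * (1 - c') + 16 * s1 ^ 2), mul_assoc]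
    _ ≤ Real.exp (-(s1 * c' / 4)) * (stdGaussian E).real W := by
        gcongr
        nlinarith [mul_nonneg h0 (by linarith : (0:ℝ) ≤ c' / 64 - s1)]

/-- weighted form of the comparison lemma -/
lemma cmpw {ι : Type*} (s : Finset ι) (a : ι → ℝ) (ha : ∀ k ∈ s, 0 ≤ a k) (u : ι → E)
    (R : E →L[ℝ] F) (hR : ∀ g, ‖R g‖ ^ 2 ≤ ‖g‖ ^ 2 + ∑ k ∈ s, a k * ⟪u k, g⟫ ^ 2) {K : Set F}
    (hK : MeasurableSet K) (cK : Convex ℝ K) (sK : ∀ x ∈ K, -x ∈ K) :
    Real.exp (-((∑ k ∈ s, a k * ‖u k‖ ^ 2) / 2)) * (stdGaussian F).real K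
      ≤ (stdGaussian E).real (R ⁻¹' K) := by
  have h := cmp s (fun k => √(a k) • u k) R (fun g => by
    refine (hR g).trans (le_of_eq ?_)
    congr 1
    refine Finset.sum_congr rfl fun k hk => ?_
    rw [inner_smul_left, mul_pow]
    simp only [conj_trivial]
    rw [Real.sq_sqrt (ha k hk)]) hK cK sK
  have e : ∑ k ∈ s, ‖√(a k) • u k‖ ^ 2 = ∑ k ∈ s, a k * ‖u k‖ ^ 2 := by
    refine Finset.sum_congr rfl fun k hk => ?_
    rw [norm_smul, mul_pow, Real.norm_eq_abs, sq_abs, Real.sq_sqrt (ha k hk)]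
  rwa [e] at h

lemma norm_Sc_le {n : E} (hn : ‖n‖ = 1) {c : ℝ} (hc : 1 ≤ c) (x : E) :
    ‖Sc n c x‖ ^ 2 ≤ c ^ 2 * ‖x‖ ^ 2 := by
  rw [norm_Sc_sq hn]
  have h1 := abs_real_inner_le_norm n x
  rw [hn, one_mul] at h1
  have h2 : ⟪n, x⟫ ^ 2 ≤ ‖x‖ ^ 2 := by
    rw [← sq_abs]; exact pow_le_pow_left₀ (abs_nonneg _) h1 2
  have h3 : 0 ≤ c ^ 2 - 1 := by nlinarith
  nlinarith [mul_le_mul_of_nonneg_left h2 h3]

lemma adjoint_Sc (n : E) (c : ℝ) : (Sc n c).adjoint = Sc n c := by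
  symm
  rw [ContinuousLinearMap.eq_adjoint_iff]
  intro x y
  exact inner_Sc_comm n c x y

/-- second moment of `‖G C h‖` -/
lemma moment_Sc {n : E} (hn : ‖n‖ = 1) {c : ℝ} (hc : 1 ≤ c) (G : E →L[ℝ] H) :
    ∫ x, ‖(G ∘L Sc n c) x‖ ^ 2 ∂(stdGaussian E) ≤ c ^ 2 * ∫ x, ‖G x‖ ^ 2 ∂(stdGaussian E) := by
  rw [Dom640.integral_norm_sq, Dom640.integral_norm_sq, Finset.mul_sum]
  refine Finset.sum_le_sum fun i _ => ?_
  rw [ContinuousLinearMap.adjoint_comp, adjoint_Sc]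
  exact norm_Sc_le hn hc _

/-- **core**: everything happens in the squeezed space `h`, `g = C h`. -/
theorem core {ι : Type*} (s : Finset ι) (a : ι → ℝ) (ha : ∀ k ∈ s, 0 ≤ a k) (u : ι → E)
    (R : E →L[ℝ] F) {n : E} (hn : ‖n‖ = 1) {s1 c : ℝ} (h0 : 0 ≤ s1) (h1 : s1 ≤ 1 / 4)
    (hc : 0 < c) (hcs : c ^ 2 * (1 - s1) = 1)
    (hR : ∀ g, ‖R g‖ ^ 2 + s1 * ⟪n, g⟫ ^ 2 ≤ ‖g‖ ^ 2 + ∑ k ∈ s, a k * ⟪u k, g⟫ ^ 2)
    {B : Set F} (hB : IsClosed B) (cB : Convex ℝ B) (sB : ∀ x ∈ B, -x ∈ B)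
    (w : E) (t : ℝ) (G : E →L[ℝ] H) {R0 h e : ℝ} (hR0 : 0 < R0) (hh : 0 ≤ h)
    (hG : ∀ g, R g ∈ B → (1 - h) * ‖G g‖ ^ 2 ≤ R0 ^ 2)
    (he0 : 0 ≤ e) (he1 : e ≤ 1 / 16) (hvar : ∫ x, ‖G x‖ ^ 2 ∂(stdGaussian E) ≤ e * R0 ^ 2) :
    Real.exp (-(2 / 3 * ∑ k ∈ s, a k * ‖u k‖ ^ 2 + 44 * e * h)) * (stdGaussian F).real B
        * (stdGaussian E).real {x | |⟪Sc n c w, x⟫| ≤ t}
      ≤ (stdGaussian E).real
          (Sc n c ⁻¹' ((R ⁻¹' B ∩ {x | |⟪w, x⟫| ≤ t}) ∩ {x | ‖G x‖ ≤ R0})) := by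
  have hc2 : c ^ 2 ≤ 4 / 3 := by nlinarith
  have hc1 : 1 ≤ c := by
    by_contra hlt
    have hlt' : c < 1 := not_le.1 hlt
    have : c ^ 2 < 1 := by nlinarith
    nlinarith
  have mB : MeasurableSet B := hB.measurableSet
  set γ := stdGaussian E with hγ
  -- step 1: comparison
  have st1 : Real.exp (-(2 / 3 * ∑ k ∈ s, a k * ‖u k‖ ^ 2)) * (stdGaussian F).real B
      ≤ γ.real ((R ∘L Sc n c) ⁻¹' B) := by
    have hb := cmpw s a ha (fun k => Sc n c (u k)) (R ∘L Sc n c) (fun g => by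
      have h2 := hR (Sc n c g)
      have h3 : ∀ k, ⟪Sc n c (u k), g⟫ = ⟪u k, Sc n c g⟫ := fun k => inner_Sc_comm n c _ _
      simp only [ContinuousLinearMap.comp_apply, h3]
      rw [norm_Sc_sq hn c g, inner_n_Sc hn, mul_pow] at h2
      have h4 : (c ^ 2 - 1) * ⟪n, g⟫ ^ 2 - s1 * (c ^ 2 * ⟪n, g⟫ ^ 2) = 0 := by
        linear_combination ⟪n, g⟫ ^ 2 * hcs
      linarith) mB cB sB
    refine le_trans ?_ hb
    gcongr
    have : ∑ k ∈ s, a k * ‖Sc n c (u k)‖ ^ 2 ≤ 4 / 3 * ∑ k ∈ s, a k * ‖u k‖ ^ 2 := by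
      rw [Finset.mul_sum]
      refine Finset.sum_le_sum fun k hk => ?_
      have h5 := norm_Sc_le hn hc1 (u k)
      have h6 : c ^ 2 * ‖u k‖ ^ 2 ≤ 4 / 3 * ‖u k‖ ^ 2 := by gcongr
      have := mul_le_mul_of_nonneg_left (h5.trans h6) (ha k hk)
      linarith
    linarith
  set B1 : Set E := (R ∘L Sc n c) ⁻¹' B with hB1
  have cB1 : Convex ℝ B1 := cB.linear_preimage (R ∘L Sc n c).toLinearMap
  have clB1 : IsClosed B1 := hB.preimage (R ∘L Sc n c).continuous
  have sB1 : ∀ x ∈ B1, -x ∈ B1 := fun x hx => by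
    have : (R ∘L Sc n c) (-x) = -(R ∘L Sc n c) x := map_neg _ _
    rw [hB1, mem_preimage, this]; exact sB _ hx
  -- step 2: slab
  have st2 := Dom640.slab_real clB1.measurableSet cB1 sB1 (Sc n c w) t
  set W1 : Set E := B1 ∩ {x | |⟪Sc n c w, x⟫| ≤ t} with hW1
  have clW1 : IsClosed W1 := clB1.inter (isClosed_le (by fun_prop) continuous_const)
  have cW1 : Convex ℝ W1 := by
    refine cB1.inter ?_
    have : {x : E | |⟪Sc n c w, x⟫| ≤ t} = (innerSL ℝ (Sc n c w)).toLinearMap ⁻¹' (Icc (-t) t) := by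
      ext x; simp [abs_le]
    rw [this]
    exact (convex_Icc _ _).linear_preimage _
  have sW1 : ∀ x ∈ W1, -x ∈ W1 := fun x hx => ⟨sB1 x hx.1, by
    have := hx.2
    simp only [mem_ofPred_eq, inner_neg_right, abs_neg] at this ⊢
    exact this⟩
  -- step 3: cap
  set N : E → ℝ := fun x => ‖(G ∘L Sc n c) x‖ with hN
  have hNc : Continuous N := by fun_prop
  have hNv : ConvexOn ℝ univ N := by
    refine ⟨convex_univ, fun x _ y _ a b ha hb hab => ?_⟩
    simp only [hN, map_add, map_smul, smul_eq_mul]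
    refine (norm_add_le _ _).trans ?_
    rw [norm_smul, norm_smul, Real.norm_of_nonneg ha, Real.norm_of_nonneg hb]
  have hmom : ∫ x, ‖(G ∘L Sc n c) x‖ ^ 2 ∂γ ≤ 4 / 3 * e * R0 ^ 2 := by
    refine (moment_Sc hn hc1 G).trans ?_
    calc c ^ 2 * ∫ x, ‖G x‖ ^ 2 ∂γ ≤ 4 / 3 * (e * R0 ^ 2) := by
          have h7 : 0 ≤ ∫ x, ‖G x‖ ^ 2 ∂γ := integral_nonneg fun x => sq_nonneg _
          exact mul_le_mul hc2 hvar h7 (by norm_num)
      _ = _ := by ring
  have hW1n : 0 ≤ γ.real W1 := measureReal_nonneg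
  have hcut1 := Dom640.cut clW1.measurableSet cW1 sW1 (G ∘L Sc n c) hR0
  have hcut2 := Dom640.cut clW1.measurableSet cW1 sW1 (G ∘L Sc n c) (r := R0 / 2) (by positivity)
  have split : ∀ r : ℝ, γ.real (W1 ∩ {x | r < N x}) = γ.real W1 - γ.real (W1 ∩ {x | N x ≤ r}) := by
    intro r
    have hm : MeasurableSet {x : E | N x ≤ r} := measurableSet_le hNc.measurable measurable_const
    have := measureReal_inter_add_sdiff (μ := γ) (s := W1) hm
    have e2 : W1 \ {x | N x ≤ r} = W1 ∩ {x | r < N x} := by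
      ext x; simp [not_le]
    rw [e2] at this
    linarith
  have hM1 : γ.real (W1 ∩ {x | R0 < N x}) ≤ (4 / 3 * e) * γ.real W1 := by
    rw [split]
    have h8 : (1 - 4 / 3 * e) * γ.real W1 ≤ γ.real (W1 ∩ {x | N x ≤ R0}) := by
      refine le_trans ?_ hcut1
      gcongr
      rw [div_le_iff₀ (by positivity)]
      exact hmom
    linarith
  have hM2 : γ.real (W1 ∩ {x | R0 / 2 < N x}) ≤ (16 / 3 * e) * γ.real W1 := by
    rw [split]
    have h8 : (1 - 16 / 3 * e) * γ.real W1 ≤ γ.real (W1 ∩ {x | N x ≤ R0 / 2}) := by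
      refine le_trans ?_ hcut2
      gcongr
      rw [div_le_iff₀ (by positivity)]
      calc ∫ x, ‖(G ∘L Sc n c) x‖ ^ 2 ∂γ ≤ 4 / 3 * e * R0 ^ 2 := hmom
        _ = 16 / 3 * e * (R0 / 2) ^ 2 := by ring
    linarith
  have hcap : γ.real (W1 ∩ {x | R0 < N x}) ≤ (22 * e * h) * γ.real W1 := by
    rcases le_or_gt h (1 / 2) with hh2 | hh2
    · have hb := Gr655.cap_tail cW1 clW1 hNv hNc hR0 (δ := h * R0) (e := 16 / 3 * e) (by positivity)
        (fun x hx => by
          have h9 := hG (Sc n c x) hx.1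
          have h10 : N x = ‖G (Sc n c x)‖ := rfl
          rw [h10]
          set y := ‖G (Sc n c x)‖
          have hy : 0 ≤ y := norm_nonneg _
          by_contra hlt
          have hlt' : (1 + h) * R0 < y := by push Not at hlt; linarith
          have h11 : ((1 + h) * R0) ^ 2 < y ^ 2 := pow_lt_pow_left₀ hlt' (by positivity) (by norm_num)
          have h12 : (1 - h) * ((1 + h) * R0) ^ 2 < (1 - h) * y ^ 2 :=
            mul_lt_mul_of_pos_left h11 (by linarith)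
          have h13 : R0 ^ 2 ≤ (1 - h) * ((1 + h) * R0) ^ 2 := by
            have : 1 ≤ (1 - h) * (1 + h) ^ 2 := by nlinarith [mul_nonneg hh hh]
            calc R0 ^ 2 = 1 * R0 ^ 2 := by ring
              _ ≤ ((1 - h) * (1 + h) ^ 2) * R0 ^ 2 := by gcongr
              _ = _ := by ring
          linarith)
        (by positivity) (by linarith) hM2
      refine hb.trans ?_
      have h20 : 4 * (h * R0) * (16 / 3 * e) / R0 = 64 / 3 * (e * h) := by
        field_simp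
        ring
      rw [h20]
      have h21 : 64 / 3 * (e * h) ≤ 22 * e * h := by nlinarith [mul_nonneg he0 hh]
      exact mul_le_mul_of_nonneg_right h21 hW1n
    · refine hM1.trans ?_
      have h21 : 4 / 3 * e ≤ 22 * e * h := by nlinarith [mul_nonneg he0 (by linarith : 0 ≤ h - 1 / 2)]
      exact mul_le_mul_of_nonneg_right h21 hW1n
  have hfin : (1 - min (22 * e * h) (4 / 3 * e)) * γ.real W1 ≤ γ.real (W1 ∩ {x | N x ≤ R0}) := by
    have h14 := split R0
    have h15 : γ.real (W1 ∩ {x | R0 < N x}) ≤ min (22 * e * h) (4 / 3 * e) * γ.real W1 := by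
      rcases min_choice (22 * e * h) (4 / 3 * e) with h | h <;> rw [h] <;> assumption
    linarith
  have hmin : Real.exp (-(44 * e * h)) ≤ 1 - min (22 * e * h) (4 / 3 * e) := by
    set m := min (22 * e * h) (4 / 3 * e) with hm
    have hm0 : 0 ≤ m := le_min (by positivity) (by positivity)
    have hm1 : m ≤ 1 / 2 := (min_le_right _ _).trans (by linarith)
    have hm2 : 2 * m ≤ 44 * e * h := by have := min_le_left (22 * e * h) (4 / 3 * e); linarith
    calc Real.exp (-(44 * e * h)) ≤ Real.exp (-(2 * m)) := by gcongr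
      _ ≤ 1 - m := by
          have h30 := Real.add_one_le_exp (2 * m)
          have h31 : Real.exp (-(2 * m)) * Real.exp (2 * m) = 1 := by rw [← Real.exp_add]; simp
          have h32 : Real.exp (-(2 * m)) * (2 * m + 1) ≤ 1 := by
            calc Real.exp (-(2 * m)) * (2 * m + 1) ≤ Real.exp (-(2 * m)) * Real.exp (2 * m) := by
                  gcongr
              _ = 1 := h31
          have h33 : 1 ≤ (1 - m) * (2 * m + 1) := by nlinarith
          by_contra hlt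
          have hlt' : 1 - m < Real.exp (-(2 * m)) := not_le.1 hlt
          have : (1 - m) * (2 * m + 1) < Real.exp (-(2 * m)) * (2 * m + 1) :=
            mul_lt_mul_of_pos_right hlt' (by linarith)
          linarith
  have eset : Sc n c ⁻¹' ((R ⁻¹' B ∩ {x | |⟪w, x⟫| ≤ t}) ∩ {x | ‖G x‖ ≤ R0})
      = W1 ∩ {x | N x ≤ R0} := by
    ext x
    simp only [mem_preimage, mem_inter_iff, mem_ofPred_eq, hW1, hB1, hN,
      ContinuousLinearMap.comp_apply, inner_Sc_comm n c w x]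
  rw [eset]
  have hq : 0 ≤ 1 - min (22 * e * h) (4 / 3 * e) := by
    have := Real.exp_pos (-(44 * e * h)); linarith
  calc Real.exp (-(2 / 3 * ∑ k ∈ s, a k * ‖u k‖ ^ 2 + 44 * e * h)) * (stdGaussian F).real B
        * γ.real {x | |⟪Sc n c w, x⟫| ≤ t}
      = Real.exp (-(44 * e * h)) * ((Real.exp (-(2 / 3 * ∑ k ∈ s, a k * ‖u k‖ ^ 2))
          * (stdGaussian F).real B) * γ.real {x | |⟪Sc n c w, x⟫| ≤ t}) := by
        rw [neg_add, Real.exp_add]; ring
    _ ≤ (1 - min (22 * e * h) (4 / 3 * e)) * (γ.real B1 * γ.real {x | |⟪Sc n c w, x⟫| ≤ t}) := by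
        refine mul_le_mul hmin ?_ (by positivity) hq
        exact mul_le_mul_of_nonneg_right st1 measureReal_nonneg
    _ ≤ (1 - min (22 * e * h) (4 / 3 * e)) * γ.real W1 := mul_le_mul_of_nonneg_left st2 hq
    _ ≤ _ := hfin

end Crest.Agent.R239.Lev203
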