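import Crest.Agent.R239.Lev_964

/-! R239 (helper964): D-level forms of the generic one-level comparison. -/

set_option autoImplicit false
set_option linter.unusedSectionVars false
open MeasureTheory ProbabilityTheory Set
open scoped RealInnerProductSpace

namespace Crest.Agent.R239.Lev964

open Crest.Agent.R239 FD

variable {E : Type*} [NormedAddCommGroup E] [InnerProductSpace ℝ E] [FiniteDimensional ℝ E]
  [MeasurableSpace E] [BorelSpace E]
variable {G : Type*} [NormedAddCommGroup G] [InnerProductSpace ℝ G] [FiniteDimensional ℝ G]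

/-- cap cut, form `‖A g‖² ≤ (1+h) ρ² r` on the body, every `h ≥ 0` -/
theorem cap_cut' {A : E →L[ℝ] G} {K : Set E} (mK : MeasurableSet K) (cK : Convex ℝ K)
    (sK : ∀ x ∈ K, -x ∈ K) {ρ r h : ℝ} (hρ : 16 ≤ ρ) (hint : ∫ g, ‖A g‖ ^ 2 ∂(stdGaussian E) ≤ r)
    (h0 : 0 ≤ h) (hK : ∀ g ∈ K, ‖A g‖ ^ 2 ≤ (1 + h) * (ρ ^ 2 * r)) :
    Real.exp (-(16 * h / ρ ^ 2)) * (stdGaussian E).real K
      ≤ (stdGaussian E).real (K ∩ {g | ‖A g‖ ^ 2 ≤ ρ ^ 2 * r}) := by
  refine cap_cut mK cK sK hρ hint h0 fun g hg => ?_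
  have hr0 : 0 ≤ r := le_trans (integral_nonneg fun g => by positivity) hint
  have h1 := hK g hg
  have h2 : 0 ≤ ρ ^ 2 * r := by positivity
  by_cases hh : h ≤ 1
  · calc (1 - h) * ‖A g‖ ^ 2 ≤ (1 - h) * ((1 + h) * (ρ ^ 2 * r)) :=
          mul_le_mul_of_nonneg_left h1 (by linarith)
      _ ≤ ρ ^ 2 * r := by nlinarith [mul_nonneg (sq_nonneg h) h2]
  · have : (1 - h) * ‖A g‖ ^ 2 ≤ 0 := by
      have := sq_nonneg ‖A g‖
      nlinarith
    linarith

lemma lam_pos {p : Par} (hp : p.Ok) (i : ℕ) : 0 < p.lam i := by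
  have := hp.tau_pos; have := hp.A_ge
  unfold Par.lam; positivity

lemma hs_nonneg {K : Set E} (hK : IsCompact K) (h0 : (0:E) ∈ K) (z : E) : 0 ≤ hs K z := by
  have h1 : ⟪(0:E), z⟫ ≤ hs K z := F6core696.le_hs hK h0 z
  simpa using h1

lemma Eh_nonneg {K : Set E} (hK : IsCompact K) (h0 : (0:E) ∈ K) (μ : Multiset E) : 0 ≤ Eh K μ := by
  unfold Eh
  refine Multiset.sum_nonneg fun x hx => ?_
  obtain ⟨z, -, rfl⟩ := Multiset.mem_map.1 hx
  exact hs_nonneg hK h0 z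

instance gau_prob (A : E →L[ℝ] E) : IsProbabilityMeasure (gau A) := by
  unfold gau
  exact Measure.isProbabilityMeasure_map A.continuous.measurable.aemeasurable

lemma val_nonneg {p : Par} (hp : p.Ok) {V : Flag E} {i : ℕ} {K : Set E} (h : Adm p V i K)
    (μ : Multiset E) : 0 ≤ val p V i μ K := by
  have h1 := Eh_nonneg (adm_compact h) (adm_zero h) μ
  have h2 : Real.log ((gau (V.H i)).real K) ≤ 0 :=
    Real.log_nonpos measureReal_nonneg measureReal_le_one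
  have := lam_pos hp i
  unfold val
  nlinarith

lemma bddBelow_val {p : Par} (hp : p.Ok) (V : Flag E) (i : ℕ) (μ : Multiset E) :
    BddBelow (val p V i μ '' {K | Adm p V i K}) := by
  refine ⟨0, ?_⟩
  rintro _ ⟨K, hK, rfl⟩
  exact val_nonneg hp hK μ

lemma D_le_val {p : Par} (hp : p.Ok) {V : Flag E} {i : ℕ} {K : Set E} (h : Adm p V i K)
    (μ : Multiset E) : D p V i μ ≤ val p V i μ K :=
  csInf_le (bddBelow_val hp V i μ) ⟨K, h, rfl⟩

lemma gau_cap_pos {p : Par} (hp : p.Ok) (V : Flag E) (i : ℕ) :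
    Real.exp (-(16 / p.rho ^ 2)) ≤ (gau (V.H i)).real (V.cap p.rho i) := by
  have h1 := cap_cut (A := NB V i ∘L V.H i) (K := univ) MeasurableSet.univ convex_univ
    (fun _ _ => mem_univ _) hp.rho_ge (integral_N V i).le zero_le_one (by
      intro g _
      have := rr_nonneg V i
      simp only [sub_self, zero_mul]; positivity)
  rw [gau_real_apply _ (isCompact_cap V _ _).isClosed.measurableSet]
  have h2 : V.H i ⁻¹' (V.cap p.rho i) = univ ∩ {g | ‖(NB V i ∘L V.H i) g‖ ^ 2 ≤ p.rho ^ 2 * V.rr i} := by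
    ext g
    simp only [mem_preimage, univ_inter, mem_ofPred_eq, ContinuousLinearMap.comp_apply, norm_NB_sq]
    change (V.H i g ∈ V.M i ∧ _) ↔ _
    have := H_mem V i g
    tauto
  rw [h2]
  simpa using h1

lemma adm_cap {p : Par} (hp : p.Ok) (V : Flag E) (i : ℕ) : Adm p V i (V.cap p.rho i) := by
  refine ⟨(isCompact_cap V _ _).isClosed, ?_, ?_, le_rfl, (Real.exp_pos _).trans_le (gau_cap_pos hp V i)⟩
  · refine (V.M i).convex.inter (convex_N V i ?_)
    have := rr_nonneg V i; positivity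
  · rintro x ⟨h1, h2⟩
    exact ⟨(V.M i).neg_mem h1, by rwa [N_neg]⟩

lemma exists_nearOpt {p : Par} (hp : p.Ok) (V : Flag E) (i : ℕ) (μ : Multiset E) {sl : ℝ}
    (hsl : 0 < sl) : ∃ K, NearOpt p V i μ K sl := by
  have hne : (val p V i μ '' {K | Adm p V i K}).Nonempty := ⟨_, _, adm_cap hp V i, rfl⟩
  obtain ⟨_, ⟨K, hK, rfl⟩, h⟩ := exists_lt_of_csInf_lt hne
    (lt_add_of_pos_right (sInf (val p V i μ '' {K | Adm p V i K})) hsl)
  exact ⟨K, hK, h.le⟩

lemma D_nonneg {p : Par} (hp : p.Ok) (V : Flag E) (i : ℕ) (μ : Multiset E) : 0 ≤ D p V i μ := by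
  refine Real.sInf_nonneg ?_
  rintro _ ⟨K, hK, rfl⟩
  exact val_nonneg hp hK μ

/-- body-level comparison, hypothesis `hgau` in x-space, cap in the form `N^V ≤ (1+h) N^W ∘ T` -/
theorem lev_body {p : Par} (hp : p.Ok) {V W : Flag E} {i : ℕ} {v : E} {s t : ℝ}
    (hs0 : 0 ≤ s) (ht : 0 < t) {h : ℝ} (h0 : 0 ≤ h)
    (hcap : ∀ x ∈ V.M i, V.N i x ≤ (1 + h) * W.N i (Ts v s x)) (hrr : W.rr i ≤ V.rr i)
    {K' : Set E} (hK' : Adm p W i K') {e : ℝ}
    (hgau : Real.exp (-e) * (gau (W.H i)).real K' ≤ (gau (Ts v s ∘L V.H i)).real K')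
    (hslab : 0 < (stdGaussian E).real {g | |⟪V.H i v, g⟫| ≤ t}) (μ : Multiset E) :
    Adm p V i (pb p V i v s t K') ∧
      val p V i μ (pb p V i v s t K') ≤ val p W i μ K' + s * t * S μ v
        + p.lam i * (e + 16 * h / p.rho ^ 2
          - Real.log ((stdGaussian E).real {g | |⟪V.H i v, g⟫| ≤ t})) := by
  obtain ⟨hcl, hcv, hsy, hsub, hpos⟩ := id hK'
  have hcp := adm_compact hK'
  have h0K' := adm_zero hK'
  have hlam : 0 < p.lam i := lam_pos hp i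
  have hTs : Continuous (Ts v s : E → E) := (Ts v s).continuous
  set K := pb p V i v s t K' with hKdef
  have e1 : K = ((V.M i : Set E) ∩ (Ts v s) ⁻¹' K') ∩
      ({x | |⟪v, x⟫| ≤ t} ∩ {x | V.N i x ≤ p.rho ^ 2 * V.rr i}) := rfl
  have hrr0 := rr_nonneg V i
  have hKcl : IsClosed K := by
    rw [e1]
    exact ((V.M i).closed_of_finiteDimensional.inter (hcl.preimage hTs)).inter
      ((isClosed_le (by fun_prop) continuous_const).inter (isClosed_N V i _))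
  have hKcv : Convex ℝ K := by
    rw [e1]
    have e2 : {x : E | |⟪v, x⟫| ≤ t} = (innerSL ℝ v) ⁻¹' (Metric.closedBall 0 t) := by
      ext x
      simp [Real.norm_eq_abs]
    refine ((V.M i).convex.inter (hcv.linear_preimage _)).inter
      (Convex.inter ?_ (convex_N V i (by positivity)))
    rw [e2]; exact (convex_closedBall _ _).linear_preimage _
  have hKsy : ∀ x ∈ K, -x ∈ K := by
    rintro x ⟨⟨h1, h2⟩, h3, h4⟩
    refine ⟨⟨(V.M i).neg_mem h1, ?_⟩, ?_, ?_⟩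
    · rw [map_neg]; exact hsy _ h2
    · rwa [inner_neg_right, abs_neg]
    · rwa [N_neg]
  have hKsub : K ⊆ V.cap p.rho i := fun x hx => ⟨hx.1.1, hx.2.2⟩
  have h0K : (0:E) ∈ K := by
    refine ⟨⟨(V.M i).zero_mem, ?_⟩, ?_, ?_⟩
    · rwa [map_zero]
    · simpa using ht.le
    · have h5 : V.N i (0:E) = 0 := by rw [← norm_NB_sq, map_zero]; simp
      rw [h5]; positivity
  set γ := stdGaussian E with hγ
  set B : Set E := (Ts v s ∘L V.H i) ⁻¹' K' with hB
  have hBm : MeasurableSet B := (hcl.preimage (Ts v s ∘L V.H i).continuous).measurableSet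
  have hBc : Convex ℝ B := hcv.linear_preimage (Ts v s ∘L V.H i).toLinearMap
  have hBs : ∀ x ∈ B, -x ∈ B := by
    intro x hx
    simp only [hB, mem_preimage, map_neg] at hx ⊢
    exact hsy _ hx
  have hBmem : ∀ g, g ∈ B ↔ Ts v s (V.H i g) ∈ K' := fun g => Iff.rfl
  have hcut1 := Dom640.slab_real hBm hBc hBs (V.H i v) t
  have mS := Dom640.measurableSet_slab (V.H i v) t
  have cS : Convex ℝ {x : E | |⟪V.H i v, x⟫| ≤ t} := by
    have e2 : {x : E | |⟪V.H i v, x⟫| ≤ t} = (innerSL ℝ (V.H i v)) ⁻¹' (Metric.closedBall 0 t) := by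
      ext x
      simp [Real.norm_eq_abs]
    rw [e2]; exact (convex_closedBall _ _).linear_preimage _
  have hcut2 := cap_cut' (A := NB V i ∘L V.H i) (hBm.inter mS) (hBc.inter cS) (by
      rintro x ⟨h1, h2⟩
      refine ⟨hBs x h1, ?_⟩
      simp only [mem_ofPred_eq, inner_neg_right, abs_neg] at h2 ⊢
      exact h2) hp.rho_ge (integral_N V i).le h0 (by
      rintro g ⟨hg, -⟩
      rw [hBmem] at hg
      rw [ContinuousLinearMap.comp_apply, norm_NB_sq]
      refine (hcap _ (H_mem V i g)).trans (mul_le_mul_of_nonneg_left ((hsub hg).2.trans ?_)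
        (by linarith))
      exact mul_le_mul_of_nonneg_left hrr (by positivity))
  have hpre : V.H i ⁻¹' K = B ∩ {x | |⟪V.H i v, x⟫| ≤ t} ∩
      {g | ‖(NB V i ∘L V.H i) g‖ ^ 2 ≤ p.rho ^ 2 * V.rr i} := by
    ext g
    simp only [mem_preimage, mem_inter_iff, mem_ofPred_eq, hBmem, ContinuousLinearMap.comp_apply,
      norm_NB_sq, inner_H]
    change ((V.H i g ∈ V.M i ∧ Ts v s (V.H i g) ∈ K') ∧ |⟪v, V.H i g⟫| ≤ t ∧ _) ↔ _
    have := H_mem V i g
    tauto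
  have hKr : (gau (V.H i)).real K = γ.real (V.H i ⁻¹' K) := gau_real_apply _ hKcl.measurableSet
  have hBr : (gau (Ts v s ∘L V.H i)).real K' = γ.real B := gau_real_apply _ hcl.measurableSet
  rw [← hpre, ← hKr] at hcut2
  rw [hBr] at hgau
  have hlow : Real.exp (-(16 * h / p.rho ^ 2)) * (Real.exp (-e) * (gau (W.H i)).real K'
      * γ.real {g | |⟪V.H i v, g⟫| ≤ t}) ≤ (gau (V.H i)).real K := by
    refine le_trans (mul_le_mul_of_nonneg_left ?_ (Real.exp_pos _).le) hcut2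
    exact le_trans (mul_le_mul_of_nonneg_right hgau hslab.le) hcut1
  have hKpos : 0 < (gau (V.H i)).real K := lt_of_lt_of_le (by positivity) hlow
  refine ⟨⟨hKcl, hKcv, hKsy, hKsub, hKpos⟩, ?_⟩
  have hlog : Real.log ((gau (W.H i)).real K') + Real.log (γ.real {g | |⟪V.H i v, g⟫| ≤ t})
      - e - 16 * h / p.rho ^ 2 ≤ Real.log ((gau (V.H i)).real K) := by
    refine le_trans (le_of_eq ?_) (Real.log_le_log (by positivity) hlow)
    rw [Real.log_mul (by positivity) (by positivity), Real.log_exp,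
      Real.log_mul (by positivity) hslab.ne', Real.log_mul (by positivity) hpos.ne', Real.log_exp]
    ring
  have hEh : Eh K μ ≤ Eh K' μ + s * t * S μ v :=
    F6core696.Eh_pullback (B := K) hcp ⟨0, h0K⟩ hs0 (fun x => Ts_apply v s x)
      (fun x hx => hx.1.2) (fun x hx => hx.2.1) μ
  unfold val
  nlinarith [mul_le_mul_of_nonneg_left hlog hlam.le]

/-- D-level comparison -/
theorem lev_D {p : Par} (hp : p.Ok) {V W : Flag E} {i : ℕ} {v : E} {s t : ℝ}
    (hs0 : 0 ≤ s) (ht : 0 < t) {h : ℝ} (h0 : 0 ≤ h)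
    (hcap : ∀ x ∈ V.M i, V.N i x ≤ (1 + h) * W.N i (Ts v s x)) (hrr : W.rr i ≤ V.rr i)
    (μ : Multiset E) {e sl : ℝ} (hsl : 0 < sl)
    (hgau : ∀ K', NearOpt p W i μ K' sl →
      Real.exp (-e) * (gau (W.H i)).real K' ≤ (gau (Ts v s ∘L V.H i)).real K')
    (hslab : 0 < (stdGaussian E).real {g | |⟪V.H i v, g⟫| ≤ t}) :
    D p V i μ ≤ D p W i μ + s * t * S μ v
        + p.lam i * (e + 16 * h / p.rho ^ 2
          - Real.log ((stdGaussian E).real {g | |⟪V.H i v, g⟫| ≤ t})) := by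
  refine le_of_forall_pos_le_add fun ε hε => ?_
  obtain ⟨K', hK'⟩ := exists_nearOpt hp W i μ (lt_min hsl hε)
  have hK1 : NearOpt p W i μ K' sl := ⟨hK'.1, hK'.2.trans (by linarith [min_le_left sl ε])⟩
  obtain ⟨h1, h2⟩ := lev_body hp hs0 ht h0 hcap hrr hK'.1 (hgau K' hK1) hslab μ
  have h3 := D_le_val hp h1 μ
  have h4 := hK'.2
  have h5 := min_le_right sl ε
  linarith

/-- transfer of the comparison `R = Hi' T H` in `g`-space to x-space -/
lemma gau_of_R {V W : Flag E} {i : ℕ} (hiW : i ≤ W.n) {v : E} {s : ℝ}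
    (hM : ∀ x ∈ V.M i, Ts v s x ∈ W.M i) {K' : Set E} (hK' : MeasurableSet K') {e : ℝ}
    (hcmp : Real.exp (-e) * (stdGaussian E).real (W.H i ⁻¹' K')
      ≤ (stdGaussian E).real ((W.Hi i ∘L Ts v s ∘L V.H i) ⁻¹' (W.H i ⁻¹' K'))) :
    Real.exp (-e) * (gau (W.H i)).real K' ≤ (gau (Ts v s ∘L V.H i)).real K' := by
  rw [gau_real_apply _ hK', gau_real_apply _ hK']
  convert hcmp using 2
  ext g
  simp only [mem_preimage, ContinuousLinearMap.comp_apply]
  rw [H_Hi W hiW (hM _ (H_mem V i g))]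

/-- no-gain comparison from a pointwise inequality -/
theorem lev_plain {p : Par} (hp : p.Ok) {V W : Flag E} {i : ℕ} (hiW : i ≤ W.n) {v : E} {s t : ℝ}
    (hs0 : 0 ≤ s) (ht : 0 < t) (hM : ∀ x ∈ V.M i, Ts v s x ∈ W.M i) {h : ℝ} (h0 : 0 ≤ h)
    (hcap : ∀ x ∈ V.M i, V.N i x ≤ (1 + h) * W.N i (Ts v s x)) (hrr : W.rr i ≤ V.rr i)
    {ι : Type*} (fs : Finset ι) (w : ι → E)
    (hN : ∀ g, ‖W.Hi i (Ts v s (V.H i g))‖ ^ 2 ≤ ‖g‖ ^ 2 + ∑ k ∈ fs, ⟪w k, g⟫ ^ 2)
    (hslab : 0 < (stdGaussian E).real {g | |⟪V.H i v, g⟫| ≤ t}) (μ : Multiset E) :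
    D p V i μ ≤ D p W i μ + s * t * S μ v
        + p.lam i * ((∑ k ∈ fs, ‖w k‖ ^ 2) / 2 + 16 * h / p.rho ^ 2
          - Real.log ((stdGaussian E).real {g | |⟪V.H i v, g⟫| ≤ t})) := by
  refine lev_D hp hs0 ht h0 hcap hrr μ one_pos (fun K' hK' => ?_) hslab
  refine gau_of_R hiW hM hK'.1.1.measurableSet ?_
  have := Cmp142.cmp_sum_real (K := W.H i ⁻¹' K')
    (hK'.1.1.preimage (W.H i).continuous).measurableSet
    (hK'.1.2.1.linear_preimage (W.H i).toLinearMap)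
    (by intro x hx; simp only [mem_preimage, map_neg] at hx ⊢; exact hK'.1.2.2.1 _ hx)
    fs (W.Hi i ∘L Ts v s ∘L V.H i) w hN
  rwa [neg_div] at this

lemma H_of_Q {W : Flag E} {i : ℕ} {n : E} (hn : ‖n‖ = 1) (hQ : W.Q i n = n) : W.H i n = n := by
  have hi : i < W.n := by
    by_contra hc
    have h1 : W.M i = ⊥ := W.bot i (by omega)
    have h2 : W.M (i + 1) = ⊥ := W.bot (i + 1) (by omega)
    have h3 : W.Q i n = 0 := by
      rw [Q_eq, Mom764.Q_apply, h1, h2]; simp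
    rw [h3] at hQ
    rw [← hQ] at hn; simp at hn
  have h1 : W.H i n = ∑ j ∈ Finset.Ico i W.n, th ^ (j - i) • Mom764.Q W.M j (Mom764.Q W.M i n) := by
    rw [H_eq, Mom764.H_apply]
    refine Finset.sum_congr rfl fun j _ => ?_
    rw [← Q_eq, ← Q_eq, hQ]
  rw [h1, Finset.sum_eq_single i]
  · rw [Mom764.Q_Q W.anti, ← Q_eq, hQ]; simp
  · intro j _ hj
    rw [Mom764.Q_Q_ne W.anti hj]; simp
  · intro h; exact absurd (Finset.mem_Ico.2 ⟨le_rfl, hi⟩) h

/-- comparison with the rank-one gain at a thin level of `W` -/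
theorem lev_gain {p : Par} (hp : p.Ok) {V W : Flag E} {i : ℕ} (hiW : i ≤ W.n) {v : E} {s t : ℝ}
    (hs0 : 0 ≤ s) (ht : 0 < t) (hM : ∀ x ∈ V.M i, Ts v s x ∈ W.M i) {h : ℝ} (h0 : 0 ≤ h)
    (hcap : ∀ x ∈ V.M i, V.N i x ≤ (1 + h) * W.N i (Ts v s x)) (hrr : W.rr i ≤ V.rr i)
    {ι : Type*} (fs : Finset ι) (w : ι → E) {n : E} (hn : ‖n‖ = 1) (hQ : W.Q i n = n)
    {τ c dl : ℝ} (hτ : 0 ≤ τ) (hdl : 0 < dl)
    (hN : ∀ g, ‖W.Hi i (Ts v s (V.H i g))‖ ^ 2 + τ * ⟪n, W.Hi i (Ts v s (V.H i g))⟫ ^ 2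
      ≤ ‖g‖ ^ 2 + ∑ k ∈ fs, ⟪w k, g⟫ ^ 2)
    (μ : Multiset E) (hthin : ThinAt p W μ i c dl)
    (hslab : 0 < (stdGaussian E).real {g | |⟪V.H i v, g⟫| ≤ t}) :
    D p V i μ ≤ D p W i μ + s * t * S μ v
        + p.lam i * (((∑ k ∈ fs, ‖w k‖ ^ 2) / 2 - (τ * c / 2 - τ ^ 2 / 4)) + 16 * h / p.rho ^ 2
          - Real.log ((stdGaussian E).real {g | |⟪V.H i v, g⟫| ≤ t})) := by
  refine lev_D hp hs0 ht h0 hcap hrr μ (mul_pos hdl (lam_pos hp i)) (fun K' hK' => ?_) hslab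
  refine gau_of_R hiW hM hK'.1.1.measurableSet ?_
  have hm := hK'.1.1.measurableSet
  have hth := hthin K' hK' n hn hQ
  have hcl := hK'.1.1
  have h1 : ∫ x in K', ⟪n, x⟫ ^ 2 ∂(gau (W.H i))
      = ∫ g in W.H i ⁻¹' K', ⟪n, g⟫ ^ 2 ∂(stdGaussian E) := by
    unfold gau
    rw [setIntegral_map hm (by fun_prop) (W.H i).continuous.measurable.aemeasurable]
    refine integral_congr_ae (Filter.Eventually.of_forall fun g => ?_)
    change ⟪n, W.H i g⟫ ^ 2 = ⟪n, g⟫ ^ 2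
    rw [← inner_H, H_of_Q hn hQ]
  rw [h1, gau_real_apply _ hm] at hth
  have := Cmp142.cmp_gain (K := W.H i ⁻¹' K')
    (hK'.1.1.preimage (W.H i).continuous).measurableSet
    (hK'.1.2.1.linear_preimage (W.H i).toLinearMap)
    (by intro x hx; simp only [mem_preimage, map_neg] at hx ⊢; exact hK'.1.2.2.1 _ hx)
    fs (W.Hi i ∘L Ts v s ∘L V.H i) w hn hτ hN hth
  convert this using 3
  ring

end Crest.Agent.R239.Lev964
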