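import Crest.Agent.R239.FDef
import Crest.Agent.R239.FlagAlg_557

/-! R239, block Target_LEV (helper749), part A: rotation of a flag, pointwise inequalities. -/

set_option autoImplicit false
set_option linter.unusedSectionVars false
open MeasureTheory ProbabilityTheory Set Finset
open scoped RealInnerProductSpace

namespace Crest.Agent.R239.Lev749

open Crest.Agent.R239.FD
open Crest.Agent.R239.ProjRot557

variable {E : Type*} [NormedAddCommGroup E] [InnerProductSpace ℝ E] [FiniteDimensional ℝ E]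

lemma th_pos : 0 < th := by unfold th; norm_num
lemma th_le : th ≤ 1 := by unfold th; norm_num
lemma th_lt : th < 1 := by unfold th; norm_num

lemma V_P_eq (V : Flag E) (j : ℕ) : V.P j = FlagAlg557.P V.M j := rfl
lemma V_Q_eq (V : Flag E) (j : ℕ) : V.Q j = FlagAlg557.Q V.M j := rfl
lemma V_H_eq (V : Flag E) (i : ℕ) : V.H i = FlagAlg557.H V.M th V.n i := rfl
lemma V_Hi_eq (V : Flag E) (i : ℕ) : V.Hi i = FlagAlg557.Hi V.M th V.n i := by
  unfold Flag.Hi FlagAlg557.Hi FlagAlg557.comb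
  simp only [inv_pow]
  rfl

lemma Ts_eq (v : E) (s : ℝ) : Ts v s = Tr v s := by
  ext x
  rw [Ts_apply, Tr_apply]

lemma bot_n (V : Flag E) : V.M V.n = ⊥ := V.bot V.n le_rfl

lemma om_eq' {m : ℕ} (hm : 1 ≤ m) : om m = FlagAlg557.om th m := by
  rw [FlagAlg557.om_eq th_pos m hm, om, inv_pow, inv_pow, pow_mul, ← inv_pow, ← pow_mul, mul_comm m 2,
    pow_mul]
  ring_nf

lemma om_nonneg (m : ℕ) : 0 ≤ om m := by
  unfold om
  have : 0 ≤ 1 - th ^ 2 := by unfold th; norm_num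
  have := th_pos
  positivity

lemma om_le (m : ℕ) : om m ≤ (th⁻¹) ^ (2 * m) := by
  unfold om
  have h1 : 0 ≤ (th⁻¹) ^ (2 * m) := by have := th_pos; positivity
  have h2 : 0 ≤ th ^ 2 := sq_nonneg _
  nlinarith

/-! ### basic facts for `V` -/

section basic
variable (V : Flag E)

lemma P_mem (j : ℕ) (x : E) : V.P j x ∈ V.M j := FlagAlg557.P_mem j x
lemma P_of_mem {j : ℕ} {x : E} (hx : x ∈ V.M j) : V.P j x = x := FlagAlg557.P_of_mem hx
lemma P_n (x : E) {j : ℕ} (h : V.n ≤ j) : V.P j x = 0 := FlagAlg557.P_eq_zero (V.bot j h) x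
lemma H_mem (i : ℕ) (g : E) : V.H i g ∈ V.M i := FlagAlg557.comb_mem V.anti i V.n _ g
lemma inner_H (i : ℕ) (x y : E) : ⟪V.H i x, y⟫ = ⟪x, V.H i y⟫ := FlagAlg557.inner_comb_comm i V.n _ x y
lemma inner_P (j : ℕ) (x y : E) : ⟪V.P j x, y⟫ = ⟪x, V.P j y⟫ := FlagAlg557.inner_P_comm' j x y
lemma inner_Q (j : ℕ) (x y : E) : ⟪V.Q j x, y⟫ = ⟪x, V.Q j y⟫ := FlagAlg557.inner_Q_comm j x y
lemma norm_P_le (j : ℕ) (x : E) : ‖V.P j x‖ ≤ ‖x‖ := (V.M j).norm_starProjection_apply_le x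
lemma b_nonneg (v : E) (j : ℕ) : 0 ≤ V.b v j := sq_nonneg _
lemma b_le_one {v : E} (hv : ‖v‖ = 1) (j : ℕ) : V.b v j ≤ 1 := by
  unfold Flag.b
  have h := norm_P_le V j v
  rw [hv] at h
  have h0 := norm_nonneg (V.P j v)
  nlinarith
lemma b_anti (v : E) {i j : ℕ} (h : i ≤ j) : V.b v j ≤ V.b v i := by
  unfold Flag.b
  have h1 := FlagAlg557.norm_P_anti (M := V.M) V.anti h v
  have h0 := norm_nonneg (V.P j v)
  have h1' : ‖V.P j v‖ ≤ ‖V.P i v‖ := h1
  nlinarith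
lemma b_n (v : E) {j : ℕ} (h : V.n ≤ j) : V.b v j = 0 := by
  unfold Flag.b; rw [P_n V v h]; simp
lemma norm_Q_sq (j : ℕ) (x : E) : ‖V.Q j x‖ ^ 2 = ‖V.P j x‖ ^ 2 - ‖V.P (j + 1) x‖ ^ 2 :=
  FlagAlg557.norm_Q_sq' V.anti j x
lemma norm_Q_b (v : E) (j : ℕ) : ‖V.Q j v‖ ^ 2 = V.b v j - V.b v (j + 1) := norm_Q_sq V j v

lemma norm_H_le (i : ℕ) (x : E) : ‖V.H i x‖ ≤ ‖V.P i x‖ :=
  FlagAlg557.norm_H_le V.anti th_pos th_le V.n i (bot_n V) x

/-- exact precision formula -/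
lemma norm_Hi_sq {i : ℕ} (h : i < V.n) (x : E) :
    ‖V.Hi i x‖ ^ 2 = ‖V.P i x‖ ^ 2 + ∑ j ∈ Finset.Ico (i + 1) V.n, om (j - i) * ‖V.P j x‖ ^ 2 := by
  rw [V_Hi_eq, FlagAlg557.norm_Hi_sq V.anti h (bot_n V)]
  congr 1
  refine Finset.sum_congr rfl fun j hj => ?_
  rw [om_eq' (by have := Finset.mem_Ico.1 hj; omega)]
  rfl

lemma Hi_H {i : ℕ} (h : i ≤ V.n) (x : E) : V.Hi i (V.H i x) = V.P i x := by
  rw [V_Hi_eq]; exact FlagAlg557.Hi_H V.anti th_pos h (bot_n V) x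
lemma H_Hi {i : ℕ} (h : i ≤ V.n) (x : E) : V.H i (V.Hi i x) = V.P i x := by
  rw [V_Hi_eq]; exact FlagAlg557.H_Hi V.anti th_pos h (bot_n V) x

lemma P_H {i j : ℕ} (hij : i ≤ j) (hj : j ≤ V.n) (x : E) :
    V.P j (V.H i x) = th ^ (j - i) • V.H j x := FlagAlg557.P_H V.anti hij hj x

lemma norm_H_P_le {i j : ℕ} (hij : i ≤ j) (hj : j ≤ V.n) (x : E) :
    ‖V.H i (V.P j x)‖ ≤ th ^ (j - i) * ‖V.P j x‖ :=
  FlagAlg557.norm_H_P_le V.anti th_pos th_le hij hj (bot_n V) x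

lemma norm_H_sub_sq_le {i j : ℕ} (hij : i ≤ j) (hj : j ≤ V.n) (x : E) :
    ‖V.H i (x - V.P j x)‖ ^ 2 ≤ ‖V.P i x‖ ^ 2 - ‖V.P j x‖ ^ 2 :=
  FlagAlg557.norm_H_sub_sq_le V.anti th_pos th_le hij hj x

/-- `H_i` is the identity on the block `V_i` -/
lemma H_Q {i : ℕ} (h : i < V.n) (x : E) : V.H i (V.Q i x) = V.Q i x := by
  have := FlagAlg557.comb_Q (M := V.M) V.anti (i := i) (n := V.n) (j := i)
    (Finset.mem_Ico.2 ⟨le_rfl, h⟩) (fun j => th ^ (j - i)) x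
  rw [V_H_eq, FlagAlg557.H]
  rw [V_Q_eq, this]
  simp

end basic

/-! ### rotation -/

section rot
variable (V : Flag E) {v : E} (hv : ‖v‖ = 1) {s : ℝ} (hs0 : 0 < s) (hs1 : s < 1)

lemma rot_n : (V.rot v s).n = V.n := rfl

lemma rot_P_eq (j : ℕ) :
    (V.rot v s).P j = ((V.M j).map (Tr v s : E →ₗ[ℝ] E)).starProjection := by
  have h : (V.rot v s).M j = (V.M j).map (Tr v s : E →ₗ[ℝ] E) := by
    change (V.M j).map (Ts v s).toLinearMap = _
    rw [Ts_eq]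
  unfold Flag.P
  exact P_congr h

include hs0 hs1 in
lemma sb_pos : 0 < 2 * s - s ^ 2 := by nlinarith
include hs0 hs1 in
lemma sb_lt : 2 * s - s ^ 2 < 1 := by nlinarith [sq_nonneg (1 - s), mul_pos (sub_pos.2 hs1) (sub_pos.2 hs1)]

include hv hs0 hs1 in
lemma sb_b_lt (j : ℕ) : (2 * s - s ^ 2) * V.b v j < 1 := by
  have h1 := sb_lt hs0 hs1
  have h2 := sb_pos hs0 hs1
  have h3 := b_le_one V hv j
  have h4 := b_nonneg V v j
  nlinarith

include hv hs0 hs1 in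
/-- C1 -/
lemma norm_rot_P_sq (j : ℕ) (x : E) :
    ‖(V.rot v s).P j (Ts v s x)‖ ^ 2 = ‖V.P j x‖ ^ 2 - (2 * s - s ^ 2) * ⟪v, x⟫ ^ 2
      + (2 * s - s ^ 2) * (⟪v, x⟫ - ⟪V.P j v, x⟫) ^ 2 / (1 - (2 * s - s ^ 2) * V.b v j) := by
  rw [rot_P_eq, Ts_eq]
  have h := norm_P_map_Tr_sq (V.M j) hv (s := s) (by
    have := sb_b_lt V hv hs0 hs1 j
    exact this) x
  exact h

lemma Ts_mem_rot {j : ℕ} {x : E} (hx : x ∈ V.M j) : Ts v s x ∈ (V.rot v s).M j :=
  Submodule.mem_map_of_mem hx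

lemma mem_rot_iff {j : ℕ} {y : E} : y ∈ (V.rot v s).M j ↔ ∃ x ∈ V.M j, Ts v s x = y :=
  Submodule.mem_map

/-- inverse of `T_s` -/
noncomputable def Ti (v : E) (s : ℝ) : E →L[ℝ] E := Ts v (-(s / (1 - s)))

lemma Ti_apply (v : E) (s : ℝ) (x : E) : Ti v s x = x + (s / (1 - s) * ⟪v, x⟫) • v := by
  rw [Ti, Ts_apply]
  rw [neg_mul, neg_smul, sub_neg_eq_add]

include hv hs1 in
lemma Ti_Ts (x : E) : Ti v s (Ts v s x) = x := by
  have h1 : (1 - s) ≠ 0 := (sub_pos.2 hs1).ne'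
  have h2 : ⟪v, v⟫ = (1 : ℝ) := by rw [real_inner_self_eq_norm_sq, hv]; norm_num
  rw [Ti_apply, Ts_apply, inner_sub_right, inner_smul_right, h2, sub_add, ← sub_smul]
  have : s * ⟪v, x⟫ - s / (1 - s) * (⟪v, x⟫ - s * ⟪v, x⟫ * 1) = 0 := by
    field_simp; ring
  rw [this]; simp

include hv hs1 in
lemma Ts_Ti (x : E) : Ts v s (Ti v s x) = x := by
  have h1 : (1 - s) ≠ 0 := (sub_pos.2 hs1).ne'
  have h2 : ⟪v, v⟫ = (1 : ℝ) := by rw [real_inner_self_eq_norm_sq, hv]; norm_num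
  rw [Ts_apply, Ti_apply, inner_add_right, inner_smul_right, h2, add_sub_assoc, ← sub_smul]
  have : s / (1 - s) * ⟪v, x⟫ - s * (⟪v, x⟫ + s / (1 - s) * ⟪v, x⟫ * 1) = 0 := by
    field_simp; ring
  rw [this]; simp

include hv hs1 in
lemma inner_v_Ti (x : E) : ⟪v, Ti v s x⟫ = (1 - s)⁻¹ * ⟪v, x⟫ := by
  have h1 : (1 - s) ≠ 0 := (sub_pos.2 hs1).ne'
  have h2 : ⟪v, v⟫ = (1 : ℝ) := by rw [real_inner_self_eq_norm_sq, hv]; norm_num
  rw [Ti_apply, inner_add_right, inner_smul_right, h2]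
  field_simp; ring

include hv hs1 in
lemma Ti_mem {j : ℕ} {y : E} (hy : y ∈ (V.rot v s).M j) : Ti v s y ∈ V.M j := by
  obtain ⟨x, hx, rfl⟩ := (mem_rot_iff V).1 hy
  rwa [Ti_Ts hv hs1]

/-- the transfer map of level `i` -/
noncomputable def Rm (V : Flag E) (v : E) (s : ℝ) (i : ℕ) : E →L[ℝ] E :=
  (V.rot v s).Hi i ∘L Ts v s ∘L V.H i

lemma Rm_apply (i : ℕ) (g : E) : Rm V v s i g = (V.rot v s).Hi i (Ts v s (V.H i g)) := rfl

lemma H_Rm {i : ℕ} (h : i ≤ V.n) (g : E) :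
    (V.rot v s).H i (Rm V v s i g) = Ts v s (V.H i g) := by
  rw [Rm_apply, H_Hi (V.rot v s) (by simpa [rot_n] using h)]
  exact P_of_mem _ (Ts_mem_rot V (H_mem V i g))

include hv hs0 hs1 in
/-- exact norm of the transfer map -/
lemma norm_Rm_sq {i : ℕ} (h : i < V.n) (g : E) :
    ‖Rm V v s i g‖ ^ 2 = ‖V.P i g‖ ^ 2 - (2 * s - s ^ 2) * ⟪v, V.H i g⟫ ^ 2
      + ∑ j ∈ Finset.Ico (i + 1) V.n, om (j - i) * ((2 * s - s ^ 2) *
        (⟪v, V.H i g⟫ - ⟪V.P j v, V.H i g⟫) ^ 2 / (1 - (2 * s - s ^ 2) * V.b v j)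
          - (2 * s - s ^ 2) * ⟪v, V.H i g⟫ ^ 2) := by
  have hx := H_mem V i g
  set x := V.H i g with hxdef
  have e1 : ‖V.P i g‖ ^ 2 = ‖x‖ ^ 2 + ∑ j ∈ Finset.Ico (i + 1) V.n, om (j - i) * ‖V.P j x‖ ^ 2 := by
    rw [← Hi_H V h.le g, norm_Hi_sq V h, ← hxdef, P_of_mem V hx]
  rw [Rm_apply, norm_Hi_sq (V.rot v s) (by simpa [rot_n] using h), e1, ← hxdef]
  have e2 : (V.rot v s).P i (Ts v s x) = Ts v s x := P_of_mem _ (Ts_mem_rot V hx)
  have e3 : ‖Ts v s x‖ ^ 2 = ‖x‖ ^ 2 - (2 * s - s ^ 2) * ⟪v, x⟫ ^ 2 := by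
    rw [Ts_eq]; exact norm_Tr_sq hv s x
  rw [e2, e3, rot_n]
  have e4 : ∀ j ∈ Finset.Ico (i + 1) V.n, om (j - i) * ‖(V.rot v s).P j (Ts v s x)‖ ^ 2
      = om (j - i) * ‖V.P j x‖ ^ 2 + om (j - i) * ((2 * s - s ^ 2) *
        (⟪v, x⟫ - ⟪V.P j v, x⟫) ^ 2 / (1 - (2 * s - s ^ 2) * V.b v j)
          - (2 * s - s ^ 2) * ⟪v, x⟫ ^ 2) := by
    intro j _
    rw [norm_rot_P_sq V hv hs0 hs1]
    ring
  rw [Finset.sum_congr rfl e4, Finset.sum_add_distrib]
  ring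

end rot

/-! ### pointwise upper bound with fixed weights -/

lemma em_pos {eps : ℝ} (h : 0 < eps) (m : ℕ) : 0 < FD.em eps m := by
  unfold FD.em; have := th_pos; positivity

/-- elementary inequality behind the majorant -/
lemma frac_le {c a z e : ℝ} (hc0 : 0 ≤ c) (hc : c ≤ 1 / 2) (he : 0 < e) :
    a ^ 2 / (1 - c) - (a + z) ^ 2 ≤ (2 * c + e) * a ^ 2 + z ^ 2 / e := by
  have h1 : a ^ 2 / (1 - c) ≤ (1 + 2 * c) * a ^ 2 := by
    rw [div_le_iff₀ (by linarith)]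
    nlinarith [sq_nonneg a, mul_nonneg hc0 (sq_nonneg a), mul_nonneg (mul_nonneg hc0 (sq_nonneg a)) (by linarith : (0:ℝ) ≤ 1 - 2 * c)]
  have h2 : -(2 * a * z) ≤ e * a ^ 2 + z ^ 2 / e := by
    have h3 : e * a ^ 2 + z ^ 2 / e + 2 * a * z = (e * a + z) ^ 2 / e := by
      field_simp; ring
    have h4 : 0 ≤ (e * a + z) ^ 2 / e := by positivity
    linarith
  nlinarith [sq_nonneg z]

section pw
variable (V : Flag E) {v : E} (hv : ‖v‖ = 1) {s : ℝ} (hs0 : 0 < s) (hs1 : s < 1)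
  (hsb : 2 * s - s ^ 2 ≤ 1 / 2) {eps : ℝ} (heps : 0 < eps)

/-- coefficient of `a_j²` -/
noncomputable def al (V : Flag E) (v : E) (s eps : ℝ) (i j : ℕ) : ℝ :=
  (2 * s - s ^ 2) * (om (j - i) * (2 * ((2 * s - s ^ 2) * V.b v j) + FD.em eps (j - i)))

/-- coefficient of `ze_j²` -/
noncomputable def be (s eps : ℝ) (i j : ℕ) : ℝ :=
  (2 * s - s ^ 2) * (om (j - i) / FD.em eps (j - i) + 1)

include hs0 hs1 heps in
lemma al_nonneg (i j : ℕ) : 0 ≤ al V v s eps i j := by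
  have h1 := sb_pos hs0 hs1
  have h2 := om_nonneg (j - i)
  have h3 := em_pos heps (j - i)
  have h4 := b_nonneg V v j
  unfold al; positivity

include hs0 hs1 heps in
lemma be_nonneg (i j : ℕ) : 0 ≤ be s eps i j := by
  have h1 := sb_pos hs0 hs1
  have h2 := om_nonneg (j - i)
  have h3 := em_pos heps (j - i)
  unfold be; positivity

include hv hs0 hs1 hsb heps in
/-- (N): the pointwise upper bound for the transfer map -/
theorem norm_Rm_le {i : ℕ} (h : i < V.n) (g : E) :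
    ‖Rm V v s i g‖ ^ 2 ≤ ‖g‖ ^ 2 - (2 * s - s ^ 2) / 2 * ⟪V.Q i v, g⟫ ^ 2
      + ∑ j ∈ Finset.Ico (i + 1) V.n,
        (al V v s eps i j * ⟪V.H i (v - V.P j v), g⟫ ^ 2 + be s eps i j * ⟪V.H i (V.P j v), g⟫ ^ 2) := by
  rw [norm_Rm_sq V hv hs0 hs1 h]
  set sb := 2 * s - s ^ 2 with hsbd
  have hsbp : 0 < sb := sb_pos hs0 hs1
  have h0 : ‖V.P i g‖ ^ 2 ≤ ‖g‖ ^ 2 := by
    have := norm_P_le V i g
    have h1 := norm_nonneg (V.P i g)
    nlinarith
  -- the inner products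
  have ea : ∀ j, ⟪V.H i (v - V.P j v), g⟫ = ⟪v, V.H i g⟫ - ⟪V.P j v, V.H i g⟫ := by
    intro j
    rw [inner_H, inner_sub_left]
  have ez : ∀ j, ⟪V.H i (V.P j v), g⟫ = ⟪V.P j v, V.H i g⟫ := fun j => inner_H V i _ _
  have eq : ⟪V.Q i v, g⟫ = ⟪v, V.H i g⟫ - ⟪V.P (i + 1) v, V.H i g⟫ := by
    rw [← H_Q V h v, inner_H]
    have : V.Q i v = V.P i v - V.P (i + 1) v := rfl
    rw [this, inner_sub_left, inner_P, P_of_mem V (H_mem V i g)]
  -- termwise bound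
  have hterm : ∀ j ∈ Finset.Ico (i + 1) V.n,
      om (j - i) * (sb * (⟪v, V.H i g⟫ - ⟪V.P j v, V.H i g⟫) ^ 2 / (1 - sb * V.b v j)
          - sb * ⟪v, V.H i g⟫ ^ 2)
        ≤ (al V v s eps i j * ⟪V.H i (v - V.P j v), g⟫ ^ 2 + be s eps i j * ⟪V.H i (V.P j v), g⟫ ^ 2)
          - sb * ⟪V.H i (V.P j v), g⟫ ^ 2 := by
    intro j _
    rw [ea, ez]
    set a := ⟪v, V.H i g⟫ - ⟪V.P j v, V.H i g⟫ with hadef
    set z := ⟪V.P j v, V.H i g⟫ with hzdef
    have hxi : ⟪v, V.H i g⟫ = a + z := by rw [hadef]; ring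
    rw [hxi]
    have hb1 := b_le_one V hv j
    have hb0 := b_nonneg V v j
    have hf := frac_le (c := sb * V.b v j) (a := a) (z := z) (e := FD.em eps (j - i))
      (by positivity) (by nlinarith) (em_pos heps _)
    have hom := om_nonneg (j - i)
    have := mul_le_mul_of_nonneg_left hf (mul_nonneg hom hsbp.le)
    unfold al be
    rw [← hsbd]
    have e1 : om (j - i) * (sb * a ^ 2 / (1 - sb * V.b v j) - sb * (a + z) ^ 2)
        = om (j - i) * sb * (a ^ 2 / (1 - sb * V.b v j) - (a + z) ^ 2) := by ring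
    rw [e1]
    refine this.trans (le_of_eq ?_)
    ring
  have hsum := Finset.sum_le_sum hterm
  rw [Finset.sum_sub_distrib] at hsum
  -- the term `- sb xi²`
  have hxi2 : -(sb * ⟪v, V.H i g⟫ ^ 2) ≤ -(sb / 2 * ⟪V.Q i v, g⟫ ^ 2)
      + ∑ j ∈ Finset.Ico (i + 1) V.n, sb * ⟪V.H i (V.P j v), g⟫ ^ 2 := by
    have hnn : ∀ j ∈ Finset.Ico (i + 1) V.n, 0 ≤ sb * ⟪V.H i (V.P j v), g⟫ ^ 2 :=
      fun j _ => by positivity
    have h1 : sb * ⟪V.P (i + 1) v, V.H i g⟫ ^ 2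
        ≤ ∑ j ∈ Finset.Ico (i + 1) V.n, sb * ⟪V.H i (V.P j v), g⟫ ^ 2 := by
      by_cases hin : i + 1 < V.n
      · have := Finset.single_le_sum hnn (Finset.mem_Ico.2 ⟨le_rfl, hin⟩)
        rwa [ez (i + 1)] at this
      · have : V.P (i + 1) v = 0 := P_n V v (by omega)
        rw [this, inner_zero_left]
        simpa using Finset.sum_nonneg hnn
    rw [eq]
    nlinarith [sq_nonneg (⟪v, V.H i g⟫ - 2 * ⟪V.P (i + 1) v, V.H i g⟫), hsbp,
      mul_nonneg hsbp.le (sq_nonneg (⟪v, V.H i g⟫ - 2 * ⟪V.P (i + 1) v, V.H i g⟫)),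
      mul_nonneg hsbp.le (sq_nonneg (⟪v, V.H i g⟫ + ⟪V.P (i + 1) v, V.H i g⟫)),
      mul_nonneg hsbp.le (sq_nonneg (⟪V.P (i + 1) v, V.H i g⟫))]
  linarith

/-- total error of the pointwise bound -/
noncomputable def NN (V : Flag E) (v : E) (s eps : ℝ) (i : ℕ) : ℝ :=
  ∑ j ∈ Finset.Ico (i + 1) V.n,
    (al V v s eps i j * ‖V.H i (v - V.P j v)‖ ^ 2 + be s eps i j * ‖V.H i (V.P j v)‖ ^ 2)

lemma geom_half (n : ℕ) (i : ℕ) : ∑ j ∈ Finset.Ico (i + 1) n, (1 / 2 : ℝ) ^ (j - i) ≤ 1 := by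
  by_cases h : i + 1 ≤ n
  · induction n, h using Nat.le_induction with
    | base => simp
    | succ n hn _ =>
      have key : ∀ m, i + 1 ≤ m → ∑ j ∈ Finset.Ico (i + 1) m, (1 / 2 : ℝ) ^ (j - i)
          = 1 - (1 / 2) ^ (m - i - 1) := by
        intro m hm
        induction m, hm using Nat.le_induction with
        | base => simp
        | succ m hm ih =>
          rw [Finset.sum_Ico_succ_top hm, ih]
          obtain ⟨k, rfl⟩ := Nat.exists_eq_add_of_le hm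
          have e1 : i + 1 + k - i - 1 = k := by omega
          have e2 : i + 1 + k + 1 - i - 1 = k + 1 := by omega
          have e3 : i + 1 + k - i = k + 1 := by omega
          rw [e1, e2, e3]
          ring
      rw [key (n + 1) (by omega)]
      have : (0 : ℝ) ≤ (1 / 2) ^ (n + 1 - i - 1) := by positivity
      linarith
  · rw [Finset.Ico_eq_empty (by omega)]; simp

set_option maxHeartbeats 1000000 in
include hv hs0 hs1 hsb heps in
theorem NN_le (i : ℕ) :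
    NN V v s eps i ≤ (2 * s - s ^ 2) * (eps * V.b v i + (2 + 1 / eps) * BB V v i) := by
  set sb := 2 * s - s ^ 2 with hsbd
  have hsbp : 0 < sb := sb_pos hs0 hs1
  have hb0 := b_nonneg V v i
  have hterm : ∀ j ∈ Finset.Ico (i + 1) V.n,
      (al V v s eps i j * ‖V.H i (v - V.P j v)‖ ^ 2 + be s eps i j * ‖V.H i (V.P j v)‖ ^ 2)
        ≤ sb * (eps * V.b v i * (1 / 2) ^ (j - i)
            + (2 + 1 / eps) * ((25 / 8) ^ (j - i) * V.b v j)) := by
    intro j hj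
    have hj' := Finset.mem_Ico.1 hj
    set m := j - i with hm
    have hbj0 := b_nonneg V v j
    have hbj1 := b_le_one V hv j
    have hbi1 := b_le_one V hv i
    have ha : ‖V.H i (v - V.P j v)‖ ^ 2 ≤ V.b v i := by
      have := norm_H_sub_sq_le V (i := i) (j := j) (by omega) (by omega) v
      unfold Flag.b
      have h2 := sq_nonneg ‖V.P j v‖
      linarith
    have hz : ‖V.H i (V.P j v)‖ ^ 2 ≤ (th ^ m) ^ 2 * V.b v j := by
      have := norm_H_P_le V (i := i) (j := j) (by omega) (by omega) v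
      have h3 := norm_nonneg (V.H i (V.P j v))
      unfold Flag.b
      rw [← mul_pow]
      exact pow_le_pow_left₀ h3 this 2
    have hal := al_nonneg V (v := v) hs0 hs1 heps i j
    have hbe := be_nonneg hs0 hs1 heps (s := s) i j
    have h1 := mul_le_mul_of_nonneg_left ha hal
    have h2 := mul_le_mul_of_nonneg_left hz hbe
    -- numeric facts
    have hom := om_le m
    have hom0 := om_nonneg m
    have hth : th = 4 / 5 := rfl
    have q1 : (th⁻¹) ^ (2 * m) = (25 / 16 : ℝ) ^ m := by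
      rw [pow_mul, hth]; norm_num
    have q2 : FD.em eps m = eps * (8 / 25 : ℝ) ^ m := by
      unfold FD.em; rw [hth]; norm_num
    have q3 : (th ^ m) ^ 2 = (16 / 25 : ℝ) ^ m := by
      rw [← pow_mul, mul_comm m 2, pow_mul, hth]; norm_num
    have q4 : (25 / 16 : ℝ) ^ m * (8 / 25) ^ m = (1 / 2) ^ m := by rw [← mul_pow]; norm_num
    have q5 : (25 / 16 : ℝ) ^ m ≤ (25 / 8) ^ m := pow_le_pow_left₀ (by norm_num) (by norm_num) m
    have q6 : (16 / 25 : ℝ) ^ m ≤ 1 := pow_le_one₀ (by norm_num) (by norm_num)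
    have q7 : (1 : ℝ) ≤ (25 / 8) ^ m := one_le_pow₀ (by norm_num)
    have q8 : ((8 / 25 : ℝ) ^ m)⁻¹ = (25 / 8) ^ m := by rw [← inv_pow]; norm_num
    rw [q1] at hom
    -- bound of the first term
    have b1 : al V v s eps i j * V.b v i ≤ sb * (eps * V.b v i * (1 / 2) ^ m + (25 / 8) ^ m * V.b v j) := by
      unfold al
      rw [← hsbd, ← hm, mul_assoc]
      apply mul_le_mul_of_nonneg_left _ hsbp.le
      have t1 : om m * FD.em eps m ≤ eps * (1 / 2) ^ m := by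
        rw [q2, ← q4]
        have : 0 ≤ eps * (8 / 25 : ℝ) ^ m := by positivity
        nlinarith
      have t2 : om m * (2 * (sb * V.b v j)) * V.b v i ≤ (25 / 8) ^ m * V.b v j := by
        have r1 : 2 * (sb * V.b v j) * V.b v i ≤ V.b v j := by
          have : 2 * sb * V.b v i ≤ 1 := by nlinarith
          nlinarith
        have r2 : 0 ≤ 2 * (sb * V.b v j) * V.b v i := by positivity
        calc om m * (2 * (sb * V.b v j)) * V.b v i = om m * (2 * (sb * V.b v j) * V.b v i) := by ring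
          _ ≤ (25 / 16) ^ m * (V.b v j) := by
              apply mul_le_mul hom r1 r2 (by positivity)
          _ ≤ _ := mul_le_mul_of_nonneg_right q5 hbj0
      nlinarith [mul_le_mul_of_nonneg_right t1 hb0]
    have b2 : be s eps i j * ((th ^ m) ^ 2 * V.b v j)
        ≤ sb * ((1 + 1 / eps) * ((25 / 8) ^ m * V.b v j)) := by
      unfold be
      rw [← hsbd, ← hm, mul_assoc]
      apply mul_le_mul_of_nonneg_left _ hsbp.le
      rw [q3]
      have t1 : om m / FD.em eps m * (16 / 25) ^ m ≤ 1 / eps * (25 / 8) ^ m := by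
        rw [q2]
        have : om m / (eps * (8 / 25) ^ m) * (16 / 25) ^ m
            = 1 / eps * (om m * (16 / 25) ^ m) * ((8 / 25 : ℝ) ^ m)⁻¹ := by
          field_simp
        rw [this, q8]
        have t3 : om m * (16 / 25) ^ m ≤ 1 := by
          have : (25 / 16 : ℝ) ^ m * (16 / 25) ^ m = 1 := by rw [← mul_pow]; norm_num
          have hp : (0 : ℝ) ≤ (16 / 25) ^ m := by positivity
          nlinarith
        have : 1 / eps * (om m * (16 / 25) ^ m) ≤ 1 / eps * 1 :=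
          mul_le_mul_of_nonneg_left t3 (by positivity)
        calc 1 / eps * (om m * (16 / 25) ^ m) * (25 / 8) ^ m ≤ (1 / eps * 1) * (25 / 8) ^ m :=
              mul_le_mul_of_nonneg_right this (by positivity)
          _ = _ := by ring
      have t4 : (om m / FD.em eps m + 1) * (16 / 25) ^ m ≤ (1 + 1 / eps) * (25 / 8) ^ m := by
        have u1 : (om m / FD.em eps m + 1) * (16 / 25) ^ m
            = om m / FD.em eps m * (16 / 25) ^ m + (16 / 25) ^ m := by ring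
        have u2 : (1 + 1 / eps) * (25 / 8 : ℝ) ^ m = 1 / eps * (25 / 8) ^ m + (25 / 8) ^ m := by ring
        rw [u1, u2]
        linarith
      calc (om m / FD.em eps m + 1) * ((16 / 25) ^ m * V.b v j)
          = ((om m / FD.em eps m + 1) * (16 / 25) ^ m) * V.b v j := by ring
        _ ≤ ((1 + 1 / eps) * (25 / 8) ^ m) * V.b v j := mul_le_mul_of_nonneg_right t4 hbj0
        _ = _ := by ring
    have : sb * (eps * V.b v i * (1 / 2) ^ m + (25 / 8) ^ m * V.b v j)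
        + sb * ((1 + 1 / eps) * ((25 / 8) ^ m * V.b v j))
        = sb * (eps * V.b v i * (1 / 2) ^ m + (2 + 1 / eps) * ((25 / 8) ^ m * V.b v j)) := by ring
    linarith
  refine (Finset.sum_le_sum hterm).trans ?_
  rw [← Finset.mul_sum, Finset.sum_add_distrib, ← Finset.mul_sum, ← Finset.mul_sum]
  apply mul_le_mul_of_nonneg_left _ hsbp.le
  have hg := geom_half V.n i
  have : eps * V.b v i * ∑ j ∈ Finset.Ico (i + 1) V.n, (1 / 2 : ℝ) ^ (j - i) ≤ eps * V.b v i :=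
    mul_le_of_le_one_right (by positivity) hg
  unfold BB
  linarith

end pw

end Crest.Agent.R239.Lev749
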