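import Mathlib
import Crest.Agent.R239.FDef
import Crest.Agent.R239.Cov_446
import Crest.Agent.R239.Gain_161
import Crest.Agent.R239.CMPc_825

/-!
# R239: `Target_LEV` in covariance form, part A (linear algebra)
-/

set_option autoImplicit false

open MeasureTheory ProbabilityTheory Set
open scoped ENNReal NNReal RealInnerProductSpace

namespace Crest.Agent.R239.LevA825

open Crest.Agent.R239 Crest.Agent.R239.FD Crest.Agent.R239.Cov446 Crest.Agent.R239.Gain161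

variable {E : Type*} [NormedAddCommGroup E] [InnerProductSpace ℝ E] [FiniteDimensional ℝ E]
  [MeasurableSpace E] [BorelSpace E]
variable (V : Flag E)

lemma H_eq (i : ℕ) : V.H i = Hm th V.M V.n i := rfl
lemma Hi_eq (i : ℕ) : V.Hi i = Hm th⁻¹ V.M V.n i := rfl
lemma rotH_eq (v : E) (s : ℝ) (i : ℕ) : (V.rot v s).H i = Hm th (TF s v V.M) V.n i := rfl
lemma rotHi_eq (v : E) (s : ℝ) (i : ℕ) : (V.rot v s).Hi i = Hm th⁻¹ (TF s v V.M) V.n i := rfl
lemma Ts_eq (v : E) (s : ℝ) : Ts v s = T s v := rfl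
lemma Q_eq (j : ℕ) : V.Q j = Qm V.M j := rfl

lemma th_pos : (0:ℝ) < th := by unfold th; norm_num
lemma thinv : (th⁻¹ : ℝ) = 5 / 4 := by unfold th; norm_num

lemma botn : V.M V.n = ⊥ := V.bot _ le_rfl

lemma norm_P_le (j : ℕ) (x : E) : ‖V.P j x‖ ≤ ‖x‖ :=
  (V.M j).norm_starProjection_apply_le x

lemma b_nonneg (v : E) (j : ℕ) : 0 ≤ V.b v j := sq_nonneg _

lemma b_anti (v : E) {i j : ℕ} (h : i ≤ j) : V.b v j ≤ V.b v i := by
  unfold Flag.b
  exact pow_le_pow_left₀ (norm_nonneg _) (norm_proj_mono (V.anti h) v) 2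

lemma b_le_one {v : E} (hv : ‖v‖ = 1) (j : ℕ) : V.b v j ≤ 1 := by
  unfold Flag.b
  have := norm_P_le V j v
  rw [hv] at this
  nlinarith [norm_nonneg (V.P j v)]

lemma BB_nonneg (v : E) (i : ℕ) : 0 ≤ BB V v i :=
  Finset.sum_nonneg fun j _ => mul_nonneg (by positivity) (b_nonneg V v j)

lemma P_zero {j : ℕ} (h : V.n ≤ j) (x : E) : V.P j x = 0 := by
  have h2 : V.P j x ∈ V.M j := (V.M j).starProjection_apply_mem x
  have h3 : V.P j x ∈ (⊥ : Submodule ℝ E) := (V.bot j h).le h2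
  exact (Submodule.mem_bot ℝ).1 h3

lemma b_of_n_le (v : E) {j : ℕ} (h : V.n ≤ j) : V.b v j = 0 := by
  unfold Flag.b
  rw [P_zero V h]
  simp

lemma b_succ_le_BB (v : E) {i : ℕ} : V.b v (i + 1) ≤ BB V v i := by
  by_cases h : i + 1 < V.n
  · unfold BB
    calc V.b v (i + 1) ≤ (25 / 8 : ℝ) ^ (i + 1 - i) * V.b v (i + 1) := by
          have := b_nonneg V v (i + 1)
          rw [show i + 1 - i = 1 by omega]
          linarith
      _ ≤ _ := Finset.single_le_sum (f := fun j => (25 / 8 : ℝ) ^ (j - i) * V.b v j)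
          (fun j _ => mul_nonneg (by positivity) (b_nonneg V v j))
          (Finset.mem_Ico.2 ⟨le_rfl, h⟩)
  · rw [b_of_n_le V v (by omega)]
    exact BB_nonneg V v i

lemma scl_symm (r : ℝ) (n x y : E) : ⟪scl r n x, y⟫ = ⟪x, scl r n y⟫ := by
  rw [scl_apply, scl_apply, proj_apply, proj_apply, inner_add_left, inner_add_right,
    inner_sub_left, inner_sub_right, real_inner_smul_left, real_inner_smul_left,
    real_inner_smul_right, real_inner_smul_right, real_inner_comm n x]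
  ring

lemma adjoint_eq_of_symm {A : E →L[ℝ] E} (h : ∀ x y, ⟪A x, y⟫ = ⟪x, A y⟫) (t : E) :
    A.adjoint t = A t := by
  refine ext_inner_right ℝ fun y => ?_
  rw [ContinuousLinearMap.adjoint_inner_left, h]

/-- the directions of the error term -/
noncomputable def av (v : E) (s : ℝ) (i j : ℕ) : E := (V.rot v s).Hi i (Ts v s (V.P j v))

/-- their weights -/
noncomputable def ww (v : E) (s : ℝ) (i j : ℕ) : ℝ :=
  (sg th (j - i) + if j = i + 1 then 1 else 0) * kp s v (V.M j)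

variable {V} {v : E} {s : ℝ}

lemma sb_pos (h0 : 0 < s) (h1 : s < 1) : 0 < 2 * s - s ^ 2 := by nlinarith

lemma kp_ge (h0 : 0 < s) (h1 : s < 1) (hv : ‖v‖ = 1) (M : Submodule ℝ E) :
    2 * s - s ^ 2 ≤ kp s v M := by
  unfold kp
  have hB := Bn_ne h0 h1 hv M
  have hsb := sb_pos h0 h1
  rw [le_div_iff₀ hB]
  have : Bn s v M ≤ 1 := by
    unfold Bn
    have := mul_nonneg hsb.le (sq_nonneg ‖M.starProjection v‖)
    linarith
  nlinarith

lemma kp_nonneg (h0 : 0 < s) (h1 : s < 1) (hv : ‖v‖ = 1) (M : Submodule ℝ E) :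
    0 ≤ kp s v M := (sb_pos h0 h1).le.trans (kp_ge h0 h1 hv M)

lemma sg_th {m : ℕ} (hm : 1 ≤ m) : sg th m = 9 / 16 * (th ^ m) ^ 2 := by
  unfold sg
  obtain ⟨k, rfl⟩ := Nat.exists_eq_add_of_le hm
  rw [show 1 + k - 1 = k by omega, pow_add]
  unfold th
  ring

lemma ww_nonneg (h0 : 0 < s) (h1 : s < 1) (hv : ‖v‖ = 1) {i j : ℕ}
    (hj : j ∈ Finset.Ico (i + 1) V.n) : 0 ≤ ww V v s i j := by
  unfold ww
  rw [Finset.mem_Ico] at hj
  rw [sg_th (by omega)]
  refine mul_nonneg ?_ (kp_nonneg h0 h1 hv _)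
  split_ifs <;> positivity

lemma H_av (h0 : 0 < s) (h1 : s < 1) {i j : ℕ} (hi : i < V.n) (hij : i ≤ j) :
    (V.rot v s).H i (av V v s i j) = Ts v s (V.P j v) := by
  unfold av
  rw [rotH_eq, rotHi_eq, Hm_inv (by unfold th; norm_num) (TF_anti s v V.anti) hi.le
    (TF_bot s v (botn V))]
  rw [Submodule.starProjection_eq_self_iff]
  apply TF_anti s v V.anti hij
  exact mem_TM ((V.M j).starProjection_apply_mem v)

/-- the covariance inequality -/
theorem cov_ineq (h0 : 0 < s) (h1 : s < 1) (hv : ‖v‖ = 1) {i : ℕ} (hi : i < V.n)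
    {n0 : E} (hn : ‖n0‖ = 1) {σ : ℝ}
    (hS : ∀ t, (σ ^ 2 - 1) * ⟪n0, V.H i (Ts v s t)⟫ ^ 2 ≤ (2 * s - s ^ 2) *
      (⟪Ts v s (V.P i v), t⟫ ^ 2 + ⟪Ts v s (V.P (i + 1) v), t⟫ ^ 2)) (t : E) :
    ‖(Ts v s ∘L V.H i ∘L scl σ n0).adjoint t‖ ^ 2
      ≤ ‖((V.rot v s).H i).adjoint t‖ ^ 2
        + ∑ j ∈ Finset.Ico (i + 1) V.n, ww V v s i j * ⟪av V v s i j, ((V.rot v s).H i).adjoint t⟫ ^ 2 := by
  have e1 : (Ts v s ∘L V.H i ∘L scl σ n0).adjoint t = scl σ n0 (V.H i (Ts v s t)) := by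
    rw [ContinuousLinearMap.adjoint_comp, ContinuousLinearMap.adjoint_comp,
      ContinuousLinearMap.comp_apply, ContinuousLinearMap.comp_apply,
      adjoint_eq_of_symm (A := Ts v s) (T_symm s v), adjoint_eq_of_symm (A := V.H i) (Hm_symm _ _ _ _),
      adjoint_eq_of_symm (scl_symm σ n0)]
  have e2 : ((V.rot v s).H i).adjoint t = (V.rot v s).H i t :=
    adjoint_eq_of_symm (Hm_symm _ _ _ _) t
  have e3 : ∀ j ∈ Finset.Ico (i + 1) V.n, ⟪av V v s i j, (V.rot v s).H i t⟫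
      = ⟪Ts v s (V.P j v), t⟫ := by
    intro j hj
    rw [Finset.mem_Ico] at hj
    rw [← H_av h0 h1 hi (by omega : i ≤ j)]
    exact (Hm_symm th (TF s v V.M) V.n i _ _).symm
  have e4 : ∑ j ∈ Finset.Ico (i + 1) V.n, ww V v s i j * ⟪av V v s i j, (V.rot v s).H i t⟫ ^ 2
      = ∑ j ∈ Finset.Ico (i + 1) V.n, sg th (j - i) *
          (kp s v (V.M j) * ⟪T s v ((V.M j).starProjection v), t⟫ ^ 2)
        + ∑ j ∈ Finset.Ico (i + 1) V.n, (if j = i + 1 then 1 else 0) *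
          (kp s v (V.M j) * ⟪T s v ((V.M j).starProjection v), t⟫ ^ 2) := by
    rw [← Finset.sum_add_distrib]
    refine Finset.sum_congr rfl fun j hj => ?_
    rw [e3 j hj]
    unfold ww Flag.P
    rw [Ts_eq]
    ring
  have e5 : (2 * s - s ^ 2) * ⟪Ts v s (V.P (i + 1) v), t⟫ ^ 2
      ≤ ∑ j ∈ Finset.Ico (i + 1) V.n, (if j = i + 1 then 1 else 0) *
          (kp s v (V.M j) * ⟪T s v ((V.M j).starProjection v), t⟫ ^ 2) := by
    by_cases h : i + 1 < V.n
    · rw [Finset.sum_eq_single_of_mem (i + 1) (Finset.mem_Ico.2 ⟨le_rfl, h⟩)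
        (by intro j _ hj; rw [if_neg hj, zero_mul])]
      rw [if_pos rfl, one_mul]
      exact mul_le_mul_of_nonneg_right (kp_ge h0 h1 hv _) (sq_nonneg _)
    · have : V.P (i + 1) v = 0 := P_zero V (by omega) v
      rw [this, map_zero, inner_zero_left]
      have : Finset.Ico (i + 1) V.n = ∅ := Finset.Ico_eq_empty (by omega)
      rw [this]
      simp
  have e6 := cov_identity (θ := th) h0 h1 hv V.anti hi (botn V) t
  have e7 := mul_le_mul_of_nonneg_right (kp_ge h0 h1 hv (V.M i))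
    (sq_nonneg ⟪Ts v s (V.P i v), t⟫)
  have e8 := hS t
  rw [e1, e2, e4, norm_scl_sq hn, rotH_eq, H_eq]
  rw [H_eq] at e8
  have e9 : (1 - σ ^ 2) * ⟪n0, Hm th V.M V.n i (Ts v s t)⟫ ^ 2
      = -((σ ^ 2 - 1) * ⟪n0, Hm th V.M V.n i (Ts v s t)⟫ ^ 2) := by ring
  rw [e9]
  have e10 : kp s v (V.M i) * ⟪Ts v s (V.P i v), t⟫ ^ 2
    = kp s v (V.M i) * ⟪T s v ((V.M i).starProjection v), t⟫ ^ 2 := rfl
  rw [e10] at e7
  rw [Ts_eq] at *
  linarith

lemma bet_le {i j : ℕ} (hij : i + 1 ≤ j) :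
    bet th v V.M V.n j ≤ (1 / 2) ^ (j - i) * BB V v i := by
  unfold bet BB
  rw [Finset.mul_sum]
  calc ∑ l ∈ Finset.Ico j V.n, (th⁻¹ ^ (l - j)) ^ 2 * ‖Qm V.M l v‖ ^ 2
      ≤ ∑ l ∈ Finset.Ico j V.n, (1 / 2 : ℝ) ^ (j - i) * ((25 / 8) ^ (l - i) * V.b v l) := by
        refine Finset.sum_le_sum fun l hl => ?_
        rw [Finset.mem_Ico] at hl
        have h1 : ‖Qm V.M l v‖ ^ 2 ≤ V.b v l := by
          rw [normsq_Qm V.anti]
          unfold Flag.b Flag.P
          have := sq_nonneg ‖(V.M (l + 1)).starProjection v‖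
          linarith
        have h2 : (th⁻¹ ^ (l - j)) ^ 2 ≤ (1 / 2 : ℝ) ^ (j - i) * (25 / 8) ^ (l - i) := by
          rw [thinv, show l - i = (l - j) + (j - i) by omega, pow_add, ← pow_mul, mul_comm (l - j) 2,
            pow_mul]
          have e1 : ((5 / 4 : ℝ) ^ 2) ^ (l - j) ≤ (25 / 8) ^ (l - j) :=
            pow_le_pow_left₀ (by norm_num) (by norm_num) _
          have e2 : (1 : ℝ) ≤ (1 / 2) ^ (j - i) * (25 / 8) ^ (j - i) := by
            rw [← mul_pow]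
            exact one_le_pow₀ (by norm_num)
          calc ((5 / 4 : ℝ) ^ 2) ^ (l - j) ≤ (25 / 8) ^ (l - j) * 1 := by rw [mul_one]; exact e1
            _ ≤ (25 / 8) ^ (l - j) * ((1 / 2) ^ (j - i) * (25 / 8) ^ (j - i)) :=
                mul_le_mul_of_nonneg_left e2 (by positivity)
            _ = _ := by ring
        calc (th⁻¹ ^ (l - j)) ^ 2 * ‖Qm V.M l v‖ ^ 2
            ≤ ((1 / 2 : ℝ) ^ (j - i) * (25 / 8) ^ (l - i)) * V.b v l :=
              mul_le_mul h2 h1 (sq_nonneg _) (by positivity)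
          _ = _ := by ring
    _ ≤ ∑ l ∈ Finset.Ico (i + 1) V.n, (1 / 2 : ℝ) ^ (j - i) * ((25 / 8) ^ (l - i) * V.b v l) := by
        apply Finset.sum_le_sum_of_subset_of_nonneg
        · exact Finset.Ico_subset_Ico_left hij
        · intro l _ _
          have := b_nonneg V v l
          positivity

lemma sum_half_le (i n : ℕ) : ∑ j ∈ Finset.Ico (i + 1) n, (1 / 2 : ℝ) ^ (j - i) ≤ 1 := by
  by_cases h : i < n
  · obtain ⟨m, rfl⟩ := Nat.exists_eq_add_of_lt h
    have : ∀ m : ℕ, ∑ j ∈ Finset.Ico (i + 1) (i + m + 1), (1 / 2 : ℝ) ^ (j - i) = 1 - (1 / 2) ^ m := by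
      intro m
      induction m with
      | zero => simp
      | succ k ih =>
        rw [show i + (k + 1) + 1 = (i + k + 1) + 1 by ring,
          Finset.sum_Ico_succ_top (by omega), ih, show i + k + 1 - i = k + 1 by omega]
        ring
    rw [this]
    have : (0:ℝ) < (1 / 2) ^ m := by positivity
    linarith
  · rw [Finset.Ico_eq_empty (by omega)]
    simp

/-- the total error is at most `3 sb BB` -/
theorem exc_le (h0 : 0 < s) (h1 : s < 1) (hsb : 2 * s - s ^ 2 ≤ 1 / 2) (hv : ‖v‖ = 1) (i : ℕ) :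
    ∑ j ∈ Finset.Ico (i + 1) V.n, ww V v s i j * ‖av V v s i j‖ ^ 2
      ≤ 3 * (2 * s - s ^ 2) * BB V v i := by
  have hsb0 := sb_pos h0 h1
  have hBB := BB_nonneg V v i
  have key : ∀ j ∈ Finset.Ico (i + 1) V.n, ww V v s i j * ‖av V v s i j‖ ^ 2
      ≤ 2 * (2 * s - s ^ 2) * BB V v i * (9 / 16 * (1 / 2) ^ (j - i)
        + (if j = i + 1 then 25 / 32 else 0)) := by
    intro j hj
    rw [Finset.mem_Ico] at hj
    have e1 := normsq_inv_Tw (θ := th) th_pos h0 h1 hsb hv V.anti (by omega : i ≤ j) hj.2.le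
    have e2 := bet_le (V := V) (v := v) hj.1
    have e3 : kp s v (V.M j) * ‖av V v s i j‖ ^ 2
        ≤ 2 * (2 * s - s ^ 2) * (th⁻¹ ^ (j - i)) ^ 2 * ((1 / 2) ^ (j - i) * BB V v i) := by
      refine le_trans e1 ?_
      exact mul_le_mul_of_nonneg_left e2 (by positivity)
    have e4 : (sg th (j - i) + if j = i + 1 then 1 else 0) * (th⁻¹ ^ (j - i)) ^ 2
        = 9 / 16 + (if j = i + 1 then 25 / 16 else 0) := by
      rw [sg_th (by omega), add_mul]
      congr 1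
      · rw [mul_assoc, ← mul_pow, ← mul_pow, mul_inv_cancel₀ th_pos.ne']
        simp
      · split_ifs with h
        · rw [h, thinv, show i + 1 - i = 1 by omega]; norm_num
        · ring
    have e5 : 0 ≤ sg th (j - i) + if j = i + 1 then (1:ℝ) else 0 := by
      rw [sg_th (by omega)]
      split_ifs <;> positivity
    calc ww V v s i j * ‖av V v s i j‖ ^ 2
        = (sg th (j - i) + if j = i + 1 then 1 else 0) * (kp s v (V.M j) * ‖av V v s i j‖ ^ 2) := by
          unfold ww; ring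
      _ ≤ (sg th (j - i) + if j = i + 1 then 1 else 0) *
          (2 * (2 * s - s ^ 2) * (th⁻¹ ^ (j - i)) ^ 2 * ((1 / 2) ^ (j - i) * BB V v i)) :=
          mul_le_mul_of_nonneg_left e3 e5
      _ = 2 * (2 * s - s ^ 2) * BB V v i * ((1 / 2) ^ (j - i) *
          ((sg th (j - i) + if j = i + 1 then 1 else 0) * (th⁻¹ ^ (j - i)) ^ 2)) := by ring
      _ = _ := by
          rw [e4]
          split_ifs with h
          · rw [h, show i + 1 - i = 1 by omega]; ring
          · ring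
  refine le_trans (Finset.sum_le_sum key) ?_
  rw [← Finset.mul_sum, Finset.sum_add_distrib, ← Finset.mul_sum]
  have h3 := sum_half_le i V.n
  have h4 : ∑ j ∈ Finset.Ico (i + 1) V.n, (if j = i + 1 then (25 / 32 : ℝ) else 0) ≤ 25 / 32 := by
    rw [Finset.sum_ite_eq']
    split_ifs <;> norm_num
  have h5 : 9 / 16 * ∑ j ∈ Finset.Ico (i + 1) V.n, (1 / 2 : ℝ) ^ (j - i)
      + ∑ j ∈ Finset.Ico (i + 1) V.n, (if j = i + 1 then (25 / 32 : ℝ) else 0) ≤ 3 / 2 := by
    linarith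
  calc 2 * (2 * s - s ^ 2) * BB V v i * _ ≤ 2 * (2 * s - s ^ 2) * BB V v i * (3 / 2) :=
        mul_le_mul_of_nonneg_left h5 (by positivity)
    _ = _ := by ring

end Crest.Agent.R239.LevA825
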