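import Mathlib
import Crest.Agent.R239.FDef
import Crest.Agent.R239.Dem_853
import Crest.Agent.R239.FlagCov_732
import Crest.Agent.R239.RemG_864

/-! R239 (583's proof, T1 at V^s), helper732: comparison of `D_i(V)` with `D_i(V^s)`. -/

set_option autoImplicit false
set_option linter.unusedSectionVars false
open MeasureTheory ProbabilityTheory Set
open scoped RealInnerProductSpace

namespace Crest.Agent.R239.LevCov732

open Crest.Agent.R239 Crest.Agent.R239.FD Crest.Agent.R239.RotCov732 Crest.Agent.R239.FlagCov732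

variable {E : Type*} [NormedAddCommGroup E] [InnerProductSpace ℝ E] [FiniteDimensional ℝ E]

/-! ### the gauge -/

/-- the operator of the gauge `N` -/
noncomputable def BB0 (V : Flag E) (i : ℕ) : E →L[ℝ] E :=
  FlagAlg557.comb V.M i V.n fun j => (√(th⁻¹)) ^ (j - i)

lemma sq_w (m : ℕ) : ((√(th⁻¹)) ^ m) ^ 2 = (th⁻¹) ^ m := by
  rw [← pow_mul, mul_comm m 2, pow_mul, Real.sq_sqrt (inv_pos.2 th_pos).le]

lemma norm_BB0 (V : Flag E) (i : ℕ) (x : E) : ‖BB0 V i x‖ ^ 2 = V.N i x := by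
  unfold BB0 Flag.N
  rw [FlagAlg557.norm_comb_sq V.anti]
  refine Finset.sum_congr rfl fun j _ => ?_
  rw [sq_w]; rfl

lemma inner_BB0 (V : Flag E) (i : ℕ) (v x : E) : ⟪BB0 V i v, BB0 V i x⟫ = ⟪V.Hi i v, x⟫ := by
  unfold BB0
  rw [FlagAlg557.inner_comb_comb V.anti, Hi_eq, FlagAlg557.comb_apply, sum_inner]
  refine Finset.sum_congr rfl fun j _ => ?_
  rw [real_inner_smul_left, ← pow_two, sq_w, ← FlagAlg557.inner_Q_comm,
    FlagAlg557.Q_Q_self V.anti]

lemma inner_Hi_sq_le (V : Flag E) (i : ℕ) (v x : E) :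
    ⟪V.Hi i v, x⟫ ^ 2 ≤ V.N i v * V.N i x := by
  rw [← inner_BB0, ← norm_BB0, ← norm_BB0, ← mul_pow, ← sq_abs]
  exact pow_le_pow_left₀ (abs_nonneg _) (abs_real_inner_le_norm _ _) 2

lemma N_nonneg (V : Flag E) (i : ℕ) (x : E) : 0 ≤ V.N i x := by
  rw [← norm_BB0]; positivity

lemma omN_nonneg (m : ℕ) : 0 ≤ omN m := by
  unfold omN
  have : (0 : ℝ) ≤ 1 - th := by norm_num [th]
  have h2 : (0 : ℝ) ≤ th⁻¹ := (inv_pos.2 th_pos).le
  positivity

lemma omN_le (m : ℕ) : omN m ≤ (25 / 8 : ℝ) ^ m := by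
  unfold omN
  have h1 : (th⁻¹ : ℝ) ^ m ≤ (25 / 8 : ℝ) ^ m :=
    pow_le_pow_left₀ (inv_pos.2 th_pos).le (by norm_num [th]) m
  have h2 : (0 : ℝ) ≤ (th⁻¹) ^ m := by
    have : (0 : ℝ) ≤ th⁻¹ := (inv_pos.2 th_pos).le
    positivity
  have h3 : (1 - th : ℝ) ≤ 1 := by linarith [th_pos]
  nlinarith

lemma N_v_le (V : Flag E) {i : ℕ} (hi : i < V.n) (v : E) :
    V.N i v ≤ V.b v i + FD.BB V v i := by
  rw [N_eq V hi]
  unfold FD.BB
  have : ∑ j ∈ Finset.Ico (i + 1) V.n, omN (j - i) * ‖V.P j v‖ ^ 2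
      ≤ ∑ j ∈ Finset.Ico (i + 1) V.n, (25 / 8 : ℝ) ^ (j - i) * V.b v j :=
    Finset.sum_le_sum fun j _ => mul_le_mul_of_nonneg_right (omN_le _) (sq_nonneg _)
  unfold Flag.b at *
  linarith

lemma b_le_N (V : Flag E) {i : ℕ} (hi : i < V.n) (v : E) : V.b v i ≤ V.N i v := by
  rw [N_eq V hi]
  have : 0 ≤ ∑ j ∈ Finset.Ico (i + 1) V.n, omN (j - i) * ‖V.P j v‖ ^ 2 :=
    Finset.sum_nonneg fun j _ => mul_nonneg (omN_nonneg _) (sq_nonneg _)
  unfold Flag.b
  linarith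

section rot

variable {v : E} (hv : ‖v‖ = 1) {s : ℝ} (hs0 : 0 < s) (hs1 : s < 1) (V : Flag E)
include hv hs0 hs1

/-- the gauge under rotation, every `x` -/
theorem N_rot_le {i : ℕ} (hi : i < V.n) (x : E) :
    V.N i x ≤ (V.rot v s).N i (Ts v s x)
      + 2 * (2 * s - s ^ 2) * (⟪v, x⟫ * ⟪V.Hi i v, x⟫) := by
  rw [N_eq V hi, N_eq (V.rot v s) (i := i) hi, inner_Hi V hi, rot_n]
  set sb := 2 * s - s ^ 2 with hsb
  have key : ∀ j, ‖V.P j x‖ ^ 2 ≤ ‖(V.rot v s).P j (Ts v s x)‖ ^ 2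
      + 2 * sb * (⟪v, x⟫ * ⟪V.P j v, x⟫) := by
    intro j
    rw [norm_rot_P_sq hv hs0 hs1 V j, Ts_Ts hv, ← hsb]
    have h1 : 0 ≤ sb / (1 - sb * V.b v j) * ⟪Ts v s (V.P j v), Ts v s x⟫ ^ 2 :=
      mul_nonneg (div_nonneg (sb_pos hs0 hs1).le (den_pos hv hs0 hs1 V j).le) (sq_nonneg _)
    have h2 : ‖V.P j (x - (sb * ⟪v, x⟫) • v)‖ ^ 2
        = ‖V.P j x‖ ^ 2 - 2 * (sb * ⟪v, x⟫) * ⟪V.P j v, x⟫
          + (sb * ⟪v, x⟫) ^ 2 * ‖V.P j v‖ ^ 2 := by
      rw [map_sub, map_smul, norm_sub_sq_real, real_inner_smul_right, norm_smul, mul_pow,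
        Real.norm_eq_abs, sq_abs]
      have h3 : ⟪V.P j x, V.P j v⟫ = ⟪V.P j v, x⟫ := by
        rw [real_inner_comm]
        have := inner_proj_mem (V.M j) x (m := V.P j v)
          (Submodule.starProjection_apply_mem _ _)
        rw [real_inner_comm] at this
        rw [real_inner_comm (V.P j v) x] at this
        exact this
      rw [h3]; ring
    rw [h2]
    have h4 : 0 ≤ (sb * ⟪v, x⟫) ^ 2 * ‖V.P j v‖ ^ 2 := by positivity
    linarith
  have h5 := key i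
  have h6 : ∑ j ∈ Finset.Ico (i + 1) V.n, omN (j - i) * ‖V.P j x‖ ^ 2
      ≤ ∑ j ∈ Finset.Ico (i + 1) V.n, omN (j - i) * (‖(V.rot v s).P j (Ts v s x)‖ ^ 2
      + 2 * sb * (⟪v, x⟫ * ⟪V.P j v, x⟫)) :=
    Finset.sum_le_sum fun j _ => mul_le_mul_of_nonneg_left (key j) (omN_nonneg _)
  have h7 : ∑ j ∈ Finset.Ico (i + 1) V.n, omN (j - i) * (‖(V.rot v s).P j (Ts v s x)‖ ^ 2
      + 2 * sb * (⟪v, x⟫ * ⟪V.P j v, x⟫))
      = ∑ j ∈ Finset.Ico (i + 1) V.n, omN (j - i) * ‖(V.rot v s).P j (Ts v s x)‖ ^ 2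
      + 2 * sb * (⟪v, x⟫ * ∑ j ∈ Finset.Ico (i + 1) V.n, omN (j - i) * ⟪V.P j v, x⟫) := by
    rw [Finset.mul_sum, Finset.mul_sum, ← Finset.sum_add_distrib]
    refine Finset.sum_congr rfl fun j _ => ?_
    ring
  rw [h7] at h6
  nlinarith

/-- the gauge under rotation on `M i` -/
theorem N_rot_mem {i : ℕ} (hi : i < V.n) {x : E} (hx : x ∈ V.M i) :
    V.N i x * (1 - 2 * (2 * s - s ^ 2) * V.N i v) ≤ (V.rot v s).N i (Ts v s x) := by
  have h1 := N_rot_le hv hs0 hs1 V hi x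
  have hsb := sb_pos hs0 hs1
  set sb := 2 * s - s ^ 2
  have h2 : ⟪v, x⟫ ^ 2 ≤ V.N i v * V.N i x := by
    have e : ⟪v, x⟫ = ⟪V.P i v, x⟫ := (inner_proj_mem (V.M i) v hx).symm
    rw [e]
    have h3 : ⟪V.P i v, x⟫ ^ 2 ≤ ‖V.P i v‖ ^ 2 * ‖x‖ ^ 2 := by
      rw [← mul_pow, ← sq_abs]
      exact pow_le_pow_left₀ (abs_nonneg _) (abs_real_inner_le_norm _ _) 2
    have h4 : ‖x‖ ^ 2 ≤ V.N i x := by
      rw [N_eq V hi]
      have e2 : V.P i x = x := Submodule.starProjection_eq_self_iff.2 hx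
      rw [e2]
      have : 0 ≤ ∑ j ∈ Finset.Ico (i + 1) V.n, omN (j - i) * ‖V.P j x‖ ^ 2 :=
        Finset.sum_nonneg fun j _ => mul_nonneg (omN_nonneg _) (sq_nonneg _)
      linarith
    have h5 : ‖V.P i v‖ ^ 2 ≤ V.N i v := b_le_N V hi v
    calc ⟪V.P i v, x⟫ ^ 2 ≤ ‖V.P i v‖ ^ 2 * ‖x‖ ^ 2 := h3
      _ ≤ V.N i v * V.N i x := mul_le_mul h5 h4 (sq_nonneg _) (N_nonneg _ _ _)
  have h6 := inner_Hi_sq_le V i v x
  have h7 : ⟪v, x⟫ * ⟪V.Hi i v, x⟫ ≤ V.N i v * V.N i x := by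
    nlinarith [sq_nonneg (⟪v, x⟫ - ⟪V.Hi i v, x⟫)]
  nlinarith

end rot

variable [MeasurableSpace E] [BorelSpace E]

/-! ### cap cut -/

lemma exp_neg_two_le {x : ℝ} (hx0 : 0 ≤ x) (hx1 : x ≤ 1 / 2) : Real.exp (-(2 * x)) ≤ 1 - x := by
  have h := Rem864.neg_log_one_sub_le hx0 hx1
  have hl : Real.log 2 ≤ 1 := by
    have := Real.log_two_lt_d9
    linarith
  have h1 : 0 < 1 - x := by linarith
  rw [← Real.le_log_iff_exp_le h1]
  nlinarith

/-- one cut by the cap when the body is already in a slightly larger cap -/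
theorem cap_cut (V : Flag E) (i : ℕ) {ρ h : ℝ} (hρ : 4 ≤ ρ) (hh : 0 ≤ h)
    {Q : Set E} (hQ : IsClosed Q) (cQ : Convex ℝ Q) (sQ : ∀ x ∈ Q, -x ∈ Q)
    (hN : ∀ x ∈ Q, V.N i x * (1 - h) ≤ ρ ^ 2 * V.rr i) :
    Real.exp (-(16 * h / ρ ^ 2)) * (gau (V.H i)).real Q
      ≤ (gau (V.H i)).real (Q ∩ {x | V.N i x ≤ ρ ^ 2 * V.rr i}) := by
  have hρ0 : 0 < ρ := by linarith
  have hρ2 : 16 ≤ ρ ^ 2 := by nlinarith
  set g := (gau (V.H i)).real Q with hg
  have hg0 : 0 ≤ g := measureReal_nonneg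
  have hr0 : 0 ≤ V.rr i := Dem853.capR_nonneg th_pos V.n V.M i
  rcases eq_or_lt_of_le hh with h0 | h0
  · -- `h = 0`
    have : Q ∩ {x | V.N i x ≤ ρ ^ 2 * V.rr i} = Q := by
      refine inter_eq_left.2 fun x hx => ?_
      have := hN x hx
      rw [← h0] at this
      simpa using this
    rw [this, ← h0]
    simp [hg]
  rcases lt_or_ge (1 / 2) h with h1 | h1
  · -- trivial cut
    have hc := Dem853.cutN (θ := th) th_pos hρ0 V.anti (n := V.n) i hQ cQ sQ
    refine le_trans ?_ hc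
    refine mul_le_mul_of_nonneg_right ?_ hg0
    have h2 : Real.exp (-(2 * (1 / ρ ^ 2))) ≤ 1 - 1 / ρ ^ 2 := by
      refine exp_neg_two_le (by positivity) ?_
      rw [div_le_div_iff₀ (by positivity) (by norm_num)]
      linarith
    refine le_trans (Real.exp_le_exp.2 ?_) h2
    rw [neg_le_neg_iff, mul_one_div]
    exact div_le_div_of_nonneg_right (by linarith) (by positivity)
  · -- log-concavity in the radius
    set lam := 2 * h / (1 + 2 * h) with hlam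
    have hl0 : 0 < lam := by positivity
    have hl1 : lam < 1 := by
      rw [hlam, div_lt_one (by linarith)]
      linarith
    set R := ρ * √(V.rr i) with hR
    have hR0 : 0 ≤ R := by positivity
    have hR2 : R ^ 2 = ρ ^ 2 * V.rr i := by rw [hR, mul_pow, Real.sq_sqrt hr0]
    have hmeas : ∀ c, MeasurableSet {x : E | V.N i x ≤ c} := by
      intro c
      have hc : Continuous (V.N i) := Dem853.continuous_capN th V.n V.M i
      exact (isClosed_le hc continuous_const).measurableSet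
    have hpr := Dom640.gau_pr_real (V.H i) hl0 hl1 hQ.measurableSet
      (hQ.measurableSet.inter (hmeas ((ρ / 2) ^ 2 * V.rr i)))
      (hQ.measurableSet.inter (hmeas (ρ ^ 2 * V.rr i))) (by
        intro x hx y hy
        refine ⟨cQ hx hy.1 (by linarith) hl0.le (by ring), ?_⟩
        have hNx := hN x hx
        have hNy : V.N i y ≤ (ρ / 2) ^ 2 * V.rr i := hy.2
        change V.N i ((1 - lam) • x + lam • y) ≤ ρ ^ 2 * V.rr i
        rw [← norm_BB0] at hNx hNy ⊢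
        rw [← hR2] at hNx ⊢
        have hx1 : ‖BB0 V i x‖ ≤ (1 + h) * R := by
          refine le_of_sq_le_sq ?_ (by positivity)
          have hq : 1 ≤ (1 + h) ^ 2 * (1 - h) := by
            have e : (1 + h) ^ 2 * (1 - h) - 1 = h * (1 - h - h ^ 2) := by ring
            have e2 : 0 ≤ 1 - h - h ^ 2 := by nlinarith
            have e3 := mul_nonneg h0.le e2
            linarith
          have hz : 0 ≤ ‖BB0 V i x‖ ^ 2 := sq_nonneg _
          calc ‖BB0 V i x‖ ^ 2 ≤ (1 + h) ^ 2 * (1 - h) * ‖BB0 V i x‖ ^ 2 := by nlinarith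
            _ = (1 + h) ^ 2 * (‖BB0 V i x‖ ^ 2 * (1 - h)) := by ring
            _ ≤ (1 + h) ^ 2 * R ^ 2 := mul_le_mul_of_nonneg_left hNx (sq_nonneg _)
            _ = ((1 + h) * R) ^ 2 := by ring
        have hy1 : ‖BB0 V i y‖ ≤ R / 2 := by
          refine le_of_sq_le_sq ?_ (by positivity)
          rw [div_pow, hR2]
          refine hNy.trans (le_of_eq ?_)
          ring
        have hn : ‖BB0 V i ((1 - lam) • x + lam • y)‖ ≤ R := by
          rw [map_add, map_smul, map_smul]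
          calc ‖(1 - lam) • BB0 V i x + lam • BB0 V i y‖
              ≤ ‖(1 - lam) • BB0 V i x‖ + ‖lam • BB0 V i y‖ := norm_add_le _ _
            _ = (1 - lam) * ‖BB0 V i x‖ + lam * ‖BB0 V i y‖ := by
                rw [norm_smul, norm_smul, Real.norm_of_nonneg (by linarith),
                  Real.norm_of_nonneg hl0.le]
            _ ≤ (1 - lam) * ((1 + h) * R) + lam * (R / 2) := by
                have := mul_le_mul_of_nonneg_left hx1 (show 0 ≤ 1 - lam by linarith)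
                have := mul_le_mul_of_nonneg_left hy1 hl0.le
                linarith
            _ = R := by
                have : (1 - lam) * (1 + h) + lam / 2 = 1 := by
                  rw [hlam]; field_simp; ring
                linear_combination R * this
        exact pow_le_pow_left₀ (norm_nonneg _) hn 2)
    refine le_trans ?_ hpr
    have hc := Dem853.cutN (θ := th) th_pos (ρ := ρ / 2) (by positivity) V.anti (n := V.n) i
      hQ cQ sQ
    have hc' : (1 - 4 / ρ ^ 2) * g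
        ≤ (gau (V.H i)).real (Q ∩ {x | V.N i x ≤ (ρ / 2) ^ 2 * V.rr i}) := by
      refine le_trans (le_of_eq ?_) hc
      congr 1
      rw [div_pow]
      field_simp
      norm_num
    have h4 : 4 / ρ ^ 2 ≤ 1 / 4 := by
      rw [div_le_div_iff₀ (by positivity) (by norm_num)]
      linarith
    have h40 : 0 ≤ 4 / ρ ^ 2 := by positivity
    have hq0 : 0 < 1 - 4 / ρ ^ 2 := by linarith
    have h5 : (g ^ (1 - lam)) * (((1 - 4 / ρ ^ 2) * g) ^ lam)
        ≤ g ^ (1 - lam) * ((gau (V.H i)).real (Q ∩ {x | V.N i x ≤ (ρ / 2) ^ 2 * V.rr i})) ^ lam :=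
      mul_le_mul_of_nonneg_left (Real.rpow_le_rpow (mul_nonneg hq0.le hg0) hc' hl0.le)
        (Real.rpow_nonneg hg0 _)
    refine le_trans ?_ h5
    rw [Real.mul_rpow hq0.le hg0]
    have h6 : g ^ (1 - lam) * ((1 - 4 / ρ ^ 2) ^ lam * g ^ lam) = (1 - 4 / ρ ^ 2) ^ lam * g := by
      have : g ^ (1 - lam) * g ^ lam = g := by
        rw [← Real.rpow_add_of_nonneg hg0 (by linarith) hl0.le]
        simp
      calc g ^ (1 - lam) * ((1 - 4 / ρ ^ 2) ^ lam * g ^ lam)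
          = (1 - 4 / ρ ^ 2) ^ lam * (g ^ (1 - lam) * g ^ lam) := by ring
        _ = (1 - 4 / ρ ^ 2) ^ lam * g := by rw [this]
    rw [h6]
    refine mul_le_mul_of_nonneg_right ?_ hg0
    have h7 : Real.exp (-(2 * (4 / ρ ^ 2))) ≤ 1 - 4 / ρ ^ 2 :=
      exp_neg_two_le h40 (by linarith)
    have h8 := Real.rpow_le_rpow (Real.exp_nonneg _) h7 hl0.le
    refine le_trans ?_ h8
    rw [← Real.exp_mul]
    refine Real.exp_le_exp.2 ?_
    have h9 : lam ≤ 2 * h := by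
      rw [hlam, div_le_iff₀ (by linarith)]
      nlinarith
    have h10 : 2 * (4 / ρ ^ 2) * lam ≤ 2 * (4 / ρ ^ 2) * (2 * h) :=
      mul_le_mul_of_nonneg_left h9 (by positivity)
    have h11 : 16 * h / ρ ^ 2 = 2 * (4 / ρ ^ 2) * (2 * h) := by field_simp; norm_num
    rw [h11]
    linarith

end Crest.Agent.R239.LevCov732
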