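import Mathlib
import Crest.Agent.R239.FDef
import Crest.Agent.R239.Dem_853
import Crest.Agent.R239.T1B_350
import Crest.Agent.R239.RemG_864
import Crest.Agent.R239.LevCov_732

/-! R239 (583's proof, T1 at V^s), helper732: `Target_LEVB` (174 / 350), covariance form. -/

set_option autoImplicit false
set_option linter.unusedSectionVars false
open MeasureTheory ProbabilityTheory Set
open scoped RealInnerProductSpace

namespace Crest.Agent.R239.LevB732

open Crest.Agent.R239 Crest.Agent.R239.FD Crest.Agent.R239.RotCov732 Crest.Agent.R239.FlagCov732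
open Crest.Agent.R239.LevCov732

variable {E : Type*} [NormedAddCommGroup E] [InnerProductSpace ℝ E] [FiniteDimensional ℝ E]
  [MeasurableSpace E] [BorelSpace E]

section rot

variable {v : E} (hv : ‖v‖ = 1) {s : ℝ} (hs0 : 0 < s) (hs1 : s < 1) (V : Flag E)
include hv hs0 hs1

/-- weights of the error term -/
noncomputable def ww (s : ℝ) (m : ℕ) : ℝ :=
  2 * ((2 * s - s ^ 2) / (1 - (2 * s - s ^ 2))) * (th ^ (m - 1)) ^ 2

omit hv in
lemma cb_nonneg : 0 ≤ (2 * s - s ^ 2) / (1 - (2 * s - s ^ 2)) :=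
  div_nonneg (sb_pos hs0 hs1).le (by have := sb_lt hs0 hs1; linarith)

omit hv in
lemma ww_nonneg (m : ℕ) : 0 ≤ ww s m := by
  unfold ww
  have := cb_nonneg hs0 hs1
  positivity

/-- the total excess -/
noncomputable def XX (V : Flag E) (v : E) (s : ℝ) (i : ℕ) : ℝ :=
  ∑ j ∈ Finset.Ico (i + 1) V.n, ww s (j - i) * ‖uu V v s i j‖ ^ 2

omit hv hs0 hs1 in
lemma pre_eq {i : ℕ} (hi : i ≤ V.n) (K' : Set E) :
    (RR V v s i) ⁻¹' ((V.rot v s).H i ⁻¹' K') = V.H i ⁻¹' (Ts v s ⁻¹' K') := by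
  ext g
  simp only [mem_preimage]
  rw [H_RR V hi g]

/-- measure comparison without gain -/
theorem meas0 {i : ℕ} (hi : i < V.n) {K' : Set E} (hK : IsClosed K') (cK : Convex ℝ K')
    (sK : ∀ x ∈ K', -x ∈ K') :
    Real.exp (-XX V v s i) * (gau ((V.rot v s).H i)).real K'
      ≤ (gau (V.H i)).real (Ts v s ⁻¹' K') := by
  have hw := fun j : ℕ => ww_nonneg (s := s) hs0 hs1 (j - i)
  have hms : MeasurableSet ((V.rot v s).H i ⁻¹' K') :=
    ((V.rot v s).H i).continuous.measurable hK.measurableSet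
  have h := CmpCov732.cmp_cov0 (Finset.Ico (i + 1) V.n)
    (fun j => √(ww s (j - i)) • uu V v s i j) (RR V v s i) hv (fun t => by
      have h1 := RR_bound hv hs0 hs1 V hi t
      have h2 : 0 ≤ (2 * s - s ^ 2) / 2 * ⟪pp V v s i, t⟫ ^ 2 :=
        mul_nonneg (by have := sb_pos hs0 hs1; linarith) (sq_nonneg _)
      have h3 : ∀ j ∈ Finset.Ico (i + 1) V.n, ⟪√(ww s (j - i)) • uu V v s i j, t⟫ ^ 2
          = ww s (j - i) * ⟪uu V v s i j, t⟫ ^ 2 := by
        intro j _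
        rw [real_inner_smul_left, mul_pow, Real.sq_sqrt (hw j)]
      rw [Finset.sum_congr rfl h3]
      have h4 : ∑ j ∈ Finset.Ico (i + 1) V.n, ww s (j - i) * ⟪uu V v s i j, t⟫ ^ 2
          = ∑ j ∈ Finset.Ico (i + 1) V.n,
        (2 * ((2 * s - s ^ 2) / (1 - (2 * s - s ^ 2))) * (th ^ (j - i - 1)) ^ 2)
          * ⟪uu V v s i j, t⟫ ^ 2 := rfl
      rw [h4]
      linarith) hms (Dom640.pre_conv _ cK) (Dom640.pre_symm _ sK)
  have e : ∑ j ∈ Finset.Ico (i + 1) V.n, ‖√(ww s (j - i)) • uu V v s i j‖ ^ 2 = XX V v s i := by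
    unfold XX
    refine Finset.sum_congr rfl fun j _ => ?_
    rw [norm_smul, mul_pow, Real.norm_eq_abs, sq_abs, Real.sq_sqrt (hw j)]
  rw [e, pre_eq V hi.le K'] at h
  rw [gau_real_apply _ hK.measurableSet,
    gau_real_apply _ ((Ts v s).continuous.measurable hK.measurableSet)]
  exact h

omit hv hs0 hs1 in
lemma H_pp {i : ℕ} (hi : i < V.n) : (V.rot v s).H i (pp V v s i) = pp V v s i := by
  unfold pp
  rw [H_eq, Q_eq, rot_n, FlagAlg557.comb_Q (V.rot v s).anti (Finset.mem_Ico.2 ⟨le_rfl, hi⟩)]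
  simp

/-- measure comparison with gain -/
theorem meas1 {i : ℕ} (hi : i < V.n) {K' : Set E} (hK : IsClosed K') (cK : Convex ℝ K')
    (sK : ∀ x ∈ K', -x ∈ K') {c' : ℝ} (hc0 : 0 < c') (hc1 : c' < 1)
    (hth : ∀ w : E, ‖w‖ = 1 → (V.rot v s).Q i w = w →
      (∫ x in K', ⟪w, x⟫ ^ 2 ∂(gau ((V.rot v s).H i)))
        ≤ (1 - c') * (gau ((V.rot v s).H i)).real K') :
    Real.exp ((2 * s - s ^ 2) * c' ^ 2 / 32 * ‖pp V v s i‖ ^ 2 - XX V v s i)
        * (gau ((V.rot v s).H i)).real K'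
      ≤ (gau (V.H i)).real (Ts v s ⁻¹' K') := by
  by_cases hp0 : pp V v s i = 0
  · rw [hp0, norm_zero]
    have := meas0 hv hs0 hs1 V hi hK cK sK
    simpa using this
  have hpn : 0 < ‖pp V v s i‖ := norm_pos_iff.2 hp0
  have hsb0 := sb_pos hs0 hs1
  have hsb1 := sb_lt hs0 hs1
  have hpp1 := norm_pp_sq_le hv hs0 hs1 V i
  set sb := 2 * s - s ^ 2 with hsb
  set p := pp V v s i with hp
  set n := (‖p‖⁻¹ : ℝ) • p with hn
  have hn1 : ‖n‖ = 1 := by
    rw [hn, norm_smul, norm_inv, norm_norm, inv_mul_cancel₀ hpn.ne']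
  have hQn : (V.rot v s).Q i n = n := by
    rw [hn, map_smul]
    congr 1
    rw [hp]
    unfold pp
    rw [Q_eq]
    exact FlagAlg557.Q_Q_self (V.rot v s).anti i _
  have hHn : (V.rot v s).H i n = n := by
    rw [hn, map_smul, hp, H_pp V hi]
  set τ := sb * c' / 8 * ‖p‖ ^ 2 with hτ
  have hτ0 : 0 ≤ τ := by positivity
  have hτ1 : τ ≤ c' / 8 := by
    rw [hτ]
    have h1 : sb * c' / 8 ≤ c' / 8 := by nlinarith
    have h2 : 0 ≤ sb * c' / 8 := by positivity
    nlinarith [sq_nonneg ‖p‖]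
  have hw := fun j : ℕ => ww_nonneg (s := s) hs0 hs1 (j - i)
  have hms : MeasurableSet ((V.rot v s).H i ⁻¹' K') :=
    ((V.rot v s).H i).continuous.measurable hK.measurableSet
  have hint : ∫ g in (V.rot v s).H i ⁻¹' K', ⟪n, g⟫ ^ 2 ∂(stdGaussian E)
      ≤ (1 - c') * (stdGaussian E).real ((V.rot v s).H i ⁻¹' K') := by
    have h1 := hth n hn1 hQn
    rw [gau_real_apply _ hK.measurableSet] at h1
    refine le_trans (le_of_eq ?_) h1
    rw [gau, setIntegral_map hK.measurableSet (by fun_prop)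
      ((V.rot v s).H i).continuous.aemeasurable]
    refine setIntegral_congr_fun hms fun g _ => ?_
    rw [← H_comm, hHn]
  have h := CmpCov732.cmp_cov (Finset.Ico (i + 1) V.n)
    (fun j => √(ww s (j - i)) • uu V v s i j) (RR V v s i) hn1 (τ := τ) (b := 1 - c') hτ0
    (by linarith) (by linarith) (fun t => by
      have h1 := RR_bound hv hs0 hs1 V hi t
      have h3 : ∀ j ∈ Finset.Ico (i + 1) V.n, ⟪√(ww s (j - i)) • uu V v s i j, t⟫ ^ 2
          = ww s (j - i) * ⟪uu V v s i j, t⟫ ^ 2 := by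
        intro j _
        rw [real_inner_smul_left, mul_pow, Real.sq_sqrt (hw j)]
      rw [Finset.sum_congr rfl h3]
      have h4 : ∑ j ∈ Finset.Ico (i + 1) V.n, ww s (j - i) * ⟪uu V v s i j, t⟫ ^ 2
          = ∑ j ∈ Finset.Ico (i + 1) V.n,
        (2 * ((2 * s - s ^ 2) / (1 - (2 * s - s ^ 2))) * (th ^ (j - i - 1)) ^ 2)
          * ⟪uu V v s i j, t⟫ ^ 2 := rfl
      rw [h4]
      have h5 : τ * ⟪n, t⟫ ^ 2 ≤ sb / 2 * ⟪p, t⟫ ^ 2 := by
        rw [hn, real_inner_smul_left, hτ, mul_pow, inv_pow]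
        have e : sb * c' / 8 * ‖p‖ ^ 2 * ((‖p‖ ^ 2)⁻¹ * ⟪p, t⟫ ^ 2)
            = sb * c' / 8 * ⟪p, t⟫ ^ 2 := by
          field_simp
        rw [e]
        refine mul_le_mul_of_nonneg_right ?_ (sq_nonneg _)
        nlinarith
      linarith) hms (Dom640.pre_conv _ cK) (Dom640.pre_symm _ sK) hint
  have e : ∑ j ∈ Finset.Ico (i + 1) V.n, ‖√(ww s (j - i)) • uu V v s i j‖ ^ 2 = XX V v s i := by
    unfold XX
    refine Finset.sum_congr rfl fun j _ => ?_
    rw [norm_smul, mul_pow, Real.norm_eq_abs, sq_abs, Real.sq_sqrt (hw j)]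
  rw [e, pre_eq V hi.le K'] at h
  rw [gau_real_apply _ hK.measurableSet,
    gau_real_apply _ ((Ts v s).continuous.measurable hK.measurableSet)]
  refine le_trans (mul_le_mul_of_nonneg_right (Real.exp_le_exp.2 ?_) measureReal_nonneg) h
  have h6 : sb * c' ^ 2 / 32 * ‖p‖ ^ 2 = τ * c' / 4 := by rw [hτ]; ring
  have h7 : τ ^ 2 ≤ τ * (c' / 8) := by nlinarith
  have h8 : 0 ≤ τ * c' := mul_nonneg hτ0 hc0.le
  rw [h6]
  have h9 : τ / 2 * (1 - (1 - c')) = τ * c' / 2 := by ring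
  rw [h9]
  linarith

/-- size of the excess -/
theorem XX_le {i : ℕ} (hi : i < V.n) :
    XX V v s i ≤ 2 * ((2 * s - s ^ 2) / (1 - (2 * s - s ^ 2))) * FD.BB V v i := by
  have hcb := cb_nonneg hs0 hs1
  set cb := (2 * s - s ^ 2) / (1 - (2 * s - s ^ 2)) with hcbd
  have h1 : XX V v s i ≤ ∑ j ∈ Finset.Ico (i + 1) V.n, ∑ l ∈ Finset.Ico j V.n,
      2 * cb * (((th⁻¹) ^ (l - i)) ^ 2 * V.b v l) := by
    unfold XX
    refine Finset.sum_le_sum fun j hj => ?_
    have hj' := Finset.mem_Ico.1 hj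
    rw [← Finset.mul_sum]
    have h2 := norm_uu_sq_le hv hs0 hs1 V (i := i) (j := j) (by omega) (by omega)
    have h3 : ww s (j - i) ≤ 2 * cb := by
      unfold ww
      rw [← hcbd]
      have h4 : (th ^ (j - i - 1)) ^ 2 ≤ 1 := by
        have h5 : (th : ℝ) ^ (j - i - 1) ≤ 1 := pow_le_one₀ th_pos.le th_lt.le
        have h6 : (0 : ℝ) ≤ th ^ (j - i - 1) := by have := th_pos; positivity
        nlinarith
      nlinarith
    exact mul_le_mul h3 h2 (sq_nonneg _) (by positivity)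
  refine h1.trans ?_
  rw [Finset.sum_Ico_Ico_comm]
  unfold FD.BB
  rw [Finset.mul_sum]
  refine Finset.sum_le_sum fun l hl => ?_
  have hl' := Finset.mem_Ico.1 hl
  rw [Finset.sum_const, Nat.card_Ico, nsmul_eq_mul]
  have e : l + 1 - (i + 1) = l - i := by omega
  rw [e]
  set m := l - i
  have h5 : (m : ℝ) * ((th⁻¹) ^ m) ^ 2 ≤ (25 / 8 : ℝ) ^ m := by
    have h6 : ((th⁻¹ : ℝ) ^ m) ^ 2 = (25 / 16 : ℝ) ^ m := by
      rw [← pow_mul, mul_comm m 2, pow_mul]
      norm_num [th]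
    rw [h6]
    have h7 : (m : ℝ) ≤ 2 ^ m := by exact_mod_cast (Nat.lt_two_pow_self (n := m)).le
    calc (m : ℝ) * (25 / 16) ^ m ≤ 2 ^ m * (25 / 16) ^ m :=
          mul_le_mul_of_nonneg_right h7 (by positivity)
      _ = (25 / 8 : ℝ) ^ m := by rw [← mul_pow]; norm_num
  have h8 : 0 ≤ V.b v l := b_nonneg V l
  calc (m : ℝ) * (2 * cb * (((th⁻¹) ^ m) ^ 2 * V.b v l))
      = 2 * cb * (((m : ℝ) * ((th⁻¹) ^ m) ^ 2) * V.b v l) := by ring
    _ ≤ 2 * cb * ((25 / 8 : ℝ) ^ m * V.b v l) := by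
        refine mul_le_mul_of_nonneg_left (mul_le_mul_of_nonneg_right h5 h8) (by positivity)

/-- the level comparison for one body -/
theorem level {p : Par} (hp : p.Ok) {i : ℕ} (hi : i < V.n) (μ : Multiset E) {K' : Set E}
    (hK' : Adm p (V.rot v s) i K') {t G : ℝ}
    (hPt : 0 < (gau (V.H i)).real {x | |⟪v, x⟫| ≤ t})
    (hG : Real.exp G * (gau ((V.rot v s).H i)).real K' ≤ (gau (V.H i)).real (Ts v s ⁻¹' K')) :
    D p V i μ ≤ val p (V.rot v s) i μ K' + s * t * S μ v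
      - p.lam i * Real.log ((gau (V.H i)).real {x | |⟪v, x⟫| ≤ t})
      + p.lam i * (32 * (2 * s - s ^ 2) * V.N i v / p.rho ^ 2) - p.lam i * G := by
  obtain ⟨hKc, cK, sK, hKcap, hKpos⟩ := hK'
  have hlam := Dem853.lam_pos hp i
  have hrho := hp.rho_ge
  set Pt := (gau (V.H i)).real {x : E | |⟪v, x⟫| ≤ t} with hPtd
  set Q1 := Ts v s ⁻¹' K' with hQ1
  have hQ1c : IsClosed Q1 := hKc.preimage (Ts v s).continuous
  have cQ1 : Convex ℝ Q1 := Dom640.pre_conv _ cK
  have sQ1 : ∀ x ∈ Q1, -x ∈ Q1 := Dom640.pre_symm _ sK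
  have hQ1M : ∀ x ∈ Q1, x ∈ V.M i := by
    intro x hx
    obtain ⟨m, hm, hmx⟩ := Submodule.mem_map.1 (hKcap hx).1
    have hz : Ts v s (m - x) = 0 := by
      rw [map_sub]
      exact sub_eq_zero.2 hmx
    have hz2 : ‖Ts v s (m - x)‖ ^ 2 = 0 := by rw [hz]; simp
    rw [norm_Ts_sq hv] at hz2
    have h1 : ⟪v, m - x⟫ ^ 2 ≤ ‖m - x‖ ^ 2 := by
      have := abs_real_inner_le_norm v (m - x)
      rw [hv, one_mul] at this
      rw [← sq_abs]
      exact pow_le_pow_left₀ (abs_nonneg _) this 2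
    have h2 := sb_lt hs0 hs1
    have h3 := sb_pos hs0 hs1
    have h4 : ‖m - x‖ ^ 2 ≤ 0 := by nlinarith [sq_nonneg ‖m - x‖, sq_nonneg ⟪v, m - x⟫]
    have h5 : m - x = 0 := by
      have := sq_nonneg ‖m - x‖
      exact norm_eq_zero.1 (pow_eq_zero_iff (two_ne_zero) |>.1 (le_antisymm h4 this))
    rw [sub_eq_zero] at h5
    rw [← h5]; exact hm
  set Sl := {x : E | |⟪v, x⟫| ≤ t} with hSl
  have hSlc : IsClosed Sl :=
    isClosed_le (continuous_abs.comp (continuous_const.inner continuous_id)) continuous_const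
  have cSl : Convex ℝ Sl := by
    intro x hx y hy a b ha hb hab
    simp only [hSl, mem_ofPred_eq] at hx hy ⊢
    rw [inner_add_right, real_inner_smul_right, real_inner_smul_right]
    calc |a * ⟪v, x⟫ + b * ⟪v, y⟫| ≤ |a * ⟪v, x⟫| + |b * ⟪v, y⟫| := abs_add_le _ _
      _ = a * |⟪v, x⟫| + b * |⟪v, y⟫| := by rw [abs_mul, abs_mul, abs_of_nonneg ha, abs_of_nonneg hb]
      _ ≤ a * t + b * t := add_le_add (mul_le_mul_of_nonneg_left hx ha)
          (mul_le_mul_of_nonneg_left hy hb)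
      _ = t := by rw [← add_mul, hab, one_mul]
  have sSl : ∀ x ∈ Sl, -x ∈ Sl := by
    intro x hx
    simp only [hSl, mem_ofPred_eq] at hx ⊢
    rwa [inner_neg_right, abs_neg]
  set Q2 := Q1 ∩ Sl with hQ2
  have hQ2c : IsClosed Q2 := hQ1c.inter hSlc
  have cQ2 : Convex ℝ Q2 := cQ1.inter cSl
  have sQ2 : ∀ x ∈ Q2, -x ∈ Q2 := fun x hx => ⟨sQ1 x hx.1, sSl x hx.2⟩
  set B := Q2 ∩ {x | V.N i x ≤ p.rho ^ 2 * V.rr i} with hB
  -- measures
  have h1 : (gau (V.H i)).real Q1 * Pt ≤ (gau (V.H i)).real Q2 :=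
    Dom640.gau_slab_real (V.H i) hQ1c.measurableSet cQ1 sQ1 v t
  have hNv := N_nonneg V i v
  have hsb0 := sb_pos hs0 hs1
  have hNcut := cap_cut V i (ρ := p.rho) (h := 2 * (2 * s - s ^ 2) * V.N i v) (by linarith)
    (by positivity) hQ2c cQ2 sQ2 (fun x hx => (N_rot_mem hv hs0 hs1 V hi (hQ1M x hx.1)).trans
      (by
        have h2 := (hKcap hx.1).2
        have h3 : (V.rot v s).rr i = V.rr i := by
          unfold Flag.rr
          rw [rot_n]
          refine Finset.sum_congr rfl fun j _ => ?_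
          have hinj : Function.Injective (Ts v s).toLinearMap := by
            rw [← LinearMap.ker_eq_bot, LinearMap.ker_eq_bot']
            intro y hy
            have hy2 : ‖Ts v s y‖ ^ 2 = 0 := by
              have : Ts v s y = 0 := hy
              rw [this]; simp
            rw [norm_Ts_sq hv] at hy2
            have h1 : ⟪v, y⟫ ^ 2 ≤ ‖y‖ ^ 2 := by
              have := abs_real_inner_le_norm v y
              rw [hv, one_mul] at this
              rw [← sq_abs]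
              exact pow_le_pow_left₀ (abs_nonneg _) this 2
            have h2 := sb_lt hs0 hs1
            have h4 : ‖y‖ ^ 2 ≤ 0 := by nlinarith [sq_nonneg ‖y‖, sq_nonneg ⟪v, y⟫]
            have := sq_nonneg ‖y‖
            exact norm_eq_zero.1 (pow_eq_zero_iff (two_ne_zero) |>.1 (le_antisymm h4 this))
          have hk : ∀ l, Module.finrank ℝ ((V.rot v s).M l) = Module.finrank ℝ (V.M l) :=
            fun l => (Submodule.equivMapOfInjective _ hinj (V.M l)).finrank_eq.symm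
          unfold Flag.k
          rw [hk, hk]
        rw [h3] at h2
        exact h2))
  rw [← hB] at hNcut
  set hh := 2 * (2 * s - s ^ 2) * V.N i v with hhd
  set g' := (gau ((V.rot v s).H i)).real K' with hg'
  have hlow : Real.exp (G - 16 * hh / p.rho ^ 2) * Pt * g' ≤ (gau (V.H i)).real B := by
    calc Real.exp (G - 16 * hh / p.rho ^ 2) * Pt * g'
        = Real.exp (-(16 * hh / p.rho ^ 2)) * ((Real.exp G * g') * Pt) := by
          rw [show G - 16 * hh / p.rho ^ 2 = -(16 * hh / p.rho ^ 2) + G by ring, Real.exp_add]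
          ring
      _ ≤ Real.exp (-(16 * hh / p.rho ^ 2)) * ((gau (V.H i)).real Q1 * Pt) :=
          mul_le_mul_of_nonneg_left (mul_le_mul_of_nonneg_right hG hPt.le) (Real.exp_nonneg _)
      _ ≤ Real.exp (-(16 * hh / p.rho ^ 2)) * (gau (V.H i)).real Q2 :=
          mul_le_mul_of_nonneg_left h1 (Real.exp_nonneg _)
      _ ≤ (gau (V.H i)).real B := hNcut
  have hpos : 0 < Real.exp (G - 16 * hh / p.rho ^ 2) * Pt * g' := by positivity
  have hBpos : 0 < (gau (V.H i)).real B := hpos.trans_le hlow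
  have hAdm : Adm p V i B := by
    refine ⟨?_, ?_, ?_, ?_, hBpos⟩
    · exact hQ2c.inter (isClosed_le (Dem853.continuous_capN th V.n V.M i) continuous_const)
    · exact cQ2.inter (Dem853.convex_N_le V i _)
    · intro x hx
      refine ⟨sQ2 x hx.1, ?_⟩
      change V.N i (-x) ≤ _
      rw [Dem853.N_neg]; exact hx.2
    · intro x hx
      exact ⟨hQ1M x hx.1.1, hx.2⟩
  have hD := Dem853.D_le hp μ hAdm
  refine hD.trans ?_
  unfold val
  -- logarithm
  have hlog : Real.log (Real.exp (G - 16 * hh / p.rho ^ 2) * Pt * g')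
      ≤ Real.log ((gau (V.H i)).real B) := Real.log_le_log hpos hlow
  rw [Real.log_mul (by positivity) hKpos.ne', Real.log_mul (Real.exp_pos _).ne' hPt.ne',
    Real.log_exp] at hlog
  -- support functions
  have hEh : Eh B μ ≤ Eh K' μ + s * t * S μ v := by
    unfold Eh S
    rw [← Multiset.sum_map_mul_left, ← Multiset.sum_map_add]
    refine Multiset.sum_map_le_sum_map _ _ fun z _ => ?_
    have hB0 : (0 : E) ∈ B := Dem853.adm_zero hAdm
    have hbd := Dem853.bddAbove_of_cap hKcap z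
    unfold hs
    have hne : ((fun x : E => ⟪x, z⟫) '' B).Nonempty := ⟨_, 0, hB0, rfl⟩
    refine csSup_le hne ?_
    rintro _ ⟨x, hx, rfl⟩
    have h2 : ⟪Ts v s x, z⟫ ≤ sSup ((fun x : E => ⟪x, z⟫) '' K') :=
      le_csSup hbd ⟨Ts v s x, hx.1.1, rfl⟩
    have h3 : ⟪x, z⟫ = ⟪Ts v s x, z⟫ + s * ⟪v, x⟫ * ⟪v, z⟫ := by
      rw [Ts_apply, inner_sub_left, real_inner_smul_left]; ring
    have h4 : |⟪v, x⟫| ≤ t := hx.1.2
    have h5 : s * ⟪v, x⟫ * ⟪v, z⟫ ≤ s * t * |⟪v, z⟫| := by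
      calc s * ⟪v, x⟫ * ⟪v, z⟫ ≤ |s * ⟪v, x⟫ * ⟪v, z⟫| := le_abs_self _
        _ = s * |⟪v, x⟫| * |⟪v, z⟫| := by rw [abs_mul, abs_mul, abs_of_pos hs0]
        _ ≤ s * t * |⟪v, z⟫| :=
            mul_le_mul_of_nonneg_right (mul_le_mul_of_nonneg_left h4 hs0.le) (abs_nonneg _)
    change ⟪x, z⟫ ≤ _
    rw [h3]
    linarith
  have h16 : 16 * hh / p.rho ^ 2 = 32 * (2 * s - s ^ 2) * V.N i v / p.rho ^ 2 := by
    rw [hhd]; ring
  rw [h16] at hlog
  have hm := mul_le_mul_of_nonneg_left hlog hlam.le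
  linarith

end rot

end Crest.Agent.R239.LevB732
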