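import Mathlib
import Crest.Agent.R239.LevB_732

/-! R239 (583's proof, T1 at V^s), helper732: `target_LEVB`. -/

set_option autoImplicit false
set_option linter.unusedSectionVars false
open MeasureTheory ProbabilityTheory Set
open scoped RealInnerProductSpace

namespace Crest.Agent.R239.LevB732

open Crest.Agent.R239 Crest.Agent.R239.FD Crest.Agent.R239.RotCov732 Crest.Agent.R239.FlagCov732
open Crest.Agent.R239.LevCov732 Crest.Agent.R239.T1B350

variable {E : Type*} [NormedAddCommGroup E] [InnerProductSpace ℝ E] [FiniteDimensional ℝ E]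
  [MeasurableSpace E] [BorelSpace E]

/-! ### numbers -/

lemma num_key {A : ℝ} (hA : 16 ≤ A) (m : ℕ) : (m : ℝ) * A * 2 ^ m ≤ 2 * A ^ m := by
  cases m with
  | zero => simp
  | succ k =>
    have h1 : ((k + 1 : ℕ) : ℝ) ≤ 8 ^ k := by
      have : k + 1 ≤ 8 ^ k := Nat.lt_pow_self (by norm_num)
      exact_mod_cast this
    have h2 : (16 : ℝ) ^ k ≤ A ^ k := pow_le_pow_left₀ (by norm_num) hA k
    have h3 : ((k + 1 : ℕ) : ℝ) * 2 ^ k ≤ A ^ k := by
      calc ((k + 1 : ℕ) : ℝ) * 2 ^ k ≤ 8 ^ k * 2 ^ k :=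
            mul_le_mul_of_nonneg_right h1 (by positivity)
        _ = (16 : ℝ) ^ k := by rw [← mul_pow]; norm_num
        _ ≤ A ^ k := h2
    have hA0 : 0 ≤ 2 * A := by linarith
    calc ((k + 1 : ℕ) : ℝ) * A * 2 ^ (k + 1) = 2 * A * (((k + 1 : ℕ) : ℝ) * 2 ^ k) := by
          rw [pow_succ]; ring
      _ ≤ 2 * A * A ^ k := mul_le_mul_of_nonneg_left h3 hA0
      _ = 2 * A ^ (k + 1) := by rw [pow_succ]; ring

lemma log_le_self' {A : ℝ} (hA : 16 ≤ A) : Real.log A ≤ A := by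
  have := Real.log_le_sub_one_of_pos (show 0 < A by linarith)
  linarith

/-- case `i > I` -/
lemma num_hi {A L : ℝ} (hA : 16 ≤ A) (hL : 0 < L) (m : ℕ) :
    L ^ 2 / (L * A ^ m) * Real.log (2 * (L * A ^ m) / L) ≤ 3 * (L * (1 / 2) ^ m) := by
  have hA0 : 0 < A := by linarith
  have hAm : 0 < A ^ m := by positivity
  have e1 : L ^ 2 / (L * A ^ m) = L / A ^ m := by field_simp
  have e2 : 2 * (L * A ^ m) / L = 2 * A ^ m := by field_simp
  rw [e1, e2, Real.log_mul (by norm_num) hAm.ne', Real.log_pow]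
  have h2 : Real.log 2 ≤ 1 := by
    have := Real.log_two_lt_d9
    linarith
  have h3 : (m : ℝ) * Real.log A ≤ m * A :=
    mul_le_mul_of_nonneg_left (log_le_self' hA) (by positivity)
  have h4 : (2 : ℝ) ^ m ≤ A ^ m := pow_le_pow_left₀ (by norm_num) (by linarith) m
  have h5 := num_key hA m
  have h6 : (1 + m * A) * 2 ^ m ≤ 3 * A ^ m := by nlinarith
  have h7 : (1 / 2 : ℝ) ^ m = 1 / 2 ^ m := by rw [div_pow, one_pow]
  rw [h7]
  have h8 : Real.log 2 + m * Real.log A ≤ 1 + m * A := by linarith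
  have h9 : (1 + (m : ℝ) * A) / A ^ m ≤ 3 * (1 / 2 ^ m) := by
    rw [mul_one_div, div_le_div_iff₀ hAm (by positivity)]
    exact h6
  calc L / A ^ m * (Real.log 2 + m * Real.log A) ≤ L / A ^ m * (1 + m * A) :=
        mul_le_mul_of_nonneg_left h8 (by positivity)
    _ = L * ((1 + m * A) / A ^ m) := by ring
    _ ≤ L * (3 * (1 / 2 ^ m)) := mul_le_mul_of_nonneg_left h9 hL.le
    _ = 3 * (L * (1 / 2 ^ m)) := by ring

/-- case `i ≤ I` -/
lemma num_lo {A l : ℝ} (hA : 16 ≤ A) (hl : 0 < l) (m : ℕ) :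
    l * (2 + Real.log (l * A ^ m / l)) ≤ 4 * (l * A ^ m * (1 / 2) ^ m) := by
  have hA0 : 0 < A := by linarith
  have hAm : 0 < A ^ m := by positivity
  have e2 : l * A ^ m / l = A ^ m := by field_simp
  rw [e2, Real.log_pow]
  have h3 : (m : ℝ) * Real.log A ≤ m * A :=
    mul_le_mul_of_nonneg_left (log_le_self' hA) (by positivity)
  have h4 : (2 : ℝ) ^ m ≤ A ^ m := pow_le_pow_left₀ (by norm_num) (by linarith) m
  have h5 := num_key hA m
  have h6 : (2 + m * A) * 2 ^ m ≤ 4 * A ^ m := by nlinarith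
  have h7 : (1 / 2 : ℝ) ^ m = 1 / 2 ^ m := by rw [div_pow, one_pow]
  rw [h7]
  have h9 : 2 + (m : ℝ) * A ≤ 4 * (A ^ m * (1 / 2 ^ m)) := by
    rw [mul_one_div, ← mul_div_assoc, le_div_iff₀ (by positivity)]
    exact h6
  calc l * (2 + m * Real.log A) ≤ l * (2 + m * A) :=
        mul_le_mul_of_nonneg_left (by linarith) hl.le
    _ ≤ l * (4 * (A ^ m * (1 / 2 ^ m))) := mul_le_mul_of_nonneg_left h9 hl.le
    _ = 4 * (l * A ^ m * (1 / 2 ^ m)) := by ring

lemma lam_split (p : Par) {I i : ℕ} (h : I ≤ i) : p.lam i = p.lam I * p.A ^ (i - I) := by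
  unfold Par.lam
  rw [mul_assoc, ← pow_add]
  congr 2
  omega

lemma BB_nonneg (V : Flag E) (v : E) (i : ℕ) : 0 ≤ FD.BB V v i := by
  unfold FD.BB
  exact Finset.sum_nonneg fun j _ => mul_nonneg (by positivity) (b_nonneg V v j)

lemma b_succ_le (V : Flag E) (v : E) (i : ℕ) : V.b v (i + 1) ≤ FD.BB V v i := by
  by_cases h : i + 1 < V.n
  · unfold FD.BB
    have h1 : (25 / 8 : ℝ) ^ (i + 1 - i) * V.b v (i + 1)
        ≤ ∑ j ∈ Finset.Ico (i + 1) V.n, (25 / 8 : ℝ) ^ (j - i) * V.b v j :=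
      Finset.single_le_sum (f := fun j => (25 / 8 : ℝ) ^ (j - i) * V.b v j)
        (fun j _ => mul_nonneg (by positivity) (b_nonneg V v j)) (Finset.mem_Ico.2 ⟨le_rfl, h⟩)
    have h2 : i + 1 - i = 1 := by omega
    rw [h2, pow_one] at h1
    have := b_nonneg V v (i + 1)
    linarith
  · rw [FlagCov732.b_n V (by omega)]
    exact BB_nonneg V v i

lemma norm_adj_H_le (V : Flag E) {i : ℕ} (hi : i < V.n) (v : E) :
    ‖(V.H i).adjoint v‖ ^ 2 ≤ V.b v i := by
  have e : (V.H i).adjoint v = V.H i v := by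
    refine ext_inner_right ℝ fun y => ?_
    rw [ContinuousLinearMap.adjoint_inner_left, H_comm]
  rw [e, norm_H_sq V hi]
  have : 0 ≤ ∑ j ∈ Finset.Ico (i + 1) V.n, wt (j - i) * ‖V.P j v‖ ^ 2 :=
    Finset.sum_nonneg fun j _ => mul_nonneg (wt_nonneg _) (sq_nonneg _)
  unfold Flag.b
  linarith

lemma S_nonneg (μ : Multiset E) (v : E) : 0 ≤ S μ v := by
  unfold S
  refine Multiset.sum_nonneg fun x hx => ?_
  obtain ⟨z, _, rfl⟩ := Multiset.mem_map.1 hx
  exact abs_nonneg _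

section rot

variable {v : E} (hv : ‖v‖ = 1) (V : Flag E)
include hv

/-- the level comparison at `s0` -/
theorem base {p : Par} (hp : p.Ok) {i : ℕ} (hi : i < V.n) (μ : Multiset E) {e : ℝ}
    (he : 16 / p.rho ^ 2 ≤ e) {Sg t sl G : ℝ} (ht : 0 < t) (hS : S μ v ≤ Sg) (hsl : 0 < sl)
    (hPt : 0 < (gau (V.H i)).real {x | |⟪v, x⟫| ≤ t})
    (hG : ∀ K', NearOpt p (V.rot v s0) i μ K' sl →
      Real.exp G * (gau ((V.rot v s0).H i)).real K' ≤ (gau (V.H i)).real (Ts v s0 ⁻¹' K')) :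
    D p V i μ ≤ D p (V.rot v s0) i μ + sl
      + (Sg * t - p.lam i * Real.log ((gau (V.H i)).real {x | |⟪v, x⟫| ≤ t}))
      + p.lam i * (e * (V.b v i + FD.BB V v i)) - p.lam i * G := by
  obtain ⟨K', hK'⟩ := Dem853.exists_near hp (V.rot v s0) i μ hsl
  have h1 := level hv s0_pos s0_lt_one V hp hi μ hK'.1 hPt (hG K' hK')
  have h2 := hK'.2
  have hlam := Dem853.lam_pos hp i
  have hrho := hp.rho_ge
  rw [two_s0_sub] at h1
  have h3 : s0 * t * S μ v ≤ Sg * t := by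
    have h4 := S_nonneg μ v
    have h5 := s0_lt_one
    have h6 := s0_pos
    calc s0 * t * S μ v ≤ 1 * t * S μ v :=
          mul_le_mul_of_nonneg_right (mul_le_mul_of_nonneg_right h5.le ht.le) h4
      _ ≤ 1 * t * Sg := mul_le_mul_of_nonneg_left hS (by positivity)
      _ = Sg * t := by ring
  have h7 : 32 * (1 / 2) * V.N i v / p.rho ^ 2 ≤ e * (V.b v i + FD.BB V v i) := by
    have h8 := N_v_le V hi v
    have h9 := N_nonneg V i v
    have h10 : 0 ≤ 16 / p.rho ^ 2 := by positivity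
    calc 32 * (1 / 2) * V.N i v / p.rho ^ 2 = 16 / p.rho ^ 2 * V.N i v := by ring
      _ ≤ e * (V.b v i + FD.BB V v i) := mul_le_mul he h8 h9 (h10.trans he)
  have h11 := mul_le_mul_of_nonneg_left h7 hlam.le
  linarith

/-- gain exponent -/
lemma gain_ge {c' : ℝ} (hc0 : 0 < c') (hc1 : c' < 1) {i : ℕ} (hi : i < V.n) :
    c' ^ 2 / 128 * V.b v i - 3 * FD.BB V v i
      ≤ (2 * s0 - s0 ^ 2) * c' ^ 2 / 32 * ‖pp V v s0 i‖ ^ 2 - XX V v s0 i := by
  have h1 := norm_pp_sq_ge hv s0_pos s0_lt_one V i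
  have h2 := XX_le hv s0_pos s0_lt_one V hi
  rw [two_s0_sub] at h1 h2 ⊢
  have h3 := b_succ_le V v i
  have h4 := BB_nonneg V v i
  have h5 : c' ^ 2 ≤ 1 := by nlinarith
  have h6 : 0 ≤ c' ^ 2 := sq_nonneg _
  have h7 : (1 : ℝ) / 2 / (1 - 1 / 2) = 1 := by norm_num
  rw [h7] at h2
  have h8 : c' ^ 2 / 64 * ((1 - 1 / 2) * V.b v i - V.b v (i + 1))
      ≤ c' ^ 2 / 64 * ‖pp V v s0 i‖ ^ 2 := mul_le_mul_of_nonneg_left h1 (by positivity)
  have h9 : c' ^ 2 / 64 * V.b v (i + 1) ≤ 1 * FD.BB V v i := by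
    have h10 := b_nonneg V v (i + 1)
    nlinarith
  nlinarith

end rot

set_option maxHeartbeats 1000000 in
/-- **LEVB** (174 / 350) -/
theorem target_LEVB : Target_LEVB := by
  intro c' dl hc0 hc1 hdl
  refine ⟨c' ^ 2 / 256, by positivity, fun nu hnu => ?_⟩
  set e := min (c' ^ 2 / 1024) (nu / 4) with he
  have he0 : 0 < e := lt_min (by positivity) (by positivity)
  have he1 : e ≤ c' ^ 2 / 1024 := min_le_left _ _
  have he2 : e ≤ nu / 4 := min_le_right _ _
  have hc2 : c' ^ 2 ≤ 1 := by nlinarith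
  have he3 : e ≤ 1 := by linarith
  refine ⟨10 + 6 / e, 16 / e, by positivity, ?_⟩
  intro d p hp hrho0 V μ v I i hv hS hi
  have hrho := hp.rho_ge
  have hA := hp.A_ge
  have hlam := Dem853.lam_pos hp i
  have hlamI := Dem853.lam_pos hp I
  have hcut : 16 / p.rho ^ 2 ≤ e := by
    rw [div_le_iff₀ (by positivity)]
    rw [div_le_iff₀ he0] at hrho0
    nlinarith
  have hb0 := b_nonneg V v i
  have hb1 := FlagCov732.b_le_one hv V i
  have hBB := BB_nonneg V v i
  have hHv := norm_adj_H_le V hi v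
  have h6e : 0 < 6 / e := by positivity
  -- remainder for `i > I`
  have hrem : I < i → ∀ sl : ℝ, 0 < sl → ∃ t, 0 < t ∧
      0 < (gau (V.H i)).real {x | |⟪v, x⟫| ≤ t} ∧
      p.lam I * t - p.lam i * Real.log ((gau (V.H i)).real {x | |⟪v, x⟫| ≤ t})
        ≤ e * p.lam i * V.b v i + 6 / e * (p.lam I * (1 / 2) ^ (i - I)) + sl := by
    intro hIi sl hsl
    have hle : p.lam I ≤ p.lam i := T1B350.lam_mono hp hIi.le
    obtain ⟨t, ht, hP, h⟩ := Rem864.gau_r3 (V.H i) v hlam hlamI.le hle he0 he3 hsl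
    refine ⟨t, ht, hP, h.trans ?_⟩
    have h1 : e * p.lam i * ‖(V.H i).adjoint v‖ ^ 2 ≤ e * p.lam i * V.b v i :=
      mul_le_mul_of_nonneg_left hHv (by positivity)
    have h2 : p.lam I ^ 2 / p.lam i * Real.log (2 * p.lam i / p.lam I)
        ≤ 3 * (p.lam I * (1 / 2) ^ (i - I)) := by
      rw [lam_split p hIi.le]
      exact num_hi hA hlamI (i - I)
    have h3 : 2 / e * (p.lam I ^ 2 / p.lam i) * Real.log (2 * p.lam i / p.lam I)
        ≤ 6 / e * (p.lam I * (1 / 2) ^ (i - I)) := by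
      have h4 := mul_le_mul_of_nonneg_left h2 (show 0 ≤ 2 / e by positivity)
      calc 2 / e * (p.lam I ^ 2 / p.lam i) * Real.log (2 * p.lam i / p.lam I)
          = 2 / e * (p.lam I ^ 2 / p.lam i * Real.log (2 * p.lam i / p.lam I)) := by ring
        _ ≤ 2 / e * (3 * (p.lam I * (1 / 2) ^ (i - I))) := h4
        _ = 6 / e * (p.lam I * (1 / 2) ^ (i - I)) := by ring
    linarith
  have hXX : XX V v s0 i ≤ 2 * FD.BB V v i := by
    have := XX_le hv s0_pos s0_lt_one V hi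
    rw [two_s0_sub] at this
    norm_num at this
    linarith
  have hG0 : ∀ sl : ℝ, ∀ K', NearOpt p (V.rot v s0) i μ K' sl →
      Real.exp (-XX V v s0 i) * (gau ((V.rot v s0).H i)).real K'
        ≤ (gau (V.H i)).real (Ts v s0 ⁻¹' K') := fun sl K' hK' =>
    meas0 hv s0_pos s0_lt_one V hi hK'.1.1 hK'.1.2.1 hK'.1.2.2.1
  have hpowI : 0 < p.lam I * (1 / 2 : ℝ) ^ (i - I) := by positivity
  refine ⟨fun hIi hthin => ?_, fun hIi => ?_, fun hiI => ?_⟩
  · -- thin
    refine le_of_forall_pos_le_add fun sl' hsl' => ?_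
    set sl := min (sl' / 2) (dl * p.lam i) with hsl
    have hsl0 : 0 < sl := lt_min (by positivity) (by positivity)
    have hsl1 : sl ≤ sl' / 2 := min_le_left _ _
    have hsl2 : sl ≤ dl * p.lam i := min_le_right _ _
    obtain ⟨t, ht, hP, hr⟩ := hrem hIi sl hsl0
    have h1 := base hv V hp hi μ hcut (G := (2 * s0 - s0 ^ 2) * c' ^ 2 / 32 * ‖pp V v s0 i‖ ^ 2
      - XX V v s0 i) ht hS hsl0 hP (fun K' hK' =>
        meas1 hv s0_pos s0_lt_one V hi hK'.1.1 hK'.1.2.1 hK'.1.2.2.1 hc0 hc1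
          (fun w hw hQ => hthin K' ⟨hK'.1, hK'.2.trans (by linarith)⟩ w hw hQ))
    have h2 := gain_ge hv V hc0 hc1 hi
    have h3 := mul_le_mul_of_nonneg_left h2 hlam.le
    have h4 : p.lam i * (e * (V.b v i + FD.BB V v i)) + e * p.lam i * V.b v i
        ≤ p.lam i * (c' ^ 2 / 512 * V.b v i + FD.BB V v i) := by
      have h5 : e * (V.b v i + FD.BB V v i) + e * V.b v i
          ≤ c' ^ 2 / 512 * V.b v i + FD.BB V v i := by
        have h51 : e * V.b v i ≤ c' ^ 2 / 1024 * V.b v i := mul_le_mul_of_nonneg_right he1 hb0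
        have h52 : e * FD.BB V v i ≤ 1 * FD.BB V v i := mul_le_mul_of_nonneg_right he3 hBB
        linarith
      have := mul_le_mul_of_nonneg_left h5 hlam.le
      linarith
    have h6 : p.lam i * (c' ^ 2 / 256 * V.b v i - (10 + 6 / e) * FD.BB V v i)
        + p.lam i * (c' ^ 2 / 512 * V.b v i + FD.BB V v i)
        ≤ p.lam i * (c' ^ 2 / 128 * V.b v i - 3 * FD.BB V v i) := by
      rw [← mul_add]
      refine mul_le_mul_of_nonneg_left ?_ hlam.le
      have h7 := mul_nonneg h6e.le hBB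
      have h8 := mul_nonneg (sq_nonneg c') hb0
      linarith
    have h10 : (10 + 6 / e) * p.lam I * (1 / 2) ^ (i - I)
        = 10 * (p.lam I * (1 / 2 : ℝ) ^ (i - I)) + 6 / e * (p.lam I * (1 / 2) ^ (i - I)) := by ring
    rw [h10]
    linarith
  · -- no gain
    refine le_of_forall_pos_le_add fun sl' hsl' => ?_
    obtain ⟨t, ht, hP, hr⟩ := hrem hIi (sl' / 2) (by positivity)
    have h1 := base hv V hp hi μ hcut ht hS (show 0 < sl' / 2 by positivity) hP (hG0 _)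
    have h3 := mul_le_mul_of_nonneg_left hXX hlam.le
    have h4 : e * (V.b v i + FD.BB V v i) + e * V.b v i + 2 * FD.BB V v i
        ≤ nu * V.b v i + (10 + 6 / e) * FD.BB V v i := by
      have h51 : e * V.b v i ≤ nu / 4 * V.b v i := mul_le_mul_of_nonneg_right he2 hb0
      have h52 : e * FD.BB V v i ≤ 1 * FD.BB V v i := mul_le_mul_of_nonneg_right he3 hBB
      have h53 := mul_nonneg h6e.le hBB
      have h54 := mul_nonneg hnu.le hb0
      linarith
    have h5 := mul_le_mul_of_nonneg_left h4 hlam.le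
    have h10 : (10 + 6 / e) * p.lam I * (1 / 2) ^ (i - I)
        = 10 * (p.lam I * (1 / 2 : ℝ) ^ (i - I)) + 6 / e * (p.lam I * (1 / 2) ^ (i - I)) := by ring
    rw [h10]
    linarith
  · -- below `I`
    refine le_of_forall_pos_le_add fun sl' hsl' => ?_
    have hle : p.lam i ≤ p.lam I := T1B350.lam_mono hp hiI
    obtain ⟨t, ht, hP, hr⟩ := Rem864.gau_r2 (V.H i) v (hHv.trans hb1) hlam hle
    have h1 := base hv V hp hi μ hcut ht hS hsl' hP (hG0 _)
    have h3 := mul_le_mul_of_nonneg_left hXX hlam.le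
    have h2 : p.lam i * (2 + Real.log (p.lam I / p.lam i))
        ≤ 4 * (p.lam I * (1 / 2) ^ (I - i)) := by
      have e1 := lam_split p hiI
      rw [e1]
      exact num_lo hA hlam (I - i)
    have h7 : p.lam i ≤ p.lam I * (1 / 2) ^ (I - i) := by
      rw [lam_split p hiI, mul_assoc, ← mul_pow]
      have h8 : (1 : ℝ) ≤ (p.A * (1 / 2)) ^ (I - i) := one_le_pow₀ (by linarith)
      nlinarith
    have h4 : e * (V.b v i + FD.BB V v i) + 2 * FD.BB V v i
        ≤ 1 + (10 + 6 / e) * FD.BB V v i := by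
      have h51 : e * V.b v i ≤ 1 := by nlinarith
      have h52 : e * FD.BB V v i ≤ 1 * FD.BB V v i := mul_le_mul_of_nonneg_right he3 hBB
      have h53 := mul_nonneg h6e.le hBB
      linarith
    have h5 := mul_le_mul_of_nonneg_left h4 hlam.le
    have hpow : 0 < p.lam I * (1 / 2 : ℝ) ^ (I - i) := by positivity
    have h9 : 5 * (p.lam I * (1 / 2 : ℝ) ^ (I - i)) ≤ (10 + 6 / e) * (p.lam I * (1 / 2) ^ (I - i)) :=
      mul_le_mul_of_nonneg_right (by linarith) hpow.le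
    have h10 : (10 + 6 / e) * p.lam I * (1 / 2) ^ (I - i)
        = (10 + 6 / e) * (p.lam I * (1 / 2 : ℝ) ^ (I - i)) := by ring
    rw [h10]
    linarith

/-- **T1** -/
theorem target_T1_of (hDOT : Target_DOT) : Target_T1 := T1B350.target_T1B hDOT target_LEVB

end Crest.Agent.R239.LevB732
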