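import Mathlib
import Crest.Agent.R239.LevA_825

/-!
# R239: `Target_LEV` in covariance form, part B (the gauge under the rotation)
-/

set_option autoImplicit false

open MeasureTheory ProbabilityTheory Set
open scoped ENNReal NNReal RealInnerProductSpace

namespace Crest.Agent.R239.LevB825

open Crest.Agent.R239 Crest.Agent.R239.FD Crest.Agent.R239.Cov446 Crest.Agent.R239.LevA825

variable {E : Type*} [NormedAddCommGroup E] [InnerProductSpace ℝ E] [FiniteDimensional ℝ E]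
  [MeasurableSpace E] [BorelSpace E]
variable (V : Flag E)

/-- square root of the gauge -/
noncomputable def Gg (i : ℕ) : E →L[ℝ] E := Hm (Real.sqrt th)⁻¹ V.M V.n i

lemma sq_rt (m : ℕ) : ((Real.sqrt th)⁻¹ ^ m) ^ 2 = th⁻¹ ^ m := by
  rw [← pow_mul, mul_comm, pow_mul, inv_pow, Real.sq_sqrt th_pos.le]

lemma norm_Gg_sq (i : ℕ) (x : E) : ‖Gg V i x‖ ^ 2 = V.N i x := by
  unfold Gg Flag.N
  rw [normsq_Hm _ V.anti]
  refine Finset.sum_congr rfl fun j _ => ?_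
  rw [sq_rt]
  rfl

lemma N_nonneg (i : ℕ) (x : E) : 0 ≤ V.N i x := by
  rw [← norm_Gg_sq]; positivity

lemma sg_rt {m : ℕ} (hm : 1 ≤ m) : sg (Real.sqrt th)⁻¹ m = - omN m := by
  unfold sg omN
  rw [sq_rt, sq_rt]
  obtain ⟨k, rfl⟩ := Nat.exists_eq_add_of_le hm
  rw [show 1 + k - 1 = k by omega, pow_add, thinv]
  unfold th
  ring

lemma N_abel {i : ℕ} (hi : i < V.n) (x : E) :
    V.N i x = ‖V.P i x‖ ^ 2 + ∑ j ∈ Finset.Ico (i + 1) V.n, omN (j - i) * ‖V.P j x‖ ^ 2 := by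
  have h := abel' (Real.sqrt th)⁻¹ (fun j => ‖(V.M j).starProjection x‖ ^ 2) hi
    (by
      have : V.P V.n x = 0 := P_zero V le_rfl x
      unfold Flag.P at this
      simp [this])
  have h1 : ∑ j ∈ Finset.Ico (i + 1) V.n, sg (Real.sqrt th)⁻¹ (j - i) * ‖(V.M j).starProjection x‖ ^ 2
      = - ∑ j ∈ Finset.Ico (i + 1) V.n, omN (j - i) * ‖V.P j x‖ ^ 2 := by
    rw [← Finset.sum_neg_distrib]
    refine Finset.sum_congr rfl fun j hj => ?_
    rw [Finset.mem_Ico] at hj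
    rw [sg_rt (by omega)]
    unfold Flag.P
    ring
  have h2 : ∑ j ∈ Finset.Ico i V.n, ((Real.sqrt th)⁻¹ ^ (j - i)) ^ 2 *
      (‖(V.M j).starProjection x‖ ^ 2 - ‖(V.M (j + 1)).starProjection x‖ ^ 2) = V.N i x := by
    unfold Flag.N
    refine Finset.sum_congr rfl fun j _ => ?_
    rw [sq_rt, ← normsq_Qm V.anti]
    rfl
  rw [h2, h1] at h
  unfold Flag.P at *
  linarith

/-- the projections are dominated by the gauge -/
lemma proj_sq_le {i j : ℕ} (hij : i ≤ j) (x : E) :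
    ‖V.P j x‖ ^ 2 ≤ th ^ (j - i) * V.N i x := by
  by_cases hj : j ≤ V.n
  · have h1 : ‖V.P j x‖ ^ 2 = ∑ l ∈ Finset.Ico j V.n, ‖V.Q l x‖ ^ 2 := by
      have : ∀ l, ‖V.Q l x‖ ^ 2 = ‖V.P l x‖ ^ 2 - ‖V.P (l + 1) x‖ ^ 2 := fun l =>
        normsq_Qm V.anti l x
      simp_rw [this]
      have h2 := Finset.sum_Ico_eq_sum_range (fun l => ‖V.P l x‖ ^ 2 - ‖V.P (l + 1) x‖ ^ 2) j V.n
      rw [h2]
      have h3 := Finset.sum_range_sub' (fun l => ‖V.P (j + l) x‖ ^ 2) (V.n - j)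
      simp only [add_zero] at h3
      have h4 : ∀ l, j + (l + 1) = j + l + 1 := fun l => by ring
      simp_rw [h4] at h3
      rw [h3, show j + (V.n - j) = V.n by omega]
      have : V.P V.n x = 0 := P_zero V le_rfl x
      rw [this]; simp
    rw [h1]
    unfold Flag.N
    rw [Finset.mul_sum]
    calc ∑ l ∈ Finset.Ico j V.n, ‖V.Q l x‖ ^ 2
        ≤ ∑ l ∈ Finset.Ico j V.n, th ^ (j - i) * (th⁻¹ ^ (l - i) * ‖V.Q l x‖ ^ 2) := by
          refine Finset.sum_le_sum fun l hl => ?_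
          rw [Finset.mem_Ico] at hl
          have e : 1 ≤ th ^ (j - i) * th⁻¹ ^ (l - i) := by
            rw [show l - i = (j - i) + (l - j) by omega, pow_add, ← mul_assoc, ← mul_pow,
              mul_inv_cancel₀ th_pos.ne', one_pow, one_mul, thinv]
            exact one_le_pow₀ (by norm_num)
          calc ‖V.Q l x‖ ^ 2 = 1 * ‖V.Q l x‖ ^ 2 := (one_mul _).symm
            _ ≤ (th ^ (j - i) * th⁻¹ ^ (l - i)) * ‖V.Q l x‖ ^ 2 :=
                mul_le_mul_of_nonneg_right e (sq_nonneg _)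
            _ = _ := by ring
      _ ≤ _ := by
          apply Finset.sum_le_sum_of_subset_of_nonneg (Finset.Ico_subset_Ico_left hij)
          intro l _ _
          have := th_pos
          positivity
  · have : V.P j x = 0 := P_zero V (by omega) x
    rw [this]
    have := N_nonneg V i x
    have := th_pos
    simp
    positivity

variable {V} {v : E} {s : ℝ}

lemma inner_P_sq_le {i j : ℕ} (hij : i ≤ j) (x : E) :
    ⟪V.P j v, x⟫ ^ 2 ≤ V.b v j * (th ^ (j - i) * V.N i x) := by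
  have h1 : ⟪V.P j v, x⟫ = ⟪V.P j v, V.P j x⟫ := by
    unfold Flag.P
    rw [← inner_proj_left]
    rw [Submodule.starProjection_eq_self_iff.2 ((V.M j).starProjection_apply_mem v)]
  rw [h1]
  have h2 := abs_real_inner_le_norm (V.P j v) (V.P j x)
  calc ⟪V.P j v, V.P j x⟫ ^ 2 = |⟪V.P j v, V.P j x⟫| ^ 2 := (sq_abs _).symm
    _ ≤ (‖V.P j v‖ * ‖V.P j x‖) ^ 2 := pow_le_pow_left₀ (abs_nonneg _) h2 2
    _ = V.b v j * ‖V.P j x‖ ^ 2 := by unfold Flag.b; ring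
    _ ≤ _ := mul_le_mul_of_nonneg_left (proj_sq_le V hij x) (b_nonneg V v j)

lemma rot_P_ge (h0 : 0 < s) (h1 : s < 1) (hv : ‖v‖ = 1) (j : ℕ) (x : E) :
    ‖V.P j x‖ ^ 2 - (2 * s - s ^ 2) * (2 * (⟪v, x⟫ * ⟪V.P j v, x⟫))
      ≤ ‖(V.rot v s).P j (Ts v s x)‖ ^ 2 := by
  have h := normsq_proj_TM s hv (V.M j) (Bn_ne h0 h1 hv _).ne' (Ts v s x)
  have e1 : ‖(V.rot v s).P j (Ts v s x)‖ ^ 2 = ‖(TM s v (V.M j)).starProjection (Ts v s x)‖ ^ 2 := rfl
  rw [e1, h]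
  have e2 : T s v (Ts v s x) = x - ((2 * s - s ^ 2) * ⟪v, x⟫) • v := TT s hv x
  rw [e2, map_sub, map_smul]
  have e3 : ‖(V.M j).starProjection x - ((2 * s - s ^ 2) * ⟪v, x⟫) • (V.M j).starProjection v‖ ^ 2
      = ‖V.P j x‖ ^ 2 - 2 * (((2 * s - s ^ 2) * ⟪v, x⟫) * ⟪V.P j v, x⟫)
        + ((2 * s - s ^ 2) * ⟪v, x⟫) ^ 2 * ‖(V.M j).starProjection v‖ ^ 2 := by
    rw [norm_sub_sq_real, real_inner_smul_right, norm_smul, mul_pow, Real.norm_eq_abs, sq_abs]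
    have : ⟪(V.M j).starProjection x, (V.M j).starProjection v⟫ = ⟪V.P j v, x⟫ := by
      rw [inner_proj_left, Submodule.starProjection_eq_self_iff.2 ((V.M j).starProjection_apply_mem v),
        real_inner_comm]
      rfl
    rw [this]
    rfl
  rw [e3]
  have h5 := mul_nonneg (kp_nonneg h0 h1 hv (V.M j))
    (sq_nonneg ⟪T s v ((V.M j).starProjection v), Ts v s x⟫)
  have h6 := mul_nonneg (sq_nonneg ((2 * s - s ^ 2) * ⟪v, x⟫)) (sq_nonneg ‖(V.M j).starProjection v‖)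
  linarith

lemma omN_nonneg (m : ℕ) : 0 ≤ omN m := by
  unfold omN; rw [thinv]; unfold th; positivity

/-- **the gauge under the rotation** -/
theorem gauge_le (h0 : 0 < s) (h1 : s < 1) (hv : ‖v‖ = 1) {i : ℕ} (hi : i < V.n) {x : E}
    (hx : x ∈ V.M i) :
    V.N i x ≤ (V.rot v s).N i (Ts v s x)
      + (2 * s - s ^ 2) * (3 * V.b v i + BB V v i) * V.N i x := by
  have hsb := sb_pos h0 h1
  have hN := N_nonneg V i x
  have hb := b_nonneg V v i
  have hBB := BB_nonneg V v i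
  have hxi : ⟪V.P i v, x⟫ = ⟪v, x⟫ := inner_proj_mem _ _ hx
  have k0 : ⟪v, x⟫ ^ 2 ≤ V.b v i * V.N i x := by
    have := inner_P_sq_le (V := V) (v := v) (le_refl i) x
    rwa [hxi, Nat.sub_self, pow_zero, one_mul] at this
  have a1 := N_abel V hi x
  have a2 := N_abel (V.rot v s) (i := i) hi (Ts v s x)
  have b0 := rot_P_ge (V := V) h0 h1 hv i x
  rw [hxi] at b0
  have key : ∀ j ∈ Finset.Ico (i + 1) V.n, omN (j - i) * ‖V.P j x‖ ^ 2
      ≤ omN (j - i) * ‖(V.rot v s).P j (Ts v s x)‖ ^ 2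
        + (2 * s - s ^ 2) * V.N i x * (1 / 5 * ((1 / 2) ^ (j - i) * V.b v i
          + (25 / 8) ^ (j - i) * V.b v j)) := by
    intro j hj
    rw [Finset.mem_Ico] at hj
    have b1 := rot_P_ge (V := V) h0 h1 hv j x
    have b2 := inner_P_sq_le (V := V) (v := v) (by omega : i ≤ j) x
    set m := j - i with hm
    set ξ := (⟪v, x⟫ : ℝ)
    set ζ := (⟪V.P j v, x⟫ : ℝ)
    have hbj := b_nonneg V v j
    have e0 : (0:ℝ) < (2 / 5) ^ m := by positivity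
    have am : 2 * (ξ * ζ) ≤ (2 / 5) ^ m * ξ ^ 2 + (5 / 2) ^ m * ζ ^ 2 := by
      have hh : (2 / 5 : ℝ) ^ m * (5 / 2) ^ m = 1 := by rw [← mul_pow]; norm_num
      have h7 : 0 ≤ (2 / 5 : ℝ) ^ m * (ξ - (5 / 2) ^ m * ζ) ^ 2 := by positivity
      have h8 : (2 / 5 : ℝ) ^ m * (ξ - (5 / 2) ^ m * ζ) ^ 2
          = (2 / 5) ^ m * ξ ^ 2 - 2 * ((2 / 5 : ℝ) ^ m * (5 / 2) ^ m) * (ξ * ζ)
            + ((2 / 5 : ℝ) ^ m * (5 / 2) ^ m) * (5 / 2) ^ m * ζ ^ 2 := by ring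
      rw [hh] at h8
      linarith
    have om1 : omN m = 1 / 5 * (5 / 4) ^ m := by
      unfold omN; rw [thinv]; unfold th; ring
    have c1 : omN m * (2 * (ξ * ζ)) ≤ V.N i x * (1 / 5 * ((1 / 2) ^ m * V.b v i
          + (25 / 8) ^ m * V.b v j)) := by
      have c2 : (2 / 5 : ℝ) ^ m * ξ ^ 2 + (5 / 2) ^ m * ζ ^ 2
          ≤ (2 / 5) ^ m * (V.b v i * V.N i x) + (5 / 2) ^ m * (V.b v j * (th ^ m * V.N i x)) := by
        gcongr
      have c3 : omN m * (2 * (ξ * ζ)) ≤ omN m * ((2 / 5) ^ m * (V.b v i * V.N i x)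
          + (5 / 2) ^ m * (V.b v j * (th ^ m * V.N i x))) :=
        mul_le_mul_of_nonneg_left (am.trans c2) (omN_nonneg m)
      refine c3.trans ?_
      rw [om1]
      have d1 : (5 / 4 : ℝ) ^ m * (2 / 5) ^ m = (1 / 2) ^ m := by rw [← mul_pow]; norm_num
      have d2 : (5 / 4 : ℝ) ^ m * ((5 / 2) ^ m * th ^ m) = (5 / 2) ^ m := by
        unfold th
        rw [mul_comm ((5 / 2 : ℝ) ^ m), ← mul_assoc, ← mul_pow]; norm_num
      have d3 : (5 / 2 : ℝ) ^ m ≤ (25 / 8) ^ m := pow_le_pow_left₀ (by norm_num) (by norm_num) _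
      have d4 : 1 / 5 * (5 / 4) ^ m * ((2 / 5) ^ m * (V.b v i * V.N i x)
          + (5 / 2) ^ m * (V.b v j * (th ^ m * V.N i x)))
          = V.N i x * (1 / 5 * (((5 / 4 : ℝ) ^ m * (2 / 5) ^ m) * V.b v i
            + ((5 / 4 : ℝ) ^ m * ((5 / 2) ^ m * th ^ m)) * V.b v j)) := by ring
      rw [d4, d1, d2]
      gcongr
    have c4 := mul_le_mul_of_nonneg_left b1 (omN_nonneg m)
    have c5 := mul_le_mul_of_nonneg_left c1 hsb.le
    nlinarith [c4, c5]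
  have hs := Finset.sum_le_sum key
  rw [Finset.sum_add_distrib, ← Finset.mul_sum, ← Finset.mul_sum, Finset.sum_add_distrib,
    ← Finset.sum_mul] at hs
  have hBBeq : ∑ j ∈ Finset.Ico (i + 1) V.n, (25 / 8 : ℝ) ^ (j - i) * V.b v j = BB V v i := rfl
  rw [hBBeq] at hs
  have hh := sum_half_le i V.n
  have hh2 : (∑ j ∈ Finset.Ico (i + 1) V.n, (1 / 2 : ℝ) ^ (j - i)) * V.b v i ≤ V.b v i := by
    nlinarith
  have hn : (V.rot v s).n = V.n := rfl
  rw [hn] at a2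
  have f1 : (2 * s - s ^ 2) * V.N i x * (1 / 5 *
      ((∑ j ∈ Finset.Ico (i + 1) V.n, (1 / 2 : ℝ) ^ (j - i)) * V.b v i + BB V v i))
      ≤ (2 * s - s ^ 2) * V.N i x * (1 / 5 * (V.b v i + BB V v i)) := by
    gcongr
  have f2 : (2 * s - s ^ 2) * (2 * (⟪v, x⟫ * ⟪v, x⟫)) ≤ (2 * s - s ^ 2) * (2 * (V.b v i * V.N i x)) := by
    rw [← sq]
    gcongr
  have f3 : 0 ≤ (2 * s - s ^ 2) * V.N i x * (V.b v i + BB V v i) := by positivity
  rw [a1] at *
  nlinarith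

end Crest.Agent.R239.LevB825
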