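import Mathlib
import Crest.Agent.R239.LevB_825
import Crest.Agent.R239.DomP_640
import Crest.Agent.R239.Gr2_655
import Crest.Agent.R239.Mom_764
import Crest.Agent.R239.F6b_696
import Crest.Agent.R239.AdmHalf_606
import Crest.Agent.R239.RemLev_864

/-!
# R239: `Target_LEV` in covariance form, part C (cuts and the core of one level)
-/

set_option autoImplicit false

open MeasureTheory ProbabilityTheory Set
open scoped ENNReal NNReal RealInnerProductSpace

namespace Crest.Agent.R239.LevC825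

open Crest.Agent.R239 Crest.Agent.R239.FD Crest.Agent.R239.Cov446 Crest.Agent.R239.LevA825
  Crest.Agent.R239.LevB825 Crest.Agent.R239.Gain161

variable {E : Type*} [NormedAddCommGroup E] [InnerProductSpace ℝ E] [FiniteDimensional ℝ E]
  [MeasurableSpace E] [BorelSpace E]
variable (V : Flag E)

lemma norm_H_Gg_sq (i : ℕ) (x : E) :
    ‖V.H i (Gg V i x)‖ ^ 2 = ∑ j ∈ Finset.Ico i V.n, th ^ (j - i) * ‖V.Q j x‖ ^ 2 := by
  rw [H_eq, normsq_Hm _ V.anti]
  refine Finset.sum_congr rfl fun j hj => ?_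
  unfold Gg
  rw [Qm_Hm _ V.anti hj, norm_smul, mul_pow, Real.norm_eq_abs, sq_abs, sq_rt, ← mul_assoc]
  congr 1
  rw [sq, mul_assoc, ← mul_pow, mul_inv_cancel₀ th_pos.ne', one_pow, mul_one]

lemma k_cast (j : ℕ) : (V.k j : ℝ)
    = (Module.finrank ℝ (V.M j) : ℝ) - Module.finrank ℝ (V.M (j + 1)) := by
  unfold Flag.k
  rw [Nat.cast_sub (Submodule.finrank_mono (V.anti (Nat.le_succ j)))]

/-- trace bound -/
lemma trace_le (i : ℕ) {A : E →L[ℝ] E} (hA : ∀ t, ‖A.adjoint t‖ ^ 2 ≤ 2 * ‖V.H i t‖ ^ 2) :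
    ∫ g, ‖Gg V i (A g)‖ ^ 2 ∂(stdGaussian E) ≤ 2 * V.rr i := by
  set b := stdOrthonormalBasis ℝ E
  have e0 : ∫ g, ‖Gg V i (A g)‖ ^ 2 ∂(stdGaussian E)
      = ∫ g, ‖(Gg V i ∘L A) g‖ ^ 2 ∂(stdGaussian E) := rfl
  rw [e0, Mom764.integral_norm_sq b]
  have e1 : ∀ k, ‖(Gg V i ∘L A).adjoint (b k)‖ ^ 2
      ≤ 2 * ∑ j ∈ Finset.Ico i V.n, th ^ (j - i) * ‖V.Q j (b k)‖ ^ 2 := by
    intro k
    rw [ContinuousLinearMap.adjoint_comp, ContinuousLinearMap.comp_apply]
    have : (Gg V i).adjoint (b k) = Gg V i (b k) :=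
      adjoint_eq_of_symm (Hm_symm _ _ _ _) _
    rw [this, ← norm_H_Gg_sq]
    exact hA _
  refine (Finset.sum_le_sum fun k _ => e1 k).trans (le_of_eq ?_)
  rw [← Finset.mul_sum, Finset.sum_comm]
  congr 1
  unfold Flag.rr
  refine Finset.sum_congr rfl fun j _ => ?_
  rw [← Finset.mul_sum, k_cast]
  congr 1
  exact Mom764.sum_norm_Q_basis V.anti b j

lemma starProjection_congr {S₁ S₂ : Submodule ℝ E} (h : S₁ = S₂) :
    S₁.starProjection = S₂.starProjection := by subst h; rfl

lemma rr_nonneg (i : ℕ) : 0 ≤ V.rr i :=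
  Finset.sum_nonneg fun j _ => mul_nonneg (pow_nonneg th_pos.le _) (Nat.cast_nonneg _)

lemma N_eq_zero_of_rr {i : ℕ} (h : V.rr i = 0) (x : E) : V.N i x = 0 := by
  unfold Flag.rr at h
  rw [Finset.sum_eq_zero_iff_of_nonneg
    (fun j _ => mul_nonneg (pow_nonneg th_pos.le _) (Nat.cast_nonneg _))] at h
  unfold Flag.N
  refine Finset.sum_eq_zero fun j hj => ?_
  have h1 : (V.k j : ℝ) = 0 := by
    rcases mul_eq_zero.1 (h j hj) with h2 | h2
    · exact absurd h2 (pow_pos th_pos _).ne'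
    · exact h2
  have h2 : V.k j = 0 := by exact_mod_cast h1
  have h3 : Module.finrank ℝ (V.M j) ≤ Module.finrank ℝ (V.M (j + 1)) := by
    unfold Flag.k at h2; omega
  have h4 := Submodule.eq_of_le_of_finrank_le (V.anti (Nat.le_succ j)) h3
  have h5 : V.Q j x = 0 := by
    unfold Flag.Q Flag.P
    rw [starProjection_congr h4.symm]
    simp
  rw [h5]; simp

/-- **the cap cut** -/
theorem cap_cut {p : Par} (hp : p.Ok) (i : ℕ) {A : E →L[ℝ] E}
    (hA : ∀ t, ‖A.adjoint t‖ ^ 2 ≤ 2 * ‖V.H i t‖ ^ 2) {B0 : Set E} (hc : IsClosed B0)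
    (hv : Convex ℝ B0) (hsym : ∀ x ∈ B0, -x ∈ B0) (hM : B0 ⊆ V.M i) {h : ℝ} (hh : 0 ≤ h)
    (hN : ∀ x ∈ B0, V.N i x ≤ p.rho ^ 2 * V.rr i + h * V.N i x) :
    ∃ y, 0 ≤ y ∧ y ≤ 1 / 16 ∧ y ≤ 32 * h / p.rho ^ 2 ∧
      (1 - y) * (gau A).real B0 ≤ (gau A).real (B0 ∩ V.cap p.rho i) := by
  have hrho := hp.rho_ge
  have hrho2 : 256 ≤ p.rho ^ 2 := by nlinarith
  have hrr := rr_nonneg V i
  rcases hrr.eq_or_lt with h0 | hpos
  · refine ⟨0, le_rfl, by norm_num, by positivity, ?_⟩
    rw [sub_zero, one_mul]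
    apply measureReal_mono _ (measure_ne_top _ _)
    intro x hx
    refine ⟨hx, hM hx, ?_⟩
    rw [N_eq_zero_of_rr V h0.symm]
    positivity
  · set R := p.rho * Real.sqrt (V.rr i) with hR
    have hsq : Real.sqrt (V.rr i) ^ 2 = V.rr i := Real.sq_sqrt hrr
    have hR0 : 0 < R := mul_pos (by linarith) (Real.sqrt_pos.2 hpos)
    have hR2 : R ^ 2 = p.rho ^ 2 * V.rr i := by rw [hR, mul_pow, hsq]
    have hset : ∀ x ∈ B0, (x ∈ V.cap p.rho i ↔ ‖Gg V i x‖ ≤ R) := by
      intro x hx
      unfold Flag.cap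
      rw [Set.mem_setOf_eq, ← norm_Gg_sq, ← hR2]
      constructor
      · rintro ⟨_, h2⟩
        exact le_of_sq_le_sq h2 hR0.le
      · intro h2
        exact ⟨hM hx, pow_le_pow_left₀ (norm_nonneg _) h2 2⟩
    have hset2 : B0 ∩ V.cap p.rho i = B0 ∩ {x | ‖Gg V i x‖ ≤ R} := by
      ext x
      constructor
      · rintro ⟨h1, h2⟩; exact ⟨h1, (hset x h1).1 h2⟩
      · rintro ⟨h1, h2⟩; exact ⟨h1, (hset x h1).2 h2⟩
    have htr := trace_le V i hA
    have htr' : ∫ x, ‖Gg V i x‖ ^ 2 ∂(gau A) ≤ 2 * V.rr i := by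
      rwa [Mom764.integral_gau A (f := fun x => ‖Gg V i x‖ ^ 2) (by fun_prop)]
    have hg0 : 0 ≤ (gau A).real B0 := measureReal_nonneg
    have ratio : (∫ x, ‖Gg V i x‖ ^ 2 ∂(gau A)) / R ^ 2 ≤ 2 / p.rho ^ 2 := by
      rw [hR2, div_le_div_iff₀ (by positivity) (by positivity)]
      nlinarith
    by_cases hbig : 1 / 16 ≤ h
    · refine ⟨2 / p.rho ^ 2, by positivity, ?_, ?_, ?_⟩
      · rw [div_le_iff₀ (by positivity)]; linarith
      · apply div_le_div_of_nonneg_right _ (by positivity)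
        linarith
      · rw [hset2]
        refine le_trans ?_ (Dom640.gau_cut A hc.measurableSet hv hsym (Gg V i) hR0)
        apply mul_le_mul_of_nonneg_right _ hg0
        linarith
    · push_neg at hbig
      refine ⟨32 * h / p.rho ^ 2, by positivity, ?_, le_rfl, ?_⟩
      · rw [div_le_iff₀ (by positivity)]; nlinarith
      · set W := A ⁻¹' B0 with hW
        have mW : IsClosed W := hc.preimage A.continuous
        have cW : Convex ℝ W := hv.affine_preimage A.toLinearMap.toAffineMap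
        have hNW : ∀ x ∈ W, ‖Gg V i (A x)‖ ≤ R + h * R := by
          intro x hx
          have h1 := hN (A x) hx
          rw [← norm_Gg_sq, ← hR2] at h1
          set a := ‖Gg V i (A x)‖
          have ha : 0 ≤ a := norm_nonneg _
          apply le_of_sq_le_sq _ (by positivity)
          have h2 : a ^ 2 * (1 - h) ≤ R ^ 2 := by linarith
          have h3 : R ^ 2 ≤ (R + h * R) ^ 2 * (1 - h) := by
            have : (R + h * R) ^ 2 * (1 - h) = R ^ 2 * ((1 + h) ^ 2 * (1 - h)) := by ring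
            rw [this]
            have h4 : 1 ≤ (1 + h) ^ 2 * (1 - h) := by nlinarith [sq_nonneg h]
            nlinarith [sq_nonneg R]
          have h5 : a ^ 2 * (1 - h) ≤ (R + h * R) ^ 2 * (1 - h) := h2.trans h3
          exact le_of_mul_le_mul_right h5 (by linarith)
        have hhalf := Dom640.gau_cut A hc.measurableSet hv hsym (Gg V i) (half_pos hR0)
        have ratio2 : (∫ x, ‖Gg V i x‖ ^ 2 ∂(gau A)) / (R / 2) ^ 2 ≤ 8 / p.rho ^ 2 := by
          have : (∫ x, ‖Gg V i x‖ ^ 2 ∂(gau A)) / (R / 2) ^ 2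
            = 4 * ((∫ x, ‖Gg V i x‖ ^ 2 ∂(gau A)) / R ^ 2) := by
            field_simp; ring
          rw [this]
          calc 4 * ((∫ x, ‖Gg V i x‖ ^ 2 ∂(gau A)) / R ^ 2) ≤ 4 * (2 / p.rho ^ 2) := by linarith
            _ = _ := by ring
        have m1 : MeasurableSet {x : E | ‖Gg V i x‖ ≤ R / 2} :=
          (isClosed_le (by fun_prop) continuous_const).measurableSet
        have m2 : MeasurableSet {x : E | ‖Gg V i x‖ ≤ R} :=
          (isClosed_le (by fun_prop) continuous_const).measurableSet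
        have g1 : (gau A).real B0 = (stdGaussian E).real W := gau_real_apply A hc.measurableSet
        have g2 : (gau A).real (B0 ∩ {x | ‖Gg V i x‖ ≤ R / 2})
            = (stdGaussian E).real (W ∩ {x | ‖Gg V i (A x)‖ ≤ R / 2}) :=
          gau_real_apply A (hc.measurableSet.inter m1)
        have g3 : (gau A).real (B0 ∩ {x | ‖Gg V i x‖ ≤ R})
            = (stdGaussian E).real (W ∩ {x | ‖Gg V i (A x)‖ ≤ R}) :=
          gau_real_apply A (hc.measurableSet.inter m2)
        have split : ∀ r : ℝ, (stdGaussian E).real W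
            = (stdGaussian E).real (W ∩ {x | ‖Gg V i (A x)‖ ≤ r})
              + (stdGaussian E).real (W ∩ {x | r < ‖Gg V i (A x)‖}) := by
          intro r
          rw [← measureReal_union]
          · congr 1
            ext x
            simp only [mem_union, mem_inter_iff, mem_setOf_eq]
            constructor
            · intro hx
              rcases le_or_gt ‖Gg V i (A x)‖ r with h | h
              · exact Or.inl ⟨hx, h⟩
              · exact Or.inr ⟨hx, h⟩
            · rintro (h | h) <;> exact h.1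
          · rw [Set.disjoint_left]
            rintro x ⟨_, h1⟩ ⟨_, h2⟩
            rw [Set.mem_setOf_eq] at h1 h2
            exact absurd h1 (not_le.2 h2)
          · exact mW.measurableSet.inter (isOpen_lt continuous_const (by fun_prop)).measurableSet
        have he : (stdGaussian E).real (W ∩ {x | R / 2 < ‖Gg V i (A x)‖})
            ≤ 8 / p.rho ^ 2 * (stdGaussian E).real W := by
          have s1 := split (R / 2)
          rw [g1, g2] at hhalf
          have : (1 - (∫ x, ‖Gg V i x‖ ^ 2 ∂(gau A)) / (R / 2) ^ 2) * (stdGaussian E).real W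
              ≥ (1 - 8 / p.rho ^ 2) * (stdGaussian E).real W := by
            apply mul_le_mul_of_nonneg_right _ measureReal_nonneg
            linarith
          nlinarith
        have ct := Gr655.cap_tail cW mW (N := fun x => ‖Gg V i (A x)‖)
          ((convexOn_norm (convex_univ)).comp_linearMap (Gg V i ∘L A).toLinearMap)
          (by fun_prop) hR0 (δ := h * R) (by positivity) hNW (e := 8 / p.rho ^ 2) (by positivity)
          (by rw [div_le_iff₀ (by positivity)]; linarith) he
        rw [hset2, g1, g3]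
        have s2 := split R
        have e3 : 4 * (h * R) * (8 / p.rho ^ 2) / R = 32 * h / p.rho ^ 2 := by
          field_simp; ring
        rw [e3] at ct
        linarith

end Crest.Agent.R239.LevC825
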