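import Mathlib
import Crest.Agent.R239.LC419
import Crest.Agent.R239.Tilt_371
import Crest.Agent.R239.Cmp_142

/-! R239 (S0370), helper422: F6a, the one-level core inequality `lev_core`
(Prekopa with quadratic deficit, rank one tilt, covariance comparison). -/

set_option autoImplicit false
set_option linter.unusedSectionVars false
open MeasureTheory ProbabilityTheory Set
open scoped RealInnerProductSpace ENNReal NNReal

namespace Crest.Agent.R239.Lev422

open Crest.Agent.Lib.PrekopaLeindler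
open Crest.Agent.R285 (gdens gdens_pos continuous_gdens stdGaussian_eq_withDensity)

variable {E : Type*} [NormedAddCommGroup E] [InnerProductSpace ℝ E] [FiniteDimensional ℝ E]
  [MeasurableSpace E] [BorelSpace E]

lemma gdens_mid (x y : E) :
    gdens x ^ (1 / 2 : ℝ) * gdens y ^ (1 / 2 : ℝ) * Real.exp (‖x - y‖ ^ 2 / 8)
      = gdens ((1 / 2 : ℝ) • x + (1 / 2 : ℝ) • y) := by
  unfold gdens
  set c : ℝ := (2 * Real.pi) ^ (-(Module.finrank ℝ E : ℝ) / 2) with hc
  have hc0 : 0 < c := by rw [hc]; positivity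
  rw [Real.mul_rpow hc0.le (Real.exp_pos _).le, Real.mul_rpow hc0.le (Real.exp_pos _).le,
    ← Real.exp_mul, ← Real.exp_mul]
  have h1 : c ^ (1 / 2 : ℝ) * c ^ (1 / 2 : ℝ) = c := by
    rw [← Real.rpow_add hc0]; norm_num
  have h2 : ‖(1 / 2 : ℝ) • x + (1 / 2 : ℝ) • y‖ ^ 2 = (‖x‖ ^ 2 + ‖y‖ ^ 2) / 2 - ‖x - y‖ ^ 2 / 4 := by
    rw [← smul_add, norm_smul, mul_pow, @norm_add_sq_real, @norm_sub_sq_real]
    norm_num
    ring
  calc c ^ (1 / 2 : ℝ) * Real.exp (-‖x‖ ^ 2 / 2 * (1 / 2)) *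
        (c ^ (1 / 2 : ℝ) * Real.exp (-‖y‖ ^ 2 / 2 * (1 / 2))) * Real.exp (‖x - y‖ ^ 2 / 8)
      = (c ^ (1 / 2 : ℝ) * c ^ (1 / 2 : ℝ)) * (Real.exp (-‖x‖ ^ 2 / 2 * (1 / 2)) *
        Real.exp (-‖y‖ ^ 2 / 2 * (1 / 2)) * Real.exp (‖x - y‖ ^ 2 / 8)) := by ring
    _ = _ := by
      rw [h1, ← Real.exp_add, ← Real.exp_add, h2]
      congr 2
      ring

/-- Prekopa–Leindler for `γ` at `t = 1/2` with the quadratic deficit, for sets with weights. -/
theorem mix_core {K Q W : Set E} (mK : MeasurableSet K) (mQ : MeasurableSet Q)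
    (mW : MeasurableSet W) {p q : E → ℝ} (mp : Measurable p) (mq : Measurable q)
    (hW : ∀ x ∈ K, ∀ y ∈ Q, (1 / 2 : ℝ) • x + (1 / 2 : ℝ) • y ∈ W)
    (hq : ∀ x ∈ K, ∀ y ∈ Q, q y ≤ p x + ‖x - y‖ ^ 2 / 2) :
    (∫⁻ x in K, ENNReal.ofReal (Real.exp (-(p x) / 2)) ∂(stdGaussian E)) ^ (1 / 2 : ℝ)
      * (∫⁻ y in Q, ENNReal.ofReal (Real.exp (q y / 2)) ∂(stdGaussian E)) ^ (1 / 2 : ℝ)
      ≤ stdGaussian E W := by
  have mg : Measurable (fun x : E => ENNReal.ofReal (gdens x)) :=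
    continuous_gdens.measurable.ennreal_ofReal
  set f : E → ℝ≥0∞ := K.indicator fun x => ENNReal.ofReal (Real.exp (-(p x) / 2)) with hf
  set g : E → ℝ≥0∞ := Q.indicator fun x => ENNReal.ofReal (Real.exp (q x / 2)) with hg
  have mf : Measurable f := Measurable.indicator (by fun_prop) mK
  have mg' : Measurable g := Measurable.indicator (by fun_prop) mQ
  have mh : Measurable (W.indicator (1 : E → ℝ≥0∞)) := measurable_one.indicator mW
  have h := Chain.PL_fd (V := E) (1 / 2) (by norm_num) (by norm_num)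
    (fun x => ENNReal.ofReal (gdens x) * f x) (fun x => ENNReal.ofReal (gdens x) * g x)
    (fun x => ENNReal.ofReal (gdens x) * W.indicator 1 x) (mg.mul mf) (mg.mul mg') (mg.mul mh) (by
      intro x y
      have e12 : (1 - 1 / 2 : ℝ) = 1 / 2 := by norm_num
      rw [e12]
      by_cases hx : x ∈ K
      · by_cases hy : y ∈ Q
        · have hw := hW x hx y hy
          simp only [hf, hg, indicator_of_mem hx, indicator_of_mem hy, indicator_of_mem hw,
            Pi.one_apply, mul_one]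
          rw [← ENNReal.ofReal_mul (gdens_pos x).le, ← ENNReal.ofReal_mul (gdens_pos y).le,
            ENNReal.ofReal_rpow_of_nonneg (by positivity [gdens_pos x]) (by norm_num),
            ENNReal.ofReal_rpow_of_nonneg (by positivity [gdens_pos y]) (by norm_num),
            ← ENNReal.ofReal_mul (by positivity [gdens_pos x])]
          apply ENNReal.ofReal_le_ofReal
          rw [Real.mul_rpow (gdens_pos x).le (Real.exp_pos _).le,
            Real.mul_rpow (gdens_pos y).le (Real.exp_pos _).le, ← gdens_mid x y,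
            ← Real.exp_mul, ← Real.exp_mul]
          have hgx : 0 < gdens x ^ (1 / 2 : ℝ) := Real.rpow_pos_of_pos (gdens_pos x) _
          have hgy : 0 < gdens y ^ (1 / 2 : ℝ) := Real.rpow_pos_of_pos (gdens_pos y) _
          calc gdens x ^ (1 / 2 : ℝ) * Real.exp (-p x / 2 * (1 / 2)) *
                (gdens y ^ (1 / 2 : ℝ) * Real.exp (q y / 2 * (1 / 2)))
              = gdens x ^ (1 / 2 : ℝ) * gdens y ^ (1 / 2 : ℝ) *
                Real.exp (-p x / 2 * (1 / 2) + q y / 2 * (1 / 2)) := by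
                rw [Real.exp_add]; ring
            _ ≤ _ := by
                refine mul_le_mul_of_nonneg_left (Real.exp_le_exp.2 ?_) (by positivity)
                have := hq x hx y hy
                linarith
        · simp only [hg, indicator_of_notMem hy, mul_zero]
          rw [ENNReal.zero_rpow_of_pos (by norm_num), mul_zero]
          exact bot_le
      · simp only [hf, indicator_of_notMem hx, mul_zero]
        rw [ENNReal.zero_rpow_of_pos (by norm_num), zero_mul]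
        exact bot_le)
  have e12 : (1 - 1 / 2 : ℝ) = 1 / 2 := by norm_num
  rw [e12] at h
  have key : ∀ u : E → ℝ≥0∞, Measurable u →
      ∫⁻ x, ENNReal.ofReal (gdens x) * u x = ∫⁻ x, u x ∂(stdGaussian E) := by
    intro u hu
    rw [stdGaussian_eq_withDensity, lintegral_withDensity_eq_lintegral_mul _ mg hu]
    rfl
  rw [key f mf, key g mg', key _ mh, hf, hg, lintegral_indicator mK, lintegral_indicator mQ,
    lintegral_indicator_one mW] at h
  exact h

/-! ### the rank one map `S` with `‖S h‖² = ‖h‖² - τ ⟪n,h⟫²` -/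

/-- `h ↦ h + a ⟪n,h⟫ n` -/
noncomputable def rk (n : E) (a : ℝ) : E →L[ℝ] E :=
  ContinuousLinearMap.id ℝ E + a • (innerSL ℝ n).smulRight n

lemma rk_apply (n : E) (a : ℝ) (x : E) : rk n a x = x + (a * ⟪n, x⟫) • n := by
  simp [rk, smul_smul]

lemma inner_rk {n : E} (hn : ‖n‖ = 1) (a : ℝ) (x : E) : ⟪n, rk n a x⟫ = (1 + a) * ⟪n, x⟫ := by
  rw [rk_apply, inner_add_right, inner_smul_right, real_inner_self_eq_norm_sq, hn]
  ring

lemma norm_rk_sq {n : E} (hn : ‖n‖ = 1) (a : ℝ) (x : E) :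
    ‖rk n a x‖ ^ 2 = ‖x‖ ^ 2 + ((1 + a) ^ 2 - 1) * ⟪n, x⟫ ^ 2 := by
  rw [rk_apply, @norm_add_sq_real, norm_smul, hn, inner_smul_right, real_inner_comm, mul_one,
    Real.norm_eq_abs, sq_abs]
  ring

lemma rk_symm_inner (n : E) (a : ℝ) (x y : E) : ⟪rk n a x, y⟫ = ⟪x, rk n a y⟫ := by
  rw [rk_apply, rk_apply, inner_add_left, inner_add_right, inner_smul_left, inner_smul_right]
  simp only [conj_trivial]
  rw [real_inner_comm n x]
  ring

lemma rk_comp {n : E} (hn : ‖n‖ = 1) {a b : ℝ} (h : (1 + a) * (1 + b) = 1) (x : E) :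
    rk n a (rk n b x) = x := by
  rw [rk_apply, inner_rk hn, rk_apply, add_assoc, ← add_smul]
  have : b * ⟪n, x⟫ + a * ((1 + b) * ⟪n, x⟫) = 0 := by
    have : b + a * (1 + b) = 0 := by linarith
    calc b * ⟪n, x⟫ + a * ((1 + b) * ⟪n, x⟫) = (b + a * (1 + b)) * ⟪n, x⟫ := by ring
      _ = 0 := by rw [this, zero_mul]
  rw [this, zero_smul, add_zero]

/-- the equivalence `S` -/
noncomputable def rkE {n : E} (hn : ‖n‖ = 1) {a b : ℝ} (h : (1 + a) * (1 + b) = 1) : E ≃L[ℝ] E :=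
  ContinuousLinearEquiv.equivOfInverse (rk n a) (rk n b)
    (fun x => rk_comp hn (by rw [mul_comm]; exact h) x) (fun x => rk_comp hn h x)

lemma integral_inner_sq_std (u : E) : ∫ x, ⟪u, x⟫ ^ 2 ∂(stdGaussian E) = ‖u‖ ^ 2 := by
  have h := integral_norm_sq_gau (ContinuousLinearMap.id ℝ E) u
  rw [gau_id] at h
  simpa using h

lemma integrable_inner_sq_std (u : E) : Integrable (fun x => ⟪u, x⟫ ^ 2) (stdGaussian E) := by
  have h : MemLp (fun x : E => ⟪u, x⟫) 2 (stdGaussian E) :=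
    (innerSL ℝ u).comp_memLp' (IsGaussian.memLp_id (stdGaussian E) 2 (by norm_num))
  exact h.integrable_sq

/-- the pointwise inequality behind the mixture lemma -/
lemma quad_ineq {n : E} (hn : ‖n‖ = 1) {τ : ℝ} (h0 : 0 ≤ τ) (h1 : τ ≤ 1 / 4) (x y : E) :
    τ * ⟪n, y⟫ ^ 2 ≤ τ * (1 + 4 * τ) * ⟪n, x⟫ ^ 2 + ‖x - y‖ ^ 2 / 2 := by
  have h2 : ⟪n, x - y⟫ ^ 2 ≤ ‖x - y‖ ^ 2 := by
    have := abs_real_inner_le_norm n (x - y)
    rw [hn, one_mul] at this
    calc ⟪n, x - y⟫ ^ 2 = |⟪n, x - y⟫| ^ 2 := (sq_abs _).symm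
      _ ≤ _ := by gcongr
  rw [inner_sub_right] at h2
  set a : ℝ := ⟪n, x⟫
  set b : ℝ := ⟪n, y⟫
  have h3 : 0 ≤ (4 * τ * a + (a - b)) ^ 2 := sq_nonneg _
  nlinarith [mul_nonneg h0 (sq_nonneg (a - b)), sq_nonneg (a - b), mul_nonneg (mul_nonneg h0 h0) (sq_nonneg a),
    mul_nonneg (sub_nonneg.2 h1) (sq_nonneg (a - b))]

/-- Jensen on a set: `∫_K e^{-p/2} ≥ γ(K) e^{-m/2}`, `m` the mean of `p` on `K`. -/
lemma jensen_neg {μ : Measure E} [IsProbabilityMeasure μ] {K : Set E}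
    {p : E → ℝ} (hp0 : ∀ x, 0 ≤ p x) (hp : Integrable p μ)
    (mp : Measurable p) (hpos : 0 < μ.real K) :
    μ.real K * Real.exp (-((∫ x in K, p x ∂μ) / μ.real K) / 2)
      ≤ ∫ x in K, Real.exp (-(p x) / 2) ∂μ := by
  set m : ℝ := (∫ x in K, p x ∂μ) / μ.real K with hm
  have hint : IntegrableOn (fun x => Real.exp (-(p x) / 2)) K μ := by
    refine (Integrable.mono' (integrable_const (1 : ℝ)) (by fun_prop) (ae_of_all _ fun x => ?_)).integrableOn
    rw [Real.norm_eq_abs, abs_of_pos (Real.exp_pos _)]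
    exact Real.exp_le_one_iff.2 (by have := hp0 x; linarith)
  have hl : ∀ x, Real.exp (-m / 2) * (1 + (m - p x) / 2) ≤ Real.exp (-(p x) / 2) := by
    intro x
    have h1 : Real.exp (-(p x) / 2) = Real.exp (-m / 2) * Real.exp ((m - p x) / 2) := by
      rw [← Real.exp_add]; congr 1; ring
    rw [h1]
    refine mul_le_mul_of_nonneg_left ?_ (Real.exp_pos _).le
    have := Real.add_one_le_exp ((m - p x) / 2)
    linarith
  have hpK : IntegrableOn p K μ := hp.integrableOn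
  have hL : IntegrableOn (fun x => Real.exp (-m / 2) * (1 + (m - p x) / 2)) K μ := by
    refine Integrable.const_mul ?_ _
    refine Integrable.add (integrable_const _) ?_
    exact ((integrable_const m).sub hpK).div_const 2
  have h2 := setIntegral_mono (s := K) hL hint (fun x => hl x)
  have h3 : ∫ x in K, Real.exp (-m / 2) * (1 + (m - p x) / 2) ∂μ
      = μ.real K * Real.exp (-m / 2) := by
    have i1 : Integrable (fun x => m - p x) (μ.restrict K) := (integrable_const m).sub hpK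
    have i2 : Integrable (fun x => (m - p x) / 2) (μ.restrict K) := i1.div_const 2
    rw [integral_const_mul, integral_add (integrable_const _) i2, integral_div,
      integral_sub (integrable_const m) hpK]
    simp only [integral_const, measureReal_restrict_apply_univ, smul_eq_mul, mul_one]
    have h4 : ∫ x in K, p x ∂μ = μ.real K * m := by
      rw [hm, mul_div_cancel₀ _ hpos.ne']
    rw [h4]
    ring
  rw [← h3]
  exact h2

/-- Jensen: `∫ e^{q/2} ≥ e^{∫ q / 2}`. -/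
lemma jensen_pos {μ : Measure E} [IsProbabilityMeasure μ] {q : E → ℝ} (hq : Integrable q μ)
    (he : Integrable (fun x => Real.exp (q x / 2)) μ) :
    Real.exp ((∫ x, q x ∂μ) / 2) ≤ ∫ x, Real.exp (q x / 2) ∂μ := by
  set m : ℝ := ∫ x, q x ∂μ with hm
  have hl : ∀ x, Real.exp (m / 2) * (1 + (q x - m) / 2) ≤ Real.exp (q x / 2) := by
    intro x
    have h1 : Real.exp (q x / 2) = Real.exp (m / 2) * Real.exp ((q x - m) / 2) := by
      rw [← Real.exp_add]; congr 1; ring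
    rw [h1]
    refine mul_le_mul_of_nonneg_left ?_ (Real.exp_pos _).le
    have := Real.add_one_le_exp ((q x - m) / 2)
    linarith
  have hL : Integrable (fun x => Real.exp (m / 2) * (1 + (q x - m) / 2)) μ := by
    refine Integrable.const_mul ?_ _
    refine Integrable.add (integrable_const _) ?_
    exact (hq.sub (integrable_const m)).div_const 2
  have h2 := integral_mono hL he hl
  have h3 : ∫ x, Real.exp (m / 2) * (1 + (q x - m) / 2) ∂μ = Real.exp (m / 2) := by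
    have i1 : Integrable (fun x => q x - m) μ := hq.sub (integrable_const m)
    have i2 : Integrable (fun x => (q x - m) / 2) μ := i1.div_const 2
    rw [integral_const_mul, integral_add (integrable_const _) i2, integral_div,
      integral_sub hq (integrable_const m)]
    simp [← hm]
  rw [← h3]
  exact h2

/-- real form of `mix_core` for the rank one form `τ ⟪n,·⟫²` -/
theorem mix_rank_one {n : E} (hn : ‖n‖ = 1) {τ : ℝ} (h0 : 0 ≤ τ) (h1 : τ ≤ 1 / 4)
    {K Q W : Set E} (mK : MeasurableSet K) (mQ : MeasurableSet Q)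
    (mW : MeasurableSet W) (hW : ∀ x ∈ K, ∀ y ∈ Q, (1 / 2 : ℝ) • x + (1 / 2 : ℝ) • y ∈ W)
    (hKpos : 0 < (stdGaussian E).real K)
    (hQi : Integrable (fun x => Real.exp (τ * ⟪n, x⟫ ^ 2 / 2)) (stdGaussian E)) :
    ((stdGaussian E).real K * Real.exp (-(τ * (1 + 4 * τ) *
        ((∫ g in K, ⟪n, g⟫ ^ 2 ∂(stdGaussian E)) / (stdGaussian E).real K)) / 2)) *
      (∫ x in Q, Real.exp (τ * ⟪n, x⟫ ^ 2 / 2) ∂(stdGaussian E)) ≤ (stdGaussian E).real W ^ 2 := by
  have hc := mix_core mK mQ mW (p := fun x => τ * (1 + 4 * τ) * ⟪n, x⟫ ^ 2)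
    (q := fun x => τ * ⟪n, x⟫ ^ 2) (by fun_prop) (by fun_prop) hW
    (fun x _ y _ => quad_ineq hn h0 h1 x y)
  have hip : Integrable (fun x => τ * (1 + 4 * τ) * ⟪n, x⟫ ^ 2) (stdGaussian E) :=
    (integrable_inner_sq_std n).const_mul _
  have hp0 : ∀ x : E, 0 ≤ τ * (1 + 4 * τ) * ⟪n, x⟫ ^ 2 := fun x => by positivity
  have hj := jensen_neg hp0 hip (by fun_prop) hKpos
  rw [integral_const_mul] at hj
  have ha : ∫⁻ x in K, ENNReal.ofReal (Real.exp (-(τ * (1 + 4 * τ) * ⟪n, x⟫ ^ 2) / 2)) ∂(stdGaussian E)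
      = ENNReal.ofReal (∫ x in K, Real.exp (-(τ * (1 + 4 * τ) * ⟪n, x⟫ ^ 2) / 2) ∂(stdGaussian E)) := by
    rw [ofReal_integral_eq_lintegral_ofReal]
    · refine (Integrable.mono' (integrable_const (1 : ℝ)) (by fun_prop)
        (ae_of_all _ fun x => ?_)).integrableOn
      rw [Real.norm_eq_abs, abs_of_pos (Real.exp_pos _)]
      exact Real.exp_le_one_iff.2 (by have := hp0 x; linarith)
    · exact ae_of_all _ fun x => (Real.exp_pos _).le
  have hb : ∫⁻ x in Q, ENNReal.ofReal (Real.exp (τ * ⟪n, x⟫ ^ 2 / 2)) ∂(stdGaussian E)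
      = ENNReal.ofReal (∫ x in Q, Real.exp (τ * ⟪n, x⟫ ^ 2 / 2) ∂(stdGaussian E)) := by
    rw [ofReal_integral_eq_lintegral_ofReal hQi.integrableOn]
    exact ae_of_all _ fun x => (Real.exp_pos _).le
  rw [ha, hb] at hc
  set a : ℝ := ∫ x in K, Real.exp (-(τ * (1 + 4 * τ) * ⟪n, x⟫ ^ 2) / 2) ∂(stdGaussian E) with haa
  set b : ℝ := ∫ x in Q, Real.exp (τ * ⟪n, x⟫ ^ 2 / 2) ∂(stdGaussian E) with hbb
  have ha0 : 0 ≤ a := integral_nonneg fun x => (Real.exp_pos _).le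
  have hb0 : 0 ≤ b := integral_nonneg fun x => (Real.exp_pos _).le
  have h3 := ENNReal.toReal_mono (measure_ne_top _ _) hc
  rw [ENNReal.toReal_mul, ← ENNReal.toReal_rpow, ← ENNReal.toReal_rpow, ENNReal.toReal_ofReal ha0,
    ENNReal.toReal_ofReal hb0, ← Real.mul_rpow ha0 hb0, ← Real.sqrt_eq_rpow] at h3
  have h4 : a * b ≤ (stdGaussian E).real W ^ 2 := by
    have h5 : Real.sqrt (a * b) ≤ (stdGaussian E).real W := h3
    calc a * b = Real.sqrt (a * b) ^ 2 := (Real.sq_sqrt (mul_nonneg ha0 hb0)).symm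
      _ ≤ _ := by gcongr
  refine le_trans (mul_le_mul_of_nonneg_right ?_ hb0) h4
  refine le_trans (le_of_eq ?_) hj
  congr 3
  ring

/-- **F6a, the core of the one-level comparison** (772's literal, with the half sum given by `W`). -/
theorem lev_core {n : E} (hn : ‖n‖ = 1) {τ : ℝ} (h0 : 0 ≤ τ) (h1 : τ ≤ 1 / 4)
    (R : E →L[ℝ] E) {ι : Type*} (J : Finset ι) (u : ι → E)
    (hN : ∀ g, ‖R g‖ ^ 2 + τ * ⟪n, g⟫ ^ 2 ≤ ‖g‖ ^ 2 + ∑ k ∈ J, ⟪u k, g⟫ ^ 2)
    {K B W : Set E} (mK : MeasurableSet K) (hB : IsClosed B) (cB : Convex ℝ B)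
    (sB : ∀ x ∈ B, -x ∈ B) (mW : MeasurableSet W)
    (hW : ∀ x ∈ K, ∀ y, R y ∈ B → (1 / 2 : ℝ) • x + (1 / 2 : ℝ) • y ∈ W)
    (hK : 0 < (stdGaussian E).real K) (hBp : 0 < (stdGaussian E).real B) :
    Real.log ((stdGaussian E).real K) + Real.log ((stdGaussian E).real B)
      + (τ / 2) * (1 - (1 + 4 * τ) *
          ((∫ g in K, ⟪n, g⟫ ^ 2 ∂(stdGaussian E)) / (stdGaussian E).real K))
      - ∑ k ∈ J, ‖u k‖ ^ 2 ≤ 2 * Real.log ((stdGaussian E).real W) := by
  classical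
  -- the map `S`
  set c0 : ℝ := Real.sqrt (1 - τ) with hc0
  have hc0p : 0 < c0 := Real.sqrt_pos.2 (by linarith)
  have hc0s : c0 ^ 2 = 1 - τ := Real.sq_sqrt (by linarith)
  have hab : (1 + (c0 - 1)) * (1 + (c0⁻¹ - 1)) = 1 := by
    rw [add_sub_cancel, add_sub_cancel, mul_inv_cancel₀ hc0p.ne']
  set S : E ≃L[ℝ] E := rkE hn hab with hS
  have hSa : ∀ x, S x = rk n (c0 - 1) x := fun x => rfl
  have hSs : ∀ x, S.symm x = rk n (c0⁻¹ - 1) x := fun x => rfl
  have hSn : ∀ x, ‖S x‖ ^ 2 = ‖x‖ ^ 2 - τ * ⟪n, x⟫ ^ 2 := by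
    intro x
    rw [hSa, norm_rk_sq hn, add_sub_cancel, hc0s]
    ring
  have hQi : Integrable (fun x => Real.exp (τ * ⟪n, x⟫ ^ 2 / 2)) (stdGaussian E) :=
    Tilt371.integrable_tilt S (fun x => τ * ⟪n, x⟫ ^ 2) hSn
  have mQ : MeasurableSet (R ⁻¹' B) := R.continuous.measurable hB.measurableSet
  have hmix := mix_rank_one hn h0 h1 mK mQ mW (fun x hx y hy => hW x hx y hy) hK hQi
  -- tilt
  have mB' : MeasurableSet (S.symm ⁻¹' (R ⁻¹' B)) := S.symm.continuous.measurable mQ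
  have ht := Tilt371.tilt_real_mul S (fun x => τ * ⟪n, x⟫ ^ 2) hSn mB'
  have hpre : S ⁻¹' (S.symm ⁻¹' (R ⁻¹' B)) = R ⁻¹' B := by
    ext x; simp
  rw [hpre] at ht
  -- covariance comparison
  have hcmp := Cmp142.cmp_sum_real hB.measurableSet cB sB J (R ∘L (S.symm : E →L[ℝ] E))
    (fun k => rk n (c0⁻¹ - 1) (u k)) (by
      intro g
      have h2 := hN (S.symm g)
      have h3 := hSn (S.symm g)
      rw [S.apply_symm_apply] at h3
      have h4 : ∀ k, ⟪rk n (c0⁻¹ - 1) (u k), g⟫ = ⟪u k, S.symm g⟫ := by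
        intro k
        rw [rk_symm_inner, hSs]
      simp only [h4]
      have h5 : (R ∘L (S.symm : E →L[ℝ] E)) g = R (S.symm g) := rfl
      rw [h5]
      linarith)
  have hpre2 : (R ∘L (S.symm : E →L[ℝ] E)) ⁻¹' B = S.symm ⁻¹' (R ⁻¹' B) := rfl
  rw [hpre2] at hcmp
  -- norms of the new vectors
  have hun : ∑ k ∈ J, ‖rk n (c0⁻¹ - 1) (u k)‖ ^ 2 ≤ 2 * ∑ k ∈ J, ‖u k‖ ^ 2 := by
    rw [Finset.mul_sum]
    refine Finset.sum_le_sum fun k _ => ?_
    rw [norm_rk_sq hn, add_sub_cancel, inv_pow, hc0s]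
    have h2 : ⟪n, u k⟫ ^ 2 ≤ ‖u k‖ ^ 2 := by
      have := abs_real_inner_le_norm n (u k)
      rw [hn, one_mul] at this
      calc ⟪n, u k⟫ ^ 2 = |⟪n, u k⟫| ^ 2 := (sq_abs _).symm
        _ ≤ _ := by gcongr
    have h3 : (1 - τ)⁻¹ ≤ 2 := by
      rw [inv_le_comm₀ (by linarith) (by norm_num)]
      linarith
    have h4 : 0 ≤ (1 - τ)⁻¹ - 1 := by
      have : 1 ≤ (1 - τ)⁻¹ := (one_le_inv₀ (by linarith)).2 (by linarith)
      linarith
    nlinarith [sq_nonneg ⟪n, u k⟫]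
  have hcmp' : Real.exp (-∑ k ∈ J, ‖u k‖ ^ 2) * (stdGaussian E).real B
      ≤ (stdGaussian E).real (S.symm ⁻¹' (R ⁻¹' B)) := by
    refine le_trans (mul_le_mul_of_nonneg_right (Real.exp_le_exp.2 ?_) hBp.le) hcmp
    linarith
  -- Jensen
  have hj := jensen_pos ((integrable_inner_sq_std n).const_mul τ) hQi
  rw [integral_const_mul, integral_inner_sq_std, hn] at hj
  have hfin : Real.exp (-∑ k ∈ J, ‖u k‖ ^ 2) * (stdGaussian E).real B * Real.exp (τ / 2)
      ≤ ∫ x in R ⁻¹' B, Real.exp (τ * ⟪n, x⟫ ^ 2 / 2) ∂(stdGaussian E) := by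
    rw [ht]
    refine mul_le_mul hcmp' ?_ (Real.exp_pos _).le measureReal_nonneg
    simpa using hj
  have hall := le_trans (mul_le_mul_of_nonneg_left hfin (by positivity)) hmix
  have hpos1 : 0 < (stdGaussian E).real K * Real.exp (-(τ * (1 + 4 * τ) *
        ((∫ g in K, ⟪n, g⟫ ^ 2 ∂(stdGaussian E)) / (stdGaussian E).real K)) / 2) :=
    mul_pos hK (Real.exp_pos _)
  have hpos2 : 0 < Real.exp (-∑ k ∈ J, ‖u k‖ ^ 2) * (stdGaussian E).real B * Real.exp (τ / 2) :=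
    mul_pos (mul_pos (Real.exp_pos _) hBp) (Real.exp_pos _)
  have hlog := Real.log_le_log (mul_pos hpos1 hpos2) hall
  rw [Real.log_mul hpos1.ne' hpos2.ne', Real.log_mul hK.ne' (Real.exp_pos _).ne',
    Real.log_mul (mul_pos (Real.exp_pos _) hBp).ne' (Real.exp_pos _).ne',
    Real.log_mul (Real.exp_pos _).ne' hBp.ne', Real.log_exp, Real.log_exp, Real.log_exp,
    Real.log_pow] at hlog
  push_cast at hlog
  linarith

/-- the case `τ = 0` of `lev_core` (no direction `n`). -/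
theorem lev_core0 (R : E →L[ℝ] E) {ι : Type*} (J : Finset ι) (u : ι → E)
    (hN : ∀ g, ‖R g‖ ^ 2 ≤ ‖g‖ ^ 2 + ∑ k ∈ J, ⟪u k, g⟫ ^ 2)
    {K B W : Set E} (mK : MeasurableSet K) (hB : IsClosed B) (cB : Convex ℝ B)
    (sB : ∀ x ∈ B, -x ∈ B) (mW : MeasurableSet W)
    (hW : ∀ x ∈ K, ∀ y, R y ∈ B → (1 / 2 : ℝ) • x + (1 / 2 : ℝ) • y ∈ W)
    (hK : 0 < (stdGaussian E).real K) (hBp : 0 < (stdGaussian E).real B) :
    Real.log ((stdGaussian E).real K) + Real.log ((stdGaussian E).real B)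
      - ∑ k ∈ J, ‖u k‖ ^ 2 ≤ 2 * Real.log ((stdGaussian E).real W) := by
  have mQ : MeasurableSet (R ⁻¹' B) := R.continuous.measurable hB.measurableSet
  have h1 := Cmp142.pl_sets (t := 1 / 2) (by norm_num) (by norm_num) mK mQ mW (by
    intro x hx y hy
    have e : (1 - 1 / 2 : ℝ) = 1 / 2 := by norm_num
    rw [e]
    exact hW x hx y hy)
  have e : (1 - 1 / 2 : ℝ) = 1 / 2 := by norm_num
  rw [e] at h1
  have h2 := Cmp142.cmp_sum_real hB.measurableSet cB sB J R u hN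
  have hpos : 0 < Real.exp (-(∑ k ∈ J, ‖u k‖ ^ 2) / 2) * (stdGaussian E).real B :=
    mul_pos (Real.exp_pos _) hBp
  have h3 := ENNReal.toReal_mono (measure_ne_top _ _) h1
  rw [ENNReal.toReal_mul, ← ENNReal.toReal_rpow, ← ENNReal.toReal_rpow] at h3
  change (stdGaussian E).real K ^ (1 / 2 : ℝ) * (stdGaussian E).real (R ⁻¹' B) ^ (1 / 2 : ℝ)
    ≤ (stdGaussian E).real W at h3
  have hQp : 0 < (stdGaussian E).real (R ⁻¹' B) := lt_of_lt_of_le hpos h2
  have h4 := Real.log_le_log (mul_pos (Real.rpow_pos_of_pos hK _) (Real.rpow_pos_of_pos hQp _)) h3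
  rw [Real.log_mul (Real.rpow_pos_of_pos hK _).ne' (Real.rpow_pos_of_pos hQp _).ne',
    Real.log_rpow hK, Real.log_rpow hQp] at h4
  have h5 := Real.log_le_log hpos h2
  rw [Real.log_mul (Real.exp_pos _).ne' hBp.ne', Real.log_exp] at h5
  have h6 : 0 ≤ ∑ k ∈ J, ‖u k‖ ^ 2 := Finset.sum_nonneg fun k _ => by positivity
  linarith

end Crest.Agent.R239.Lev422
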