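import Mathlib
import Crest.Agent.R239.AdmHalf_606
import Crest.Agent.R239.F6b_696
import Crest.Agent.R239.Lev_422

/-! R239, block F6b (one level comparison with gain), helper606: 696's `lev_half` with 422's
`lev_core`. -/

set_option autoImplicit false
set_option linter.unusedSectionVars false
open MeasureTheory ProbabilityTheory Set Filter Topology Pointwise
open scoped RealInnerProductSpace

namespace Crest.Agent.R239.Level1606

open Crest.Agent.R239 (gau gau_real_apply)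
open Crest.Agent.R239.FD
open Crest.Agent.R239.F6b696

variable {E : Type*} [NormedAddCommGroup E] [InnerProductSpace ℝ E] [FiniteDimensional ℝ E]
  [MeasurableSpace E] [BorelSpace E]

lemma H_of_Q (V : Flag E) {i : ℕ} {n : E} (hn : ‖n‖ = 1) (hQ : V.Q i n = n) : V.H i n = n := by
  have hi : i < V.n := by
    by_contra h
    push Not at h
    have h1 : V.Q i n = 0 := by
      rw [Q_apply, P_of_n_le V h, P_of_n_le V (h.trans (Nat.le_succ i)), sub_zero]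
    rw [hQ] at h1
    rw [h1, norm_zero] at hn
    norm_num at hn
  rw [H_apply, Finset.sum_eq_single_of_mem i (Finset.mem_Ico.2 ⟨le_rfl, hi⟩)]
  · rw [Nat.sub_self, pow_zero, one_smul, hQ]
  · intro j _ hj
    rw [← hQ, Q_Q_ne V hj, smul_zero]

lemma inner_Q_symm (V : Flag E) (j : ℕ) (x y : E) : ⟪V.Q j x, y⟫ = ⟪x, V.Q j y⟫ :=
  FlagAlg557.inner_Q_comm (M := V.M) j x y

lemma inner_H_symm (V : Flag E) (i : ℕ) (x y : E) : ⟪V.H i x, y⟫ = ⟪x, V.H i y⟫ := by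
  rw [H_apply, H_apply, sum_inner, inner_sum]
  refine Finset.sum_congr rfl fun j _ => ?_
  rw [real_inner_smul_left, real_inner_smul_right, inner_Q_symm]

/-- the second moment of a block direction in `g`-space and in `x`-space -/
lemma integral_block (V : Flag E) {i : ℕ} {n : E} (hn : ‖n‖ = 1) (hQ : V.Q i n = n) {K : Set E}
    (hK : MeasurableSet K) :
    ∫ g in V.H i ⁻¹' K, ⟪n, g⟫ ^ 2 ∂(stdGaussian E) = ∫ x in K, ⟪n, x⟫ ^ 2 ∂(gau (V.H i)) := by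
  unfold gau
  rw [setIntegral_map hK (by fun_prop) (V.H i).continuous.aemeasurable]
  refine integral_congr_ae (Filter.Eventually.of_forall fun g => ?_)
  have h1 : ⟪n, V.H i g⟫ = ⟪n, g⟫ := by
    rw [← inner_H_symm, H_of_Q V hn hQ]
  simp only [h1]

/-- **F6b with gain** (rank one): `K` near-optimal at `V`, `K2` the cut competitor of the tilted
flag. -/
theorem level1 {p : Par} (hlam : ∀ i, 0 ≤ p.lam i) {V : Flag E} {i : ℕ} {v n : E} {s τ : ℝ}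
    (hn : ‖n‖ = 1) (hQn : V.Q i n = n) (h0 : 0 ≤ s) (hτ0 : 0 ≤ τ) (hτ : τ ≤ 1 / 4) {ι : Type*}
    (J : Finset ι) (u : ι → E)
    (hN : ∀ g, ‖Rm V v s i g‖ ^ 2 + τ * ⟪n, g⟫ ^ 2 ≤ ‖g‖ ^ 2 + ∑ k ∈ J, ⟪u k, g⟫ ^ 2)
    {K K' K2 : Set E} {sl : ℝ} {μ : Multiset E} (hK : NearOpt p V i μ K sl)
    (hK' : IsCompact K') (h2c : IsClosed K2) (h2v : Convex ℝ K2)
    (h2s : ∀ x ∈ K2, -x ∈ K2) (h2p : 0 < (gau ((V.rot v s).H i)).real K2) (h2K : K2 ⊆ K') {t : ℝ}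
    (hslab : ∀ x ∈ V.M i, Ts v s x ∈ K2 → |⟪v, x⟫| ≤ t)
    (hcap : ∀ x ∈ V.M i, Ts v s x ∈ K2 → x ∈ V.cap p.rho i) :
    D p V i μ ≤ Eh K' μ + s * t * S μ v
      - p.lam i * Real.log ((gau ((V.rot v s).H i)).real K2)
      - p.lam i * (τ / 2 * (1 - (1 + 4 * τ) *
          ((∫ x in K, ⟪n, x⟫ ^ 2 ∂(gau (V.H i))) / (gau (V.H i)).real K))
          - ∑ k ∈ J, ‖u k‖ ^ 2) + sl := by
  have hKm : MeasurableSet K := hK.1.1.measurableSet
  have hKp : 0 < (stdGaussian E).real (V.H i ⁻¹' K) := by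
    rw [← gau_real_apply _ hKm]; exact hK.1.2.2.2.2
  have hBcl : IsClosed ((V.rot v s).H i ⁻¹' K2) := h2c.preimage ((V.rot v s).H i).continuous
  have hBcv : Convex ℝ ((V.rot v s).H i ⁻¹' K2) :=
    h2v.linear_preimage ((V.rot v s).H i).toLinearMap
  have hBs : ∀ x ∈ (V.rot v s).H i ⁻¹' K2, -x ∈ (V.rot v s).H i ⁻¹' K2 := by
    intro x hx
    simp only [mem_preimage, map_neg] at hx ⊢
    exact h2s _ hx
  have hBp : 0 < (stdGaussian E).real ((V.rot v s).H i ⁻¹' K2) := by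
    rw [← gau_real_apply _ h2c.measurableSet]; exact h2p
  have hQp : 0 < (stdGaussian E).real (Rm V v s i ⁻¹' ((V.rot v s).H i ⁻¹' K2)) := by
    have h := Cmp142.cmp_sum_real (E := E) (F := E) hBcl.measurableSet hBcv hBs J (Rm V v s i) u
      (fun g => by
        have h1 := hN g
        have h2 : 0 ≤ τ * ⟪n, g⟫ ^ 2 := mul_nonneg hτ0 (sq_nonneg _)
        linarith)
    exact lt_of_lt_of_le (by positivity) h
  refine lev_half hlam (AdmHalf606.cap_compact V i p.rho) (AdmHalf606.cap_convex V i p.rho) h0 hK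
    hK' h2c h2v h2s h2p h2K hslab hcap hQp ?_
  intro W hW hKQ
  have h := Lev422.lev_core hn hτ0 hτ (Rm V v s i) J u hN
    ((V.H i).continuous.measurable hKm) hBcl hBcv hBs hW.measurableSet
    (fun x hx y hy => hKQ x hx y hy) hKp hBp
  rw [integral_block V hn hQn hKm, ← gau_real_apply (V.H i) hKm] at h
  rw [← gau_real_apply (V.H i) hKm]
  linarith

/-- version with the thinness bound: gain `lam_i (τ/2)(c' - 4 τ)` -/
theorem level1_thin {p : Par} (hlam : ∀ i, 0 ≤ p.lam i) {V : Flag E} {i : ℕ} {v n : E}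
    {s τ c' : ℝ}
    (hn : ‖n‖ = 1) (hQn : V.Q i n = n) (h0 : 0 ≤ s) (hτ0 : 0 ≤ τ) (hτ : τ ≤ 1 / 4) (hc' : 0 ≤ c')
    {ι : Type*} (J : Finset ι) (u : ι → E)
    (hN : ∀ g, ‖Rm V v s i g‖ ^ 2 + τ * ⟪n, g⟫ ^ 2 ≤ ‖g‖ ^ 2 + ∑ k ∈ J, ⟪u k, g⟫ ^ 2)
    {K K' K2 : Set E} {sl : ℝ} {μ : Multiset E} (hK : NearOpt p V i μ K sl)
    (hthin : (∫ x in K, ⟪n, x⟫ ^ 2 ∂(gau (V.H i))) ≤ (1 - c') * (gau (V.H i)).real K)
    (hK' : IsCompact K') (h2c : IsClosed K2) (h2v : Convex ℝ K2)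
    (h2s : ∀ x ∈ K2, -x ∈ K2) (h2p : 0 < (gau ((V.rot v s).H i)).real K2) (h2K : K2 ⊆ K') {t : ℝ}
    (hslab : ∀ x ∈ V.M i, Ts v s x ∈ K2 → |⟪v, x⟫| ≤ t)
    (hcap : ∀ x ∈ V.M i, Ts v s x ∈ K2 → x ∈ V.cap p.rho i) :
    D p V i μ ≤ Eh K' μ + s * t * S μ v
      - p.lam i * Real.log ((gau ((V.rot v s).H i)).real K2)
      - p.lam i * (τ / 2 * (c' - 4 * τ) - ∑ k ∈ J, ‖u k‖ ^ 2) + sl := by
  have h := level1 hlam hn hQn h0 hτ0 hτ J u hN hK hK' h2c h2v h2s h2p h2K hslab hcap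
  have hKp : 0 < (gau (V.H i)).real K := hK.1.2.2.2.2
  set e := (∫ x in K, ⟪n, x⟫ ^ 2 ∂(gau (V.H i))) / (gau (V.H i)).real K with he
  have he1 : e ≤ 1 - c' := by
    rw [he, div_le_iff₀ hKp]; exact hthin
  have h3 : τ / 2 * (c' - 4 * τ) ≤ τ / 2 * (1 - (1 + 4 * τ) * e) := by
    refine mul_le_mul_of_nonneg_left ?_ (by linarith)
    have h4 : (1 + 4 * τ) * e ≤ (1 + 4 * τ) * (1 - c') :=
      mul_le_mul_of_nonneg_left he1 (by linarith)
    nlinarith [mul_nonneg hτ0 hc']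
  have h5 := mul_le_mul_of_nonneg_left h3 (hlam i)
  linarith

end Crest.Agent.R239.Level1606
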