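import Mathlib
import Crest.Agent.R239.FDef
import Crest.Agent.R239.F6b_696
import Crest.Agent.R239.AdmHalf_606
import Crest.Agent.R239.InsCut_488
import Crest.Agent.R239.InsCmp_488
import Crest.Agent.R239.RemLev_864

/-! R239 (helper300): one-level comparison `V` versus `V.rot v s` with all cuts on the `V` side
(comparison of measures, slab, one Markov cut).  `lev0`; consequences: `p_levlo` (all levels `≤ I`)
and `lev_bad` (levels `> I` with `BB_i` not small).  The only input which is not proved here is the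
norm inequality `F5N` (block F5: `|R g|^2 ≤ |g|^2 + Σ <u_k, g>^2`, `Σ |u_k|^2 ≤ sb BB_i`). -/

set_option autoImplicit false
set_option linter.unusedSectionVars false
open MeasureTheory ProbabilityTheory Set Filter Topology
open scoped RealInnerProductSpace

namespace Crest.Agent.R239.LevLo300

open Crest.Agent.R239 (gau gau_real_apply)
open Crest.Agent.R239.FD
open Crest.Agent.R239.F6b696 (Rm D_le_val)

variable {E : Type*} [NormedAddCommGroup E] [InnerProductSpace ℝ E] [FiniteDimensional ℝ E]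
  [MeasurableSpace E] [BorelSpace E]

/-! ### one Markov cut -/

lemma rr_eq (V : Flag E) (i : ℕ) : V.rr i = ∑ j ∈ Finset.Ico i V.n, th ^ (j - i) *
    ((Module.finrank ℝ ↥(V.M j) : ℝ) - (Module.finrank ℝ ↥(V.M (j + 1)) : ℝ)) := by
  unfold Flag.rr Flag.k
  refine Finset.sum_congr rfl fun j _ => ?_
  rw [Nat.cast_sub (Submodule.finrank_mono (V.anti (Nat.le_succ j)))]

lemma H_eq_Hc (V : Flag E) (i : ℕ) : V.H i = Ins556.Hc V.M th V.n i := rfl

lemma H_mem (V : Flag E) (i : ℕ) (g : E) : V.H i g ∈ V.M i := F6b696.H_mem V i g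

theorem cut_cap (V : Flag E) (i : ℕ) {rho : ℝ} (hrho : 0 < rho) {K : Set E} (hc : Convex ℝ K)
    (hK : MeasurableSet K) (hs : ∀ x ∈ K, -x ∈ K) :
    (1 - 1 / rho ^ 2) * (gau (V.H i)).real K ≤ (gau (V.H i)).real (K ∩ V.cap rho i) := by
  have h := Ins488.cut_ell (M := V.M) V.anti (th := th) (rho := rho) F6b696.th_pos hrho V.n i hc hK hs
  have mc : MeasurableSet (V.cap rho i) := (AdmHalf606.cap_closed (V := V) (i := i) rho).measurableSet
  rw [gau_real_apply _ hK, gau_real_apply _ (hK.inter mc)]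
  refine h.trans (measureReal_mono ?_ (measure_ne_top _ _))
  intro g hg
  refine ⟨hg.1, H_mem V i g, ?_⟩
  rw [rr_eq]
  exact hg.2

lemma neg_log_one_sub {x : ℝ} (h0 : 0 ≤ x) (h1 : x ≤ 1 / 2) : -Real.log (1 - x) ≤ 2 * x := by
  have h : 0 < 1 - x := by linarith
  have h2 := Real.one_sub_inv_le_log_of_pos h
  have h3 : (1 - x)⁻¹ ≤ 1 + 2 * x := by
    rw [inv_le_comm₀ h (by linarith), inv_eq_one_div, div_le_iff₀ (by linarith)]
    nlinarith
  linarith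

lemma rho_pos {p : Par} (hp : p.Ok) : 0 < p.rho := by linarith [hp.rho_ge]

lemma inv_rho_sq {p : Par} (hp : p.Ok) : 1 / p.rho ^ 2 ≤ 1 / 256 := by
  have := hp.rho_ge
  apply one_div_le_one_div_of_le (by norm_num)
  nlinarith

lemma lam_pos {p : Par} (hp : p.Ok) (i : ℕ) : 0 < p.lam i := Rem864.lam_pos hp i

lemma lam_nonneg {p : Par} (hp : p.Ok) (i : ℕ) : 0 ≤ p.lam i := (lam_pos hp i).le

/-- the full cap is admissible -/
theorem adm_cap {p : Par} (hp : p.Ok) (V : Flag E) (i : ℕ) : Adm p V i (V.cap p.rho i) := by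
  refine ⟨AdmHalf606.cap_closed V i p.rho, AdmHalf606.cap_convex V i p.rho,
    fun x hx => AdmHalf606.cap_neg V i p.rho hx, subset_rfl, ?_⟩
  have h := cut_cap V i (rho_pos hp) (K := univ) convex_univ MeasurableSet.univ (fun _ _ => trivial)
  have h1 : (gau (V.H i)).real univ = 1 := by
    have := F6b696.gau_isProb (V.H i)
    simp
  rw [h1, univ_inter] at h
  have := inv_rho_sq hp
  linarith

/-- lower bounds for `D` -/
theorem le_D {p : Par} (hp : p.Ok) {V : Flag E} {i : ℕ} {μ : Multiset E} {c : ℝ}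
    (h : ∀ K, Adm p V i K → c ≤ val p V i μ K) : c ≤ D p V i μ := by
  unfold D
  refine le_csInf ⟨_, ⟨_, adm_cap hp V i, rfl⟩⟩ ?_
  rintro _ ⟨K, hK, rfl⟩
  exact h K hK

/-! ### the comparison -/

/-- **(LEV0)** one-level comparison, all cuts on the side of `V` -/
theorem lev0 {p : Par} (hp : p.Ok) {V : Flag E} {v : E} {s : ℝ} (h0 : 0 ≤ s) {i : ℕ}
    {ι : Type*} (J : Finset ι) (u : ι → E)
    (hN : ∀ g, ‖Rm V v s i g‖ ^ 2 ≤ ‖g‖ ^ 2 + ∑ k ∈ J, ⟪u k, g⟫ ^ 2)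
    {K' : Set E} (hK' : Adm p (V.rot v s) i K') {t : ℝ}
    (ht : 0 < (gau (V.H i)).real {x | |⟪v, x⟫| ≤ t}) (μ : Multiset E) :
    D p V i μ ≤ val p (V.rot v s) i μ K' + s * t * S μ v
      + p.lam i * ((∑ k ∈ J, ‖u k‖ ^ 2) / 2 + 2 / p.rho ^ 2
        - Real.log ((gau (V.H i)).real {x | |⟪v, x⟫| ≤ t})) := by
  obtain ⟨cK, vK, sK, capK, pK⟩ := hK'
  have hK'c : IsCompact K' := AdmHalf606.adm_compact (V := V.rot v s) ⟨cK, vK, sK, capK, pK⟩
  set A : Set E := (Ts v s) ⁻¹' K' ∩ (V.M i : Set E) with hA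
  set B : Set E := (A ∩ {x | |⟪v, x⟫| ≤ t}) ∩ V.cap p.rho i with hB
  have cA : IsClosed A := (cK.preimage (Ts v s).continuous).inter (V.M i).closed_of_finiteDimensional
  have vA : Convex ℝ A := (vK.linear_preimage (Ts v s).toLinearMap).inter (V.M i).convex
  have sA : ∀ x ∈ A, -x ∈ A := by
    intro x hx
    refine ⟨?_, (V.M i).neg_mem hx.2⟩
    show Ts v s (-x) ∈ K'
    rw [map_neg]
    exact sK _ hx.1
  have cS : IsClosed {x : E | |⟪v, x⟫| ≤ t} := isClosed_le (by fun_prop) continuous_const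
  have vS : Convex ℝ {x : E | |⟪v, x⟫| ≤ t} := by
    intro x hx y hy a b ha hb hab
    show |⟪v, a • x + b • y⟫| ≤ t
    rw [inner_add_right, inner_smul_right, inner_smul_right]
    calc |a * ⟪v, x⟫ + b * ⟪v, y⟫| ≤ |a * ⟪v, x⟫| + |b * ⟪v, y⟫| := abs_add_le _ _
      _ = a * |⟪v, x⟫| + b * |⟪v, y⟫| := by rw [abs_mul, abs_mul, abs_of_nonneg ha, abs_of_nonneg hb]
      _ ≤ a * t + b * t := add_le_add (mul_le_mul_of_nonneg_left hx ha)
          (mul_le_mul_of_nonneg_left hy hb)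
      _ = t := by rw [← add_mul, hab, one_mul]
  have sS : ∀ x ∈ {x : E | |⟪v, x⟫| ≤ t}, -x ∈ {x : E | |⟪v, x⟫| ≤ t} := by
    intro x hx
    show |⟪v, -x⟫| ≤ t
    rw [inner_neg_right, abs_neg]
    exact hx
  have hH : ∀ g, Ts v s (V.H i g) = (V.rot v s).H i (Rm V v s i g) := F6b696.Ts_H V i
  -- comparison
  have h1 : Real.exp (-(∑ k ∈ J, ‖u k‖ ^ 2) / 2) * (gau ((V.rot v s).H i)).real K'
      ≤ (gau (V.H i)).real A := by
    refine F6core696.measure_type0 (T := Ts v s) (R := Rm V v s i) hH cK.measurableSet (H_mem V i) ?_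
    refine Cmp142.cmp_sum_real ?_ ?_ ?_ J (Rm V v s i) u hN
    · exact ((V.rot v s).H i).continuous.measurable cK.measurableSet
    · exact vK.linear_preimage ((V.rot v s).H i).toLinearMap
    · intro x hx
      show (V.rot v s).H i (-x) ∈ K'
      rw [map_neg]
      exact sK _ hx
  have h2 : (gau (V.H i)).real A * (gau (V.H i)).real {x | |⟪v, x⟫| ≤ t}
      ≤ (gau (V.H i)).real (A ∩ {x | |⟪v, x⟫| ≤ t}) :=
    Dom640.gau_slab_real (V.H i) cA.measurableSet vA sA v t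
  have h3 : (1 - 1 / p.rho ^ 2) * (gau (V.H i)).real (A ∩ {x | |⟪v, x⟫| ≤ t})
      ≤ (gau (V.H i)).real B :=
    cut_cap V i (rho_pos hp) (vA.inter vS) (cA.inter cS).measurableSet
      (fun x hx => ⟨sA x hx.1, sS x hx.2⟩)
  set a := (gau ((V.rot v s).H i)).real K' with ha
  set b := (gau (V.H i)).real {x | |⟪v, x⟫| ≤ t} with hb
  set tr := ∑ k ∈ J, ‖u k‖ ^ 2 with htr
  have hr := inv_rho_sq hp
  have hr0 : 0 ≤ 1 / p.rho ^ 2 := by positivity
  have h4 : (1 - 1 / p.rho ^ 2) * (Real.exp (-tr / 2) * a * b) ≤ (gau (V.H i)).real B := by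
    refine le_trans ?_ h3
    refine mul_le_mul_of_nonneg_left ?_ (by linarith)
    exact le_trans (mul_le_mul_of_nonneg_right h1 ht.le) h2
  have hpos : 0 < (1 - 1 / p.rho ^ 2) * (Real.exp (-tr / 2) * a * b) := by
    have : 0 < 1 - 1 / p.rho ^ 2 := by linarith
    positivity
  have admB : Adm p V i B := by
    refine ⟨(cA.inter cS).inter (AdmHalf606.cap_closed V i p.rho),
      (vA.inter vS).inter (AdmHalf606.cap_convex V i p.rho), ?_, inter_subset_right, lt_of_lt_of_le hpos h4⟩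
    intro x hx
    exact ⟨⟨sA x hx.1.1, sS x hx.1.2⟩, AdmHalf606.cap_neg V i p.rho hx.2⟩
  have h5 : D p V i μ ≤ val p V i μ B := D_le_val (lam_nonneg hp) admB
  have h6 : Eh B μ ≤ Eh K' μ + s * t * S μ v := by
    have h0B : B.Nonempty := AdmHalf606.adm_nonempty admB
    exact F6core696.Eh_pullback hK'c h0B h0 (Ts_apply v s) (fun x hx => hx.1.1.1)
      (fun x hx => hx.1.2) μ
  have h7 : -Real.log ((gau (V.H i)).real B) ≤ 2 / p.rho ^ 2 + tr / 2 - Real.log a - Real.log b := by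
    have h8 := Real.log_le_log hpos h4
    have e1 : (0 : ℝ) < 1 - 1 / p.rho ^ 2 := by linarith
    rw [Real.log_mul e1.ne' (by positivity), Real.log_mul (by positivity) ht.ne',
      Real.log_mul (Real.exp_pos _).ne' pK.ne', Real.log_exp] at h8
    have h9 := neg_log_one_sub hr0 (by linarith : 1 / p.rho ^ 2 ≤ 1 / 2)
    have e2 : 2 / p.rho ^ 2 = 2 * (1 / p.rho ^ 2) := by ring
    rw [e2]
    linarith
  have hl := lam_nonneg hp i
  have h10 := mul_le_mul_of_nonneg_left h7 hl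
  have e3 : val p (V.rot v s) i μ K' = Eh K' μ - p.lam i * Real.log a := rfl
  have e4 : val p V i μ B = Eh B μ - p.lam i * Real.log ((gau (V.H i)).real B) := rfl
  rw [e3]
  rw [e4] at h5
  have e5 : p.lam i * (2 / p.rho ^ 2 + tr / 2 - Real.log a - Real.log b)
      = p.lam i * (tr / 2 + 2 / p.rho ^ 2 - Real.log b) - p.lam i * Real.log a := by ring
  rw [e5] at h10
  have e6 : p.lam i * -Real.log ((gau (V.H i)).real B) = -(p.lam i * Real.log ((gau (V.H i)).real B)) :=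
    by ring
  rw [e6] at h10
  linarith

/-! ### levels `≤ I` and bad levels `> I` -/

/-- the norm inequality of block F5 (form without gain) -/
def F5N (E : Type*) [NormedAddCommGroup E] [InnerProductSpace ℝ E] [FiniteDimensional ℝ E]
    (s : ℝ) : Prop :=
  ∀ (V : Flag E) (v : E) (i : ℕ), ‖v‖ = 1 → ∃ (J : Finset ℕ) (u : ℕ → E),
    (∀ g, ‖Rm V v s i g‖ ^ 2 ≤ ‖g‖ ^ 2 + ∑ k ∈ J, ⟪u k, g⟫ ^ 2) ∧
      ∑ k ∈ J, ‖u k‖ ^ 2 ≤ (2 * s - s ^ 2) * BB V v i

lemma BB_nonneg (V : Flag E) (v : E) (i : ℕ) : 0 ≤ BB V v i := by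
  unfold BB Flag.b
  positivity

lemma b_nonneg (V : Flag E) (v : E) (i : ℕ) : 0 ≤ V.b v i := by
  unfold Flag.b
  positivity

lemma b_le_one (V : Flag E) {v : E} (hv : ‖v‖ = 1) (i : ℕ) : V.b v i ≤ 1 := by
  unfold Flag.b
  have h := F6b696.norm_P_le V i v
  rw [hv] at h
  have := norm_nonneg (V.P i v)
  nlinarith

lemma S_nonneg (μ : Multiset E) (v : E) : 0 ≤ S μ v := by
  unfold S
  apply Multiset.sum_nonneg
  intro x hx
  obtain ⟨z, _, rfl⟩ := Multiset.mem_map.1 hx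
  exact abs_nonneg _

lemma norm_H_le (V : Flag E) {i : ℕ} (hi : i ≤ V.n) (x : E) : ‖V.H i x‖ ≤ ‖x‖ :=
  Ins488.norm_Hc_le (M := V.M) V.anti F6b696.th_pos.le (by norm_num [th]) hi x

lemma norm_adj_le {A : E →L[ℝ] E} (h : ∀ x, ‖A x‖ ≤ ‖x‖) (v : E) : ‖A.adjoint v‖ ≤ ‖v‖ := by
  have h1 : ‖A.adjoint v‖ ≤ ‖A.adjoint‖ * ‖v‖ := A.adjoint.le_opNorm v
  have h2 : ‖A.adjoint‖ ≤ 1 := by
    rw [LinearIsometryEquiv.norm_map]
    exact A.opNorm_le_bound (by norm_num) (fun x => by simpa using h x)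
  nlinarith [norm_nonneg v]

lemma norm_adj_H_sq (V : Flag E) {i : ℕ} (hi : i ≤ V.n) {v : E} (hv : ‖v‖ = 1) :
    ‖(V.H i).adjoint v‖ ^ 2 ≤ 1 := by
  have h := norm_adj_le (norm_H_le V hi) v
  rw [hv] at h
  have := norm_nonneg ((V.H i).adjoint v)
  nlinarith

lemma lam_le_half {p : Par} (hp : p.Ok) {i I : ℕ} (h : i ≤ I) :
    p.lam i ≤ p.lam I * (1 / 2) ^ (I - i) := by
  obtain ⟨m, rfl⟩ := Nat.exists_eq_add_of_le h
  rw [Rem864.lam_add, Nat.add_sub_cancel_left, mul_assoc, ← mul_pow]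
  have h1 : (1 : ℝ) ≤ p.A * (1 / 2) := by linarith [hp.A_ge]
  have h2 := one_le_pow₀ h1 (n := m)
  have := lam_pos hp i
  nlinarith

lemma two_div_rho {p : Par} (hp : p.Ok) : 2 / p.rho ^ 2 ≤ 1 := by
  have h := inv_rho_sq hp
  have e2 : 2 / p.rho ^ 2 = 2 * (1 / p.rho ^ 2) := by ring
  rw [e2]
  linarith

lemma sb_le {s : ℝ} : 2 * s - s ^ 2 ≤ 1 := by nlinarith [sq_nonneg (s - 1)]

/-- **P_LEVlo** with the constant `9` -/
theorem p_levlo {p : Par} (hp : p.Ok) {s : ℝ} (hs0 : 0 ≤ s) (hs1 : s ≤ 1) (hF : F5N E s) :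
    P_LEVlo E p s 9 := by
  intro V μ v I i hv hS hiI hin
  refine le_D hp fun K' hK' => ?_
  obtain ⟨J, u, hN, htr⟩ := hF V v i hv
  obtain ⟨t, ht0, htp, hrem⟩ := Rem864.rem_lo hp hiI (S_nonneg μ v) hS hs0 hs1 (V.H i) v
    ((norm_adj_H_sq V hin.le hv).trans (by norm_num))
  have h := lev0 hp hs0 J u hN hK' htp μ
  have hl := lam_pos hp i
  have h1 := lam_le_half hp hiI
  have h2 := two_div_rho hp
  have hBB := BB_nonneg V v i
  have h3 : ∑ k ∈ J, ‖u k‖ ^ 2 ≤ BB V v i :=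
    htr.trans (by nlinarith [mul_le_mul_of_nonneg_right (sb_le (s := s)) hBB])
  have h4 : p.lam i * ((∑ k ∈ J, ‖u k‖ ^ 2) / 2 + 2 / p.rho ^ 2) ≤
      p.lam i * 9 * BB V v i + p.lam I * (1 / 2) ^ (I - i) := by
    have h5 : p.lam i * ((∑ k ∈ J, ‖u k‖ ^ 2) / 2 + 2 / p.rho ^ 2) ≤
        p.lam i * (9 * BB V v i + 1) := by
      refine mul_le_mul_of_nonneg_left ?_ hl.le
      linarith
    linarith
  have h6 : p.lam i * ((∑ k ∈ J, ‖u k‖ ^ 2) / 2 + 2 / p.rho ^ 2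
        - Real.log ((gau (V.H i)).real {x | |⟪v, x⟫| ≤ t}))
      = p.lam i * ((∑ k ∈ J, ‖u k‖ ^ 2) / 2 + 2 / p.rho ^ 2)
        - p.lam i * Real.log ((gau (V.H i)).real {x | |⟪v, x⟫| ≤ t}) := by ring
  rw [h6] at h
  linarith

/-- **bad levels** `> I`: if `BB_i ≥ c` no gain is needed -/
theorem lev_bad {p : Par} (hp : p.Ok) {s : ℝ} (hs0 : 0 ≤ s) (hs1 : s ≤ 1) (hF : F5N E s)
    {c c9 : ℝ} (hc : 0 < c) (h9 : c9 ≤ 1) {V : Flag E} {μ : Multiset E} {v : E} {I i : ℕ}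
    (hv : ‖v‖ = 1) (hS : S μ v ≤ p.lam I) (hI : I < i) (hin : i < V.n) (hb : c ≤ BB V v i) :
    D p V i μ + p.lam i * (c9 * V.b v i - (4 / c + 1) * BB V v i) - 7 * p.lam I * (1 / 2) ^ (i - I)
      ≤ D p (V.rot v s) i μ := by
  refine le_D hp fun K' hK' => ?_
  obtain ⟨J, u, hN, htr⟩ := hF V v i hv
  obtain ⟨t, ht0, htp, hrem⟩ := Rem864.rem_hi hp hI (S_nonneg μ v) hS hs0 hs1
    (one_pos) (le_refl (1 : ℝ)) (V.H i) v
  have h := lev0 hp hs0 J u hN hK' htp μ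
  have hl := lam_pos hp i
  have h2 := two_div_rho hp
  have hBB := BB_nonneg V v i
  have h3 : ∑ k ∈ J, ‖u k‖ ^ 2 ≤ BB V v i :=
    htr.trans (by nlinarith [mul_le_mul_of_nonneg_right (sb_le (s := s)) hBB])
  have h7 := norm_adj_H_sq V hin.le hv
  have hb0 := b_nonneg V v i
  have hb1 := b_le_one V hv i
  have h8 : c9 * V.b v i ≤ 1 := by nlinarith
  have h9' : 4 ≤ 4 / c * BB V v i := by
    rw [div_mul_eq_mul_div, le_div_iff₀ hc]
    nlinarith
  have h4 : p.lam i * ((∑ k ∈ J, ‖u k‖ ^ 2) / 2 + 2 / p.rho ^ 2) + p.lam i * (c9 * V.b v i)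
      + 1 * p.lam i * ‖(V.H i).adjoint v‖ ^ 2 ≤ p.lam i * ((4 / c + 1) * BB V v i) := by
    have h5 : p.lam i * ((∑ k ∈ J, ‖u k‖ ^ 2) / 2 + 2 / p.rho ^ 2 + c9 * V.b v i
        + ‖(V.H i).adjoint v‖ ^ 2) ≤ p.lam i * ((4 / c + 1) * BB V v i) := by
      refine mul_le_mul_of_nonneg_left ?_ hl.le
      have e : (4 / c + 1) * BB V v i = 4 / c * BB V v i + BB V v i := by ring
      rw [e]
      linarith
    have e : p.lam i * ((∑ k ∈ J, ‖u k‖ ^ 2) / 2 + 2 / p.rho ^ 2 + c9 * V.b v i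
        + ‖(V.H i).adjoint v‖ ^ 2) = p.lam i * ((∑ k ∈ J, ‖u k‖ ^ 2) / 2 + 2 / p.rho ^ 2)
        + p.lam i * (c9 * V.b v i) + 1 * p.lam i * ‖(V.H i).adjoint v‖ ^ 2 := by ring
    rw [e] at h5
    exact h5
  have h6 : p.lam i * ((∑ k ∈ J, ‖u k‖ ^ 2) / 2 + 2 / p.rho ^ 2
        - Real.log ((gau (V.H i)).real {x | |⟪v, x⟫| ≤ t}))
      = p.lam i * ((∑ k ∈ J, ‖u k‖ ^ 2) / 2 + 2 / p.rho ^ 2)
        - p.lam i * Real.log ((gau (V.H i)).real {x | |⟪v, x⟫| ≤ t}) := by ring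
  rw [h6] at h
  have e7 : (7 : ℝ) / 1 * p.lam I * (1 / 2) ^ (i - I) = 7 * p.lam I * (1 / 2) ^ (i - I) := by
    rw [div_one]
  rw [e7] at hrem
  have e8 : p.lam i * (c9 * V.b v i - (4 / c + 1) * BB V v i)
      = p.lam i * (c9 * V.b v i) - p.lam i * ((4 / c + 1) * BB V v i) := by ring
  rw [e8]
  linarith

end Crest.Agent.R239.LevLo300
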