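import Mathlib
import Crest.Agent.R239.LevLo_300
import Crest.Agent.R239.F5_336

/-! R239 (helper300): `P_LEVlo` and the bad levels of `P_LEVhi`, hypothesis-free (with `F5_336.f5_N`). -/

set_option autoImplicit false
set_option linter.unusedSectionVars false
open MeasureTheory ProbabilityTheory Set Filter Topology
open scoped RealInnerProductSpace

namespace Crest.Agent.R239.LevLo300

open Crest.Agent.R239 (gau)
open Crest.Agent.R239.FD
open Crest.Agent.R239.F6b696 (Rm)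

variable {E : Type*} [NormedAddCommGroup E] [InnerProductSpace ℝ E] [FiniteDimensional ℝ E]
  [MeasurableSpace E] [BorelSpace E]

theorem f5n {s : ℝ} (h0 : 0 < s) (h1 : s < 1) (hb : 2 * s - s ^ 2 ≤ 1 / 2) : F5N E s := by
  intro V v i hv
  obtain ⟨J, u, h, hu⟩ := F5336.f5_N V hv h0 h1 hb i
  refine ⟨J, u, fun g => ?_, hu⟩
  have h2 := h g
  have h3 : 0 ≤ (2 * s - s ^ 2) / 2 * ⟪V.Q i v, g⟫ ^ 2 := by
    have : 0 ≤ 2 * s - s ^ 2 := by nlinarith
    positivity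
  have h4 : Rm V v s i g = (V.rot v s).Hi i (Ts v s (V.H i g)) := rfl
  rw [h4]
  linarith

/-- **P_LEVlo**, complete -/
theorem levlo {p : Par} (hp : p.Ok) {s : ℝ} (h0 : 0 < s) (h1 : s < 1)
    (hb : 2 * s - s ^ 2 ≤ 1 / 2) : P_LEVlo E p s 9 :=
  p_levlo hp h0.le h1.le (f5n h0 h1 hb)

/-- bad levels of **P_LEVhi**, complete -/
theorem levbad {p : Par} (hp : p.Ok) {s : ℝ} (h0 : 0 < s) (h1 : s < 1)
    (hb : 2 * s - s ^ 2 ≤ 1 / 2)
    {c c9 : ℝ} (hc : 0 < c) (h9 : c9 ≤ 1) {V : Flag E} {μ : Multiset E} {v : E} {I i : ℕ}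
    (hv : ‖v‖ = 1) (hS : S μ v ≤ p.lam I) (hI : I < i) (hin : i < V.n) (hbb : c ≤ BB V v i) :
    D p V i μ + p.lam i * (c9 * V.b v i - (4 / c + 1) * BB V v i) - 7 * p.lam I * (1 / 2) ^ (i - I)
      ≤ D p (V.rot v s) i μ :=
  lev_bad hp h0.le h1.le (f5n h0 h1 hb) hc h9 hv hS hI hin hbb

end Crest.Agent.R239.LevLo300
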