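import Mathlib
import Crest.Agent.R239.LevLoF_300

/-! R239 (helper300): `Target_LEV` from the good levels (`BB V v i ≤ c`), `LevLoF_300.levlo` and
`LevLoF_300.levbad`. -/

set_option autoImplicit false
set_option linter.unusedSectionVars false
open MeasureTheory ProbabilityTheory Set Filter Topology
open scoped RealInnerProductSpace

namespace Crest.Agent.R239.TLevF300

open Crest.Agent.R239 (gau)
open Crest.Agent.R239.FD
open Crest.Agent.R239.LevLo300 (levlo levbad b_nonneg BB_nonneg lam_pos)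

/-- `P_LEVhi` restricted to the good levels `BB V v i ≤ c` -/
def GoodHi (E : Type*) [NormedAddCommGroup E] [InnerProductSpace ℝ E] [FiniteDimensional ℝ E]
    [MeasurableSpace E] [BorelSpace E] (p : Par) (s c' dl c9 C9 c : ℝ) : Prop :=
  ∀ (V : Flag E) (μ : Multiset E) (v : E) (I i : ℕ), ‖v‖ = 1 → S μ v ≤ p.lam I → I < i →
    i < V.n → ThinAt p V μ i c' dl → BB V v i ≤ c →
    D p V i μ + p.lam i * (c9 * V.b v i - C9 * BB V v i) - C9 * p.lam I * (1 / 2) ^ (i - I)
      ≤ D p (V.rot v s) i μ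

/-- target of the good levels -/
def Target_GOOD : Prop := ∀ c' dl : ℝ, 0 < c' → c' < 1 → 0 < dl → ∃ s c9 C9 rho0 c : ℝ, 0 < s ∧
  s < 1 ∧ 2 * s - s ^ 2 ≤ 1 / 2 ∧ 0 < c9 ∧ 0 < C9 ∧ 0 < c ∧ ∀ (d : ℕ) (p : Par), p.Ok →
    rho0 ≤ p.rho → GoodHi (EuclideanSpace ℝ (Fin d)) p s c' dl c9 C9 c

theorem lev_const {p : Par} (hp : p.Ok) {i I k : ℕ} {D0 D1 b B c9 c9' C9 C9' : ℝ} (hb : 0 ≤ b)
    (hB : 0 ≤ B) (h9 : c9' ≤ c9) (hC : C9 ≤ C9')
    (h : D0 + p.lam i * (c9 * b - C9 * B) - C9 * p.lam I * (1 / 2) ^ k ≤ D1) :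
    D0 + p.lam i * (c9' * b - C9' * B) - C9' * p.lam I * (1 / 2) ^ k ≤ D1 := by
  have h1 := lam_pos hp i
  have h2 := lam_pos hp I
  have h3 : p.lam i * (c9' * b - C9' * B) ≤ p.lam i * (c9 * b - C9 * B) := by
    refine mul_le_mul_of_nonneg_left ?_ h1.le
    nlinarith [mul_le_mul_of_nonneg_right h9 hb, mul_le_mul_of_nonneg_right hC hB]
  have h4 : C9 * p.lam I * (1 / 2) ^ k ≤ C9' * p.lam I * (1 / 2) ^ k := by
    refine mul_le_mul_of_nonneg_right ?_ (by positivity)
    exact mul_le_mul_of_nonneg_right hC h2.le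
  linarith

theorem target_lev (h : Target_GOOD) : Target_LEV := by
  intro c' dl hc0 hc1 hdl
  obtain ⟨s, c9, C9, rho0, c, hs0, hs1, hsb, hc9, hC9, hc, H⟩ := h c' dl hc0 hc1 hdl
  set C : ℝ := max (max C9 9) (4 / c + 7) with hC
  have k1 : C9 ≤ C := (le_max_left _ _).trans (le_max_left _ _)
  have k2 : 9 ≤ C := (le_max_right _ _).trans (le_max_left _ _)
  have k3 : 4 / c + 7 ≤ C := le_max_right _ _
  refine ⟨s, min c9 1, C, rho0, hs0, hs1, lt_min hc9 one_pos, by linarith, fun d p hp hr => ?_⟩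
  constructor
  · intro V μ v I i hv hS hI hin hthin
    rcases le_total (BB V v i) c with hb | hb
    · exact lev_const hp (b_nonneg V v i) (BB_nonneg V v i) (min_le_left _ _) k1
        (H d p hp hr V μ v I i hv hS hI hin hthin hb)
    · have h1 := levbad hp hs0 hs1 hsb hc (min_le_right c9 1) hv hS hI hin hb
      have hl := lam_pos hp i
      have hL := lam_pos hp I
      have hBB := BB_nonneg V v i
      have h2 : p.lam i * (min c9 1 * V.b v i - C * BB V v i)
          ≤ p.lam i * (min c9 1 * V.b v i - (4 / c + 1) * BB V v i) := by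
        refine mul_le_mul_of_nonneg_left ?_ hl.le
        have : (4 / c + 1) * BB V v i ≤ C * BB V v i :=
          mul_le_mul_of_nonneg_right (by linarith) hBB
        linarith
      have h3 : 7 * p.lam I * (1 / 2) ^ (i - I) ≤ C * p.lam I * (1 / 2) ^ (i - I) := by
        refine mul_le_mul_of_nonneg_right ?_ (by positivity)
        refine mul_le_mul_of_nonneg_right ?_ hL.le
        linarith
      linarith
  · intro V μ v I i hv hS hiI hin
    have h1 := levlo hp hs0 hs1 hsb V μ v I i hv hS hiI hin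
    have hl := lam_pos hp i
    have hL := lam_pos hp I
    have hBB := BB_nonneg V v i
    have h2 : p.lam i * 9 * BB V v i ≤ p.lam i * C * BB V v i :=
      mul_le_mul_of_nonneg_right (mul_le_mul_of_nonneg_left k2 hl.le) hBB
    have h3 : 9 * p.lam I * (1 / 2) ^ (I - i) ≤ C * p.lam I * (1 / 2) ^ (I - i) := by
      refine mul_le_mul_of_nonneg_right ?_ (by positivity)
      exact mul_le_mul_of_nonneg_right k2 hL.le
    linarith

end Crest.Agent.R239.TLevF300
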