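import Crest.Agent.R239.TLev_746
import Crest.Agent.R239.Level1_606
import Crest.Agent.R239.Cap7_506
import Crest.Agent.R239.F5_336
import Crest.Agent.R239.TLevF_300

/-! R239 / S0370 (helper746): the good levels of `P_LEVhi` and `Target_LEV`. -/

set_option autoImplicit false
set_option linter.unusedSectionVars false
open MeasureTheory ProbabilityTheory Set
open scoped RealInnerProductSpace

namespace Crest.Agent.R239.LevG746

open Crest.Agent.R239 Crest.Agent.R239.FD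
open Crest.Agent.R239.TLev746 (b_nonneg b_le_one BB_nonneg b_succ_le_BB norm_Q_sq Q_Q S_nonneg
  adjoint_id')

variable {E : Type*} [NormedAddCommGroup E] [InnerProductSpace ℝ E] [FiniteDimensional ℝ E]
  [MeasurableSpace E] [BorelSpace E]

lemma adjoint_H (V : Flag E) (i : ℕ) : (V.H i).adjoint = V.H i := Fl597.adjoint_H V i

lemma norm_H_le (V : Flag E) (i : ℕ) (x : E) : ‖V.H i x‖ ≤ ‖V.P i x‖ :=
  FlagAlg557.norm_H_le (M := V.M) (th := th) V.anti (by unfold th; norm_num)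
    (by unfold th; norm_num) V.n i (V.bot V.n le_rfl) x

lemma inner_P_self (V : Flag E) (i : ℕ) (x : E) : ⟪x, V.P i x⟫ = ‖V.P i x‖ ^ 2 := by
  rw [real_inner_comm]
  exact (ProjRot557.norm_P_sq (V.M i) x).symm

/-- `|P_{T M_i} v|^2 ≤ 2 (1-s)^2 b_i`. -/
lemma norm_Ps_v (V : Flag E) {v : E} (hv : ‖v‖ = 1) {s : ℝ} (hs0 : 0 < s) (hs1 : s < 1)
    (hsb : 2 * s - s ^ 2 ≤ 1 / 2) (i : ℕ) :
    ‖(V.rot v s).P i v‖ ^ 2 ≤ (1 - s) ^ 2 * (2 * V.b v i) := by
  set y := (V.rot v s).P i v with hy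
  have hyM : y ∈ (V.rot v s).M i := F6b696.P_mem _ i v
  obtain ⟨x, hx, hxy⟩ := Submodule.mem_map.1 hyM
  have hxy' : Ts v s x = y := hxy
  have hvv : ⟪v, v⟫ = (1 : ℝ) := by rw [real_inner_self_eq_norm_sq, hv]; norm_num
  have h1 : ‖y‖ ^ 2 = (1 - s) * ⟪v, x⟫ := by
    have e : ‖y‖ ^ 2 = ⟪v, y⟫ := by rw [hy, inner_P_self]
    rw [e, ← hxy', F6b696.inner_v_Ts hv]
  obtain ⟨c, hc⟩ : ∃ c : ℝ, c = ⟪v, x⟫ := ⟨_, rfl⟩
  rw [← hc] at h1
  have hcx : ⟪x, v⟫ = c := by rw [hc, real_inner_comm]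
  have h2 : ‖y‖ ^ 2 = ‖x‖ ^ 2 - (2 * s - s ^ 2) * c ^ 2 := by
    rw [← hxy', Ts_apply, norm_sub_sq_real, inner_smul_right, hcx, ← hc, norm_smul, mul_pow, hv,
      Real.norm_eq_abs, sq_abs]
    ring
  have hb1 := b_le_one V hv i
  have hb0 := b_nonneg V v i
  have h3 : c ^ 2 ≤ V.b v i * ‖x‖ ^ 2 := by
    have e : c = ⟪V.P i v, x⟫ := by
      rw [hc]
      exact (ProjRot557.inner_P_left (V.M i) v x hx).symm
    have h4 := abs_real_inner_le_norm (V.P i v) x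
    rw [← e] at h4
    have h5 : c ^ 2 = |c| ^ 2 := (sq_abs c).symm
    rw [h5]
    unfold Flag.b
    rw [← mul_pow]
    exact pow_le_pow_left₀ (abs_nonneg c) h4 2
  obtain ⟨b, hb⟩ : ∃ b : ℝ, b = V.b v i := ⟨_, rfl⟩
  obtain ⟨sb, hsbd⟩ : ∃ sb : ℝ, sb = 2 * s - s ^ 2 := ⟨_, rfl⟩
  rw [← hb] at h3 hb0 hb1 ⊢
  rw [← hsbd] at h2 hsb
  have hsb0 : 0 ≤ sb := by rw [hsbd]; nlinarith
  obtain ⟨Y, hY⟩ : ∃ Y : ℝ, Y = ‖y‖ ^ 2 := ⟨_, rfl⟩
  have hY0 : 0 ≤ Y := by rw [hY]; positivity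
  rw [← hY] at h1 h2 ⊢
  have hx2 : ‖x‖ ^ 2 = Y + sb * c ^ 2 := by linarith
  rw [hx2] at h3
  have h7 : sb * b ≤ 1 / 2 := by
    calc sb * b ≤ 1 / 2 * 1 := mul_le_mul hsb hb1 hb0 (by norm_num)
      _ = 1 / 2 := by norm_num
  have h8 : sb * b * c ^ 2 ≤ 1 / 2 * c ^ 2 := mul_le_mul_of_nonneg_right h7 (sq_nonneg c)
  have h6 : c ^ 2 ≤ 2 * b * Y := by nlinarith
  rcases hY0.eq_or_lt with h0 | h0
  · rw [← h0]; positivity
  · have h9 : Y * Y ≤ (1 - s) ^ 2 * (2 * b) * Y := by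
      calc Y * Y = (1 - s) ^ 2 * c ^ 2 := by rw [h1]; ring
        _ ≤ (1 - s) ^ 2 * (2 * b * Y) := mul_le_mul_of_nonneg_left h6 (by positivity)
        _ = _ := by ring
    exact le_of_mul_le_mul_right h9 h0

/-- variance of `<v, T⁻¹ x'>` on the `V^s` side -/
lemma var_slab (V : Flag E) {v : E} (hv : ‖v‖ = 1) {s : ℝ} (hs0 : 0 < s) (hs1 : s < 1)
    (hsb : 2 * s - s ^ 2 ≤ 1 / 2) (i : ℕ) :
    ‖((V.rot v s).H i).adjoint ((1 - s)⁻¹ • v)‖ ^ 2 ≤ 2 * V.b v i := by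
  rw [adjoint_H, map_smul, norm_smul, mul_pow]
  have h1 := norm_Ps_v V hv hs0 hs1 hsb i
  have h2 := norm_H_le (V.rot v s) i v
  have h3 : ‖(V.rot v s).H i v‖ ^ 2 ≤ ‖(V.rot v s).P i v‖ ^ 2 :=
    pow_le_pow_left₀ (norm_nonneg _) h2 2
  have hs' : 0 < 1 - s := by linarith
  have h4 : ‖(1 - s)⁻¹‖ ^ 2 = ((1 - s) ^ 2)⁻¹ := by
    rw [Real.norm_eq_abs, sq_abs, inv_pow]
  rw [h4, inv_mul_le_iff₀ (by positivity)]
  exact h3.trans h1

/-- slab cut for a Gaussian `gau A` -/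
lemma slab_cut (A : E →L[ℝ] E) (n : E) (t : ℝ) {K : Set E} (hK : MeasurableSet K)
    (cK : Convex ℝ K) (sK : ∀ x ∈ K, -x ∈ K) :
    (gau A).real K * (gau A).real {x | |⟪n, x⟫| ≤ t}
      ≤ (gau A).real (K ∩ {x | |⟪n, x⟫| ≤ t}) := by
  have hm : MeasurableSet {x : E | |⟪n, x⟫| ≤ t} := measurableSet_le (by fun_prop) (by fun_prop)
  rw [gau_real_apply A hK, gau_real_apply A hm, gau_real_apply A (hK.inter hm)]
  have h := Dom640.slab_real (A.continuous.measurable hK)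
    (cK.linear_preimage A.toLinearMap) (fun x hx => by
      simp only [mem_preimage, map_neg] at hx ⊢
      exact sK _ hx) (A.adjoint n) t
  have e : {x : E | |⟪A.adjoint n, x⟫| ≤ t} = A ⁻¹' {x : E | |⟪n, x⟫| ≤ t} := by
    ext x
    simp only [mem_ofPred_eq, mem_preimage, ContinuousLinearMap.adjoint_inner_left]
  rw [e] at h
  exact h

/-- one-level comparison with gain, `Q_i v = 0` allowed -/
theorem level_gain {p : Par} (hp : p.Ok) {V : Flag E} {i : ℕ} {v : E} (hv : ‖v‖ = 1) {s : ℝ}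
    (hs0 : 0 < s) (hs1 : s < 1) (hsb : 2 * s - s ^ 2 ≤ 1 / 2) {c' dl : ℝ} (hc0 : 0 < c')
    {K K' K2 : Set E} {sl : ℝ} {μ : Multiset E} (hthin : ThinAt p V μ i c' dl)
    (hK : NearOpt p V i μ K sl) (hK1 : NearOpt p V i μ K (dl * p.lam i))
    (hsl : 0 ≤ sl)
    (hK' : IsCompact K') (h2c : IsClosed K2) (h2v : Convex ℝ K2)
    (h2s : ∀ x ∈ K2, -x ∈ K2) (h2p : 0 < (gau ((V.rot v s).H i)).real K2) (h2K : K2 ⊆ K') {t : ℝ}
    (hslab : ∀ x ∈ V.M i, Ts v s x ∈ K2 → |⟪v, x⟫| ≤ t)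
    (hcap : ∀ x ∈ V.M i, Ts v s x ∈ K2 → x ∈ V.cap p.rho i) :
    D p V i μ ≤ Eh K' μ + s * t * S μ v
      - p.lam i * Real.log ((gau ((V.rot v s).H i)).real K2)
      - p.lam i * ((2 * s - s ^ 2) / 4 * ‖V.Q i v‖ ^ 2 * (c' - 2 * (2 * s - s ^ 2) * ‖V.Q i v‖ ^ 2)
          - (2 * s - s ^ 2) * BB V v i) + sl := by
  have hlam : ∀ i, 0 ≤ p.lam i := fun i => (Rem864.lam_pos hp i).le
  obtain ⟨J, u, hN, hu⟩ := F5336.f5_N V hv hs0 hs1 hsb i
  have hsb0 : 0 < 2 * s - s ^ 2 := by nlinarith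
  by_cases hq : V.Q i v = 0
  · have hB : IsClosed ((V.rot v s).H i ⁻¹' K2) := h2c.preimage ((V.rot v s).H i).continuous
    have hcmp := Cmp142.cmp_sum_real (E := E) (F := E) hB.measurableSet
      (h2v.linear_preimage ((V.rot v s).H i).toLinearMap) (fun x hx => by
        simp only [mem_preimage, map_neg] at hx ⊢
        exact h2s _ hx) J (F6b696.Rm V v s i) u (fun g => by
          have h1 := hN g
          rw [hq] at h1
          simp only [inner_zero_left, ne_eq, OfNat.ofNat_ne_zero, not_false_eq_true, zero_pow,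
            mul_zero, add_zero] at h1
          exact h1)
    have h := F6b696.lev_direct hlam (AdmHalf606.cap_compact V i p.rho) hs0.le hK' h2c h2v h2s h2p
      h2K hslab hcap hcmp μ
    have h1 : p.lam i * ((∑ k ∈ J, ‖u k‖ ^ 2) / 2) ≤ p.lam i * ((2 * s - s ^ 2) * BB V v i) := by
      apply mul_le_mul_of_nonneg_left _ (hlam i)
      have := BB_nonneg V v i
      have h3 : 0 ≤ (2 * s - s ^ 2) * BB V v i := by positivity
      linarith
    rw [hq]
    simp only [norm_zero, ne_eq, OfNat.ofNat_ne_zero, not_false_eq_true, zero_pow, mul_zero,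
      zero_mul, zero_sub, mul_neg, sub_neg_eq_add]
    linarith
  · have hqn : 0 < ‖V.Q i v‖ := norm_pos_iff.2 hq
    obtain ⟨n, hn⟩ : ∃ n : E, n = ‖V.Q i v‖⁻¹ • V.Q i v := ⟨_, rfl⟩
    have hn1 : ‖n‖ = 1 := by
      rw [hn, norm_smul, norm_inv, norm_norm]
      exact inv_mul_cancel₀ hqn.ne'
    have hnQ : V.Q i n = n := by rw [hn, map_smul, Q_Q]
    have hq1 : ‖V.Q i v‖ ^ 2 ≤ 1 := by
      have h1 := norm_Q_sq V v i
      have h2 := b_le_one V hv i
      have h3 := b_nonneg V v (i + 1)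
      linarith
    have hτ : (2 * s - s ^ 2) / 2 * ‖V.Q i v‖ ^ 2 ≤ 1 / 4 := by nlinarith
    have e : ∀ g : E, ⟪V.Q i v, g⟫ ^ 2 = ‖V.Q i v‖ ^ 2 * ⟪n, g⟫ ^ 2 := by
      intro g
      rw [hn, inner_smul_left]
      simp only [map_inv₀, RCLike.conj_to_real]
      field_simp
    have hth := hthin K hK1 n hn1 hnQ
    have h := Level1606.level1_thin (p := p) hlam hn1 hnQ hs0.le (by positivity) hτ hc0.le J u
      (fun g => by
        have h1 := hN g
        rw [e g] at h1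
        have h2 : ‖F6b696.Rm V v s i g‖ = ‖(V.rot v s).Hi i (Ts v s (V.H i g))‖ := rfl
        rw [h2]
        linarith) hK hth hK' h2c h2v h2s h2p h2K hslab hcap
    have h1 : p.lam i * (∑ k ∈ J, ‖u k‖ ^ 2) ≤ p.lam i * ((2 * s - s ^ 2) * BB V v i) :=
      mul_le_mul_of_nonneg_left hu (hlam i)
    have h2 : (2 * s - s ^ 2) / 4 * ‖V.Q i v‖ ^ 2 * (c' - 2 * (2 * s - s ^ 2) * ‖V.Q i v‖ ^ 2)
        = (2 * s - s ^ 2) / 2 * ‖V.Q i v‖ ^ 2 / 2
          * (c' - 4 * ((2 * s - s ^ 2) / 2 * ‖V.Q i v‖ ^ 2)) := by ring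
    rw [h2]
    linarith

lemma neg_log_one_sub {x : ℝ} (h0 : 0 ≤ x) (h1 : x ≤ 1 / 2) : -(2 * x) ≤ Real.log (1 - x) := by
  have h := Real.one_sub_inv_le_log_of_pos (x := 1 - x) (by linarith)
  have h2 : (1 - x)⁻¹ ≤ 1 + 2 * x := by
    rw [inv_le_iff_one_le_mul₀ (by linarith)]
    nlinarith
  linarith

/-- real arithmetic of the good level -/
lemma good_real {sb c' q b B r : ℝ} (hsb0 : 0 < sb) (hsb : sb ≤ 1 / 16) (hc0 : 0 < c')
    (hc1 : c' < 1) (hsc : sb ≤ c' / 4) (hb : 0 ≤ b) (hB : 0 ≤ B) (hq0 : 0 ≤ q) (hq1 : q ≤ 1)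
    (hq : b - B ≤ q) (hr : 0 < r) (hrho : 64 * 2 * 32 ≤ c' * r) :
    sb * c' / 64 * (2 * b) + 2 * (32 * (sb * (2 * b + B)) / r)
      - (sb / 4 * q * (c' - 2 * sb * q) - sb * B) ≤ -(sb * c' / 32 * b) + 2 * B := by
  have h1 : 64 / r ≤ c' / 64 := by
    rw [div_le_iff₀ hr]; linarith
  have h2 : 0 ≤ sb * (2 * b + B) := by positivity
  have h3 : 2 * (32 * (sb * (2 * b + B)) / r) = 64 / r * (sb * (2 * b + B)) := by ring
  have h4 : 64 / r * (sb * (2 * b + B)) ≤ c' / 64 * (sb * (2 * b + B)) :=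
    mul_le_mul_of_nonneg_right h1 h2
  have h5 : sb * q ≤ c' / 4 := by
    calc sb * q ≤ sb * 1 := mul_le_mul_of_nonneg_left hq1 hsb0.le
      _ ≤ c' / 4 := by linarith
  have h6 : sb / 4 * q * (c' / 2) ≤ sb / 4 * q * (c' - 2 * sb * q) := by
    apply mul_le_mul_of_nonneg_left _ (by positivity)
    linarith
  have h7 : sb * c' / 8 * (b - B) ≤ sb * c' / 8 * q := mul_le_mul_of_nonneg_left hq (by positivity)
  have h8 : sb * c' * B ≤ 1 * B := by
    apply mul_le_mul_of_nonneg_right _ hB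
    calc sb * c' ≤ 1 * 1 := mul_le_mul (by linarith) hc1.le hc0.le zero_le_one
      _ = 1 := one_mul 1
  have h9 : sb * B ≤ 1 * B := mul_le_mul_of_nonneg_right (by linarith) hB
  have h10 : 0 ≤ sb * c' * b := by positivity
  rw [h3]
  nlinarith

theorem good_hi {p : Par} (hp : p.Ok) {s c' dl : ℝ} (hs0 : 0 < s) (hs1 : s < 1)
    (hsb : 2 * s - s ^ 2 ≤ 1 / 16) (hc0 : 0 < c') (hc1 : c' < 1) (hsc : 2 * s - s ^ 2 ≤ c' / 4)
    (hdl : 0 < dl) (hrho : 64 * 2 * 32 ≤ c' * p.rho ^ 2) :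
    TLevF300.GoodHi E p s c' dl ((2 * s - s ^ 2) * c' / 32) (2 + 7 * 64 / ((2 * s - s ^ 2) * c'))
      1 := by
  intro V μ v I i hv hS hI hi hthin hBB
  obtain ⟨sb, hsbd⟩ : ∃ sb : ℝ, sb = 2 * s - s ^ 2 := ⟨_, rfl⟩
  have hsb0 : 0 < sb := by rw [hsbd]; nlinarith
  rw [← hsbd] at hsb hsc ⊢
  have hsb2 : 2 * s - s ^ 2 ≤ 1 / 2 := by rw [← hsbd]; linarith
  have hlam := Rem864.lam_pos hp i
  have hlamI := Rem864.lam_pos hp I
  have hb0 := b_nonneg V v i
  have hb1 := b_le_one V hv i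
  have hBB0 := BB_nonneg V v i
  have hbs := b_succ_le_BB V v i
  have hQ := norm_Q_sq V v i
  have hrho16 := hp.rho_ge
  have hrho0 : 0 < p.rho ^ 2 := by positivity
  -- slab parameter
  obtain ⟨e, he⟩ : ∃ e : ℝ, e = sb * c' / 64 := ⟨_, rfl⟩
  have he0 : 0 < e := by rw [he]; positivity
  have he1 : e ≤ 1 := by
    rw [he]
    have : sb * c' ≤ 1 * 1 := mul_le_mul (by linarith) hc1.le hc0.le zero_le_one
    linarith
  obtain ⟨n', hn'⟩ : ∃ n' : E, n' = (1 - s)⁻¹ • v := ⟨_, rfl⟩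
  obtain ⟨t, ht0, htp, hrem⟩ := Rem864.rem_hi hp hI (S_nonneg μ v) hS hs0.le hs1.le he0 he1
    ((V.rot v s).H i) n'
  have hvar : ‖((V.rot v s).H i).adjoint n'‖ ^ 2 ≤ 2 * V.b v i := by
    rw [hn']; exact var_slab V hv hs0 hs1 hsb2 i
  -- cap parameter
  have hhh : Cap7_506.hh V v (2 * s - s ^ 2) i = sb * (2 * V.b v i + BB V v i) := by
    rw [hsbd]; rfl
  have hhh2 : Cap7_506.hh V v (2 * s - s ^ 2) i ≤ 1 / 2 := by
    rw [hhh]
    calc sb * (2 * V.b v i + BB V v i) ≤ 1 / 16 * 3 :=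
          mul_le_mul hsb (by linarith) (by positivity) (by norm_num)
      _ ≤ 1 / 2 := by norm_num
  obtain ⟨x, hx⟩ : ∃ x : ℝ, x = 32 * (sb * (2 * V.b v i + BB V v i)) / p.rho ^ 2 := ⟨_, rfl⟩
  have hx0 : 0 ≤ x := by rw [hx]; positivity
  have hx1 : x ≤ 1 / 2 := by
    rw [hx, div_le_iff₀ hrho0]
    have h1 : sb * (2 * V.b v i + BB V v i) ≤ 1 / 2 := by rw [← hhh]; exact hhh2
    nlinarith
  apply le_of_forall_pos_le_add
  intro ε hε
  obtain ⟨K, hKa, hKv⟩ := Fl597.exists_near hp V i μ (e := min ε (dl * p.lam i))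
    (lt_min hε (by positivity))
  have hKn1 : NearOpt p V i μ K (dl * p.lam i) := ⟨hKa, hKv.trans (by
    have := min_le_right ε (dl * p.lam i); linarith)⟩
  have hKn2 : NearOpt p V i μ K ε := ⟨hKa, hKv.trans (by
    have := min_le_left ε (dl * p.lam i); linarith)⟩
  have key : ∀ K', Adm p (V.rot v s) i K' →
      D p V i μ + p.lam i * (sb * c' / 32 * V.b v i
          - (2 + 7 * 64 / (sb * c')) * BB V v i)
        - (2 + 7 * 64 / (sb * c')) * p.lam I * (1 / 2) ^ (i - I) - ε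
        ≤ val p (V.rot v s) i μ K' := by
    intro K' hK'
    obtain ⟨hK'c, hK'v, hK's, hK'cap, hK'p⟩ := hK'
    have hK'comp : IsCompact K' :=
      (AdmHalf606.cap_compact (V.rot v s) i p.rho).of_isClosed_subset hK'c hK'cap
    obtain ⟨A, hA⟩ : ∃ A : E →L[ℝ] E, A = (V.rot v s).H i := ⟨_, rfl⟩
    -- the slab
    have hslc : IsClosed {y : E | |⟪n', y⟫| ≤ t} := isClosed_le (by fun_prop) continuous_const
    have hslv : Convex ℝ {y : E | |⟪n', y⟫| ≤ t} := by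
      intro y hy z hz a b ha hb hab
      simp only [mem_ofPred_eq] at hy hz ⊢
      rw [inner_add_right, inner_smul_right, inner_smul_right]
      calc |a * ⟪n', y⟫ + b * ⟪n', z⟫| ≤ |a * ⟪n', y⟫| + |b * ⟪n', z⟫| := abs_add_le _ _
        _ = a * |⟪n', y⟫| + b * |⟪n', z⟫| := by
            rw [abs_mul, abs_mul, abs_of_nonneg ha, abs_of_nonneg hb]
        _ ≤ a * t + b * t := add_le_add (mul_le_mul_of_nonneg_left hy ha)
            (mul_le_mul_of_nonneg_left hz hb)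
        _ = t := by rw [← add_mul, hab, one_mul]
    have hsls : ∀ y ∈ {y : E | |⟪n', y⟫| ≤ t}, -y ∈ {y : E | |⟪n', y⟫| ≤ t} := by
      intro y hy
      simp only [mem_ofPred_eq, inner_neg_right, abs_neg] at hy ⊢
      exact hy
    obtain ⟨K1, hK1⟩ : ∃ K1 : Set E, K1 = K' ∩ {y : E | |⟪n', y⟫| ≤ t} := ⟨_, rfl⟩
    have hK1c : IsClosed K1 := by rw [hK1]; exact hK'c.inter hslc
    have hK1v : Convex ℝ K1 := by rw [hK1]; exact hK'v.inter hslv
    have hK1s : ∀ y ∈ K1, -y ∈ K1 := by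
      rw [hK1]; intro y hy; exact ⟨hK's y hy.1, hsls y hy.2⟩
    have hK1cap : K1 ⊆ (V.rot v s).cap p.rho i := by
      rw [hK1]; exact fun y hy => hK'cap hy.1
    have hm1 := slab_cut ((V.rot v s).H i) n' t hK'c.measurableSet hK'v hK's
    rw [← hK1] at hm1
    -- the cap
    have hm2 := Cap7_506.cap_rot V hv hs0.le hs1 hi (rho := p.rho) (by linarith) hhh2 hK1c hK1v
      hK1s hK1cap
    rw [hhh, ← hx] at hm2
    obtain ⟨B, hB⟩ : ∃ B : E →L[ℝ] E, B = Cap7_506.nB V i ∘L Cap7_506.Ti v s := ⟨_, rfl⟩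
    obtain ⟨R, hR⟩ : ∃ R : ℝ, R = p.rho * Real.sqrt (V.rr i) := ⟨_, rfl⟩
    have hset : {y : E | ‖Cap7_506.nB V i (Cap7_506.Ti v s y)‖ ≤ p.rho * Real.sqrt (V.rr i)}
        = B ⁻¹' (Metric.closedBall 0 R) := by
      ext y
      rw [hB, hR]
      simp
    rw [hset] at hm2
    obtain ⟨K2, hK2⟩ : ∃ K2 : Set E, K2 = K1 ∩ B ⁻¹' (Metric.closedBall 0 R) := ⟨_, rfl⟩
    rw [← hK2] at hm2
    have hK2c : IsClosed K2 := by
      rw [hK2]; exact hK1c.inter (Metric.isClosed_closedBall.preimage B.continuous)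
    have hK2v : Convex ℝ K2 := by
      rw [hK2]; exact hK1v.inter ((convex_closedBall _ _).linear_preimage B.toLinearMap)
    have hK2s : ∀ y ∈ K2, -y ∈ K2 := by
      rw [hK2]; intro y hy
      refine ⟨hK1s y hy.1, ?_⟩
      have := hy.2
      simp only [mem_preimage, mem_closedBall_zero_iff, map_neg, norm_neg] at this ⊢
      exact this
    have hK2K : K2 ⊆ K' := by
      rw [hK2, hK1]; exact fun y hy => hy.1.1
    have hp1 : 0 < (gau ((V.rot v s).H i)).real K1 := lt_of_lt_of_le (by positivity) hm1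
    have hp2 : 0 < (gau ((V.rot v s).H i)).real K2 := by
      refine lt_of_lt_of_le ?_ hm2
      have : 0 < 1 - x := by linarith
      positivity
    have hs1' : (1 - s) ≠ 0 := by linarith
    have hslab : ∀ z ∈ V.M i, Ts v s z ∈ K2 → |⟪v, z⟫| ≤ t := by
      intro z _ hz
      rw [hK2, hK1] at hz
      have h1 := hz.1.2
      simp only [mem_ofPred_eq] at h1
      rw [hn', inner_smul_left, F6b696.inner_v_Ts hv] at h1
      simp only [map_inv₀, RCLike.conj_to_real] at h1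
      rwa [← mul_assoc, inv_mul_cancel₀ hs1', one_mul] at h1
    have hcap : ∀ z ∈ V.M i, Ts v s z ∈ K2 → z ∈ V.cap p.rho i := by
      intro z hzM hz
      rw [hK2, hB] at hz
      have h1 := hz.2
      simp only [mem_preimage, ContinuousLinearMap.coe_comp', Function.comp_apply,
        mem_closedBall_zero_iff] at h1
      rw [Cap7_506.Ti_Ts hv hs1, hR] at h1
      rw [Cap7_506.cap_eq V (by linarith) i]
      exact ⟨hzM, h1⟩
    have h := level_gain hp hv hs0 hs1 hsb2 hc0 hthin hKn2 hKn1 hε.le hK'comp hK2c hK2v hK2s hp2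
      hK2K hslab hcap
    rw [← hsbd] at h
    -- logs
    have hlog : Real.log ((gau ((V.rot v s).H i)).real K')
        + Real.log ((gau ((V.rot v s).H i)).real {y : E | |⟪n', y⟫| ≤ t}) - 2 * x
        ≤ Real.log ((gau ((V.rot v s).H i)).real K2) := by
      have h1x : 0 < 1 - x := by linarith
      have h1 : (1 - x) * ((gau ((V.rot v s).H i)).real K'
          * (gau ((V.rot v s).H i)).real {y : E | |⟪n', y⟫| ≤ t})
          ≤ (gau ((V.rot v s).H i)).real K2 :=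
        (mul_le_mul_of_nonneg_left hm1 h1x.le).trans hm2
      have h2 := Real.log_le_log (by positivity) h1
      rw [Real.log_mul h1x.ne' (by positivity), Real.log_mul hK'p.ne' htp.ne'] at h2
      have h3 := neg_log_one_sub hx0 hx1
      linarith
    have hlog' := mul_le_mul_of_nonneg_left hlog hlam.le
    have hrem1 : e * p.lam i * ‖((V.rot v s).H i).adjoint n'‖ ^ 2
        ≤ p.lam i * (sb * c' / 64 * (2 * V.b v i)) := by
      calc e * p.lam i * ‖((V.rot v s).H i).adjoint n'‖ ^ 2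
          ≤ e * p.lam i * (2 * V.b v i) := mul_le_mul_of_nonneg_left hvar (by positivity)
        _ = _ := by rw [he]; ring
    have hrem2 : 7 / e = 7 * 64 / (sb * c') := by rw [he]; field_simp
    rw [hrem2] at hrem
    have hreal := good_real (q := ‖V.Q i v‖ ^ 2) hsb0 hsb hc0 hc1 hsc hb0 hBB0 (sq_nonneg _)
      (by have := b_nonneg V v (i + 1); linarith) (by rw [hQ]; linarith) hrho0 hrho
    rw [← hx] at hreal
    have hreal' := mul_le_mul_of_nonneg_left hreal hlam.le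
    have hval : val p (V.rot v s) i μ K' = Eh K' μ
        - p.lam i * Real.log ((gau ((V.rot v s).H i)).real K') := rfl
    rw [hval]
    obtain ⟨W, hW⟩ : ∃ W : ℝ, W = 7 * 64 / (sb * c') := ⟨_, rfl⟩
    have hW0 : 0 ≤ W := by rw [hW]; positivity
    rw [← hW] at hrem ⊢
    have hz1 : 0 ≤ p.lam i * (W * BB V v i) := by positivity
    have hz2 : 0 ≤ 2 * p.lam I * (1 / 2) ^ (i - I) := by positivity
    linarith
  have hfin := Fl597.le_D (V := V.rot v s) (i := i) (μ := μ) hp key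
  linarith

theorem target_good : TLevF300.Target_GOOD := by
  intro c' dl hc0 hc1 hdl
  refine ⟨c' / 32, (2 * (c' / 32) - (c' / 32) ^ 2) * c' / 32,
    2 + 7 * 64 / ((2 * (c' / 32) - (c' / 32) ^ 2) * c'), 64 * 2 * 32 / c', 1, by positivity,
    by linarith, by nlinarith, ?_, ?_, one_pos, ?_⟩
  · have : 0 < 2 * (c' / 32) - (c' / 32) ^ 2 := by nlinarith
    positivity
  · have : 0 < 2 * (c' / 32) - (c' / 32) ^ 2 := by nlinarith
    positivity
  · intro d p hp hrho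
    refine good_hi hp (by positivity) (by linarith) (by nlinarith) hc0 hc1 (by nlinarith) hdl ?_
    have h1 : 64 * 2 * 32 ≤ c' * p.rho := by
      rw [div_le_iff₀ hc0] at hrho; linarith
    have h2 := hp.rho_ge
    have h3 : p.rho ≤ p.rho ^ 2 := by nlinarith
    have h4 := mul_le_mul_of_nonneg_left h3 hc0.le
    linarith

theorem target_lev : Target_LEV := TLevF300.target_lev target_good

end Crest.Agent.R239.LevG746
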