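import Crest.Agent.R239.Gau4

/-! helper603, R239 leaf REM: the three 1-D Gaussian slab bounds (r1)-(r3).

`slab v t := P(|ξ| ≤ t)`, `ξ ~ N(0,v)`, `v ≤ 1`. -/

set_option autoImplicit false
open MeasureTheory ProbabilityTheory Set Filter Topology
open scoped RealInnerProductSpace ENNReal NNReal

namespace Crest.Agent.R239.Rem603

open Crest.Agent.Lib.Ehrhard (phi Phi Psi)

/-- `P(|ξ| ≤ t)` for `ξ ~ N(0,v)`. -/
noncomputable def slab (v : ℝ≥0) (t : ℝ) : ℝ := (gaussianReal 0 v).real (Icc (-t) t)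

lemma slab_nonneg (v : ℝ≥0) (t : ℝ) : 0 ≤ slab v t := measureReal_nonneg

lemma slab_le_one (v : ℝ≥0) (t : ℝ) : slab v t ≤ 1 := measureReal_le_one

lemma slab_mono (v : ℝ≥0) {s t : ℝ} (h : s ≤ t) : slab v s ≤ slab v t :=
  measureReal_mono (Icc_subset_Icc (by linarith) h)

lemma gaussian_scale (v : ℝ≥0) :
    gaussianReal 0 v = (gaussianReal 0 1).map (fun x => Real.sqrt v * x) := by
  rw [gaussianReal_map_const_mul]
  congr 1
  · simp
  · ext
    simp

lemma slab_eq (v : ℝ≥0) (t : ℝ) :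
    slab v t = (gaussianReal 0 1).real {x | |Real.sqrt v * x| ≤ t} := by
  unfold slab
  rw [gaussian_scale, Measure.real, Measure.map_apply (by fun_prop) measurableSet_Icc]
  congr 2
  ext x
  simp only [mem_preimage, mem_Icc, mem_ofPred_eq, abs_le]

/-- scaling: `P(√v |g| ≤ √v u) ≥ P(|g| ≤ u)`. -/
lemma slab_scale (v : ℝ≥0) (u : ℝ) : slab 1 u ≤ slab v (Real.sqrt v * u) := by
  rw [slab_eq, slab_eq]
  refine measureReal_mono fun x hx => ?_
  simp only [mem_ofPred_eq, NNReal.coe_one, Real.sqrt_one, one_mul] at hx ⊢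
  rw [abs_mul, abs_of_nonneg (Real.sqrt_nonneg _)]
  exact mul_le_mul_of_nonneg_left hx (Real.sqrt_nonneg _)

lemma slab_anti {v w : ℝ≥0} (h : v ≤ w) (t : ℝ) : slab w t ≤ slab v t := by
  rw [slab_eq, slab_eq]
  refine measureReal_mono fun x hx => ?_
  simp only [mem_ofPred_eq] at hx ⊢
  refine le_trans ?_ hx
  rw [abs_mul, abs_mul, abs_of_nonneg (Real.sqrt_nonneg _), abs_of_nonneg (Real.sqrt_nonneg _)]
  exact mul_le_mul_of_nonneg_right (Real.sqrt_le_sqrt (by exact_mod_cast h)) (abs_nonneg _)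

/-- small ball: `P(|g| ≤ t) ≥ t / e` for `0 ≤ t ≤ 1`. -/
lemma slab_small {t : ℝ} (h0 : 0 ≤ t) (h1 : t ≤ 1) : t * Real.exp (-1) ≤ slab 1 t := by
  unfold slab
  have hval : (gaussianReal 0 1).real (Icc (-t) t) = ∫ x in Icc (-t) t, phi x := by
    rw [Measure.real, gaussianReal_apply_eq_integral _ one_ne_zero, ENNReal.toReal_ofReal]
    · rw [← Crest.Agent.Lib.Ehrhard.phi_eq]
    · exact integral_nonneg fun x => gaussianPDFReal_nonneg _ _ _
  rw [hval]
  have hc : Real.exp (-1) ≤ 2 * ((Real.sqrt (2 * Real.pi))⁻¹ * Real.exp (-(1/2))) := by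
    have h2 : Real.sqrt (2 * Real.pi) ≤ 2 * Real.exp (1/2) := by
      have h3 : Real.sqrt (2 * Real.pi) ≤ 3 := by
        rw [Real.sqrt_le_left (by norm_num)]
        have := Real.pi_lt_four
        linarith
      have h4 : (1/2 : ℝ) + 1 ≤ Real.exp (1/2) := Real.add_one_le_exp _
      linarith
    have hs : 0 < Real.sqrt (2 * Real.pi) := Real.sqrt_pos.2 (by positivity)
    have e1 : Real.exp (-1) = Real.exp (-(1/2)) * (Real.exp (1/2))⁻¹ := by
      rw [← Real.exp_neg, ← Real.exp_add]; norm_num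
    rw [e1]
    have h5 : (Real.exp (1/2))⁻¹ ≤ 2 * (Real.sqrt (2 * Real.pi))⁻¹ := by
      rw [inv_le_iff_one_le_mul₀ (Real.exp_pos _)]
      rw [← div_eq_mul_inv, ← mul_div_right_comm, le_div_iff₀ hs]
      linarith
    calc Real.exp (-(1/2)) * (Real.exp (1/2))⁻¹
        ≤ Real.exp (-(1/2)) * (2 * (Real.sqrt (2 * Real.pi))⁻¹) :=
          mul_le_mul_of_nonneg_left h5 (Real.exp_pos _).le
      _ = _ := by ring
  have hlow : ∫ _x in Icc (-t) t, (Real.sqrt (2 * Real.pi))⁻¹ * Real.exp (-(1/2))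
      ≤ ∫ x in Icc (-t) t, phi x := by
    refine setIntegral_mono_on ?_ ?_ measurableSet_Icc ?_
    · exact integrableOn_const (by simp)
    · exact Crest.Agent.Lib.Ehrhard.integrable_phi.integrableOn
    · intro x hx
      unfold Crest.Agent.Lib.Ehrhard.phi
      refine mul_le_mul_of_nonneg_left (Real.exp_le_exp.2 ?_) (by positivity)
      have : x ^ 2 ≤ 1 := by
        rw [mem_Icc] at hx
        nlinarith [hx.1, hx.2]
      linarith
  rw [setIntegral_const] at hlow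
  simp only [Measure.real, Real.volume_Icc, smul_eq_mul] at hlow
  rw [ENNReal.toReal_ofReal (by linarith)] at hlow
  refine le_trans ?_ hlow
  calc t * Real.exp (-1) ≤ t * (2 * ((Real.sqrt (2 * Real.pi))⁻¹ * Real.exp (-(1/2)))) :=
        mul_le_mul_of_nonneg_left hc h0
    _ = _ := by ring

/-- tail: `P(|g| ≤ u) ≥ 1 - 2 exp(-3u²/8)`. -/
lemma slab_tail {u : ℝ} (hu : 0 ≤ u) : 1 - 2 * Real.exp (-(3 * u ^ 2 / 8)) ≤ slab 1 u := by
  have h := norm_tail (E := ℝ) (l := 3/4) (by norm_num) (by norm_num) hu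
  rw [stdGaussian_real] at h
  have e1 : (1 - (3/4 : ℝ)) ^ (-((Module.finrank ℝ ℝ : ℝ) / 2)) = 2 := by
    rw [Module.finrank_self]
    have : (1 - (3/4:ℝ)) = 2⁻¹ ^ (2:ℝ) := by norm_num
    rw [this, ← Real.rpow_mul (by norm_num)]
    norm_num
  rw [e1] at h
  have e2 : -((3/4 : ℝ) * u ^ 2 / 2) = -(3 * u ^ 2 / 8) := by ring
  rw [e2] at h
  have hc : (gaussianReal 0 1).real (Icc (-u) u)ᶜ ≤ 2 * Real.exp (-(3 * u ^ 2 / 8)) := by
    refine le_trans (measureReal_mono fun x hx => ?_) h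
    simp only [mem_compl_iff, mem_Icc, not_and_or, not_le, mem_ofPred_eq, Real.norm_eq_abs] at hx ⊢
    rcases hx with hx | hx
    · rw [le_abs]; right; linarith
    · rw [le_abs]; left; linarith
  have hs := probReal_compl_eq_one_sub (μ := gaussianReal 0 1) (s := Icc (-u) u) measurableSet_Icc
  unfold slab
  linarith

lemma slab_pos {v : ℝ≥0} (hv : v ≤ 1) {t : ℝ} (ht : 0 < t) : 0 < slab v t := by
  have h1 : 0 < slab 1 (min t 1) := by
    refine lt_of_lt_of_le ?_ (slab_small (t := min t 1) (by positivity) (min_le_right _ _))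
    positivity
  exact lt_of_lt_of_le h1 ((slab_mono 1 (min_le_left _ _)).trans (slab_anti hv t))

/-- (r2) and (r1): for `0 < S`. -/
theorem rem_le_log {v : ℝ≥0} (hv : v ≤ 1) {lam S : ℝ} (hlam : 0 < lam) (hS : lam ≤ S) :
    ∃ t : ℝ, 0 < t ∧ t * S - lam * Real.log (slab v t) ≤ lam * (2 + Real.log (S / lam)) := by
  have hS0 : 0 < S := lt_of_lt_of_le hlam hS
  refine ⟨lam / S, by positivity, ?_⟩
  have ht1 : lam / S ≤ 1 := (div_le_one hS0).2 hS
  have ht0 : 0 < lam / S := by positivity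
  have h1 : (lam / S) * Real.exp (-1) ≤ slab v (lam / S) :=
    (slab_small ht0.le ht1).trans (slab_anti hv _)
  have h2 : Real.log ((lam / S) * Real.exp (-1)) ≤ Real.log (slab v (lam / S)) :=
    Real.log_le_log (by positivity) h1
  rw [Real.log_mul ht0.ne' (Real.exp_pos _).ne', Real.log_exp] at h2
  have h3 : Real.log (lam / S) = - Real.log (S / lam) := by
    rw [← Real.log_inv, inv_div]
  rw [h3] at h2
  have h4 : lam / S * S = lam := by field_simp
  rw [h4]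
  nlinarith

/-- (r1) `S ≤ lam`: the remainder is at most `3 lam`. -/
theorem rem_le_three {v : ℝ≥0} (hv : v ≤ 1) {lam S : ℝ} (hlam : 0 < lam) (hS : S ≤ lam) :
    ∃ t : ℝ, 0 < t ∧ t * S - lam * Real.log (slab v t) ≤ 2 * lam := by
  refine ⟨1, by norm_num, ?_⟩
  have h1 : Real.exp (-1) ≤ slab v 1 := by
    have := (slab_small (t := 1) (by norm_num) le_rfl).trans (slab_anti hv _)
    simpa using this
  have h2 : (-1 : ℝ) ≤ Real.log (slab v 1) := by
    rw [Real.le_log_iff_exp_le (slab_pos hv (by norm_num))]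
    exact h1
  nlinarith

lemma neg_log_le {x : ℝ} (h0 : 0 ≤ x) (h1 : x ≤ 1/4) : -Real.log (1 - x) ≤ (4/3) * x := by
  have h := Real.one_sub_inv_le_log_of_pos (x := 1 - x) (by linarith)
  have h2 : (1 - x)⁻¹ ≤ 1 + (4/3) * x := by
    rw [inv_le_iff_one_le_mul₀ (by linarith)]
    nlinarith
  linarith

/-- (r3) small remainder: `0 < S ≤ lam`, `0 < e ≤ 1`. -/
theorem rem_small {v : ℝ≥0} {lam S e : ℝ} (hlam : 0 < lam) (hS0 : 0 < S)
    (hS : S ≤ lam) (he : 0 < e) (he1 : e ≤ 1) :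
    ∃ t : ℝ, 0 < t ∧ t * S - lam * Real.log (slab v t)
      ≤ e * lam * v + (3 / e) * (S ^ 2 / lam) * Real.log (2 * lam / S) := by
  -- ε = S / lam
  obtain ⟨ε, hε⟩ : ∃ ε, ε = S / lam := ⟨_, rfl⟩
  have hε0 : 0 < ε := by rw [hε]; positivity
  have hε1 : ε ≤ 1 := by rw [hε]; exact (div_le_one hlam).2 hS
  have hSε : S = ε * lam := by rw [hε]; field_simp
  have hL : 2 * lam / S = 2 / ε := by rw [hSε]; field_simp
  rw [hL]
  obtain ⟨L, hLdef⟩ : ∃ L, L = Real.log (2 / ε) := ⟨_, rfl⟩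
  rw [← hLdef]
  have hL2 : (2/3 : ℝ) ≤ L := by
    have h1 : Real.log 2 ≤ L := by
      rw [hLdef]
      refine Real.log_le_log (by norm_num) ?_
      rw [le_div_iff₀ hε0]; nlinarith
    have := Real.log_two_gt_d9
    linarith
  have hlog2 : Real.log 2 ≤ L := by
    rw [hLdef]
    refine Real.log_le_log (by norm_num) ?_
    rw [le_div_iff₀ hε0]; nlinarith
  -- u² = 8 L
  obtain ⟨u, hu⟩ : ∃ u, u = Real.sqrt (8 * L) := ⟨_, rfl⟩
  have hu0 : 0 < u := by rw [hu]; exact Real.sqrt_pos.2 (by linarith)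
  have hu2 : u ^ 2 = 8 * L := by rw [hu]; exact Real.sq_sqrt (by linarith)
  have hexpL : Real.exp (-L) = ε / 2 := by
    rw [hLdef, Real.exp_neg, Real.exp_log (by positivity)]
    field_simp
  have hx : 2 * Real.exp (-(3 * u ^ 2 / 8)) ≤ ε ^ 2 / 4 := by
    rw [hu2]
    have e1 : -(3 * (8 * L) / 8) = -L + -L + -L := by ring
    rw [e1, Real.exp_add, Real.exp_add, hexpL]
    nlinarith [mul_nonneg (sq_nonneg ε) (sub_nonneg.2 hε1)]
  have htail := slab_tail hu0.le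
  have hx14 : ε ^ 2 / 4 ≤ 1 / 4 := by nlinarith
  -- small extra width to have t > 0
  obtain ⟨r, hr⟩ : ∃ r, r = Real.sqrt v := ⟨_, rfl⟩
  have hr0 : 0 ≤ r := by rw [hr]; exact Real.sqrt_nonneg _
  have hr2 : r ^ 2 = v := by rw [hr]; exact Real.sq_sqrt v.2
  -- t = r u + ε * L / 3
  refine ⟨r * u + ε * L / 3, by positivity, ?_⟩
  have hp1 : slab 1 u ≤ slab v (r * u + ε * L / 3) := by
    refine (slab_scale v u).trans (slab_mono v ?_)
    rw [← hr]
    have : 0 ≤ ε * L / 3 := by positivity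
    linarith
  have hp2 : 1 - ε ^ 2 / 4 ≤ slab v (r * u + ε * L / 3) := by linarith
  have hlog : -Real.log (slab v (r * u + ε * L / 3)) ≤ (4/3) * (ε ^ 2 / 4) := by
    have h1 := neg_log_le (x := ε ^ 2 / 4) (by positivity) hx14
    have h2 := Real.log_le_log (by linarith) hp2
    linarith
  have key : r * u * ε ≤ e * r ^ 2 + (2 / e) * (ε ^ 2 * L) := by
    have h1 : r * u * ε ≤ e * r ^ 2 + (u * ε) ^ 2 / (4 * e) := by
      rw [← sub_nonneg]
      have : e * r ^ 2 + (u * ε) ^ 2 / (4 * e) - r * u * ε = (2 * e * r - u * ε) ^ 2 / (4 * e) := by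
        field_simp
        ring
      rw [this]
      positivity
    have h2 : (u * ε) ^ 2 / (4 * e) = (2 / e) * (ε ^ 2 * L) := by
      rw [mul_pow, hu2]
      field_simp
      ring
    linarith
  have hεL : 0 ≤ ε ^ 2 * L := by positivity
  have h3 : ε ^ 2 * L ≤ (1 / e) * (ε ^ 2 * L) := by
    have : (1 : ℝ) ≤ 1 / e := by rw [le_div_iff₀ he]; linarith
    nlinarith
  have h4 : ε ^ 2 ≤ (3/2) * (ε ^ 2 * L) := by nlinarith [sq_nonneg ε]
  have hS2 : S ^ 2 / lam = ε ^ 2 * lam := by rw [hSε]; field_simp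
  rw [hS2, hSε]
  have h5 : (r * u + ε * L / 3) * (ε * lam) - lam * Real.log (slab v (r * u + ε * L / 3))
      = lam * (r * u * ε + ε ^ 2 * L / 3 + -Real.log (slab v (r * u + ε * L / 3))) := by ring
  have h6 : e * lam * (v : ℝ) + 3 / e * (ε ^ 2 * lam) * L
      = lam * (e * r ^ 2 + (2 / e) * (ε ^ 2 * L) + (1 / e) * (ε ^ 2 * L)) := by
    rw [hr2]; ring
  rw [h5, h6]
  refine mul_le_mul_of_nonneg_left ?_ hlam.le
  nlinarith

/-- `S = 0` (or any): for every `δ > 0` some slab costs at most `δ`. -/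
theorem rem_zero (v : ℝ≥0) {δ : ℝ} (hδ : 0 < δ) :
    ∃ t : ℝ, 0 < t ∧ 0 < slab v t ∧ -Real.log (slab v t) ≤ δ := by
  obtain ⟨L, hLdef⟩ : ∃ L : ℝ, 2 ≤ L ∧ (4/3) * (2 / L) ≤ δ := by
    refine ⟨max 8 (8 / (3 * δ)), le_trans (by norm_num) (le_max_left _ _), ?_⟩
    have h1 : 8 / (3 * δ) ≤ max 8 (8 / (3 * δ)) := le_max_right _ _
    have hpos : 0 < max 8 (8 / (3 * δ)) := lt_of_lt_of_le (by norm_num) (le_max_left _ _)
    rw [mul_div_assoc', div_le_iff₀ hpos]
    rw [div_le_iff₀ (by positivity)] at h1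
    linarith
  obtain ⟨hL2, hLδ⟩ := hLdef
  obtain ⟨M, hM, hMδ⟩ : ∃ M : ℝ, 8 ≤ M ∧ (4/3) * (2 / M) ≤ δ := by
    refine ⟨max 8 L, le_max_left _ _, le_trans ?_ hLδ⟩
    have : 2 / max 8 L ≤ 2 / L := div_le_div_of_nonneg_left (by norm_num) (by linarith) (le_max_right _ _)
    linarith
  obtain ⟨u, hu⟩ : ∃ u, u = Real.sqrt (8 * M / 3) := ⟨_, rfl⟩
  have hu0 : 0 < u := by rw [hu]; exact Real.sqrt_pos.2 (by linarith)
  have hu2 : u ^ 2 = 8 * M / 3 := by rw [hu]; exact Real.sq_sqrt (by linarith)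
  have hx : 2 * Real.exp (-(3 * u ^ 2 / 8)) ≤ 2 / M := by
    rw [hu2]
    have e1 : -(3 * (8 * M / 3) / 8) = -M := by ring
    rw [e1, Real.exp_neg]
    have h1 : M ≤ Real.exp M := by
      have := Real.add_one_le_exp M
      linarith
    have h2 : (Real.exp M)⁻¹ ≤ M⁻¹ := inv_anti₀ (by linarith) h1
    rw [div_eq_mul_inv]
    linarith
  have hM4 : 2 / M ≤ 1 / 4 := by
    rw [div_le_iff₀ (by linarith)]; linarith
  have htail := slab_tail hu0.le
  have ht : 0 < Real.sqrt v * u + 1 := by positivity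
  have hp1 : slab 1 u ≤ slab v (Real.sqrt v * u + 1) :=
    (slab_scale v u).trans (slab_mono v (by linarith))
  have hp2 : 1 - 2 / M ≤ slab v (Real.sqrt v * u + 1) := by linarith
  refine ⟨Real.sqrt v * u + 1, ht, by linarith, ?_⟩
  have h1 := neg_log_le (x := 2 / M) (by positivity) hM4
  have h2 := Real.log_le_log (by linarith) hp2
  linarith

section Std

variable {E : Type*} [NormedAddCommGroup E] [InnerProductSpace ℝ E] [FiniteDimensional ℝ E]
  [MeasurableSpace E] [BorelSpace E]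

/-- The slab in the standard Gaussian of `E`. -/
theorem slab_std (w : E) (t : ℝ) :
    (stdGaussian E).real {g : E | |⟪w, g⟫| ≤ t} = slab (‖w‖₊ ^ 2) t := by
  have h := gau_map_inner (ContinuousLinearMap.id ℝ E) w
  rw [gau_id, adjoint_id'] at h
  unfold slab
  simp only [ContinuousLinearMap.coe_id', id_eq] at h
  rw [← h, Measure.real, Measure.real, Measure.map_apply (by fun_prop) measurableSet_Icc]
  congr 2
  ext x
  simp only [mem_preimage, mem_Icc, mem_ofPred_eq, abs_le]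

/-- The slab under `gau A`. -/
theorem slab_gau {F : Type*} [NormedAddCommGroup F] [InnerProductSpace ℝ F]
    [FiniteDimensional ℝ F] [MeasurableSpace F] [BorelSpace F] (A : F →L[ℝ] E) (w : E) (t : ℝ) :
    (gau A).real {g : E | |⟪w, g⟫| ≤ t} = slab (‖A.adjoint w‖₊ ^ 2) t := by
  have h := gau_map_inner A w
  unfold slab
  rw [← h, Measure.real, Measure.real, Measure.map_apply (by fun_prop) measurableSet_Icc]
  congr 2
  ext x
  simp only [mem_preimage, mem_Icc, mem_ofPred_eq, abs_le]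

/-- All three bounds in the standard Gaussian of `E`, `‖w‖ ≤ 1`. -/
theorem rem_std (w : E) (hw : ‖w‖ ≤ 1) {lam S : ℝ} (hlam : 0 < lam) :
    (S ≤ lam → ∃ t : ℝ, 0 < t ∧ 0 < (stdGaussian E).real {g : E | |⟪w, g⟫| ≤ t} ∧
        t * S - lam * Real.log ((stdGaussian E).real {g : E | |⟪w, g⟫| ≤ t}) ≤ 2 * lam) ∧
    (lam ≤ S → ∃ t : ℝ, 0 < t ∧ 0 < (stdGaussian E).real {g : E | |⟪w, g⟫| ≤ t} ∧
        t * S - lam * Real.log ((stdGaussian E).real {g : E | |⟪w, g⟫| ≤ t})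
          ≤ lam * (2 + Real.log (S / lam))) ∧
    (∀ e : ℝ, 0 < e → e ≤ 1 → 0 < S → S ≤ lam →
      ∃ t : ℝ, 0 < t ∧ 0 < (stdGaussian E).real {g : E | |⟪w, g⟫| ≤ t} ∧
        t * S - lam * Real.log ((stdGaussian E).real {g : E | |⟪w, g⟫| ≤ t})
          ≤ e * lam * ‖w‖ ^ 2 + (3 / e) * (S ^ 2 / lam) * Real.log (2 * lam / S)) ∧
    (∀ δ : ℝ, 0 < δ → ∃ t : ℝ, 0 < t ∧ 0 < (stdGaussian E).real {g : E | |⟪w, g⟫| ≤ t} ∧
        - Real.log ((stdGaussian E).real {g : E | |⟪w, g⟫| ≤ t}) ≤ δ) := by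
  have hv : (‖w‖₊ ^ 2 : ℝ≥0) ≤ 1 := by
    rw [← NNReal.coe_le_coe]
    push_cast
    nlinarith [norm_nonneg w]
  have hcoe : ((‖w‖₊ ^ 2 : ℝ≥0) : ℝ) = ‖w‖ ^ 2 := by push_cast; rfl
  simp only [slab_std]
  refine ⟨fun h => ?_, fun h => ?_, fun e he he1 h0 h => ?_, fun δ hδ => ?_⟩
  · obtain ⟨t, ht, h'⟩ := rem_le_three hv hlam h
    exact ⟨t, ht, slab_pos hv ht, h'⟩
  · obtain ⟨t, ht, h'⟩ := rem_le_log hv hlam h
    exact ⟨t, ht, slab_pos hv ht, h'⟩
  · obtain ⟨t, ht, h'⟩ := rem_small hlam h0 h he he1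
    rw [hcoe] at h'
    exact ⟨t, ht, slab_pos hv ht, h'⟩
  · exact rem_zero _ hδ

end Std

end Crest.Agent.R239.Rem603
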