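import Crest.Agent.R239.FDef
import Crest.Agent.R239.Mom_764
import Crest.Agent.R239.Dom_640
import Crest.Agent.R239.Rem_603
import Crest.Agent.R239.Cmp2_142
import Crest.Agent.R239.Rot_203
import Crest.Agent.R239.AdmHalf_606

/-!
# R239: the one-level comparison WITHOUT gain (helper679)

`D_i(V) ≤ D_i(V^s) + s t S_mu(v) + lam_i (b_i/2 + 2 BB_i + 2 - log t)` for every level `i < n` and
`0 < t ≤ 1`: (CMP) on the pulled back body, then slab and cap cut ON THE SIDE OF `V`.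
Consequences: `P_LEVlo` and `P_LEVhi` at the bad levels (`BB_i` not small).
-/

set_option autoImplicit false
set_option linter.unusedSectionVars false
open MeasureTheory ProbabilityTheory Set
open scoped RealInnerProductSpace

namespace Crest.Agent.R239.LevLo679

open Crest.Agent.R239 (gau)
open Crest.Agent.R239.FD

variable {E : Type*} [NormedAddCommGroup E] [InnerProductSpace ℝ E] [FiniteDimensional ℝ E]

section alg

lemma th_pos : 0 < th := by unfold th; norm_num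
lemma th_le : th ≤ 1 := by unfold th; norm_num

variable (V : Flag E)

lemma H_eq (i : ℕ) : V.H i = Mom764.H th V.M V.n i := rfl
lemma Hi_eq (i : ℕ) : V.Hi i = Mom764.Hi th V.M V.n i := rfl
lemma Mn : V.M V.n = ⊥ := V.bot V.n le_rfl

lemma Ts_coe (v : E) (s : ℝ) : (Ts v s : E →L[ℝ] E).toLinearMap = Rot203.Ts s v := by
  ext x
  simp [Ts_apply]

lemma H_mem (i : ℕ) (g : E) : V.H i g ∈ V.M i := by
  rw [H_eq]; exact Mom764.H_mem V.anti th V.n i g

lemma H_Hi {i : ℕ} (h : i ≤ V.n) (x : E) : V.H i (V.Hi i x) = (V.M i).starProjection x := by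
  rw [H_eq, Hi_eq]; exact Mom764.H_Hi V.anti th_pos.ne' h (Mn V) x

lemma Hi_H {i : ℕ} (h : i ≤ V.n) (x : E) : V.Hi i (V.H i x) = (V.M i).starProjection x := by
  rw [H_eq, Hi_eq]; exact Mom764.Hi_H V.anti th_pos.ne' h (Mn V) x

lemma inner_H (i : ℕ) (x y : E) : ⟪V.H i x, y⟫ = ⟪x, V.H i y⟫ := by
  rw [H_eq]; exact Mom764.inner_H_left th V.n i x y

lemma om_eq {m : ℕ} (hm : 1 ≤ m) : (th⁻¹) ^ (2 * m) - (th⁻¹) ^ (2 * (m - 1)) = om m := by
  obtain ⟨k, rfl⟩ : ∃ k, m = k + 1 := ⟨m - 1, by omega⟩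
  have e : 2 * (k + 1) = 2 * k + 2 := by ring
  rw [om, Nat.add_sub_cancel, e, pow_add]
  have h : th ≠ 0 := th_pos.ne'
  field_simp

lemma om_nonneg (m : ℕ) : 0 ≤ om m := by
  unfold om th
  have : (0:ℝ) ≤ ((4/5:ℝ)⁻¹) ^ (2 * m) := by positivity
  nlinarith

lemma norm_Hi_sq {i : ℕ} (h : i ≤ V.n) (x : E) :
    ‖V.Hi i x‖ ^ 2 = ‖(V.M i).starProjection x‖ ^ 2
      + ∑ j ∈ Finset.Ico (i + 1) V.n, om (j - i) * ‖(V.M j).starProjection x‖ ^ 2 := by
  rw [Hi_eq, Mom764.norm_Hi_sq V.anti h (Mn V) x]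
  congr 1
  refine Finset.sum_congr rfl fun j hj => ?_
  rw [om_eq (by have := (Finset.mem_Ico.1 hj).1; omega)]

/-- the map `R` -/
noncomputable def R (v : E) (s : ℝ) (i : ℕ) : E →L[ℝ] E :=
  (V.rot v s).Hi i ∘L Ts v s ∘L V.H i

lemma R_apply (v : E) (s : ℝ) (i : ℕ) (g : E) :
    R V v s i g = (V.rot v s).Hi i (Ts v s (V.H i g)) := rfl

lemma Ts_mem_rot (v : E) (s : ℝ) {i : ℕ} {x : E} (hx : x ∈ V.M i) :
    Ts v s x ∈ (V.rot v s).M i := Submodule.mem_map_of_mem hx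

lemma H_R (v : E) (s : ℝ) {i : ℕ} (h : i ≤ V.n) (g : E) :
    (V.rot v s).H i (R V v s i g) = Ts v s (V.H i g) := by
  rw [R_apply, H_Hi (V.rot v s) h]
  exact Submodule.starProjection_eq_self_iff.2 (Ts_mem_rot V v s (H_mem V i g))

lemma P_eq (j : ℕ) (x : E) : V.P j x = (V.M j).starProjection x := rfl

lemma b_eq (v : E) (j : ℕ) : V.b v j = ‖(V.M j).starProjection v‖ ^ 2 := rfl

lemma b_nonneg (v : E) (j : ℕ) : 0 ≤ V.b v j := sq_nonneg _

lemma b_le_one {v : E} (hv : ‖v‖ = 1) (j : ℕ) : V.b v j ≤ 1 := by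
  rw [b_eq]
  have h := (V.M j).norm_starProjection_apply_le v
  rw [hv] at h
  exact pow_le_one₀ (norm_nonneg _) h

/-- exact formula (ROT), for all `x ∈ M i`. -/
lemma rot_formula {v : E} (hv : ‖v‖ = 1) {s : ℝ} (h0 : 0 ≤ s) (h1 : s ≤ 1 / 4) {i : ℕ}
    (hi : i < V.n) {x : E} (hx : x ∈ V.M i) :
    ‖(V.rot v s).Hi i (Ts v s x)‖ ^ 2 = ‖V.Hi i x‖ ^ 2 - qf V v (2 * s - s ^ 2) i x := by
  have hn : (V.rot v s).n = V.n := rfl
  rw [norm_Hi_sq (V.rot v s) (by rw [hn]; exact hi.le), hn, norm_Hi_sq V hi.le, qf]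
  have e0 : ‖((V.rot v s).M i).starProjection (Ts v s x)‖ ^ 2
      = ‖(V.M i).starProjection x‖ ^ 2 - (2 * s - s ^ 2) * ⟪v, x⟫ ^ 2 := by
    rw [Submodule.starProjection_eq_self_iff.2 (Ts_mem_rot V v s hx),
      Submodule.starProjection_eq_self_iff.2 hx]
    have h := Rot203.norm_Ts_sq hv s x
    rw [← Ts_coe] at h
    exact h
  have ej : ∀ j ∈ Finset.Ico (i + 1) V.n,
      om (j - i) * ‖((V.rot v s).M j).starProjection (Ts v s x)‖ ^ 2
        = om (j - i) * ‖(V.M j).starProjection x‖ ^ 2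
          - (2 * s - s ^ 2) * (om (j - i) * (⟪v, x⟫ ^ 2
            - ⟪v - V.P j v, x⟫ ^ 2 / (1 - (2 * s - s ^ 2) * V.b v j))) := by
    intro j _
    have hb1 := b_le_one V hv j
    have hb0 := b_nonneg V v j
    have hsb : 0 ≤ 2 * s - s ^ 2 := by nlinarith
    have hsb2 : 2 * s - s ^ 2 ≤ 1 / 2 := by nlinarith
    have hne : 1 - (2 * s - s ^ 2) * V.b v j ≠ 0 := by nlinarith
    have h := Rot203.norm_proj_Ts_sq hv (V.M j) s x hne
    rw [← Ts_coe] at h
    have e : ‖((V.rot v s).M j).starProjection (Ts v s x)‖ ^ 2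
        = ‖(V.M j).starProjection x‖ ^ 2 - (2 * s - s ^ 2) * ⟪v, x⟫ ^ 2
        + (2 * s - s ^ 2) * (⟪v, x⟫ - ⟪(V.M j).starProjection v, x⟫) ^ 2
          / (1 - (2 * s - s ^ 2) * V.b v j) := h
    rw [e, inner_sub_left, P_eq]
    ring
  rw [e0, Finset.sum_congr rfl ej, Finset.sum_sub_distrib, ← Finset.mul_sum]
  ring

/-- pointwise: `-qf ≤` sum of squares. -/
lemma neg_qf_le {v : E} (hv : ‖v‖ = 1) {sb : ℝ} (h0 : 0 ≤ sb) (h1 : sb ≤ 1 / 2) (i : ℕ) (x : E) :
    -(qf V v sb i x) ≤ ∑ j ∈ Finset.Ico (i + 1) V.n, sb * om (j - i) *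
      ((th ^ 2 / 2) ^ (j - i) * ⟪v, x⟫ ^ 2 + (1 + 1 / (th ^ 2 / 2) ^ (j - i)) * ⟪V.P j v, x⟫ ^ 2
        + 2 * V.b v j * ⟪v - V.P j v, x⟫ ^ 2) := by
  have e : -(qf V v sb i x) = -(sb * ⟪v, x⟫ ^ 2) + ∑ j ∈ Finset.Ico (i + 1) V.n,
      sb * om (j - i) * (⟪v - V.P j v, x⟫ ^ 2 / (1 - sb * V.b v j) - ⟪v, x⟫ ^ 2) := by
    rw [qf, neg_add, Finset.mul_sum, ← Finset.sum_neg_distrib]
    congr 1
    refine Finset.sum_congr rfl fun j _ => ?_
    ring
  rw [e]
  have hx0 : -(sb * ⟪v, x⟫ ^ 2) ≤ 0 := by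
    have := mul_nonneg h0 (sq_nonneg ⟪v, x⟫)
    linarith
  refine (add_le_of_nonpos_left hx0).trans (Finset.sum_le_sum fun j _ => ?_)
  refine mul_le_mul_of_nonneg_left ?_ (mul_nonneg h0 (om_nonneg _))
  set xi := ⟪v, x⟫ with hxi
  set ze := ⟪V.P j v, x⟫ with hze
  have ha : ⟪v - V.P j v, x⟫ = xi - ze := by rw [inner_sub_left]
  rw [ha]
  have hb1 := b_le_one V hv j
  have hb0 := b_nonneg V v j
  set b := V.b v j with hb
  have hsbb : sb * b ≤ 1 / 2 := by nlinarith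
  have hsbb0 : 0 ≤ sb * b := mul_nonneg h0 hb0
  set e := (th ^ 2 / 2) ^ (j - i) with he
  have he0 : 0 < e := by
    have := th_pos
    rw [he]; positivity
  have hA : (xi - ze) ^ 2 / (1 - sb * b) ≤ (xi - ze) ^ 2 * (1 + 2 * (sb * b)) := by
    rw [div_le_iff₀ (by linarith)]
    nlinarith [mul_nonneg (mul_nonneg hsbb0 (by linarith : (0:ℝ) ≤ 1 - 2 * (sb * b)))
      (sq_nonneg (xi - ze))]
  have hB : -(2 * xi * ze) ≤ e * xi ^ 2 + 1 / e * ze ^ 2 := by
    have h3 : 0 ≤ e * (xi + 1 / e * ze) ^ 2 := by positivity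
    have h4 : e * (xi + 1 / e * ze) ^ 2 = e * xi ^ 2 + 2 * xi * ze + 1 / e * ze ^ 2 := by
      field_simp
      ring
    linarith
  have hC : 2 * (sb * b) * (xi - ze) ^ 2 ≤ 2 * b * (xi - ze) ^ 2 := by
    have : sb * b ≤ b := by nlinarith
    nlinarith [sq_nonneg (xi - ze)]
  nlinarith

/-- bounds of the variances -/
lemma norm_H_v_sq {v : E} (i : ℕ) : ‖V.H i v‖ ^ 2 ≤ V.b v i := by
  by_cases hi : i ≤ V.n
  · rw [H_eq, Mom764.norm_H_sq V.anti, b_eq]
    calc ∑ l ∈ Finset.Ico i V.n, th ^ (2 * (l - i)) * ‖Mom764.Q V.M l v‖ ^ 2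
        ≤ ∑ l ∈ Finset.Ico i V.n, ‖Mom764.Q V.M l v‖ ^ 2 := by
          refine Finset.sum_le_sum fun l _ => ?_
          have : th ^ (2 * (l - i)) ≤ 1 := pow_le_one₀ th_pos.le th_le
          nlinarith [sq_nonneg ‖Mom764.Q V.M l v‖]
      _ = ‖(V.M i).starProjection v‖ ^ 2 - ‖(V.M V.n).starProjection v‖ ^ 2 :=
          Mom764.sum_norm_Q_sq V.anti hi v
      _ ≤ _ := by nlinarith [sq_nonneg ‖(V.M V.n).starProjection v‖]
  · have : V.H i v = 0 := by
      rw [Flag.H, Finset.Ico_eq_empty (by omega)]; simp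
    rw [this]; simpa using b_nonneg V v i

lemma norm_H_Pj_sq {v : E} {i j : ℕ} (hij : i ≤ j) (hj : j ≤ V.n) :
    ‖V.H i (V.P j v)‖ ^ 2 ≤ th ^ (2 * (j - i)) * V.b v j := by
  rw [P_eq, b_eq, H_eq, Mom764.norm_H_sq V.anti, ← Finset.sum_Ico_consecutive _ hij hj]
  have hz : ∑ l ∈ Finset.Ico i j, th ^ (2 * (l - i)) *
      ‖Mom764.Q V.M l ((V.M j).starProjection v)‖ ^ 2 = 0 := by
    refine Finset.sum_eq_zero fun l hl => ?_
    rw [Mom764.Q_P_zero V.anti (Finset.mem_Ico.1 hl).2]; simp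
  rw [hz, zero_add]
  calc ∑ l ∈ Finset.Ico j V.n, th ^ (2 * (l - i)) *
          ‖Mom764.Q V.M l ((V.M j).starProjection v)‖ ^ 2
      ≤ ∑ l ∈ Finset.Ico j V.n, th ^ (2 * (j - i)) * ‖Mom764.Q V.M l v‖ ^ 2 := by
        refine Finset.sum_le_sum fun l hl => ?_
        rw [Finset.mem_Ico] at hl
        rw [Mom764.Q_P V.anti hl.1]
        refine mul_le_mul_of_nonneg_right ?_ (sq_nonneg _)
        exact pow_le_pow_of_le_one th_pos.le th_le (by omega)
    _ = th ^ (2 * (j - i)) *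
          (‖(V.M j).starProjection v‖ ^ 2 - ‖(V.M V.n).starProjection v‖ ^ 2) := by
        rw [← Finset.mul_sum, Mom764.sum_norm_Q_sq V.anti hj]
    _ ≤ _ := by
        have := pow_pos th_pos (2 * (j - i))
        nlinarith [mul_nonneg this.le (sq_nonneg ‖(V.M V.n).starProjection v‖)]

/-- bounds of the weights, `m ≥ 1` -/
lemma om_le (m : ℕ) : om m ≤ (25 / 16) ^ m := by
  unfold om th
  have e : ((4/5:ℝ)⁻¹) ^ (2 * m) = (25 / 16) ^ m := by
    rw [pow_mul]; norm_num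
  rw [e]
  have : (0:ℝ) ≤ (25 / 16) ^ m := by positivity
  nlinarith

lemma w1_le (m : ℕ) : om m * (th ^ 2 / 2) ^ m ≤ (1 / 2) ^ m := by
  have h := om_le m
  have h2 : (0:ℝ) ≤ (th ^ 2 / 2) ^ m := by have := th_pos; positivity
  calc om m * (th ^ 2 / 2) ^ m ≤ (25 / 16) ^ m * (th ^ 2 / 2) ^ m :=
        mul_le_mul_of_nonneg_right h h2
    _ = (1 / 2) ^ m := by
        rw [← mul_pow]; unfold th; norm_num

lemma w2_le (m : ℕ) : om m * (1 + 1 / (th ^ 2 / 2) ^ m) * th ^ (2 * m) ≤ 2 * (25 / 8) ^ m := by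
  have h := om_le m
  have hp : (0:ℝ) < (th ^ 2 / 2) ^ m := by have := th_pos; positivity
  have h2 : (0:ℝ) ≤ (1 + 1 / (th ^ 2 / 2) ^ m) * th ^ (2 * m) := by
    have := th_pos; positivity
  have e1 : (25 / 16 : ℝ) ^ m * th ^ (2 * m) = 1 := by
    rw [pow_mul, ← mul_pow]; unfold th; norm_num
  have e2 : 1 / (th ^ 2 / 2) ^ m = (25 / 8) ^ m := by
    rw [one_div, ← inv_pow]; unfold th; norm_num
  have h3 : (1:ℝ) ≤ (25 / 8) ^ m := one_le_pow₀ (by norm_num)
  calc om m * (1 + 1 / (th ^ 2 / 2) ^ m) * th ^ (2 * m)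
      = om m * ((1 + 1 / (th ^ 2 / 2) ^ m) * th ^ (2 * m)) := by ring
    _ ≤ (25 / 16) ^ m * ((1 + 1 / (th ^ 2 / 2) ^ m) * th ^ (2 * m)) :=
        mul_le_mul_of_nonneg_right h h2
    _ = (1 + 1 / (th ^ 2 / 2) ^ m) * ((25 / 16) ^ m * th ^ (2 * m)) := by ring
    _ = 1 + (25 / 8) ^ m := by rw [e1, e2]; ring
    _ ≤ _ := by linarith

lemma w3_le (m : ℕ) : om m ≤ (25 / 8) ^ m := by
  refine (om_le m).trans ?_
  exact pow_le_pow_left₀ (by norm_num) (by norm_num) m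

lemma sum_half_le (i n : ℕ) : ∑ j ∈ Finset.Ico (i + 1) n, (1 / 2 : ℝ) ^ (j - i) ≤ 1 := by
  have key : ∀ n, i + 1 ≤ n → ∑ j ∈ Finset.Ico (i + 1) n, (1 / 2 : ℝ) ^ (j - i)
      = 1 - (1 / 2) ^ (n - 1 - i) := by
    intro n hn
    induction n, hn using Nat.le_induction with
    | base => simp
    | succ n hn ih =>
      rw [Finset.sum_Ico_succ_top hn, ih]
      have e1 : n + 1 - 1 - i = (n - 1 - i) + 1 := by omega
      have e2 : n - i = (n - 1 - i) + 1 := by omega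
      rw [e1, e2, pow_succ]
      ring
  rcases le_total (i + 1) n with h | h
  · rw [key n h]
    have : (0:ℝ) ≤ (1 / 2) ^ (n - 1 - i) := by positivity
    linarith
  · rw [Finset.Ico_eq_empty (by omega)]; simp

/-- the vectors of the squares -/
noncomputable def wv (v : E) (sb : ℝ) (i : ℕ) (q : ℕ × Fin 3) : E :=
  match q.2 with
  | 0 => Real.sqrt (sb * om (q.1 - i) * (th ^ 2 / 2) ^ (q.1 - i)) • V.H i v
  | 1 => Real.sqrt (sb * om (q.1 - i) * (1 + 1 / (th ^ 2 / 2) ^ (q.1 - i))) •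
      V.H i (V.P q.1 v)
  | 2 => Real.sqrt (sb * om (q.1 - i) * (2 * V.b v q.1)) • V.H i (v - V.P q.1 v)

lemma R_sq_le {v : E} (hv : ‖v‖ = 1) {s : ℝ} (h0 : 0 ≤ s) (h1 : s ≤ 1 / 4) {i : ℕ}
    (hi : i < V.n) (g : E) :
    ‖R V v s i g‖ ^ 2 ≤ ‖g‖ ^ 2 +
      ∑ q ∈ Finset.Ico (i + 1) V.n ×ˢ (Finset.univ : Finset (Fin 3)),
        ⟪wv V v (2 * s - s ^ 2) i q, g⟫ ^ 2 := by
  have hsb : 0 ≤ 2 * s - s ^ 2 := by nlinarith
  have hsb2 : 2 * s - s ^ 2 ≤ 1 / 2 := by nlinarith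
  rw [R_apply, rot_formula V hv h0 h1 hi (H_mem V i g), Hi_H V hi.le]
  have hP : ‖(V.M i).starProjection g‖ ^ 2 ≤ ‖g‖ ^ 2 :=
    pow_le_pow_left₀ (norm_nonneg _) ((V.M i).norm_starProjection_apply_le g) 2
  have hq := neg_qf_le V hv hsb hsb2 i (V.H i g)
  set sb := 2 * s - s ^ 2 with hsbd
  have hsum : ∑ q ∈ Finset.Ico (i + 1) V.n ×ˢ (Finset.univ : Finset (Fin 3)),
        ⟪wv V v sb i q, g⟫ ^ 2
      = ∑ j ∈ Finset.Ico (i + 1) V.n, sb * om (j - i) *
      ((th ^ 2 / 2) ^ (j - i) * ⟪v, V.H i g⟫ ^ 2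
        + (1 + 1 / (th ^ 2 / 2) ^ (j - i)) * ⟪V.P j v, V.H i g⟫ ^ 2
        + 2 * V.b v j * ⟪v - V.P j v, V.H i g⟫ ^ 2) := by
    rw [Finset.sum_product]
    refine Finset.sum_congr rfl fun j _ => ?_
    have hom := om_nonneg (j - i)
    have hth := th_pos
    have hb := b_nonneg V v j
    rw [Fin.sum_univ_three]
    simp only [wv, inner_smul_left, RCLike.conj_to_real, inner_H]
    rw [mul_pow, mul_pow, mul_pow, Real.sq_sqrt (by positivity), Real.sq_sqrt (by positivity),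
      Real.sq_sqrt (by positivity)]
    ring
  rw [hsum]
  linarith

lemma sum_wv_le {v : E} (hv : ‖v‖ = 1) {sb : ℝ} (h0 : 0 ≤ sb) (h1 : sb ≤ 1 / 2) {i : ℕ}
    (hi : i < V.n) :
    ∑ q ∈ Finset.Ico (i + 1) V.n ×ˢ (Finset.univ : Finset (Fin 3)),
        ‖wv V v sb i q‖ ^ 2 ≤ V.b v i + 4 * BB V v i := by
  rw [Finset.sum_product]
  have hbi := b_nonneg V v i
  have hterm : ∀ j ∈ Finset.Ico (i + 1) V.n, ∑ k : Fin 3, ‖wv V v sb i (j, k)‖ ^ 2
      ≤ (1 / 2) ^ (j - i) * V.b v i + 4 * ((25 / 8) ^ (j - i) * V.b v j) := by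
    intro j hj
    rw [Finset.mem_Ico] at hj
    have hom := om_nonneg (j - i)
    have hth := th_pos
    have hb := b_nonneg V v j
    rw [Fin.sum_univ_three]
    simp only [wv]
    rw [norm_smul, norm_smul, norm_smul, mul_pow, mul_pow, mul_pow, Real.norm_eq_abs,
      Real.norm_eq_abs, Real.norm_eq_abs, sq_abs, sq_abs, sq_abs, Real.sq_sqrt (by positivity),
      Real.sq_sqrt (by positivity), Real.sq_sqrt (by positivity)]
    have hv1 := norm_H_v_sq V (v := v) i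
    have hv2 := norm_H_Pj_sq V (v := v) (i := i) (j := j) (by omega) (by omega)
    have hv3 : ‖V.H i (v - V.P j v)‖ ^ 2 ≤ 1 := by
      refine (norm_H_v_sq V (v := v - V.P j v) i).trans ?_
      rw [b_eq]
      have a1 : ‖(V.M i).starProjection (v - V.P j v)‖ ≤ ‖v - V.P j v‖ :=
        (V.M i).norm_starProjection_apply_le _
      have a2 : ‖v - V.P j v‖ ≤ 1 := by
        have h3 : ‖v‖ ^ 2 = ‖V.P j v‖ ^ 2 + ‖v - V.P j v‖ ^ 2 := by
          have h4 : ⟪V.P j v, v - V.P j v⟫ = 0 := by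
            rw [real_inner_comm]
            exact Submodule.starProjection_inner_eq_zero _ _
              (Submodule.starProjection_apply_mem _ _)
          have h5 : v = V.P j v + (v - V.P j v) := by abel
          conv_lhs => rw [h5]
          rw [norm_add_sq_real, h4]; ring
        rw [hv] at h3
        nlinarith [sq_nonneg ‖V.P j v‖, norm_nonneg (v - V.P j v)]
      exact pow_le_one₀ (norm_nonneg _) (a1.trans a2)
    have hw1 := w1_le (j - i)
    have hw2 := w2_le (j - i)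
    have hw3 := w3_le (j - i)
    have t1 : sb * om (j - i) * (th ^ 2 / 2) ^ (j - i) * ‖V.H i v‖ ^ 2
        ≤ (1 / 2) ^ (j - i) * V.b v i := by
      have e : sb * om (j - i) * (th ^ 2 / 2) ^ (j - i) ≤ (1 / 2) ^ (j - i) := by
        have : 0 ≤ om (j - i) * (th ^ 2 / 2) ^ (j - i) := by positivity
        nlinarith
      exact mul_le_mul e hv1 (sq_nonneg _) (by positivity)
    have t2 : sb * om (j - i) * (1 + 1 / (th ^ 2 / 2) ^ (j - i)) * ‖V.H i (V.P j v)‖ ^ 2
        ≤ (25 / 8) ^ (j - i) * V.b v j := by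
      calc sb * om (j - i) * (1 + 1 / (th ^ 2 / 2) ^ (j - i)) * ‖V.H i (V.P j v)‖ ^ 2
          ≤ sb * om (j - i) * (1 + 1 / (th ^ 2 / 2) ^ (j - i)) * (th ^ (2 * (j - i)) * V.b v j) :=
            mul_le_mul_of_nonneg_left hv2 (by positivity)
        _ = sb * (om (j - i) * (1 + 1 / (th ^ 2 / 2) ^ (j - i)) * th ^ (2 * (j - i)))
              * V.b v j := by ring
        _ ≤ (1 / 2) * (2 * (25 / 8) ^ (j - i)) * V.b v j := by
            refine mul_le_mul_of_nonneg_right ?_ hb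
            exact mul_le_mul h1 hw2 (by positivity) (by norm_num)
        _ = _ := by ring
    have t3 : sb * om (j - i) * (2 * V.b v j) * ‖V.H i (v - V.P j v)‖ ^ 2
        ≤ (25 / 8) ^ (j - i) * V.b v j := by
      calc sb * om (j - i) * (2 * V.b v j) * ‖V.H i (v - V.P j v)‖ ^ 2
          ≤ sb * om (j - i) * (2 * V.b v j) * 1 :=
            mul_le_mul_of_nonneg_left hv3 (by positivity)
        _ = (2 * sb) * om (j - i) * V.b v j := by ring
        _ ≤ 1 * (25 / 8) ^ (j - i) * V.b v j := by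
            refine mul_le_mul_of_nonneg_right ?_ hb
            exact mul_le_mul (by linarith) hw3 hom (by norm_num)
        _ = _ := by ring
    have hpos : 0 ≤ (25 / 8 : ℝ) ^ (j - i) * V.b v j := by positivity
    linarith
  refine (Finset.sum_le_sum hterm).trans ?_
  rw [Finset.sum_add_distrib, ← Finset.sum_mul, ← Finset.mul_sum, BB]
  have := sum_half_le i V.n
  nlinarith

end alg

section meas

variable [MeasurableSpace E] [BorelSpace E] (V : Flag E)

lemma k_cast (j : ℕ) :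
    (V.k j : ℝ) = (Module.finrank ℝ (V.M j) : ℝ) - Module.finrank ℝ (V.M (j + 1)) := by
  rw [Flag.k, Nat.cast_sub (Submodule.finrank_mono (V.anti (Nat.le_succ j)))]

lemma N_eq_norm (i : ℕ) (x : E) :
    V.N i x = ‖Mom764.H (Real.sqrt th⁻¹) V.M V.n i x‖ ^ 2 := by
  rw [Mom764.norm_H_sq V.anti, Flag.N]
  refine Finset.sum_congr rfl fun j _ => ?_
  rw [pow_mul, Real.sq_sqrt (inv_nonneg.2 th_pos.le)]
  rfl

lemma comp_H (i : ℕ) (g : E) :
    Mom764.H (Real.sqrt th⁻¹) V.M V.n i (V.H i g) = Mom764.H (Real.sqrt th) V.M V.n i g := by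
  rw [Mom764.H_apply, Mom764.H_apply]
  refine Finset.sum_congr rfl fun j hj => ?_
  rw [Finset.mem_Ico] at hj
  rw [H_eq, Mom764.Q_H V.anti hj.1 hj.2, smul_smul, ← mul_pow]
  congr 2
  rw [Real.sqrt_inv]
  have h1 : Real.sqrt th ≠ 0 := (Real.sqrt_pos.2 th_pos).ne'
  have h2 : Real.sqrt th * Real.sqrt th = th := Real.mul_self_sqrt th_pos.le
  field_simp
  rw [sq]; exact h2.symm

lemma integral_N (i : ℕ) :
    ∫ x, ‖Mom764.H (Real.sqrt th⁻¹) V.M V.n i x‖ ^ 2 ∂(gau (V.H i)) = V.rr i := by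
  unfold gau
  rw [integral_map (V.H i).continuous.aemeasurable (by fun_prop)]
  simp only [comp_H]
  rw [Mom764.integral_norm_H_sq V.anti, Flag.rr]
  refine Finset.sum_congr rfl fun j _ => ?_
  rw [k_cast, pow_mul, Real.sq_sqrt th_pos.le]

lemma rr_nonneg (i : ℕ) : 0 ≤ V.rr i :=
  Finset.sum_nonneg fun j _ => mul_nonneg (pow_nonneg th_pos.le _) (Nat.cast_nonneg _)

lemma rr_pos_or (i : ℕ) : 0 < V.rr i ∨ V.M i = ⊥ := by
  by_cases h : ∀ j ∈ Finset.Ico i V.n, V.k j = 0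
  · right
    rcases le_total V.n i with hn | hn
    · exact V.bot i hn
    · have key : ∀ m, i ≤ m → m ≤ V.n →
          Module.finrank ℝ (V.M i) ≤ Module.finrank ℝ (V.M m) := by
        intro m hm
        induction m, hm using Nat.le_induction with
        | base => intro _; exact le_rfl
        | succ m hm ih =>
          intro hmn
          have h1 := ih (by omega)
          have h2 := h m (Finset.mem_Ico.2 ⟨hm, by omega⟩)
          unfold Flag.k at h2
          omega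
      have h3 := key V.n hn le_rfl
      rw [Mn V, finrank_bot] at h3
      exact Submodule.finrank_eq_zero.1 (by omega)
  · left
    push Not at h
    obtain ⟨j, hj, hk⟩ := h
    have hpos : 0 < th ^ (j - i) * (V.k j : ℝ) :=
      mul_pos (pow_pos th_pos _) (by exact_mod_cast Nat.pos_of_ne_zero hk)
    refine lt_of_lt_of_le hpos ?_
    exact Finset.single_le_sum (f := fun j => th ^ (j - i) * (V.k j : ℝ))
      (fun j _ => mul_nonneg (pow_nonneg th_pos.le _) (Nat.cast_nonneg _)) hj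

/-- **(CUT)** by the cap of the level -/
theorem cut_cap {rho : ℝ} (hrho : 0 < rho) (i : ℕ) {K : Set E} (mK : MeasurableSet K)
    (cK : Convex ℝ K) (sK : ∀ x ∈ K, -x ∈ K) (hKM : K ⊆ V.M i) :
    (1 - 1 / rho ^ 2) * (gau (V.H i)).real K ≤ (gau (V.H i)).real (K ∩ V.cap rho i) := by
  rcases rr_pos_or V i with hr | hr
  · have hR : 0 < rho * Real.sqrt (V.rr i) := mul_pos hrho (Real.sqrt_pos.2 hr)
    have h := Dom640.gau_cut (V.H i) mK cK sK (Mom764.H (Real.sqrt th⁻¹) V.M V.n i) hR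
    rw [integral_N, mul_pow, Real.sq_sqrt hr.le] at h
    have e : V.rr i / (rho ^ 2 * V.rr i) = 1 / rho ^ 2 := by field_simp
    rw [e] at h
    refine h.trans (measureReal_mono ?_)
    rintro x ⟨hx, hx2⟩
    refine ⟨hx, hKM hx, ?_⟩
    rw [N_eq_norm]
    have h2 := pow_le_pow_left₀ (norm_nonneg _) hx2 2
    rwa [mul_pow, Real.sq_sqrt hr.le] at h2
  · have e : K ∩ V.cap rho i = K := by
      refine Set.inter_eq_left.2 fun x hx => ?_
      have hx0 : x = 0 := by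
        have := hKM hx
        rw [hr] at this
        exact (Submodule.mem_bot ℝ).1 this
      subst hx0
      refine ⟨(V.M i).zero_mem, ?_⟩
      have : V.N i (0 : E) = 0 := by simp [Flag.N]
      rw [this]
      exact mul_nonneg (sq_nonneg _) (rr_nonneg V i)
    rw [e]
    have h1 : 0 ≤ (gau (V.H i)).real K := measureReal_nonneg
    have h2 : 0 ≤ 1 / rho ^ 2 := by positivity
    nlinarith

lemma gau_M (i : ℕ) : (gau (V.H i)).real (V.M i) = 1 := by
  have hMm : MeasurableSet (V.M i : Set E) :=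
    (Submodule.closed_of_finiteDimensional (V.M i)).measurableSet
  rw [gau_real_apply _ hMm]
  have : V.H i ⁻¹' (V.M i : Set E) = univ := by
    ext g; simp [H_mem V i g]
  rw [this]
  simp

variable {V}

lemma adm_cap {p : Par} (hp : p.Ok) (i : ℕ) : Adm p V i (V.cap p.rho i) := by
  refine ⟨AdmHalf606.cap_closed V i _, AdmHalf606.cap_convex V i _,
    fun x hx => AdmHalf606.cap_neg V i _ hx, subset_rfl, ?_⟩
  have hMm : MeasurableSet (V.M i : Set E) :=
    (Submodule.closed_of_finiteDimensional (V.M i)).measurableSet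
  have hrho : 0 < p.rho := by linarith [hp.rho_ge]
  have h := cut_cap V hrho i (K := (V.M i : Set E)) hMm (V.M i).convex
    (fun x hx => (V.M i).neg_mem hx) subset_rfl
  rw [gau_M, mul_one] at h
  have e : (V.M i : Set E) ∩ V.cap p.rho i = V.cap p.rho i :=
    Set.inter_eq_right.2 fun x hx => hx.1
  rw [e] at h
  refine lt_of_lt_of_le ?_ h
  have h16 : 1 / p.rho ^ 2 < 1 := by
    rw [div_lt_one (by positivity)]
    nlinarith [hp.rho_ge]
  linarith

lemma lam_pos {p : Par} (hp : p.Ok) (i : ℕ) : 0 < p.lam i :=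
  mul_pos hp.tau_pos (pow_pos (by linarith [hp.A_ge]) _)

lemma Eh_nonneg {p : Par} {i : ℕ} {K : Set E} (h : Adm p V i K) (μ : Multiset E) :
    0 ≤ Eh K μ := by
  refine Multiset.sum_nonneg fun x hx => ?_
  obtain ⟨z, _, rfl⟩ := Multiset.mem_map.1 hx
  have h0 := AdmHalf606.adm_zero h
  have h1 := F6core696.le_hs (AdmHalf606.adm_compact h) h0 z
  rw [inner_zero_left] at h1
  exact h1

lemma val_nonneg {p : Par} (hp : p.Ok) {i : ℕ} {K : Set E} (h : Adm p V i K) (μ : Multiset E) :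
    0 ≤ val p V i μ K := by
  have h1 := Eh_nonneg h μ
  have h2 : Real.log ((gau (V.H i)).real K) ≤ 0 :=
    Real.log_nonpos measureReal_nonneg measureReal_le_one
  have h3 := lam_pos hp i
  unfold val
  nlinarith

lemma D_le {p : Par} (hp : p.Ok) {i : ℕ} {K : Set E} (h : Adm p V i K) (μ : Multiset E) :
    D p V i μ ≤ val p V i μ K :=
  csInf_le ⟨0, by rintro _ ⟨K, hK, rfl⟩; exact val_nonneg hp hK μ⟩ ⟨K, h, rfl⟩

lemma le_D {p : Par} (hp : p.Ok) {i : ℕ} {c : ℝ} (μ : Multiset E)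
    (h : ∀ K, Adm p V i K → c ≤ val p V i μ K) : c ≤ D p V i μ :=
  le_csInf ⟨_, V.cap p.rho i, adm_cap hp i, rfl⟩ (by rintro _ ⟨K, hK, rfl⟩; exact h K hK)

/-- **one-level comparison without gain** -/
theorem level_cmp {p : Par} (hp : p.Ok) {v : E} (hv : ‖v‖ = 1) {s : ℝ} (h0 : 0 < s)
    (h1 : s ≤ 1 / 4) {i : ℕ} (hi : i < V.n) {t : ℝ} (ht0 : 0 < t) (ht1 : t ≤ 1)
    (μ : Multiset E) :
    D p V i μ ≤ D p (V.rot v s) i μ + s * t * S μ v
      + p.lam i * (V.b v i / 2 + 2 * BB V v i + 2 - Real.log t) := by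
  have hlam := lam_pos hp i
  suffices hmain : ∀ K', Adm p (V.rot v s) i K' →
      D p V i μ - s * t * S μ v - p.lam i * (V.b v i / 2 + 2 * BB V v i + 2 - Real.log t)
        ≤ val p (V.rot v s) i μ K' by
    have := le_D hp μ hmain
    linarith
  intro K' hK'
  have hsb : 0 ≤ 2 * s - s ^ 2 := by nlinarith
  have hsb2 : 2 * s - s ^ 2 ≤ 1 / 2 := by nlinarith
  have hMc : IsClosed (V.M i : Set E) := Submodule.closed_of_finiteDimensional _
  -- the pulled back body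
  set Q : Set E := Ts v s ⁻¹' K' ∩ (V.M i : Set E) with hQ
  have Qc : IsClosed Q := (hK'.1.preimage (Ts v s).continuous).inter hMc
  have Qv : Convex ℝ Q := (hK'.2.1.linear_preimage (Ts v s).toLinearMap).inter (V.M i).convex
  have Qs : ∀ x ∈ Q, -x ∈ Q := by
    rintro x ⟨hx, hxM⟩
    refine ⟨?_, (V.M i).neg_mem hxM⟩
    simp only [mem_preimage, map_neg]
    exact hK'.2.2.1 _ hx
  have Q0 : (0 : E) ∈ Q := ⟨by simpa using AdmHalf606.adm_zero hK', (V.M i).zero_mem⟩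
  -- (CMP)
  have hH' : Convex ℝ ((V.rot v s).H i ⁻¹' K') := hK'.2.1.linear_preimage _
  have m1 : Real.exp (-(V.b v i + 4 * BB V v i) / 2) * (gau ((V.rot v s).H i)).real K'
      ≤ (gau (V.H i)).real Q := by
    have hc := Cmp142.cmp_sum_real (K := (V.rot v s).H i ⁻¹' K')
      (((V.rot v s).H i).continuous.measurable hK'.1.measurableSet) hH'
      (Dom640.pre_symm _ hK'.2.2.1)
      (Finset.Ico (i + 1) V.n ×ˢ (Finset.univ : Finset (Fin 3))) (R V v s i)
      (wv V v (2 * s - s ^ 2) i) (R_sq_le V hv h0.le h1 hi)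
    have hle : Real.exp (-(V.b v i + 4 * BB V v i) / 2)
        ≤ Real.exp (-(∑ k ∈ Finset.Ico (i + 1) V.n ×ˢ (Finset.univ : Finset (Fin 3)),
            ‖wv V v (2 * s - s ^ 2) i k‖ ^ 2) / 2) := by
      refine Real.exp_le_exp.2 ?_
      have := sum_wv_le V hv hsb hsb2 hi
      linarith
    refine F6core696.measure_type0 (H := V.H i) (H' := (V.rot v s).H i) (T := Ts v s)
      (R := R V v s i) (fun g => (H_R V v s hi.le g).symm) hK'.1.measurableSet
      (fun g => H_mem V i g) ?_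
    exact (mul_le_mul_of_nonneg_right hle measureReal_nonneg).trans hc
  -- slab
  have m2 : (gau (V.H i)).real Q * (t * Real.exp (-1))
      ≤ (gau (V.H i)).real (Q ∩ {x | |⟪v, x⟫| ≤ t}) := by
    refine le_trans (mul_le_mul_of_nonneg_left ?_ measureReal_nonneg)
      (Dom640.gau_slab_real (V.H i) Qc.measurableSet Qv Qs v t)
    rw [Rem603.slab_gau]
    refine (Rem603.slab_small ht0.le ht1).trans (Rem603.slab_anti ?_ t)
    have hadj : (V.H i).adjoint = V.H i := by rw [H_eq]; exact Mom764.adjoint_H th V.n i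
    rw [hadj, ← NNReal.coe_le_coe]
    push_cast
    exact (norm_H_v_sq V i).trans (b_le_one V hv i)
  -- cap
  set Q2 : Set E := Q ∩ {x | |⟪v, x⟫| ≤ t} with hQ2
  have slab_conv : Convex ℝ {x : E | |⟪v, x⟫| ≤ t} := by
    have : {x : E | |⟪v, x⟫| ≤ t} = (innerSL ℝ v).toLinearMap ⁻¹' (Icc (-t) t) := by
      ext x; simp [abs_le]
    rw [this]
    exact (convex_Icc _ _).linear_preimage _
  have slab_closed : IsClosed {x : E | |⟪v, x⟫| ≤ t} :=
    isClosed_le (by fun_prop) continuous_const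
  have Q2c : IsClosed Q2 := Qc.inter slab_closed
  have Q2v : Convex ℝ Q2 := Qv.inter slab_conv
  have Q2s : ∀ x ∈ Q2, -x ∈ Q2 := by
    rintro x ⟨hx, hxt⟩
    refine ⟨Qs x hx, ?_⟩
    simpa using hxt
  have hrho : 0 < p.rho := by linarith [hp.rho_ge]
  have m3 := cut_cap V hrho i Q2c.measurableSet Q2v Q2s (fun x hx => hx.1.2)
  set K : Set E := Q2 ∩ V.cap p.rho i with hK
  have hr2 : (1:ℝ) / 2 ≤ 1 - 1 / p.rho ^ 2 := by
    have : 1 / p.rho ^ 2 ≤ 1 / 2 := by
      rw [div_le_div_iff₀ (by positivity) (by norm_num)]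
      nlinarith [hp.rho_ge]
    linarith
  have hapos : 0 < (gau ((V.rot v s).H i)).real K' := hK'.2.2.2.2
  have he : Real.exp (-1) ≤ 1 / 2 := by
    rw [Real.exp_neg]
    have := Real.add_one_le_exp (1:ℝ)
    rw [inv_eq_one_div]
    exact one_div_le_one_div_of_le (by norm_num) (by linarith)
  have hchain : Real.exp (-1) * (Real.exp (-(V.b v i + 4 * BB V v i) / 2)
      * (gau ((V.rot v s).H i)).real K' * (t * Real.exp (-1))) ≤ (gau (V.H i)).real K := by
    refine le_trans ?_ m3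
    refine mul_le_mul (he.trans hr2) ?_ (by positivity) (by linarith)
    exact (mul_le_mul_of_nonneg_right m1 (by positivity)).trans m2
  have hKpos : 0 < (gau (V.H i)).real K := lt_of_lt_of_le (by positivity) hchain
  have hadm : Adm p V i K := by
    refine ⟨Q2c.inter (AdmHalf606.cap_closed V i _), Q2v.inter (AdmHalf606.cap_convex V i _),
      fun x hx => ⟨Q2s x hx.1, AdmHalf606.cap_neg V i _ hx.2⟩, Set.inter_subset_right, hKpos⟩
  have hEh : Eh K μ ≤ Eh K' μ + s * t * S μ v := by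
    refine F6core696.Eh_pullback (T := Ts v s) (v := v) (s := s) (t := t)
      (AdmHalf606.adm_compact hK') (AdmHalf606.adm_nonempty hadm) h0.le
      (fun x => Ts_apply v s x) (fun x hx => hx.1.1.1) (fun x hx => hx.1.2) μ
  have hlog : -1 + (-(V.b v i + 4 * BB V v i) / 2
      + Real.log ((gau ((V.rot v s).H i)).real K') + (Real.log t + -1))
      ≤ Real.log ((gau (V.H i)).real K) := by
    have h3 := Real.log_le_log (by positivity) hchain
    rw [Real.log_mul (by positivity) (by positivity), Real.log_mul (by positivity) (by positivity),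
      Real.log_mul (by positivity) (by positivity), Real.log_mul (by positivity) (by positivity),
      Real.log_exp, Real.log_exp] at h3
    exact h3
  have hD := D_le hp hadm μ
  unfold val at hD ⊢
  nlinarith

/-- **`P_LEVlo`** for every `s ≤ 1/4`, `C9 ≥ 5`. -/
theorem levlo {p : Par} (hp : p.Ok) {s C9 : ℝ} (h0 : 0 < s) (h1 : s ≤ 1 / 4) (hC : 5 ≤ C9) :
    P_LEVlo E p s C9 := by
  intro V μ v I i hv hS hiI hi
  have hlam := lam_pos hp i
  have hlamI := lam_pos hp I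
  set m := I - i with hm
  have ht0 : (0:ℝ) < (1 / 2) ^ m := by positivity
  have ht1 : ((1:ℝ) / 2) ^ m ≤ 1 := pow_le_one₀ (by norm_num) (by norm_num)
  have h := level_cmp hp hv h0 h1 hi ht0 ht1 μ
  have hlog : -Real.log ((1 / 2 : ℝ) ^ m) ≤ m := by
    rw [Real.log_pow]
    have h2 : -Real.log (1 / 2) ≤ 1 := by
      rw [one_div, Real.log_inv]
      have := Real.log_two_lt_d9
      linarith
    have hm0 : (0:ℝ) ≤ m := Nat.cast_nonneg _
    nlinarith
  have hb := b_le_one V hv i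
  have hBB : 0 ≤ BB V v i := Finset.sum_nonneg fun j _ => mul_nonneg (by positivity) (b_nonneg V v j)
  have hS0 : 0 ≤ S μ v := by
    refine Multiset.sum_nonneg fun x hx => ?_
    obtain ⟨z, _, rfl⟩ := Multiset.mem_map.1 hx
    exact abs_nonneg _
  -- lam i ≤ 16^(-m) lam I
  have hA : p.lam i * 16 ^ m ≤ p.lam I := by
    have e : p.lam I = p.lam i * p.A ^ m := by
      have : I = i + m := by omega
      rw [this, Par.lam, Par.lam, pow_add]; ring
    rw [e]
    exact mul_le_mul_of_nonneg_left (pow_le_pow_left₀ (by norm_num) hp.A_ge m) hlam.le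
  have h8 : (3 + m : ℝ) ≤ 4 * 8 ^ m := by
    have : ∀ m : ℕ, (3 + m : ℝ) ≤ 4 * 8 ^ m := by
      intro m
      induction m with
      | zero => norm_num
      | succ m ih =>
        rw [pow_succ]
        push_cast
        have : (1:ℝ) ≤ 8 ^ m := one_le_pow₀ (by norm_num)
        nlinarith
    exact this m
  have hkey : p.lam i * (3 + m) ≤ 4 * p.lam I * (1 / 2) ^ m := by
    have e16 : (16:ℝ) ^ m = 8 ^ m * 2 ^ m := by rw [← mul_pow]; norm_num
    have e2 : ((1:ℝ) / 2) ^ m * 2 ^ m = 1 := by rw [← mul_pow]; norm_num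
    have h2 : (0:ℝ) < 2 ^ m := by positivity
    have h3 : p.lam i * (3 + m) * 2 ^ m ≤ 4 * p.lam I := by
      calc p.lam i * (3 + m) * 2 ^ m ≤ p.lam i * (4 * 8 ^ m) * 2 ^ m := by gcongr
        _ = 4 * (p.lam i * 16 ^ m) := by rw [e16]; ring
        _ ≤ _ := by linarith
    calc p.lam i * (3 + m) = (p.lam i * (3 + m) * 2 ^ m) * (1 / 2) ^ m := by
          rw [mul_assoc, mul_comm ((2:ℝ) ^ m), e2, mul_one]
      _ ≤ _ := mul_le_mul_of_nonneg_right h3 ht0.le
  have hst : s * (1 / 2) ^ m * S μ v ≤ p.lam I * (1 / 2) ^ m := by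
    have : s * S μ v ≤ p.lam I := by nlinarith
    nlinarith
  have hsum : p.lam i * (V.b v i / 2 + 2 * BB V v i + 2 - Real.log ((1 / 2) ^ m))
      ≤ p.lam i * (2 * BB V v i) + p.lam i * (3 + m) := by
    rw [← mul_add]
    refine mul_le_mul_of_nonneg_left ?_ hlam.le
    linarith
  have hBB2 : p.lam i * (2 * BB V v i) ≤ p.lam i * C9 * BB V v i := by
    have : 0 ≤ p.lam i * BB V v i := mul_nonneg hlam.le hBB
    nlinarith
  have hfin : 5 * (p.lam I * (1 / 2) ^ m) ≤ C9 * p.lam I * (1 / 2) ^ m := by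
    have : 0 ≤ p.lam I * (1 / 2) ^ m := by positivity
    nlinarith
  linarith

/-- **`P_LEVhi` at the bad levels** (`BB ≥ cb`), no thinness needed. -/
theorem levbad {p : Par} (hp : p.Ok) {s c9 C9 cb : ℝ} (h0 : 0 < s) (h1 : s ≤ 1 / 4)
    (hc9 : 0 ≤ c9) (hcb : 0 < cb) (hC : 2 + (4 + c9) / cb ≤ C9)
    (V : Flag E) (μ : Multiset E) (v : E) (I i : ℕ) (hv : ‖v‖ = 1) (hS : S μ v ≤ p.lam I)
    (hIi : I < i) (hi : i < V.n) (hbad : cb ≤ BB V v i) :
    D p V i μ + p.lam i * (c9 * V.b v i - C9 * BB V v i) - C9 * p.lam I * (1 / 2) ^ (i - I)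
      ≤ D p (V.rot v s) i μ := by
  have hlam := lam_pos hp i
  have hlamI := lam_pos hp I
  have h := level_cmp hp hv h0 h1 hi one_pos le_rfl μ
  rw [Real.log_one] at h
  have hb := b_le_one V hv i
  have hb0 := b_nonneg V v i
  have hIle : p.lam I ≤ p.lam i := by
    unfold Par.lam
    refine mul_le_mul_of_nonneg_left ?_ hp.tau_pos.le
    exact pow_le_pow_right₀ (by linarith [hp.A_ge]) hIi.le
  have hS0 : 0 ≤ S μ v := by
    refine Multiset.sum_nonneg fun x hx => ?_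
    obtain ⟨z, _, rfl⟩ := Multiset.mem_map.1 hx
    exact abs_nonneg _
  have hCpos : 0 ≤ C9 := by
    have : 0 ≤ (4 + c9) / cb := by positivity
    linarith
  have h2 : (4 + c9) ≤ (C9 - 2) * BB V v i := by
    have h3 : (4 + c9) / cb ≤ C9 - 2 := by linarith
    rw [div_le_iff₀ hcb] at h3
    have : 0 ≤ C9 - 2 := by
      have : 0 ≤ (4 + c9) / cb := by positivity
      linarith
    nlinarith
  have h4 : s * 1 * S μ v ≤ p.lam i := by nlinarith
  have h5 : 0 ≤ C9 * p.lam I * (1 / 2) ^ (i - I) := by positivity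
  have h6 : p.lam i * (V.b v i / 2 + 2 * BB V v i + 2 - 0)
      + p.lam i * (c9 * V.b v i - C9 * BB V v i) + p.lam i ≤ 0 := by
    have h7 : V.b v i / 2 + 2 * BB V v i + 2 - 0 + (c9 * V.b v i - C9 * BB V v i) + 1 ≤ 0 := by
      nlinarith
    nlinarith
  linarith

end meas

end Crest.Agent.R239.LevLo679
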