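import Crest.Agent.R239.FDef
import Crest.Agent.R239.Mom_764

/-! R239 (S0370): Gaussian integrals of `qf`, `qp` over `FDef` (helper764).
`x = V.H i g`, `ξ = ⟪v,x⟫`, `ζ_j = ⟪P_j v,x⟫`, `a_j = ⟪v - P_j v,x⟫`, `g ~ stdGaussian E`. -/

set_option autoImplicit false
set_option linter.unusedSectionVars false
open MeasureTheory ProbabilityTheory
open scoped RealInnerProductSpace BigOperators

namespace Crest.Agent.R239.MomF764

open Crest.Agent.R239 Crest.Agent.R239.FD

variable {E : Type*} [NormedAddCommGroup E] [InnerProductSpace ℝ E] [FiniteDimensional ℝ E]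
  [MeasurableSpace E] [BorelSpace E]

/-! ### bridges -/

lemma P_eq (V : Flag E) (j : ℕ) : V.P j = (V.M j).starProjection := rfl
lemma Q_eq (V : Flag E) (j : ℕ) : V.Q j = Mom764.Q V.M j := rfl
lemma H_eq (V : Flag E) (i : ℕ) : V.H i = Mom764.H th V.M V.n i := rfl
lemma Hi_eq (V : Flag E) (i : ℕ) : V.Hi i = Mom764.Hi th V.M V.n i := rfl
lemma botn (V : Flag E) : V.M V.n = ⊥ := V.bot V.n le_rfl

lemma th_pos : 0 < th := by unfold th; norm_num
lemma th_ne : th ≠ 0 := th_pos.ne'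
lemma th_le : th ≤ 1 := by unfold th; norm_num

lemma th_inv_sq : (th⁻¹) ^ 2 = 25 / 16 := by unfold th; norm_num
lemma om_eq (m : ℕ) : om m = (25 / 16) ^ m * (9 / 25) := by
  unfold om
  rw [pow_mul, th_inv_sq]
  unfold th
  norm_num
lemma om_nonneg (m : ℕ) : 0 ≤ om m := by rw [om_eq]; positivity
lemma em_eq (eps : ℝ) (m : ℕ) : FD.em eps m = eps * (8 / 25) ^ m := by
  unfold FD.em th
  norm_num

lemma b_nonneg (V : Flag E) (v : E) (i : ℕ) : 0 ≤ V.b v i := sq_nonneg _
lemma b_anti (V : Flag E) (v : E) {i j : ℕ} (h : i ≤ j) : V.b v j ≤ V.b v i := by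
  unfold Flag.b
  rw [P_eq, P_eq]
  have h1 := Soft450.norm_star_sub_sq (V.anti h) v
  nlinarith [sq_nonneg ‖(V.M i).starProjection v - (V.M j).starProjection v‖]
lemma b_le_one (V : Flag E) {v : E} (hv : ‖v‖ = 1) (i : ℕ) : V.b v i ≤ 1 := by
  unfold Flag.b
  rw [P_eq]
  have h := (V.M i).norm_starProjection_apply_le v
  rw [hv] at h
  nlinarith [norm_nonneg ((V.M i).starProjection v)]
lemma b_zero (V : Flag E) (v : E) {i : ℕ} (h : V.n ≤ i) : V.b v i = 0 := by
  unfold Flag.b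
  rw [P_eq, V.bot i h]
  simp
lemma BB_nonneg (V : Flag E) (v : E) (i : ℕ) : 0 ≤ BB V v i := by
  unfold BB
  exact Finset.sum_nonneg fun j _ => mul_nonneg (by positivity) (b_nonneg V v j)

/-! ### variances -/

/-- `E a_j²` -/
noncomputable def Av (V : Flag E) (v : E) (i j : ℕ) : ℝ :=
  ∑ l ∈ Finset.Ico i j, th ^ (2 * (l - i)) * ‖V.Q l v‖ ^ 2
/-- `E ζ_j²` -/
noncomputable def Zv (V : Flag E) (v : E) (i j : ℕ) : ℝ :=
  ∑ l ∈ Finset.Ico j V.n, th ^ (2 * (l - i)) * ‖V.Q l v‖ ^ 2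

lemma Av_nonneg (V : Flag E) (v : E) (i j : ℕ) : 0 ≤ Av V v i j :=
  Finset.sum_nonneg fun l _ => by have := th_pos; positivity
lemma Zv_nonneg (V : Flag E) (v : E) (i j : ℕ) : 0 ≤ Zv V v i j :=
  Finset.sum_nonneg fun l _ => by have := th_pos; positivity

lemma Av_le (V : Flag E) (v : E) {i j : ℕ} (hij : i ≤ j) : Av V v i j ≤ V.b v i - V.b v j := by
  unfold Av Flag.b
  rw [P_eq, P_eq, ← Mom764.sum_norm_Q_sq V.anti hij]
  refine Finset.sum_le_sum fun l _ => ?_
  have : th ^ (2 * (l - i)) ≤ 1 := pow_le_one₀ th_pos.le th_le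
  rw [Q_eq]
  nlinarith [sq_nonneg ‖Mom764.Q V.M l v‖]

lemma Zv_le (V : Flag E) (v : E) {i j : ℕ} (hij : i ≤ j) (hjn : j ≤ V.n) :
    Zv V v i j ≤ th ^ (2 * (j - i)) * V.b v j := by
  have h := Mom764.var_zeta_le V.anti th_pos.le th_le hij hjn v
  rw [Mom764.var_zeta V.anti th hij hjn] at h
  exact h

theorem int_xi_sq (V : Flag E) (v : E) (i : ℕ) :
    ∫ g, ⟪v, V.H i g⟫ ^ 2 ∂(stdGaussian E) = Zv V v i i := by
  rw [H_eq, Mom764.integral_inner_H_sq V.anti]; rfl

/-- `i ≤ j`: variance of `a_j = ⟪v - P_j v, H_i g⟫` -/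
theorem int_a_sq (V : Flag E) (v : E) {i j : ℕ} (hij : i ≤ j) (hjn : j ≤ V.n) :
    ∫ g, ⟪v - V.P j v, V.H i g⟫ ^ 2 ∂(stdGaussian E) = Av V v i j := by
  rw [H_eq, Mom764.integral_inner_H_sq V.anti, ← Finset.sum_Ico_consecutive _ hij hjn]
  rw [Finset.sum_eq_zero (s := Finset.Ico j V.n), add_zero]
  · refine Finset.sum_congr rfl fun l hl => ?_
    rw [Finset.mem_Ico] at hl
    rw [map_sub, P_eq, Mom764.Q_P_zero V.anti hl.2, sub_zero]; rfl
  · intro l hl
    rw [Finset.mem_Ico] at hl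
    rw [map_sub, P_eq, Mom764.Q_P V.anti hl.1, sub_self]
    simp

/-- `i ≤ j`: variance of `ζ_j = ⟪P_j v, H_i g⟫` -/
theorem int_zeta_sq (V : Flag E) (v : E) {i j : ℕ} (hij : i ≤ j) (hjn : j ≤ V.n) :
    ∫ g, ⟪V.P j v, V.H i g⟫ ^ 2 ∂(stdGaussian E) = Zv V v i j :=
  Mom764.var_zeta V.anti th hij hjn v

lemma Zv_split (V : Flag E) (v : E) {i j : ℕ} (hij : i ≤ j) (hjn : j ≤ V.n) :
    Zv V v i i = Av V v i j + Zv V v i j := by
  unfold Zv Av
  rw [Finset.sum_Ico_consecutive _ hij hjn]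

/-- the exact identity `E ξ² + Σ_{j>i} om_{j-i} E ζ_j² = b_i` -/
theorem exact_id (V : Flag E) (v : E) {i : ℕ} (hin : i ≤ V.n) :
    Zv V v i i + ∑ j ∈ Finset.Ico (i + 1) V.n, om (j - i) * Zv V v i j = V.b v i := by
  have h := Mom764.exact_identity V.anti th_ne hin (botn V) v
  rw [integral_add (Mom764.integrable_inner_map_sq _ _)
    (integrable_finsetSum _ fun j _ => (Mom764.integrable_inner_map_sq _ _).const_mul _),
    integral_finsetSum _ fun j _ => (Mom764.integrable_inner_map_sq _ _).const_mul _] at h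
  unfold Flag.b
  rw [P_eq, ← h, ← int_xi_sq]
  congr 1
  refine Finset.sum_congr rfl fun j hj => ?_
  rw [Finset.mem_Ico] at hj
  rw [integral_const_mul, ← int_zeta_sq V v (by omega) (by omega)]
  rfl

/-! ### integrability -/

lemma integrable_qf (V : Flag E) (v : E) (sb : ℝ) (i : ℕ) :
    Integrable (fun g => qf V v sb i (V.H i g)) (stdGaussian E) := by
  unfold qf
  refine ((Mom764.integrable_inner_map_sq _ _).const_mul _).add
    ((integrable_finsetSum _ fun j _ => Integrable.const_mul ?_ _).const_mul _)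
  exact (Mom764.integrable_inner_map_sq _ _).sub ((Mom764.integrable_inner_map_sq _ _).div_const _)

lemma integrable_qp (V : Flag E) (v : E) (sb eps : ℝ) (i : ℕ) :
    Integrable (fun g => qp V v sb eps i (V.H i g)) (stdGaussian E) := by
  unfold qp
  refine ((Mom764.integrable_inner_map_sq _ _).add
    (integrable_finsetSum _ fun j _ => Integrable.const_mul ?_ _)).const_mul _
  exact ((Mom764.integrable_inner_map_sq _ _).const_mul _).add
    ((Mom764.integrable_inner_map_sq _ _).const_mul _)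

/-! ### exact values -/

lemma itg_qf_term (V : Flag E) (v : E) (c : ℝ) (i j : ℕ) :
    Integrable (fun g => ⟪v, V.H i g⟫ ^ 2 - ⟪v - V.P j v, V.H i g⟫ ^ 2 / c) (stdGaussian E) :=
  (Mom764.integrable_inner_map_sq _ _).sub ((Mom764.integrable_inner_map_sq _ _).div_const _)

lemma itg_qp_term (V : Flag E) (v : E) (c d : ℝ) (i j : ℕ) :
    Integrable (fun g => c * ⟪v - V.P j v, V.H i g⟫ ^ 2 + d * ⟪V.P j v, V.H i g⟫ ^ 2)
      (stdGaussian E) :=
  ((Mom764.integrable_inner_map_sq _ _).const_mul _).add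
    ((Mom764.integrable_inner_map_sq _ _).const_mul _)

theorem int_qf (V : Flag E) (v : E) (sb : ℝ) {i : ℕ} (hin : i ≤ V.n) :
    ∫ g, qf V v sb i (V.H i g) ∂(stdGaussian E)
      = sb * Zv V v i i + sb * ∑ j ∈ Finset.Ico (i + 1) V.n,
          om (j - i) * (Zv V v i i - Av V v i j / (1 - sb * V.b v j)) := by
  unfold qf
  have i1 : Integrable (fun g => sb * ⟪v, V.H i g⟫ ^ 2) (stdGaussian E) :=
    (Mom764.integrable_inner_map_sq _ _).const_mul _
  have i2 : ∀ j ∈ Finset.Ico (i + 1) V.n, Integrable (fun g => om (j - i) * (⟪v, V.H i g⟫ ^ 2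
      - ⟪v - V.P j v, V.H i g⟫ ^ 2 / (1 - sb * V.b v j))) (stdGaussian E) :=
    fun j _ => (itg_qf_term V v _ i j).const_mul _
  have i3 : Integrable (fun g => sb * ∑ j ∈ Finset.Ico (i + 1) V.n,
      om (j - i) * (⟪v, V.H i g⟫ ^ 2 - ⟪v - V.P j v, V.H i g⟫ ^ 2 / (1 - sb * V.b v j)))
      (stdGaussian E) := (integrable_finsetSum _ i2).const_mul _
  rw [integral_add i1 i3, integral_const_mul, integral_const_mul, int_xi_sq,
    integral_finsetSum _ i2]
  congr 2
  refine Finset.sum_congr rfl fun j hj => ?_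
  rw [Finset.mem_Ico] at hj
  rw [integral_const_mul, integral_sub (Mom764.integrable_inner_map_sq _ _)
    ((Mom764.integrable_inner_map_sq _ _).div_const _), integral_div, int_xi_sq,
    int_a_sq V v (by omega) (by omega)]

theorem int_qp (V : Flag E) (v : E) (sb eps : ℝ) {i : ℕ} (hin : i ≤ V.n) :
    ∫ g, qp V v sb eps i (V.H i g) ∂(stdGaussian E)
      = sb * (Zv V v i i + ∑ j ∈ Finset.Ico (i + 1) V.n,
          om (j - i) * (FD.em eps (j - i) * Av V v i j
            + (1 + 1 / FD.em eps (j - i)) * Zv V v i j)) := by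
  unfold qp
  have i1 : Integrable (fun g => ⟪v, V.H i g⟫ ^ 2) (stdGaussian E) :=
    Mom764.integrable_inner_map_sq _ _
  have i2 : ∀ j ∈ Finset.Ico (i + 1) V.n, Integrable (fun g => om (j - i) *
      (FD.em eps (j - i) * ⟪v - V.P j v, V.H i g⟫ ^ 2
        + (1 + 1 / FD.em eps (j - i)) * ⟪V.P j v, V.H i g⟫ ^ 2)) (stdGaussian E) :=
    fun j _ => (itg_qp_term V v _ _ i j).const_mul _
  have i3 : Integrable (fun g => ∑ j ∈ Finset.Ico (i + 1) V.n, om (j - i) *
      (FD.em eps (j - i) * ⟪v - V.P j v, V.H i g⟫ ^ 2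
        + (1 + 1 / FD.em eps (j - i)) * ⟪V.P j v, V.H i g⟫ ^ 2)) (stdGaussian E) :=
    integrable_finsetSum _ i2
  rw [integral_const_mul, integral_add i1 i3, int_xi_sq, integral_finsetSum _ i2]
  congr 2
  refine Finset.sum_congr rfl fun j hj => ?_
  rw [Finset.mem_Ico] at hj
  rw [integral_const_mul, integral_add ((Mom764.integrable_inner_map_sq _ _).const_mul _)
    ((Mom764.integrable_inner_map_sq _ _).const_mul _), integral_const_mul, integral_const_mul,
    int_a_sq V v (by omega) (by omega), int_zeta_sq V v (by omega) (by omega)]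

/-- `E qf = sb b_i - sb Σ om_{j-i} (sb b_j/(1 - sb b_j)) A_j` -/
theorem int_qf' (V : Flag E) (v : E) {sb : ℝ} {i : ℕ} (hin : i ≤ V.n)
    (hne : ∀ j, 1 - sb * V.b v j ≠ 0) :
    ∫ g, qf V v sb i (V.H i g) ∂(stdGaussian E)
      = sb * V.b v i - sb * ∑ j ∈ Finset.Ico (i + 1) V.n,
          om (j - i) * (sb * V.b v j / (1 - sb * V.b v j) * Av V v i j) := by
  rw [int_qf V v sb hin, ← exact_id V v hin, mul_add, add_sub_assoc, ← mul_sub,
    ← Finset.sum_sub_distrib]
  congr 2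
  refine Finset.sum_congr rfl fun j hj => ?_
  rw [Finset.mem_Ico] at hj
  rw [Zv_split V v (show i ≤ j by omega) (show j ≤ V.n by omega)]
  have := hne j
  field_simp
  ring

/-- `E qp = sb b_i + sb Σ om_{j-i} (e_{j-i} A_j + Z_j/e_{j-i})` -/
theorem int_qp' (V : Flag E) (v : E) (sb eps : ℝ) {i : ℕ} (hin : i ≤ V.n) :
    ∫ g, qp V v sb eps i (V.H i g) ∂(stdGaussian E)
      = sb * V.b v i + sb * ∑ j ∈ Finset.Ico (i + 1) V.n,
          om (j - i) * (FD.em eps (j - i) * Av V v i j + Zv V v i j / FD.em eps (j - i)) := by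
  rw [int_qp V v sb eps hin, ← exact_id V v hin, ← mul_add, add_assoc,
    ← Finset.sum_add_distrib]
  congr 2
  refine Finset.sum_congr rfl fun j _ => ?_
  ring

/-! ### bounds -/

lemma sum_om_b_le (V : Flag E) (v : E) (i : ℕ) :
    ∑ j ∈ Finset.Ico (i + 1) V.n, om (j - i) * V.b v j ≤ (9 / 50) * BB V v i := by
  unfold BB
  rw [Finset.mul_sum]
  refine Finset.sum_le_sum fun j hj => ?_
  rw [Finset.mem_Ico] at hj
  rw [← mul_assoc]
  refine mul_le_mul_of_nonneg_right ?_ (b_nonneg V v j)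
  rw [om_eq]
  obtain ⟨m, hm⟩ : ∃ m, j - i = m + 1 := ⟨j - i - 1, by omega⟩
  rw [hm]
  have h1 : (25 / 16 : ℝ) ^ (m + 1) ≤ (1 / 2) * (25 / 8) ^ (m + 1) := by
    have h2 : (25 / 16 : ℝ) ^ m ≤ (25 / 8) ^ m := by gcongr; norm_num
    rw [pow_succ, pow_succ]
    nlinarith [pow_pos (show (0:ℝ) < 25 / 8 by norm_num) m]
  nlinarith

lemma sum_half_le (i n : ℕ) : ∑ j ∈ Finset.Ico (i + 1) n, (1 / 2 : ℝ) ^ (j - i) ≤ 1 := by
  have key : ∀ N, i + 1 ≤ N → ∑ j ∈ Finset.Ico (i + 1) N, (1 / 2 : ℝ) ^ (j - i)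
      = 1 - (1 / 2) ^ (N - (i + 1)) := by
    intro N hN
    induction N, hN using Nat.le_induction with
    | base => simp
    | succ N hN ih =>
      rw [Finset.sum_Ico_succ_top hN, ih]
      obtain ⟨m, hm⟩ : ∃ m, N = i + 1 + m := ⟨N - (i + 1), by omega⟩
      subst hm
      have e1 : i + 1 + m - (i + 1) = m := by omega
      have e2 : i + 1 + m - i = m + 1 := by omega
      have e3 : i + 1 + m + 1 - (i + 1) = m + 1 := by omega
      rw [e1, e2, e3, pow_succ]
      ring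
  rcases le_or_gt (i + 1) n with h | h
  · rw [key n h]
    have : (0 : ℝ) ≤ (1 / 2) ^ (n - (i + 1)) := by positivity
    linarith
  · rw [Finset.Ico_eq_empty_of_le h.le]; simp

/-- `∫ qp ≤ sb b_i + (9/25) sb (eps b_i + BB/eps)` -/
theorem int_qp_le (V : Flag E) (v : E) {sb eps : ℝ} (hsb : 0 ≤ sb) (heps : 0 < eps) {i : ℕ}
    (hin : i ≤ V.n) :
    ∫ g, qp V v sb eps i (V.H i g) ∂(stdGaussian E)
      ≤ sb * V.b v i + (9 / 25) * sb * (eps * V.b v i + BB V v i / eps) := by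
  rw [int_qp' V v sb eps hin]
  have hA : ∑ j ∈ Finset.Ico (i + 1) V.n, om (j - i) * (FD.em eps (j - i) * Av V v i j)
      ≤ (9 / 25) * eps * V.b v i := by
    calc ∑ j ∈ Finset.Ico (i + 1) V.n, om (j - i) * (FD.em eps (j - i) * Av V v i j)
        ≤ ∑ j ∈ Finset.Ico (i + 1) V.n, (9 / 25) * eps * V.b v i * (1 / 2 : ℝ) ^ (j - i) := by
          refine Finset.sum_le_sum fun j hj => ?_
          rw [Finset.mem_Ico] at hj
          have h1 : om (j - i) * FD.em eps (j - i) = (9 / 25) * eps * (1 / 2 : ℝ) ^ (j - i) := by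
            rw [om_eq, em_eq]
            have : (1 / 2 : ℝ) ^ (j - i) = (25 / 16) ^ (j - i) * (8 / 25) ^ (j - i) := by
              rw [← mul_pow]; norm_num
            rw [this]; ring
          have h2 : Av V v i j ≤ V.b v i := by
            have := Av_le V v (show i ≤ j by omega)
            have := b_nonneg V v j
            linarith
          calc om (j - i) * (FD.em eps (j - i) * Av V v i j)
              = ((9 / 25) * eps * (1 / 2 : ℝ) ^ (j - i)) * Av V v i j := by rw [← h1]; ring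
            _ ≤ ((9 / 25) * eps * (1 / 2 : ℝ) ^ (j - i)) * V.b v i :=
                mul_le_mul_of_nonneg_left h2 (by positivity)
            _ = _ := by ring
      _ = (9 / 25) * eps * V.b v i * ∑ j ∈ Finset.Ico (i + 1) V.n, (1 / 2 : ℝ) ^ (j - i) := by
          rw [Finset.mul_sum]
      _ ≤ (9 / 25) * eps * V.b v i * 1 := by
          refine mul_le_mul_of_nonneg_left (sum_half_le i V.n) ?_
          have := b_nonneg V v i
          positivity
      _ = _ := by ring
  have hZ : ∑ j ∈ Finset.Ico (i + 1) V.n, om (j - i) * (Zv V v i j / FD.em eps (j - i))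
      ≤ (9 / 25) * (BB V v i / eps) := by
    unfold BB
    rw [Finset.sum_div, Finset.mul_sum]
    refine Finset.sum_le_sum fun j hj => ?_
    rw [Finset.mem_Ico] at hj
    have h2 := Zv_le V v (show i ≤ j by omega) (show j ≤ V.n by omega)
    have hth : th ^ (2 * (j - i)) = (16 / 25 : ℝ) ^ (j - i) := by
      rw [pow_mul]; unfold th; norm_num
    rw [hth] at h2
    have hem : 0 < FD.em eps (j - i) := by rw [em_eq]; positivity
    calc om (j - i) * (Zv V v i j / FD.em eps (j - i))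
        ≤ om (j - i) * (((16 / 25 : ℝ) ^ (j - i) * V.b v j) / FD.em eps (j - i)) := by
          refine mul_le_mul_of_nonneg_left ?_ (om_nonneg _)
          gcongr
      _ = (9 / 25) * ((25 / 8 : ℝ) ^ (j - i) * V.b v j / eps) := by
          rw [om_eq, em_eq]
          have h3 : (25 / 8 : ℝ) ^ (j - i) * (8 / 25) ^ (j - i)
              = (25 / 16) ^ (j - i) * (16 / 25) ^ (j - i) := by
            rw [← mul_pow, ← mul_pow]; norm_num
          have h4 : (0 : ℝ) < (8 / 25) ^ (j - i) := by positivity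
          rw [eq_comm, mul_div_assoc', mul_div_assoc', div_eq_div_iff (by positivity)
            (by positivity)]
          linear_combination (9 / 25 * V.b v j * eps) * h3
  have hs : ∑ j ∈ Finset.Ico (i + 1) V.n,
      om (j - i) * (FD.em eps (j - i) * Av V v i j + Zv V v i j / FD.em eps (j - i))
      ≤ (9 / 25) * (eps * V.b v i + BB V v i / eps) := by
    rw [Finset.sum_congr rfl (fun j _ => mul_add (om (j - i)) _ _), Finset.sum_add_distrib]
    linarith
  have := mul_le_mul_of_nonneg_left hs hsb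
  linarith

/-- `∫ qf ≤ sb b_i` -/
theorem int_qf_le (V : Flag E) {v : E} (hv : ‖v‖ = 1) {sb : ℝ} (hsb : 0 ≤ sb) (hsb1 : sb ≤ 1 / 2)
    {i : ℕ} (hin : i ≤ V.n) :
    ∫ g, qf V v sb i (V.H i g) ∂(stdGaussian E) ≤ sb * V.b v i := by
  have hd : ∀ j, 1 / 2 ≤ 1 - sb * V.b v j := by
    intro j
    nlinarith [b_le_one V hv j, b_nonneg V v j]
  rw [int_qf' V v hin (fun j => by linarith [hd j])]
  have : 0 ≤ ∑ j ∈ Finset.Ico (i + 1) V.n,
      om (j - i) * (sb * V.b v j / (1 - sb * V.b v j) * Av V v i j) := by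
    refine Finset.sum_nonneg fun j _ => ?_
    have h1 := hd j
    have h2 := b_nonneg V v j
    have h3 := Av_nonneg V v i j
    have h4 := om_nonneg (j - i)
    have h5 : 0 ≤ sb * V.b v j / (1 - sb * V.b v j) := div_nonneg (mul_nonneg hsb h2) (by linarith)
    positivity
  nlinarith

/-- `sb b_i - (9/25) sb² b_i BB ≤ ∫ qf` -/
theorem le_int_qf' (V : Flag E) {v : E} (hv : ‖v‖ = 1) {sb : ℝ} (hsb : 0 ≤ sb) (hsb1 : sb ≤ 1 / 2)
    {i : ℕ} (hin : i ≤ V.n) :
    sb * V.b v i - (9 / 25) * sb ^ 2 * (V.b v i * BB V v i)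
      ≤ ∫ g, qf V v sb i (V.H i g) ∂(stdGaussian E) := by
  have hd : ∀ j, 1 / 2 ≤ 1 - sb * V.b v j := by
    intro j
    nlinarith [b_le_one V hv j, b_nonneg V v j]
  rw [int_qf' V v hin (fun j => by linarith [hd j])]
  have h1 : ∑ j ∈ Finset.Ico (i + 1) V.n,
      om (j - i) * (sb * V.b v j / (1 - sb * V.b v j) * Av V v i j)
      ≤ (2 * sb * V.b v i) * ((9 / 50) * BB V v i) := by
    refine le_trans ?_ (mul_le_mul_of_nonneg_left (sum_om_b_le V v i)
      (by have := b_nonneg V v i; positivity))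
    rw [Finset.mul_sum]
    refine Finset.sum_le_sum fun j hj => ?_
    rw [Finset.mem_Ico] at hj
    have h2 : Av V v i j ≤ V.b v i := by
      have := Av_le V v (show i ≤ j by omega)
      have := b_nonneg V v j
      linarith
    have h3 : sb * V.b v j / (1 - sb * V.b v j) ≤ 2 * sb * V.b v j := by
      rw [div_le_iff₀ (by linarith [hd j])]
      have := mul_nonneg hsb (b_nonneg V v j)
      nlinarith [hd j]
    have h4 : 0 ≤ 2 * sb * V.b v j := by have := b_nonneg V v j; positivity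
    calc om (j - i) * (sb * V.b v j / (1 - sb * V.b v j) * Av V v i j)
        ≤ om (j - i) * (2 * sb * V.b v j * V.b v i) := by
          refine mul_le_mul_of_nonneg_left ?_ (om_nonneg _)
          exact mul_le_mul h3 h2 (Av_nonneg V v i j) h4
      _ = _ := by ring
  have := mul_le_mul_of_nonneg_left h1 hsb
  nlinarith

/-- `sb b_i - (9/25) sb² BB ≤ ∫ qf` -/
theorem le_int_qf (V : Flag E) {v : E} (hv : ‖v‖ = 1) {sb : ℝ} (hsb : 0 ≤ sb) (hsb1 : sb ≤ 1 / 2)
    {i : ℕ} (hin : i ≤ V.n) :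
    sb * V.b v i - (9 / 25) * sb ^ 2 * BB V v i
      ≤ ∫ g, qf V v sb i (V.H i g) ∂(stdGaussian E) := by
  refine le_trans ?_ (le_int_qf' V hv hsb hsb1 hin)
  have h1 : V.b v i * BB V v i ≤ BB V v i := by
    have := b_le_one V hv i
    have := BB_nonneg V v i
    nlinarith
  have h2 : (9 / 25) * sb ^ 2 * (V.b v i * BB V v i) ≤ (9 / 25) * sb ^ 2 * BB V v i :=
    mul_le_mul_of_nonneg_left h1 (by positivity)
  linarith

/-- `∫ (qp - qf) ≤ (9/25) sb (eps b_i + (1/eps + sb) BB)` -/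
theorem int_exc_le (V : Flag E) {v : E} (hv : ‖v‖ = 1) {sb eps : ℝ} (hsb : 0 ≤ sb)
    (hsb1 : sb ≤ 1 / 2) (heps : 0 < eps) {i : ℕ} (hin : i ≤ V.n) :
    ∫ g, (qp V v sb eps i (V.H i g) - qf V v sb i (V.H i g)) ∂(stdGaussian E)
      ≤ (9 / 25) * sb * (eps * V.b v i + (1 / eps + sb) * BB V v i) := by
  rw [integral_sub (integrable_qp V v sb eps i) (integrable_qf V v sb i)]
  have h1 := int_qp_le V v hsb heps hin
  have h2 := le_int_qf V hv hsb hsb1 hin
  have h3 : BB V v i / eps = 1 / eps * BB V v i := by ring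
  rw [h3] at h1
  nlinarith

/-! ### the same on the law of level `i` -/

lemma continuous_qf (V : Flag E) (v : E) (sb : ℝ) (i : ℕ) : Continuous (qf V v sb i) := by
  unfold qf; fun_prop

lemma continuous_qp (V : Flag E) (v : E) (sb eps : ℝ) (i : ℕ) :
    Continuous (qp V v sb eps i) := by
  unfold qp; fun_prop

lemma int_gau_qf (V : Flag E) (v : E) (sb : ℝ) (i : ℕ) :
    ∫ x, qf V v sb i x ∂(gau (V.H i)) = ∫ g, qf V v sb i (V.H i g) ∂(stdGaussian E) :=
  Mom764.integral_gau _ (continuous_qf V v sb i)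

lemma int_gau_qp (V : Flag E) (v : E) (sb eps : ℝ) (i : ℕ) :
    ∫ x, qp V v sb eps i x ∂(gau (V.H i)) = ∫ g, qp V v sb eps i (V.H i g) ∂(stdGaussian E) :=
  Mom764.integral_gau _ (continuous_qp V v sb eps i)

end Crest.Agent.R239.MomF764
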