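import Mathlib
import Crest.Agent.R239.FDef
import Crest.Agent.R239.F6b_696
import Crest.Agent.R239.AdmHalf_606
import Crest.Agent.R239.Dom_640
import Crest.Agent.R239.InsCut_488
import Crest.Agent.R239.RemLev_864
import Crest.Agent.R239.Cmp_142
import Crest.Agent.R239.F5_336
import Crest.Agent.R239.MomF_764

/-! R239, block F6 (helper696): one level comparison at LOW levels (`i ≤ I`) and at BAD levels
(583's official order of cuts: the competitor of the tilted flag is not cut; first the comparison,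
then the slab and the cap of `V` on the side of `V`). -/

set_option autoImplicit false
set_option linter.unusedSectionVars false
open MeasureTheory ProbabilityTheory Set Filter Topology Pointwise
open scoped RealInnerProductSpace

namespace Crest.Agent.R239.LevLo696

open Crest.Agent.R239 (gau gau_real_apply)
open Crest.Agent.R239.FD
open Crest.Agent.R239.F6b696

variable {E : Type*} [NormedAddCommGroup E] [InnerProductSpace ℝ E] [FiniteDimensional ℝ E]
  [MeasurableSpace E] [BorelSpace E]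

/-- one Markov cut by the cap, on the law of the level -/
theorem cut_cap (V : Flag E) (i : ℕ) {rho : ℝ} (hrho : 0 < rho) {K : Set E} (hK : MeasurableSet K)
    (cK : Convex ℝ K) (sK : ∀ x ∈ K, -x ∈ K) :
    (1 - 1 / rho ^ 2) * (gau (V.H i)).real K ≤ (gau (V.H i)).real (K ∩ V.cap rho i) := by
  have h := Ins488.cut_ell (E := E) V.anti (th := th) th_pos hrho V.n i cK hK sK
  rw [gau_real_apply _ hK, gau_real_apply _ (hK.inter (AdmHalf606.cap_closed V i rho).measurableSet)]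
  refine h.trans (le_of_eq ?_)
  congr 1
  ext g
  have e1 : ∀ j, ((V.k j : ℕ) : ℝ)
      = (Module.finrank ℝ ↥(V.M j) : ℝ) - (Module.finrank ℝ ↥(V.M (j + 1)) : ℝ) := by
    intro j
    have := Submodule.finrank_mono (V.anti (Nat.le_succ j))
    unfold Flag.k
    rw [Nat.cast_sub this]
  constructor
  · rintro ⟨h1, h2⟩
    refine ⟨h1, H_mem V i g, ?_⟩
    simp only [Flag.rr, Flag.N, e1]
    exact h2
  · rintro ⟨h1, _, h2⟩
    refine ⟨h1, ?_⟩
    simp only [Flag.rr, Flag.N, e1] at h2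
    exact h2

lemma cap_pos {p : Par} (hp : p.Ok) (V : Flag E) (i : ℕ) :
    0 < (gau (V.H i)).real (V.cap p.rho i) := by
  have hr := hp.rho_ge
  have h := cut_cap V i (rho := p.rho) (by linarith) (K := univ) MeasurableSet.univ convex_univ
    (fun _ _ => trivial)
  have : IsProbabilityMeasure (gau (V.H i)) := gau_isProb _
  rw [probReal_univ, univ_inter] at h
  have h2 : 1 / p.rho ^ 2 < 1 := by
    rw [div_lt_one (by positivity)]
    nlinarith
  linarith

lemma cap_adm {p : Par} (hp : p.Ok) (V : Flag E) (i : ℕ) : Adm p V i (V.cap p.rho i) :=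
  ⟨AdmHalf606.cap_closed V i _, AdmHalf606.cap_convex V i _, fun _ hx => AdmHalf606.cap_neg V i _ hx,
    subset_rfl, cap_pos hp V i⟩

lemma lam_nonneg {p : Par} (hp : p.Ok) (i : ℕ) : 0 ≤ p.lam i := (Rem864.lam_pos hp i).le

/-- lower bound of `D` at any flag from a bound on all admissible bodies -/
lemma le_D {p : Par} (hp : p.Ok) {V : Flag E} {i : ℕ} {μ : Multiset E} {c : ℝ}
    (h : ∀ K, Adm p V i K → c ≤ val p V i μ K) : c ≤ D p V i μ := by
  unfold D
  refine le_csInf ⟨_, _, cap_adm hp V i, rfl⟩ ?_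
  rintro _ ⟨K, hK, rfl⟩
  exact h K hK

/-- `-log (1 - 1/ρ²) ≤ 2/ρ²` -/
lemma neg_log_cap {rho : ℝ} (hr : 16 ≤ rho) : -Real.log (1 - 1 / rho ^ 2) ≤ 2 / rho ^ 2 := by
  set x : ℝ := 1 / rho ^ 2 with hx
  have hx0 : 0 < x := by positivity
  have hx1 : x ≤ 1 / 256 := by
    rw [hx]
    apply one_div_le_one_div_of_le (by norm_num)
    nlinarith
  have h1 : 1 - (1 - x)⁻¹ ≤ Real.log (1 - x) := Real.one_sub_inv_le_log_of_pos (by linarith)
  have h2 : (1 - x)⁻¹ ≤ 1 + 2 * x := by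
    rw [inv_le_comm₀ (by linarith) (by linarith)]
    rw [inv_le_iff_one_le_mul₀ (by linarith)]
    nlinarith
  have h3 : 2 / rho ^ 2 = 2 * x := by rw [hx]; ring
  rw [h3]
  linarith

/-- **uncut comparison with one competitor body of the tilted flag** (slab and cap on the side of
`V`). -/
theorem lev_bad {p : Par} (hp : p.Ok) {V : Flag E} {i : ℕ} {s : ℝ} {v : E} (h0 : 0 ≤ s)
    {K' : Set E} (hK' : Adm p (V.rot v s) i K') {e t : ℝ}
    (hcmp : Real.exp (-e / 2) * (stdGaussian E).real ((V.rot v s).H i ⁻¹' K')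
      ≤ (stdGaussian E).real (Rm V v s i ⁻¹' ((V.rot v s).H i ⁻¹' K')))
    (ht : 0 < (gau (V.H i)).real {x | |⟪v, x⟫| ≤ t}) (μ : Multiset E) :
    D p V i μ ≤ val p (V.rot v s) i μ K' + p.lam i * (e / 2) + p.lam i * (2 / p.rho ^ 2)
      + (s * t * S μ v - p.lam i * Real.log ((gau (V.H i)).real {x | |⟪v, x⟫| ≤ t})) := by
  have hr := hp.rho_ge
  have hlam := lam_nonneg hp
  have hK'c : IsCompact K' := AdmHalf606.adm_compact hK'
  have h0' : (0 : E) ∈ K' := zero_mem_of_adm hK'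
  -- the pulled back body
  set Q0 := Qb V v s i K' with hQ0
  have hMc : IsClosed (V.M i : Set E) := Submodule.closed_of_finiteDimensional _
  have hQ0cl : IsClosed Q0 := (hK'.1.preimage (Ts v s).continuous).inter hMc
  have hQ0v : Convex ℝ Q0 := (hK'.2.1.linear_preimage (Ts v s).toLinearMap).inter (V.M i).convex
  have hQ0s : ∀ x ∈ Q0, -x ∈ Q0 := by
    rintro x ⟨hx, hxM⟩
    refine ⟨?_, (V.M i).neg_mem hxM⟩
    simp only [mem_preimage, map_neg]
    exact hK'.2.2.1 _ hx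
  have hm0 : Real.exp (-e / 2) * (gau ((V.rot v s).H i)).real K' ≤ (gau (V.H i)).real Q0 := by
    rw [hQ0, Qb_real V v s i hK'.1, gau_real_apply _ hK'.1.measurableSet]
    exact hcmp
  -- the slab
  set Sl : Set E := {x | |⟪v, x⟫| ≤ t} with hSl
  have hSlcl : IsClosed Sl := isClosed_le (by fun_prop) continuous_const
  have hSlv : Convex ℝ Sl := by
    intro x hx y hy a b ha hb hab
    simp only [hSl, mem_ofPred_eq] at hx hy ⊢
    rw [inner_add_right, inner_smul_right, inner_smul_right]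
    calc |a * ⟪v, x⟫ + b * ⟪v, y⟫| ≤ |a * ⟪v, x⟫| + |b * ⟪v, y⟫| := abs_add_le _ _
      _ = a * |⟪v, x⟫| + b * |⟪v, y⟫| := by
          rw [abs_mul, abs_mul, abs_of_nonneg ha, abs_of_nonneg hb]
      _ ≤ a * t + b * t := by gcongr
      _ = t := by rw [← add_mul, hab, one_mul]
  have hSls : ∀ x ∈ Sl, -x ∈ Sl := by
    intro x hx
    simp only [hSl, mem_ofPred_eq, inner_neg_right, abs_neg] at hx ⊢
    exact hx
  have hm1 := Dom640.gau_slab_real (V.H i) hQ0cl.measurableSet hQ0v hQ0s v t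
  -- the cap
  have hm2 := cut_cap V i (rho := p.rho) (by linarith) (K := Q0 ∩ Sl)
    (hQ0cl.inter hSlcl).measurableSet (hQ0v.inter hSlv)
    (fun x hx => ⟨hQ0s x hx.1, hSls x hx.2⟩)
  set Q := Q0 ∩ Sl ∩ V.cap p.rho i with hQ
  have hc1 : 0 < 1 - 1 / p.rho ^ 2 := by
    have : 1 / p.rho ^ 2 < 1 := by
      rw [div_lt_one (by positivity)]
      nlinarith
    linarith
  have hg' : 0 < (gau ((V.rot v s).H i)).real K' := hK'.2.2.2.2
  have hmeas : (1 - 1 / p.rho ^ 2) * (Real.exp (-e / 2) * (gau ((V.rot v s).H i)).real K'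
      * (gau (V.H i)).real Sl) ≤ (gau (V.H i)).real Q := by
    refine le_trans ?_ hm2
    apply mul_le_mul_of_nonneg_left _ hc1.le
    refine le_trans ?_ hm1
    exact mul_le_mul_of_nonneg_right hm0 measureReal_nonneg
  have hQpos : 0 < (gau (V.H i)).real Q := lt_of_lt_of_le (by positivity) hmeas
  have hadm : Adm p V i Q := by
    refine ⟨(hQ0cl.inter hSlcl).inter (AdmHalf606.cap_closed V i _),
      (hQ0v.inter hSlv).inter (AdmHalf606.cap_convex V i _), ?_, fun x hx => hx.2, hQpos⟩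
    intro x hx
    exact ⟨⟨hQ0s x hx.1.1, hSls x hx.1.2⟩, AdmHalf606.cap_neg V i _ hx.2⟩
  have hE : Eh Q μ ≤ Eh K' μ + s * t * S μ v :=
    F6core696.Eh_pullback hK'c ⟨0, zero_mem_of_adm hadm⟩ h0 (fun x => Ts_apply v s x)
      (fun x hx => hx.1.1.1) (fun x hx => hx.1.2) μ
  have h1 := D_le_val (μ := μ) hlam hadm
  have hlog : Real.log (1 - 1 / p.rho ^ 2) + (-e / 2
      + Real.log ((gau ((V.rot v s).H i)).real K') + Real.log ((gau (V.H i)).real Sl))
      ≤ Real.log ((gau (V.H i)).real Q) := by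
    have h2 := Real.log_le_log (by positivity) hmeas
    rw [Real.log_mul hc1.ne' (by positivity), Real.log_mul (by positivity) ht.ne',
      Real.log_mul (Real.exp_ne_zero _) hg'.ne', Real.log_exp] at h2
    exact h2
  have h3 := neg_log_cap hr
  unfold val at h1 ⊢
  have h4 : p.lam i * (-(2 / p.rho ^ 2) + (-e / 2
      + Real.log ((gau ((V.rot v s).H i)).real K') + Real.log ((gau (V.H i)).real Sl)))
      ≤ p.lam i * Real.log ((gau (V.H i)).real Q) :=
    mul_le_mul_of_nonneg_left (by linarith) (hlam i)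
  have h5 : p.lam i * (-(2 / p.rho ^ 2) + (-e / 2
      + Real.log ((gau ((V.rot v s).H i)).real K') + Real.log ((gau (V.H i)).real Sl)))
      = -(p.lam i * (2 / p.rho ^ 2)) - p.lam i * (e / 2)
        + p.lam i * Real.log ((gau ((V.rot v s).H i)).real K')
        + p.lam i * Real.log ((gau (V.H i)).real Sl) := by ring
  linarith

/-- variance of `⟪v, ·⟫` at level `i` -/
lemma var_v_le (V : Flag E) (v : E) (i : ℕ) : ‖(V.H i).adjoint v‖ ^ 2 ≤ V.b v i := by
  rcases le_total i V.n with hin | hin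
  · have h1 : ‖(V.H i).adjoint v‖ ^ 2
        = ∑ j ∈ Finset.Ico i V.n, th ^ (2 * (j - i)) * ‖V.Q j v‖ ^ 2 := by
      rw [MomF764.H_eq, Mom764.adjoint_H, Mom764.norm_H_sq V.anti]; rfl
    have h2 : V.b v i = ∑ j ∈ Finset.Ico i V.n, ‖V.Q j v‖ ^ 2 := by
      have := Mom764.sum_norm_Q_sq V.anti hin v
      rw [V.bot V.n le_rfl] at this
      simp only [Submodule.starProjection_bot] at this
      unfold Flag.b
      rw [MomF764.P_eq]
      have e : ∑ j ∈ Finset.Ico i V.n, ‖V.Q j v‖ ^ 2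
          = ∑ j ∈ Finset.Ico i V.n, ‖Mom764.Q V.M j v‖ ^ 2 := rfl
      rw [e, this]; simp
    rw [h1, h2]
    refine Finset.sum_le_sum fun j _ => ?_
    have h3 : th ^ (2 * (j - i)) ≤ 1 := pow_le_one₀ MomF764.th_pos.le MomF764.th_le
    nlinarith [sq_nonneg ‖V.Q j v‖]
  · have h1 : V.H i = 0 := by
      unfold Flag.H
      rw [Finset.Ico_eq_empty (by omega), Finset.sum_empty]
    rw [h1]
    simp only [map_zero, _root_.zero_apply, norm_zero, ne_eq, OfNat.ofNat_ne_zero,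
      not_false_eq_true, zero_pow]
    exact MomF764.b_nonneg V v i

lemma S_nonneg (μ : Multiset E) (v : E) : 0 ≤ S μ v := by
  unfold S
  apply Multiset.sum_nonneg
  intro y hy
  obtain ⟨z, _, rfl⟩ := Multiset.mem_map.1 hy
  exact abs_nonneg _

/-- comparison with one competitor body, trace bound of F5 -/
theorem lev_bad_BB {p : Par} (hp : p.Ok) (V : Flag E) (i : ℕ) {s : ℝ} {v : E} (hv : ‖v‖ = 1)
    (h0 : 0 < s) (h1 : s < 1) (hsb : 2 * s - s ^ 2 ≤ 1 / 2) {t : ℝ}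
    (ht : 0 < (gau (V.H i)).real {x | |⟪v, x⟫| ≤ t}) (μ : Multiset E) :
    D p V i μ ≤ D p (V.rot v s) i μ + p.lam i * ((2 * s - s ^ 2) * BB V v i / 2)
      + p.lam i * (2 / p.rho ^ 2)
      + (s * t * S μ v - p.lam i * Real.log ((gau (V.H i)).real {x | |⟪v, x⟫| ≤ t})) := by
  have key : D p V i μ - (p.lam i * ((2 * s - s ^ 2) * BB V v i / 2)
      + p.lam i * (2 / p.rho ^ 2)
      + (s * t * S μ v - p.lam i * Real.log ((gau (V.H i)).real {x | |⟪v, x⟫| ≤ t})))
      ≤ D p (V.rot v s) i μ := by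
    refine le_D hp fun K' hK' => ?_
    obtain ⟨J, u, hN, hu⟩ := F5336.f5_N V hv h0 h1 hsb i
    have hR : ∀ g, ‖Rm V v s i g‖ ^ 2 ≤ ‖g‖ ^ 2 + ∑ k ∈ J, ⟪u k, g⟫ ^ 2 := by
      intro g
      have h2 := hN g
      have h3 : 0 ≤ (2 * s - s ^ 2) / 2 * ⟪V.Q i v, g⟫ ^ 2 := by
        have : 0 ≤ 2 * s - s ^ 2 := by nlinarith
        positivity
      rw [Rm_apply]
      linarith
    have hB : IsClosed ((V.rot v s).H i ⁻¹' K') := hK'.1.preimage ((V.rot v s).H i).continuous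
    have hcmp := Cmp142.cmp_sum_real hB.measurableSet
      (Dom640.pre_conv _ hK'.2.1) (Dom640.pre_symm _ hK'.2.2.1) J (Rm V v s i) u hR
    have hmain := lev_bad hp (V := V) (i := i) h0.le hK' hcmp ht μ
    have h4 : p.lam i * ((∑ k ∈ J, ‖u k‖ ^ 2) / 2) ≤ p.lam i * ((2 * s - s ^ 2) * BB V v i / 2) :=
      mul_le_mul_of_nonneg_left (by linarith) (lam_nonneg hp i)
    linarith
  linarith

/-- **`P_LEVlo`**, all constants explicit: `C9 = 10` is enough when `sb ≤ 1/2`. -/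
theorem p_levlo (p : Par) (hp : p.Ok) {s C9 : ℝ} (h0 : 0 < s) (h1 : s < 1)
    (hsb : 2 * s - s ^ 2 ≤ 1 / 2) (hC : 10 ≤ C9) : P_LEVlo E p s C9 := by
  intro V μ v I i hv hS hi _
  have hb : ‖(V.H i).adjoint v‖ ^ 2 ≤ 4 :=
    (var_v_le V v i).trans ((MomF764.b_le_one V hv i).trans (by norm_num))
  obtain ⟨t, _, ht, hrem⟩ := Rem864.rem_lo hp hi (S_nonneg μ v) hS h0.le h1.le (V.H i) v hb
  have hmain := lev_bad_BB hp V i hv h0 h1 hsb ht μ
  have hBB := MomF764.BB_nonneg V v i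
  have hli := Rem864.lam_pos hp i
  have hlI := Rem864.lam_pos hp I
  have hr := hp.rho_ge
  have hA := hp.A_ge
  -- `lam i ≤ lam I (1/2)^(I-i)`
  have hle : p.lam i ≤ p.lam I * (1 / 2) ^ (I - i) := by
    obtain ⟨m, rfl⟩ : ∃ m, I = i + m := ⟨I - i, by omega⟩
    rw [Rem864.lam_add, show i + m - i = m by omega, mul_assoc, ← mul_pow]
    have : 1 ≤ (p.A * (1 / 2)) ^ m := one_le_pow₀ (by linarith)
    nlinarith
  have h2 : p.lam i * (2 / p.rho ^ 2) ≤ 2 * (p.lam I * (1 / 2) ^ (I - i)) := by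
    have h3 : 2 / p.rho ^ 2 ≤ 2 := by
      rw [div_le_iff₀ (by positivity)]
      nlinarith
    nlinarith
  have h4 : p.lam i * ((2 * s - s ^ 2) * BB V v i / 2) ≤ p.lam i * C9 * BB V v i := by
    have h5 : (2 * s - s ^ 2) * BB V v i / 2 ≤ C9 * BB V v i := by nlinarith
    calc p.lam i * ((2 * s - s ^ 2) * BB V v i / 2) ≤ p.lam i * (C9 * BB V v i) :=
          mul_le_mul_of_nonneg_left h5 hli.le
      _ = p.lam i * C9 * BB V v i := by ring
  have h6 : 10 * (p.lam I * (1 / 2) ^ (I - i)) ≤ C9 * p.lam I * (1 / 2) ^ (I - i) := by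
    have : 0 < p.lam I * (1 / 2) ^ (I - i) := by positivity
    calc 10 * (p.lam I * (1 / 2) ^ (I - i)) ≤ C9 * (p.lam I * (1 / 2) ^ (I - i)) :=
          mul_le_mul_of_nonneg_right hC this.le
      _ = _ := by ring
  have h7 : 8 * p.lam I * (1 / 2) ^ (I - i) = 8 * (p.lam I * (1 / 2) ^ (I - i)) := by ring
  linarith

/-- **BAD levels above `I`**: the conclusion of `P_LEVhi` when `BB V v i` is not small.  No thinness
is needed. -/
theorem levhi_bad {p : Par} (hp : p.Ok) {s cb c9 C9 : ℝ} (h0 : 0 < s) (h1 : s < 1)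
    (hsb : 2 * s - s ^ 2 ≤ 1 / 2) (hcb : 0 < cb) (hc9 : 0 ≤ c9)
    (hC : (c9 + 3) / cb + 1 + 7 ≤ C9) (V : Flag E) (μ : Multiset E) {v : E} {I i : ℕ}
    (hv : ‖v‖ = 1) (hS : S μ v ≤ p.lam I) (hi : I < i) (hbad : cb ≤ BB V v i) :
    D p V i μ + p.lam i * (c9 * V.b v i - C9 * BB V v i) - C9 * p.lam I * (1 / 2) ^ (i - I)
      ≤ D p (V.rot v s) i μ := by
  obtain ⟨t, _, ht, hrem⟩ := Rem864.rem_hi hp hi (S_nonneg μ v) hS h0.le h1.le one_pos le_rfl
    (V.H i) v
  have hmain := lev_bad_BB hp V i hv h0 h1 hsb ht μ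
  have hBB := MomF764.BB_nonneg V v i
  have hli := Rem864.lam_pos hp i
  have hlI := Rem864.lam_pos hp I
  have hr := hp.rho_ge
  have hb1 := MomF764.b_le_one V hv i
  have hb0 := MomF764.b_nonneg V v i
  have hvar := var_v_le V v i
  have h3 : 2 / p.rho ^ 2 ≤ 2 := by
    rw [div_le_iff₀ (by positivity)]
    nlinarith
  have hq : (c9 + 3) ≤ (c9 + 3) / cb * BB V v i := by
    rw [div_mul_eq_mul_div, le_div_iff₀ hcb]
    exact mul_le_mul_of_nonneg_left hbad (by linarith)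
  have h7C : (7 : ℝ) ≤ C9 := by
    have : 0 ≤ (c9 + 3) / cb := by positivity
    linarith
  have h4 : c9 * V.b v i + (2 * s - s ^ 2) * BB V v i / 2 + 2 / p.rho ^ 2
      + ‖(V.H i).adjoint v‖ ^ 2 ≤ C9 * BB V v i := by
    have h5 : (2 * s - s ^ 2) * BB V v i / 2 ≤ BB V v i := by nlinarith
    have h6 : c9 * V.b v i ≤ c9 := by nlinarith
    have h8 : ((c9 + 3) / cb + 1) * BB V v i ≤ C9 * BB V v i :=
      mul_le_mul_of_nonneg_right (by linarith) hBB
    nlinarith
  have h9 : p.lam i * (c9 * V.b v i + (2 * s - s ^ 2) * BB V v i / 2 + 2 / p.rho ^ 2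
      + ‖(V.H i).adjoint v‖ ^ 2) ≤ p.lam i * (C9 * BB V v i) :=
    mul_le_mul_of_nonneg_left h4 hli.le
  have h10 : 7 * (p.lam I * (1 / 2) ^ (i - I)) ≤ C9 * (p.lam I * (1 / 2) ^ (i - I)) :=
    mul_le_mul_of_nonneg_right h7C (by positivity)
  have h11 : 1 * p.lam i * ‖(V.H i).adjoint v‖ ^ 2 + 7 / 1 * p.lam I * (1 / 2) ^ (i - I)
      = p.lam i * ‖(V.H i).adjoint v‖ ^ 2 + 7 * (p.lam I * (1 / 2) ^ (i - I)) := by ring
  rw [h11] at hrem
  have h12 : C9 * p.lam I * (1 / 2) ^ (i - I) = C9 * (p.lam I * (1 / 2) ^ (i - I)) := by ring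
  rw [h12]
  have h13 : p.lam i * (c9 * V.b v i + (2 * s - s ^ 2) * BB V v i / 2 + 2 / p.rho ^ 2
      + ‖(V.H i).adjoint v‖ ^ 2) = p.lam i * (c9 * V.b v i)
      + p.lam i * ((2 * s - s ^ 2) * BB V v i / 2) + p.lam i * (2 / p.rho ^ 2)
      + p.lam i * ‖(V.H i).adjoint v‖ ^ 2 := by ring
  rw [h13] at h9
  have h14 : p.lam i * (c9 * V.b v i - C9 * BB V v i)
      = p.lam i * (c9 * V.b v i) - p.lam i * (C9 * BB V v i) := by ring
  rw [h14]
  linarith

end Crest.Agent.R239.LevLo696
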