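import Mathlib
import Crest.Agent.R239.Gau4
import Crest.Agent.R239.LineGauss

/-!
# R239 : rank-one mixture lemma (MIX1) for the standard Gaussian

`K, Q, W` measurable, `(1/2) K + (1/2) Q ⊆ W`, `n` a unit vector, `0 ≤ s ≤ 1/4`,
`scl n c x = x + (c-1) ⟪n,x⟫ n`.  Then
`γ K * γ {x | scl n ((1-s)^(-1/2)) x ∈ Q} * exp (s/2 - (s+4s²)/2 * E_K ⟪n,·⟫²) ≤ (γ W)²`.
-/

set_option autoImplicit false
set_option linter.unusedSectionVars false

open MeasureTheory ProbabilityTheory Set Filter Topology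
open scoped RealInnerProductSpace ENNReal NNReal InnerProduct

namespace Crest.Agent.R239.Mix1_614

open Crest.Agent.R239 Crest.Agent.Lib.PrekopaLeindler

variable {E : Type*} [NormedAddCommGroup E] [InnerProductSpace ℝ E] [FiniteDimensional ℝ E]
  [MeasurableSpace E] [BorelSpace E]

/-- scaling by `c` in the direction `n` -/
noncomputable def scl (n : E) (c : ℝ) (x : E) : E := x + ((c - 1) * ⟪n, x⟫) • n

lemma scl_line {n : E} (hn : ‖n‖ = 1) (c s : ℝ) (y : E) :
    scl n c (s • n + proj n y) = (c * s) • n + proj n y := by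
  have h1 : ⟪n, s • n + proj n y⟫ = s := by
    rw [inner_add_right, inner_smul_right, inner_proj hn, real_inner_self_eq_norm_sq, hn]; ring
  rw [scl, h1]
  have : (c * s) • n = s • n + ((c - 1) * s) • n := by rw [← add_smul]; congr 1; ring
  rw [this]; abel

lemma inner_line {n : E} (hn : ‖n‖ = 1) (s : ℝ) (y : E) : ⟪n, s • n + proj n y⟫ = s := by
  rw [inner_add_right, inner_smul_right, inner_proj hn, real_inner_self_eq_norm_sq, hn]; ring

lemma continuous_scl (n : E) (c : ℝ) : Continuous (scl n c) := by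
  unfold scl; fun_prop

/-- the Gaussian density -/
lemma g1_lint (f : ℝ → ℝ≥0∞) (hf : Measurable f) :
    ∫⁻ s, f s ∂(gaussianReal 0 1) = ∫⁻ s, gaussianPDF 0 1 s * f s := by
  rw [gaussianReal_of_var_ne_zero _ one_ne_zero,
    lintegral_withDensity_eq_lintegral_mul _ (measurable_gaussianPDF _ _) hf]
  rfl

/-- Gaussian integral over `E` as an integral over `ℝ × E` with Lebesgue measure in direction `n`. -/
lemma lint_prod {n : E} (hn : ‖n‖ = 1) (F : E → ℝ≥0∞) (hF : Measurable F) :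
    ∫⁻ p : ℝ × E, gaussianPDF 0 1 p.1 * F (p.1 • n + proj n p.2) ∂(volume.prod (stdGaussian E))
      = ∫⁻ x, F x ∂(stdGaussian E) := by
  rw [line_lintegral hn hF, lintegral_prod_symm]
  · refine lintegral_congr fun y => ?_
    rw [g1_lint]
    exact hF.comp (by fun_prop)
  · refine Measurable.aemeasurable ?_
    refine Measurable.mul ((measurable_gaussianPDF 0 1).comp measurable_fst) ?_
    exact hF.comp (by fun_prop)

/-- the one dimensional substitution -/
lemma oneD {s : ℝ} (hs : s < 1) (g : ℝ → ℝ≥0∞) (hg : Measurable g) :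
    ∫⁻ b, gaussianPDF 0 1 b * (ENNReal.ofReal (Real.exp (s * b ^ 2 / 2)) * g b)
      = ENNReal.ofReal (1 / Real.sqrt (1 - s)) *
        ∫⁻ b, gaussianPDF 0 1 b * g ((1 / Real.sqrt (1 - s)) * b) := by
  have hs' : 0 < 1 - s := by linarith
  have hc0 : 0 < 1 / Real.sqrt (1 - s) := by positivity
  have hc2 : (1 / Real.sqrt (1 - s)) ^ 2 * (1 - s) = 1 := by
    rw [div_pow, one_pow, Real.sq_sqrt hs'.le]
    field_simp
  generalize 1 / Real.sqrt (1 - s) = c at hc0 hc2 ⊢
  have hGm : Measurable fun b : ℝ =>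
      gaussianPDF 0 1 b * (ENNReal.ofReal (Real.exp (s * b ^ 2 / 2)) * g b) :=
    (measurable_gaussianPDF 0 1).mul (Measurable.mul (by fun_prop) hg)
  conv_lhs => rw [← Real.smul_map_volume_mul_left hc0.ne']
  rw [lintegral_smul_measure, lintegral_map hGm (by fun_prop), abs_of_pos hc0, smul_eq_mul]
  congr 1
  refine lintegral_congr fun b => ?_
  rw [← mul_assoc]
  congr 1
  unfold gaussianPDF
  rw [← ENNReal.ofReal_mul (gaussianPDFReal_nonneg _ _ _)]
  congr 1
  unfold gaussianPDFReal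
  simp only [NNReal.coe_one, mul_one, sub_zero]
  rw [mul_assoc, ← Real.exp_add]
  congr 2
  have : (c * b) ^ 2 * (1 - s) = b ^ 2 := by
    calc (c * b) ^ 2 * (1 - s) = (c ^ 2 * (1 - s)) * b ^ 2 := by ring
      _ = b ^ 2 := by rw [hc2, one_mul]
  linarith

/-- the substitution `b -> c b` in direction `n` -/
lemma lint_prod_scl {n : E} (hn : ‖n‖ = 1) {s : ℝ} (hs : s < 1) {Q : Set E}
    (hQ : MeasurableSet Q) :
    ∫⁻ p : ℝ × E, gaussianPDF 0 1 p.1 * (ENNReal.ofReal (Real.exp (s * p.1 ^ 2 / 2)) *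
        Q.indicator 1 (p.1 • n + proj n p.2)) ∂(volume.prod (stdGaussian E))
      = ENNReal.ofReal (1 / Real.sqrt (1 - s)) *
        stdGaussian E {x | scl n (1 / Real.sqrt (1 - s)) x ∈ Q} := by
  have hm0 : Measurable fun p : ℝ × E => gaussianPDF 0 1 p.1 *
      (ENNReal.ofReal (Real.exp (s * p.1 ^ 2 / 2)) *
        (Q.indicator 1 (p.1 • n + proj n p.2) : ℝ≥0∞)) := by
    refine Measurable.mul ((measurable_gaussianPDF 0 1).comp measurable_fst) ?_
    refine Measurable.mul (by fun_prop) ?_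
    exact (measurable_one.indicator hQ).comp (measurable_line n)
  have hone := fun y : E => oneD hs (fun b => (Q.indicator 1 (b • n + proj n y) : ℝ≥0∞))
    ((measurable_one.indicator hQ).comp (by fun_prop))
  generalize 1 / Real.sqrt (1 - s) = c at hone ⊢
  have hQ2 : MeasurableSet {x : E | scl n c x ∈ Q} := (continuous_scl n c).measurable hQ
  have hr : stdGaussian E {x | scl n c x ∈ Q}
      = ∫⁻ x, (Q.indicator 1 (scl n c x) : ℝ≥0∞) ∂(stdGaussian E) := by
    rw [← lintegral_indicator_one hQ2]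
    rfl
  have hF : Measurable fun x : E => (Q.indicator 1 (scl n c x) : ℝ≥0∞) :=
    (measurable_one.indicator hQ).comp (continuous_scl n c).measurable
  rw [hr, ← lint_prod hn _ hF, lintegral_prod_symm _ hm0.aemeasurable, lintegral_prod_symm]
  swap
  · refine Measurable.aemeasurable ?_
    refine Measurable.mul ((measurable_gaussianPDF 0 1).comp measurable_fst) ?_
    exact hF.comp (measurable_line n)
  rw [← lintegral_const_mul' _ _ ENNReal.ofReal_ne_top]
  refine lintegral_congr fun y => ?_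
  have := hone y
  simp only [scl_line hn]
  exact this

/-- the key inequality -/
lemma key_ineq {s a b : ℝ} (_hs0 : 0 ≤ s) (hs : s ≤ 1 / 4) :
    s * b ^ 2 - (s + 4 * s ^ 2) * a ^ 2 ≤ (a - b) ^ 2 / 2 := by
  have h1 : 0 ≤ (2 * s * a - (b - a) / 2) ^ 2 := sq_nonneg _
  have h2 : 0 ≤ (1 / 4 - s) * (b - a) ^ 2 := mul_nonneg (by linarith) (sq_nonneg _)
  nlinarith

theorem mix1_lint {K Q W : Set E} (hK : MeasurableSet K) (hQ : MeasurableSet Q)
    (hW : MeasurableSet W) (hsub : ∀ x ∈ K, ∀ y ∈ Q, (1 / 2 : ℝ) • x + (1 / 2 : ℝ) • y ∈ W)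
    {n : E} (hn : ‖n‖ = 1) {s : ℝ} (hs0 : 0 ≤ s) (hs : s ≤ 1 / 4) :
    (∫⁻ x in K, ENNReal.ofReal (Real.exp (-((s + 4 * s ^ 2) * ⟪n, x⟫ ^ 2 / 2))) ∂(stdGaussian E)) *
      (ENNReal.ofReal (1 / Real.sqrt (1 - s)) *
        stdGaussian E {x | scl n (1 / Real.sqrt (1 - s)) x ∈ Q}) ≤ (stdGaussian E W) ^ 2 := by
  have hPL : PL (ℝ × E) (volume.prod (stdGaussian E)) := PL.prod PL_real PL_std
  have hπ : Measurable fun p : ℝ × E => p.1 • n + proj n p.2 := measurable_line n
  set f : ℝ × E → ℝ≥0∞ := fun p => gaussianPDF 0 1 p.1 *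
    (ENNReal.ofReal (Real.exp (-((s + 4 * s ^ 2) * p.1 ^ 2 / 2))) *
      K.indicator 1 (p.1 • n + proj n p.2)) with hf
  set g : ℝ × E → ℝ≥0∞ := fun p => gaussianPDF 0 1 p.1 *
    (ENNReal.ofReal (Real.exp (s * p.1 ^ 2 / 2)) *
      Q.indicator 1 (p.1 • n + proj n p.2)) with hg
  set h : ℝ × E → ℝ≥0∞ := fun p => gaussianPDF 0 1 p.1 * W.indicator 1 (p.1 • n + proj n p.2)
    with hh
  have hfm : Measurable f :=
    ((measurable_gaussianPDF 0 1).comp measurable_fst).mul
      (Measurable.mul (by fun_prop) ((measurable_one.indicator hK).comp hπ))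
  have hgm : Measurable g :=
    ((measurable_gaussianPDF 0 1).comp measurable_fst).mul
      (Measurable.mul (by fun_prop) ((measurable_one.indicator hQ).comp hπ))
  have hhm : Measurable h :=
    ((measurable_gaussianPDF 0 1).comp measurable_fst).mul ((measurable_one.indicator hW).comp hπ)
  have H := hPL (1 / 2) (by norm_num) (by norm_num) f g h hfm hgm hhm (by
    rintro ⟨a, x⟩ ⟨b, y⟩
    have e12 : (1 : ℝ) - 1 / 2 = 1 / 2 := by norm_num
    rw [e12]
    by_cases hx : a • n + proj n x ∈ K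
    swap
    · have : f (a, x) = 0 := by simp [hf, hx]
      rw [this, ENNReal.zero_rpow_of_pos (by norm_num), zero_mul]; exact zero_le
    by_cases hy : b • n + proj n y ∈ Q
    swap
    · have : g (b, y) = 0 := by simp [hg, hy]
      rw [this, ENNReal.zero_rpow_of_pos (by norm_num), mul_zero]; exact zero_le
    have hm : (((1 / 2 : ℝ) • (a, x) + (1 / 2 : ℝ) • (b, y) : ℝ × E)).1 • n
        + proj n (((1 / 2 : ℝ) • (a, x) + (1 / 2 : ℝ) • (b, y) : ℝ × E)).2 ∈ W := by
      have := hsub _ hx _ hy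
      convert this using 1
      simp only [Prod.smul_mk, Prod.mk_add_mk, map_add, map_smul, smul_eq_mul, add_smul, smul_add,
        mul_smul]
      abel
    have hfv : f (a, x) = gaussianPDF 0 1 a *
        ENNReal.ofReal (Real.exp (-((s + 4 * s ^ 2) * a ^ 2 / 2))) := by
      simp [hf, hx]
    have hgv : g (b, y) = gaussianPDF 0 1 b * ENNReal.ofReal (Real.exp (s * b ^ 2 / 2)) := by
      simp [hg, hy]
    have hhv : h ((1 / 2 : ℝ) • (a, x) + (1 / 2 : ℝ) • (b, y))
        = gaussianPDF 0 1 (1 / 2 * a + 1 / 2 * b) := by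
      simp only [hh]
      rw [Set.indicator_of_mem hm]
      simp
    rw [hfv, hgv, hhv]
    unfold gaussianPDF
    rw [← ENNReal.ofReal_mul (gaussianPDFReal_nonneg _ _ _),
      ← ENNReal.ofReal_mul (gaussianPDFReal_nonneg _ _ _),
      ENNReal.ofReal_rpow_of_nonneg (mul_nonneg (gaussianPDFReal_nonneg _ _ _) (Real.exp_pos _).le)
        (by norm_num),
      ENNReal.ofReal_rpow_of_nonneg (mul_nonneg (gaussianPDFReal_nonneg _ _ _) (Real.exp_pos _).le)
        (by norm_num),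
      ← ENNReal.ofReal_mul (by
        have := gaussianPDFReal_nonneg 0 1 a
        positivity)]
    apply ENNReal.ofReal_le_ofReal
    unfold gaussianPDFReal
    simp only [NNReal.coe_one, mul_one, sub_zero]
    have hc : (0:ℝ) < (Real.sqrt (2 * Real.pi))⁻¹ := by positivity
    rw [mul_assoc, ← Real.exp_add, mul_assoc, ← Real.exp_add, Real.mul_rpow hc.le (Real.exp_pos _).le,
      Real.mul_rpow hc.le (Real.exp_pos _).le, ← Real.exp_mul, ← Real.exp_mul]
    have h3 : (Real.sqrt (2 * Real.pi))⁻¹ ^ (1 / 2 : ℝ) * (Real.sqrt (2 * Real.pi))⁻¹ ^ (1 / 2 : ℝ)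
        = (Real.sqrt (2 * Real.pi))⁻¹ := by
      rw [← Real.rpow_add hc]; norm_num
    calc _ = ((Real.sqrt (2 * Real.pi))⁻¹ ^ (1 / 2 : ℝ) * (Real.sqrt (2 * Real.pi))⁻¹ ^ (1 / 2 : ℝ)) *
          (Real.exp ((-a ^ 2 / 2 + -((s + 4 * s ^ 2) * a ^ 2 / 2)) * (1 / 2)) *
            Real.exp ((-b ^ 2 / 2 + s * b ^ 2 / 2) * (1 / 2))) := by ring
      _ ≤ _ := by
        rw [h3, ← Real.exp_add]
        refine mul_le_mul_of_nonneg_left (Real.exp_le_exp.2 ?_) hc.le
        have := key_ineq (a := a) (b := b) hs0 hs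
        nlinarith)
  have e1 : ∫⁻ p, f p ∂(volume.prod (stdGaussian E))
      = ∫⁻ x in K, ENNReal.ofReal (Real.exp (-((s + 4 * s ^ 2) * ⟪n, x⟫ ^ 2 / 2))) ∂(stdGaussian E) := by
    rw [← lintegral_indicator hK, ← lint_prod hn _ (Measurable.indicator (by fun_prop) hK)]
    refine lintegral_congr fun p => ?_
    simp only [hf]
    congr 1
    by_cases hx : p.1 • n + proj n p.2 ∈ K
    · rw [Set.indicator_of_mem hx, Set.indicator_of_mem hx, inner_line hn]
      simp
    · rw [Set.indicator_of_notMem hx, Set.indicator_of_notMem hx, mul_zero]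
  have e2 := lint_prod_scl (E := E) hn (by linarith : s < 1) hQ
  have e3 : ∫⁻ p, h p ∂(volume.prod (stdGaussian E)) = stdGaussian E W := by
    rw [← lintegral_indicator_one hW, ← lint_prod hn _ (measurable_one.indicator hW)]
  rw [e1, e2, e3] at H
  have e12 : (1 : ℝ) - 1 / 2 = 1 / 2 := by norm_num
  rw [e12, ← ENNReal.mul_rpow_of_nonneg _ _ (by norm_num)] at H
  have H2 := ENNReal.rpow_le_rpow H (by norm_num : (0:ℝ) ≤ 2)
  have e22 : (1 / 2 : ℝ) * 2 = 1 := by norm_num
  rw [← ENNReal.rpow_mul, e22, ENNReal.rpow_one, ENNReal.rpow_two] at H2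
  exact H2

theorem integrable_inner_sq (n : E) : Integrable (fun x : E => ⟪n, x⟫ ^ 2) (stdGaussian E) := by
  have h := (IsGaussian.memLp_id (stdGaussian E) 2 (by simp))
  have h2 : MemLp (fun x : E => ⟪n, x⟫) 2 (stdGaussian E) := h.const_inner n
  exact h2.integrable_sq

/-- **MIX1**: rank-one mixture lemma. -/
theorem mix1 {K Q W : Set E} (hK : MeasurableSet K) (hQ : MeasurableSet Q)
    (hW : MeasurableSet W) (hsub : ∀ x ∈ K, ∀ y ∈ Q, (1 / 2 : ℝ) • x + (1 / 2 : ℝ) • y ∈ W)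
    {n : E} (hn : ‖n‖ = 1) {s : ℝ} (hs0 : 0 ≤ s) (hs : s ≤ 1 / 4)
    (hKpos : 0 < (stdGaussian E).real K) :
    (stdGaussian E).real K * (stdGaussian E).real {x | scl n (1 / Real.sqrt (1 - s)) x ∈ Q} *
      Real.exp (s / 2 - (s + 4 * s ^ 2) / 2 *
        ((∫ x in K, ⟪n, x⟫ ^ 2 ∂(stdGaussian E)) / (stdGaussian E).real K))
      ≤ ((stdGaussian E).real W) ^ 2 := by
  set eK : ℝ := (∫ x in K, ⟪n, x⟫ ^ 2 ∂(stdGaussian E)) / (stdGaussian E).real K with heK
  set r : ℝ := (s + 4 * s ^ 2) / 2 with hr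
  have hs' : 0 < 1 - s := by linarith
  have H := mix1_lint hK hQ hW hsub hn hs0 hs
  have hi2 : Integrable (fun x : E => ⟪n, x⟫ ^ 2) ((stdGaussian E).restrict K) :=
    (integrable_inner_sq n).restrict
  have hiexp : Integrable (fun x : E => Real.exp (-((s + 4 * s ^ 2) * ⟪n, x⟫ ^ 2 / 2)))
      ((stdGaussian E).restrict K) := by
    refine Integrable.mono' (integrable_const 1) (by fun_prop) (Eventually.of_forall fun x => ?_)
    rw [Real.norm_eq_abs, abs_of_pos (Real.exp_pos _)]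
    refine Real.exp_le_one_iff.2 ?_
    have : 0 ≤ (s + 4 * s ^ 2) * ⟪n, x⟫ ^ 2 / 2 := by positivity
    linarith
  -- Jensen
  have hJ : Real.exp (-(r * eK)) * (stdGaussian E).real K ≤
      ∫ x in K, Real.exp (-((s + 4 * s ^ 2) * ⟪n, x⟫ ^ 2 / 2)) ∂(stdGaussian E) := by
    have h1 : ∀ x : E, Real.exp (-(r * eK)) * (1 + (r * eK - r * ⟪n, x⟫ ^ 2)) ≤
        Real.exp (-((s + 4 * s ^ 2) * ⟪n, x⟫ ^ 2 / 2)) := by
      intro x
      have e : -((s + 4 * s ^ 2) * ⟪n, x⟫ ^ 2 / 2) = -(r * eK) + (r * eK - r * ⟪n, x⟫ ^ 2) := by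
        rw [hr]; ring
      rw [e, Real.exp_add]
      refine mul_le_mul_of_nonneg_left ?_ (Real.exp_pos _).le
      have := Real.add_one_le_exp (r * eK - r * ⟪n, x⟫ ^ 2)
      linarith
    have hi3 : Integrable (fun x : E => r * ⟪n, x⟫ ^ 2) ((stdGaussian E).restrict K) :=
      hi2.const_mul r
    have hi4 : Integrable (fun x : E => (1 + r * eK) - r * ⟪n, x⟫ ^ 2) ((stdGaussian E).restrict K) :=
      (integrable_const _).sub hi3
    have h2 : ∫ x in K, Real.exp (-(r * eK)) * ((1 + r * eK) - r * ⟪n, x⟫ ^ 2) ∂(stdGaussian E) ≤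
        ∫ x in K, Real.exp (-((s + 4 * s ^ 2) * ⟪n, x⟫ ^ 2 / 2)) ∂(stdGaussian E) :=
      integral_mono (hi4.const_mul _) hiexp (fun x => by
        have := h1 x
        have e : (1 + r * eK) - r * ⟪n, x⟫ ^ 2 = 1 + (r * eK - r * ⟪n, x⟫ ^ 2) := by ring
        simp only [e]
        exact this)
    refine le_trans (le_of_eq ?_) h2
    rw [integral_const_mul, integral_sub (integrable_const _) hi3, integral_const_mul]
    simp only [integral_const, smul_eq_mul, measureReal_restrict_apply_univ]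
    rw [heK]
    field_simp
    ring
  -- to real numbers
  have hK1 : ∫⁻ x in K, ENNReal.ofReal (Real.exp (-((s + 4 * s ^ 2) * ⟪n, x⟫ ^ 2 / 2))) ∂(stdGaussian E)
      = ENNReal.ofReal (∫ x in K, Real.exp (-((s + 4 * s ^ 2) * ⟪n, x⟫ ^ 2 / 2)) ∂(stdGaussian E)) :=
    (ofReal_integral_eq_lintegral_ofReal hiexp (Eventually.of_forall fun x => (Real.exp_pos _).le)).symm
  rw [hK1] at H
  have H' := ENNReal.toReal_mono (by finiteness) H
  rw [ENNReal.toReal_mul, ENNReal.toReal_mul,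
    ENNReal.toReal_ofReal (integral_nonneg fun x => (Real.exp_pos _).le),
    ENNReal.toReal_ofReal (by positivity), ENNReal.toReal_pow] at H'
  have hsq : Real.exp (s / 2) ≤ 1 / Real.sqrt (1 - s) := by
    rw [le_div_iff₀ (Real.sqrt_pos.2 hs')]
    have h1 : Real.sqrt (1 - s) ≤ Real.exp (-(s / 2)) := by
      rw [Real.sqrt_le_left (Real.exp_pos _).le, ← Real.exp_nat_mul]
      have := Real.add_one_le_exp (-s)
      have e : ((2 : ℕ) : ℝ) * -(s / 2) = -s := by push_cast; ring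
      rw [e]; linarith
    calc Real.exp (s / 2) * Real.sqrt (1 - s) ≤ Real.exp (s / 2) * Real.exp (-(s / 2)) :=
          mul_le_mul_of_nonneg_left h1 (Real.exp_pos _).le
      _ = 1 := by rw [← Real.exp_add]; simp
  have hQn : 0 ≤ (stdGaussian E).real {x | scl n (1 / Real.sqrt (1 - s)) x ∈ Q} := measureReal_nonneg
  have e4 : s / 2 - r * eK = s / 2 + -(r * eK) := by ring
  rw [e4, Real.exp_add]
  calc (stdGaussian E).real K * (stdGaussian E).real {x | scl n (1 / Real.sqrt (1 - s)) x ∈ Q} *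
        (Real.exp (s / 2) * Real.exp (-(r * eK)))
      = (Real.exp (-(r * eK)) * (stdGaussian E).real K) * (Real.exp (s / 2) *
        (stdGaussian E).real {x | scl n (1 / Real.sqrt (1 - s)) x ∈ Q}) := by ring
    _ ≤ (∫ x in K, Real.exp (-((s + 4 * s ^ 2) * ⟪n, x⟫ ^ 2 / 2)) ∂(stdGaussian E)) *
        (1 / Real.sqrt (1 - s) *
          (stdGaussian E).real {x | scl n (1 / Real.sqrt (1 - s)) x ∈ Q}) := by
        refine mul_le_mul hJ (mul_le_mul_of_nonneg_right hsq hQn) (by positivity)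
          (integral_nonneg fun x => (Real.exp_pos _).le)
    _ ≤ _ := H'

end Crest.Agent.R239.Mix1_614
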