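import Crest.Agent.R239.Cmp_142
import Crest.Agent.R239.Mix1_614
import Crest.Agent.R239.Dom_640
import Crest.Agent.R239.Gr2_655

/-! R239 (helper303), one-body core of the one-level comparison `V` versus `V^s`
(rank-one mixture, one slab, one ellipsoidal cap). -/

set_option autoImplicit false
set_option linter.unusedSectionVars false
open MeasureTheory ProbabilityTheory Set
open scoped RealInnerProductSpace ENNReal NNReal

namespace Crest.Agent.R239.Lv303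

variable {E : Type*} [NormedAddCommGroup E] [InnerProductSpace ℝ E] [FiniteDimensional ℝ E]
  [MeasurableSpace E] [BorelSpace E]
variable {H : Type*} [NormedAddCommGroup H] [InnerProductSpace ℝ H] [FiniteDimensional ℝ H]

/-- stretching along `n` as a continuous linear map -/
noncomputable def Sc (n : E) (c : ℝ) : E →L[ℝ] E :=
  ContinuousLinearMap.id ℝ E + (c - 1) • (innerSL ℝ n).smulRight n

lemma Sc_apply (n : E) (c : ℝ) (x : E) : Sc n c x = x + ((c - 1) * ⟪n, x⟫) • n := by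
  simp [Sc, smul_smul]

lemma Sc_eq (n : E) (c : ℝ) (x : E) : Sc n c x = Mix1_614.scl n c x := by
  rw [Sc_apply]; rfl

lemma inner_Sc {n : E} (hn : ‖n‖ = 1) (c : ℝ) (x : E) : ⟪n, Sc n c x⟫ = c * ⟪n, x⟫ := by
  rw [Sc_apply, inner_add_right, inner_smul_right, real_inner_self_eq_norm_sq, hn]; ring

lemma norm_Sc_sq {n : E} (hn : ‖n‖ = 1) (c : ℝ) (x : E) :
    ‖Sc n c x‖ ^ 2 = ‖x‖ ^ 2 + (c ^ 2 - 1) * ⟪n, x⟫ ^ 2 := by
  rw [Sc_apply, norm_add_sq_real, inner_smul_right, norm_smul, hn, real_inner_comm,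
    mul_one, Real.norm_eq_abs, sq_abs]
  ring

lemma inner_Sc_comm (n : E) (c : ℝ) (u x : E) : ⟪u, Sc n c x⟫ = ⟪Sc n c u, x⟫ := by
  rw [Sc_apply, Sc_apply, inner_add_right, inner_add_left, inner_smul_right, inner_smul_left]
  simp only [conj_trivial]
  rw [real_inner_comm u n]
  ring

lemma norm_Sc_le {n : E} (hn : ‖n‖ = 1) {c : ℝ} (hc : 1 ≤ c) (x : E) :
    ‖Sc n c x‖ ^ 2 ≤ c ^ 2 * ‖x‖ ^ 2 := by
  rw [norm_Sc_sq hn]
  have h1 : ⟪n, x⟫ ^ 2 ≤ ‖x‖ ^ 2 := by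
    have h := abs_real_inner_le_norm n x
    rw [hn, one_mul] at h
    rw [← sq_abs ⟪n, x⟫]
    exact pow_le_pow_left₀ (abs_nonneg _) h 2
  nlinarith [mul_nonneg (show 0 ≤ c ^ 2 - 1 by nlinarith) (sub_nonneg.2 h1)]


/-! ### operators and second moments -/

variable [MeasurableSpace H] [BorelSpace H]

lemma integral_norm_sq_comp_le (X : E →L[ℝ] H) (A : E →L[ℝ] E) {C : ℝ}
    (hA : ∀ u, ‖A.adjoint u‖ ^ 2 ≤ C * ‖u‖ ^ 2) :
    ∫ x, ‖X (A x)‖ ^ 2 ∂(stdGaussian E) ≤ C * ∫ x, ‖X x‖ ^ 2 ∂(stdGaussian E) := by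
  have e1 : (fun x => ‖X (A x)‖ ^ 2) = fun x => ‖(X ∘L A) x‖ ^ 2 := rfl
  rw [e1, Dom640.integral_norm_sq, Dom640.integral_norm_sq, Finset.mul_sum]
  refine Finset.sum_le_sum fun i _ => ?_
  rw [ContinuousLinearMap.adjoint_comp]
  exact hA _

lemma adjoint_Sc (n : E) (c : ℝ) : (Sc n c).adjoint = Sc n c := by
  ext u
  apply ext_inner_right ℝ
  intro x
  rw [ContinuousLinearMap.adjoint_inner_left, inner_Sc_comm]

/-- **ellipsoidal cap cut**: `A` closed convex symmetric, on `A` `(1-h) ‖X g‖² ≤ r²`, Gaussian mean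
of `‖X g‖²` at most `r² κ`, `κ ≤ 1/8`: the cut `‖X g‖ ≤ r` loses at most the fraction `16 h κ`. -/
theorem cap_cut {A : Set E} (hA : IsClosed A) (cA : Convex ℝ A) (sA : ∀ x ∈ A, -x ∈ A)
    (X : E →L[ℝ] H) {r h κ : ℝ} (hr : 0 < r) (h0 : 0 ≤ h) (hκ1 : κ ≤ 1 / 8)
    (hX : ∀ g ∈ A, (1 - h) * ‖X g‖ ^ 2 ≤ r ^ 2)
    (hE : ∫ x, ‖X x‖ ^ 2 ∂(stdGaussian E) ≤ κ * r ^ 2) :
    (1 - 16 * h * κ) * (stdGaussian E).real A ≤ (stdGaussian E).real (A ∩ {x | ‖X x‖ ≤ r}) := by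
  have hI0 : 0 ≤ ∫ x, ‖X x‖ ^ 2 ∂(stdGaussian E) := integral_nonneg fun x => sq_nonneg _
  have hκ0 : 0 ≤ κ := by
    by_contra hc
    have : κ * r ^ 2 < 0 := mul_neg_of_neg_of_pos (not_le.1 hc) (by positivity)
    linarith
  have hAm := hA.measurableSet
  have hγA : 0 ≤ (stdGaussian E).real A := measureReal_nonneg
  rcases le_or_gt h (1 / 2) with hh | hh
  · -- log-concavity
    have mX : MeasurableSet {x : E | r < ‖X x‖} :=
      measurableSet_lt measurable_const X.continuous.norm.measurable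
    have hcut := Dom640.cut hAm cA sA X (show 0 < r / 2 by linarith)
    have e4 : (∫ x, ‖X x‖ ^ 2 ∂(stdGaussian E)) / (r / 2) ^ 2 ≤ 4 * κ := by
      rw [div_le_iff₀ (by positivity)]
      nlinarith
    have hpart : (stdGaussian E).real (A ∩ {x | ‖X x‖ ≤ r / 2})
        + (stdGaussian E).real (A ∩ {x | r / 2 < ‖X x‖}) = (stdGaussian E).real A := by
      have h1 : A ∩ {x | r / 2 < ‖X x‖} = A \ {x | ‖X x‖ ≤ r / 2} := by
        ext x; simp [not_le]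
      rw [h1]
      exact measureReal_inter_add_sdiff
        (measurableSet_le X.continuous.norm.measurable measurable_const)
    have he : (stdGaussian E).real (A ∩ {x | r / 2 < ‖X x‖}) ≤ (4 * κ) * (stdGaussian E).real A := by
      have : (1 - 4 * κ) * (stdGaussian E).real A
          ≤ (stdGaussian E).real (A ∩ {x | ‖X x‖ ≤ r / 2}) := by
        refine le_trans ?_ hcut
        exact mul_le_mul_of_nonneg_right (by linarith) hγA
      linarith
    have hNW : ∀ x ∈ A, ‖X x‖ ≤ r + r * h := by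
      intro x hx
      have h1 := hX x hx
      have h2 : ‖X x‖ ^ 2 ≤ (r + r * h) ^ 2 := by
        have h3 : r ^ 2 ≤ (1 - h) * (r + r * h) ^ 2 := by
          have : (1 - h) * (r + r * h) ^ 2 - r ^ 2 = r ^ 2 * (h * (1 - h - h ^ 2)) := by ring
          have h5 : 0 ≤ h * (1 - h - h ^ 2) := mul_nonneg h0 (by nlinarith)
          nlinarith [mul_nonneg (sq_nonneg r) h5]
        have h4 : (1 - h) * ‖X x‖ ^ 2 ≤ (1 - h) * (r + r * h) ^ 2 := h1.trans h3
        exact le_of_mul_le_mul_left h4 (by linarith)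
      exact (pow_le_pow_iff_left₀ (norm_nonneg _) (by positivity) two_ne_zero).1 h2
    have hconv : ConvexOn ℝ univ (fun x : E => ‖X x‖) := by
      have := (convexOn_norm (convex_univ : Convex ℝ (univ : Set H))).comp_linearMap
        (X : E →ₗ[ℝ] H)
      simpa [Function.comp_def] using this
    have ht := Gr655.cap_tail (E := E) cA hA (N := fun x => ‖X x‖) hconv X.continuous.norm hr
      (δ := r * h) (e := 4 * κ) (by positivity) hNW (by linarith) (by linarith) he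
    have e5 : 4 * (r * h) * (4 * κ) / r = 16 * h * κ := by field_simp; ring
    rw [e5] at ht
    have hpart2 : (stdGaussian E).real (A ∩ {x | ‖X x‖ ≤ r})
        + (stdGaussian E).real (A ∩ {x | r < ‖X x‖}) = (stdGaussian E).real A := by
      have h1 : A ∩ {x | r < ‖X x‖} = A \ {x | ‖X x‖ ≤ r} := by
        ext x; simp [not_le]
      rw [h1]
      exact measureReal_inter_add_sdiff
        (measurableSet_le X.continuous.norm.measurable measurable_const)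
    linarith
  · have hcut := Dom640.cut hAm cA sA X hr
    refine le_trans (mul_le_mul_of_nonneg_right ?_ hγA) hcut
    have e1 : (∫ x, ‖X x‖ ^ 2 ∂(stdGaussian E)) / r ^ 2 ≤ κ := by
      rw [div_le_iff₀ (by positivity)]
      exact hE
    nlinarith

/-- **one-body core of the comparison** -/
theorem lev_one {n : E} (hn : ‖n‖ = 1) {τ : ℝ} (h0 : 0 ≤ τ) (h1 : τ ≤ 1 / 4)
    (R : E →L[ℝ] E) {ι : Type*} (J : Finset ι) (u : ι → E)
    (hN : ∀ g, ‖R g‖ ^ 2 + τ * ⟪n, g⟫ ^ 2 ≤ ‖g‖ ^ 2 + ∑ k ∈ J, ⟪u k, g⟫ ^ 2)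
    {K B W : Set E} (hK : MeasurableSet K) (hKpos : 0 < (stdGaussian E).real K)
    (hB : IsClosed B) (cB : Convex ℝ B) (sB : ∀ x ∈ B, -x ∈ B)
    (a : E) (t : ℝ) (X : E →L[ℝ] H) {r h κ : ℝ} (hr : 0 < r) (hh0 : 0 ≤ h) (hκ1 : κ ≤ 1 / 16)
    (hX : ∀ g, R g ∈ B → (1 - h) * ‖X g‖ ^ 2 ≤ r ^ 2)
    (hE : ∫ x, ‖X x‖ ^ 2 ∂(stdGaussian E) ≤ κ * r ^ 2)
    (hW : MeasurableSet W)
    (hsub : ∀ x ∈ K, ∀ y, R y ∈ B → |⟪a, y⟫| ≤ t → ‖X y‖ ≤ r →
      (1 / 2 : ℝ) • x + (1 / 2 : ℝ) • y ∈ W)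
    (hpos : 0 ≤ 1 - 32 * h * κ) :
    (stdGaussian E).real K * (Real.exp (-(∑ k ∈ J, ‖u k‖ ^ 2)) * (stdGaussian E).real B *
        (stdGaussian E).real {g : E | |⟪Sc n (1 / √(1 - τ)) a, g⟫| ≤ t} * (1 - 32 * h * κ)) *
      Real.exp (τ / 2 - (τ + 4 * τ ^ 2) / 2 *
        ((∫ x in K, ⟪n, x⟫ ^ 2 ∂(stdGaussian E)) / (stdGaussian E).real K))
      ≤ ((stdGaussian E).real W) ^ 2 := by
  set c : ℝ := 1 / √(1 - τ) with hc
  have hτ : 0 < 1 - τ := by linarith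
  have hc2 : c ^ 2 * (1 - τ) = 1 := by
    rw [hc, div_pow, one_pow, Real.sq_sqrt hτ.le]; field_simp
  have hc0 : 0 < c := by rw [hc]; positivity
  have hc1 : 1 ≤ c := by
    by_contra hcon
    have : c ^ 2 < 1 := by nlinarith [not_le.1 hcon]
    nlinarith
  have hc43 : c ^ 2 ≤ 4 / 3 := by nlinarith
  -- the composed map
  have hR' : ∀ g, ‖(R ∘L Sc n c) g‖ ^ 2 ≤ ‖g‖ ^ 2 + ∑ k ∈ J, ⟪Sc n c (u k), g⟫ ^ 2 := by
    intro g
    have h2 := hN (Sc n c g)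
    rw [inner_Sc hn, norm_Sc_sq hn] at h2
    have h3 : ∀ k, ⟪u k, Sc n c g⟫ = ⟪Sc n c (u k), g⟫ := fun k => inner_Sc_comm n c (u k) g
    simp only [h3] at h2
    have h4 : (c ^ 2 - 1) * ⟪n, g⟫ ^ 2 - τ * (c * ⟪n, g⟫) ^ 2
        = (c ^ 2 * (1 - τ) - 1) * ⟪n, g⟫ ^ 2 := by ring
    rw [hc2] at h4
    simp only [ContinuousLinearMap.coe_comp, Function.comp_apply]
    nlinarith
  have hcmp := Cmp142.cmp_sum_real hB.measurableSet cB sB J (R ∘L Sc n c)
    (fun k => Sc n c (u k)) hR'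
  -- exponents
  have hexp : Real.exp (-(∑ k ∈ J, ‖u k‖ ^ 2)) ≤ Real.exp (-(∑ k ∈ J, ‖Sc n c (u k)‖ ^ 2) / 2) := by
    apply Real.exp_le_exp.2
    have : ∑ k ∈ J, ‖Sc n c (u k)‖ ^ 2 ≤ ∑ k ∈ J, (4 / 3) * ‖u k‖ ^ 2 := by
      refine Finset.sum_le_sum fun k _ => (norm_Sc_le hn hc1 (u k)).trans ?_
      exact mul_le_mul_of_nonneg_right hc43 (sq_nonneg _)
    rw [← Finset.mul_sum] at this
    have h5 : 0 ≤ ∑ k ∈ J, ‖u k‖ ^ 2 := Finset.sum_nonneg fun k _ => sq_nonneg _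
    linarith
  set A0 : Set E := (R ∘L Sc n c) ⁻¹' B with hA0
  have clA0 : IsClosed A0 := hB.preimage (R ∘L Sc n c).continuous
  have cA0 : Convex ℝ A0 := cB.linear_preimage ((R ∘L Sc n c : E →L[ℝ] E) : E →ₗ[ℝ] E)
  have sA0 : ∀ x ∈ A0, -x ∈ A0 := by
    intro x hx
    simp only [hA0, mem_preimage, map_neg] at hx ⊢
    exact sB _ hx
  -- slab
  set S1 : Set E := {g : E | |⟪Sc n c a, g⟫| ≤ t} with hS1
  have clS1 : IsClosed S1 := isClosed_le (by fun_prop) continuous_const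
  have cS1 : Convex ℝ S1 := by
    have : S1 = (fun g => ⟪Sc n c a, g⟫) ⁻¹' (Icc (-t) t) := by
      ext g; simp [hS1, abs_le]
    rw [this]
    exact (convex_Icc (-t) t).linear_preimage ((innerSL ℝ (Sc n c a) : E →L[ℝ] ℝ) : E →ₗ[ℝ] ℝ)
  have sS1 : ∀ x ∈ S1, -x ∈ S1 := by
    intro x hx
    simp only [hS1, mem_ofPred_eq, inner_neg_right, abs_neg] at hx ⊢
    exact hx
  have hslab := Dom640.slab_real clA0.measurableSet cA0 sA0 (Sc n c a) t
  -- cap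
  have hXS : ∫ x, ‖(X ∘L Sc n c) x‖ ^ 2 ∂(stdGaussian E) ≤ (2 * κ) * r ^ 2 := by
    have h6 := integral_norm_sq_comp_le X (Sc n c) (C := 4 / 3) (by
      intro w
      rw [adjoint_Sc]
      exact (norm_Sc_le hn hc1 w).trans (mul_le_mul_of_nonneg_right hc43 (sq_nonneg _)))
    have h7 : 0 ≤ ∫ x, ‖X x‖ ^ 2 ∂(stdGaussian E) := integral_nonneg fun x => sq_nonneg _
    have h8 : ∫ x, ‖(X ∘L Sc n c) x‖ ^ 2 ∂(stdGaussian E)
        = ∫ x, ‖X (Sc n c x)‖ ^ 2 ∂(stdGaussian E) := rfl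
    rw [h8]
    nlinarith
  have hcap := cap_cut (A := A0 ∩ S1) (clA0.inter clS1) (cA0.inter cS1)
    (fun x hx => ⟨sA0 x hx.1, sS1 x hx.2⟩) (X ∘L Sc n c) (r := r) (h := h) (κ := 2 * κ) hr hh0
    (by linarith) (by
      intro g hg
      exact hX (Sc n c g) hg.1) hXS
  -- the set Q
  set Q : Set E := {y | R y ∈ B ∧ |⟪a, y⟫| ≤ t ∧ ‖X y‖ ≤ r} with hQ
  have clQ : IsClosed Q := by
    have e1 : IsClosed {y : E | R y ∈ B} := hB.preimage R.continuous
    have e2 : IsClosed {y : E | |⟪a, y⟫| ≤ t} := isClosed_le (by fun_prop) continuous_const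
    have e3 : IsClosed {y : E | ‖X y‖ ≤ r} := isClosed_le (by fun_prop) continuous_const
    have : Q = {y : E | R y ∈ B} ∩ ({y : E | |⟪a, y⟫| ≤ t} ∩ {y : E | ‖X y‖ ≤ r}) := by
      ext y; simp [hQ]
    rw [this]
    exact e1.inter (e2.inter e3)
  have hmix := Mix1_614.mix1 hK clQ.measurableSet hW
    (fun x hx y hy => hsub x hx y hy.1 hy.2.1 hy.2.2) hn h0 h1 hKpos
  rw [← hc] at hmix
  have hset : {x : E | Mix1_614.scl n c x ∈ Q} = (A0 ∩ S1) ∩ {x | ‖(X ∘L Sc n c) x‖ ≤ r} := by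
    ext x
    simp only [← Sc_eq, hQ, hA0, hS1, mem_ofPred_eq, mem_inter_iff, mem_preimage,
      ContinuousLinearMap.coe_comp, Function.comp_apply, inner_Sc_comm]
    tauto
  rw [hset] at hmix
  refine le_trans ?_ hmix
  have hchain : Real.exp (-(∑ k ∈ J, ‖u k‖ ^ 2)) * (stdGaussian E).real B *
        (stdGaussian E).real S1 * (1 - 32 * h * κ)
      ≤ (stdGaussian E).real ((A0 ∩ S1) ∩ {x | ‖(X ∘L Sc n c) x‖ ≤ r}) := by
    have e1 : Real.exp (-(∑ k ∈ J, ‖u k‖ ^ 2)) * (stdGaussian E).real B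
        ≤ (stdGaussian E).real A0 :=
      (mul_le_mul_of_nonneg_right hexp measureReal_nonneg).trans hcmp
    have e2 : Real.exp (-(∑ k ∈ J, ‖u k‖ ^ 2)) * (stdGaussian E).real B *
        (stdGaussian E).real S1 ≤ (stdGaussian E).real (A0 ∩ S1) :=
      (mul_le_mul_of_nonneg_right e1 measureReal_nonneg).trans hslab
    calc _ ≤ (stdGaussian E).real (A0 ∩ S1) * (1 - 32 * h * κ) :=
          mul_le_mul_of_nonneg_right e2 hpos
      _ = (1 - 16 * h * (2 * κ)) * (stdGaussian E).real (A0 ∩ S1) := by ring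
      _ ≤ _ := hcap
  refine mul_le_mul_of_nonneg_right ?_ (Real.exp_pos _).le
  exact mul_le_mul_of_nonneg_left hchain measureReal_nonneg

end Crest.Agent.R239.Lv303
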