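import Mathlib
import Crest.Agent.R239.Rot_203

/-! R239 / F5 (helper711): flag sums, precision identity, the forms `q`, `q+` of 583's C1,
representation independent: `M : ℕ → Submodule ℝ E` antitone, `M n = ⊥`.

`Pj M j` = projection on `M j`, `Qj M j = Pj M j - Pj M (j+1)`,
`Hm M n i t = ∑_{j ∈ Ico i n} t^(j-i) • Qj M j` (`H i` for `t = θ`, `Hi i` for `t = θ⁻¹`). -/

set_option autoImplicit false
set_option linter.unusedSectionVars false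
open scoped RealInnerProductSpace
open Finset

namespace Crest.Agent.R239.QPlus711

variable {E : Type*} [NormedAddCommGroup E] [InnerProductSpace ℝ E] [FiniteDimensional ℝ E]

noncomputable def Pj (M : ℕ → Submodule ℝ E) (j : ℕ) : E →L[ℝ] E := (M j).starProjection

noncomputable def Qj (M : ℕ → Submodule ℝ E) (j : ℕ) : E →L[ℝ] E := Pj M j - Pj M (j + 1)

noncomputable def Hm (M : ℕ → Submodule ℝ E) (n i : ℕ) (t : ℝ) : E →L[ℝ] E :=
  ∑ j ∈ Ico i n, t ^ (j - i) • Qj M j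

section basic
variable {M : ℕ → Submodule ℝ E}

lemma Pj_mem (j : ℕ) (x : E) : Pj M j x ∈ M j := Submodule.starProjection_apply_mem _ _

lemma Pj_of_mem {j : ℕ} {x : E} (hx : x ∈ M j) : Pj M j x = x :=
  Submodule.starProjection_eq_self_iff.mpr hx

lemma inner_Pj_left (j : ℕ) (x y : E) : ⟪Pj M j x, y⟫ = ⟪x, Pj M j y⟫ :=
  Submodule.inner_starProjection_left_eq_right _ _ _

lemma Pj_Pj_of_le (hM : Antitone M) {j l : ℕ} (h : j ≤ l) (x : E) :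
    Pj M j (Pj M l x) = Pj M l x := Pj_of_mem (hM h (Pj_mem l x))

lemma Pj_Pj_of_ge (hM : Antitone M) {j l : ℕ} (h : j ≤ l) (x : E) :
    Pj M l (Pj M j x) = Pj M l x := by
  refine ext_inner_right ℝ fun y => ?_
  rw [inner_Pj_left, inner_Pj_left, Pj_Pj_of_le hM h, ← inner_Pj_left]

lemma Pj_Pj (hM : Antitone M) (j l : ℕ) (x : E) : Pj M j (Pj M l x) = Pj M (max j l) x := by
  rcases le_total j l with h | h
  · rw [max_eq_right h, Pj_Pj_of_le hM h]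
  · rw [max_eq_left h, Pj_Pj_of_ge hM h]

lemma norm_Pj_sq (j : ℕ) (x : E) : ‖Pj M j x‖ ^ 2 = ⟪Pj M j x, x⟫ := by
  rw [← real_inner_self_eq_norm_sq, inner_Pj_left, Pj_of_mem (Pj_mem j x), ← inner_Pj_left]

lemma Qj_apply (j : ℕ) (x : E) : Qj M j x = Pj M j x - Pj M (j + 1) x := rfl

lemma inner_Qj_left (j : ℕ) (x y : E) : ⟪Qj M j x, y⟫ = ⟪x, Qj M j y⟫ := by
  simp only [Qj_apply, inner_sub_left, inner_sub_right, inner_Pj_left]

lemma Qj_Qj_self (hM : Antitone M) (j : ℕ) (x : E) : Qj M j (Qj M j x) = Qj M j x := by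
  simp only [Qj_apply, map_sub, Pj_Pj hM]
  rw [max_self, max_self, max_eq_right (Nat.le_succ j), max_eq_left (Nat.le_succ j)]
  abel

lemma Qj_Qj_ne (hM : Antitone M) {j l : ℕ} (h : j ≠ l) (x : E) : Qj M j (Qj M l x) = 0 := by
  simp only [Qj_apply, map_sub, Pj_Pj hM]
  rcases lt_or_gt_of_ne h with h | h
  · rw [max_eq_right h.le, max_eq_right (by omega : j ≤ l + 1),
      max_eq_right (by omega : j + 1 ≤ l), max_eq_right (by omega : j + 1 ≤ l + 1)]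
    abel
  · rw [max_eq_left h.le, max_eq_left (by omega : l + 1 ≤ j),
      max_eq_left (by omega : l ≤ j + 1), max_eq_left (by omega : l + 1 ≤ j + 1)]
    abel

lemma inner_Qj_Qj_ne (hM : Antitone M) {j l : ℕ} (h : j ≠ l) (x y : E) :
    ⟪Qj M j x, Qj M l y⟫ = 0 := by
  rw [inner_Qj_left, Qj_Qj_ne hM h, inner_zero_right]

lemma norm_Qj_sq (hM : Antitone M) (j : ℕ) (x : E) :
    ‖Qj M j x‖ ^ 2 = ‖Pj M j x‖ ^ 2 - ‖Pj M (j + 1) x‖ ^ 2 := by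
  rw [← real_inner_self_eq_norm_sq, inner_Qj_left, Qj_Qj_self hM, norm_Pj_sq, norm_Pj_sq,
    Qj_apply, inner_sub_right, real_inner_comm x, real_inner_comm x]

lemma Pj_Qj_of_le (hM : Antitone M) {j l : ℕ} (h : j ≤ l) (x : E) :
    Pj M j (Qj M l x) = Qj M l x := by
  simp only [Qj_apply, map_sub, Pj_Pj hM]
  rw [max_eq_right h, max_eq_right (by omega : j ≤ l + 1)]

lemma Pj_Qj_of_gt (hM : Antitone M) {j l : ℕ} (h : l < j) (x : E) :
    Pj M j (Qj M l x) = 0 := by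
  simp only [Qj_apply, map_sub, Pj_Pj hM]
  rw [max_eq_left h.le, max_eq_left (by omega : l + 1 ≤ j), sub_self]

lemma Qj_Pj_of_le (hM : Antitone M) {j l : ℕ} (h : j ≤ l) (x : E) :
    Qj M l (Pj M j x) = Qj M l x := by
  simp only [Qj_apply, Pj_Pj hM]
  rw [max_eq_left h, max_eq_left (by omega : j ≤ l + 1)]

lemma Qj_Pj_of_gt (hM : Antitone M) {j l : ℕ} (h : l < j) (x : E) :
    Qj M l (Pj M j x) = 0 := by
  simp only [Qj_apply, Pj_Pj hM]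
  rw [max_eq_right h.le, max_eq_right (by omega : l + 1 ≤ j), sub_self]

lemma Hm_apply (n i : ℕ) (t : ℝ) (x : E) :
    Hm M n i t x = ∑ j ∈ Ico i n, t ^ (j - i) • Qj M j x := by
  simp [Hm]

lemma inner_Hm_left (n i : ℕ) (t : ℝ) (x y : E) : ⟪Hm M n i t x, y⟫ = ⟪x, Hm M n i t y⟫ := by
  simp only [Hm_apply, sum_inner, inner_sum, inner_smul_left, inner_smul_right, inner_Qj_left,
    RCLike.conj_to_real]

lemma Hm_mem (hM : Antitone M) (n i : ℕ) (t : ℝ) (x : E) : Hm M n i t x ∈ M i := by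
  rw [Hm_apply]
  refine Submodule.sum_mem _ fun j hj => Submodule.smul_mem _ _ ?_
  rw [Qj_apply]
  have h1 : i ≤ j := (mem_Ico.mp hj).1
  exact Submodule.sub_mem _ (hM h1 (Pj_mem j x)) (hM (by omega : i ≤ j + 1) (Pj_mem (j + 1) x))

lemma sum_Qj {n i : ℕ} (h : i ≤ n) (x : E) :
    ∑ j ∈ Ico i n, Qj M j x = Pj M i x - Pj M n x := by
  have := Finset.sum_Ico_sub (fun j => - Pj M j x) h
  simp only [neg_sub_neg] at this
  simp only [Qj_apply]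
  exact this

lemma Pj_bot {n : ℕ} (hn : M n = ⊥) (x : E) : Pj M n x = 0 := by
  have := Pj_mem (M := M) n x
  rwa [hn, Submodule.mem_bot] at this

lemma Qj_Hm (hM : Antitone M) {n i l : ℕ} (hl : l ∈ Ico i n) (t : ℝ) (x : E) :
    Qj M l (Hm M n i t x) = t ^ (l - i) • Qj M l x := by
  have h1 : ∀ j ∈ Ico i n, j ≠ l → Qj M l (t ^ (j - i) • Qj M j x) = 0 := by
    intro j _ hj
    rw [map_smul, Qj_Qj_ne hM (Ne.symm hj), smul_zero]
  rw [Hm_apply, map_sum (Qj M l), Finset.sum_eq_single_of_mem l hl h1, map_smul, Qj_Qj_self hM]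

lemma Hm_Hm (hM : Antitone M) (n i : ℕ) (s t : ℝ) (x : E) :
    Hm M n i s (Hm M n i t x) = Hm M n i (s * t) x := by
  rw [Hm_apply n i s, Hm_apply n i (s * t) x]
  refine Finset.sum_congr rfl fun j hj => ?_
  rw [Qj_Hm hM hj, smul_smul, mul_pow]

lemma Hm_one {n i : ℕ} (h : i ≤ n) (hn : M n = ⊥) (x : E) : Hm M n i 1 x = Pj M i x := by
  rw [Hm_apply]
  simp only [one_pow, one_smul]
  rw [sum_Qj h, Pj_bot hn, sub_zero]

lemma Hm_inv_Hm (hM : Antitone M) {n i : ℕ} (h : i ≤ n) (hn : M n = ⊥) {t : ℝ} (ht : t ≠ 0)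
    (x : E) : Hm M n i t⁻¹ (Hm M n i t x) = Pj M i x := by
  rw [Hm_Hm hM, inv_mul_cancel₀ ht, Hm_one h hn]

lemma Hm_Hm_inv (hM : Antitone M) {n i : ℕ} (h : i ≤ n) (hn : M n = ⊥) {t : ℝ} (ht : t ≠ 0)
    (x : E) : Hm M n i t (Hm M n i t⁻¹ x) = Pj M i x := by
  rw [Hm_Hm hM, mul_inv_cancel₀ ht, Hm_one h hn]

lemma norm_Hm_sq (hM : Antitone M) (n i : ℕ) (t : ℝ) (x : E) :
    ‖Hm M n i t x‖ ^ 2 = ∑ j ∈ Ico i n, (t ^ 2) ^ (j - i) * ‖Qj M j x‖ ^ 2 := by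
  rw [← real_inner_self_eq_norm_sq, inner_Hm_left, Hm_Hm hM, Hm_apply, inner_sum]
  refine Finset.sum_congr rfl fun j _ => ?_
  have h1 : ⟪x, Qj M j x⟫ = ‖Qj M j x‖ ^ 2 := by
    rw [← real_inner_self_eq_norm_sq, inner_Qj_left, Qj_Qj_self hM]
  rw [inner_smul_right, h1, ← pow_two]

/-- Abel summation. -/
lemma abel_sum (r : ℝ) (p : ℕ → ℝ) (i m : ℕ) :
    ∑ j ∈ Ico i (i + m + 1), r ^ (j - i) * (p j - p (j + 1))
      = p i + ∑ j ∈ Ico (i + 1) (i + m + 1), (r ^ (j - i) - r ^ (j - i - 1)) * p j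
        - r ^ m * p (i + m + 1) := by
  induction m with
  | zero => simp
  | succ m ih =>
    have e1 := Finset.sum_Ico_succ_top (show i ≤ i + m + 1 by omega)
      (fun j => r ^ (j - i) * (p j - p (j + 1)))
    have e2 := Finset.sum_Ico_succ_top (show i + 1 ≤ i + m + 1 by omega)
      (fun j => (r ^ (j - i) - r ^ (j - i - 1)) * p j)
    have h1 : i + m + 1 - i = m + 1 := by omega
    rw [show i + (m + 1) + 1 = (i + m + 1) + 1 from by ring, e1, ih, e2, h1,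
      Nat.add_sub_cancel]
    ring

/-- (q1) precision identity. -/
theorem norm_Hm_sq' (hM : Antitone M) {n i : ℕ} (h : i < n) (hn : M n = ⊥) (t : ℝ) (x : E) :
    ‖Hm M n i t x‖ ^ 2 = ‖Pj M i x‖ ^ 2 +
      ∑ j ∈ Ico (i + 1) n, ((t ^ 2) ^ (j - i) - (t ^ 2) ^ (j - i - 1)) * ‖Pj M j x‖ ^ 2 := by
  obtain ⟨m, rfl⟩ : ∃ m, n = i + m + 1 := ⟨n - i - 1, by omega⟩
  rw [norm_Hm_sq hM]
  simp only [norm_Qj_sq hM]
  rw [abel_sum (t ^ 2) (fun j => ‖Pj M j x‖ ^ 2) i m]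
  have : ‖Pj M (i + m + 1) x‖ ^ 2 = 0 := by rw [Pj_bot hn]; simp
  simp only [this]
  ring

lemma Pj_Hm (hM : Antitone M) {n i j : ℕ} (_hij : i ≤ j) (t : ℝ) (x : E) :
    Pj M j (Hm M n i t x) = Hm M n i t (Pj M j x) := by
  rw [Hm_apply, Hm_apply, map_sum (Pj M j)]
  refine Finset.sum_congr rfl fun l hl => ?_
  rw [map_smul]
  rcases le_or_gt j l with h | h
  · rw [Pj_Qj_of_le hM h, Qj_Pj_of_le hM h]
  · rw [Pj_Qj_of_gt hM h, Qj_Pj_of_gt hM h]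

lemma sum_norm_Qj_sq (hM : Antitone M) {i n : ℕ} (h : i ≤ n) (x : E) :
    ∑ l ∈ Ico i n, ‖Qj M l x‖ ^ 2 = ‖Pj M i x‖ ^ 2 - ‖Pj M n x‖ ^ 2 := by
  simp only [norm_Qj_sq hM]
  have := Finset.sum_Ico_sub (fun j => - ‖Pj M j x‖ ^ 2) h
  simp only [neg_sub_neg] at this
  exact this

lemma norm_Pj_sq_antitone (hM : Antitone M) (x : E) {j l : ℕ} (h : j ≤ l) :
    ‖Pj M l x‖ ^ 2 ≤ ‖Pj M j x‖ ^ 2 := by
  have := sum_norm_Qj_sq hM h x
  have h2 : 0 ≤ ∑ l ∈ Ico j l, ‖Qj M l x‖ ^ 2 := Finset.sum_nonneg fun _ _ => by positivity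
  linarith

end basic

/-! ### the vectors `wxi, wze, wa` -/
section vecs
variable (M : ℕ → Submodule ℝ E) (n i : ℕ) (th : ℝ) (v : E)

/-- `⟪wxi, g⟫ = ξ = ⟪v, H_i g⟫`. -/
noncomputable def wxi : E := Hm M n i th v
/-- `⟪wze j, g⟫ = ζ_j = ⟪P_j v, H_i g⟫`. -/
noncomputable def wze (j : ℕ) : E := Hm M n i th (Pj M j v)
/-- `⟪wa j, g⟫ = a_j = ξ - ζ_j`. -/
noncomputable def wa (j : ℕ) : E := Hm M n i th (v - Pj M j v)

variable {M n i th v}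

lemma wxi_eq (j : ℕ) : wxi M n i th v = wa M n i th v j + wze M n i th v j := by
  rw [wxi, wa, wze, ← map_add]; congr 1; abel

lemma inner_wxi (g : E) : ⟪wxi M n i th v, g⟫ = ⟪v, Hm M n i th g⟫ := inner_Hm_left _ _ _ _ _
lemma inner_wze (j : ℕ) (g : E) : ⟪wze M n i th v j, g⟫ = ⟪Pj M j v, Hm M n i th g⟫ :=
  inner_Hm_left _ _ _ _ _

lemma inner_wa (j : ℕ) (g : E) :
    ⟪wa M n i th v j, g⟫ = ⟪v, Hm M n i th g⟫ - ⟪Pj M j v, Hm M n i th g⟫ := by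
  rw [wa, inner_Hm_left, inner_sub_left]

/-- orthogonality of `a_j` and `ζ_j`. -/
lemma inner_wa_wze (hM : Antitone M) {j : ℕ} (hij : i ≤ j) :
    ⟪wa M n i th v j, wze M n i th v j⟫ = 0 := by
  rw [wa, wze, ← Pj_Hm hM hij, ← inner_Pj_left, Pj_Hm hM hij, map_sub,
    Pj_Pj_of_le hM le_rfl, sub_self, map_zero, inner_zero_left]

lemma norm_wze_sq (hM : Antitone M) {j : ℕ} :
    ‖wze M n i th v j‖ ^ 2 = ∑ l ∈ Ico i n, (th ^ 2) ^ (l - i) * ‖Qj M l (Pj M j v)‖ ^ 2 :=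
  norm_Hm_sq hM _ _ _ _

/-- `Z_j ≤ θ^{2(j-i)} b_j`. -/
lemma norm_wze_sq_le (hM : Antitone M) (hn : M n = ⊥) (h0 : 0 ≤ th) (h1 : th ≤ 1) {j : ℕ}
    (hij : i ≤ j) :
    ‖wze M n i th v j‖ ^ 2 ≤ (th ^ 2) ^ (j - i) * ‖Pj M j v‖ ^ 2 := by
  have hth : (0 : ℝ) ≤ th ^ 2 := by positivity
  have hth1 : th ^ 2 ≤ 1 := by nlinarith
  rcases le_or_gt n j with hnj | hjn
  · have h2 : Pj M j v = 0 := by
      have h3 := Pj_mem (M := M) j v
      have h4 := hM hnj h3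
      rwa [hn, Submodule.mem_bot] at h4
    rw [wze, h2, map_zero]; simp
  · rw [norm_wze_sq hM]
    have key : ∀ l ∈ Ico i n, (th ^ 2) ^ (l - i) * ‖Qj M l (Pj M j v)‖ ^ 2
        ≤ (th ^ 2) ^ (j - i) * ‖Qj M l (Pj M j v)‖ ^ 2 := by
      intro l hl
      rcases le_or_gt j l with h | h
      · exact mul_le_mul_of_nonneg_right (pow_le_pow_of_le_one hth hth1 (by omega))
          (by positivity)
      · rw [Qj_Pj_of_gt hM h]; simp
    refine (Finset.sum_le_sum key).trans ?_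
    rw [← Finset.mul_sum]
    refine mul_le_mul_of_nonneg_left ?_ (by positivity)
    rw [sum_norm_Qj_sq hM (by omega)]
    have : ‖Pj M i (Pj M j v)‖ ^ 2 = ‖Pj M j v‖ ^ 2 := by rw [Pj_Pj_of_le hM hij]
    rw [this]
    have : 0 ≤ ‖Pj M n (Pj M j v)‖ ^ 2 := by positivity
    linarith

/-- `A_j ≤ b_i - b_j`. -/
lemma norm_wa_sq_le (hM : Antitone M) (hn : M n = ⊥) (h0 : 0 ≤ th) (h1 : th ≤ 1) {j : ℕ}
    (hij : i ≤ j) (hin : i ≤ n) :
    ‖wa M n i th v j‖ ^ 2 ≤ ‖Pj M i v‖ ^ 2 - ‖Pj M j v‖ ^ 2 := by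
  have hth : (0 : ℝ) ≤ th ^ 2 := by positivity
  have hth1 : th ^ 2 ≤ 1 := by nlinarith
  rw [wa, norm_Hm_sq hM]
  have key : ∀ l ∈ Ico i n, (th ^ 2) ^ (l - i) * ‖Qj M l (v - Pj M j v)‖ ^ 2
      ≤ ‖Qj M l (v - Pj M j v)‖ ^ 2 := by
    intro l hl
    exact mul_le_of_le_one_left (by positivity) (pow_le_one₀ hth hth1)
  refine (Finset.sum_le_sum key).trans ?_
  rw [sum_norm_Qj_sq hM hin, Pj_bot hn]
  have e1 : ‖Pj M i (v - Pj M j v)‖ ^ 2 = ‖Pj M i v‖ ^ 2 - ‖Pj M j v‖ ^ 2 := by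
    have e2 : Pj M i (v - Pj M j v) = Pj M i v - Pj M j (Pj M i v) := by
      rw [map_sub, Pj_Pj_of_le hM hij, Pj_Pj_of_ge hM hij]
    have e3 : ⟪Pj M i v, Pj M j (Pj M i v)⟫ = ‖Pj M j v‖ ^ 2 := by
      rw [real_inner_comm, ← norm_Pj_sq, Pj_Pj_of_ge hM hij]
    rw [e2, norm_sub_sq_real, e3, Pj_Pj_of_ge hM hij]; ring
  rw [e1]; simp

/-- `E[ξ² + ∑ ω ζ_j²] = b_i`. -/
lemma trace_id (hM : Antitone M) (hn : M n = ⊥) (hin : i < n) (ht : th ≠ 0) :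
    ‖wxi M n i th v‖ ^ 2 + ∑ j ∈ Ico (i + 1) n,
      ((th⁻¹ ^ 2) ^ (j - i) - (th⁻¹ ^ 2) ^ (j - i - 1)) * ‖wze M n i th v j‖ ^ 2
      = ‖Pj M i v‖ ^ 2 := by
  have h1 := norm_Hm_sq' hM hin hn th⁻¹ (Hm M n i th v)
  rw [Hm_inv_Hm hM hin.le hn ht] at h1
  rw [h1, Pj_of_mem (Hm_mem hM n i th v), wxi]
  congr 1
  refine Finset.sum_congr rfl fun j hj => ?_
  rw [wze, Pj_Hm hM (by have := mem_Ico.mp hj; omega)]

end vecs

/-! ### the forms `q`, `q+` and `exc` -/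
section forms
variable (M : ℕ → Submodule ℝ E) (n i : ℕ) (th sb : ℝ) (v : E)

/-- `ω_m = θ^{-2m} - θ^{-2(m-1)}`. -/
noncomputable def om (m : ℕ) : ℝ := (th⁻¹ ^ 2) ^ m - (th⁻¹ ^ 2) ^ (m - 1)

/-- `q(g) = sb ξ² + sb ∑_{j>i} ω_{j-i} [ξ² - a_j²/(1 - sb b_j)]`. -/
noncomputable def qf (g : E) : ℝ :=
  sb * ⟪wxi M n i th v, g⟫ ^ 2 + sb * ∑ j ∈ Ico (i + 1) n, om th (j - i) *
    (⟪wxi M n i th v, g⟫ ^ 2 - ⟪wa M n i th v j, g⟫ ^ 2 / (1 - sb * ‖Pj M j v‖ ^ 2))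

/-- `e_j = √Z_j/√A_j`. -/
noncomputable def ej (j : ℕ) : ℝ := ‖wze M n i th v j‖ / ‖wa M n i th v j‖
/-- `1/e_j = √A_j/√Z_j`. -/
noncomputable def ije (j : ℕ) : ℝ := ‖wa M n i th v j‖ / ‖wze M n i th v j‖

/-- the majorant `q+`. -/
noncomputable def qp (g : E) : ℝ :=
  sb * ⟪wxi M n i th v, g⟫ ^ 2 + sb * ∑ j ∈ Ico (i + 1) n, om th (j - i) *
    ((1 + ije M n i th v j) * ⟪wze M n i th v j, g⟫ ^ 2
      + ej M n i th v j * ⟪wa M n i th v j, g⟫ ^ 2)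

/-- `κ_j = sb b_j / (1 - sb b_j)`. -/
noncomputable def kj (j : ℕ) : ℝ := sb * ‖Pj M j v‖ ^ 2 / (1 - sb * ‖Pj M j v‖ ^ 2)

/-- the vector of the perfect square in `q+ - q`. -/
noncomputable def uj (j : ℕ) : E :=
  √(ije M n i th v j) • wze M n i th v j - √(ej M n i th v j) • wa M n i th v j

/-- `exc_i = E[q+ - q]`. -/
noncomputable def exc : ℝ :=
  ∑ j ∈ Ico (i + 1) n, sb * om th (j - i) *
    (2 * ‖wa M n i th v j‖ * ‖wze M n i th v j‖ + kj M sb v j * ‖wa M n i th v j‖ ^ 2)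

variable {M n i th sb v}

lemma ej_nonneg (j : ℕ) : 0 ≤ ej M n i th v j := div_nonneg (norm_nonneg _) (norm_nonneg _)
lemma ije_nonneg (j : ℕ) : 0 ≤ ije M n i th v j := div_nonneg (norm_nonneg _) (norm_nonneg _)

lemma om_nonneg (h0 : 0 < th) (h1 : th ≤ 1) (m : ℕ) : 0 ≤ om th m := by
  have h2 : 1 ≤ th⁻¹ ^ 2 := one_le_pow₀ ((one_le_inv₀ h0).mpr h1)
  have := pow_le_pow_right₀ h2 (Nat.sub_le m 1)
  rw [om]; linarith

lemma om_le (m : ℕ) : om th m ≤ (th⁻¹ ^ 2) ^ m := by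
  rw [om]
  have : 0 ≤ (th⁻¹ ^ 2) ^ (m - 1) := by positivity
  linarith

lemma kj_nonneg (h0 : 0 ≤ sb) {j : ℕ} (hb : sb * ‖Pj M j v‖ ^ 2 < 1) : 0 ≤ kj M sb v j :=
  div_nonneg (by positivity) (by linarith)

/-- `√(ije) √(ej)` cross term. -/
lemma sq_uj (j : ℕ) (g : E) :
    ⟪uj M n i th v j, g⟫ ^ 2 = ije M n i th v j * ⟪wze M n i th v j, g⟫ ^ 2
      + ej M n i th v j * ⟪wa M n i th v j, g⟫ ^ 2
      - 2 * (⟪wa M n i th v j, g⟫ * ⟪wze M n i th v j, g⟫) := by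
  have h1 : √(ije M n i th v j) ^ 2 = ije M n i th v j := Real.sq_sqrt (ije_nonneg j)
  have h2 : √(ej M n i th v j) ^ 2 = ej M n i th v j := Real.sq_sqrt (ej_nonneg j)
  rw [uj, inner_sub_left, inner_smul_left, inner_smul_left]
  simp only [RCLike.conj_to_real]
  by_cases ha : wa M n i th v j = 0
  · simp [ha, ej, ije]
  by_cases hz : wze M n i th v j = 0
  · simp [hz, ej, ije]
  have ha' : ‖wa M n i th v j‖ ≠ 0 := norm_ne_zero_iff.mpr ha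
  have hz' : ‖wze M n i th v j‖ ≠ 0 := norm_ne_zero_iff.mpr hz
  have h3 : √(ije M n i th v j) * √(ej M n i th v j) = 1 := by
    rw [← Real.sqrt_mul (ije_nonneg j), ije, ej]
    rw [show ‖wa M n i th v j‖ / ‖wze M n i th v j‖ * (‖wze M n i th v j‖ / ‖wa M n i th v j‖) = 1 by
      field_simp]
    exact Real.sqrt_one
  calc _ = √(ije M n i th v j) ^ 2 * ⟪wze M n i th v j, g⟫ ^ 2
        + √(ej M n i th v j) ^ 2 * ⟪wa M n i th v j, g⟫ ^ 2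
        - 2 * (√(ije M n i th v j) * √(ej M n i th v j)) *
          (⟪wa M n i th v j, g⟫ * ⟪wze M n i th v j, g⟫) := by ring
    _ = _ := by rw [h1, h2, h3]; ring

lemma norm_uj_sq (hM : Antitone M) {j : ℕ} (hij : i ≤ j) :
    ‖uj M n i th v j‖ ^ 2 = 2 * ‖wa M n i th v j‖ * ‖wze M n i th v j‖ := by
  have h1 : √(ije M n i th v j) ^ 2 = ije M n i th v j := Real.sq_sqrt (ije_nonneg j)
  have h2 : √(ej M n i th v j) ^ 2 = ej M n i th v j := Real.sq_sqrt (ej_nonneg j)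
  rw [uj, norm_sub_sq_real, inner_smul_left, inner_smul_right, real_inner_comm,
    inner_wa_wze hM hij, norm_smul, norm_smul, mul_pow, mul_pow, Real.norm_eq_abs,
    Real.norm_eq_abs, sq_abs, sq_abs, h1, h2, ije, ej]
  by_cases ha : ‖wa M n i th v j‖ = 0
  · simp [ha]
  by_cases hz : ‖wze M n i th v j‖ = 0
  · simp [hz]
  field_simp
  ring

/-- (q3) `q+ - q` as a sum of squares. -/
theorem qp_sub_qf (hb : ∀ j, sb * ‖Pj M j v‖ ^ 2 < 1) (g : E) :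
    qp M n i th sb v g - qf M n i th sb v g =
      ∑ j ∈ Ico (i + 1) n, sb * om th (j - i) *
        (⟪uj M n i th v j, g⟫ ^ 2 + kj M sb v j * ⟪wa M n i th v j, g⟫ ^ 2) := by
  rw [qp, qf, add_sub_add_left_eq_sub, ← mul_sub, ← Finset.sum_sub_distrib, Finset.mul_sum]
  refine Finset.sum_congr rfl fun j _ => ?_
  rw [sq_uj, wxi_eq j, inner_add_left, kj]
  have h1 : 1 - sb * ‖Pj M j v‖ ^ 2 ≠ 0 := by have := hb j; linarith
  field_simp
  ring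

lemma qp_sub_qf_nonneg (h0 : 0 < th) (h1 : th ≤ 1) (hs : 0 ≤ sb)
    (hb : ∀ j, sb * ‖Pj M j v‖ ^ 2 < 1) (g : E) :
    0 ≤ qp M n i th sb v g - qf M n i th sb v g := by
  rw [qp_sub_qf hb]
  refine Finset.sum_nonneg fun j _ => mul_nonneg (mul_nonneg hs (om_nonneg h0 h1 _)) ?_
  have := kj_nonneg (M := M) (v := v) hs (hb j)
  positivity

lemma qf_le_qp (h0 : 0 < th) (h1 : th ≤ 1) (hs : 0 ≤ sb)
    (hb : ∀ j, sb * ‖Pj M j v‖ ^ 2 < 1) (g : E) :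
    qf M n i th sb v g ≤ qp M n i th sb v g := by
  have := qp_sub_qf_nonneg (M := M) (n := n) (i := i) h0 h1 hs hb g
  linarith

/-- `q+ ≥ sb ξ²`. -/
lemma le_qp (h0 : 0 < th) (h1 : th ≤ 1) (hs : 0 ≤ sb) (g : E) :
    sb * ⟪wxi M n i th v, g⟫ ^ 2 ≤ qp M n i th sb v g := by
  rw [qp]
  have : 0 ≤ sb * ∑ j ∈ Ico (i + 1) n, om th (j - i) *
    ((1 + ije M n i th v j) * ⟪wze M n i th v j, g⟫ ^ 2
      + ej M n i th v j * ⟪wa M n i th v j, g⟫ ^ 2) := by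
    refine mul_nonneg hs (Finset.sum_nonneg fun j _ => mul_nonneg (om_nonneg h0 h1 _) ?_)
    have h2 := ije_nonneg (M := M) (n := n) (i := i) (th := th) (v := v) j
    have h3 := ej_nonneg (M := M) (n := n) (i := i) (th := th) (v := v) j
    positivity
  linarith

lemma qp_nonneg (h0 : 0 < th) (h1 : th ≤ 1) (hs : 0 ≤ sb) (g : E) :
    0 ≤ qp M n i th sb v g :=
  le_trans (by positivity) (le_qp h0 h1 hs g)

end forms

end Crest.Agent.R239.QPlus711
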