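import Crest.Agent.R239.FDef
import Crest.Agent.R239.QPlus_711

/-! R239 F5 over `FDef`: rotation formula `P_ROT` (helper711), with dictionary `FDef` ↔ `QPlus_711`. -/

set_option autoImplicit false
set_option linter.unusedSectionVars false
open MeasureTheory ProbabilityTheory Finset
open scoped RealInnerProductSpace

namespace Crest.Agent.R239.PRot711

open Crest.Agent.R239.FD
open Crest.Agent.R239 (gau)

variable {E : Type*} [NormedAddCommGroup E] [InnerProductSpace ℝ E] [FiniteDimensional ℝ E]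

lemma th_pos : 0 < th := by unfold th; norm_num
lemma th_ne : th ≠ 0 := th_pos.ne'
lemma th_lt_one : th < 1 := by unfold th; norm_num
lemma thi_pos : 0 < th⁻¹ := inv_pos.2 th_pos

lemma P_eq (V : Flag E) (j : ℕ) : V.P j = QPlus711.Pj V.M j := rfl
lemma Q_eq (V : Flag E) (j : ℕ) : V.Q j = QPlus711.Qj V.M j := rfl
lemma H_eq (V : Flag E) (i : ℕ) : V.H i = QPlus711.Hm V.M V.n i th := rfl
lemma Hi_eq (V : Flag E) (i : ℕ) : V.Hi i = QPlus711.Hm V.M V.n i th⁻¹ := rfl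
lemma bot_n (V : Flag E) : V.M V.n = ⊥ := V.bot V.n le_rfl

lemma Ts_eq (v : E) (s : ℝ) : (Ts v s).toLinearMap = Rot203.Ts s v := by
  ext x
  simp only [ContinuousLinearMap.coe_coe, FD.Ts_apply, Rot203.Ts_apply]

lemma Ts_eq_apply (v : E) (s : ℝ) (x : E) : Ts v s x = Rot203.Ts s v x := by
  rw [FD.Ts_apply, Rot203.Ts_apply]

lemma rot_M (V : Flag E) (v : E) (s : ℝ) (j : ℕ) :
    (V.rot v s).M j = (V.M j).map (Rot203.Ts s v) := by
  show (V.M j).map (Ts v s).toLinearMap = _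
  rw [Ts_eq]

lemma rot_n (V : Flag E) (v : E) (s : ℝ) : (V.rot v s).n = V.n := rfl

lemma om_eq {m : ℕ} (hm : 1 ≤ m) : om m = (th⁻¹ ^ 2) ^ m - (th⁻¹ ^ 2) ^ (m - 1) := by
  obtain ⟨k, rfl⟩ : ∃ k, m = k + 1 := ⟨m - 1, by omega⟩
  rw [om, Nat.add_sub_cancel, pow_succ (th⁻¹ ^ 2) k, pow_mul, pow_succ (th⁻¹ ^ 2) k]
  have h : th⁻¹ ^ 2 * th ^ 2 = 1 := by rw [← mul_pow, inv_mul_cancel₀ th_ne, one_pow]
  linear_combination (-(th⁻¹ ^ 2) ^ k) * h

lemma om_pos (m : ℕ) : 0 < om m := by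
  unfold om
  have : (0:ℝ) < 1 - th ^ 2 := by unfold th; norm_num
  have := thi_pos
  positivity

/-- precision identity over `FDef` -/
theorem norm_Hi_sq (V : Flag E) {i : ℕ} (h : i < V.n) (x : E) :
    ‖V.Hi i x‖ ^ 2 = ‖V.P i x‖ ^ 2 + ∑ j ∈ Ico (i + 1) V.n, om (j - i) * ‖V.P j x‖ ^ 2 := by
  rw [Hi_eq, QPlus711.norm_Hm_sq' V.anti h (bot_n V)]
  congr 1
  refine sum_congr rfl fun j hj => ?_
  rw [om_eq (by have := mem_Ico.mp hj; omega)]
  rfl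

lemma sbar_pos {s : ℝ} (h0 : 0 < s) (h1 : s < 1) : 0 < 2 * s - s ^ 2 := by nlinarith
lemma sbar_lt_one {s : ℝ} (h1 : s < 1) : 2 * s - s ^ 2 < 1 := by nlinarith [sq_pos_of_pos (sub_pos.2 h1)]

lemma b_le_one (V : Flag E) {v : E} (hv : ‖v‖ = 1) (j : ℕ) : V.b v j ≤ 1 := by
  have h := (V.M j).norm_starProjection_apply_le v
  rw [hv] at h
  unfold Flag.b Flag.P
  nlinarith [norm_nonneg ((V.M j).starProjection v)]

lemma b_nonneg (V : Flag E) (v : E) (j : ℕ) : 0 ≤ V.b v j := by unfold Flag.b; positivity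

lemma one_sub_sb_pos (V : Flag E) {v : E} (hv : ‖v‖ = 1) {s : ℝ} (h0 : 0 < s) (h1 : s < 1) (j : ℕ) :
    0 < 1 - (2 * s - s ^ 2) * V.b v j := by
  have h2 := b_le_one V hv j
  have h3 := b_nonneg V v j
  nlinarith [sbar_pos h0 h1, sbar_lt_one h1]

/-- C1 for one index of the flag -/
theorem norm_P_rot_sq (V : Flag E) {v : E} (hv : ‖v‖ = 1) {s : ℝ} (h0 : 0 < s) (h1 : s < 1)
    (j : ℕ) (x : E) :
    ‖(V.rot v s).P j (Ts v s x)‖ ^ 2 = ‖V.P j x‖ ^ 2 - (2 * s - s ^ 2) * ⟪v, x⟫ ^ 2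
      + (2 * s - s ^ 2) * ⟪v - V.P j v, x⟫ ^ 2 / (1 - (2 * s - s ^ 2) * V.b v j) := by
  have h := Rot203.norm_proj_Ts_sq hv (V.M j) s x (one_sub_sb_pos V hv h0 h1 j).ne'
  have e : (V.rot v s).P j = ((V.M j).map (Rot203.Ts s v)).starProjection := by
    unfold Flag.P
    congr 1
  rw [e, Ts_eq_apply, h, inner_sub_left]
  rfl

theorem p_rot [MeasurableSpace E] [BorelSpace E] : P_ROT E := by
  intro V v s i x hv h0 h1 hx
  have hPx : V.P i x = x := Submodule.starProjection_eq_self_iff.2 hx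
  rcases lt_or_ge i V.n with hi | hi
  · rw [norm_Hi_sq (V.rot v s) (by rw [rot_n]; exact hi), norm_Hi_sq V hi, rot_n]
    simp only [norm_P_rot_sq V hv h0 h1]
    have hvx : ⟪v - V.P i v, x⟫ = 0 := by
      have := Submodule.starProjection_inner_eq_zero (K := V.M i) v x hx
      exact this
    rw [hvx, hPx]
    unfold qf
    have : ∀ j ∈ Ico (i + 1) V.n, om (j - i) * (‖V.P j x‖ ^ 2 - (2 * s - s ^ 2) * ⟪v, x⟫ ^ 2
        + (2 * s - s ^ 2) * ⟪v - V.P j v, x⟫ ^ 2 / (1 - (2 * s - s ^ 2) * V.b v j))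
        = om (j - i) * ‖V.P j x‖ ^ 2 - (2 * s - s ^ 2) * (om (j - i) *
          (⟪v, x⟫ ^ 2 - ⟪v - V.P j v, x⟫ ^ 2 / (1 - (2 * s - s ^ 2) * V.b v j))) := by
      intro j _; ring
    rw [sum_congr rfl this, sum_sub_distrib, ← mul_sum]
    ring
  · have hx0 : x = 0 := by
      have := V.bot i hi
      rw [this] at hx
      exact (Submodule.mem_bot ℝ).1 hx
    subst hx0
    simp [qf]

/-! ### the cap gauge `N` -/

lemma omN_eq {m : ℕ} (hm : 1 ≤ m) : omN m = th⁻¹ ^ m - th⁻¹ ^ (m - 1) := by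
  obtain ⟨k, rfl⟩ : ∃ k, m = k + 1 := ⟨m - 1, by omega⟩
  rw [omN, Nat.add_sub_cancel, pow_succ th⁻¹ k]
  have h : th⁻¹ * th = 1 := inv_mul_cancel₀ th_ne
  linear_combination (-th⁻¹ ^ k) * h

lemma omN_pos (m : ℕ) : 0 < omN m := by
  unfold omN
  have : (0:ℝ) < 1 - th := by unfold th; norm_num
  have := thi_pos
  positivity

/-- the gauge as a sum over the `M_j` -/
theorem N_eq (V : Flag E) {i : ℕ} (h : i < V.n) (x : E) :
    V.N i x = ‖V.P i x‖ ^ 2 + ∑ j ∈ Ico (i + 1) V.n, omN (j - i) * ‖V.P j x‖ ^ 2 := by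
  obtain ⟨m, hm⟩ : ∃ m, V.n = i + m + 1 := ⟨V.n - i - 1, by omega⟩
  unfold Flag.N
  simp only [Q_eq, P_eq, QPlus711.norm_Qj_sq V.anti]
  rw [hm, QPlus711.abel_sum th⁻¹ (fun j => ‖QPlus711.Pj V.M j x‖ ^ 2) i m]
  have h0 : ‖QPlus711.Pj V.M (i + m + 1) x‖ ^ 2 = 0 := by
    rw [QPlus711.Pj_bot (by rw [← hm]; exact bot_n V)]; simp
  simp only [h0]
  have : ∀ j ∈ Ico (i + 1) (i + m + 1), omN (j - i) * ‖QPlus711.Pj V.M j x‖ ^ 2
      = (th⁻¹ ^ (j - i) - th⁻¹ ^ (j - i - 1)) * ‖QPlus711.Pj V.M j x‖ ^ 2 := by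
    intro j hj
    rw [omN_eq (by have := mem_Ico.mp hj; omega)]
  rw [sum_congr rfl this]
  ring

theorem p_rotN [MeasurableSpace E] [BorelSpace E] : P_ROTN E := by
  intro V v s i x hv h0 h1 hx
  have hPx : V.P i x = x := Submodule.starProjection_eq_self_iff.2 hx
  rcases lt_or_ge i V.n with hi | hi
  · rw [N_eq (V.rot v s) (by rw [rot_n]; exact hi), N_eq V hi, rot_n]
    simp only [norm_P_rot_sq V hv h0 h1]
    have hvx : ⟪v - V.P i v, x⟫ = 0 := by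
      have := Submodule.starProjection_inner_eq_zero (K := V.M i) v x hx
      exact this
    rw [hvx, hPx]
    unfold qN
    have : ∀ j ∈ Ico (i + 1) V.n, omN (j - i) * (‖V.P j x‖ ^ 2 - (2 * s - s ^ 2) * ⟪v, x⟫ ^ 2
        + (2 * s - s ^ 2) * ⟪v - V.P j v, x⟫ ^ 2 / (1 - (2 * s - s ^ 2) * V.b v j))
        = omN (j - i) * ‖V.P j x‖ ^ 2 - (2 * s - s ^ 2) * (omN (j - i) *
          (⟪v, x⟫ ^ 2 - ⟪v - V.P j v, x⟫ ^ 2 / (1 - (2 * s - s ^ 2) * V.b v j))) := by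
      intro j _; ring
    rw [sum_congr rfl this, sum_sub_distrib, ← mul_sum]
    ring
  · have hx0 : x = 0 := by
      have := V.bot i hi
      rw [this] at hx
      exact (Submodule.mem_bot ℝ).1 hx
    subst hx0
    simp [qN, Flag.N]

/-! ### the majorant `qp` -/

lemma em_pos {eps : ℝ} (he : 0 < eps) (m : ℕ) : 0 < em eps m := by
  unfold FD.em
  have := th_pos
  positivity

/-- one term of `qp - qf` -/
lemma term_le {sb b : ℝ} (h0 : 0 ≤ sb) (hb : 0 ≤ b) (hsb : sb * b < 1) {e : ℝ} (he : 0 < e)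
    (a z : ℝ) : (a + z) ^ 2 - a ^ 2 / (1 - sb * b) ≤ e * a ^ 2 + (1 + 1 / e) * z ^ 2 := by
  have h1 : a ^ 2 ≤ a ^ 2 / (1 - sb * b) := by
    rw [le_div_iff₀ (by linarith)]
    nlinarith [mul_nonneg h0 hb, sq_nonneg a]
  have h2 : 2 * a * z ≤ e * a ^ 2 + 1 / e * z ^ 2 := by
    have h3 : e * a ^ 2 + 1 / e * z ^ 2 - 2 * a * z = (e * a - z) ^ 2 / e := by
      field_simp
      ring
    have : 0 ≤ (e * a - z) ^ 2 / e := by positivity
    linarith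
  nlinarith

/-- `qf ≤ qp` -/
theorem qf_le_qp (V : Flag E) {v : E} (hv : ‖v‖ = 1) {sb : ℝ} (h0 : 0 ≤ sb) (h1 : sb < 1)
    {eps : ℝ} (he : 0 < eps) (i : ℕ) (x : E) : qf V v sb i x ≤ qp V v sb eps i x := by
  unfold qf qp
  rw [mul_add]
  gcongr with j hj
  · exact (om_pos _).le
  · have h2 := b_le_one V hv j
    have h3 := b_nonneg V v j
    have h4 : ⟪v, x⟫ = ⟪v - V.P j v, x⟫ + ⟪V.P j v, x⟫ := by rw [← inner_add_left]; simp
    conv_lhs => rw [h4]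
    exact term_le h0 h3 (by nlinarith) (em_pos he _) _ _

theorem qp_nonneg (V : Flag E) (v : E) {sb : ℝ} (h0 : 0 ≤ sb) {eps : ℝ} (he : 0 < eps)
    (i : ℕ) (x : E) : 0 ≤ qp V v sb eps i x := by
  unfold qp
  have h : ∀ j ∈ Ico (i + 1) V.n, 0 ≤ om (j - i) * (em eps (j - i) * ⟪v - V.P j v, x⟫ ^ 2
      + (1 + 1 / em eps (j - i)) * ⟪V.P j v, x⟫ ^ 2) := by
    intro j _
    have := om_pos (j - i)
    have := em_pos he (j - i)
    positivity
  have := sum_nonneg h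
  positivity

theorem le_qp (V : Flag E) (v : E) {sb : ℝ} (h0 : 0 ≤ sb) {eps : ℝ} (he : 0 < eps)
    (i : ℕ) (x : E) : sb * ⟪v, x⟫ ^ 2 ≤ qp V v sb eps i x := by
  unfold qp
  have h : ∀ j ∈ Ico (i + 1) V.n, 0 ≤ om (j - i) * (em eps (j - i) * ⟪v - V.P j v, x⟫ ^ 2
      + (1 + 1 / em eps (j - i)) * ⟪V.P j v, x⟫ ^ 2) := by
    intro j _
    have := om_pos (j - i)
    have := em_pos he (j - i)
    positivity
  have := sum_nonneg h
  nlinarith

end Crest.Agent.R239.PRot711
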