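import Crest.Agent.R239.FDef
import Crest.Agent.R239.Lv1_303
import Crest.Agent.R239.PRot_711
import Crest.Agent.R239.F5_411
import Crest.Agent.R239.Fl_597
import Crest.Agent.R239.F6b_696
import Crest.Agent.R239.RemLev_864
import Crest.Agent.R239.GrF_655

/-! R239 (S0370), helper646: `target_lev : Target_LEV`, assembled from the landed leaves
(303 one-body core, 711 rotation formula, 411 `f5_N`, 597 soft layer, 696 pull back, 864 remainders). -/

set_option autoImplicit false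
set_option linter.unusedSectionVars false
open MeasureTheory ProbabilityTheory Set
open scoped RealInnerProductSpace

namespace Crest.Agent.R239.Lev646

open Crest.Agent.R239 Crest.Agent.R239.FD

variable {E : Type*} [NormedAddCommGroup E] [InnerProductSpace ℝ E] [FiniteDimensional ℝ E]
  [MeasurableSpace E] [BorelSpace E]

/-! ### pointwise comparison of the cap gauge -/

/-- `th^(-(j-i)) |P_j x|² ≤ N_i x` -/
lemma P_le_N (V : Flag E) {i j : ℕ} (hij : i ≤ j) (hj : j < V.n) (x : E) :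
    (th⁻¹) ^ (j - i) * ‖V.P j x‖ ^ 2 ≤ V.N i x := by
  have h1 := Mom764.sum_norm_Q_sq V.anti hj.le x
  have h2 : (V.M V.n).starProjection x = 0 := by
    rw [V.bot V.n le_rfl]; simp
  rw [h2, norm_zero] at h1
  have h3 : ‖V.P j x‖ ^ 2 = ∑ l ∈ Finset.Ico j V.n, ‖V.Q l x‖ ^ 2 := by
    have h4 : ‖V.P j x‖ ^ 2 = ‖(V.M j).starProjection x‖ ^ 2 := rfl
    rw [h4]
    have : ‖(V.M j).starProjection x‖ ^ 2 - (0 : ℝ) ^ 2 = ‖(V.M j).starProjection x‖ ^ 2 := by ring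
    rw [← this, ← h1]
    rfl
  rw [h3, Finset.mul_sum]
  unfold Flag.N
  calc ∑ l ∈ Finset.Ico j V.n, (th⁻¹) ^ (j - i) * ‖V.Q l x‖ ^ 2
      ≤ ∑ l ∈ Finset.Ico j V.n, (th⁻¹) ^ (l - i) * ‖V.Q l x‖ ^ 2 := by
        refine Finset.sum_le_sum fun l hl => ?_
        refine mul_le_mul_of_nonneg_right ?_ (sq_nonneg _)
        exact pow_le_pow_right₀ Fl597.one_le_thi (by have := (Finset.mem_Ico.1 hl).1; omega)
    _ ≤ _ := by
        refine Finset.sum_le_sum_of_subset_of_nonneg ?_ ?_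
        · exact Finset.Ico_subset_Ico_left hij
        · intro l _ _
          have := Fl597.th_pos
          positivity

lemma term_bound (m : ℕ) {X z N b : ℝ} (hb : 0 ≤ b) (hN : 0 ≤ N)
    (hz : z ^ 2 * (5 / 4 : ℝ) ^ m ≤ b * N) :
    (5 / 4 : ℝ) ^ m / 5 * (2 * X * z) ≤ (1 / 2 : ℝ) ^ m * X ^ 2 + (25 / 8 : ℝ) ^ m * b * N := by
  have e2 : (1 / 2 : ℝ) ^ m * 2 ^ m = 1 := by rw [← mul_pow]; norm_num
  have h58 : (5 / 4 : ℝ) ^ m * 2 ^ m ≤ (25 / 8 : ℝ) ^ m := by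
    rw [← mul_pow]
    exact pow_le_pow_left₀ (by norm_num) (by norm_num) m
  have hc : (0 : ℝ) < (5 / 4 : ℝ) ^ m := by positivity
  have he : (0 : ℝ) < (2 : ℝ) ^ m := by positivity
  have hd : (0 : ℝ) < (1 / 2 : ℝ) ^ m := by positivity
  generalize (5 / 4 : ℝ) ^ m = c at *
  generalize (2 : ℝ) ^ m = e at *
  generalize (1 / 2 : ℝ) ^ m = d at *
  generalize (25 / 8 : ℝ) ^ m = f at *
  have h1 : c / 5 * (2 * X * z) ≤ d * X ^ 2 + c ^ 2 * e / 25 * z ^ 2 := by
    have h2 : 0 ≤ d * (X - c * e / 5 * z) ^ 2 := by positivity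
    have h3 : d * (X - c * e / 5 * z) ^ 2
        = d * X ^ 2 - 2 * (d * e) * (c / 5) * X * z + (d * e) * (c ^ 2 * e / 25) * z ^ 2 := by ring
    rw [h3, e2] at h2
    linarith
  have h4 : c ^ 2 * e / 25 * z ^ 2 ≤ c * e / 25 * (b * N) := by
    have : c ^ 2 * e / 25 * z ^ 2 = c * e / 25 * (z ^ 2 * c) := by ring
    rw [this]
    exact mul_le_mul_of_nonneg_left hz (by positivity)
  have h5 : c * e / 25 * (b * N) ≤ f * b * N := by
    have hbN : 0 ≤ b * N := mul_nonneg hb hN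
    have hce : 0 ≤ c * e := by positivity
    calc c * e / 25 * (b * N) ≤ c * e * (b * N) := mul_le_mul_of_nonneg_right (by linarith) hbN
      _ ≤ f * (b * N) := mul_le_mul_of_nonneg_right h58 hbN
      _ = f * b * N := by ring
  linarith

lemma sum_half (i n : ℕ) : ∑ j ∈ Finset.Ico (i + 1) n, (1 / 2 : ℝ) ^ (j - i) ≤ 1 := by
  have key : ∀ m, i + 1 ≤ m →
      ∑ j ∈ Finset.Ico (i + 1) m, (1 / 2 : ℝ) ^ (j - i) = 1 - (1 / 2 : ℝ) ^ (m - 1 - i) := by
    intro m hm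
    induction m, hm using Nat.le_induction with
    | base => simp
    | succ m hm ih =>
      rw [Finset.sum_Ico_succ_top hm, ih]
      obtain ⟨k, rfl⟩ : ∃ k, m = i + 1 + k := ⟨m - (i + 1), by omega⟩
      have e1 : i + 1 + k - 1 - i = k := by omega
      have e2 : i + 1 + k - i = k + 1 := by omega
      have e3 : i + 1 + k + 1 - 1 - i = k + 1 := by omega
      rw [e1, e2, e3, pow_succ]
      ring
  rcases le_or_gt (i + 1) n with h | h
  · rw [key n h]
    have : (0 : ℝ) < (1 / 2 : ℝ) ^ (n - 1 - i) := by positivity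
    linarith
  · rw [Finset.Ico_eq_empty (by omega)]; simp

lemma sb_pos {s : ℝ} (h0 : 0 < s) (h1 : s < 1) : 0 < 2 * s - s ^ 2 := by nlinarith

/-- **cap comparison** -/
theorem caph (V : Flag E) {v : E} (hv : ‖v‖ = 1) {s : ℝ} (h0 : 0 < s) (h1 : s < 1) {i : ℕ}
    {x : E} (hx : x ∈ V.M i) :
    (1 - (2 * s - s ^ 2) * (2 * V.b v i + BB V v i)) * V.N i x ≤ (V.rot v s).N i (Ts v s x) := by
  rw [PRot711.p_rotN V v s i x hv h0 h1 hx]
  set sb : ℝ := 2 * s - s ^ 2 with hsb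
  have hsb0 : 0 < sb := sb_pos h0 h1
  have hN0 : 0 ≤ V.N i x := Fl597.N_nonneg V i x
  have hξ : ⟪v, x⟫ ^ 2 ≤ V.b v i * V.N i x := by
    have e1 : ⟪v, x⟫ = ⟪V.P i v, x⟫ := by
      have : V.P i x = x := Submodule.starProjection_eq_self_iff.2 hx
      conv_lhs => rw [← this]
      show ⟪v, (V.M i).starProjection x⟫ = ⟪(V.M i).starProjection v, x⟫
      rw [Submodule.inner_starProjection_left_eq_right]
    rw [e1]
    have h2 := abs_real_inner_le_norm (V.P i v) x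
    have h3 : ⟪V.P i v, x⟫ ^ 2 ≤ (‖V.P i v‖ * ‖x‖) ^ 2 := by
      rw [← sq_abs]
      exact pow_le_pow_left₀ (abs_nonneg _) h2 2
    have h4 := Fl597.norm_sq_le_N V hx
    calc ⟪V.P i v, x⟫ ^ 2 ≤ ‖V.P i v‖ ^ 2 * ‖x‖ ^ 2 := by rw [← mul_pow]; exact h3
      _ ≤ _ := mul_le_mul_of_nonneg_left h4 (sq_nonneg _)
  have hterm : ∀ j ∈ Finset.Ico (i + 1) V.n,
      omN (j - i) * (⟪v, x⟫ ^ 2 - ⟪v - V.P j v, x⟫ ^ 2 / (1 - sb * V.b v j))
        ≤ (1 / 2 : ℝ) ^ (j - i) * ⟪v, x⟫ ^ 2 + (25 / 8 : ℝ) ^ (j - i) * V.b v j * V.N i x := by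
    intro j hj
    rw [Finset.mem_Ico] at hj
    have hb0 : 0 ≤ V.b v j := PRot711.b_nonneg V v j
    have hden := PRot711.one_sub_sb_pos V hv h0 h1 j
    have hden1 : 1 - sb * V.b v j ≤ 1 := by
      have := mul_nonneg hsb0.le hb0
      linarith
    have h2 : ⟪v - V.P j v, x⟫ ^ 2 ≤ ⟪v - V.P j v, x⟫ ^ 2 / (1 - sb * V.b v j) := by
      rw [le_div_iff₀ hden]
      nlinarith [sq_nonneg ⟪v - V.P j v, x⟫]
    have h3 : ⟪v - V.P j v, x⟫ = ⟪v, x⟫ - ⟪V.P j v, x⟫ := inner_sub_left _ _ _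
    have h4 : ⟪v, x⟫ ^ 2 - ⟪v - V.P j v, x⟫ ^ 2 / (1 - sb * V.b v j)
        ≤ 2 * ⟪v, x⟫ * ⟪V.P j v, x⟫ := by
      rw [h3] at h2 ⊢
      nlinarith [sq_nonneg ⟪V.P j v, x⟫]
    have hζ : ⟪V.P j v, x⟫ ^ 2 * (5 / 4 : ℝ) ^ (j - i) ≤ V.b v j * V.N i x := by
      have e1 : ⟪V.P j v, x⟫ = ⟪V.P j v, V.P j x⟫ := by
        show ⟪(V.M j).starProjection v, x⟫
          = ⟪(V.M j).starProjection v, (V.M j).starProjection x⟫
        rw [← Submodule.inner_starProjection_left_eq_right]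
        rw [Submodule.starProjection_eq_self_iff.2 (Submodule.starProjection_apply_mem _ _)]
      have h5 := abs_real_inner_le_norm (V.P j v) (V.P j x)
      have h6 : ⟪V.P j v, V.P j x⟫ ^ 2 ≤ (‖V.P j v‖ * ‖V.P j x‖) ^ 2 := by
        rw [← sq_abs]
        exact pow_le_pow_left₀ (abs_nonneg _) h5 2
      have h7 := P_le_N V (show i ≤ j by omega) hj.2 x
      have e2 : (th⁻¹ : ℝ) = 5 / 4 := by norm_num [th]
      rw [e2] at h7
      rw [e1]
      calc ⟪V.P j v, V.P j x⟫ ^ 2 * (5 / 4 : ℝ) ^ (j - i)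
          ≤ (‖V.P j v‖ * ‖V.P j x‖) ^ 2 * (5 / 4 : ℝ) ^ (j - i) :=
            mul_le_mul_of_nonneg_right h6 (by positivity)
        _ = V.b v j * ((5 / 4 : ℝ) ^ (j - i) * ‖V.P j x‖ ^ 2) := by
            unfold Flag.b; ring
        _ ≤ _ := mul_le_mul_of_nonneg_left h7 hb0
    have h8 := term_bound (j - i) (X := ⟪v, x⟫) hb0 hN0 hζ
    have e3 : omN (j - i) = (5 / 4 : ℝ) ^ (j - i) / 5 := by
      unfold omN th; norm_num; ring
    rw [e3]
    exact (mul_le_mul_of_nonneg_left h4 (by positivity)).trans h8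
  have hsum := Finset.sum_le_sum hterm
  rw [Finset.sum_add_distrib, ← Finset.sum_mul, ← Finset.sum_mul] at hsum
  have h9 : (∑ j ∈ Finset.Ico (i + 1) V.n, (1 / 2 : ℝ) ^ (j - i)) * ⟪v, x⟫ ^ 2 ≤ ⟪v, x⟫ ^ 2 := by
    have := mul_le_mul_of_nonneg_right (sum_half i V.n) (sq_nonneg ⟪v, x⟫)
    linarith
  have h10 : qN V v sb i x ≤ sb * ((2 * V.b v i + BB V v i) * V.N i x) := by
    unfold qN BB
    rw [← mul_add]
    refine mul_le_mul_of_nonneg_left ?_ hsb0.le
    linarith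
  linarith


lemma Ts_inj {v : E} {s : ℝ} (hv : ‖v‖ = 1) (hs : s < 1) : Function.Injective (Ts v s) := by
  intro x y h
  have h1 : (1 - s) * ⟪v, x⟫ = (1 - s) * ⟪v, y⟫ := by
    rw [← F6b696.inner_v_Ts hv, ← F6b696.inner_v_Ts hv, h]
  have h2 : ⟪v, x⟫ = ⟪v, y⟫ := mul_left_cancel₀ (by linarith : (1 - s) ≠ 0) h1
  rw [Ts_apply, Ts_apply, h2] at h
  exact sub_left_injective h

lemma rot_rr (V : Flag E) {v : E} {s : ℝ} (hv : ‖v‖ = 1) (hs : s < 1) (i : ℕ) :
    (V.rot v s).rr i = V.rr i := by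
  have key : ∀ j, Module.finrank ℝ ((V.rot v s).M j) = Module.finrank ℝ (V.M j) := fun j =>
    (LinearEquiv.finrank_eq
      (Submodule.equivMapOfInjective (Ts v s).toLinearMap (Ts_inj hv hs) (V.M j))).symm
  unfold Flag.rr Flag.k
  simp only [key]
  rfl

/-! ### one level, one competitor -/

lemma neg_log_le {x : ℝ} (h0 : 0 ≤ x) (h1 : x ≤ 1 / 2) : -Real.log (1 - x) ≤ 2 * x := by
  have h2 : 0 < 1 - x := by linarith
  have h3 := Real.one_sub_inv_le_log_of_pos h2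
  have h4 : (1 - x)⁻¹ ≤ 1 + 2 * x := by
    rw [inv_le_iff_one_le_mul₀ h2]
    nlinarith
  linarith

theorem lev_main {p : Par} (hp : p.Ok) {V : Flag E} {v : E} (hv : ‖v‖ = 1) {s : ℝ} (hs0 : 0 < s)
    (hs1 : s < 1) (hsb : 2 * s - s ^ 2 ≤ 1 / 2) {i : ℕ} (hrr : 0 < V.rr i) {μ : Multiset E}
    {K : Set E} {sl : ℝ} (hK : NearOpt p V i μ K sl) {K' : Set E} (hK' : Adm p (V.rot v s) i K')
    {n : E} (hn : ‖n‖ = 1) {τ : ℝ} (h0 : 0 ≤ τ) (h1 : τ ≤ 1 / 4)
    (hτ : ∀ g, τ * ⟪n, g⟫ ^ 2 ≤ (2 * s - s ^ 2) / 2 * ⟪V.Q i v, g⟫ ^ 2) {h t : ℝ}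
    (hh0 : 0 ≤ h) (hh1 : h ≤ 1)
    (hh : h < 1 → (2 * s - s ^ 2) * (2 * V.b v i + BB V v i) ≤ h)
    (hsl : 0 < (stdGaussian E).real {g : E | |⟪Lv303.Sc n (1 / √(1 - τ)) (V.H i v), g⟫| ≤ t}) :
    D p V i μ ≤ val p (V.rot v s) i μ K' + (s * t * S μ v - p.lam i * Real.log
        ((stdGaussian E).real {g : E | |⟪Lv303.Sc n (1 / √(1 - τ)) (V.H i v), g⟫| ≤ t}))
      + p.lam i * ((2 * s - s ^ 2) * BB V v i + 64 * h / p.rho ^ 2
        - (τ / 2 - (τ + 4 * τ ^ 2) / 2 * ((∫ x in V.H i ⁻¹' K, ⟪n, x⟫ ^ 2 ∂(stdGaussian E)) /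
            (stdGaussian E).real (V.H i ⁻¹' K)))) + sl := by
  classical
  set sb : ℝ := 2 * s - s ^ 2 with hsbd
  set W : Flag E := V.rot v s with hW
  set R : E →L[ℝ] E := F6b696.Rm V v s i with hR
  obtain ⟨J, u, hN, hu⟩ := F5411.f5_N V hv hs0 hs1 hsb i
  have hlam := Fl597.lam_pos hp i
  have hKc := Fl597.adm_compact hK.1
  have hK'c := Fl597.adm_compact hK'
  have hKp := Fl597.adm_pos hK.1
  have hK'p := Fl597.adm_pos hK'
  have hrho : 0 < p.rho := by linarith [hp.rho_ge]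
  have hrho2 : 256 ≤ p.rho ^ 2 := by nlinarith [hp.rho_ge]
  have hrho2' : 0 < p.rho ^ 2 := by linarith
  -- the slab is nonempty
  have ht0 : 0 ≤ t := by
    by_contra hc
    have he : {g : E | |⟪Lv303.Sc n (1 / √(1 - τ)) (V.H i v), g⟫| ≤ t} = ∅ := by
      ext g
      simp only [mem_ofPred_eq, mem_empty_iff_false, iff_false, not_le]
      exact lt_of_lt_of_le (not_le.1 hc) (abs_nonneg _)
    rw [he] at hsl
    simp at hsl
  -- the pulled back body
  set Q : Set E := (Ts v s ⁻¹' K' ∩ {x | |⟪v, x⟫| ≤ t}) ∩ V.cap p.rho i with hQ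
  have hQ0 : (0 : E) ∈ Q := by
    refine ⟨⟨?_, ?_⟩, Fl597.cap_zero V _ i⟩
    · simpa using Fl597.adm_zero hK'
    · simpa using ht0
  have hQcl : IsClosed Q :=
    ((hK'.1.preimage (Ts v s).continuous).inter
      (isClosed_le (by fun_prop) continuous_const)).inter (Fl597.cap_closed V _ i)
  have hQc : IsCompact Q := (Fl597.cap_compact V _ i).of_isClosed_subset hQcl inter_subset_right
  have hslabconv : Convex ℝ {x : E | |⟪v, x⟫| ≤ t} := by
    have : {x : E | |⟪v, x⟫| ≤ t} = (fun g => ⟪v, g⟫) ⁻¹' (Icc (-t) t) := by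
      ext g; simp [abs_le]
    rw [this]
    exact (convex_Icc (-t) t).linear_preimage ((innerSL ℝ v : E →L[ℝ] ℝ) : E →ₗ[ℝ] ℝ)
  have hQconv : Convex ℝ Q :=
    ((hK'.2.1.linear_preimage (Ts v s).toLinearMap).inter hslabconv).inter
      (Fl597.cap_convex V _ i)
  have hQsym : ∀ x ∈ Q, -x ∈ Q := by
    rintro x ⟨⟨hx1, hx2⟩, hx3⟩
    refine ⟨⟨?_, ?_⟩, Fl597.cap_symm V _ i x hx3⟩
    · simp only [mem_preimage, map_neg]
      exact hK'.2.2.1 _ hx1
    · simp only [mem_ofPred_eq, inner_neg_right, abs_neg]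
      exact hx2
  have hEQ : Eh Q μ ≤ Eh K' μ + s * t * S μ v :=
    F6core696.Eh_pullback hK'c ⟨0, hQ0⟩ hs0.le (fun x => Ts_apply v s x)
      (fun x hx => hx.1.1) (fun x hx => hx.1.2) μ
  -- the half sum
  set C : Set E := F6core696.mix (1 / 2) K Q with hC
  have hCc : IsCompact C := F6core696.mix_compact hKc hQc
  have hEC : Eh C μ = (1 - 1 / 2) * Eh K μ + 1 / 2 * Eh Q μ :=
    F6core696.Eh_mix (by norm_num) (by norm_num) hKc hQc ⟨0, Fl597.adm_zero hK.1⟩ ⟨0, hQ0⟩ μ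
  -- the sets in g-space
  have hKg := gau_real_apply (V.H i) hKc.measurableSet
  have hBg := gau_real_apply (W.H i) hK'c.measurableSet
  have hCg := gau_real_apply (V.H i) hCc.measurableSet
  have hτN : ∀ g, ‖R g‖ ^ 2 + τ * ⟪n, g⟫ ^ 2 ≤ ‖g‖ ^ 2 + ∑ k ∈ J, ⟪u k, g⟫ ^ 2 := by
    intro g
    have e1 := hN g
    have e2 := hτ g
    have e3 : ‖R g‖ ^ 2 = ‖(V.rot v s).Hi i (Ts v s (V.H i g))‖ ^ 2 := rfl
    rw [e3]
    linarith
  set r : ℝ := √(p.rho ^ 2 * V.rr i) with hr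
  have hrpos : 0 < r := Real.sqrt_pos.2 (mul_pos hrho2' hrr)
  have hr2 : r ^ 2 = p.rho ^ 2 * V.rr i := Real.sq_sqrt (mul_pos hrho2' hrr).le
  have hX : ∀ g, R g ∈ W.H i ⁻¹' K' → (1 - h) * ‖(Fl597.R V i ∘L V.H i) g‖ ^ 2 ≤ r ^ 2 := by
    intro g hg
    have e1 : ‖(Fl597.R V i ∘L V.H i) g‖ ^ 2 = V.N i (V.H i g) := Fl597.norm_R_sq V i (V.H i g)
    rw [e1, hr2]
    have hN0 : 0 ≤ V.N i (V.H i g) := Fl597.N_nonneg V i _
    rcases hh1.eq_or_lt with e | e
    · rw [e]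
      have := mul_nonneg hrho2'.le hrr.le
      linarith
    · have e2 := hh e
      have e3 := caph V hv hs0 hs1 (F6b696.H_mem V i g)
      have e4 : Ts v s (V.H i g) ∈ K' := by
        rw [F6b696.Ts_H]
        exact hg
      have e5 := (hK'.2.2.2.1 e4).2
      rw [rot_rr V hv hs1] at e5
      have e6 : (1 - h) * V.N i (V.H i g)
          ≤ (1 - sb * (2 * V.b v i + BB V v i)) * V.N i (V.H i g) :=
        mul_le_mul_of_nonneg_right (by linarith) hN0
      exact e6.trans (e3.trans e5)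
  have hE : ∫ x, ‖(Fl597.R V i ∘L V.H i) x‖ ^ 2 ∂(stdGaussian E) ≤ (1 / p.rho ^ 2) * r ^ 2 := by
    have e1 := Fl597.integral_N V i
    rw [Mom764.integral_gau _ (by fun_prop)] at e1
    have e2 : ∫ x, ‖(Fl597.R V i ∘L V.H i) x‖ ^ 2 ∂(stdGaussian E) = V.rr i := e1
    rw [e2, hr2]
    apply le_of_eq
    field_simp
  have hκ1 : 1 / p.rho ^ 2 ≤ 1 / 256 := one_div_le_one_div_of_le (by norm_num) hrho2
  have hκ0 : 0 ≤ 1 / p.rho ^ 2 := by positivity
  have hhκ : 32 * h * (1 / p.rho ^ 2) ≤ 1 / 2 := by nlinarith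
  have hhκ0 : 0 ≤ 32 * h * (1 / p.rho ^ 2) := by positivity
  have hKgp : 0 < (stdGaussian E).real (V.H i ⁻¹' K) := by rw [← hKg]; exact hKp
  have hBgp : 0 < (stdGaussian E).real (W.H i ⁻¹' K') := by rw [← hBg]; exact hK'p
  have hcore := Lv303.lev_one hn h0 h1 R J u hτN (K := V.H i ⁻¹' K) (B := W.H i ⁻¹' K')
    (W := V.H i ⁻¹' C)
    ((V.H i).continuous.measurable hKc.measurableSet) hKgp
    (hK'.1.preimage (W.H i).continuous) (hK'.2.1.linear_preimage (W.H i).toLinearMap)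
    (by
      intro x hx
      simp only [mem_preimage, map_neg] at hx ⊢
      exact hK'.2.2.1 _ hx)
    (V.H i v) t (Fl597.R V i ∘L V.H i) (r := r) (h := h) (κ := 1 / p.rho ^ 2) hrpos hh0
    (by linarith) hX hE ((V.H i).continuous.measurable hCc.measurableSet)
    (by
      intro x hx y hy1 hy2 hy3
      apply F6core696.mix_preimage_subset (V.H i) K Q
      refine F6core696.mem_mix.2 ⟨x, hx, y, ?_, by norm_num⟩
      refine ⟨⟨?_, ?_⟩, F6b696.H_mem V i y, ?_⟩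
      · show Ts v s (V.H i y) ∈ K'
        rw [F6b696.Ts_H]
        exact hy1
      · show |⟪v, V.H i y⟫| ≤ t
        have e1 : ⟪v, V.H i y⟫ = ⟪V.H i v, y⟫ := by
          rw [← ContinuousLinearMap.adjoint_inner_left, Fl597.adjoint_H]
        rw [e1]
        exact hy2
      · rw [← Fl597.norm_R_sq, ← hr2]
        exact pow_le_pow_left₀ (norm_nonneg _) hy3 2)
    (by linarith)
  set gK : ℝ := (stdGaussian E).real (V.H i ⁻¹' K) with hgK
  set gB : ℝ := (stdGaussian E).real (W.H i ⁻¹' K') with hgB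
  set gC : ℝ := (stdGaussian E).real (V.H i ⁻¹' C) with hgC
  set gs : ℝ := (stdGaussian E).real
    {g : E | |⟪Lv303.Sc n (1 / √(1 - τ)) (V.H i v), g⟫| ≤ t} with hgs
  set su : ℝ := ∑ k ∈ J, ‖u k‖ ^ 2 with hsu
  set G : ℝ := τ / 2 - (τ + 4 * τ ^ 2) / 2 *
    ((∫ x in V.H i ⁻¹' K, ⟪n, x⟫ ^ 2 ∂(stdGaussian E)) / gK) with hG
  set q : ℝ := 32 * h * (1 / p.rho ^ 2) with hq
  have hq1 : 0 < 1 - q := by linarith
  have hLpos : 0 < gK * (Real.exp (-su) * gB * gs * (1 - q)) * Real.exp G := by positivity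
  have hCg0 : 0 < gC := by
    have e1 : 0 < gC ^ 2 := lt_of_lt_of_le hLpos hcore
    have e2 : 0 ≤ gC := measureReal_nonneg
    rcases e2.eq_or_lt with e | e
    · rw [← e] at e1; norm_num at e1
    · exact e
  have hlog := Real.log_le_log hLpos hcore
  rw [Real.log_mul (by positivity) (Real.exp_pos _).ne', Real.log_mul hKgp.ne' (by positivity),
    Real.log_mul (by positivity) hq1.ne', Real.log_mul (by positivity) hsl.ne',
    Real.log_mul (Real.exp_pos _).ne' hBgp.ne', Real.log_exp, Real.log_exp, Real.log_pow] at hlog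
  push_cast at hlog
  have hadm : Adm p V i C := by
    refine ⟨hCc.isClosed, F6core696.mix_convex hK.1.2.1 hQconv,
      F6core696.mix_neg hK.1.2.2.1 hQsym,
      F6core696.mix_subset (by norm_num) (by norm_num) (Fl597.cap_convex V _ i)
        hK.1.2.2.2.1 inter_subset_right, ?_⟩
    rw [hCg]
    exact hCg0
  have hD := Fl597.D_le hp (μ := μ) hadm
  have hKv := hK.2
  have hnl := neg_log_le hhκ0 hhκ
  have e64 : 64 * h / p.rho ^ 2 = 2 * q := by rw [hq]; ring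
  rw [e64]
  unfold val at hD hKv ⊢
  rw [hEC, hCg] at hD
  rw [hKg] at hKv
  rw [hBg]
  have hmul := mul_le_mul_of_nonneg_left hlog hlam.le
  have hmul2 := mul_le_mul_of_nonneg_left hnl hlam.le
  have hmul3 := mul_le_mul_of_nonneg_left hu hlam.le
  linarith

/-! ### thinness in g-space -/

lemma H_self (V : Flag E) {i : ℕ} (hi : i < V.n) {w : E} (hw : V.Q i w = w) : V.H i w = w := by
  rw [F6b696.H_apply, Finset.sum_eq_single_of_mem i (Finset.mem_Ico.2 ⟨le_rfl, hi⟩)]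
  · simp [hw]
  · intro j hj hne
    conv_lhs => rw [← hw]
    rw [F6b696.Q_Q_ne V hne, smul_zero]

lemma thin_g {V : Flag E} {p : Par} {μ : Multiset E} {i : ℕ} {c' dl : ℝ} (hi : i < V.n)
    (hthin : ThinAt p V μ i c' dl) {K : Set E} (hK : NearOpt p V i μ K (dl * p.lam i))
    {w : E} (hw1 : ‖w‖ = 1) (hw : V.Q i w = w) :
    (∫ x in V.H i ⁻¹' K, ⟪w, x⟫ ^ 2 ∂(stdGaussian E)) / (stdGaussian E).real (V.H i ⁻¹' K)
      ≤ 1 - c' := by
  have h1 := hthin K hK w hw1 hw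
  have hKm : MeasurableSet K := hK.1.1.measurableSet
  have h2 : ∫ x in K, ⟪w, x⟫ ^ 2 ∂(gau (V.H i))
      = ∫ x in V.H i ⁻¹' K, ⟪w, x⟫ ^ 2 ∂(stdGaussian E) := by
    unfold gau
    rw [setIntegral_map hKm (by fun_prop) (by fun_prop)]
    have e : ∀ x : E, ⟪w, V.H i x⟫ = ⟪w, x⟫ := by
      intro x
      rw [← ContinuousLinearMap.adjoint_inner_left, Fl597.adjoint_H, H_self V hi hw]
    simp only [e]
  have hpos : 0 < (stdGaussian E).real (V.H i ⁻¹' K) := by
    rw [← gau_real_apply _ hKm]; exact hK.1.2.2.2.2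
  rw [h2, gau_real_apply _ hKm] at h1
  rw [div_le_iff₀ hpos]
  exact h1

/-! ### small facts -/

lemma S_nonneg (μ : Multiset E) (v : E) : 0 ≤ S μ v := by
  unfold S
  apply Multiset.sum_nonneg
  intro x hx
  obtain ⟨z, _, rfl⟩ := Multiset.mem_map.1 hx
  exact abs_nonneg _

lemma BB_nonneg (V : Flag E) (v : E) (i : ℕ) : 0 ≤ BB V v i := by
  unfold BB
  exact Finset.sum_nonneg fun j _ => mul_nonneg (by positivity) (PRot711.b_nonneg V v j)

lemma b_succ_le (V : Flag E) (v : E) (i : ℕ) : V.b v (i + 1) ≤ BB V v i := by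
  rcases lt_or_ge (i + 1) V.n with h | h
  · have h1 : (25 / 8 : ℝ) ^ (i + 1 - i) * V.b v (i + 1) ≤ BB V v i := by
      unfold BB
      exact Finset.single_le_sum (f := fun j => (25 / 8 : ℝ) ^ (j - i) * V.b v j)
        (fun j _ => mul_nonneg (by positivity) (PRot711.b_nonneg V v j))
        (Finset.mem_Ico.2 ⟨le_rfl, h⟩)
    have h2 : i + 1 - i = 1 := by omega
    rw [h2, pow_one] at h1
    have := PRot711.b_nonneg V v (i + 1)
    linarith
  · have : V.b v (i + 1) = 0 := by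
      unfold Flag.b
      rw [F6b696.P_of_n_le V h]
      simp
    rw [this]
    exact BB_nonneg V v i

lemma norm_Q_sq (V : Flag E) (v : E) (i : ℕ) : ‖V.Q i v‖ ^ 2 = V.b v i - V.b v (i + 1) :=
  QPlus711.norm_Qj_sq V.anti i v

lemma b_bot {V : Flag E} {i : ℕ} (h : V.M i = ⊥) (v : E) : V.b v i = 0 := by
  have h1 := F6b696.P_mem V i v
  rw [h] at h1
  have h2 : V.P i v = 0 := (Submodule.mem_bot ℝ).1 h1
  unfold Flag.b
  rw [h2]
  simp

/-- the degenerate level -/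
lemma D_bot {p : Par} (hp : p.Ok) {V : Flag E} {i : ℕ} (h : V.M i = ⊥) (μ : Multiset E) :
    D p V i μ ≤ 0 := by
  have hpre : V.H i ⁻¹' ({0} : Set E) = univ := by
    ext g
    simp only [mem_preimage, mem_singleton_iff, mem_univ, iff_true]
    have := F6b696.H_mem V i g
    rw [h] at this
    exact (Submodule.mem_bot ℝ).1 this
  have hm : (gau (V.H i)).real ({0} : Set E) = 1 := by
    rw [gau_real_apply _ (measurableSet_singleton _), hpre]
    simp
  have hadm : Adm p V i ({0} : Set E) := by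
    refine ⟨isClosed_singleton, convex_singleton _, ?_, ?_, ?_⟩
    · rintro x rfl; simp
    · rintro x rfl; exact Fl597.cap_zero V _ i
    · rw [hm]; exact one_pos
  have h1 := Fl597.D_le hp (μ := μ) hadm
  unfold val at h1
  rw [hm, Real.log_one] at h1
  have h2 : Eh ({0} : Set E) μ = 0 := by
    unfold Eh hs
    simp
  rw [h2] at h1
  linarith

lemma norm_Sc_H (V : Flag E) {v n : E} (hn : ‖n‖ = 1) {τ : ℝ} (h0 : 0 ≤ τ) (h1 : τ ≤ 1 / 4)
    (i : ℕ) : ‖Lv303.Sc n (1 / √(1 - τ)) (V.H i v)‖ ^ 2 ≤ 4 / 3 * V.b v i := by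
  have hτ : 0 < 1 - τ := by linarith
  set c : ℝ := 1 / √(1 - τ) with hc
  have hc2 : c ^ 2 * (1 - τ) = 1 := by
    rw [hc, div_pow, one_pow, Real.sq_sqrt hτ.le]; field_simp
  have hc0 : 0 < c := by rw [hc]; positivity
  have hc1 : 1 ≤ c := by
    by_contra hcon
    have : c ^ 2 < 1 := by nlinarith [not_le.1 hcon]
    nlinarith
  have hc43 : c ^ 2 ≤ 4 / 3 := by nlinarith
  calc ‖Lv303.Sc n c (V.H i v)‖ ^ 2 ≤ c ^ 2 * ‖V.H i v‖ ^ 2 := Lv303.norm_Sc_le hn hc1 _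
    _ ≤ 4 / 3 * V.b v i := mul_le_mul hc43 (F5411.norm_H_le V i v) (sq_nonneg _) (by norm_num)

/-! ### the two flag statements -/

theorem lev_hi {p : Par} (hp : p.Ok) {c' dl s : ℝ} (hc0 : 0 < c') (hc1 : c' < 1) (hdl : 0 < dl)
    (hs0 : 0 < s) (hs1 : s < 1) (hsb : 2 * s - s ^ 2 ≤ c' / 4) (hρ : 4096 / c' ≤ p.rho ^ 2)
    {C9 : ℝ} (hC : 448 / ((2 * s - s ^ 2) * c') ≤ C9) (hC1 : 1 ≤ C9) :
    P_LEVhi E p s c' dl ((2 * s - s ^ 2) * c' / 16) C9 := by
  intro V μ v I i hv hS hIi hin hthin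
  have hlam := Fl597.lam_pos hp i
  have hlamI := Fl597.lam_pos hp I
  set sb : ℝ := 2 * s - s ^ 2 with hsbd
  have hsb0 : 0 < sb := sb_pos hs0 hs1
  have hb0 := PRot711.b_nonneg V v i
  have hb1 := PRot711.b_le_one V hv i
  have hBB := BB_nonneg V v i
  have hpow : (0 : ℝ) < (1 / 2) ^ (i - I) := by positivity
  have hq0 : 0 < sb * c' := mul_pos hsb0 hc0
  have hq1 : sb * c' ≤ 1 / 4 := by nlinarith
  rcases (Fl597.rr_nonneg V i).eq_or_lt with hr | hr
  · have hM := GrF655.M_eq_bot V i hr.symm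
    have e1 := D_bot hp hM μ
    have e2 := Fl597.D_nonneg hp (V.rot v s) i μ
    have e3 := b_bot hM v
    rw [e3]
    have h4 : 0 ≤ C9 := by linarith
    have h5 : 0 ≤ p.lam i * (C9 * BB V v i) := by positivity
    have h6 : 0 ≤ C9 * p.lam I * (1 / 2) ^ (i - I) := by positivity
    linarith
  · apply le_of_forall_pos_le_add
    intro ε hε
    obtain ⟨K, hKa, hKv⟩ := Fl597.exists_near hp V i μ (e := min ε (dl * p.lam i))
      (lt_min hε (mul_pos hdl hlam))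
    have hK1 : NearOpt p V i μ K ε := ⟨hKa, hKv.trans (by linarith [min_le_left ε (dl * p.lam i)])⟩
    have hK2 : NearOpt p V i μ K (dl * p.lam i) :=
      ⟨hKa, hKv.trans (by linarith [min_le_right ε (dl * p.lam i)])⟩
    -- the direction
    have hdir : ∃ (n : E) (τ : ℝ), ‖n‖ = 1 ∧ 0 ≤ τ ∧ τ ≤ 1 / 4 ∧
        (∀ g, τ * ⟪n, g⟫ ^ 2 ≤ sb / 2 * ⟪V.Q i v, g⟫ ^ 2) ∧
        sb * c' / 8 * ‖V.Q i v‖ ^ 2 ≤ τ / 2 - (τ + 4 * τ ^ 2) / 2 *
          ((∫ x in V.H i ⁻¹' K, ⟪n, x⟫ ^ 2 ∂(stdGaussian E)) /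
            (stdGaussian E).real (V.H i ⁻¹' K)) := by
      rcases eq_or_ne (V.Q i v) 0 with hq | hq
      · refine ⟨v, 0, hv, le_rfl, by norm_num, fun g => ?_, ?_⟩
        · rw [zero_mul]; positivity
        · rw [hq]; simp
      · have ha : 0 < ‖V.Q i v‖ := norm_pos_iff.2 hq
        set al : ℝ := ‖V.Q i v‖ with hal
        have hal2 : al ^ 2 ≤ 1 := by
          have e1 := norm_Q_sq V v i
          have e2 := PRot711.b_nonneg V v (i + 1)
          rw [← hal] at e1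
          linarith
        have hn1 : ‖al⁻¹ • V.Q i v‖ = 1 := by
          rw [norm_smul, norm_inv, Real.norm_of_nonneg ha.le, ← hal, inv_mul_cancel₀ ha.ne']
        have hτ0 : 0 ≤ sb / 2 * al ^ 2 := by positivity
        have hτc : sb / 2 * al ^ 2 ≤ c' / 8 := by nlinarith
        refine ⟨al⁻¹ • V.Q i v, sb / 2 * al ^ 2, hn1, hτ0, by linarith, fun g => ?_, ?_⟩
        · rw [inner_smul_left]
          simp only [conj_trivial]
          apply le_of_eq
          field_simp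
        · have hQn : V.Q i (al⁻¹ • V.Q i v) = al⁻¹ • V.Q i v := by
            rw [map_smul, F6b696.Q_Q_self]
          have hth := thin_g hin hthin hK2 hn1 hQn
          set EK : ℝ := (∫ x in V.H i ⁻¹' K, ⟪al⁻¹ • V.Q i v, x⟫ ^ 2 ∂(stdGaussian E)) /
            (stdGaussian E).real (V.H i ⁻¹' K) with hEK
          set τ : ℝ := sb / 2 * al ^ 2 with hτ
          have e1 : (τ + 4 * τ ^ 2) / 2 * EK ≤ (τ + 4 * τ ^ 2) / 2 * (1 - c') :=
            mul_le_mul_of_nonneg_left hth (by positivity)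
          have e2 : sb * c' / 8 * al ^ 2 = τ * (c' / 4) := by rw [hτ]; ring
          rw [e2]
          have e3 : τ / 2 - (τ + 4 * τ ^ 2) / 2 * (1 - c') - τ * (c' / 4)
              = τ / 2 * ((c' / 2 - 4 * τ) + 4 * τ * c') := by ring
          have e4 : 0 ≤ τ / 2 * ((c' / 2 - 4 * τ) + 4 * τ * c') := by
            apply mul_nonneg (by linarith)
            have : 0 ≤ 4 * τ * c' := by positivity
            linarith
          linarith
    obtain ⟨n, τ, hn, hτ0, hτ14, hτe, hG⟩ := hdir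
    -- the slab
    obtain ⟨t, ht0, htp, ht⟩ := Rem864.rem_hi hp hIi (S_nonneg μ v) hS hs0.le hs1.le
      (e := sb * c' / 64) (by positivity) (by linarith) (ContinuousLinearMap.id ℝ E)
      (Lv303.Sc n (1 / √(1 - τ)) (V.H i v))
    rw [gau_id] at htp ht
    have hadj : ‖(ContinuousLinearMap.id ℝ E).adjoint (Lv303.Sc n (1 / √(1 - τ)) (V.H i v))‖ ^ 2
        ≤ 4 / 3 * V.b v i := by
      have e1 : (ContinuousLinearMap.id ℝ E).adjoint (Lv303.Sc n (1 / √(1 - τ)) (V.H i v))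
          = Lv303.Sc n (1 / √(1 - τ)) (V.H i v) := by
        apply ext_inner_right ℝ
        intro y
        rw [ContinuousLinearMap.adjoint_inner_left]
        rfl
      rw [e1]
      exact norm_Sc_H V hn hτ0 hτ14 i
    have ht2 : sb * c' / 64 * p.lam i *
        ‖(ContinuousLinearMap.id ℝ E).adjoint (Lv303.Sc n (1 / √(1 - τ)) (V.H i v))‖ ^ 2
        ≤ p.lam i * (sb * c' / 48 * V.b v i) := by
      calc _ ≤ sb * c' / 64 * p.lam i * (4 / 3 * V.b v i) :=
            mul_le_mul_of_nonneg_left hadj (by positivity)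
        _ = _ := by ring
    have ht3 : 7 / (sb * c' / 64) * p.lam I * (1 / 2) ^ (i - I)
        ≤ C9 * p.lam I * (1 / 2) ^ (i - I) := by
      refine mul_le_mul_of_nonneg_right (mul_le_mul_of_nonneg_right ?_ hlamI.le) hpow.le
      refine le_trans (le_of_eq ?_) hC
      field_simp
      norm_num
    -- constants
    set H0 : ℝ := sb * (2 * V.b v i + BB V v i) with hH0
    have hH00 : 0 ≤ H0 := by positivity
    have hρ2 : 64 * min H0 1 / p.rho ^ 2 ≤ c' / 64 * H0 := by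
      have hr0 : 0 < p.rho ^ 2 := lt_of_lt_of_le (by positivity) hρ
      rw [div_le_iff₀ hr0]
      have e1 : 64 * min H0 1 ≤ 64 * H0 := by linarith [min_le_left H0 1]
      have e2 : 4096 ≤ c' * p.rho ^ 2 := by
        rw [div_le_iff₀ hc0] at hρ
        linarith
      calc 64 * min H0 1 ≤ 64 * H0 := e1
        _ = 1 / 64 * H0 * 4096 := by ring
        _ ≤ 1 / 64 * H0 * (c' * p.rho ^ 2) := mul_le_mul_of_nonneg_left e2 (by positivity)
        _ = _ := by ring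
    have hQs := norm_Q_sq V v i
    have hbs := b_succ_le V v i
    have hkey : sb * c' / 48 * V.b v i + sb * BB V v i + c' / 64 * H0
        - sb * c' / 8 * ‖V.Q i v‖ ^ 2 ≤ -(sb * c' / 16 * V.b v i - C9 * BB V v i) := by
      have e1 : sb * c' / 8 * (V.b v i - BB V v i) ≤ sb * c' / 8 * ‖V.Q i v‖ ^ 2 :=
        mul_le_mul_of_nonneg_left (by linarith) (by positivity)
      have e2 : 0 ≤ sb * c' * V.b v i := by positivity
      have e3 : (sb + sb * c' / 64 + sb * c' / 8) * BB V v i ≤ C9 * BB V v i :=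
        mul_le_mul_of_nonneg_right (by linarith) hBB
      rw [hH0]
      linarith
    have hkeyL := mul_le_mul_of_nonneg_left hkey hlam.le
    -- all competitors
    have hall := Fl597.le_D hp (V := V.rot v s) (i := i) (μ := μ)
      (c := D p V i μ + p.lam i * (sb * c' / 16 * V.b v i - C9 * BB V v i)
        - C9 * p.lam I * (1 / 2) ^ (i - I) - ε) (fun K' hK' => by
        have hmain := lev_main hp hv hs0 hs1 (by linarith) hr hK1 hK' hn hτ0 hτ14 hτe
          (h := min H0 1) (t := t) (le_min hH00 zero_le_one) (min_le_right _ _)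
          (fun hlt => by
            rcases min_lt_iff.1 hlt with h' | h'
            · rw [min_eq_left h'.le]
            · exact absurd h' (lt_irrefl _)) htp
        have m1 := mul_le_mul_of_nonneg_left hρ2 hlam.le
        have m2 := mul_le_mul_of_nonneg_left hG hlam.le
        linarith)
    linarith

theorem lev_lo {p : Par} (hp : p.Ok) {s : ℝ} (hs0 : 0 < s) (hs1 : s < 1)
    (hsb : 2 * s - s ^ 2 ≤ 1 / 2) {C9 : ℝ} (hC : 9 ≤ C9) : P_LEVlo E p s C9 := by
  intro V μ v I i hv hS hiI hin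
  have hlam := Fl597.lam_pos hp i
  have hlamI := Fl597.lam_pos hp I
  set sb : ℝ := 2 * s - s ^ 2 with hsbd
  have hsb0 : 0 < sb := sb_pos hs0 hs1
  have hb0 := PRot711.b_nonneg V v i
  have hb1 := PRot711.b_le_one V hv i
  have hBB := BB_nonneg V v i
  have hpow : (0 : ℝ) < (1 / 2) ^ (I - i) := by positivity
  rcases (Fl597.rr_nonneg V i).eq_or_lt with hr | hr
  · have hM := GrF655.M_eq_bot V i hr.symm
    have e1 := D_bot hp hM μ
    have e2 := Fl597.D_nonneg hp (V.rot v s) i μ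
    have h4 : 0 ≤ C9 := by linarith
    have h5 : 0 ≤ p.lam i * C9 * BB V v i := by positivity
    have h6 : 0 ≤ C9 * p.lam I * (1 / 2) ^ (I - i) := by positivity
    linarith
  · apply le_of_forall_pos_le_add
    intro ε hε
    obtain ⟨K, hKa, hKv⟩ := Fl597.exists_near hp V i μ hε
    have hτe : ∀ g, (0 : ℝ) * ⟪v, g⟫ ^ 2 ≤ sb / 2 * ⟪V.Q i v, g⟫ ^ 2 := fun g => by
      rw [zero_mul]; positivity
    have hadj : ‖(ContinuousLinearMap.id ℝ E).adjoint (Lv303.Sc v (1 / √(1 - 0)) (V.H i v))‖ ^ 2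
        ≤ 4 / 3 * V.b v i := by
      have e1 : (ContinuousLinearMap.id ℝ E).adjoint (Lv303.Sc v (1 / √(1 - 0)) (V.H i v))
          = Lv303.Sc v (1 / √(1 - 0)) (V.H i v) := by
        apply ext_inner_right ℝ
        intro y
        rw [ContinuousLinearMap.adjoint_inner_left]
        rfl
      rw [e1]
      exact norm_Sc_H V hv le_rfl (by norm_num) i
    obtain ⟨t, ht0, htp, ht⟩ := Rem864.rem_lo hp hiI (S_nonneg μ v) hS hs0.le hs1.le
      (ContinuousLinearMap.id ℝ E) (Lv303.Sc v (1 / √(1 - 0)) (V.H i v)) (by linarith)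
    rw [gau_id] at htp ht
    have hlle : p.lam i ≤ p.lam I * (1 / 2) ^ (I - i) := by
      obtain ⟨m, rfl⟩ : ∃ m, I = i + m := ⟨I - i, by omega⟩
      have e1 : i + m - i = m := by omega
      rw [e1, Rem864.lam_add, mul_assoc, ← mul_pow]
      have e2 : (1 : ℝ) ≤ (p.A * (1 / 2)) ^ m := one_le_pow₀ (by linarith [hp.A_ge])
      nlinarith
    have hρ2 : 64 * 1 / p.rho ^ 2 ≤ 1 / 4 := by
      have hr0 : 256 ≤ p.rho ^ 2 := by nlinarith [hp.rho_ge]
      rw [div_le_iff₀ (by linarith)]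
      linarith
    have hall := Fl597.le_D hp (V := V.rot v s) (i := i) (μ := μ)
      (c := D p V i μ - p.lam i * C9 * BB V v i - C9 * p.lam I * (1 / 2) ^ (I - i) - ε)
      (fun K' hK' => by
        have hmain := lev_main hp hv hs0 hs1 hsb hr ⟨hKa, hKv⟩ hK' hv le_rfl (by norm_num) hτe
          (h := 1) (t := t) zero_le_one le_rfl (fun hlt => absurd hlt (lt_irrefl _)) htp
        have m1 := mul_le_mul_of_nonneg_left hρ2 hlam.le
        have m2 : p.lam i * (sb * BB V v i) ≤ p.lam i * (C9 * BB V v i) :=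
          mul_le_mul_of_nonneg_left (mul_le_mul_of_nonneg_right (by linarith) hBB) hlam.le
        have m3 : 9 * (p.lam I * (1 / 2) ^ (I - i)) ≤ C9 * (p.lam I * (1 / 2) ^ (I - i)) :=
          mul_le_mul_of_nonneg_right hC (by positivity)
        have e0 : ((0 : ℝ) / 2 - (0 + 4 * 0 ^ 2) / 2 *
            ((∫ x in V.H i ⁻¹' K, ⟪v, x⟫ ^ 2 ∂(stdGaussian E)) /
            (stdGaussian E).real (V.H i ⁻¹' K))) = 0 := by ring
        rw [e0] at hmain
        linarith)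
    linarith

/-- **Target_LEV** -/
theorem target_lev : Target_LEV := by
  intro c' dl hc0 hc1 hdl
  have hs0 : 0 < c' / 8 := by positivity
  have hs1 : c' / 8 < 1 := by linarith
  have hsb0 := sb_pos hs0 hs1
  have hsb : 2 * (c' / 8) - (c' / 8) ^ 2 ≤ c' / 4 := by nlinarith [sq_nonneg (c' / 8)]
  have hq : 0 < (2 * (c' / 8) - (c' / 8) ^ 2) * c' := mul_pos hsb0 hc0
  have hC0 : 0 < 448 / ((2 * (c' / 8) - (c' / 8) ^ 2) * c') := by positivity
  refine ⟨c' / 8, (2 * (c' / 8) - (c' / 8) ^ 2) * c' / 16,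
    448 / ((2 * (c' / 8) - (c' / 8) ^ 2) * c') + 9, 4096 / c', hs0, hs1, by positivity,
    by linarith, fun d p hp hρ => ⟨?_, ?_⟩⟩
  · refine lev_hi hp hc0 hc1 hdl hs0 hs1 hsb ?_ (by linarith) (by linarith)
    have h1 : 1 ≤ p.rho := by linarith [hp.rho_ge]
    nlinarith
  · exact lev_lo hp hs0 hs1 (by linarith) (by linarith)

end Crest.Agent.R239.Lev646
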