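import Mathlib
import Crest.Agent.R239.Mix1_614
import Crest.Agent.R239.CmpR_174
import Crest.Agent.R239.Dom_640
import Crest.Agent.R239.Rem_603

/-! R239, block F6 (helper772): the flag free part of the uniform one-level comparison
(all cuts after the comparison, under the stretched law). -/

set_option autoImplicit false
set_option linter.unusedSectionVars false

open MeasureTheory ProbabilityTheory Set Filter Topology
open scoped RealInnerProductSpace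

namespace Crest.Agent.R239.LevU772

open Crest.Agent.R239
open Crest.Agent.R239.Mix1_614 (scl mix1)
open Crest.Agent.R239.CmpR174 (Sc Sc_apply inner_Sc_comm norm_Sc_sq inner_n_Sc)
open Crest.Agent.R239.Dom640

variable {E : Type*} [NormedAddCommGroup E] [InnerProductSpace ℝ E] [FiniteDimensional ℝ E]
  [MeasurableSpace E] [BorelSpace E]
variable {G : Type*} [NormedAddCommGroup G] [InnerProductSpace ℝ G] [FiniteDimensional ℝ G]
  [MeasurableSpace G] [BorelSpace G]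

/-! ### radial cut -/

/-- `∫ ‖B x‖² = 0` only for `B = 0` -/
lemma eq_zero_of_integral (B : E →L[ℝ] G) (h : ∫ x, ‖B x‖ ^ 2 ∂(stdGaussian E) ≤ 0) (x : E) :
    B x = 0 := by
  rw [integral_norm_sq] at h
  have h1 : ∀ i, B.adjoint (stdOrthonormalBasis ℝ G i) = 0 := by
    intro i
    have h2 := Finset.single_le_sum (f := fun i => ‖B.adjoint (stdOrthonormalBasis ℝ G i)‖ ^ 2)
      (fun i _ => sq_nonneg _) (Finset.mem_univ i)
    have h3 : ‖B.adjoint (stdOrthonormalBasis ℝ G i)‖ ^ 2 ≤ 0 := h2.trans h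
    have h4 : ‖B.adjoint (stdOrthonormalBasis ℝ G i)‖ = 0 := by
      nlinarith [norm_nonneg (B.adjoint (stdOrthonormalBasis ℝ G i))]
    exact norm_eq_zero.1 h4
  have h2 : ‖B x‖ ^ 2 = 0 := by
    rw [norm_sq_eq_sum]
    refine Finset.sum_eq_zero fun i _ => ?_
    rw [h1 i, inner_zero_left]; ring
  exact norm_eq_zero.1 (pow_eq_zero_iff two_ne_zero |>.1 h2)

/-- the cap cut: the cost is `(1 - 4e)^(min 1 (2h))` -/
theorem rad_cut {Q : Set E} (hQ : MeasurableSet Q) (cQ : Convex ℝ Q) (sQ : ∀ x ∈ Q, -x ∈ Q)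
    (B : E →L[ℝ] G) {R0 e h : ℝ} (hR0 : 0 ≤ R0) (he0 : 0 ≤ e) (he : e ≤ 1 / 8)
    (hB : ∫ x, ‖B x‖ ^ 2 ∂(stdGaussian E) ≤ e * R0 ^ 2) (hh : 0 ≤ h)
    (hcap : ∀ x ∈ Q, (1 - h) * ‖B x‖ ^ 2 ≤ R0 ^ 2) :
    Real.exp (-(16 * e * min (1 / 2) h)) * (stdGaussian E).real Q
      ≤ (stdGaussian E).real (Q ∩ {x | ‖B x‖ ≤ R0}) := by
  have hQ0 : 0 ≤ (stdGaussian E).real Q := measureReal_nonneg
  have hmin : 0 ≤ min (1 / 2) h := le_min (by norm_num) hh
  rcases eq_or_lt_of_le hR0 with h0 | hpos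
  · -- degenerate
    have hz : ∀ x, B x = 0 := eq_zero_of_integral B (by rw [← h0] at hB; simpa using hB)
    have : Q ∩ {x | ‖B x‖ ≤ R0} = Q := by
      ext x
      simp only [mem_inter_iff, mem_ofPred_eq, hz x, norm_zero, hR0, and_true]
    rw [this]
    have h1 : Real.exp (-(16 * e * min (1 / 2) h)) ≤ 1 := by
      rw [Real.exp_le_one_iff]
      have : 0 ≤ 16 * e * min (1 / 2) h := by positivity
      linarith
    nlinarith
  have hm : ∀ r : ℝ, MeasurableSet {x : E | ‖B x‖ ≤ r} := fun r =>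
    measurableSet_le B.continuous.norm.measurable measurable_const
  -- the half cut
  have hK := cut hQ cQ sQ B (r := R0 / 2) (by positivity)
  have h4e : (∫ x, ‖B x‖ ^ 2 ∂(stdGaussian E)) / (R0 / 2) ^ 2 ≤ 4 * e := by
    rw [div_le_iff₀ (by positivity)]
    nlinarith
  have hK' : (1 - 4 * e) * (stdGaussian E).real Q
      ≤ (stdGaussian E).real (Q ∩ {x | ‖B x‖ ≤ R0 / 2}) :=
    le_trans (mul_le_mul_of_nonneg_right (by linarith) hQ0) hK
  have hlog : Real.exp (-(8 * e)) ≤ 1 - 4 * e := by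
    have h1 : Real.exp (-(8 * e)) = (Real.exp (8 * e))⁻¹ := Real.exp_neg _
    rw [h1]
    have h2 : 1 + 8 * e ≤ Real.exp (8 * e) := by
      have := Real.add_one_le_exp (8 * e); linarith
    rw [inv_le_comm₀ (Real.exp_pos _) (by linarith)]
    refine le_trans ?_ h2
    rw [inv_le_iff_one_le_mul₀ (by linarith)]
    nlinarith
  have hK2 : Real.exp (-(8 * e)) * (stdGaussian E).real Q
      ≤ (stdGaussian E).real (Q ∩ {x | ‖B x‖ ≤ R0 / 2}) :=
    le_trans (mul_le_mul_of_nonneg_right hlog hQ0) hK'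
  rcases le_or_gt (1 / 2) h with hbig | hsmall
  · rw [min_eq_left hbig]
    have e1 : -(16 * e * (1 / 2)) = -(8 * e) := by ring
    rw [e1]
    refine hK2.trans (measureReal_mono ?_)
    intro x hx
    have h2 : ‖B x‖ ≤ R0 / 2 := hx.2
    exact ⟨hx.1, show ‖B x‖ ≤ R0 by linarith⟩
  rw [min_eq_right hsmall.le]
  rcases eq_or_lt_of_le hh with h00 | hhpos
  · -- h = 0
    have : Q ∩ {x | ‖B x‖ ≤ R0} = Q := by
      ext x
      simp only [mem_inter_iff, mem_ofPred_eq, and_iff_left_iff_imp]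
      intro hx
      have h1 := hcap x hx
      rw [← h00, sub_zero, one_mul] at h1
      exact (pow_le_pow_iff_left₀ (norm_nonneg _) hR0 two_ne_zero).1 h1
    rw [this, ← h00]
    simp
  -- main case `0 < h < 1/2`, exponent `2h`
  rcases eq_or_lt_of_le hQ0 with hQz | hQpos
  · rw [← hQz, mul_zero]; exact measureReal_nonneg
  have hpr := pr_real (E := E) (t := 1 - 2 * h) (by linarith) (by linarith)
    (A := Q ∩ {x | ‖B x‖ ≤ R0 / 2}) (B := Q) (C := Q ∩ {x | ‖B x‖ ≤ R0})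
    (hQ.inter (hm _)) hQ (hQ.inter (hm _)) (by
      intro x hx y hy
      have e1 : 1 - (1 - 2 * h) = 2 * h := by ring
      rw [e1]
      refine ⟨cQ hx.1 hy (by linarith) (by linarith) (by ring), ?_⟩
      simp only [mem_ofPred_eq]
      have hy2 : ‖B y‖ ≤ (1 - h) / (1 - 2 * h) * R0 := by
        have h1 := hcap y hy
        have h3 : ‖B y‖ ^ 2 ≤ ((1 - h) / (1 - 2 * h) * R0) ^ 2 := by
          have h4 : ‖B y‖ ^ 2 ≤ R0 ^ 2 / (1 - h) := by
            rw [le_div_iff₀ (by linarith)]; linarith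
          refine h4.trans ?_
          rw [mul_pow, div_pow, div_le_iff₀ (by linarith)]
          have h5' : 0 < 1 - 2 * h := by linarith
          have h5 : 0 < (1 - 2 * h) ^ 2 := by positivity
          have h6 : (1 - 2 * h) ^ 2 ≤ (1 - h) ^ 2 * (1 - h) := by nlinarith [mul_pos hhpos hhpos]
          have h7 : (1:ℝ) ≤ (1 - h) ^ 2 / (1 - 2 * h) ^ 2 * (1 - h) := by
            rw [div_mul_eq_mul_div, le_div_iff₀ h5]; linarith
          have hR2 : 0 ≤ R0 ^ 2 := sq_nonneg _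
          nlinarith
        have h5 : 0 ≤ (1 - h) / (1 - 2 * h) * R0 := by
          have : 0 < 1 - 2 * h := by linarith
          have : 0 < 1 - h := by linarith
          positivity
        exact (pow_le_pow_iff_left₀ (norm_nonneg _) h5 two_ne_zero).1 h3
      calc ‖B ((2 * h) • x + (1 - 2 * h) • y)‖ ≤ 2 * h * ‖B x‖ + (1 - 2 * h) * ‖B y‖ := by
            rw [map_add, map_smul, map_smul]
            refine (norm_add_le _ _).trans ?_
            rw [norm_smul, norm_smul, Real.norm_of_nonneg (by linarith : (0:ℝ) ≤ 2 * h),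
              Real.norm_of_nonneg (by linarith : (0:ℝ) ≤ 1 - 2 * h)]
        _ ≤ 2 * h * (R0 / 2) + (1 - 2 * h) * ((1 - h) / (1 - 2 * h) * R0) := by
            have h1 : 0 ≤ 2 * h := by linarith
            have h2 : 0 ≤ 1 - 2 * h := by linarith
            exact add_le_add (mul_le_mul_of_nonneg_left hx.2 h1) (mul_le_mul_of_nonneg_left hy2 h2)
        _ = R0 := by
            have : 1 - 2 * h ≠ 0 := by linarith
            field_simp
            ring)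
  have e2 : 1 - (1 - 2 * h) = 2 * h := by ring
  rw [e2] at hpr
  refine le_trans ?_ hpr
  have h1 : (Real.exp (-(8 * e)) * (stdGaussian E).real Q) ^ (2 * h)
      ≤ ((stdGaussian E).real (Q ∩ {x | ‖B x‖ ≤ R0 / 2})) ^ (2 * h) :=
    Real.rpow_le_rpow (by positivity) hK2 (by linarith)
  refine le_trans ?_ (mul_le_mul_of_nonneg_right h1 (Real.rpow_nonneg hQ0 _))
  rw [Real.mul_rpow (Real.exp_pos _).le hQ0, mul_assoc (Real.exp (-(8 * e)) ^ (2 * h)),
    ← Real.rpow_add hQpos]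
  have e3 : 2 * h + (1 - 2 * h) = 1 := by ring
  rw [e3, Real.rpow_one, ← Real.exp_mul]
  have e4 : -(8 * e) * (2 * h) = -(16 * e * h) := by ring
  rw [e4]

/-! ### the stretched law -/

lemma scl_eq (n : E) (c : ℝ) (x : E) : scl n c x = Sc n c x := by
  rw [Sc_apply]; rfl

lemma norm_Sc_le {n : E} (hn : ‖n‖ = 1) {c : ℝ} (hc : 1 ≤ c ^ 2) (x : E) :
    ‖Sc n c x‖ ^ 2 ≤ c ^ 2 * ‖x‖ ^ 2 := by
  rw [norm_Sc_sq hn]
  have h1 : ⟪n, x⟫ ^ 2 ≤ ‖x‖ ^ 2 := by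
    have := abs_real_inner_le_norm n x
    rw [hn, one_mul] at this
    rw [← sq_abs ⟪n, x⟫]
    exact pow_le_pow_left₀ (abs_nonneg _) this 2
  nlinarith

lemma adjoint_Sc (n : E) (c : ℝ) (x : E) : (Sc n c).adjoint x = Sc n c x := by
  apply ext_inner_right ℝ
  intro y
  rw [ContinuousLinearMap.adjoint_inner_left, inner_Sc_comm]

/-- second moments grow by at most `c²` -/
lemma integral_Sc {n : E} (hn : ‖n‖ = 1) {c : ℝ} (hc : 1 ≤ c ^ 2) (B : E →L[ℝ] G) :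
    ∫ x, ‖(B ∘L Sc n c) x‖ ^ 2 ∂(stdGaussian E) ≤ c ^ 2 * ∫ x, ‖B x‖ ^ 2 ∂(stdGaussian E) := by
  rw [integral_norm_sq, integral_norm_sq, Finset.mul_sum]
  refine Finset.sum_le_sum fun i _ => ?_
  rw [ContinuousLinearMap.adjoint_comp, ContinuousLinearMap.comp_apply, adjoint_Sc]
  exact norm_Sc_le hn hc _

/-- slabs have positive mass -/
lemma slab_pos' (w : E) {t : ℝ} (ht : 0 < t) : 0 < (stdGaussian E).real {x | |⟪w, x⟫| ≤ t} := by
  have hw : 0 < 1 + ‖w‖ := by positivity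
  have e1 : {x : E | |⟪w, x⟫| ≤ t} = {x : E | |⟪(1 + ‖w‖)⁻¹ • w, x⟫| ≤ t / (1 + ‖w‖)} := by
    ext x
    simp only [mem_ofPred_eq, inner_smul_left, conj_trivial, abs_mul, abs_inv, abs_of_pos hw]
    rw [inv_mul_le_iff₀ hw, mul_div_cancel₀ _ hw.ne']
  rw [e1, Rem603.slab_std]
  apply Rem603.slab_pos _ (by positivity)
  rw [← NNReal.coe_le_coe]
  push_cast
  have h1 : ‖(1 + ‖w‖)⁻¹ • w‖ ≤ 1 := by
    rw [norm_smul, norm_inv, Real.norm_of_nonneg hw.le, inv_mul_le_iff₀ hw]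
    linarith
  exact pow_le_one₀ (norm_nonneg _) h1

lemma convex_slab (w : E) (t : ℝ) : Convex ℝ {x : E | |⟪w, x⟫| ≤ t} := by
  intro x hx y hy a b ha hb hab
  simp only [mem_ofPred_eq] at hx hy ⊢
  rw [inner_add_right, inner_smul_right, inner_smul_right]
  calc |a * ⟪w, x⟫ + b * ⟪w, y⟫| ≤ |a * ⟪w, x⟫| + |b * ⟪w, y⟫| := abs_add_le _ _
    _ = a * |⟪w, x⟫| + b * |⟪w, y⟫| := by
        rw [abs_mul, abs_mul, abs_of_nonneg ha, abs_of_nonneg hb]
    _ ≤ a * t + b * t := add_le_add (mul_le_mul_of_nonneg_left hx ha)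
        (mul_le_mul_of_nonneg_left hy hb)
    _ = t := by rw [← add_mul, hab, one_mul]

/-- comparison, slab, cap, one after the other -/
lemma chain {L : E →L[ℝ] E} {ι : Type*} {J : Finset ι} {u : ι → E}
    (hL : ∀ g, ‖L g‖ ^ 2 ≤ ‖g‖ ^ 2 + ∑ k ∈ J, ⟪u k, g⟫ ^ 2)
    {B : Set E} (hBc : IsClosed B) (hBv : Convex ℝ B) (hBs : ∀ x ∈ B, -x ∈ B) (w : E) (t : ℝ)
    (Y : E →L[ℝ] G) {R0 e h : ℝ} (hR0 : 0 ≤ R0) (he0 : 0 ≤ e) (he : e ≤ 1 / 8)
    (hY : ∫ x, ‖Y x‖ ^ 2 ∂(stdGaussian E) ≤ e * R0 ^ 2) (hh : 0 ≤ h)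
    (hcap : ∀ g, L g ∈ B → (1 - h) * ‖Y g‖ ^ 2 ≤ R0 ^ 2) :
    Real.exp (-(16 * e * min (1 / 2) h)) * (Real.exp (-((∑ k ∈ J, ‖u k‖ ^ 2) / 2)) *
      (stdGaussian E).real B * (stdGaussian E).real {x | |⟪w, x⟫| ≤ t})
      ≤ (stdGaussian E).real (L ⁻¹' B ∩ {x | |⟪w, x⟫| ≤ t} ∩ {x | ‖Y x‖ ≤ R0}) := by
  have hBm : MeasurableSet B := hBc.measurableSet
  have hcmp := CmpR174.cmp J u L hL hBm hBv hBs
  have m1 : MeasurableSet (L ⁻¹' B) := L.continuous.measurable hBm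
  have c1 : Convex ℝ (L ⁻¹' B) := hBv.linear_preimage (L : E →ₗ[ℝ] E)
  have s1 : ∀ x ∈ L ⁻¹' B, -x ∈ L ⁻¹' B := by
    intro x hx
    simp only [mem_preimage, map_neg]
    exact hBs _ hx
  have hsl := slab_real m1 c1 s1 w t
  have m2 : MeasurableSet (L ⁻¹' B ∩ {x | |⟪w, x⟫| ≤ t}) := m1.inter (measurableSet_slab _ _)
  have c2 : Convex ℝ (L ⁻¹' B ∩ {x | |⟪w, x⟫| ≤ t}) := c1.inter (convex_slab w t)
  have s2 : ∀ x ∈ L ⁻¹' B ∩ {x | |⟪w, x⟫| ≤ t}, -x ∈ L ⁻¹' B ∩ {x | |⟪w, x⟫| ≤ t} := by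
    intro x hx
    refine ⟨s1 x hx.1, ?_⟩
    simp only [mem_ofPred_eq, inner_neg_right, abs_neg]
    exact hx.2
  have hcut := rad_cut m2 c2 s2 Y hR0 he0 he hY hh (fun x hx => hcap x hx.1)
  refine le_trans ?_ hcut
  refine mul_le_mul_of_nonneg_left ?_ (Real.exp_pos _).le
  exact le_trans (mul_le_mul_of_nonneg_right hcmp measureReal_nonneg) hsl

/-- **one-body inequality** of the uniform comparison: `R` the comparison map, `B` the competitor
(in the Gaussian coordinates of the tilted level), then the slab `|⟪a0, ·⟫| ≤ t` and the cap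
`‖Y ·‖ ≤ R0`. -/
theorem one_body {R : E →L[ℝ] E} {n : E} (hn : ‖n‖ = 1) {τ : ℝ} (hτ0 : 0 ≤ τ) (hτ : τ ≤ 1 / 4)
    {ι : Type*} {J : Finset ι} {u : ι → E}
    (hN : ∀ g, ‖R g‖ ^ 2 + τ * ⟪n, g⟫ ^ 2 ≤ ‖g‖ ^ 2 + ∑ k ∈ J, ⟪u k, g⟫ ^ 2)
    {B : Set E} (hBc : IsClosed B) (hBv : Convex ℝ B) (hBs : ∀ x ∈ B, -x ∈ B)
    (hBp : 0 < (stdGaussian E).real B)
    (a0 : E) {t : ℝ} (ht : 0 < t)
    (Y : E →L[ℝ] G) {R0 e h : ℝ} (hR0 : 0 ≤ R0) (he0 : 0 ≤ e) (he : e ≤ 3 / 32)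
    (hY : ∫ x, ‖Y x‖ ^ 2 ∂(stdGaussian E) ≤ e * R0 ^ 2) (hh : 0 ≤ h)
    (hcap : ∀ g, R g ∈ B → (1 - h) * ‖Y g‖ ^ 2 ≤ R0 ^ 2) :
    0 < (stdGaussian E).real ({g | R g ∈ B} ∩ {g | |⟪a0, g⟫| ≤ t} ∩ {g | ‖Y g‖ ≤ R0}) ∧
    ∀ K : Set E, MeasurableSet K → 0 < (stdGaussian E).real K → ∀ W : Set E, IsClosed W →
      (∀ x ∈ K, ∀ y ∈ ({g | R g ∈ B} ∩ {g | |⟪a0, g⟫| ≤ t} ∩ {g | ‖Y g‖ ≤ R0}),
        (1 / 2 : ℝ) • x + (1 / 2 : ℝ) • y ∈ W) →
      Real.log ((stdGaussian E).real K)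
        + (Real.log ((stdGaussian E).real B) - ∑ k ∈ J, ‖u k‖ ^ 2
          + Real.log ((stdGaussian E).real {x | |⟪Sc n (1 / Real.sqrt (1 - τ)) a0, x⟫| ≤ t})
          - 64 / 3 * e * min (1 / 2) h
          + τ / 2 * (1 - (1 + 4 * τ) *
            ((∫ x in K, ⟪n, x⟫ ^ 2 ∂(stdGaussian E)) / (stdGaussian E).real K)))
        ≤ 2 * Real.log ((stdGaussian E).real W) := by
  set c : ℝ := 1 / Real.sqrt (1 - τ) with hc
  set A : E →L[ℝ] E := Sc n c with hA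
  set Q : Set E := {g | R g ∈ B} ∩ {g | |⟪a0, g⟫| ≤ t} ∩ {g | ‖Y g‖ ≤ R0} with hQ
  have h1τ : 0 < 1 - τ := by linarith
  have hc2 : c ^ 2 * (1 - τ) = 1 := by
    rw [hc, div_pow, one_pow, Real.sq_sqrt h1τ.le]; field_simp
  have hc1 : 1 ≤ c ^ 2 := by nlinarith [sq_nonneg c]
  have hc43 : c ^ 2 ≤ 4 / 3 := by nlinarith [sq_nonneg c]
  have hBm : MeasurableSet B := hBc.measurableSet
  have htp : 0 < (stdGaussian E).real {x | |⟪A a0, x⟫| ≤ t} := slab_pos' _ ht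
  have hchain := chain (L := R ∘L A) (J := J) (u := fun k => A (u k)) (by
    intro g
    have h1 := hN (A g)
    rw [norm_Sc_sq hn, inner_n_Sc hn] at h1
    have h2 : ∀ k, ⟪u k, A g⟫ = ⟪A (u k), g⟫ := fun k => by rw [hA, inner_Sc_comm]
    simp only [h2] at h1
    have h3 : ‖g‖ ^ 2 + (c ^ 2 - 1) * ⟪n, g⟫ ^ 2 - τ * (c * ⟪n, g⟫) ^ 2 = ‖g‖ ^ 2 := by
      linear_combination ⟪n, g⟫ ^ 2 * hc2
    rw [ContinuousLinearMap.comp_apply]
    linarith) hBc hBv hBs (A a0) t (Y ∘L A) (R0 := R0) (e := 4 / 3 * e) (h := h) hR0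
    (by positivity) (by linarith) (by
      refine (integral_Sc hn hc1 Y).trans ?_
      have h0 : 0 ≤ ∫ x, ‖Y x‖ ^ 2 ∂(stdGaussian E) := integral_nonneg fun x => sq_nonneg _
      calc c ^ 2 * ∫ x, ‖Y x‖ ^ 2 ∂(stdGaussian E) ≤ 4 / 3 * ∫ x, ‖Y x‖ ^ 2 ∂(stdGaussian E) :=
            mul_le_mul_of_nonneg_right hc43 h0
        _ ≤ 4 / 3 * (e * R0 ^ 2) := mul_le_mul_of_nonneg_left hY (by norm_num)
        _ = 4 / 3 * e * R0 ^ 2 := by ring) hh (fun g hg => hcap _ hg)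
  have hsum : (∑ k ∈ J, ‖A (u k)‖ ^ 2) / 2 ≤ ∑ k ∈ J, ‖u k‖ ^ 2 := by
    have h1 : ∑ k ∈ J, ‖A (u k)‖ ^ 2 ≤ ∑ k ∈ J, 4 / 3 * ‖u k‖ ^ 2 := by
      refine Finset.sum_le_sum fun k _ => (norm_Sc_le hn hc1 _).trans ?_
      exact mul_le_mul_of_nonneg_right hc43 (sq_nonneg _)
    rw [← Finset.mul_sum] at h1
    have h2 : 0 ≤ ∑ k ∈ J, ‖u k‖ ^ 2 := Finset.sum_nonneg fun k _ => sq_nonneg _
    linarith
  -- identification of the cut body
  have hid : {x | scl n c x ∈ Q}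
      = (R ∘L A) ⁻¹' B ∩ {x | |⟪A a0, x⟫| ≤ t} ∩ {x | ‖(Y ∘L A) x‖ ≤ R0} := by
    ext x
    simp only [hQ, mem_ofPred_eq, mem_inter_iff, scl_eq, mem_preimage,
      ContinuousLinearMap.comp_apply]
    rw [← hA, ← inner_Sc_comm, ← hA]
  set b0 := (stdGaussian E).real B with hb0
  set sl := (stdGaussian E).real {x | |⟪A a0, x⟫| ≤ t} with hsl0
  set cc := 64 / 3 * e * min (1 / 2) h with hcc
  have hlow : Real.exp (-cc) * ((Real.exp (-∑ k ∈ J, ‖u k‖ ^ 2) * b0) * sl)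
      ≤ (stdGaussian E).real {x | scl n c x ∈ Q} := by
    rw [hid]
    refine le_trans ?_ hchain
    have e1 : 16 * (4 / 3 * e) * min (1 / 2) h = cc := by rw [hcc]; ring
    rw [e1]
    refine mul_le_mul_of_nonneg_left ?_ (Real.exp_pos _).le
    refine mul_le_mul_of_nonneg_right ?_ htp.le
    exact mul_le_mul_of_nonneg_right (Real.exp_le_exp.2 (by linarith)) hBp.le
  have hlowpos : 0 < Real.exp (-cc) * ((Real.exp (-∑ k ∈ J, ‖u k‖ ^ 2) * b0) * sl) := by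
    positivity
  have hQm : MeasurableSet Q := by
    refine ((R.continuous.measurable hBm).inter (measurableSet_slab _ _)).inter ?_
    exact measurableSet_le Y.continuous.norm.measurable measurable_const
  have hlogQ : -cc + (-∑ k ∈ J, ‖u k‖ ^ 2 + Real.log b0 + Real.log sl)
      ≤ Real.log ((stdGaussian E).real {x | scl n c x ∈ Q}) := by
    have h1 := Real.log_le_log hlowpos hlow
    rwa [Real.log_mul (Real.exp_ne_zero _) (by positivity), Real.log_exp,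
      Real.log_mul (by positivity) htp.ne', Real.log_mul (Real.exp_ne_zero _) hBp.ne',
      Real.log_exp] at h1
  constructor
  · have h2 := chain (L := R) (J := J) (u := u) (by
      intro g
      have h1 := hN g
      have h2 : 0 ≤ τ * ⟪n, g⟫ ^ 2 := by positivity
      linarith) hBc hBv hBs a0 t Y hR0 he0 (by linarith) hY hh hcap
    refine lt_of_lt_of_le ?_ h2
    have := slab_pos' a0 ht
    positivity
  intro K hKm hKp W hWc hW
  have hmix := mix1 hKm hQm hWc.measurableSet hW hn hτ0 hτ hKp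
  rw [← hc] at hmix
  have hq1 := lt_of_lt_of_le hlowpos hlow
  have hlog2 := Real.log_le_log (mul_pos (mul_pos hKp hq1) (Real.exp_pos _)) hmix
  rw [Real.log_mul (mul_pos hKp hq1).ne' (Real.exp_ne_zero _), Real.log_exp,
    Real.log_mul hKp.ne' hq1.ne', Real.log_pow] at hlog2
  push_cast at hlog2
  have e5 : τ / 2 - (τ + 4 * τ ^ 2) / 2 *
      ((∫ x in K, ⟪n, x⟫ ^ 2 ∂(stdGaussian E)) / (stdGaussian E).real K)
      = τ / 2 * (1 - (1 + 4 * τ) *
            ((∫ x in K, ⟪n, x⟫ ^ 2 ∂(stdGaussian E)) / (stdGaussian E).real K)) := by ring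
  rw [e5] at hlog2
  linarith

end Crest.Agent.R239.LevU772
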