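import Crest.Agent.R239.FDef
import Crest.Agent.R239.Fl_597
import Crest.Agent.R239.RemLev_864

/-! R239 / S0370, Target_LEV, numeric end (helper746): from 772's uniform one-level inequality
(LEVU) to `Target_LEV`. -/

set_option autoImplicit false
set_option linter.unusedSectionVars false
open MeasureTheory ProbabilityTheory Set
open scoped RealInnerProductSpace

namespace Crest.Agent.R239.TLev746

open Crest.Agent.R239 Crest.Agent.R239.FD

/-- 772's (LEVU) -/
def LEVU (E : Type*) [NormedAddCommGroup E] [InnerProductSpace ℝ E] [FiniteDimensional ℝ E]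
    [MeasurableSpace E] [BorelSpace E] : Prop :=
  ∀ (p : Par), p.Ok → ∀ (V : Flag E) (v : E) (s : ℝ) (i : ℕ) (a : ℝ), ‖v‖ = 1 → 0 < s → s < 1 →
    2 * s - s ^ 2 ≤ 1 / 2 → i < V.n → 0 ≤ a → a ≤ 1 →
    ∃ w : E, ‖w‖ ^ 2 ≤ (1 + a / 3) * V.b v i ∧
      ∀ (μ : Multiset E) (sl : ℝ) (K : Set E), NearOpt p V i μ K sl →
      ∀ K' : Set E, Adm p (V.rot v s) i K' → ∀ t : ℝ, 0 < t →
        D p V i μ ≤ val p (V.rot v s) i μ K' + s * t * S μ v
          + p.lam i * ((2 * s - s ^ 2) * BB V v i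
            - Real.log ((stdGaussian E).real {g : E | |⟪w, g⟫| ≤ t})
            + 22 / p.rho ^ 2 * min (1 / 2) ((2 * s - s ^ 2) * (2 * V.b v i + BB V v i))
            - a * (2 * s - s ^ 2) / 4 * (‖V.Q i v‖ ^ 2
              - (1 + 2 * a * (2 * s - s ^ 2) * ‖V.Q i v‖ ^ 2)
                * ((∫ x in K, ⟪V.Q i v, x⟫ ^ 2 ∂(gau (V.H i))) / (gau (V.H i)).real K)))
          + sl

variable {E : Type*} [NormedAddCommGroup E] [InnerProductSpace ℝ E] [FiniteDimensional ℝ E]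
  [MeasurableSpace E] [BorelSpace E]

/-! ### elementary facts -/

lemma b_nonneg (V : Flag E) (v : E) (i : ℕ) : 0 ≤ V.b v i := by
  unfold Flag.b; positivity

lemma norm_P_le (V : Flag E) (i : ℕ) (x : E) : ‖V.P i x‖ ≤ ‖x‖ :=
  Submodule.norm_starProjection_apply_le _ _

lemma b_le_one (V : Flag E) {v : E} (hv : ‖v‖ = 1) (i : ℕ) : V.b v i ≤ 1 := by
  unfold Flag.b
  have h : ‖V.P i v‖ ≤ 1 := by rw [← hv]; exact norm_P_le V i v
  nlinarith [norm_nonneg (V.P i v)]

lemma BB_nonneg (V : Flag E) (v : E) (i : ℕ) : 0 ≤ BB V v i := by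
  unfold BB
  exact Finset.sum_nonneg fun j _ => mul_nonneg (by positivity) (b_nonneg V v j)

lemma b_succ_le_BB (V : Flag E) (v : E) (i : ℕ) : V.b v (i + 1) ≤ BB V v i := by
  by_cases h : i + 1 < V.n
  · unfold BB
    have h1 : (25 / 8 : ℝ) ^ (i + 1 - i) * V.b v (i + 1)
        ≤ ∑ j ∈ Finset.Ico (i + 1) V.n, (25 / 8 : ℝ) ^ (j - i) * V.b v j := by
      apply Finset.single_le_sum (f := fun j => (25 / 8 : ℝ) ^ (j - i) * V.b v j)
      · intro j _
        exact mul_nonneg (by positivity) (b_nonneg V v j)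
      · simp [h]
    have h2 : i + 1 - i = 1 := by omega
    rw [h2] at h1
    have := b_nonneg V v (i + 1)
    linarith
  · have h1 : V.b v (i + 1) = 0 := by
      have h2 : V.P (i + 1) v ∈ V.M (i + 1) := Submodule.starProjection_apply_mem _ _
      rw [V.bot (i + 1) (by omega)] at h2
      have h3 : V.P (i + 1) v = 0 := (Submodule.mem_bot ℝ).1 h2
      unfold Flag.b
      rw [h3]
      simp
    rw [h1]
    exact BB_nonneg V v i

lemma norm_Q_sq (V : Flag E) (v : E) (i : ℕ) : ‖V.Q i v‖ ^ 2 = V.b v i - V.b v (i + 1) := by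
  have h : V.M (i + 1) ≤ V.M i := V.anti (Nat.le_succ i)
  have h1 : V.P (i + 1) v ∈ V.M (i + 1) := Submodule.starProjection_apply_mem _ _
  have h2 : ⟪V.P i v, V.P (i + 1) v⟫ = ‖V.P (i + 1) v‖ ^ 2 := by
    have e1 : ⟪v - V.P i v, V.P (i + 1) v⟫ = 0 := (V.M i).starProjection_inner_eq_zero v _ (h h1)
    have e2 : ⟪v - V.P (i + 1) v, V.P (i + 1) v⟫ = 0 :=
      (V.M (i + 1)).starProjection_inner_eq_zero v _ h1
    rw [inner_sub_left] at e1 e2
    rw [real_inner_self_eq_norm_sq] at e2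
    linarith
  have h3 : V.Q i v = V.P i v - V.P (i + 1) v := rfl
  rw [h3, norm_sub_sq_real, h2]
  unfold Flag.b
  ring

lemma Q_Q (V : Flag E) (v : E) (i : ℕ) : V.Q i (V.Q i v) = V.Q i v := by
  have h : V.M (i + 1) ≤ V.M i := V.anti (Nat.le_succ i)
  have a1 : V.P i (V.P i v) = V.P i v :=
    Submodule.starProjection_eq_self_iff.2 (Submodule.starProjection_apply_mem _ _)
  have a2 : V.P (i + 1) (V.P (i + 1) v) = V.P (i + 1) v :=
    Submodule.starProjection_eq_self_iff.2 (Submodule.starProjection_apply_mem _ _)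
  have a3 : V.P i (V.P (i + 1) v) = V.P (i + 1) v :=
    Submodule.starProjection_eq_self_iff.2 (h (Submodule.starProjection_apply_mem _ _))
  have a4 : V.P (i + 1) (V.P i v) = V.P (i + 1) v :=
    DFunLike.congr_fun (Submodule.starProjection_comp_starProjection_of_le h) v
  have h3 : ∀ x, V.Q i x = V.P i x - V.P (i + 1) x := fun x => rfl
  rw [h3 (V.Q i v), h3 v, map_sub, map_sub, a1, a2, a3, a4]
  abel

lemma S_nonneg (μ : Multiset E) (v : E) : 0 ≤ S μ v := by
  unfold S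
  apply Multiset.sum_nonneg
  intro y hy
  obtain ⟨z, _, rfl⟩ := Multiset.mem_map.1 hy
  exact abs_nonneg _

/-- thinness controls the energy in the direction `Q_i v` -/
lemma thin_Q {p : Par} {V : Flag E} {μ : Multiset E} {i : ℕ} {c' dl : ℝ}
    (hthin : ThinAt p V μ i c' dl) {K : Set E} (hK : NearOpt p V i μ K (dl * p.lam i)) (v : E) :
    (∫ x in K, ⟪V.Q i v, x⟫ ^ 2 ∂(gau (V.H i))) / (gau (V.H i)).real K
      ≤ (1 - c') * ‖V.Q i v‖ ^ 2 := by
  have hKp : 0 < (gau (V.H i)).real K := hK.1.2.2.2.2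
  by_cases hq : V.Q i v = 0
  · rw [hq]; simp
  have hqn : 0 < ‖V.Q i v‖ := norm_pos_iff.2 hq
  set n : E := ‖V.Q i v‖⁻¹ • V.Q i v with hn
  have hn1 : ‖n‖ = 1 := by
    rw [hn, norm_smul, norm_inv, norm_norm]
    exact inv_mul_cancel₀ hqn.ne'
  have hnQ : V.Q i n = n := by rw [hn, map_smul, Q_Q]
  have h := hthin K hK n hn1 hnQ
  have e : ∀ x : E, ⟪V.Q i v, x⟫ ^ 2 = ‖V.Q i v‖ ^ 2 * ⟪n, x⟫ ^ 2 := by
    intro x
    rw [hn, inner_smul_left]
    simp only [map_inv₀, RCLike.conj_to_real]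
    field_simp
  rw [div_le_iff₀ hKp]
  simp only [e]
  rw [integral_const_mul]
  nlinarith [sq_nonneg ‖V.Q i v‖, mul_le_mul_of_nonneg_left h (sq_nonneg ‖V.Q i v‖)]

lemma adjoint_id' : (ContinuousLinearMap.id ℝ E).adjoint = ContinuousLinearMap.id ℝ E := by
  symm
  rw [ContinuousLinearMap.eq_adjoint_iff]
  intro x y
  simp

/-! ### real inequalities -/

lemma gain_real {sb c' q EK : ℝ} (hsb0 : 0 < sb) (hc0 : 0 < c') (hc1 : c' < 1)
    (hsb : sb ≤ c' / 8) (hq0 : 0 ≤ q) (hq1 : q ≤ 1) (hE : EK ≤ (1 - c') * q) :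
    sb * c' / 8 * q ≤ 1 * sb / 4 * (q - (1 + 2 * 1 * sb * q) * EK) := by
  have h0 : 0 ≤ sb * q := mul_nonneg hsb0.le hq0
  have h1 : (1 + 2 * 1 * sb * q) * EK ≤ (1 + 2 * 1 * sb * q) * ((1 - c') * q) :=
    mul_le_mul_of_nonneg_left hE (by linarith)
  have h4 : sb * q ≤ c' / 8 := by
    calc sb * q ≤ sb * 1 := mul_le_mul_of_nonneg_left hq1 hsb0.le
      _ ≤ c' / 8 := by linarith
  have h3 : (1 + 2 * 1 * sb * q) * (1 - c') ≤ 1 - c' / 2 := by
    have h5 : 0 ≤ 2 * (sb * q) * c' := by positivity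
    linarith
  have h2 : (1 + 2 * 1 * sb * q) * ((1 - c') * q) ≤ (1 - c' / 2) * q := by
    have h6 := mul_le_mul_of_nonneg_right h3 hq0
    linarith
  have h7 : c' / 2 * q ≤ q - (1 + 2 * 1 * sb * q) * EK := by linarith
  have h8 := mul_le_mul_of_nonneg_left h7 (show 0 ≤ 1 * sb / 4 by linarith)
  linarith

lemma cap_real {sb c' b B r : ℝ} (hsb0 : 0 < sb) (hsb : sb ≤ 1 / 2) (hc0 : 0 < c') (hc1 : c' < 1)
    (hb : 0 ≤ b) (hB : 0 ≤ B) (hr : 0 < r) (hrho : 22 * 64 * 2 ≤ c' * r) :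
    22 / r * min (1 / 2) (sb * (2 * b + B)) ≤ sb * c' / 32 * b + 1 / 4 * B := by
  have h1 : 22 / r ≤ c' / 128 := by
    rw [div_le_iff₀ hr]; linarith
  have h2 : 0 ≤ sb * (2 * b + B) := by positivity
  have h5 : c' * sb ≤ 1 := by
    calc c' * sb ≤ 1 * 1 := mul_le_mul hc1.le (by linarith) hsb0.le zero_le_one
      _ = 1 := one_mul 1
  have h6 : c' * sb * B ≤ 1 * B := mul_le_mul_of_nonneg_right h5 hB
  have h7 : 0 ≤ sb * c' * b := by positivity
  calc 22 / r * min (1 / 2) (sb * (2 * b + B))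
      ≤ 22 / r * (sb * (2 * b + B)) :=
        mul_le_mul_of_nonneg_left (min_le_right _ _) (by positivity)
    _ ≤ c' / 128 * (sb * (2 * b + B)) := mul_le_mul_of_nonneg_right h1 h2
    _ ≤ _ := by linarith

lemma coef_real {sb c' q b B X G : ℝ} (hsb0 : 0 < sb) (hsb : sb ≤ 1 / 2) (hc0 : 0 < c')
    (hc1 : c' < 1) (hb : 0 ≤ b) (hB : 0 ≤ B) (hq : b - B ≤ q)
    (hX : X ≤ sb * c' / 32 * b + 1 / 4 * B) (hG : sb * c' / 8 * q ≤ G) :
    sb * B + X - G + sb * c' / 48 * b ≤ -(sb * c' / 16 * b) + 2 * B := by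
  have h2 : sb * c' / 8 * (b - B) ≤ sb * c' / 8 * q :=
    mul_le_mul_of_nonneg_left hq (by positivity)
  have h3 : sb * B ≤ 1 / 2 * B := mul_le_mul_of_nonneg_right hsb hB
  have h5 : sb * c' ≤ 1 := by
    calc sb * c' ≤ 1 * 1 := mul_le_mul (by linarith) hc1.le hc0.le zero_le_one
      _ = 1 := one_mul 1
  have h4 : sb * c' * B ≤ 1 * B := mul_le_mul_of_nonneg_right h5 hB
  have h7 : 0 ≤ sb * c' * b := by positivity
  linarith

/-! ### high levels -/

theorem lev_hi (hL : LEVU E) {p : Par} (hp : p.Ok) {V : Flag E} {μ : Multiset E} {v : E}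
    {I i : ℕ} (hv : ‖v‖ = 1) (hS : S μ v ≤ p.lam I) (hI : I < i) (hi : i < V.n) {c' dl s : ℝ}
    (hc0 : 0 < c') (hc1 : c' < 1) (hdl : 0 < dl) (hs0 : 0 < s) (hs1 : s < 1)
    (hsb : 2 * s - s ^ 2 ≤ c' / 8) (hrho : 22 * 64 * 2 ≤ c' * p.rho ^ 2)
    (hthin : ThinAt p V μ i c' dl) :
    D p V i μ + p.lam i * ((2 * s - s ^ 2) * c' / 16 * V.b v i - 2 * BB V v i)
      - (7 * 64 / ((2 * s - s ^ 2) * c')) * p.lam I * (1 / 2) ^ (i - I) ≤ D p (V.rot v s) i μ := by
  set sb : ℝ := 2 * s - s ^ 2 with hsbd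
  have hsb0 : 0 < sb := by rw [hsbd]; nlinarith
  have hsb2 : sb ≤ 1 / 2 := by linarith
  have hlam := Rem864.lam_pos hp i
  have hlamI := Rem864.lam_pos hp I
  obtain ⟨w, hw, hLw⟩ := hL p hp V v s i 1 hv hs0 hs1 hsb2 hi zero_le_one le_rfl
  set e : ℝ := sb * c' / 64 with he
  have he0 : 0 < e := by positivity
  have he1 : e ≤ 1 := by
    rw [he]
    have : sb * c' ≤ 1 * 1 := mul_le_mul (by linarith) hc1.le hc0.le zero_le_one
    linarith
  obtain ⟨t, ht0, htp, hrem⟩ := Rem864.rem_hi hp hI (S_nonneg μ v) hS hs0.le hs1.le he0 he1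
    (ContinuousLinearMap.id ℝ E) w
  rw [gau_id, adjoint_id'] at hrem
  have hw' : ‖(ContinuousLinearMap.id ℝ E) w‖ ^ 2 ≤ 4 / 3 * V.b v i := by
    simpa using hw.trans (by have := b_nonneg V v i; nlinarith)
  have hb0 := b_nonneg V v i
  have hBB0 := BB_nonneg V v i
  have hbs := b_succ_le_BB V v i
  have hQ := norm_Q_sq V v i
  have hQ0 : 0 ≤ ‖V.Q i v‖ ^ 2 := sq_nonneg _
  have hQ1 : ‖V.Q i v‖ ^ 2 ≤ 1 := by
    have := b_le_one V hv i
    have := b_nonneg V v (i + 1)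
    linarith
  have hrho0 : 0 < p.rho ^ 2 := by
    have := hp.rho_ge
    positivity
  apply le_of_forall_pos_le_add
  intro ε hε
  obtain ⟨K, hKa, hKv⟩ := Fl597.exists_near hp V i μ (e := min ε (dl * p.lam i))
    (lt_min hε (by positivity))
  have hKn1 : NearOpt p V i μ K (dl * p.lam i) := ⟨hKa, hKv.trans (by
    have := min_le_right ε (dl * p.lam i); linarith)⟩
  have hKn2 : NearOpt p V i μ K ε := ⟨hKa, hKv.trans (by
    have := min_le_left ε (dl * p.lam i); linarith)⟩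
  have hth := thin_Q hthin hKn1 v
  have key : ∀ K', Adm p (V.rot v s) i K' →
      D p V i μ + p.lam i * (sb * c' / 16 * V.b v i - 2 * BB V v i)
        - (7 * 64 / (sb * c')) * p.lam I * (1 / 2) ^ (i - I) - ε ≤ val p (V.rot v s) i μ K' := by
    intro K' hK'
    have h := hLw μ ε K hKn2 K' hK' t ht0
    have hgain := gain_real hsb0 hc0 hc1 hsb hQ0 hQ1 hth
    have hcap := cap_real hsb0 hsb2 hc0 hc1 hb0 hBB0 hrho0 hrho
    -- the slab
    have hslab : s * t * S μ v - p.lam i * Real.log ((stdGaussian E).real {g : E | |⟪w, g⟫| ≤ t})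
        ≤ p.lam i * (sb * c' / 48 * V.b v i)
          + (7 * 64 / (sb * c')) * p.lam I * (1 / 2) ^ (i - I) := by
      refine hrem.trans ?_
      have h1 : e * p.lam i * ‖(ContinuousLinearMap.id ℝ E) w‖ ^ 2
          ≤ p.lam i * (sb * c' / 48 * V.b v i) := by
        calc e * p.lam i * ‖(ContinuousLinearMap.id ℝ E) w‖ ^ 2
            ≤ e * p.lam i * (4 / 3 * V.b v i) :=
              mul_le_mul_of_nonneg_left hw' (by positivity)
          _ = _ := by rw [he]; ring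
      have h2 : 7 / e = 7 * 64 / (sb * c') := by
        rw [he]; field_simp
      rw [h2]
      linarith
    have hsum : D p V i μ ≤ val p (V.rot v s) i μ K' + (s * t * S μ v
        - p.lam i * Real.log ((stdGaussian E).real {g : E | |⟪w, g⟫| ≤ t}))
        + p.lam i * (sb * BB V v i
          + 22 / p.rho ^ 2 * min (1 / 2) (sb * (2 * V.b v i + BB V v i))
          - 1 * sb / 4 * (‖V.Q i v‖ ^ 2 - (1 + 2 * 1 * sb * ‖V.Q i v‖ ^ 2)
            * ((∫ x in K, ⟪V.Q i v, x⟫ ^ 2 ∂(gau (V.H i))) / (gau (V.H i)).real K))) + ε := by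
      refine h.trans (le_of_eq ?_)
      ring
    have hcoef := coef_real (q := ‖V.Q i v‖ ^ 2) hsb0 hsb2 hc0 hc1 hb0 hBB0
      (by rw [hQ]; linarith) hcap hgain
    have hm := mul_le_mul_of_nonneg_left hcoef hlam.le
    linarith
  have hfin := Fl597.le_D (V := V.rot v s) (i := i) (μ := μ) hp key
  linarith

/-! ### low levels -/

theorem lev_lo (hL : LEVU E) {p : Par} (hp : p.Ok) {V : Flag E} {μ : Multiset E} {v : E}
    {I i : ℕ} (hv : ‖v‖ = 1) (hS : S μ v ≤ p.lam I) (hI : i ≤ I) (hi : i < V.n) {s : ℝ}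
    (hs0 : 0 < s) (hs1 : s < 1) (hsb : 2 * s - s ^ 2 ≤ 1 / 2) :
    D p V i μ - p.lam i * 9 * BB V v i - 9 * p.lam I * (1 / 2) ^ (I - i)
      ≤ D p (V.rot v s) i μ := by
  set sb : ℝ := 2 * s - s ^ 2 with hsbd
  have hsb0 : 0 < sb := by rw [hsbd]; nlinarith
  have hlam := Rem864.lam_pos hp i
  have hlamI := Rem864.lam_pos hp I
  obtain ⟨w, hw, hLw⟩ := hL p hp V v s i 0 hv hs0 hs1 hsb hi le_rfl zero_le_one
  have hw4 : ‖(ContinuousLinearMap.id ℝ E).adjoint w‖ ^ 2 ≤ 4 := by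
    rw [adjoint_id']
    have h1 := b_le_one V hv i
    have h2 : ‖w‖ ^ 2 ≤ 1 := by
      refine hw.trans ?_
      linarith
    simpa using h2.trans (by norm_num)
  obtain ⟨t, ht0, htp, hrem⟩ := Rem864.rem_lo hp hI (S_nonneg μ v) hS hs0.le hs1.le
    (ContinuousLinearMap.id ℝ E) w hw4
  rw [gau_id] at hrem
  have hBB0 := BB_nonneg V v i
  have hrho0 : 0 < p.rho ^ 2 := by
    have := hp.rho_ge
    positivity
  have hlamle : p.lam i ≤ p.lam I * (1 / 2) ^ (I - i) := by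
    obtain ⟨m, rfl⟩ : ∃ m, I = i + m := ⟨I - i, by omega⟩
    have hm : i + m - i = m := by omega
    rw [hm, Rem864.lam_add, mul_assoc, ← mul_pow]
    have hA := hp.A_ge
    have h1 : (1 : ℝ) ≤ (p.A * (1 / 2)) ^ m := one_le_pow₀ (by linarith)
    nlinarith
  apply le_of_forall_pos_le_add
  intro ε hε
  obtain ⟨K, hKa, hKv⟩ := Fl597.exists_near hp V i μ (e := ε) hε
  have hKn : NearOpt p V i μ K ε := ⟨hKa, hKv⟩
  have key : ∀ K', Adm p (V.rot v s) i K' →
      D p V i μ - p.lam i * 9 * BB V v i - 9 * p.lam I * (1 / 2) ^ (I - i) - ε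
        ≤ val p (V.rot v s) i μ K' := by
    intro K' hK'
    have h := hLw μ ε K hKn K' hK' t ht0
    have hcap : 22 / p.rho ^ 2 * min (1 / 2) (sb * (2 * V.b v i + BB V v i)) ≤ 1 := by
      have h1 : 22 / p.rho ^ 2 ≤ 1 := by
        rw [div_le_one hrho0]
        have := hp.rho_ge
        nlinarith
      have h2 : 0 ≤ 22 / p.rho ^ 2 := by positivity
      calc 22 / p.rho ^ 2 * min (1 / 2) (sb * (2 * V.b v i + BB V v i))
          ≤ 22 / p.rho ^ 2 * (1 / 2) := mul_le_mul_of_nonneg_left (min_le_left _ _) h2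
        _ ≤ 1 := by linarith
    have h3 : sb * BB V v i ≤ 1 / 2 * BB V v i := mul_le_mul_of_nonneg_right hsb hBB0
    have hsum : D p V i μ ≤ val p (V.rot v s) i μ K' + (s * t * S μ v
        - p.lam i * Real.log ((stdGaussian E).real {g : E | |⟪w, g⟫| ≤ t}))
        + p.lam i * (sb * BB V v i
          + 22 / p.rho ^ 2 * min (1 / 2) (sb * (2 * V.b v i + BB V v i))) + ε := by
      refine h.trans (le_of_eq ?_)
      ring
    have hm : p.lam i * (sb * BB V v i
          + 22 / p.rho ^ 2 * min (1 / 2) (sb * (2 * V.b v i + BB V v i)))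
        ≤ p.lam i * (1 / 2 * BB V v i + 1) := mul_le_mul_of_nonneg_left (by linarith) hlam.le
    have hBl : 0 ≤ p.lam i * BB V v i := by positivity
    nlinarith
  have hfin := Fl597.le_D (V := V.rot v s) (i := i) (μ := μ) hp key
  linarith

/-! ### the target -/

theorem target_lev (hL : ∀ d : ℕ, LEVU (EuclideanSpace ℝ (Fin d))) : Target_LEV := by
  intro c' dl hc0 hc1 hdl
  -- `s = c' / 16`
  set s : ℝ := c' / 16 with hs
  have hs0 : 0 < s := by positivity
  have hs1 : s < 1 := by rw [hs]; linarith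
  set sb : ℝ := 2 * s - s ^ 2 with hsb
  have hsb0 : 0 < sb := by rw [hsb]; nlinarith
  have hsb8 : sb ≤ c' / 8 := by rw [hsb, hs]; nlinarith
  set C9 : ℝ := 9 + 7 * 64 / (sb * c') with hC9
  have hC9a : 9 ≤ C9 := by rw [hC9]; have : 0 < 7 * 64 / (sb * c') := by positivity
                           linarith
  have hC9b : 7 * 64 / (sb * c') ≤ C9 := by rw [hC9]; linarith
  refine ⟨s, sb * c' / 16, C9, 22 * 64 * 2 / c' + 1, hs0, hs1, by positivity, by linarith, ?_⟩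
  intro d p hp hrho
  have hrho2 : 22 * 64 * 2 ≤ c' * p.rho ^ 2 := by
    have h1 : 22 * 64 * 2 / c' ≤ p.rho := by linarith
    have h2 : 22 * 64 * 2 ≤ c' * p.rho := by
      rw [div_le_iff₀ hc0] at h1; linarith
    have h3 := hp.rho_ge
    have h4 : p.rho ≤ p.rho ^ 2 := by nlinarith
    nlinarith
  refine ⟨?_, ?_⟩
  · intro V μ v I i hv hS hI hi hthin
    have h := lev_hi (hL d) hp hv hS hI hi hc0 hc1 hdl hs0 hs1 hsb8 hrho2 hthin
    rw [← hsb] at h
    have hlam := Rem864.lam_pos hp i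
    have hlamI := Rem864.lam_pos hp I
    have hBB := BB_nonneg V v i
    have h1 : p.lam i * (2 * BB V v i) ≤ p.lam i * (C9 * BB V v i) := by
      apply mul_le_mul_of_nonneg_left _ hlam.le
      exact mul_le_mul_of_nonneg_right (by linarith) hBB
    have h2 : 7 * 64 / (sb * c') * p.lam I * (1 / 2) ^ (i - I)
        ≤ C9 * p.lam I * (1 / 2) ^ (i - I) := by
      apply mul_le_mul_of_nonneg_right _ (by positivity)
      exact mul_le_mul_of_nonneg_right hC9b hlamI.le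
    linarith
  · intro V μ v I i hv hS hI hi
    have h := lev_lo (hL d) hp hv hS hI hi hs0 hs1 (by rw [← hsb]; linarith)
    have hlam := Rem864.lam_pos hp i
    have hlamI := Rem864.lam_pos hp I
    have hBB := BB_nonneg V v i
    have h1 : p.lam i * 9 * BB V v i ≤ p.lam i * C9 * BB V v i := by
      apply mul_le_mul_of_nonneg_right _ hBB
      exact mul_le_mul_of_nonneg_left hC9a hlam.le
    have h2 : 9 * p.lam I * (1 / 2) ^ (I - i) ≤ C9 * p.lam I * (1 / 2) ^ (I - i) := by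
      apply mul_le_mul_of_nonneg_right _ (by positivity)
      exact mul_le_mul_of_nonneg_right hC9a hlamI.le
    linarith

end Crest.Agent.R239.TLev746
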