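import Mathlib
import Crest.Agent.R239.FDef
import Crest.Agent.R239.F6b_696
import Crest.Agent.R239.LevLo_696
import Crest.Agent.R239.LevUa_772
import Crest.Agent.R239.CapH_171
import Crest.Agent.R239.Cap_526
import Crest.Agent.R239.TLev_746

/-! R239, block F6 (helper696): assembly of 772's uniform one-level inequality (LEVU) over FDef and
`target_LEV`. -/

set_option autoImplicit false
set_option linter.unusedSectionVars false
open MeasureTheory ProbabilityTheory Set Filter Topology Pointwise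
open scoped RealInnerProductSpace

namespace Crest.Agent.R239.LevU696

open Crest.Agent.R239 (gau gau_real_apply)
open Crest.Agent.R239.FD
open Crest.Agent.R239.F6b696
open Crest.Agent.R239.F6core696 (mix mem_mix mix_preimage_subset Eh_mix)
open Crest.Agent.R239.CmpR174 (Sc norm_Sc_sq inner_n_Sc)

variable {E : Type*} [NormedAddCommGroup E] [InnerProductSpace ℝ E] [FiniteDimensional ℝ E]
  [MeasurableSpace E] [BorelSpace E]

/-- half sum inequality with a body `Q` given on the side of `V` -/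
theorem lev_halfQ {p : Par} (hlam : ∀ i, 0 ≤ p.lam i) {V : Flag E} {i : ℕ} {s t : ℝ} {v : E}
    (h0 : 0 ≤ s) {K K' Q : Set E} {sl : ℝ} {μ : Multiset E} (hK : NearOpt p V i μ K sl)
    (hK' : IsCompact K') (hQ : Adm p V i Q) (hQK : ∀ x ∈ Q, Ts v s x ∈ K')
    (hQt : ∀ x ∈ Q, |⟪v, x⟫| ≤ t) {L : ℝ}
    (hone : ∀ W : Set E, IsClosed W → (∀ x ∈ V.H i ⁻¹' K, ∀ y ∈ V.H i ⁻¹' Q,
      (1 / 2 : ℝ) • x + (1 / 2 : ℝ) • y ∈ W) →
      Real.log ((stdGaussian E).real (V.H i ⁻¹' K)) + L ≤ 2 * Real.log ((stdGaussian E).real W)) :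
    D p V i μ ≤ Eh K' μ + s * t * S μ v - p.lam i * L + sl := by
  have hcapC := AdmHalf606.cap_compact V i p.rho
  have hcapV := AdmHalf606.cap_convex V i p.rho
  have hE : Eh Q μ ≤ Eh K' μ + s * t * S μ v :=
    F6core696.Eh_pullback hK' ⟨0, zero_mem_of_adm hQ⟩ h0 (fun x => Ts_apply v s x) hQK hQt μ
  have hW := Adm_mix hcapC hcapV hK.1 hQ
  have hKc : IsCompact K := hcapC.of_isClosed_subset hK.1.1 hK.1.2.2.2.1
  have hQc : IsCompact Q := hcapC.of_isClosed_subset hQ.1 hQ.2.2.2.1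
  have h1 := D_le_val (μ := μ) hlam hW
  have hEm : Eh (mix (1 / 2) K Q) μ = (1 - 1 / 2) * Eh K μ + 1 / 2 * Eh Q μ :=
    Eh_mix (by norm_num) (by norm_num) hKc hQc ⟨0, zero_mem_of_adm hK.1⟩ ⟨0, zero_mem_of_adm hQ⟩ μ
  have hWcl : IsClosed (mix (1 / 2) K Q) := hW.1
  have h3 := hone (V.H i ⁻¹' mix (1 / 2) K Q) (hWcl.preimage (V.H i).continuous)
    (fun x hx y hy => by
      apply mix_preimage_subset (V.H i) K Q
      exact mem_mix.2 ⟨x, hx, y, hy, by norm_num⟩)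
  rw [← gau_real_apply _ hKc.measurableSet, ← gau_real_apply _ hWcl.measurableSet] at h3
  have h4 := hK.2
  unfold val at h1 h4
  rw [hEm] at h1
  have h5 : p.lam i * (Real.log ((gau (V.H i)).real K) + L)
      ≤ p.lam i * (2 * Real.log ((gau (V.H i)).real (mix (1 / 2) K Q))) :=
    mul_le_mul_of_nonneg_left h3 (hlam i)
  linarith

lemma H_Q_self (V : Flag E) {i : ℕ} (hi : i < V.n) (x : E) : V.H i (V.Q i x) = V.Q i x := by
  rw [H_apply, Finset.sum_eq_single_of_mem i (Finset.mem_Ico.2 ⟨le_rfl, hi⟩)]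
  · rw [Q_Q_self]; simp
  · intro j _ hj
    rw [Q_Q_ne V hj, smul_zero]

lemma inner_H (V : Flag E) (i : ℕ) (x y : E) : ⟪V.H i x, y⟫ = ⟪x, V.H i y⟫ := by
  rw [MomF764.H_eq]
  exact Mom764.inner_H_left th V.n i x y

lemma inner_Q_H (V : Flag E) {i : ℕ} (hi : i < V.n) (v g : E) :
    ⟪V.Q i v, V.H i g⟫ = ⟪V.Q i v, g⟫ := by
  rw [← inner_H, H_Q_self V hi]

theorem levu : TLev746.LEVU E := by
  intro p hp V v s i a hv h0 h1 hsb hin ha0 ha1
  set sb := 2 * s - s ^ 2 with hsbd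
  have hsb0 : 0 < sb := by rw [hsbd]; nlinarith
  have hlam := LevLo696.lam_nonneg hp
  have hr := hp.rho_ge
  -- the direction
  obtain ⟨n, hn, hnQ⟩ : ∃ n : E, ‖n‖ = 1 ∧ V.Q i v = ‖V.Q i v‖ • n := by
    by_cases hq : V.Q i v = 0
    · exact ⟨v, hv, by rw [hq]; simp⟩
    · refine ⟨‖V.Q i v‖⁻¹ • V.Q i v, ?_, ?_⟩
      · rw [norm_smul, norm_inv, norm_norm, inv_mul_cancel₀ (norm_ne_zero_iff.2 hq)]
      · rw [smul_smul, mul_inv_cancel₀ (norm_ne_zero_iff.2 hq), one_smul]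
  set al := ‖V.Q i v‖ with hal
  have hal0 : 0 ≤ al := norm_nonneg _
  have hQle : al ^ 2 ≤ 1 := by
    have h2 := TLev746.norm_Q_sq V v i
    have h3 := TLev746.b_le_one V hv i
    have h4 := TLev746.b_nonneg V v (i + 1)
    rw [hal]; linarith
  set τ := a * sb * al ^ 2 / 2 with hτd
  have hτ0 : 0 ≤ τ := by positivity
  have hasb : a * sb ≤ 1 / 2 := by nlinarith
  have hτa : τ ≤ a / 4 := by
    rw [hτd]
    have : a * sb * al ^ 2 ≤ a * sb * 1 := mul_le_mul_of_nonneg_left hQle (by positivity)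
    nlinarith
  have hτ : τ ≤ 1 / 4 := by linarith
  -- the map
  obtain ⟨J, u, hN, hu⟩ := F5336.f5_N V hv h0 h1 hsb i
  have hN' : ∀ g, ‖Rm V v s i g‖ ^ 2 + τ * ⟪n, g⟫ ^ 2 ≤ ‖g‖ ^ 2 + ∑ k ∈ J, ⟪u k, g⟫ ^ 2 := by
    intro g
    have h2 := hN g
    rw [Rm_apply]
    have h3 : τ * ⟪n, g⟫ ^ 2 = a * (sb / 2 * ⟪V.Q i v, g⟫ ^ 2) := by
      have : ⟪V.Q i v, g⟫ = al * ⟪n, g⟫ := by
        rw [hnQ, real_inner_smul_left]
      rw [this, hτd]; ring
    have h4 : 0 ≤ sb / 2 * ⟪V.Q i v, g⟫ ^ 2 := by positivity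
    rw [h3]
    nlinarith
  set w := Sc n (1 / Real.sqrt (1 - τ)) ((V.H i).adjoint v) with hw
  have h1τ : 0 < 1 - τ := by linarith
  have hc2 : (1 / Real.sqrt (1 - τ)) ^ 2 = 1 / (1 - τ) := by
    rw [div_pow, one_pow, Real.sq_sqrt h1τ.le]
  refine ⟨w, ?_, ?_⟩
  · rw [hw, norm_Sc_sq hn, hc2]
    have h2 : ⟪n, (V.H i).adjoint v⟫ ^ 2 ≤ ‖(V.H i).adjoint v‖ ^ 2 := by
      have h3 := abs_real_inner_le_norm n ((V.H i).adjoint v)
      rw [hn, one_mul] at h3
      rw [← sq_abs]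
      exact pow_le_pow_left₀ (abs_nonneg _) h3 2
    have h3 : 0 ≤ 1 / (1 - τ) - 1 := by
      rw [sub_nonneg, le_div_iff₀ h1τ]; linarith
    have h4 : 1 / (1 - τ) ≤ 1 + a / 3 := by
      rw [div_le_iff₀ h1τ]
      nlinarith
    have h5 := LevLo696.var_v_le V v i
    have h6 : 0 ≤ ‖(V.H i).adjoint v‖ ^ 2 := sq_nonneg _
    calc ‖(V.H i).adjoint v‖ ^ 2 + (1 / (1 - τ) - 1) * ⟪n, (V.H i).adjoint v⟫ ^ 2
        ≤ ‖(V.H i).adjoint v‖ ^ 2 + (1 / (1 - τ) - 1) * ‖(V.H i).adjoint v‖ ^ 2 := by gcongr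
      _ = 1 / (1 - τ) * ‖(V.H i).adjoint v‖ ^ 2 := by ring
      _ ≤ (1 + a / 3) * V.b v i := mul_le_mul h4 h5 h6 (by positivity)
  intro μ sl K hK K' hK' t ht
  have hK'c : IsCompact K' := AdmHalf606.adm_compact hK'
  -- the one-body inequality
  set Hs := (V.rot v s).H i with hHs
  have hBc : IsClosed (Hs ⁻¹' K') := hK'.1.preimage Hs.continuous
  have hBp : 0 < (stdGaussian E).real (Hs ⁻¹' K') := by
    rw [← gau_real_apply _ hK'.1.measurableSet]; exact hK'.2.2.2.2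
  have hrr0 : 0 ≤ V.rr i := Cap526.rr_nonneg V i
  set R0 := p.rho * Real.sqrt (V.rr i) with hR0
  have hR0sq : R0 ^ 2 = p.rho ^ 2 * V.rr i := by rw [hR0, mul_pow, Real.sq_sqrt hrr0]
  have hR0n : 0 ≤ R0 := by positivity
  set Y : E →L[ℝ] E := Cap526.Bc V i ∘L V.H i with hY
  have hYn : ∀ g, ‖Y g‖ ^ 2 = V.N i (V.H i g) := fun g => by
    rw [hY, ContinuousLinearMap.comp_apply, Cap526.norm_Bc_sq]
  have hYint : ∫ x, ‖Y x‖ ^ 2 ∂(stdGaussian E) = V.rr i := by
    have h2 := Cap526.integral_N V i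
    rw [Mom764.integral_gau _ (by fun_prop)] at h2
    exact h2
  have he : 1 / p.rho ^ 2 ≤ 3 / 32 := by
    rw [div_le_div_iff₀ (by positivity) (by norm_num)]
    nlinarith
  obtain ⟨hpos, hone⟩ := LevU772.one_body (R := Rm V v s i) hn hτ0 hτ hN' (B := Hs ⁻¹' K') hBc
    (Dom640.pre_conv _ hK'.2.1) (Dom640.pre_symm _ hK'.2.2.1) hBp ((V.H i).adjoint v) ht Y
    (R0 := R0) (e := 1 / p.rho ^ 2) (h := sb * (2 * V.b v i + BB V v i)) hR0n (by positivity) he
    (by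
      rw [hYint, hR0sq]
      apply le_of_eq
      have : p.rho ≠ 0 := by linarith
      field_simp)
    (by
      have := TLev746.b_nonneg V v i
      have := TLev746.BB_nonneg V v i
      positivity)
    (by
      intro g hg
      have h2 : Ts v s (V.H i g) ∈ K' := by rw [Ts_H]; exact hg
      have h3 := (hK'.2.2.2.1 h2).2
      have h4 := CapH171.capH V hv h0 h1 (H_mem V i g)
      rw [hYn, hR0sq]
      rw [CapH171.rot_rr V hv h1 i] at h3
      exact h4.trans h3)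
  -- the body
  set Q : Set E := Qb V v s i K' ∩ {x | |⟪v, x⟫| ≤ t} ∩ V.cap p.rho i with hQ
  have hQpre : V.H i ⁻¹' Q = {g | Rm V v s i g ∈ Hs ⁻¹' K'}
      ∩ {g | |⟪(V.H i).adjoint v, g⟫| ≤ t} ∩ {g | ‖Y g‖ ≤ R0} := by
    ext g
    simp only [hQ, mem_preimage, mem_inter_iff, mem_ofPred_eq, Qb, SetLike.mem_coe, H_mem V i g,
      and_true, Flag.cap, true_and]
    rw [Ts_H V i g, ContinuousLinearMap.adjoint_inner_left]
    have h2 : V.N i (V.H i g) ≤ p.rho ^ 2 * V.rr i ↔ ‖Y g‖ ≤ R0 := by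
      rw [← hYn, ← hR0sq]
      exact sq_le_sq₀ (norm_nonneg _) hR0n
    rw [h2]
  have hMc : IsClosed (V.M i : Set E) := Submodule.closed_of_finiteDimensional _
  have hQ0cl : IsClosed (Qb V v s i K') := (hK'.1.preimage (Ts v s).continuous).inter hMc
  have hQ0v : Convex ℝ (Qb V v s i K') :=
    (hK'.2.1.linear_preimage (Ts v s).toLinearMap).inter (V.M i).convex
  have hSlcl : IsClosed {x : E | |⟪v, x⟫| ≤ t} := isClosed_le (by fun_prop) continuous_const
  have hSlv : Convex ℝ {x : E | |⟪v, x⟫| ≤ t} := by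
    intro x hx y hy c d hc hd hcd
    simp only [mem_ofPred_eq] at hx hy ⊢
    rw [inner_add_right, inner_smul_right, inner_smul_right]
    calc |c * ⟪v, x⟫ + d * ⟪v, y⟫| ≤ |c * ⟪v, x⟫| + |d * ⟪v, y⟫| := abs_add_le _ _
      _ = c * |⟪v, x⟫| + d * |⟪v, y⟫| := by
          rw [abs_mul, abs_mul, abs_of_nonneg hc, abs_of_nonneg hd]
      _ ≤ c * t + d * t := by gcongr
      _ = t := by rw [← add_mul, hcd, one_mul]
  have hQcl : IsClosed Q := (hQ0cl.inter hSlcl).inter (AdmHalf606.cap_closed V i _)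
  have hQadm : Adm p V i Q := by
    refine ⟨hQcl, (hQ0v.inter hSlv).inter (AdmHalf606.cap_convex V i _), ?_, fun x hx => hx.2, ?_⟩
    · rintro x ⟨⟨⟨hx1, hx2⟩, hx3⟩, hx4⟩
      refine ⟨⟨⟨?_, (V.M i).neg_mem hx2⟩, ?_⟩, AdmHalf606.cap_neg V i _ hx4⟩
      · simp only [mem_preimage, map_neg]
        exact hK'.2.2.1 _ hx1
      · simp only [mem_ofPred_eq, inner_neg_right, abs_neg] at hx3 ⊢
        exact hx3
    · rw [gau_real_apply _ hQcl.measurableSet, hQpre]
      exact hpos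
  have hKp : 0 < (stdGaussian E).real (V.H i ⁻¹' K) := by
    rw [← gau_real_apply _ hK.1.1.measurableSet]; exact hK.1.2.2.2.2
  have hmain := lev_halfQ hlam h0.le hK hK'c hQadm (fun x hx => hx.1.1.1) (fun x hx => hx.1.2)
    (L := _) (fun W hW hWm => hone (V.H i ⁻¹' K) ((V.H i).continuous.measurable
      hK.1.1.measurableSet) hKp W hW (fun x hx y hy => hWm x hx y (by rw [hQpre]; exact hy)))
  -- the integral over `K`
  have hint : (∫ x in K, ⟪V.Q i v, x⟫ ^ 2 ∂(gau (V.H i))) / (gau (V.H i)).real K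
      = al ^ 2 * ((∫ x in V.H i ⁻¹' K, ⟪n, x⟫ ^ 2 ∂(stdGaussian E))
          / (stdGaussian E).real (V.H i ⁻¹' K)) := by
    rw [gau_real_apply _ hK.1.1.measurableSet, ← mul_div_assoc]
    congr 1
    unfold gau
    rw [setIntegral_map hK.1.1.measurableSet (by fun_prop) (V.H i).continuous.aemeasurable,
      ← integral_const_mul]
    refine setIntegral_congr_fun ((V.H i).continuous.measurable hK.1.1.measurableSet) ?_
    intro g _
    simp only []
    rw [inner_Q_H V hin, hnQ, real_inner_smul_left]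
    ring
  rw [hint]
  set X := (∫ x in V.H i ⁻¹' K, ⟪n, x⟫ ^ 2 ∂(stdGaussian E))
          / (stdGaussian E).real (V.H i ⁻¹' K) with hX
  rw [← gau_real_apply _ hK'.1.measurableSet] at hmain
  unfold val
  have e1 : 64 / 3 * (1 / p.rho ^ 2) * min (1 / 2) (sb * (2 * V.b v i + BB V v i))
      ≤ 22 / p.rho ^ 2 * min (1 / 2) (sb * (2 * V.b v i + BB V v i)) := by
    apply mul_le_mul_of_nonneg_right
    · rw [mul_one_div]
      exact div_le_div_of_nonneg_right (by norm_num) (by positivity)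
    · have := TLev746.b_nonneg V v i
      have := TLev746.BB_nonneg V v i
      exact le_min (by norm_num) (by positivity)
  have e2 : τ / 2 * (1 - (1 + 4 * τ) * X)
      = a * sb / 4 * (al ^ 2 - (1 + 2 * a * sb * al ^ 2) * (al ^ 2 * X)) := by
    rw [hτd]; ring
  rw [e2] at hmain
  have e3 : p.lam i * (sb * BB V v i
            - Real.log ((stdGaussian E).real {g : E | |⟪w, g⟫| ≤ t})
            + 22 / p.rho ^ 2 * min (1 / 2) (sb * (2 * V.b v i + BB V v i))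
            - a * sb / 4 * (al ^ 2 - (1 + 2 * a * sb * al ^ 2) * (al ^ 2 * X)))
      ≥ p.lam i * (∑ k ∈ J, ‖u k‖ ^ 2
            - Real.log ((stdGaussian E).real {g : E | |⟪w, g⟫| ≤ t})
            + 64 / 3 * (1 / p.rho ^ 2) * min (1 / 2) (sb * (2 * V.b v i + BB V v i))
            - a * sb / 4 * (al ^ 2 - (1 + 2 * a * sb * al ^ 2) * (al ^ 2 * X))) :=
    mul_le_mul_of_nonneg_left (by linarith) (hlam i)
  linarith

/-- **Target_LEV** -/
theorem target_LEV : Target_LEV := TLev746.target_lev fun _ => levu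

end Crest.Agent.R239.LevU696
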