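import Crest.Agent.R239.Rem_603

/-!
# R239 (S0370): the slab remainder on the grid `lam i = tau * A^i` (helper758)

From the three bounds (r1)-(r3) of helper603: with `S ≤ lam I`, variance `v ≤ 4`,
* `rem_hi` : level `i = I + m`, `m ≥ 1`: cost `≤ e * lam i * v + (27/e) * lam I * (1/2)^m`;
* `rem_lo` : level `I = i + m`: cost `≤ 12 * lam I * (1/2)^m`.
-/

set_option autoImplicit false
open MeasureTheory ProbabilityTheory Set
open scoped RealInnerProductSpace ENNReal NNReal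

namespace Crest.Agent.R239.RemLv758

open Crest.Agent.R239.Rem603 Crest.Agent.R239

/-- scaling of the slab by `2` -/
lemma slab_half (v : ℝ≥0) (t : ℝ) : slab v (2 * t) = slab (v / 4) t := by
  rw [slab_eq, slab_eq]
  congr 1
  ext x
  simp only [mem_ofPred_eq]
  have h : Real.sqrt ((v / 4 : ℝ≥0) : ℝ) = Real.sqrt v / 2 := by
    push_cast
    rw [Real.sqrt_div (NNReal.coe_nonneg v)]
    congr 1
    rw [show (4:ℝ) = 2 ^ 2 by norm_num]
    exact Real.sqrt_sq (by norm_num)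
  rw [h]
  have e : Real.sqrt v / 2 * x = (Real.sqrt v * x) / 2 := by ring
  rw [e, abs_div, abs_of_pos (by norm_num : (0:ℝ) < 2)]
  constructor
  · intro h; linarith
  · intro h; linarith

lemma nat_le_two_pow (m : ℕ) : (m : ℝ) ≤ 2 ^ m := by
  have := (Nat.lt_two_pow_self (n := m)).le
  exact_mod_cast this

/-- `A^{-m} (2 + m log A) ≤ 8 (1/2)^m` for `A ≥ 16` -/
lemma geo_log {A : ℝ} (hA : 16 ≤ A) (m : ℕ) :
    (A ^ m)⁻¹ * (2 + m * Real.log A) ≤ 8 * (1 / 2) ^ m := by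
  have hA0 : (0:ℝ) < A := by linarith
  have hlog : Real.log A ≤ A := (Real.log_le_sub_one_of_pos hA0).trans (by linarith)
  rcases m with _ | m
  · norm_num
  · have h16 : (16:ℝ) ^ m ≤ A ^ m := pow_le_pow_left₀ (by norm_num) hA m
    have h1 : ((m:ℝ) + 1) ≤ 2 ^ (m + 1) := by
      have := nat_le_two_pow (m + 1); push_cast at this; exact this
    have hAm : 0 < A ^ m := by positivity
    have h2 : (A ^ (m + 1))⁻¹ * (2 + (((m + 1 : ℕ)):ℝ) * Real.log A)
        ≤ (A ^ (m + 1))⁻¹ * (2 + 2 ^ (m + 1) * A) := by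
      refine mul_le_mul_of_nonneg_left ?_ (by positivity)
      push_cast
      have : ((m:ℝ) + 1) * Real.log A ≤ 2 ^ (m + 1) * A := by
        apply mul_le_mul h1 hlog (Real.log_nonneg (by linarith)) (by positivity)
      linarith
    refine h2.trans ?_
    rw [inv_mul_le_iff₀ (by positivity)]
    have h8 : (1:ℝ) ≤ 8 ^ m := one_le_pow₀ (by norm_num)
    have h7 : (2:ℝ) ^ m ≤ 8 ^ m := pow_le_pow_left₀ (by norm_num) (by norm_num) m
    have h9 : 8 ^ m ≤ A ^ m * (1 / 2 : ℝ) ^ m := by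
      calc (8:ℝ) ^ m = 16 ^ m * (1 / 2) ^ m := by rw [← mul_pow]; norm_num
        _ ≤ A ^ m * (1 / 2) ^ m := by gcongr
    have e1 : A ^ (m + 1) * (8 * (1 / 2 : ℝ) ^ (m + 1)) = 4 * A * (A ^ m * (1 / 2 : ℝ) ^ m) := by
      ring
    rw [e1]
    have e2 : (2:ℝ) ^ (m + 1) * A = 2 * A * 2 ^ m := by ring
    rw [e2]
    have h10 : 2 * A * 2 ^ m ≤ 2 * A * 8 ^ m := by gcongr
    have h11 : 4 * A * 8 ^ m ≤ 4 * A * (A ^ m * (1 / 2 : ℝ) ^ m) := by gcongr
    have h12 : 2 ≤ 2 * A * 8 ^ m := by nlinarith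
    linarith

lemma log_pow_two {A : ℝ} (hA : 16 ≤ A) (m : ℕ) {a b : ℝ} (hb : 0 < b) (h : a = 2 * (b * A ^ m)) :
    Real.log (a / b) = Real.log 2 + m * Real.log A := by
  have hA0 : (0:ℝ) < A := by linarith
  have : a / b = 2 * A ^ m := by rw [h]; field_simp
  rw [this, Real.log_mul (by norm_num) (by positivity), Real.log_pow]

/-- low levels: `lam I = A^m * lam i`, `S ≤ lam I` -/
theorem rem_lo {v : ℝ≥0} (hv : v ≤ 4) {A li lI S : ℝ} {m : ℕ} (hA : 16 ≤ A) (hli : 0 < li)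
    (hI : lI = li * A ^ m) (hS : S ≤ lI) :
    ∃ t : ℝ, 0 < t ∧ 0 < slab v t ∧
      t * S - li * Real.log (slab v t) ≤ 12 * lI * (1 / 2) ^ m := by
  have hA0 : (0:ℝ) < A := by linarith
  have hlI : 0 < lI := by rw [hI]; positivity
  have hAm : (1:ℝ) ≤ A ^ m := one_le_pow₀ (by linarith)
  have hle : li ≤ 2 * lI := by rw [hI]; nlinarith
  have hv4 : v / 4 ≤ 1 := by
    rw [div_le_iff₀ (by norm_num)]; simpa using hv
  obtain ⟨t, ht, hb⟩ := rem_le_log hv4 hli hle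
  refine ⟨2 * t, by positivity, by rw [slab_half]; exact slab_pos hv4 ht, ?_⟩
  rw [slab_half]
  have h1 : 2 * t * S ≤ t * (2 * lI) := by nlinarith
  have h2 : Real.log (2 * lI / li) = Real.log 2 + m * Real.log A :=
    log_pow_two hA m hli (by rw [hI])
  rw [h2] at hb
  have hlog2 : Real.log 2 ≤ 1 := (Real.log_two_lt_d9.trans (by norm_num)).le
  have hg := geo_log hA m
  have h3 : li * (2 + (Real.log 2 + m * Real.log A)) ≤ lI * (3 * (1/2)^m + 8 * (1 / 2) ^ m) := by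
    have e1 : li = lI * (A ^ m)⁻¹ := by rw [hI]; field_simp
    have e2 : (A ^ m)⁻¹ ≤ (1/2:ℝ) ^ m := by
      rw [inv_le_comm₀ (by positivity) (by positivity), ← inv_pow]
      apply pow_le_pow_left₀ (by norm_num)
      norm_num; linarith
    have hin : 0 < (A ^ m)⁻¹ := by positivity
    calc li * (2 + (Real.log 2 + m * Real.log A))
        = lI * ((A ^ m)⁻¹ * Real.log 2 + (A ^ m)⁻¹ * (2 + m * Real.log A)) := by rw [e1]; ring
      _ ≤ lI * (3 * (1/2)^m + 8 * (1 / 2) ^ m) := by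
          refine mul_le_mul_of_nonneg_left ?_ hlI.le
          have : (A ^ m)⁻¹ * Real.log 2 ≤ (1/2:ℝ) ^ m * 1 := by
            apply mul_le_mul e2 hlog2 (Real.log_nonneg (by norm_num)) (by positivity)
          have hp : (0:ℝ) < (1/2:ℝ) ^ m := by positivity
          linarith
  have hp : (0:ℝ) < lI * (1/2:ℝ) ^ m := by positivity
  nlinarith

/-- high levels: `lam i = A^m * lam I`, `m ≥ 1`, `S ≤ lam I` -/
theorem rem_hi {v : ℝ≥0} {A li lI S e : ℝ} {m : ℕ} (hA : 16 ≤ A) (hlI : 0 < lI)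
    (_hm : 1 ≤ m) (hI : li = lI * A ^ m) (hS : S ≤ lI) (he : 0 < e) (he1 : e ≤ 1) :
    ∃ t : ℝ, 0 < t ∧ 0 < slab v t ∧
      t * S - li * Real.log (slab v t) ≤ e * li * v + (27 / e) * lI * (1 / 2) ^ m := by
  have hA0 : (0:ℝ) < A := by linarith
  have hli : 0 < li := by rw [hI]; positivity
  have hAm : (1:ℝ) ≤ A ^ m := one_le_pow₀ (by linarith)
  have hle : lI ≤ li := by rw [hI]; nlinarith
  obtain ⟨t, ht, hb⟩ := rem_small (v := v) hli hlI hle he he1
  have hpos : 0 < slab v t := by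
    -- `t > 0`
    rw [slab_eq]
    refine lt_of_lt_of_le (slab_pos (v := 1) le_rfl (t := t / (Real.sqrt v + 1)) (by positivity)) ?_
    rw [slab_eq]
    refine measureReal_mono ?_
    intro x hx
    simp only [mem_ofPred_eq, NNReal.coe_one, Real.sqrt_one, one_mul] at hx ⊢
    have hs : 0 ≤ Real.sqrt v := Real.sqrt_nonneg _
    rw [abs_mul, abs_of_nonneg hs]
    rw [le_div_iff₀ (by positivity)] at hx
    nlinarith [abs_nonneg x]
  refine ⟨t, ht, hpos, ?_⟩
  have h1 : t * S ≤ t * lI := by nlinarith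
  have h2 : Real.log (2 * li / lI) = Real.log 2 + m * Real.log A := by
    refine log_pow_two hA m hlI ?_
    rw [hI]
  rw [h2] at hb
  have hlog2 : Real.log 2 ≤ 1 := (Real.log_two_lt_d9.trans (by norm_num)).le
  have hg := geo_log hA m
  have hin : 0 < (A ^ m)⁻¹ := by positivity
  have h3 : (3 / e) * (lI ^ 2 / li) * (Real.log 2 + m * Real.log A)
      ≤ (27 / e) * lI * (1 / 2) ^ m := by
    have e1 : lI ^ 2 / li = lI * (A ^ m)⁻¹ := by rw [hI]; field_simp
    have hp : (0:ℝ) < (1/2:ℝ) ^ m := by positivity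
    have h4 : (A ^ m)⁻¹ * (Real.log 2 + m * Real.log A) ≤ 9 * (1/2:ℝ) ^ m := by
      have : (A ^ m)⁻¹ * Real.log 2 ≤ (A ^ m)⁻¹ * 2 := by
        apply mul_le_mul_of_nonneg_left _ hin.le; linarith
      have : (A ^ m)⁻¹ * (Real.log 2 + m * Real.log A) ≤ (A ^ m)⁻¹ * (2 + m * Real.log A) := by
        apply mul_le_mul_of_nonneg_left _ hin.le; linarith
      linarith
    calc (3 / e) * (lI ^ 2 / li) * (Real.log 2 + m * Real.log A)
        = (3 / e) * lI * ((A ^ m)⁻¹ * (Real.log 2 + m * Real.log A)) := by rw [e1]; ring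
      _ ≤ (3 / e) * lI * (9 * (1/2:ℝ) ^ m) := by
          refine mul_le_mul_of_nonneg_left h4 (by positivity)
      _ = (27 / e) * lI * (1 / 2) ^ m := by ring
  linarith

section Std

variable {E : Type*} [NormedAddCommGroup E] [InnerProductSpace ℝ E] [FiniteDimensional ℝ E]
  [MeasurableSpace E] [BorelSpace E]
  {F : Type*} [NormedAddCommGroup F] [InnerProductSpace ℝ F] [FiniteDimensional ℝ F]
  [MeasurableSpace F] [BorelSpace F]

/-- low levels, law `gau H` -/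
theorem rem_lo_gau (H : F →L[ℝ] E) (w : E) (hw : ‖H.adjoint w‖ ^ 2 ≤ 4) {A li lI S : ℝ} {m : ℕ}
    (hA : 16 ≤ A) (hli : 0 < li) (hI : lI = li * A ^ m) (hS : S ≤ lI) :
    ∃ t : ℝ, 0 < t ∧ 0 < (gau H).real {x | |⟪w, x⟫| ≤ t} ∧
      t * S - li * Real.log ((gau H).real {x | |⟪w, x⟫| ≤ t}) ≤ 12 * lI * (1 / 2) ^ m := by
  simp only [slab_gau]
  refine rem_lo ?_ hA hli hI hS
  rw [← NNReal.coe_le_coe]; push_cast; exact hw

/-- high levels, law `gau H` -/
theorem rem_hi_gau (H : F →L[ℝ] E) (w : E) {A li lI S e : ℝ} {m : ℕ}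
    (hA : 16 ≤ A) (hlI : 0 < lI) (hm : 1 ≤ m) (hI : li = lI * A ^ m) (hS : S ≤ lI)
    (he : 0 < e) (he1 : e ≤ 1) :
    ∃ t : ℝ, 0 < t ∧ 0 < (gau H).real {x | |⟪w, x⟫| ≤ t} ∧
      t * S - li * Real.log ((gau H).real {x | |⟪w, x⟫| ≤ t})
        ≤ e * li * ‖H.adjoint w‖ ^ 2 + (27 / e) * lI * (1 / 2) ^ m := by
  simp only [slab_gau]
  have h := rem_hi (v := ‖H.adjoint w‖₊ ^ 2) hA hlI hm hI hS he he1
  simpa using h

end Std

end Crest.Agent.R239.RemLv758
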