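import Mathlib
import Crest.Agent.R239.LevUa_772
import Crest.Agent.R239.F6b_696
import Crest.Agent.R239.Lev0_285
import Crest.Agent.R239.F5_336
import Crest.Agent.R239.CapH_171
import Crest.Agent.R239.RemLv_758
import Crest.Agent.R239.LevLoF_300

/-! R239, block F6 (helper772): the uniform one-level comparison LEVU and `target_lev`. -/

set_option autoImplicit false
set_option linter.unusedSectionVars false

open MeasureTheory ProbabilityTheory Set Filter Topology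
open scoped RealInnerProductSpace

namespace Crest.Agent.R239.LevU772

open Crest.Agent.R239
open Crest.Agent.R239.FD
open Crest.Agent.R239.CmpR174 (Sc)
open Crest.Agent.R239.Lev0285 (Bm norm_sq_Bm N_le_iff cap_closed cap_convex cap_symm cap_compact
  integral_N adm_compact adm_zero lam_pos D_le le_D adjoint_H norm_H_le BB_nonneg b_le_one S_nonneg)

variable {E : Type*} [NormedAddCommGroup E] [InnerProductSpace ℝ E] [FiniteDimensional ℝ E]
  [MeasurableSpace E] [BorelSpace E]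

/-- half sum inequality with a body `Q` of the old flag -/
theorem lev_body {p : Par} (hp : p.Ok) {V : Flag E} {i : ℕ} (hi : i ≤ V.n) {s : ℝ} {v : E}
    (h0 : 0 ≤ s) {K K' Q : Set E} {sl t : ℝ} {μ : Multiset E} (hK : NearOpt p V i μ K sl)
    (hK' : IsCompact K') (hQ : Adm p V i Q) (hQK : ∀ x ∈ Q, Ts v s x ∈ K')
    (hQt : ∀ x ∈ Q, |⟪v, x⟫| ≤ t) {L : ℝ}
    (hone : ∀ W : Set E, IsClosed W →
      (∀ x ∈ V.H i ⁻¹' K, ∀ y ∈ V.H i ⁻¹' Q, (1 / 2 : ℝ) • x + (1 / 2 : ℝ) • y ∈ W) →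
      Real.log ((stdGaussian E).real (V.H i ⁻¹' K)) + L ≤ 2 * Real.log ((stdGaussian E).real W)) :
    D p V i μ ≤ Eh K' μ + s * t * S μ v - p.lam i * L + sl := by
  have hr : (0 : ℝ) ≤ p.rho := by linarith [hp.rho_ge]
  have hcapC : IsCompact (V.cap p.rho i) := cap_compact V hi hr
  have hcapV : Convex ℝ (V.cap p.rho i) := cap_convex V i hr
  have hlam : ∀ i, 0 ≤ p.lam i := fun i => (lam_pos hp i).le
  have hW := F6b696.Adm_mix hcapC hcapV hK.1 hQ
  have hKc : IsCompact K := adm_compact hp hi hK.1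
  have hQc : IsCompact Q := adm_compact hp hi hQ
  have h1 := F6b696.D_le_val (μ := μ) hlam hW
  have hEm : Eh (F6core696.mix (1 / 2) K Q) μ = (1 - 1 / 2) * Eh K μ + 1 / 2 * Eh Q μ :=
    F6core696.Eh_mix (by norm_num) (by norm_num) hKc hQc ⟨0, adm_zero hK.1⟩ ⟨0, adm_zero hQ⟩ μ
  have hWcl : IsClosed (F6core696.mix (1 / 2) K Q) := hW.1
  have h3 := hone (V.H i ⁻¹' F6core696.mix (1 / 2) K Q) (hWcl.preimage (V.H i).continuous)
    (fun x hx y hy => by
      apply F6core696.mix_preimage_subset (V.H i) K Q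
      exact F6core696.mem_mix.2 ⟨x, hx, y, hy, by norm_num⟩)
  rw [← gau_real_apply _ hKc.measurableSet, ← gau_real_apply _ hWcl.measurableSet] at h3
  have hE : Eh Q μ ≤ Eh K' μ + s * t * S μ v :=
    F6core696.Eh_pullback hK' ⟨0, adm_zero hQ⟩ h0 (fun x => Ts_apply v s x) hQK hQt μ
  have h4 := hK.2
  unfold val at h1 h4
  rw [hEm] at h1
  have h5 : p.lam i * (Real.log ((gau (V.H i)).real K) + L)
      ≤ p.lam i * (2 * Real.log ((gau (V.H i)).real (F6core696.mix (1 / 2) K Q))) :=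
    mul_le_mul_of_nonneg_left h3 (hlam i)
  linarith

/-! ### small flag facts -/

lemma H_Q (V : Flag E) {i : ℕ} (hi : i < V.n) (v : E) : V.H i (V.Q i v) = V.Q i v := by
  rw [F6b696.H_apply, Finset.sum_eq_single_of_mem i (Finset.mem_Ico.2 ⟨le_rfl, hi⟩)]
  · rw [F6b696.Q_Q_self, Nat.sub_self, pow_zero, one_smul]
  · intro j _ hj
    rw [F6b696.Q_Q_ne V hj, smul_zero]

lemma H_P (V : Flag E) (i : ℕ) (v : E) : V.H i (V.P i v) = V.H i v := by
  rw [F6b696.H_apply, F6b696.H_apply]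
  refine Finset.sum_congr rfl fun j hj => ?_
  have hj' := (Finset.mem_Ico.1 hj).1
  rw [F6b696.Q_apply, F6b696.Q_apply, F6b696.P_P_of_le V hj',
    F6b696.P_P_of_le V (hj'.trans (Nat.le_succ j))]

lemma norm_H_sq_le (V : Flag E) {i : ℕ} (hi : i ≤ V.n) (v : E) : ‖V.H i v‖ ^ 2 ≤ V.b v i := by
  rw [← H_P]
  exact pow_le_pow_left₀ (norm_nonneg _) (norm_H_le V hi _) 2

/-- `|Q_i v|² = b_i - b_(i+1)` -/
lemma norm_Q_sq (V : Flag E) (i : ℕ) (v : E) : ‖V.Q i v‖ ^ 2 = V.b v i - V.b v (i + 1) := by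
  unfold Flag.b
  have h1 : V.P i v = V.Q i v + V.P (i + 1) v := by rw [F6b696.Q_apply]; abel
  have h2 : ⟪V.Q i v, V.P (i + 1) v⟫ = 0 := by
    have h3 : V.P (i + 1) (V.Q i v) = 0 := by
      rw [F6b696.Q_apply, map_sub, F6b696.P_P_of_le V (Nat.le_succ i),
        F6b696.P_P_of_le V le_rfl, sub_self]
    have h4 : ⟪V.Q i v, V.P (i + 1) v⟫ = ⟪V.P (i + 1) (V.Q i v), v⟫ := by
      unfold Flag.P
      exact (Submodule.inner_starProjection_left_eq_right _ _ _).symm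
    rw [h4, h3, inner_zero_left]
  have h5 : ‖V.P i v‖ ^ 2 = ‖V.Q i v‖ ^ 2 + ‖V.P (i + 1) v‖ ^ 2 := by
    rw [h1, norm_add_sq_real, h2]; ring
  linarith

/-- **LEVU**: the uniform level comparison with gain -/
theorem levu {p : Par} (hp : p.Ok) (V : Flag E) {v : E} (hv : ‖v‖ = 1) {s : ℝ} (h0 : 0 < s)
    (h1 : s < 1) (hsb : 2 * s - s ^ 2 ≤ 1 / 2) {i : ℕ} (hi : i < V.n) :
    ∃ w : E, ‖w‖ ^ 2 ≤ 4 / 3 * V.b v i ∧ ∀ (μ : Multiset E) (sl : ℝ) (K : Set E),
      NearOpt p V i μ K sl → ∀ K' : Set E, Adm p (V.rot v s) i K' → ∀ t : ℝ, 0 < t →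
      D p V i μ ≤ val p (V.rot v s) i μ K' + s * t * S μ v
        + p.lam i * ((2 * s - s ^ 2) * BB V v i
          - Real.log ((stdGaussian E).real {g | |⟪w, g⟫| ≤ t})
          + 22 / p.rho ^ 2 * min (1 / 2) ((2 * s - s ^ 2) * (2 * V.b v i + BB V v i))
          - (2 * s - s ^ 2) / 4 * (‖V.Q i v‖ ^ 2 - (1 + 2 * (2 * s - s ^ 2) * ‖V.Q i v‖ ^ 2) *
            ((∫ x in K, ⟪V.Q i v, x⟫ ^ 2 ∂(gau (V.H i))) / (gau (V.H i)).real K))) + sl := by
  set sb := 2 * s - s ^ 2 with hsbd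
  have hsb0 : 0 < sb := by rw [hsbd]; nlinarith
  have hr : (0 : ℝ) < p.rho := by linarith [hp.rho_ge]
  set al := ‖V.Q i v‖ with hal
  have hb1 := b_le_one V hv i
  have hb0 : 0 ≤ V.b v i := sq_nonneg _
  have hBB := BB_nonneg V v i
  have hal1 : al ^ 2 ≤ 1 := by
    have h2 := norm_Q_sq V i v
    have h3 : 0 ≤ V.b v (i + 1) := sq_nonneg _
    rw [hal, h2]; linarith
  set τ := sb / 2 * al ^ 2 with hτ
  have hτ0 : 0 ≤ τ := by positivity
  have hτ4 : τ ≤ 1 / 4 := by rw [hτ]; nlinarith [sq_nonneg al]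
  -- the direction
  obtain ⟨n, hn, hnn⟩ : ∃ n : E, ‖n‖ = 1 ∧ ∀ g : E, τ * ⟪n, g⟫ ^ 2 = sb / 2 * ⟪V.Q i v, g⟫ ^ 2 := by
    rcases eq_or_ne (V.Q i v) 0 with h | h
    · refine ⟨v, hv, fun g => ?_⟩
      have : al = 0 := by rw [hal, h, norm_zero]
      rw [hτ, this, h, inner_zero_left]; ring
    · have hpos : 0 < al := norm_pos_iff.2 h
      refine ⟨al⁻¹ • V.Q i v, ?_, fun g => ?_⟩
      · rw [norm_smul, norm_inv, Real.norm_of_nonneg hpos.le, ← hal, inv_mul_cancel₀ hpos.ne']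
      · rw [inner_smul_left, hτ]
        simp only [conj_trivial]
        field_simp
  obtain ⟨J, u, hN, hu⟩ := F5336.f5_N V hv h0 h1 hsb i
  set R : E →L[ℝ] E := F6b696.Rm V v s i with hR
  have hRg : ∀ g, Ts v s (V.H i g) = (V.rot v s).H i (R g) := fun g => (F5336.f5_R V v s i g).symm
  have hN' : ∀ g, ‖R g‖ ^ 2 + τ * ⟪n, g⟫ ^ 2 ≤ ‖g‖ ^ 2 + ∑ k ∈ J, ⟪u k, g⟫ ^ 2 := by
    intro g
    rw [hnn g]
    exact hN g
  refine ⟨Sc n (1 / Real.sqrt (1 - τ)) (V.H i v), ?_, ?_⟩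
  · have h1τ : 0 < 1 - τ := by linarith
    have hc2 : (1 / Real.sqrt (1 - τ)) ^ 2 * (1 - τ) = 1 := by
      rw [div_pow, one_pow, Real.sq_sqrt h1τ.le]; field_simp
    have h3 := norm_Sc_le hn (c := 1 / Real.sqrt (1 - τ))
      (by nlinarith [sq_nonneg (1 / Real.sqrt (1 - τ))]) (V.H i v)
    have h4 : (1 / Real.sqrt (1 - τ)) ^ 2 ≤ 4 / 3 := by
      nlinarith [sq_nonneg (1 / Real.sqrt (1 - τ))]
    refine h3.trans ?_
    exact mul_le_mul h4 (norm_H_sq_le V hi.le v) (sq_nonneg _) (by norm_num)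
  intro μ sl K hK K' hK' t ht
  have hK'c : IsCompact K' := adm_compact hp (V := V.rot v s) (i := i) hi.le hK'
  -- the competitor in Gaussian coordinates
  set B : Set E := (V.rot v s).H i ⁻¹' K' with hB
  have hBc : IsClosed B := hK'.1.preimage ((V.rot v s).H i).continuous
  have hBv : Convex ℝ B := hK'.2.1.linear_preimage ((V.rot v s).H i : E →ₗ[ℝ] E)
  have hBs : ∀ x ∈ B, -x ∈ B := by
    intro x hx
    simp only [hB, mem_preimage, map_neg]
    exact hK'.2.2.1 _ hx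
  have hBe : (stdGaussian E).real B = (gau ((V.rot v s).H i)).real K' := by
    rw [gau_real_apply _ hK'.1.measurableSet]
  have hBp : 0 < (stdGaussian E).real B := by rw [hBe]; exact hK'.2.2.2.2
  -- the cap
  set Y : E →L[ℝ] E := Bm V i ∘L V.H i with hY
  have hYg : ∀ g, ‖Y g‖ ^ 2 = V.N i (V.H i g) := fun g => by
    rw [hY, ContinuousLinearMap.comp_apply, norm_sq_Bm]
  have hrr : 0 ≤ V.rr i := Lev0285.rr_nonneg V i
  set R0 := p.rho * Real.sqrt (V.rr i) with hR0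
  have hR0n : 0 ≤ R0 := by positivity
  have hR0s : R0 ^ 2 = p.rho ^ 2 * V.rr i := by rw [hR0, mul_pow, Real.sq_sqrt hrr]
  have hYint : ∫ x, ‖Y x‖ ^ 2 ∂(stdGaussian E) ≤ 1 / p.rho ^ 2 * R0 ^ 2 := by
    have h2 := integral_N V i
    unfold gau at h2
    rw [integral_map (V.H i).continuous.aemeasurable (by fun_prop)] at h2
    have h3 : 1 / p.rho ^ 2 * R0 ^ 2 = V.rr i := by rw [hR0s]; field_simp
    rw [h3]
    exact h2.le
  have he : 1 / p.rho ^ 2 ≤ 3 / 32 := by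
    rw [div_le_div_iff₀ (by positivity) (by norm_num)]
    nlinarith [hp.rho_ge]
  set h := sb * (2 * V.b v i + BB V v i) with hh
  have hh0 : 0 ≤ h := by positivity
  have hcap : ∀ g, R g ∈ B → (1 - h) * ‖Y g‖ ^ 2 ≤ R0 ^ 2 := by
    intro g hg
    have h2 : Ts v s (V.H i g) ∈ K' := by rw [hRg]; exact hg
    have h3 := (hK'.2.2.2.1 h2).2
    have h4 := CapH171.capH V hv h0 h1 (i := i) (x := V.H i g) (F6b696.H_mem V i g)
    rw [CapH171.rot_rr V hv h1] at h3
    rw [hYg, hR0s]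
    exact h4.trans h3
  obtain ⟨hQp, hone⟩ := one_body hn hτ0 hτ4 hN' hBc hBv hBs hBp (V.H i v) ht Y hR0n
    (by positivity) he hYint hh0 hcap
  -- the body
  set Q : Set E := Ts v s ⁻¹' K' ∩ {x | |⟪v, x⟫| ≤ t} ∩ V.cap p.rho i with hQ
  have hQpre : V.H i ⁻¹' Q = {g | R g ∈ B} ∩ {g | |⟪V.H i v, g⟫| ≤ t} ∩ {g | ‖Y g‖ ≤ R0} := by
    ext g
    simp only [hQ, mem_preimage, mem_inter_iff, mem_ofPred_eq, hRg, adjoint_H, hB, Flag.cap,
      F6b696.H_mem V i g, true_and]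
    rw [N_le_iff V i hr.le]
    rfl
  have hQc : IsClosed Q := by
    refine ((hK'.1.preimage (Ts v s).continuous).inter ?_).inter (cap_closed V i hr.le)
    exact isClosed_le (by fun_prop) continuous_const
  have hQadm : Adm p V i Q := by
    refine ⟨hQc, ?_, ?_, inter_subset_right, ?_⟩
    · exact ((hK'.2.1.linear_preimage (Ts v s).toLinearMap).inter (convex_slab v t)).inter
        (cap_convex V i hr.le)
    · intro x hx
      refine ⟨⟨?_, ?_⟩, cap_symm V i hr.le x hx.2⟩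
      · simp only [mem_preimage, map_neg]; exact hK'.2.2.1 _ hx.1.1
      · simp only [mem_ofPred_eq, inner_neg_right, abs_neg]; exact hx.1.2
    · rw [gau_real_apply _ hQc.measurableSet, hQpre]; exact hQp
  have hKm : MeasurableSet K := hK.1.1.measurableSet
  have hKp : 0 < (gau (V.H i)).real K := hK.1.2.2.2.2
  have hKe : (gau (V.H i)).real K = (stdGaussian E).real (V.H i ⁻¹' K) := gau_real_apply _ hKm
  have hmain := lev_body hp hi.le h0.le (t := t) (v := v) hK hK'c hQadm (fun x hx => hx.1.1)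
    (fun x hx => hx.1.2) (L := Real.log ((stdGaussian E).real B) - ∑ k ∈ J, ‖u k‖ ^ 2
          + Real.log ((stdGaussian E).real {x | |⟪Sc n (1 / Real.sqrt (1 - τ)) (V.H i v), x⟫| ≤ t})
          - 64 / 3 * (1 / p.rho ^ 2) * min (1 / 2) h
          + τ / 2 * (1 - (1 + 4 * τ) *
            ((∫ x in V.H i ⁻¹' K, ⟪n, x⟫ ^ 2 ∂(stdGaussian E))
              / (stdGaussian E).real (V.H i ⁻¹' K)))) (fun W hW hKW =>
      hone (V.H i ⁻¹' K) ((V.H i).continuous.measurable hKm) (by rw [← hKe]; exact hKp) W hW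
        (fun x hx y hy => hKW x hx y (by rw [hQpre]; exact hy)))
  -- the integrals
  have hint : ∫ x in K, ⟪V.Q i v, x⟫ ^ 2 ∂(gau (V.H i))
      = ∫ g in V.H i ⁻¹' K, ⟪V.Q i v, g⟫ ^ 2 ∂(stdGaussian E) := by
    unfold gau
    rw [setIntegral_map hKm (by fun_prop) (V.H i).continuous.aemeasurable]
    refine integral_congr_ae (Eventually.of_forall fun g => ?_)
    simp only
    rw [← adjoint_H, H_Q V hi]
  have hτint : τ * ((∫ x in V.H i ⁻¹' K, ⟪n, x⟫ ^ 2 ∂(stdGaussian E))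
      / (stdGaussian E).real (V.H i ⁻¹' K))
      = sb / 2 * ((∫ x in K, ⟪V.Q i v, x⟫ ^ 2 ∂(gau (V.H i))) / (gau (V.H i)).real K) := by
    rw [hint, hKe, ← mul_div_assoc, ← mul_div_assoc, ← integral_const_mul, ← integral_const_mul]
    congr 1
    refine integral_congr_ae (Eventually.of_forall fun g => ?_)
    exact hnn g
  set en := (∫ x in V.H i ⁻¹' K, ⟪n, x⟫ ^ 2 ∂(stdGaussian E))
      / (stdGaussian E).real (V.H i ⁻¹' K) with hen
  set eK := (∫ x in K, ⟪V.Q i v, x⟫ ^ 2 ∂(gau (V.H i))) / (gau (V.H i)).real K with heK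
  have hgain : τ / 2 * (1 - (1 + 4 * τ) * en)
      = sb / 4 * (al ^ 2 - (1 + 2 * sb * al ^ 2) * eK) := by
    have h2 : τ / 2 * (1 - (1 + 4 * τ) * en) = τ / 2 - (1 + 4 * τ) * (τ * en) / 2 := by ring
    rw [h2, hτint, hτ]; ring
  have hl := lam_pos hp i
  have hmin0 : 0 ≤ min (1 / 2) h := le_min (by norm_num) hh0
  have hcapn : 64 / 3 * (1 / p.rho ^ 2) * min (1 / 2) h ≤ 22 / p.rho ^ 2 * min (1 / 2) h := by
    refine mul_le_mul_of_nonneg_right ?_ hmin0
    rw [mul_one_div]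
    exact div_le_div_of_nonneg_right (by norm_num) (by positivity)
  rw [hgain] at hmain
  unfold val
  rw [← hBe]
  have hfin : p.lam i * (∑ k ∈ J, ‖u k‖ ^ 2 + 64 / 3 * (1 / p.rho ^ 2) * min (1 / 2) h)
      ≤ p.lam i * (sb * BB V v i + 22 / p.rho ^ 2 * min (1 / 2) h) :=
    mul_le_mul_of_nonneg_left (by linarith) hl.le
  linarith

/-! ### the numeric end -/

lemma b_succ_le (V : Flag E) (v : E) (i : ℕ) : 25 / 8 * V.b v (i + 1) ≤ BB V v i := by
  rcases lt_or_ge (i + 1) V.n with h | h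
  · unfold BB
    have h2 := Finset.single_le_sum (f := fun j => (25 / 8 : ℝ) ^ (j - i) * V.b v j)
      (fun j _ => mul_nonneg (by positivity) (sq_nonneg _)) (Finset.mem_Ico.2 ⟨le_rfl, h⟩)
    have e : i + 1 - i = 1 := by omega
    simp only [e, pow_one] at h2
    exact h2
  · have : V.b v (i + 1) = 0 := by
      unfold Flag.b
      rw [F6b696.P_of_n_le V h, norm_zero]; ring
    rw [this, mul_zero]
    exact BB_nonneg V v i

/-- near-optimal bodies exist -/
lemma exists_near {p : Par} (hp : p.Ok) (V : Flag E) (i : ℕ) (μ : Multiset E) {sl : ℝ}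
    (hsl : 0 < sl) : ∃ K, NearOpt p V i μ K sl := by
  have hne : (val p V i μ '' {K | Adm p V i K}).Nonempty :=
    ⟨_, V.cap p.rho i, Lev0285.adm_cap hp V i, rfl⟩
  obtain ⟨_, ⟨K, hK, rfl⟩, hlt⟩ := exists_lt_of_csInf_lt hne
    (show sInf (val p V i μ '' {K | Adm p V i K}) < D p V i μ + sl by
      unfold D; linarith)
  exact ⟨K, hK, hlt.le⟩

/-- pure real: the gain -/
lemma num_gain {c' sb a eK : ℝ} (hc0 : 0 < c') (hc1 : c' < 1) (hsb0 : 0 < sb)
    (hsb8 : sb ≤ c' / 8) (ha0 : 0 ≤ a) (ha1 : a ≤ 1) (heK1 : eK ≤ (1 - c') * a) :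
    3 / 16 * c' * sb * a ≤ sb / 4 * (a - (1 + 2 * sb * a) * eK) := by
  have h3 : (1 + 2 * sb * a) * eK ≤ (1 + 2 * sb) * ((1 - c') * a) := by
    have h4 : (1 + 2 * sb * a) ≤ 1 + 2 * sb := by nlinarith
    have h5 : 0 ≤ (1 - c') * a := mul_nonneg (by linarith) ha0
    have h6 : 0 ≤ 1 + 2 * sb * a := by positivity
    calc (1 + 2 * sb * a) * eK ≤ (1 + 2 * sb * a) * ((1 - c') * a) :=
          mul_le_mul_of_nonneg_left heK1 h6
      _ ≤ _ := mul_le_mul_of_nonneg_right h4 h5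
  have h4 : 3 / 4 * c' * a ≤ a - (1 + 2 * sb) * ((1 - c') * a) := by
    have h5 : 3 / 4 * c' ≤ 1 - (1 + 2 * sb) * (1 - c') := by nlinarith
    have h6 := mul_le_mul_of_nonneg_right h5 ha0
    linarith
  have h6 : 3 / 4 * c' * a ≤ a - (1 + 2 * sb * a) * eK := by linarith
  calc 3 / 16 * c' * sb * a = sb / 4 * (3 / 4 * c' * a) := by ring
    _ ≤ _ := mul_le_mul_of_nonneg_left h6 (by positivity)

/-- pure real: the unit inequality -/
lemma num_unit {c' sb b b1 BB a G lo C9 : ℝ} (hc0 : 0 < c') (hc1 : c' < 1) (hsb0 : 0 < sb)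
    (hsb8 : sb ≤ c' / 8) (hb0 : 0 ≤ b) (hbs0 : 0 ≤ b1) (hBB : 0 ≤ BB) (ha : a = b - b1)
    (hbs : 25 / 8 * b1 ≤ BB) (hlo1 : lo ≤ c' / 64 * (sb * (2 * b + BB)))
    (hgain : 3 / 16 * c' * sb * a ≤ G) (hC91 : 1 ≤ C9) :
    sb * BB + lo - G + c' * sb / 32 * (4 / 3 * b) + c' * sb / 16 * b ≤ C9 * BB := by
  have h2 : C9 * BB ≥ 1 * BB := mul_le_mul_of_nonneg_right hC91 hBB
  have h3 : 3 / 16 * c' * sb * a = 3 / 16 * (c' * sb) * b - 3 / 16 * (c' * sb) * b1 := by
    rw [ha]; ring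
  have hcs0 : 0 < c' * sb := by positivity
  have hcs1 : c' * sb ≤ 1 / 8 := by nlinarith
  have h4 : c' * sb * b1 ≤ 1 / 8 * (8 / 25 * BB) := by
    have h5 : b1 ≤ 8 / 25 * BB := by linarith
    exact mul_le_mul hcs1 h5 hbs0 (by norm_num)
  have h7 : c' / 64 * (sb * (2 * b + BB)) = 1 / 32 * (c' * sb) * b + 1 / 64 * (c' * sb) * BB := by
    ring
  have h7' : c' * sb * BB ≤ 1 / 8 * BB := mul_le_mul_of_nonneg_right hcs1 hBB
  have h8 : c' * sb / 32 * (4 / 3 * b) = 1 / 24 * (c' * sb) * b := by ring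
  have h9 : sb * BB ≤ 1 / 2 * BB := mul_le_mul_of_nonneg_right (by linarith) hBB
  have h10 : 0 ≤ c' * sb * b := by positivity
  rw [h8]
  rw [h7] at hlo1
  rw [h3] at hgain
  linarith

/-- **P_LEVhi** at every level above `I`, no case distinction -/
theorem levhi {p : Par} (hp : p.Ok) {c' dl s : ℝ} (hc0 : 0 < c') (hc1 : c' < 1) (hdl : 0 < dl)
    (h0 : 0 < s) (hs : s ≤ c' / 16) (hrho : 1408 / c' ≤ p.rho) {C9 : ℝ}
    (hC : 1 + 864 / (c' * (2 * s - s ^ 2)) ≤ C9) :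
    P_LEVhi E p s c' dl (c' * (2 * s - s ^ 2) / 16) C9 := by
  intro V μ v I i hv hS hIi hin hthin
  set sb := 2 * s - s ^ 2 with hsbd
  have h1 : s < 1 := by linarith
  have hsb0 : 0 < sb := by rw [hsbd]; nlinarith
  have hsb8 : sb ≤ c' / 8 := by rw [hsbd]; nlinarith
  have hsb2 : sb ≤ 1 / 2 := by linarith
  have hl := lam_pos hp i
  have hlI := lam_pos hp I
  have hb0 : 0 ≤ V.b v i := sq_nonneg _
  have hBB := BB_nonneg V v i
  have hrho16 := hp.rho_ge
  have hr : 0 < p.rho := by linarith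
  obtain ⟨w, hw, hlev⟩ := levu hp V hv h0 h1 hsb2 hin
  rw [← hsbd] at hlev
  set e := c' * sb / 32 with he
  have he0 : 0 < e := by positivity
  have he1 : e ≤ 1 := by rw [he]; nlinarith
  obtain ⟨m, rfl⟩ : ∃ m, i = I + m := ⟨i - I, by omega⟩
  have hm : I + m - I = m := by omega
  have hm1 : 1 ≤ m := by omega
  rw [hm]
  have hS0 := S_nonneg μ v
  obtain ⟨t, ht0, htp, hrem⟩ := RemLv758.rem_hi_gau (ContinuousLinearMap.id ℝ E) w (A := p.A)
    (li := p.lam (I + m)) (lI := p.lam I) (S := s * S μ v) (e := e) (m := m) hp.A_ge hlI hm1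
    (by unfold Par.lam; rw [pow_add]; ring) (by nlinarith) he0 he1
  rw [gau_id] at hrem
  have hadj : (ContinuousLinearMap.id ℝ E).adjoint w = w := by
    rw [adjoint_id', ContinuousLinearMap.id_apply]
  rw [hadj] at hrem
  set al := ‖V.Q (I + m) v‖ with hal
  have hal2 : al ^ 2 = V.b v (I + m) - V.b v (I + m + 1) := norm_Q_sq V (I + m) v
  have hb1 := b_le_one V hv (I + m)
  have hbs0 : 0 ≤ V.b v (I + m + 1) := sq_nonneg _
  have hbs := b_succ_le V v (I + m)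
  have hal1 : al ^ 2 ≤ 1 := by rw [hal2]; linarith
  set lo := 22 / p.rho ^ 2 * min (1 / 2) (sb * (2 * V.b v (I + m) + BB V v (I + m))) with hlo
  have hlo1 : lo ≤ c' / 64 * (sb * (2 * V.b v (I + m) + BB V v (I + m))) := by
    have h2 : 22 / p.rho ^ 2 ≤ c' / 64 := by
      rw [div_le_div_iff₀ (by positivity) (by norm_num)]
      rw [div_le_iff₀ hc0] at hrho
      nlinarith
    have h3 : min (1 / 2) (sb * (2 * V.b v (I + m) + BB V v (I + m)))
        ≤ sb * (2 * V.b v (I + m) + BB V v (I + m)) := min_le_right _ _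
    have h4 : 0 ≤ sb * (2 * V.b v (I + m) + BB V v (I + m)) := by positivity
    calc lo ≤ 22 / p.rho ^ 2 * (sb * (2 * V.b v (I + m) + BB V v (I + m))) :=
          mul_le_mul_of_nonneg_left h3 (by positivity)
      _ ≤ _ := mul_le_mul_of_nonneg_right h2 h4
  refine le_D hp (V := V.rot v s) μ fun K' hK' => ?_
  refine le_of_forall_pos_le_add fun δ hδ => ?_
  obtain ⟨K, hK⟩ := exists_near hp V (I + m) μ (sl := min δ (dl * p.lam (I + m)))
    (lt_min hδ (by positivity))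
  have hKthin : NearOpt p V (I + m) μ K (dl * p.lam (I + m)) :=
    ⟨hK.1, hK.2.trans (by linarith [min_le_right δ (dl * p.lam (I + m))])⟩
  have hmain := hlev μ _ K hK K' hK' t ht0
  have hKp : 0 < (gau (V.H (I + m))).real K := hK.1.2.2.2.2
  set eK := (∫ x in K, ⟪V.Q (I + m) v, x⟫ ^ 2 ∂(gau (V.H (I + m)))) / (gau (V.H (I + m))).real K
    with heK
  have heK1 : eK ≤ (1 - c') * al ^ 2 := by
    rw [heK, div_le_iff₀ hKp]
    rcases eq_or_ne (V.Q (I + m) v) 0 with h | h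
    · have : al = 0 := by rw [hal, h, norm_zero]
      rw [this, h]
      simp
    · have hpos : 0 < al := norm_pos_iff.2 h
      have h2 := hthin K hKthin (al⁻¹ • V.Q (I + m) v)
        (by rw [norm_smul, norm_inv, Real.norm_of_nonneg hpos.le, ← hal, inv_mul_cancel₀ hpos.ne'])
        (by rw [map_smul, F6b696.Q_Q_self])
      have h3 : ∫ x in K, ⟪V.Q (I + m) v, x⟫ ^ 2 ∂(gau (V.H (I + m)))
          = al ^ 2 * ∫ x in K, ⟪al⁻¹ • V.Q (I + m) v, x⟫ ^ 2 ∂(gau (V.H (I + m))) := by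
        rw [← integral_const_mul]
        refine integral_congr_ae (Eventually.of_forall fun x => ?_)
        simp only [inner_smul_left, conj_trivial]
        field_simp
      rw [h3]
      calc al ^ 2 * ∫ x in K, ⟪al⁻¹ • V.Q (I + m) v, x⟫ ^ 2 ∂(gau (V.H (I + m)))
          ≤ al ^ 2 * ((1 - c') * (gau (V.H (I + m))).real K) :=
            mul_le_mul_of_nonneg_left h2 (sq_nonneg _)
        _ = _ := by ring
  have hgain := num_gain hc0 hc1 hsb0 hsb8 (sq_nonneg al) hal1 heK1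
  have hhalf : (0 : ℝ) < (1 / 2) ^ m := by positivity
  have hminδ := min_le_left δ (dl * p.lam (I + m))
  -- the numeric inequality per unit of `lam_i`
  have hC9 : 27 / e ≤ C9 := by
    have : 27 / e = 864 / (c' * sb) := by rw [he]; field_simp; norm_num
    rw [this]; linarith
  have hC91 : 1 ≤ C9 := by
    have : 0 ≤ 864 / (c' * sb) := by positivity
    linarith
  have hunit := num_unit hc0 hc1 hsb0 hsb8 hb0 hbs0 hBB hal2 hbs hlo1 hgain hC91
  rw [← he] at hunit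
  have hunit' := mul_le_mul_of_nonneg_left hunit hl.le
  have hw' : e * p.lam (I + m) * ‖w‖ ^ 2 ≤ e * p.lam (I + m) * (4 / 3 * V.b v (I + m)) :=
    mul_le_mul_of_nonneg_left hw (by positivity)
  have hC9' : 27 / e * p.lam I * (1 / 2) ^ m ≤ C9 * p.lam I * (1 / 2) ^ m :=
    mul_le_mul_of_nonneg_right (mul_le_mul_of_nonneg_right hC9 hlI.le) hhalf.le
  have e1 : s * t * S μ v = t * (s * S μ v) := by ring
  rw [e1] at hmain
  linarith

end Crest.Agent.R239.LevU772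

namespace Crest.Agent.R239

open Crest.Agent.R239.FD

/-- **block F6** -/
theorem target_lev : Target_LEV := by
  intro c' dl hc0 hc1 hdl
  set s : ℝ := c' / 16 with hs
  have h0 : 0 < s := by positivity
  have hsb0 : 0 < 2 * s - s ^ 2 := by nlinarith
  refine ⟨s, c' * (2 * s - s ^ 2) / 16, 9 + 864 / (c' * (2 * s - s ^ 2)), 1408 / c', h0,
    by linarith, by positivity, by positivity, fun d p hp hrho => ⟨?_, ?_⟩⟩
  · exact LevU772.levhi hp hc0 hc1 hdl h0 le_rfl hrho (by linarith)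
  · have hlo := LevLo300.levlo (E := EuclideanSpace ℝ (Fin d)) hp h0 (by linarith)
      (show 2 * s - s ^ 2 ≤ 1 / 2 by nlinarith)
    intro V μ v I i hv hS hI hin
    have h1 := hlo V μ v I i hv hS hI hin
    have h2 := Lev0285.BB_nonneg V v i
    have h3 := Lev0285.lam_pos hp i
    have h4 := Lev0285.lam_pos hp I
    have h5 : 0 ≤ 864 / (c' * (2 * s - s ^ 2)) := by positivity
    have h6 : 0 ≤ p.lam i * (864 / (c' * (2 * s - s ^ 2))) * BB V v i := by positivity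
    have h7 : 0 ≤ (864 / (c' * (2 * s - s ^ 2))) * p.lam I * (1 / 2) ^ (I - i) := by positivity
    linarith

end Crest.Agent.R239
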