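import Crest.Agent.R239.FDef

/-!
# R239, block F9 (helper689): the tilt estimate T1 for near-maximisers, from THIN and LEV
-/

set_option autoImplicit false
open MeasureTheory ProbabilityTheory Finset
open scoped RealInnerProductSpace

namespace Crest.Agent.R239.T1689

open Crest.Agent.R239 Crest.Agent.R239.FD

section flag

variable {E : Type*} [NormedAddCommGroup E] [InnerProductSpace ℝ E]

lemma Ts_injective {v : E} (hv : ‖v‖ = 1) {s : ℝ} (hs : s < 1) :
    Function.Injective (Ts v s) := by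
  intro x y hxy
  rw [Ts_apply, Ts_apply] at hxy
  have h1 : ⟪v, x⟫ = ⟪v, y⟫ := by
    have := congrArg (fun z => ⟪v, z⟫) hxy
    simp only [inner_sub_right, real_inner_smul_right, real_inner_self_eq_norm_sq, hv] at this
    have h2 : (1 - s) * (⟪v, x⟫ - ⟪v, y⟫) = 0 := by linarith
    rcases mul_eq_zero.mp h2 with h | h
    · linarith
    · linarith
  rw [h1] at hxy
  exact sub_left_injective hxy

lemma rot_k [FiniteDimensional ℝ E] (V : Flag E) {v : E} (hv : ‖v‖ = 1) {s : ℝ} (hs : s < 1)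
    (j : ℕ) : (V.rot v s).k j = V.k j := by
  have h : ∀ i, Module.finrank ℝ ((V.rot v s).M i) = Module.finrank ℝ (V.M i) := by
    intro i
    show Module.finrank ℝ ((V.M i).map (Ts v s).toLinearMap) = _
    exact (LinearEquiv.finrank_eq (Submodule.equivMapOfInjective _ (Ts_injective hv hs) _)).symm
  unfold Flag.k
  rw [h, h]

lemma b_nonneg [FiniteDimensional ℝ E] (V : Flag E) (v : E) (i : ℕ) : 0 ≤ V.b v i := by
  unfold Flag.b; positivity

lemma b_le_one [FiniteDimensional ℝ E] (V : Flag E) {v : E} (hv : ‖v‖ = 1) (i : ℕ) :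
    V.b v i ≤ 1 := by
  unfold Flag.b Flag.P
  have : ‖(V.M i).starProjection v‖ ≤ ‖v‖ := Submodule.norm_starProjection_apply_le _ _
  rw [hv] at this
  nlinarith [norm_nonneg ((V.M i).starProjection v)]

end flag

section num

lemma geo_A {A : ℝ} (hA : 16 ≤ A) (n : ℕ) :
    ∑ i ∈ range n, A ^ i * (25 / 8 : ℝ) ^ (n - i) ≤ 4 / A * A ^ n := by
  have hA0 : (0:ℝ) < A := by linarith
  induction n with
  | zero => simp; positivity
  | succ n ih =>
    rw [sum_range_succ]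
    have e : ∑ i ∈ range n, A ^ i * (25 / 8 : ℝ) ^ (n + 1 - i)
        = (25 / 8) * ∑ i ∈ range n, A ^ i * (25 / 8 : ℝ) ^ (n - i) := by
      rw [mul_sum]
      refine sum_congr rfl fun i hi => ?_
      rw [mem_range] at hi
      rw [Nat.sub_add_comm hi.le, pow_succ]; ring
    rw [e, Nat.add_sub_cancel_left, pow_one]
    have hp : (0:ℝ) < A ^ n := by positivity
    have h4 : 4 / A ≤ 1 / 4 := by rw [div_le_div_iff₀ hA0 (by norm_num)]; linarith
    have e2 : 4 / A * A ^ (n + 1) = 4 * A ^ n := by rw [pow_succ]; field_simp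
    rw [e2]
    nlinarith

lemma sum_BB {A τ : ℝ} (hτ : 0 < τ) (hA : 16 ≤ A) {b : ℕ → ℝ} (hb : ∀ i, 0 ≤ b i) (n : ℕ) :
    ∑ i ∈ range n, (τ * A ^ i) * (∑ j ∈ Ico (i + 1) n, (25 / 8 : ℝ) ^ (j - i) * b j)
      ≤ 4 / A * ∑ i ∈ range n, (τ * A ^ i) * b i := by
  have hA0 : (0:ℝ) < A := by linarith
  induction n with
  | zero => simp
  | succ n ih =>
    rw [sum_range_succ, sum_range_succ]
    have e1 : ∑ j ∈ Ico (n + 1) (n + 1), (25 / 8 : ℝ) ^ (j - n) * b j = 0 := by simp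
    rw [e1, mul_zero, add_zero]
    have e2 : ∀ i ∈ range n, (τ * A ^ i) * (∑ j ∈ Ico (i + 1) (n + 1), (25 / 8 : ℝ) ^ (j - i) * b j)
        = (τ * A ^ i) * (∑ j ∈ Ico (i + 1) n, (25 / 8 : ℝ) ^ (j - i) * b j)
          + τ * b n * (A ^ i * (25 / 8 : ℝ) ^ (n - i)) := by
      intro i hi
      rw [mem_range] at hi
      rw [Finset.sum_Ico_succ_top (by omega)]
      ring
    rw [sum_congr rfl e2, sum_add_distrib, ← mul_sum, mul_add]
    refine add_le_add ih ?_
    have := mul_le_mul_of_nonneg_left (geo_A hA n) (by have := hb n; positivity : 0 ≤ τ * b n)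
    refine this.trans (le_of_eq ?_)
    ring

lemma sum_lam_le {A τ : ℝ} (hτ : 0 < τ) (hA : 16 ≤ A) (I : ℕ) :
    ∑ i ∈ range (I + 1), τ * A ^ i ≤ 2 * (τ * A ^ I) := by
  have hA0 : (0:ℝ) < A := by linarith
  induction I with
  | zero => simp; linarith
  | succ I ih =>
    rw [sum_range_succ]
    have : 0 < τ * A ^ I := by positivity
    have e : τ * A ^ (I + 1) = A * (τ * A ^ I) := by ring
    rw [e]
    nlinarith

lemma sum_w_le (I n : ℕ) :
    ∑ i ∈ range n, (if i ≤ I then (1 / 2 : ℝ) ^ (I - i) else (1 / 2 : ℝ) ^ (i - I)) ≤ 4 := by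
  have h1 : ∑ i ∈ range n, (if i ≤ I then (1 / 2 : ℝ) ^ (I - i) else (1 / 2 : ℝ) ^ (i - I))
      ≤ ∑ i ∈ range (I + 1) ∪ Ico (I + 1) n,
        (if i ≤ I then (1 / 2 : ℝ) ^ (I - i) else (1 / 2 : ℝ) ^ (i - I)) := by
    refine sum_le_sum_of_subset_of_nonneg ?_ ?_
    · intro i hi
      rw [mem_range] at hi
      rw [mem_union, mem_range, mem_Ico]; omega
    · intro i _ _; split_ifs <;> positivity
  refine h1.trans ?_
  rw [sum_union (by
    rw [disjoint_left]; intro i hi; rw [mem_range] at hi; rw [mem_Ico]; omega)]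
  have h2 : ∑ i ∈ range (I + 1), (if i ≤ I then (1 / 2 : ℝ) ^ (I - i) else (1 / 2 : ℝ) ^ (i - I))
      ≤ 2 := by
    have e : ∑ i ∈ range (I + 1), (if i ≤ I then (1 / 2 : ℝ) ^ (I - i) else (1 / 2 : ℝ) ^ (i - I))
        = ∑ i ∈ range (I + 1), (1 / 2 : ℝ) ^ (I + 1 - 1 - i) := by
      refine sum_congr rfl fun i hi => ?_
      rw [mem_range] at hi
      rw [if_pos (by omega)]; simp
    rw [e, sum_range_reflect (fun i => (1 / 2 : ℝ) ^ i)]
    exact sum_geometric_two_le _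
  have h3 : ∑ i ∈ Ico (I + 1) n, (if i ≤ I then (1 / 2 : ℝ) ^ (I - i) else (1 / 2 : ℝ) ^ (i - I))
      ≤ 2 := by
    rw [sum_Ico_eq_sum_range]
    refine le_trans (sum_le_sum fun i _ => ?_) (sum_geometric_two_le (n - (I + 1)))
    rw [if_neg (by omega)]
    exact pow_le_pow_of_le_one (by norm_num) (by norm_num) (by omega)
  linarith

/-- the numerical core of T1 -/
lemma t1_num {A τ c9 C9 e0 : ℝ} (hτ : 0 < τ) (hA : 16 ≤ A) (hc9 : 0 < c9) (hC9 : 0 < C9)
    (hA2 : 8 * C9 / c9 ≤ A) (he0 : e0 ≤ τ) {b Dv Dr : ℕ → ℝ} (hb : ∀ i, 0 ≤ b i)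
    (hb1 : ∀ i, b i ≤ 1) (I n : ℕ) (hsum : ∑ i ∈ range n, Dr i ≤ ∑ i ∈ range n, Dv i + e0)
    (hhi : ∀ i, I < i → i < n → Dv i + (τ * A ^ i) * (c9 * b i
      - C9 * ∑ j ∈ Ico (i + 1) n, (25 / 8 : ℝ) ^ (j - i) * b j)
      - C9 * (τ * A ^ I) * (1 / 2) ^ (i - I) ≤ Dr i)
    (hlo : ∀ i, i ≤ I → i < n → Dv i - (τ * A ^ i) * C9 *
      (∑ j ∈ Ico (i + 1) n, (25 / 8 : ℝ) ^ (j - i) * b j)
      - C9 * (τ * A ^ I) * (1 / 2) ^ (I - i) ≤ Dr i) :
    ∑ i ∈ Ico (I + 1) n, (τ * A ^ i) * b i ≤ (2 * (1 + 5 * C9) / c9) * (τ * A ^ I) := by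
  have hA0 : (0:ℝ) < A := by linarith
  set B : ℕ → ℝ := fun i => ∑ j ∈ Ico (i + 1) n, (25 / 8 : ℝ) ^ (j - i) * b j with hB
  set w : ℕ → ℝ := fun i => if i ≤ I then (1 / 2 : ℝ) ^ (I - i) else (1 / 2 : ℝ) ^ (i - I) with hw
  set g : ℕ → ℝ := fun i => if I < i then (τ * A ^ i) * b i else 0 with hg
  have key : ∀ i ∈ range n, Dv i + c9 * g i - C9 * ((τ * A ^ i) * B i) - C9 * (τ * A ^ I) * w i
      ≤ Dr i := by
    intro i hi
    rw [mem_range] at hi
    by_cases h : I < i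
    · have := hhi i h hi
      simp only [hg, hw, if_pos h, if_neg (not_le.mpr h)]
      refine le_trans (le_of_eq ?_) this
      ring
    · have h' : i ≤ I := not_lt.mp h
      have := hlo i h' hi
      simp only [hg, hw, if_neg h, if_pos h']
      refine le_trans (le_of_eq ?_) this
      ring
  have hs := sum_le_sum key
  rw [sum_sub_distrib, sum_sub_distrib, sum_add_distrib, ← mul_sum, ← mul_sum, ← mul_sum] at hs
  have hX : ∑ i ∈ range n, g i = ∑ i ∈ Ico (I + 1) n, (τ * A ^ i) * b i := by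
    rw [hg, ← sum_filter]
    refine sum_congr ?_ fun _ _ => rfl
    ext i; simp only [mem_filter, mem_range, mem_Ico]; omega
  have hw4 : ∑ i ∈ range n, w i ≤ 4 := sum_w_le I n
  have hBB : ∑ i ∈ range n, (τ * A ^ i) * B i ≤ 4 / A * ∑ i ∈ range n, (τ * A ^ i) * b i :=
    sum_BB hτ hA hb n
  have hY : ∑ i ∈ range n, (τ * A ^ i) * b i
      ≤ 2 * (τ * A ^ I) + ∑ i ∈ Ico (I + 1) n, (τ * A ^ i) * b i := by
    have h1 : ∑ i ∈ range n, (τ * A ^ i) * b i
        ≤ ∑ i ∈ range (I + 1) ∪ Ico (I + 1) n, (τ * A ^ i) * b i := by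
      refine sum_le_sum_of_subset_of_nonneg ?_ ?_
      · intro i hi
        rw [mem_range] at hi
        rw [mem_union, mem_range, mem_Ico]; omega
      · intro i _ _
        have := hb i
        positivity
    rw [sum_union (by
      rw [disjoint_left]; intro i hi; rw [mem_range] at hi; rw [mem_Ico]; omega)] at h1
    have h2 : ∑ i ∈ range (I + 1), (τ * A ^ i) * b i ≤ ∑ i ∈ range (I + 1), τ * A ^ i := by
      refine sum_le_sum fun i _ => ?_
      have : 0 ≤ τ * A ^ i := by positivity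
      nlinarith [hb1 i]
    have h3 := sum_lam_le hτ hA I
    linarith
  rw [hX] at hs
  set X := ∑ i ∈ Ico (I + 1) n, (τ * A ^ i) * b i with hXdef
  set L := τ * A ^ I with hL
  have hL0 : 0 < L := by positivity
  have hτL : τ ≤ L := by
    rw [hL]
    have : (1:ℝ) ≤ A ^ I := one_le_pow₀ (by linarith)
    nlinarith
  have hX0 : 0 ≤ X := by
    refine sum_nonneg fun i _ => ?_
    have := hb i
    positivity
  -- c9 X ≤ e0 + C9 * (4/A) (2 L + X) + 4 C9 L
  have hAinv : C9 * (4 / A) ≤ c9 / 2 := by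
    rw [div_le_iff₀ hc9] at hA2
    rw [mul_div_assoc', div_le_iff₀ hA0]
    linarith
  have h5 : C9 * ∑ i ∈ range n, (τ * A ^ i) * B i ≤ C9 * (4 / A) * (2 * L + X) := by
    have : ∑ i ∈ range n, (τ * A ^ i) * B i ≤ 4 / A * (2 * L + X) :=
      hBB.trans (mul_le_mul_of_nonneg_left hY (by positivity))
    calc _ ≤ C9 * (4 / A * (2 * L + X)) := mul_le_mul_of_nonneg_left this hC9.le
      _ = _ := by ring
  have h6 : C9 * (4 / A) * (2 * L) ≤ C9 / 2 * L := by
    have : 4 / A ≤ 1 / 4 := by rw [div_le_div_iff₀ hA0 (by norm_num)]; linarith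
    nlinarith [mul_pos hC9 hL0]
  have h7 : C9 * (4 / A) * X ≤ c9 / 2 * X := mul_le_mul_of_nonneg_right hAinv hX0
  have h8 : C9 * L * ∑ i ∈ range n, w i ≤ C9 * L * 4 :=
    mul_le_mul_of_nonneg_left hw4 (by positivity)
  have h9 : c9 / 2 * X ≤ (1 + 5 * C9) * L := by nlinarith [mul_pos hC9 hL0]
  have : X ≤ (2 / c9) * ((1 + 5 * C9) * L) := by
    rw [div_mul_eq_mul_div, le_div_iff₀ hc9]; linarith
  refine this.trans (le_of_eq ?_)
  field_simp

end num

/-- **T1 from THIN and the level comparisons** -/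
theorem target_t1 (hT : Target_THIN) (hL : Target_LEV) : Target_T1 := by
  intro kap hk0 hk1
  obtain ⟨c', dl, rhoT, hc0, hc1, hdl, hThin⟩ := hT kap hk0 hk1
  obtain ⟨s, c9, C9, rhoL, hs0, hs1, hc9, hC9, hLev⟩ := hL c' dl hc0 hc1 hdl
  refine ⟨2 * (1 + 5 * C9) / c9, min dl 1, max rhoT rhoL, 8 * C9 / c9, by positivity,
    lt_min hdl one_pos, ?_⟩
  intro d p hp hpk hpr hpA V μ I v hv hS hN
  have hA : 16 ≤ p.A := hp.A_ge
  have hτ := hp.tau_pos
  have hA0 : (0:ℝ) < p.A := by linarith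
  obtain ⟨hhi, hlo⟩ := hLev d p hp ((le_max_right _ _).trans hpr)
  have hThin' := hThin d p hp hpk ((le_max_left _ _).trans hpr)
  have hlamτ : ∀ i, p.tau ≤ p.lam i := by
    intro i
    unfold Par.lam
    have : (1:ℝ) ≤ p.A ^ i := one_le_pow₀ (by linarith)
    nlinarith
  -- the rotated flag
  have hJ := hN (V.rot v s)
  have hn : (V.rot v s).n = V.n := rfl
  unfold J at hJ
  rw [hn] at hJ
  simp only [rot_k V hv hs1] at hJ
  rw [sum_sub_distrib, sum_sub_distrib] at hJ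
  have he0 : min dl 1 * p.tau ≤ p.tau := by
    have := min_le_right dl 1
    nlinarith
  have hthinI : ∀ i, I < i → ThinAt p V μ i c' dl := by
    intro i hi
    refine hThin' V μ i (by omega) ?_
    intro V'
    refine (hN V').trans ?_
    have h1 := min_le_left dl 1
    have h2 := hlamτ i
    nlinarith
  exact t1_num (A := p.A) (τ := p.tau) (c9 := c9) (C9 := C9) (e0 := min dl 1 * p.tau) hτ hA hc9 hC9
    hpA he0 (b := V.b v) (Dv := fun i => D p V i μ) (Dr := fun i => D p (V.rot v s) i μ)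
    (b_nonneg V v) (b_le_one V hv) I V.n (by linarith)
    (fun i hi hin => hhi V μ v I i hv hS hi hin (hthinI i hi))
    (fun i hi hin => hlo V μ v I i hv hS hi hin)

end Crest.Agent.R239.T1689
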