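import Crest.Agent.R239.Lv2_264
import Crest.Agent.R239.F5_411
import Crest.Agent.R239.PRot_711
import Crest.Agent.R239.RemLev_864
import Crest.Agent.R239.F6b_696
import Crest.Agent.R239.Cap_526
import Crest.Agent.R239.T1_689

/-! # R239, `target_lev : Target_LEV` (helper264)

All cuts on the side of `V` after the comparison; the gain comes from the thinness of the pulled
back body itself (either it is not near-optimal, or it is thin). -/

set_option autoImplicit false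
set_option linter.unusedSectionVars false
open MeasureTheory ProbabilityTheory Set Filter Topology
open scoped RealInnerProductSpace ENNReal NNReal

namespace Crest.Agent.R239.Lv264

open Crest.Agent.R239 Crest.Agent.R239.FD

variable {E : Type*} [NormedAddCommGroup E] [InnerProductSpace ℝ E] [FiniteDimensional ℝ E]
  [MeasurableSpace E] [BorelSpace E]

lemma th_pos : (0 : ℝ) < th := by norm_num [th]

/-! ### the pointwise bound of `qN` -/

lemma norm_P_sq_le (V : Flag E) {i j : ℕ} (hij : i ≤ j) (hj : j ≤ V.n) (x : E) :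
    ‖V.P j x‖ ^ 2 ≤ th ^ (j - i) * V.N i x := by
  have h1 : ‖V.P j x‖ ^ 2 = ∑ l ∈ Finset.Ico j V.n, ‖V.Q l x‖ ^ 2 := by
    have h2 := Mom764.sum_norm_Q_sq V.anti hj x
    rw [V.bot _ le_rfl] at h2
    have h3 : ∑ l ∈ Finset.Ico j V.n, ‖V.Q l x‖ ^ 2 = ∑ l ∈ Finset.Ico j V.n, ‖Mom764.Q V.M l x‖ ^ 2 := rfl
    rw [h3, h2]
    simp [Flag.P]
  have hth := th_pos
  rw [h1, Flag.N, Finset.mul_sum]
  have hA : ∀ l ∈ Finset.Ico j V.n, ‖V.Q l x‖ ^ 2
      ≤ th ^ (j - i) * ((th⁻¹) ^ (l - i) * ‖V.Q l x‖ ^ 2) := by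
    intro l hl
    rw [Finset.mem_Ico] at hl
    have h4 : th ^ (j - i) * (th⁻¹) ^ (l - i) = (th⁻¹) ^ (l - j) := by
      have : l - i = (j - i) + (l - j) := by omega
      rw [this, pow_add, ← mul_assoc, ← mul_pow, mul_inv_cancel₀ hth.ne', one_pow, one_mul]
    have h5 : (1 : ℝ) ≤ (th⁻¹) ^ (l - j) := one_le_pow₀ (by norm_num [th])
    rw [← mul_assoc, h4]
    nlinarith [sq_nonneg ‖V.Q l x‖]
  refine (Finset.sum_le_sum hA).trans
    (Finset.sum_le_sum_of_subset_of_nonneg (Finset.Ico_subset_Ico_left hij) ?_)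
  intro l _ _
  positivity

lemma sum_half (k : ℕ) : ∑ l ∈ Finset.range k, ((1 : ℝ) / 2) ^ (l + 1) = 1 - (1 / 2) ^ k := by
  induction k with
  | zero => simp
  | succ k ih => rw [Finset.sum_range_succ, ih]; ring

lemma sum_half_le (i n : ℕ) : ∑ j ∈ Finset.Ico (i + 1) n, ((1 : ℝ) / 2) ^ (j - i) ≤ 1 := by
  rw [Finset.sum_Ico_eq_sum_range]
  have : ∀ l ∈ Finset.range (n - (i + 1)), ((1 : ℝ) / 2) ^ (i + 1 + l - i) = (1 / 2) ^ (l + 1) := by
    intro l _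
    congr 1; omega
  rw [Finset.sum_congr rfl this, sum_half]
  have : (0 : ℝ) ≤ (1 / 2) ^ (n - (i + 1)) := by positivity
  linarith

lemma b_nonneg (V : Flag E) (v : E) (j : ℕ) : 0 ≤ V.b v j := sq_nonneg _

lemma b_le_one (V : Flag E) {v : E} (hv : ‖v‖ = 1) (j : ℕ) : V.b v j ≤ 1 :=
  PRot711.b_le_one V hv j

lemma BB_nonneg (V : Flag E) (v : E) (i : ℕ) : 0 ≤ BB V v i :=
  Finset.sum_nonneg fun j _ => mul_nonneg (by positivity) (b_nonneg V v j)

/-- one summand of `qN` -/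
lemma term_le {m : ℕ} {xi a b bi N sb : ℝ} (hb0 : 0 ≤ b) (hsb0 : 0 ≤ sb) (hsb : sb * b < 1)
    (hN : 0 ≤ N) (hxi : xi ^ 2 ≤ bi * N) (hze : (xi - a) ^ 2 ≤ b * (th ^ m * N)) :
    omN m * (xi ^ 2 - a ^ 2 / (1 - sb * b))
      ≤ 1 / 5 * (1 / 2) ^ m * (bi * N) + 1 / 5 * ((25 / 8) ^ m * b * N) := by
  have h1 : a ^ 2 ≤ a ^ 2 / (1 - sb * b) := by
    rw [le_div_iff₀ (by linarith)]
    nlinarith [mul_nonneg (mul_nonneg hsb0 hb0) (sq_nonneg a)]
  have hom : omN m = (5 / 4) ^ m * (1 / 5) := by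
    unfold omN th; norm_num
  have homp : 0 ≤ omN m := by rw [hom]; positivity
  have hl : (0 : ℝ) < (2 / 5) ^ m := by positivity
  have h2 : xi ^ 2 - a ^ 2 ≤ (2 / 5) ^ m * xi ^ 2 + (xi - a) ^ 2 / (2 / 5) ^ m := by
    have h3 : 0 ≤ ((2 / 5) ^ m * xi - (xi - a)) ^ 2 / (2 / 5) ^ m := by positivity
    have h4 : ((2 / 5) ^ m * xi - (xi - a)) ^ 2 / (2 / 5) ^ m
        = (2 / 5) ^ m * xi ^ 2 - 2 * xi * (xi - a) + (xi - a) ^ 2 / (2 / 5) ^ m := by
      field_simp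
      ring
    have h5 : xi ^ 2 - a ^ 2 = 2 * xi * (xi - a) - (xi - a) ^ 2 := by ring
    nlinarith [sq_nonneg (xi - a)]
  have e1 : (5 / 4 : ℝ) ^ m * (2 / 5) ^ m = (1 / 2) ^ m := by rw [← mul_pow]; norm_num
  have e2 : (5 / 4 : ℝ) ^ m / (2 / 5) ^ m * th ^ m = (5 / 2) ^ m := by
    unfold th; rw [← div_pow, ← mul_pow]; norm_num
  have e3 : (5 / 2 : ℝ) ^ m ≤ (25 / 8) ^ m := pow_le_pow_left₀ (by norm_num) (by norm_num) m
  calc omN m * (xi ^ 2 - a ^ 2 / (1 - sb * b))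
      ≤ omN m * ((2 / 5) ^ m * xi ^ 2 + (xi - a) ^ 2 / (2 / 5) ^ m) :=
        mul_le_mul_of_nonneg_left (by linarith) homp
    _ = 1 / 5 * (1 / 2) ^ m * xi ^ 2 + 1 / 5 * ((5 / 4) ^ m / (2 / 5) ^ m * (xi - a) ^ 2) := by
        rw [hom, ← e1]; ring
    _ ≤ 1 / 5 * (1 / 2) ^ m * (bi * N) + 1 / 5 * ((5 / 4) ^ m / (2 / 5) ^ m * (b * (th ^ m * N))) := by
        gcongr
    _ = 1 / 5 * (1 / 2) ^ m * (bi * N) + 1 / 5 * ((5 / 2) ^ m * b * N) := by
        rw [← e2]; ring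
    _ ≤ _ := by gcongr

lemma inner_P_sq_le (V : Flag E) (v x : E) (j : ℕ) :
    ⟪V.P j v, x⟫ ^ 2 ≤ V.b v j * ‖V.P j x‖ ^ 2 := by
  have h1 : ⟪V.P j v, x⟫ = ⟪V.P j v, V.P j x⟫ := by
    show ⟪(V.M j).starProjection v, x⟫ = ⟪(V.M j).starProjection v, (V.M j).starProjection x⟫
    rw [← Submodule.inner_starProjection_left_eq_right, Submodule.starProjection_eq_self_iff.2
      (Submodule.starProjection_apply_mem _ _)]
  have h2 := abs_real_inner_le_norm (V.P j v) (V.P j x)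
  rw [h1, ← sq_abs]
  unfold Flag.b
  rw [← mul_pow]
  exact pow_le_pow_left₀ (abs_nonneg _) h2 2

theorem qN_le (V : Flag E) {v : E} (hv : ‖v‖ = 1) {sb : ℝ} (h0 : 0 ≤ sb) (h1 : sb < 1)
    {i : ℕ} (hi : i ≤ V.n) {x : E} (hx : x ∈ V.M i) :
    qN V v sb i x ≤ sb * (2 * V.b v i + BB V v i) * V.N i x := by
  have hN := Lev964.N_nonneg V i x
  have hPx : V.P i x = x := Submodule.starProjection_eq_self_iff.2 hx
  have hxi : ⟪v, x⟫ ^ 2 ≤ V.b v i * V.N i x := by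
    have h2 : ⟪v, x⟫ = ⟪V.P i v, x⟫ := by
      show ⟪v, x⟫ = ⟪(V.M i).starProjection v, x⟫
      rw [Submodule.inner_starProjection_left_eq_right]
      rw [show (V.M i).starProjection x = x from hPx]
    rw [h2]
    refine (inner_P_sq_le V v x i).trans ?_
    rw [hPx]
    exact mul_le_mul_of_nonneg_left (Lev964.norm_sq_le_N V hx) (b_nonneg V v i)
  have hterm : ∀ j ∈ Finset.Ico (i + 1) V.n,
      omN (j - i) * (⟪v, x⟫ ^ 2 - ⟪v - V.P j v, x⟫ ^ 2 / (1 - sb * V.b v j))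
      ≤ 1 / 5 * (1 / 2) ^ (j - i) * (V.b v i * V.N i x)
        + 1 / 5 * ((25 / 8) ^ (j - i) * V.b v j * V.N i x) := by
    intro j hj
    rw [Finset.mem_Ico] at hj
    have hb1 := b_le_one V hv j
    have hb0 := b_nonneg V v j
    refine term_le hb0 h0 (by nlinarith) hN hxi ?_
    have : ⟪v, x⟫ - ⟪v - V.P j v, x⟫ = ⟪V.P j v, x⟫ := by rw [inner_sub_left]; ring
    rw [this]
    refine (inner_P_sq_le V v x j).trans ?_
    exact mul_le_mul_of_nonneg_left (norm_P_sq_le V (by omega) (by omega) x) hb0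
  have hsum := Finset.sum_le_sum hterm
  rw [Finset.sum_add_distrib, ← Finset.sum_mul, ← Finset.mul_sum, ← Finset.mul_sum,
    ← Finset.sum_mul] at hsum
  have hh := sum_half_le i V.n
  have hbN : 0 ≤ V.b v i * V.N i x := mul_nonneg (b_nonneg V v i) hN
  have hBB := mul_nonneg (BB_nonneg V v i) hN
  unfold qN
  have h6 : 1 / 5 * (∑ j ∈ Finset.Ico (i + 1) V.n, ((1 : ℝ) / 2) ^ (j - i)) * (V.b v i * V.N i x)
      ≤ 1 / 5 * (V.b v i * V.N i x) := by nlinarith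
  have h7 : (∑ j ∈ Finset.Ico (i + 1) V.n, (25 / 8 : ℝ) ^ (j - i) * V.b v j) * V.N i x
      = BB V v i * V.N i x := rfl
  rw [h7] at hsum
  have h8 : ⟪v, x⟫ ^ 2 + ∑ j ∈ Finset.Ico (i + 1) V.n,
      omN (j - i) * (⟪v, x⟫ ^ 2 - ⟪v - V.P j v, x⟫ ^ 2 / (1 - sb * V.b v j))
      ≤ (2 * V.b v i + BB V v i) * V.N i x := by nlinarith
  calc _ = sb * (⟪v, x⟫ ^ 2 + ∑ j ∈ Finset.Ico (i + 1) V.n,
      omN (j - i) * (⟪v, x⟫ ^ 2 - ⟪v - V.P j v, x⟫ ^ 2 / (1 - sb * V.b v j))) := by ring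
    _ ≤ sb * ((2 * V.b v i + BB V v i) * V.N i x) := mul_le_mul_of_nonneg_left h8 h0
    _ = _ := by ring

theorem cap_point (V : Flag E) {v : E} (hv : ‖v‖ = 1) {s : ℝ} (h0 : 0 < s) (h1 : s < 1)
    {i : ℕ} (hi : i ≤ V.n) {x : E} (hx : x ∈ V.M i) :
    (1 - (2 * s - s ^ 2) * (2 * V.b v i + BB V v i)) * V.N i x ≤ (V.rot v s).N i (Ts v s x) := by
  rw [PRot711.p_rotN V v s i x hv h0 h1 hx]
  have := qN_le V hv (PRot711.sbar_pos h0 h1).le (PRot711.sbar_lt_one h1) hi hx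
  nlinarith

lemma rr_rot (V : Flag E) {v : E} (hv : ‖v‖ = 1) {s : ℝ} (h1 : s < 1) (i : ℕ) :
    (V.rot v s).rr i = V.rr i := by
  unfold Flag.rr
  refine Finset.sum_congr rfl fun j _ => ?_
  rw [T1689.rot_k V hv h1]

/-! ### one level -/

lemma H_of_Q (V : Flag E) {i : ℕ} (hi : i < V.n) {n : E} (hn : V.Q i n = n) : V.H i n = n := by
  have h1 : V.H i n = ∑ j ∈ Finset.Ico i V.n, th ^ (j - i) • V.Q j n := by
    unfold Flag.H
    simp
  rw [h1, Finset.sum_eq_single_of_mem i (Finset.mem_Ico.2 ⟨le_rfl, hi⟩)]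
  · simp [hn]
  · intro j _ hj
    rw [← hn]
    have : V.Q j (V.Q i n) = 0 := Mom764.Q_Q_ne V.anti hj n
    rw [this, smul_zero]

lemma thin_pull (V : Flag E) {i : ℕ} (hi : i < V.n) {n : E} (hn : V.Q i n = n) {K : Set E}
    (hK : MeasurableSet K) :
    ∫ x in K, ⟪n, x⟫ ^ 2 ∂(gau (V.H i)) = ∫ x in V.H i ⁻¹' K, ⟪n, x⟫ ^ 2 ∂(stdGaussian E) := by
  unfold gau
  rw [setIntegral_map hK (by fun_prop) (V.H i).continuous.aemeasurable]
  have : ∀ g : E, ⟪n, V.H i g⟫ = ⟪n, g⟫ := fun g => by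
    rw [← Lev964.inner_H, H_of_Q V hi hn]
  simp only [this]

/-- direction of the gain -/
lemma exists_dir (V : Flag E) (v : E) (hv : ‖v‖ = 1) (i : ℕ) :
    ∃ n : E, ‖n‖ = 1 ∧ (∀ g, ‖V.Q i v‖ ^ 2 * ⟪n, g⟫ ^ 2 = ⟪V.Q i v, g⟫ ^ 2) ∧
      (V.Q i v ≠ 0 → V.Q i n = n) := by
  by_cases hq : V.Q i v = 0
  · exact ⟨v, hv, fun g => by simp [hq], fun h => absurd hq h⟩
  · have hq' : ‖V.Q i v‖ ≠ 0 := norm_ne_zero_iff.2 hq
    refine ⟨‖V.Q i v‖⁻¹ • V.Q i v, ?_, fun g => ?_, fun _ => ?_⟩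
    · rw [norm_smul, norm_inv, norm_norm, inv_mul_cancel₀ hq']
    · rw [real_inner_smul_left, mul_pow, ← mul_assoc, ← mul_pow, mul_inv_cancel₀ hq', one_pow,
        one_mul]
    · rw [map_smul]
      congr 1
      exact Mom764.Q_Q V.anti i v

/-- both cases: with the gain -/
theorem one_level {p : Par} (hp : p.Ok) (hρ : 32 ≤ p.rho) (V : Flag E) {v : E} (hv : ‖v‖ = 1)
    {s : ℝ} (hs0 : 0 < s) (hs1 : s < 1) (hsb : 2 * s - s ^ 2 ≤ 1 / 2) {i : ℕ} (hi : i < V.n)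
    (μ : Multiset E) {K' : Set E} (hK' : Adm p (V.rot v s) i K') :
    ∃ ω' : E, ‖ω'‖ ^ 2 ≤ 4 / 3 * V.b v i ∧ ∀ t : ℝ, 0 < t →
      0 < (stdGaussian E).real {g | |⟪ω', g⟫| ≤ t} →
      D p V i μ ≤ val p (V.rot v s) i μ K' + s * t * S μ v
        + p.lam i * (2 / 3 * ((2 * s - s ^ 2) * BB V v i)
          + 64 / 3 * ((2 * s - s ^ 2) * (2 * V.b v i + BB V v i)) / p.rho ^ 2
          - Real.log ((stdGaussian E).real {g | |⟪ω', g⟫| ≤ t})) ∧
      (∀ c' dl : ℝ, 0 < c' → 0 < dl → 2 * s - s ^ 2 ≤ c' / 128 → ThinAt p V μ i c' dl →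
        D p V i μ + p.lam i * min dl ((2 * s - s ^ 2) / 2 * ‖V.Q i v‖ ^ 2 * c' / 4)
          ≤ val p (V.rot v s) i μ K' + s * t * S μ v
        + p.lam i * (2 / 3 * ((2 * s - s ^ 2) * BB V v i)
          + 64 / 3 * ((2 * s - s ^ 2) * (2 * V.b v i + BB V v i)) / p.rho ^ 2
          - Real.log ((stdGaussian E).real {g | |⟪ω', g⟫| ≤ t}))) := by
  set sb : ℝ := 2 * s - s ^ 2 with hsbdef
  have hsb0 : 0 < sb := PRot711.sbar_pos hs0 hs1
  have hlam : ∀ i, 0 < p.lam i := fun i => Rem864.lam_pos hp i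
  obtain ⟨J, u, hN, hu⟩ := F5411.f5_N V hv hs0 hs1 hsb i
  obtain ⟨n, hn, hnq, hQn⟩ := exists_dir V v hv i
  have hq1 : ‖V.Q i v‖ ^ 2 ≤ 1 := by
    have h1 : ‖V.Q i v‖ ^ 2 = ‖V.P i v‖ ^ 2 - ‖V.P (i + 1) v‖ ^ 2 := Mom764.norm_Q_sq V.anti i v
    have h2 := b_le_one V hv i
    unfold Flag.b at h2
    nlinarith [sq_nonneg ‖V.P (i + 1) v‖]
  have hq0 : 0 ≤ ‖V.Q i v‖ ^ 2 := by positivity
  have hs1' : 0 ≤ sb / 2 * ‖V.Q i v‖ ^ 2 := by positivity
  have hs1'' : sb / 2 * ‖V.Q i v‖ ^ 2 ≤ sb / 2 := by nlinarith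
  obtain ⟨ω', hω', hall⟩ := lev_gain (V := V) (W := V.rot v s) hp hρ (i := i) (v := v) (s := s)
    (by exact hi.le) hs0.le
    (fun x hx => Submodule.mem_map_of_mem hx)
    (h := sb * (2 * V.b v i + BB V v i))
    (by
      have := b_nonneg V v i
      have := BB_nonneg V v i
      positivity)
    (fun x hx => cap_point V hv hs0 hs1 hi.le hx) (rr_rot V hv hs1 i).le hK' J u hn
    (s₁ := sb / 2 * ‖V.Q i v‖ ^ 2) hs1' (by linarith)
    (by
      intro g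
      have h1 := hN g
      have h2 := hnq g
      have h3 : sb / 2 * ⟪V.Q i v, g⟫ ^ 2 = sb / 2 * ‖V.Q i v‖ ^ 2 * ⟪n, g⟫ ^ 2 := by
        rw [← h2]; ring
      linarith) μ
  refine ⟨ω', hω'.trans (mul_le_mul_of_nonneg_left (F5411.norm_H_le V i v) (by norm_num)),
    fun t ht hsl => ?_⟩
  obtain ⟨hadm, hval, hgain⟩ := hall t ht hsl
  have hDK := F6b696.D_le_val (μ := μ) (fun i => (hlam i).le) hadm
  have hub : p.lam i * (2 / 3 * ∑ k ∈ J, ‖u k‖ ^ 2) ≤ p.lam i * (2 / 3 * (sb * BB V v i)) := by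
    have := (hlam i).le
    gcongr
  refine ⟨by nlinarith, fun c' dl hc' hdl hsc hthin => ?_⟩
  set K := Lev964.pb p V i v s t K' with hK
  by_cases hno : val p V i μ K ≤ D p V i μ + dl * p.lam i
  · by_cases hq : V.Q i v = 0
    · have : min dl (sb / 2 * ‖V.Q i v‖ ^ 2 * c' / 4) ≤ 0 :=
        (min_le_right _ _).trans (by rw [hq]; simp)
      nlinarith [hlam i]
    · have hth := hthin K ⟨hadm, hno⟩ n hn (hQn hq)
      rw [thin_pull V hi (hQn hq) hadm.1.measurableSet,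
        gau_real_apply _ hadm.1.measurableSet] at hth
      have h5 := hgain c' (by linarith) hth
      have h6 : min dl (sb / 2 * ‖V.Q i v‖ ^ 2 * c' / 4) ≤ sb / 2 * ‖V.Q i v‖ ^ 2 * c' / 4 :=
        min_le_right _ _
      have h7 := mul_le_mul_of_nonneg_left h6 (hlam i).le
      linarith
  · push Not at hno
    have h6 : min dl (sb / 2 * ‖V.Q i v‖ ^ 2 * c' / 4) ≤ dl := min_le_left _ _
    have h7 := mul_le_mul_of_nonneg_left h6 (hlam i).le
    linarith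

lemma le_D {p : Par} (hp : p.Ok) (V : Flag E) (i : ℕ) (μ : Multiset E) {X : ℝ}
    (h : ∀ K, Adm p V i K → X ≤ val p V i μ K) : X ≤ D p V i μ := by
  unfold D
  refine le_csInf ⟨_, V.cap p.rho i, Cap526.adm_cap (by linarith [hp.rho_ge]) V i, rfl⟩ ?_
  rintro _ ⟨K, hK, rfl⟩
  exact h K hK

lemma S_nonneg (μ : Multiset E) (v : E) : 0 ≤ S μ v := by
  unfold S
  refine Multiset.sum_nonneg fun x hx => ?_
  rw [Multiset.mem_map] at hx
  obtain ⟨z, -, rfl⟩ := hx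
  exact abs_nonneg _

lemma gau_id : gau (ContinuousLinearMap.id ℝ E) = stdGaussian E := by
  unfold gau
  simp

lemma adjoint_id_apply (x : E) : (ContinuousLinearMap.id ℝ E).adjoint x = x := by
  rw [ContinuousLinearMap.adjoint_id]; rfl

lemma b_succ_le_BB (V : Flag E) (v : E) (i : ℕ) : V.b v (i + 1) ≤ BB V v i := by
  unfold BB
  by_cases h : i + 1 < V.n
  · refine le_trans ?_ (Finset.single_le_sum (f := fun j => (25 / 8 : ℝ) ^ (j - i) * V.b v j)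
      (fun j _ => mul_nonneg (by positivity) (b_nonneg V v j)) (Finset.mem_Ico.2 ⟨le_rfl, h⟩))
    have := b_nonneg V v (i + 1)
    have h2 : (25 / 8 : ℝ) ^ (i + 1 - i) = 25 / 8 := by
      rw [Nat.add_sub_cancel_left, pow_one]
    simp only [h2]
    linarith
  · have : V.b v (i + 1) = 0 := by
      have h1 : V.P (i + 1) v ∈ V.M (i + 1) := Submodule.starProjection_apply_mem _ _
      rw [V.bot (i + 1) (by omega), Submodule.mem_bot] at h1
      unfold Flag.b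
      rw [h1]
      simp
    rw [this]
    exact BB_nonneg V v i

section main

variable {p : Par} {s c' dl c3 : ℝ}

set_option maxHeartbeats 1000000 in
theorem lev_hi (hp : p.Ok) (hρ : 32 + 32 / c3 ≤ p.rho) (hs0 : 0 < s) (hs1 : s < 1)
    (hsc : 2 * s - s ^ 2 ≤ c' / 128) (hc' : 0 < c') (hc1 : c' < 1) (hdl : 0 < dl)
    (h3 : 0 < c3) (h3d : c3 ≤ dl) (h3s : c3 ≤ (2 * s - s ^ 2) * c' / 8) :
    P_LEVhi E p s c' dl (c3 / 2) (100 / c3) := by
  intro V μ v I i hv hS hIi hin hthin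
  set sb : ℝ := 2 * s - s ^ 2 with hsbdef
  have hsb0 : 0 < sb := PRot711.sbar_pos hs0 hs1
  have hsb1 : sb ≤ 1 := (PRot711.sbar_lt_one hs1).le
  have hc3 : c3 ≤ 1 / 8 := by nlinarith
  have hinv : 8 ≤ 1 / c3 := by rw [le_div_iff₀ h3]; linarith
  have hρ32 : 32 ≤ p.rho := by
    have : 0 < 32 / c3 := by positivity
    linarith
  have hlam : ∀ i, 0 < p.lam i := fun i => Rem864.lam_pos hp i
  refine le_D hp _ i μ fun K' hK' => ?_
  obtain ⟨ω', hω', hall⟩ := one_level hp hρ32 V hv hs0 hs1 (by linarith) hin μ hK'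
  obtain ⟨t, ht, hsl, hrem⟩ := Rem864.rem_hi hp hIi (S_nonneg μ v) hS hs0.le hs1.le
    (e := c3 / 8) (by positivity) (by linarith) (ContinuousLinearMap.id ℝ E) ω'
  rw [gau_id] at hsl hrem
  rw [adjoint_id_apply] at hrem
  obtain ⟨-, hg⟩ := hall t ht hsl
  have hG := hg c' dl hc' hdl hsc hthin
  set b := V.b v i with hb
  set B := BB V v i with hB
  have hb0 : 0 ≤ b := b_nonneg V v i
  have hB0 : 0 ≤ B := BB_nonneg V v i
  have hbs : V.b v (i + 1) ≤ B := b_succ_le_BB V v i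
  have hal : ‖V.Q i v‖ ^ 2 = b - V.b v (i + 1) := Mom764.norm_Q_sq V.anti i v
  have hb1 : b ≤ 1 := b_le_one V hv i
  have hal1 : ‖V.Q i v‖ ^ 2 ≤ 1 := by
    rw [hal]; linarith [b_nonneg V v (i + 1)]
  have hal0 : 0 ≤ ‖V.Q i v‖ ^ 2 := by positivity
  have hmin : c3 * (b - B) ≤ min dl (sb / 2 * ‖V.Q i v‖ ^ 2 * c' / 4) := by
    have h4 : c3 * (b - B) ≤ c3 * ‖V.Q i v‖ ^ 2 :=
      mul_le_mul_of_nonneg_left (by rw [hal]; linarith) h3.le
    refine le_min ?_ ?_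
    · nlinarith
    · have : c3 * ‖V.Q i v‖ ^ 2 ≤ sb * c' / 8 * ‖V.Q i v‖ ^ 2 :=
        mul_le_mul_of_nonneg_right h3s hal0
      nlinarith
  have hρsq : 1024 / c3 ≤ p.rho ^ 2 := by
    have h4 : 0 < 32 / c3 := by positivity
    have h5 : (32 + 32 / c3) ^ 2 ≤ p.rho ^ 2 := pow_le_pow_left₀ (by positivity) hρ 2
    have h6 : 1024 / c3 = 32 * (32 / c3) := by ring
    have h7 : (32 + 32 / c3) ^ 2 = 1024 + 2 * (32 * (32 / c3)) + (32 / c3) ^ 2 := by ring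
    have h8 : 0 ≤ (32 / c3) ^ 2 := by positivity
    linarith
  have hcapc : 64 / 3 * (sb * (2 * b + B)) / p.rho ^ 2 ≤ c3 / 6 * (2 * b + B) := by
    have h4 : 0 < p.rho ^ 2 := by positivity
    rw [div_le_iff₀ h4]
    have h5 : 64 ≤ c3 * p.rho ^ 2 := by
      have := mul_le_mul_of_nonneg_left hρsq h3.le
      have h6 : c3 * (1024 / c3) = 1024 := by field_simp
      linarith
    have h7 : 0 ≤ 2 * b + B := by positivity
    have h8 : sb * (2 * b + B) ≤ 1 * (2 * b + B) := mul_le_mul_of_nonneg_right hsb1 h7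
    nlinarith
  have hlI := hlam I
  have hli := hlam i
  have hpw : 0 < (1 / 2 : ℝ) ^ (i - I) := by positivity
  have hlin : c3 / 2 * b - 100 / c3 * B + (c3 / 6 * b) ≤ c3 * (b - B) - 2 / 3 * (sb * B)
      - c3 / 6 * (2 * b + B) := by
    have h4 : 8 * B ≤ 1 / c3 * B := mul_le_mul_of_nonneg_right hinv hB0
    have h5 : 100 / c3 * B = 100 * (1 / c3 * B) := by ring
    have h6 : sb * B ≤ 1 * B := mul_le_mul_of_nonneg_right hsb1 hB0
    have h7 : c3 * B ≤ 1 / 8 * B := mul_le_mul_of_nonneg_right hc3 hB0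
    rw [h5]
    nlinarith
  have hfin := mul_le_mul_of_nonneg_left hlin hli.le
  have hmin' := mul_le_mul_of_nonneg_left hmin hli.le
  have hcap' := mul_le_mul_of_nonneg_left hcapc hli.le
  have hom : c3 / 8 * p.lam i * ‖ω'‖ ^ 2 ≤ p.lam i * (c3 / 6 * b) := by
    have h4 : c3 / 8 * p.lam i * ‖ω'‖ ^ 2 ≤ c3 / 8 * p.lam i * (4 / 3 * b) :=
      mul_le_mul_of_nonneg_left hω' (by positivity)
    linarith
  have hI : 7 / (c3 / 8) * p.lam I * (1 / 2) ^ (i - I) ≤ 100 / c3 * p.lam I * (1 / 2) ^ (i - I) := by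
    have h4 : 7 / (c3 / 8) ≤ 100 / c3 := by
      rw [div_div_eq_mul_div]
      exact div_le_div_of_nonneg_right (by norm_num) h3.le
    exact mul_le_mul_of_nonneg_right (mul_le_mul_of_nonneg_right h4 hlI.le) hpw.le
  linarith

set_option maxHeartbeats 1000000 in
theorem lev_lo (hp : p.Ok) (hρ : 32 + 32 / c3 ≤ p.rho) (hs0 : 0 < s) (hs1 : s < 1)
    (hsb : 2 * s - s ^ 2 ≤ 1 / 2) (h3 : 0 < c3) (hc3 : c3 ≤ 1 / 8) :
    P_LEVlo E p s (100 / c3) := by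
  intro V μ v I i hv hS hIi hin
  set sb : ℝ := 2 * s - s ^ 2 with hsbdef
  have hsb0 : 0 < sb := PRot711.sbar_pos hs0 hs1
  have hsb1 : sb ≤ 1 := (PRot711.sbar_lt_one hs1).le
  have hinv : 8 ≤ 1 / c3 := by rw [le_div_iff₀ h3]; linarith
  have hρ32 : 32 ≤ p.rho := by
    have : 0 < 32 / c3 := by positivity
    linarith
  have hlam : ∀ i, 0 < p.lam i := fun i => Rem864.lam_pos hp i
  refine le_D hp _ i μ fun K' hK' => ?_
  obtain ⟨ω', hω', hall⟩ := one_level hp hρ32 V hv hs0 hs1 (by linarith) hin μ hK'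
  set b := V.b v i with hb
  set B := BB V v i with hB
  have hb0 : 0 ≤ b := b_nonneg V v i
  have hB0 : 0 ≤ B := BB_nonneg V v i
  have hb1 : b ≤ 1 := b_le_one V hv i
  obtain ⟨t, ht, hsl, hrem⟩ := Rem864.rem_lo hp hIi (S_nonneg μ v) hS hs0.le hs1.le
    (ContinuousLinearMap.id ℝ E) ω' (by rw [adjoint_id_apply]; linarith)
  rw [gau_id] at hsl hrem
  obtain ⟨hG, -⟩ := hall t ht hsl
  have hρsq : (1024 : ℝ) ≤ p.rho ^ 2 := by nlinarith
  have hcapc : 64 / 3 * (sb * (2 * b + B)) / p.rho ^ 2 ≤ 1 / 6 * (2 * b + B) := by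
    have h4 : 0 < p.rho ^ 2 := by positivity
    rw [div_le_iff₀ h4]
    have h7 : 0 ≤ 2 * b + B := by positivity
    have h8 : sb * (2 * b + B) ≤ 1 * (2 * b + B) := mul_le_mul_of_nonneg_right hsb1 h7
    nlinarith
  have hlI := hlam I
  have hli := hlam i
  have hpw : 0 < (1 / 2 : ℝ) ^ (I - i) := by positivity
  have hlI2 : p.lam i ≤ p.lam I * (1 / 2) ^ (I - i) := by
    obtain ⟨m, rfl⟩ : ∃ m, I = i + m := ⟨I - i, by omega⟩
    rw [Rem864.lam_add, Nat.add_sub_cancel_left, mul_assoc, ← mul_pow]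
    have h5 : (1 : ℝ) ≤ (p.A * (1 / 2)) ^ m := one_le_pow₀ (by linarith [hp.A_ge])
    nlinarith
  have hcap' := mul_le_mul_of_nonneg_left hcapc hli.le
  have h6 : p.lam i * (2 / 3 * (sb * B)) ≤ p.lam i * B := by
    have h7 : sb * B ≤ 1 * B := mul_le_mul_of_nonneg_right hsb1 hB0
    exact mul_le_mul_of_nonneg_left (by linarith) hli.le
  have h8 : p.lam i * b ≤ p.lam I * (1 / 2) ^ (I - i) := by nlinarith
  have h9 : 8 * (p.lam i * B) ≤ 1 / c3 * (p.lam i * B) :=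
    mul_le_mul_of_nonneg_right hinv (by positivity)
  have h10 : 8 * (p.lam I * (1 / 2) ^ (I - i)) ≤ 1 / c3 * (p.lam I * (1 / 2) ^ (I - i)) :=
    mul_le_mul_of_nonneg_right hinv (by positivity)
  have h11 : p.lam i * (100 / c3) * B = 100 * (1 / c3 * (p.lam i * B)) := by ring
  have h12 : 100 / c3 * p.lam I * (1 / 2) ^ (I - i)
      = 100 * (1 / c3 * (p.lam I * (1 / 2) ^ (I - i))) := by ring
  rw [h11, h12]
  have h13 : 0 ≤ p.lam i * B := by positivity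
  have h14 : 0 ≤ p.lam I * (1 / 2) ^ (I - i) := by positivity
  nlinarith

end main

/-- **F6**: the one-level comparisons -/
theorem target_lev : Target_LEV := by
  intro c' dl hc' hc1 hdl
  set s : ℝ := c' / 256 with hs
  have hs0 : 0 < s := by positivity
  have hs1 : s < 1 := by rw [hs]; linarith
  have hsb0 : 0 < 2 * s - s ^ 2 := PRot711.sbar_pos hs0 hs1
  have hsc : 2 * s - s ^ 2 ≤ c' / 128 := by rw [hs]; nlinarith [sq_nonneg (c' / 256)]
  set c3 : ℝ := min dl ((2 * s - s ^ 2) * c' / 8) with hc3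
  have h3 : 0 < c3 := lt_min hdl (by positivity)
  have h3s : c3 ≤ (2 * s - s ^ 2) * c' / 8 := min_le_right _ _
  have h38 : c3 ≤ 1 / 8 := by nlinarith
  refine ⟨s, c3 / 2, 100 / c3, 32 + 32 / c3, hs0, hs1, by positivity, by positivity,
    fun d p hp hρ => ⟨?_, ?_⟩⟩
  · exact lev_hi hp hρ hs0 hs1 hsc hc' hc1 hdl h3 (min_le_left _ _) h3s
  · exact lev_lo hp hρ hs0 hs1 (by linarith) h3 h38

end Crest.Agent.R239.Lv264
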