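import Crest.Agent.R239.FDef
import Crest.Agent.R239.Mom_764
import Crest.Agent.R239.Dom_640
import Crest.Agent.R239.Cmp2_142
import Crest.Agent.R239.F6core_696

/-! R239 (helper964): generic one-level comparison `lev_comp` between two flags `V`, `W` under a map
`L = Ts v s`, by CMP (with rank-one gain), cut by the slab and by the ellipsoid cap in `g`-space. -/

set_option autoImplicit false
set_option linter.unusedSectionVars false
open MeasureTheory ProbabilityTheory Set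
open scoped RealInnerProductSpace

namespace Crest.Agent.R239.Lev964

open Crest.Agent.R239

variable {E : Type*} [NormedAddCommGroup E] [InnerProductSpace ℝ E] [FiniteDimensional ℝ E]
  [MeasurableSpace E] [BorelSpace E]
variable {G : Type*} [NormedAddCommGroup G] [InnerProductSpace ℝ G] [FiniteDimensional ℝ G]

lemma exp_le_one_sub {x : ℝ} (h0 : 0 ≤ x) (h1 : x ≤ 1 / 2) : Real.exp (-(2 * x)) ≤ 1 - x := by
  have hp : (0:ℝ) < 1 - x := by linarith
  have := Real.one_sub_inv_le_log_of_pos hp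
  have h2 : -(2 * x) ≤ Real.log (1 - x) := by
    refine le_trans ?_ this
    have : (1 - x)⁻¹ ≤ 1 + 2 * x := by
      rw [inv_le_comm₀ hp (by linarith), inv_le_comm₀ (by linarith) hp]
      rw [← one_div, div_le_iff₀ hp]
      nlinarith
    linarith
  calc Real.exp (-(2 * x)) ≤ Real.exp (Real.log (1 - x)) := Real.exp_le_exp.2 h2
    _ = 1 - x := Real.exp_log hp

/-- cutting by an ellipsoid `‖A g‖² ≤ ρ² r`, `E ‖A g‖² ≤ r`, when the body is already inside the
dilated ellipsoid `(1-h) ‖A g‖² ≤ ρ² r` -/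
theorem cap_cut {A : E →L[ℝ] G} {K : Set E} (mK : MeasurableSet K) (cK : Convex ℝ K)
    (sK : ∀ x ∈ K, -x ∈ K) {ρ r h : ℝ} (hρ : 16 ≤ ρ) (hint : ∫ g, ‖A g‖ ^ 2 ∂(stdGaussian E) ≤ r)
    (h0 : 0 ≤ h) (hK : ∀ g ∈ K, (1 - h) * ‖A g‖ ^ 2 ≤ ρ ^ 2 * r) :
    Real.exp (-(16 * h / ρ ^ 2)) * (stdGaussian E).real K
      ≤ (stdGaussian E).real (K ∩ {g | ‖A g‖ ^ 2 ≤ ρ ^ 2 * r}) := by
  have hr0 : 0 ≤ r := le_trans (integral_nonneg fun g => by positivity) hint
  have hρ2 : (256:ℝ) ≤ ρ ^ 2 := by nlinarith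
  have hρp : (0:ℝ) < ρ ^ 2 := by linarith
  rcases hr0.eq_or_lt with hr | hr
  · -- `r = 0`: the set has full measure
    have hz : ∫ g, ‖A g‖ ^ 2 ∂(stdGaussian E) = 0 :=
      le_antisymm (hint.trans hr.symm.le) (integral_nonneg fun g => by positivity)
    have hae : (fun g => ‖A g‖ ^ 2) =ᵐ[stdGaussian E] 0 :=
      (integral_eq_zero_iff_of_nonneg (fun g => by positivity)
        (Dom640.integrable_norm_sq A)).1 hz
    have he : (stdGaussian E).real (K ∩ {g | ‖A g‖ ^ 2 ≤ ρ ^ 2 * r}) = (stdGaussian E).real K := by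
      refine measureReal_congr ?_
      filter_upwards [hae] with g hg
      have hg' : ‖A g‖ ^ 2 = 0 := hg
      apply propext
      change (g ∈ K ∧ ‖A g‖ ^ 2 ≤ ρ ^ 2 * r) ↔ g ∈ K
      rw [hg', ← hr]
      simp
    rw [he]
    have : Real.exp (-(16 * h / ρ ^ 2)) ≤ 1 := Real.exp_le_one_iff.2 (by
      have : 0 ≤ 16 * h / ρ ^ 2 := by positivity
      linarith)
    nlinarith [measureReal_nonneg (μ := stdGaussian E) (s := K)]
  set R : ℝ := ρ * √r with hR
  have hRpos : 0 < R := by positivity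
  have hR2 : R ^ 2 = ρ ^ 2 * r := by rw [hR, mul_pow, Real.sq_sqrt hr.le]
  have hset : {g : E | ‖A g‖ ^ 2 ≤ ρ ^ 2 * r} = {g | ‖A g‖ ≤ R} := by
    ext g
    simp only [mem_ofPred_eq, ← hR2]
    exact pow_le_pow_iff_left₀ (norm_nonneg _) hRpos.le two_ne_zero
  rw [hset]
  have hKn : 0 ≤ (stdGaussian E).real K := measureReal_nonneg
  have hcut := Dom640.cut mK cK sK A (r := R / 2) (by positivity)
  have hcut1 := Dom640.cut mK cK sK A (r := R) hRpos
  have e1 : (∫ g, ‖A g‖ ^ 2 ∂(stdGaussian E)) / R ^ 2 ≤ 1 / ρ ^ 2 := by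
    rw [hR2, div_le_div_iff₀ (by positivity) hρp]
    nlinarith
  have e2 : (∫ g, ‖A g‖ ^ 2 ∂(stdGaussian E)) / (R / 2) ^ 2 ≤ 4 / ρ ^ 2 := by
    rw [div_pow, hR2, div_le_div_iff₀ (by positivity) hρp]
    nlinarith
  by_cases hh : 1 / 2 ≤ h
  · -- trivial cut
    have : Real.exp (-(16 * h / ρ ^ 2)) ≤ 1 - 1 / ρ ^ 2 := by
      refine le_trans (Real.exp_le_exp.2 ?_) (exp_le_one_sub (by positivity) ?_)
      · have : 2 * (1 / ρ ^ 2) ≤ 16 * h / ρ ^ 2 := by
          rw [mul_one_div, div_le_div_iff_of_pos_right hρp]; linarith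
        linarith
      · rw [div_le_div_iff₀ hρp (by norm_num)]; linarith
    calc Real.exp (-(16 * h / ρ ^ 2)) * (stdGaussian E).real K
        ≤ (1 - (∫ g, ‖A g‖ ^ 2 ∂(stdGaussian E)) / R ^ 2) * (stdGaussian E).real K :=
          mul_le_mul_of_nonneg_right (by linarith) hKn
      _ ≤ _ := hcut1
  rw [not_le] at hh
  rcases h0.eq_or_lt with h00 | hpos
  · -- `h = 0`: nothing to cut
    have : K ∩ {g | ‖A g‖ ≤ R} = K := by
      refine inter_eq_left.2 fun g hg => ?_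
      have := hK g hg
      rw [← h00, sub_zero, one_mul, ← hR2] at this
      exact (pow_le_pow_iff_left₀ (norm_nonneg _) hRpos.le two_ne_zero).1 this
    rw [this, ← h00]
    simp
  -- log-concavity
  have ha0 : 0 < 2 * h := by linarith
  have ha1 : 2 * h < 1 := by linarith
  have hb1 : ∀ g ∈ K, ‖A g‖ ≤ (1 + h) * R := by
    intro g hg
    have h1 := hK g hg
    rw [← hR2] at h1
    have h2 : (1:ℝ) ≤ (1 + h) ^ 2 * (1 - h) := by nlinarith [mul_pos hpos (by nlinarith : (0:ℝ) < 1 - h - h ^ 2)]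
    have h3 : ‖A g‖ ^ 2 ≤ ((1 + h) * R) ^ 2 := by
      have h4 : ‖A g‖ ^ 2 ≤ (1 + h) ^ 2 * ((1 - h) * ‖A g‖ ^ 2) := by
        nlinarith [mul_nonneg (sub_nonneg.2 h2) (sq_nonneg ‖A g‖)]
      calc ‖A g‖ ^ 2 ≤ (1 + h) ^ 2 * ((1 - h) * ‖A g‖ ^ 2) := h4
        _ ≤ (1 + h) ^ 2 * R ^ 2 := mul_le_mul_of_nonneg_left h1 (by positivity)
        _ = _ := by ring
    exact (pow_le_pow_iff_left₀ (norm_nonneg _) (by positivity) two_ne_zero).1 h3
  have mA : ∀ c : ℝ, MeasurableSet {g : E | ‖A g‖ ≤ c} := fun c =>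
    (isClosed_le (by fun_prop) continuous_const).measurableSet
  have hpl := Dom640.pr_real (E := E) ha0 ha1 mK (mK.inter (mA (R / 2))) (mK.inter (mA R)) (by
    rintro x hx y ⟨hy, hy2⟩
    refine ⟨cK hx hy (by linarith) (by linarith) (by ring), ?_⟩
    simp only [mem_ofPred_eq] at hy2 ⊢
    calc ‖A ((1 - 2 * h) • x + (2 * h) • y)‖
        = ‖(1 - 2 * h) • A x + (2 * h) • A y‖ := by rw [map_add, map_smul, map_smul]
      _ ≤ ‖(1 - 2 * h) • A x‖ + ‖(2 * h) • A y‖ := norm_add_le _ _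
      _ = (1 - 2 * h) * ‖A x‖ + (2 * h) * ‖A y‖ := by
          rw [norm_smul, norm_smul, Real.norm_of_nonneg (by linarith), Real.norm_of_nonneg (by linarith)]
      _ ≤ (1 - 2 * h) * ((1 + h) * R) + (2 * h) * (R / 2) := by
          refine add_le_add (mul_le_mul_of_nonneg_left (hb1 x hx) (by linarith))
            (mul_le_mul_of_nonneg_left hy2 (by linarith))
      _ ≤ R := by nlinarith [mul_pos (mul_pos hpos hpos) hRpos])
  have hq : (1 - 4 / ρ ^ 2) * (stdGaussian E).real K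
      ≤ (stdGaussian E).real (K ∩ {g | ‖A g‖ ≤ R / 2}) :=
    le_trans (mul_le_mul_of_nonneg_right (by linarith) hKn) hcut
  have h4 : 4 / ρ ^ 2 ≤ 1 / 2 := by rw [div_le_div_iff₀ hρp (by norm_num)]; linarith
  refine le_trans ?_ hpl
  have hx0 : (0:ℝ) ≤ 1 - 4 / ρ ^ 2 := by linarith
  calc Real.exp (-(16 * h / ρ ^ 2)) * (stdGaussian E).real K
      ≤ (1 - 4 / ρ ^ 2) ^ (2 * h) * (stdGaussian E).real K := by
        refine mul_le_mul_of_nonneg_right ?_ hKn
        have h5 := exp_le_one_sub (x := 4 / ρ ^ 2) (by positivity) h4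
        calc Real.exp (-(16 * h / ρ ^ 2)) = (Real.exp (-(2 * (4 / ρ ^ 2)))) ^ (2 * h) := by
              rw [← Real.exp_mul]; congr 1; field_simp; ring
          _ ≤ (1 - 4 / ρ ^ 2) ^ (2 * h) :=
              Real.rpow_le_rpow (Real.exp_pos _).le h5 ha0.le
    _ = (stdGaussian E).real K ^ (1 - 2 * h) * ((1 - 4 / ρ ^ 2) * (stdGaussian E).real K) ^ (2 * h) := by
        rw [Real.mul_rpow hx0 hKn]
        have : (stdGaussian E).real K ^ (1 - 2 * h) * ((1 - 4 / ρ ^ 2) ^ (2 * h) * (stdGaussian E).real K ^ (2 * h))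
            = (1 - 4 / ρ ^ 2) ^ (2 * h) * ((stdGaussian E).real K ^ (1 - 2 * h) * (stdGaussian E).real K ^ (2 * h)) := by ring
        rw [this, ← Real.rpow_add_of_nonneg hKn (by linarith) ha0.le]
        simp
    _ ≤ _ := by
        refine mul_le_mul_of_nonneg_left ?_ (Real.rpow_nonneg hKn _)
        exact Real.rpow_le_rpow (mul_nonneg hx0 hKn) hq ha0.le


/-! ### flag level -/

open FD

lemma H_eq (V : Flag E) (i : ℕ) : V.H i = Mom764.H th V.M V.n i := rfl
lemma Hi_eq (V : Flag E) (i : ℕ) : V.Hi i = Mom764.Hi th V.M V.n i := rfl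
lemma Q_eq (V : Flag E) (i : ℕ) : V.Q i = Mom764.Q V.M i := rfl

lemma H_mem (V : Flag E) (i : ℕ) (x : E) : V.H i x ∈ V.M i := Mom764.H_mem V.anti th V.n i x

lemma inner_H (V : Flag E) (i : ℕ) (x y : E) : ⟪V.H i x, y⟫ = ⟪x, V.H i y⟫ :=
  Mom764.inner_H_left th V.n i x y

lemma th_pos : (0:ℝ) < th := by unfold th; norm_num
lemma th_ne : (th:ℝ) ≠ 0 := th_pos.ne'
lemma th_lt : (th:ℝ) < 1 := by unfold th; norm_num

lemma H_Hi (V : Flag E) {i : ℕ} (hi : i ≤ V.n) {x : E} (hx : x ∈ V.M i) :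
    V.H i (V.Hi i x) = x := by
  rw [H_eq, Hi_eq, Mom764.H_Hi V.anti th_ne hi (V.bot _ le_rfl)]
  exact Submodule.starProjection_eq_self_iff.2 hx

/-- the cap operator: `‖NB V i x‖² = N_i x` -/
noncomputable def NB (V : Flag E) (i : ℕ) : E →L[ℝ] E :=
  ∑ j ∈ Finset.Ico i V.n, √((th⁻¹) ^ (j - i)) • V.Q j

lemma norm_NB_sq (V : Flag E) (i : ℕ) (x : E) : ‖NB V i x‖ ^ 2 = V.N i x := by
  have h1 : NB V i x = ∑ j ∈ Finset.Ico i V.n, √((th⁻¹) ^ (j - i)) • Mom764.Q V.M j x := by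
    simp only [NB, sum_apply, smul_apply]
    rfl
  rw [h1, Mom764.norm_sum_Q_sq V.anti]
  refine Finset.sum_congr rfl fun j _ => ?_
  rw [Real.sq_sqrt (by have := th_pos; positivity)]
  rfl

lemma N_nonneg (V : Flag E) (i : ℕ) (x : E) : 0 ≤ V.N i x := by
  rw [← norm_NB_sq]; positivity

lemma finrank_le (V : Flag E) (j : ℕ) :
    Module.finrank ℝ (V.M (j + 1)) ≤ Module.finrank ℝ (V.M j) :=
  Submodule.finrank_mono (V.anti (Nat.le_succ j))

lemma k_cast (V : Flag E) (j : ℕ) :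
    (V.k j : ℝ) = (Module.finrank ℝ (V.M j) : ℝ) - Module.finrank ℝ (V.M (j + 1)) := by
  unfold Flag.k
  rw [Nat.cast_sub (finrank_le V j)]

lemma integral_N (V : Flag E) (i : ℕ) :
    ∫ g, ‖(NB V i ∘L V.H i) g‖ ^ 2 ∂(stdGaussian E) = V.rr i := by
  have h1 : ∀ g : E, ‖(NB V i ∘L V.H i) g‖ ^ 2
      = ∑ j ∈ Finset.Ico i V.n, (th⁻¹) ^ (j - i) * ‖Mom764.Q V.M j (Mom764.H th V.M V.n i g)‖ ^ 2 := by
    intro g
    rw [ContinuousLinearMap.comp_apply, norm_NB_sq]; rfl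
  simp_rw [h1]
  rw [integral_finsetSum]
  · unfold Flag.rr
    refine Finset.sum_congr rfl fun j hj => ?_
    rw [Finset.mem_Ico] at hj
    rw [integral_const_mul, Mom764.integral_norm_Q_sq V.anti th hj.1 hj.2, ← k_cast]
    have : (th⁻¹) ^ (j - i) * th ^ (2 * (j - i)) = th ^ (j - i) := by
      rw [two_mul, pow_add, ← mul_assoc, ← mul_pow, inv_mul_cancel₀ th_ne, one_pow, one_mul]
    rw [← mul_assoc, this]
  · intro j _
    refine Integrable.const_mul ?_ _
    exact Mom764.integrable_norm_sq (Mom764.Q V.M j ∘L Mom764.H th V.M V.n i)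

lemma rr_nonneg (V : Flag E) (i : ℕ) : 0 ≤ V.rr i := by
  rw [← integral_N]; exact integral_nonneg fun g => by positivity

lemma norm_sq_le_N (V : Flag E) {i : ℕ} {x : E} (hx : x ∈ V.M i) : ‖x‖ ^ 2 ≤ V.N i x := by
  by_cases hi : i ≤ V.n
  · have h1 := Mom764.sum_norm_Q_sq V.anti hi x
    rw [V.bot _ le_rfl] at h1
    have h2 : (V.M i).starProjection x = x := Submodule.starProjection_eq_self_iff.2 hx
    rw [h2] at h1
    have h3 : ‖x‖ ^ 2 = ∑ j ∈ Finset.Ico i V.n, ‖V.Q j x‖ ^ 2 := by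
      have : ∑ j ∈ Finset.Ico i V.n, ‖V.Q j x‖ ^ 2 = ∑ j ∈ Finset.Ico i V.n, ‖Mom764.Q V.M j x‖ ^ 2 := rfl
      rw [this, h1]; simp
    rw [h3]
    unfold Flag.N
    refine Finset.sum_le_sum fun j _ => ?_
    have : (1:ℝ) ≤ (th⁻¹) ^ (j - i) := one_le_pow₀ ((one_le_inv₀ th_pos).2 th_lt.le)
    nlinarith [sq_nonneg ‖V.Q j x‖]
  · have : V.M i = ⊥ := V.bot i (by omega)
    rw [this, Submodule.mem_bot] at hx
    rw [hx]; simpa using N_nonneg V i 0

lemma isClosed_N (V : Flag E) (i : ℕ) (c : ℝ) : IsClosed {x : E | V.N i x ≤ c} := by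
  have : {x : E | V.N i x ≤ c} = {x | ‖NB V i x‖ ^ 2 ≤ c} := by
    ext x; simp only [mem_ofPred_eq, norm_NB_sq]
  rw [this]
  exact isClosed_le (by fun_prop) continuous_const

lemma convex_N (V : Flag E) (i : ℕ) {c : ℝ} (hc : 0 ≤ c) : Convex ℝ {x : E | V.N i x ≤ c} := by
  have : {x : E | V.N i x ≤ c} = (NB V i) ⁻¹' (Metric.closedBall 0 (√c)) := by
    ext x
    simp only [mem_ofPred_eq, mem_preimage, mem_closedBall_zero_iff]
    rw [← norm_NB_sq, Real.le_sqrt (norm_nonneg _) hc]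
  rw [this]
  exact (convex_closedBall _ _).linear_preimage _

lemma N_neg (V : Flag E) (i : ℕ) (x : E) : V.N i (-x) = V.N i x := by
  rw [← norm_NB_sq, ← norm_NB_sq, map_neg, norm_neg]

lemma isCompact_cap (V : Flag E) (rho : ℝ) (i : ℕ) : IsCompact (V.cap rho i) := by
  have h1 : IsClosed (V.cap rho i) :=
    (V.M i).closed_of_finiteDimensional.inter (isClosed_N V i _)
  refine Metric.isCompact_of_isClosed_isBounded h1 ?_
  refine (Metric.isBounded_closedBall (x := (0:E)) (r := √(rho ^ 2 * V.rr i))).subset ?_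
  rintro x ⟨hx, hN⟩
  rw [mem_closedBall_zero_iff]
  exact Real.le_sqrt_of_sq_le ((norm_sq_le_N V hx).trans hN)

lemma adm_compact {p : Par} {V : Flag E} {i : ℕ} {K : Set E} (h : Adm p V i K) : IsCompact K :=
  (isCompact_cap V p.rho i).of_isClosed_subset h.1 h.2.2.2.1

lemma adm_zero {p : Par} {V : Flag E} {i : ℕ} {K : Set E} (h : Adm p V i K) : (0:E) ∈ K := by
  obtain ⟨_, hc, hsym, _, hpos⟩ := h
  have hne : K.Nonempty := by
    rcases K.eq_empty_or_nonempty with he | he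
    · rw [he] at hpos; simp at hpos
    · exact he
  obtain ⟨x, hx⟩ := hne
  have := hc hx (hsym x hx) (a := 1/2) (b := 1/2) (by norm_num) (by norm_num) (by norm_num)
  simpa using this

/-- the body of `V` pulled back from the body `K'` of `W` -/
def pb (p : Par) (V : Flag E) (i : ℕ) (v : E) (s t : ℝ) (K' : Set E) : Set E :=
  {x | (x ∈ V.M i ∧ Ts v s x ∈ K') ∧ |⟪v, x⟫| ≤ t ∧ V.N i x ≤ p.rho ^ 2 * V.rr i}

theorem lev_core {p : Par} (hp : p.Ok) {V W : Flag E} {i : ℕ} (hiW : i ≤ W.n) {v : E} {s t : ℝ}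
    (hs0 : 0 ≤ s) (ht : 0 < t) (hM : ∀ x ∈ V.M i, Ts v s x ∈ W.M i) {h : ℝ} (h0 : 0 ≤ h)
    (hcap : ∀ x ∈ V.M i, (1 - h) * V.N i x ≤ W.N i (Ts v s x)) (hrr : W.rr i ≤ V.rr i)
    {K' : Set E} (hK' : Adm p W i K') {e : ℝ}
    (hcmp : Real.exp (-e) * (stdGaussian E).real (W.H i ⁻¹' K')
      ≤ (stdGaussian E).real ((W.Hi i ∘L Ts v s ∘L V.H i) ⁻¹' (W.H i ⁻¹' K')))
    (hslab : 0 < (stdGaussian E).real {g | |⟪V.H i v, g⟫| ≤ t}) (μ : Multiset E) :
    Adm p V i (pb p V i v s t K') ∧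
      val p V i μ (pb p V i v s t K') ≤ val p W i μ K' + s * t * S μ v
        + p.lam i * (e + 16 * h / p.rho ^ 2
          - Real.log ((stdGaussian E).real {g | |⟪V.H i v, g⟫| ≤ t})) := by
  obtain ⟨hcl, hcv, hsy, hsub, hpos⟩ := id hK'
  have hcp := adm_compact hK'
  have h0K' := adm_zero hK'
  have hlam : 0 < p.lam i := by
    have := hp.tau_pos; have := hp.A_ge
    unfold Par.lam; positivity
  have hTs : Continuous (Ts v s : E → E) := (Ts v s).continuous
  -- the body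
  set K := pb p V i v s t K' with hKdef
  have hKcl : IsClosed K := by
    have e1 : K = ((V.M i : Set E) ∩ (Ts v s) ⁻¹' K') ∩ ({x | |⟪v, x⟫| ≤ t} ∩ {x | V.N i x ≤ p.rho ^ 2 * V.rr i}) := rfl
    rw [e1]
    exact ((V.M i).closed_of_finiteDimensional.inter (hcl.preimage hTs)).inter
      ((isClosed_le (by fun_prop) continuous_const).inter (isClosed_N V i _))
  have hKcv : Convex ℝ K := by
    have e1 : K = ((V.M i : Set E) ∩ (Ts v s) ⁻¹' K') ∩ ({x | |⟪v, x⟫| ≤ t} ∩ {x | V.N i x ≤ p.rho ^ 2 * V.rr i}) := rfl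
    rw [e1]
    have e2 : {x : E | |⟪v, x⟫| ≤ t} = (innerSL ℝ v) ⁻¹' (Metric.closedBall 0 t) := by
      ext x
      simp [Real.norm_eq_abs]
    refine ((V.M i).convex.inter (hcv.linear_preimage _)).inter (Convex.inter ?_ (convex_N V i ?_))
    · rw [e2]; exact (convex_closedBall _ _).linear_preimage _
    · have := rr_nonneg V i; positivity
  have hKsy : ∀ x ∈ K, -x ∈ K := by
    rintro x ⟨⟨h1, h2⟩, h3, h4⟩
    refine ⟨⟨(V.M i).neg_mem h1, ?_⟩, ?_, ?_⟩
    · rw [map_neg]; exact hsy _ h2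
    · rwa [inner_neg_right, abs_neg]
    · rwa [N_neg]
  have hKsub : K ⊆ V.cap p.rho i := fun x hx => ⟨hx.1.1, hx.2.2⟩
  have h0K : (0:E) ∈ K := by
    refine ⟨⟨(V.M i).zero_mem, ?_⟩, ?_, ?_⟩
    · rwa [map_zero]
    · simpa using ht.le
    · have := rr_nonneg V i
      have h5 : V.N i (0:E) = 0 := by rw [← norm_NB_sq, map_zero]; simp
      rw [h5]; positivity
  -- measure
  set γ := stdGaussian E with hγ
  set B : Set E := (W.Hi i ∘L Ts v s ∘L V.H i) ⁻¹' (W.H i ⁻¹' K') with hB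
  have hBm : MeasurableSet B := ((hcl.preimage (W.H i).continuous).preimage
    (W.Hi i ∘L Ts v s ∘L V.H i).continuous).measurableSet
  have hBc : Convex ℝ B := (hcv.linear_preimage (W.H i).toLinearMap).linear_preimage
    (W.Hi i ∘L Ts v s ∘L V.H i).toLinearMap
  have hBs : ∀ x ∈ B, -x ∈ B := by
    intro x hx
    simp only [hB, mem_preimage, map_neg] at hx ⊢
    exact hsy _ hx
  have hBmem : ∀ g, g ∈ B ↔ Ts v s (V.H i g) ∈ K' := by
    intro g
    simp only [hB, mem_preimage, ContinuousLinearMap.comp_apply]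
    rw [H_Hi W hiW (hM _ (H_mem V i g))]
  have hcut1 := Dom640.slab_real hBm hBc hBs (V.H i v) t
  have mS := Dom640.measurableSet_slab (V.H i v) t
  have cS : Convex ℝ {x : E | |⟪V.H i v, x⟫| ≤ t} := by
    have e2 : {x : E | |⟪V.H i v, x⟫| ≤ t} = (innerSL ℝ (V.H i v)) ⁻¹' (Metric.closedBall 0 t) := by
      ext x
      simp [Real.norm_eq_abs]
    rw [e2]; exact (convex_closedBall _ _).linear_preimage _
  have hcut2 := cap_cut (A := NB V i ∘L V.H i) (hBm.inter mS) (hBc.inter cS) (by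
      rintro x ⟨h1, h2⟩
      refine ⟨hBs x h1, ?_⟩
      simp only [mem_ofPred_eq, inner_neg_right, abs_neg] at h2 ⊢
      exact h2) hp.rho_ge (integral_N V i).le h0 (by
      rintro g ⟨hg, -⟩
      rw [hBmem] at hg
      rw [ContinuousLinearMap.comp_apply, norm_NB_sq]
      refine (hcap _ (H_mem V i g)).trans ((hsub hg).2.trans ?_)
      exact mul_le_mul_of_nonneg_left hrr (by positivity))
  have hpre : V.H i ⁻¹' K = B ∩ {x | |⟪V.H i v, x⟫| ≤ t} ∩
      {g | ‖(NB V i ∘L V.H i) g‖ ^ 2 ≤ p.rho ^ 2 * V.rr i} := by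
    ext g
    simp only [mem_preimage, mem_inter_iff, mem_ofPred_eq, hBmem, ContinuousLinearMap.comp_apply,
      norm_NB_sq, inner_H]
    change ((V.H i g ∈ V.M i ∧ Ts v s (V.H i g) ∈ K') ∧ |⟪v, V.H i g⟫| ≤ t ∧ _) ↔ _
    have := H_mem V i g
    tauto
  have hKr : (gau (V.H i)).real K = γ.real (V.H i ⁻¹' K) := gau_real_apply _ hKcl.measurableSet
  have hK'r : (gau (W.H i)).real K' = γ.real (W.H i ⁻¹' K') := gau_real_apply _ hcl.measurableSet
  rw [← hpre, ← hKr] at hcut2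
  rw [hK'r] at hpos
  have hlow : Real.exp (-(16 * h / p.rho ^ 2)) * (Real.exp (-e) * γ.real (W.H i ⁻¹' K')
      * γ.real {g | |⟪V.H i v, g⟫| ≤ t}) ≤ (gau (V.H i)).real K := by
    refine le_trans (mul_le_mul_of_nonneg_left ?_ (Real.exp_pos _).le) hcut2
    exact le_trans (mul_le_mul_of_nonneg_right hcmp hslab.le) hcut1
  have hKpos : 0 < (gau (V.H i)).real K := lt_of_lt_of_le (by positivity) hlow
  refine ⟨⟨hKcl, hKcv, hKsy, hKsub, hKpos⟩, ?_⟩
  have hlog : Real.log (γ.real (W.H i ⁻¹' K')) + Real.log (γ.real {g | |⟪V.H i v, g⟫| ≤ t})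
      - e - 16 * h / p.rho ^ 2 ≤ Real.log ((gau (V.H i)).real K) := by
    refine le_trans (le_of_eq ?_) (Real.log_le_log (by positivity) hlow)
    rw [Real.log_mul (by positivity) (by positivity), Real.log_exp,
      Real.log_mul (by positivity) hslab.ne', Real.log_mul (by positivity) hpos.ne', Real.log_exp]
    ring
  have hEh : Eh K μ ≤ Eh K' μ + s * t * S μ v :=
    F6core696.Eh_pullback (B := K) hcp ⟨0, h0K⟩ hs0 (fun x => Ts_apply v s x)
      (fun x hx => hx.1.2) (fun x hx => hx.2.1) μ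
  unfold val
  rw [hK'r]
  nlinarith [mul_le_mul_of_nonneg_left hlog hlam.le]

end Crest.Agent.R239.Lev964
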