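import Mathlib

/-!
# R239 (helper583's proof, blocks B1 / B2 / B4): one-dimensional log-concavity facts (helper136)

`LCR Φ` : `Φ ≥ 0` and log-concave on `[0,∞)`.
* `LCR.decay`   : `Φ b ≤ Φ 0 / 2`, `b ≤ t`  ⊢  `Φ t ≤ Φ 0 * 2^(-t/b)`.
* `LCR.head`    : `Φ 0 / 2 ≤ Φ b`, `0 < a ≤ b` ⊢ `Φ 0 - Φ a ≤ (7/5) (a/b) (Φ 0 - Φ b)`.
* `LCR.int_le`  : antitone, `Φ b ≤ Φ 0 / 2` ⊢ `∫_0^∞ Φ ≤ 3 b Φ 0`.
* `LCR.cap`     : `G` monotone, `≤ 1`, `G (R/2) ≥ 1-δ` ⊢ `G (R+h) - G R ≤ 4 δ h / R`.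
* `LCR.of_LCE`  : conversion from an `ℝ≥0∞`-valued log-concave function.
-/

set_option autoImplicit false
open MeasureTheory Set

namespace Crest.Agent.R239.LogC1D

/-- nonnegative and log-concave on `[0,∞)` -/
structure LCR (Φ : ℝ → ℝ) : Prop where
  nn : ∀ s, 0 ≤ s → 0 ≤ Φ s
  lc : ∀ s t a b : ℝ, 0 ≤ s → 0 ≤ t → 0 ≤ a → 0 ≤ b → a + b = 1 →
    Φ s ^ a * Φ t ^ b ≤ Φ (a * s + b * t)

variable {Φ : ℝ → ℝ}

lemma LCR.chord (h : LCR Φ) {s t : ℝ} (hs : 0 ≤ s) (hst : s ≤ t) (ht : 0 < t) :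
    Φ 0 ^ (1 - s / t) * Φ t ^ (s / t) ≤ Φ s := by
  have h1 : s / t ≤ 1 := by rw [div_le_one ht]; exact hst
  have := h.lc 0 t (1 - s / t) (s / t) le_rfl ht.le (by linarith) (by positivity) (by ring)
  have h2 : (1 - s / t) * 0 + s / t * t = s := by field_simp; ring
  rwa [h2] at this

/-- decay beyond the half point -/
lemma LCR.decay (h : LCR Φ) {b t : ℝ} (hb : 0 < b) (h0 : 0 < Φ 0) (hh : Φ b ≤ Φ 0 / 2)
    (hbt : b ≤ t) : Φ t ≤ Φ 0 * (2:ℝ) ^ (-(t / b)) := by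
  have ht : 0 < t := hb.trans_le hbt
  have hc := h.chord hb.le hbt ht
  have hnt := h.nn t ht.le
  rcases hnt.eq_or_lt with h00 | hpt
  · rw [← h00]; positivity
  -- normalise
  have hx : Φ 0 * (Φ t / Φ 0) ^ (b / t) ≤ Φ 0 / 2 := by
    refine le_trans (le_of_eq ?_) (hc.trans hh)
    rw [Real.div_rpow hpt.le h0.le, Real.rpow_sub h0, Real.rpow_one]
    field_simp
  have hx2 : (Φ t / Φ 0) ^ (b / t) ≤ 1 / 2 := by
    have : Φ 0 * (Φ t / Φ 0) ^ (b / t) ≤ Φ 0 * (1 / 2) := by linarith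
    exact le_of_mul_le_mul_left this h0
  have hq : 0 < Φ t / Φ 0 := by positivity
  have hpow : ((Φ t / Φ 0) ^ (b / t)) ^ (t / b) ≤ (1 / 2 : ℝ) ^ (t / b) :=
    Real.rpow_le_rpow (by positivity) hx2 (by positivity)
  rw [← Real.rpow_mul hq.le, show b / t * (t / b) = 1 by field_simp, Real.rpow_one] at hpow
  have h3 : (1 / 2 : ℝ) ^ (t / b) = (2:ℝ) ^ (-(t / b)) := by
    rw [Real.rpow_neg (by norm_num), one_div, Real.inv_rpow (by norm_num)]
  rw [h3] at hpow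
  calc Φ t = Φ 0 * (Φ t / Φ 0) := by field_simp
    _ ≤ _ := by gcongr

/-- the head inequality -/
lemma LCR.head (h : LCR Φ) {a b : ℝ} (ha : 0 < a) (hab : a ≤ b) (h0 : 0 < Φ 0)
    (hle : Φ b ≤ Φ 0) (hh : Φ 0 / 2 ≤ Φ b) :
    Φ 0 - Φ a ≤ 7 / 5 * (a / b) * (Φ 0 - Φ b) := by
  have hb : 0 < b := ha.trans_le hab
  have hpb : 0 < Φ b := by linarith
  have hc := h.chord ha.le hab hb
  -- put `g = -log (Φ b / Φ 0) ∈ [0, log 2]`
  set q := Φ b / Φ 0 with hqdef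
  have hq : 0 < q := by positivity
  have hq1 : q ≤ 1 := by rw [hqdef, div_le_one h0]; exact hle
  have hq2 : 1 / 2 ≤ q := by rw [hqdef, le_div_iff₀ h0]; linarith
  set g := -Real.log q with hg
  have hg0 : 0 ≤ g := by rw [hg]; simpa using Real.log_nonpos hq.le hq1
  have hgl : g ≤ Real.log 2 := by
    rw [hg]
    have : Real.log (1 / 2) ≤ Real.log q := Real.log_le_log (by norm_num) hq2
    rw [Real.log_div (by norm_num) (by norm_num), Real.log_one] at this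
    linarith
  have hx : Φ 0 * q ^ (a / b) ≤ Φ a := by
    refine le_trans (le_of_eq ?_) hc
    rw [hqdef, Real.div_rpow hpb.le h0.le, Real.rpow_sub h0, Real.rpow_one]
    field_simp
  have hqa : q ^ (a / b) = Real.exp (-(a / b * g)) := by
    rw [Real.rpow_def_of_pos hq, hg]; congr 1; ring
  have hexp1 : 1 - a / b * g ≤ Real.exp (-(a / b * g)) := by
    have := Real.add_one_le_exp (-(a / b * g)); linarith
  -- `1 - q ≥ g / (2 log 2)`
  have hlog2 : 0 < Real.log 2 := Real.log_pos (by norm_num)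
  have hconv : 1 - q ≥ g / (2 * Real.log 2) := by
    -- convexity of exp: on `[0, log 2]`, `exp (-g) ≤ 1 - g/(2 log 2)`
    have hqe : q = Real.exp (-g) := by rw [hg, neg_neg, Real.exp_log hq]
    have hcv := convexOn_exp.2 (mem_univ (0:ℝ)) (mem_univ (-Real.log 2))
      (show 0 ≤ 1 - g / Real.log 2 by
        rw [sub_nonneg, div_le_one hlog2]; exact hgl)
      (show 0 ≤ g / Real.log 2 by positivity) (by ring)
    simp only [smul_eq_mul, mul_zero, zero_add, Real.exp_zero, mul_one] at hcv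
    have e1 : g / Real.log 2 * -Real.log 2 = -g := by field_simp
    rw [e1, Real.exp_neg (Real.log 2), Real.exp_log (by norm_num), ← hqe] at hcv
    have e2 : g / (2 * Real.log 2) = g / Real.log 2 * 2⁻¹ := by field_simp
    rw [e2]; linarith
  have hg7 : g ≤ 7 / 5 * (1 - q) := by
    have h69 : Real.log 2 < 0.6931471808 := Real.log_two_lt_d9
    have h1 : g ≤ (1 - q) * (2 * Real.log 2) := by
      rw [ge_iff_le, div_le_iff₀ (by positivity)] at hconv; exact hconv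
    have h2 : 0 ≤ 1 - q := by linarith
    nlinarith
  have hab0 : 0 ≤ a / b := by positivity
  have hfin : Φ 0 * (1 - a / b * (7 / 5 * (1 - q))) ≤ Φ a := by
    refine le_trans ?_ hx
    rw [hqa]
    refine mul_le_mul_of_nonneg_left (le_trans ?_ hexp1) h0.le
    have := mul_le_mul_of_nonneg_left hg7 hab0
    linarith
  have hq0 : Φ 0 * (1 - q) = Φ 0 - Φ b := by rw [hqdef]; field_simp
  nlinarith [hfin, hq0]

/-- `∫_0^∞ Φ ≤ 3 b Φ 0` -/
lemma LCR.int_le (h : LCR Φ) {b : ℝ} (hb : 0 < b) (h0 : 0 < Φ 0) (hh : Φ b ≤ Φ 0 / 2)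
    (hanti : ∀ s t, 0 ≤ s → s ≤ t → Φ t ≤ Φ s) :
    ∫ t in Ioi (0:ℝ), Φ t ≤ 3 * b * Φ 0 := by
  have hlog2 : 0 < Real.log 2 := Real.log_pos (by norm_num)
  have hneg : -(Real.log 2 / b) < 0 := by
    have : 0 < Real.log 2 / b := by positivity
    linarith
  have hpt : ∀ t, 0 ≤ t → Φ t ≤ 2 * Φ 0 * Real.exp (-(Real.log 2 / b) * t) := by
    intro t ht
    have he : Real.exp (-(Real.log 2 / b) * t) = (2:ℝ) ^ (-(t / b)) := by
      rw [Real.rpow_def_of_pos (by norm_num)]; congr 1; ring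
    rw [he]
    rcases le_total b t with hbt | hbt
    · have := h.decay hb h0 hh hbt
      have h2 : 0 ≤ Φ 0 * (2:ℝ) ^ (-(t / b)) := by positivity
      linarith
    · have h1 : Φ t ≤ Φ 0 := hanti 0 t le_rfl ht
      have h2 : (1:ℝ) / 2 ≤ (2:ℝ) ^ (-(t / b)) := by
        have h3 : (2:ℝ) ^ (-1 : ℝ) ≤ (2:ℝ) ^ (-(t / b)) := by
          apply Real.rpow_le_rpow_of_exponent_le (by norm_num)
          have : t / b ≤ 1 := by rw [div_le_one hb]; exact hbt
          linarith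
        rw [Real.rpow_neg_one] at h3
        linarith
      nlinarith
  have hint := (integrableOn_exp_mul_Ioi hneg 0).const_mul (2 * Φ 0)
  have h1 : ∫ t in Ioi (0:ℝ), Φ t ≤
      ∫ t in Ioi (0:ℝ), 2 * Φ 0 * Real.exp (-(Real.log 2 / b) * t) := by
    refine integral_mono_of_nonneg ?_ hint ?_
    · exact (ae_restrict_iff' measurableSet_Ioi).2 (ae_of_all _ fun t ht => h.nn t (le_of_lt ht))
    · exact (ae_restrict_iff' measurableSet_Ioi).2 (ae_of_all _ fun t ht => hpt t (le_of_lt ht))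
  refine h1.trans ?_
  rw [integral_const_mul, integral_exp_mul_Ioi hneg]
  simp only [mul_zero, Real.exp_zero]
  have h69 : 0.6931471803 < Real.log 2 := Real.log_two_gt_d9
  have e1 : 2 * Φ 0 * (-1 / -(Real.log 2 / b)) = 2 * Φ 0 * b / Real.log 2 := by
    field_simp
  rw [e1, div_le_iff₀ hlog2]
  have : 0 < b * Φ 0 := by positivity
  nlinarith

/-- the cap lemma -/
lemma LCR.cap {G : ℝ → ℝ} (h : LCR G) {R δ k : ℝ} (hR : 0 < R) (hδ : 0 ≤ δ) (hδ2 : δ ≤ 1 / 2)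
    (hk : 0 ≤ k) (hmono : ∀ s t, 0 ≤ s → s ≤ t → G s ≤ G t) (h1 : ∀ s, 0 ≤ s → G s ≤ 1)
    (hG : 1 - δ ≤ G (R / 2)) : G (R + k) - G R ≤ 4 * δ * k / R := by
  set x := G (R + k) with hx
  set y := G (R / 2) with hy
  have hx1 : x ≤ 1 := h1 _ (by linarith)
  have hy0 : 1 / 2 ≤ y := by linarith
  have hyx : y ≤ x := hmono _ _ (by linarith) (by linarith)
  have hx0 : 0 < x := by linarith
  have hden : 0 < R / 2 + k := by linarith
  set a := k / (R / 2 + k) with ha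
  have ha0 : 0 ≤ a := by positivity
  have ha1 : a ≤ 1 := by rw [ha, div_le_one hden]; linarith
  have haR : a ≤ 2 * k / R := by
    rw [ha, div_le_div_iff₀ hden hR]; nlinarith
  have hc := h.lc (R / 2) (R + k) a (1 - a) (by linarith) (by linarith) ha0 (by linarith)
    (by ring)
  have hpt : a * (R / 2) + (1 - a) * (R + k) = R := by
    rw [ha]; field_simp; ring
  rw [hpt, ← hx, ← hy] at hc
  -- `x ^ (1-a) * y ^ a = x * (y/x)^a`
  have h2 : y ^ a * x ^ (1 - a) = x * (y / x) ^ a := by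
    rw [Real.div_rpow (by linarith) hx0.le, Real.rpow_sub hx0, Real.rpow_one]; field_simp
  rw [h2] at hc
  have hq : 1 - δ ≤ y / x := by
    rw [le_div_iff₀ hx0]; nlinarith
  have hq0 : 0 < 1 - δ := by linarith
  have h3 : (1 - δ) ^ a ≤ (y / x) ^ a := Real.rpow_le_rpow hq0.le hq ha0
  have h4 : 1 - 2 * a * δ ≤ (1 - δ) ^ a := by
    rw [Real.rpow_def_of_pos hq0]
    have h5 : 1 - (1 - δ)⁻¹ ≤ Real.log (1 - δ) := Real.one_sub_inv_le_log_of_pos hq0
    have h6 : -(2 * δ) ≤ Real.log (1 - δ) := by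
      refine le_trans ?_ h5
      have h7 : (1 - δ)⁻¹ ≤ 1 + 2 * δ := by
        rw [inv_eq_one_div, div_le_iff₀ hq0]; nlinarith
      linarith
    have h8 := Real.add_one_le_exp (Real.log (1 - δ) * a)
    nlinarith
  have h9 : x - G R ≤ x * (2 * a * δ) := by
    have : x * (1 - 2 * a * δ) ≤ G R := by
      refine le_trans ?_ hc
      exact mul_le_mul_of_nonneg_left (h4.trans h3) hx0.le
    linarith
  have h10 : x * (2 * a * δ) ≤ 2 * a * δ := by
    have : 0 ≤ 2 * a * δ := by positivity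
    nlinarith
  have h11 : 2 * a * δ ≤ 4 * δ * k / R := by
    have h12 : 2 * δ * a ≤ 2 * δ * (2 * k / R) := mul_le_mul_of_nonneg_left haR (by positivity)
    have h13 : 2 * δ * (2 * k / R) = 4 * δ * k / R := by ring
    linarith
  linarith

/-- conversion from `ℝ≥0∞`-valued log-concavity (e.g. `LCg` of `LC419`) -/
lemma LCR.of_LCE {f : ℝ → ENNReal} (hfin : ∀ s, 0 ≤ s → f s ≠ ⊤)
    (hlc : ∀ s t a b : ℝ, 0 ≤ s → 0 ≤ t → 0 ≤ a → 0 ≤ b → a + b = 1 →
      f s ^ a * f t ^ b ≤ f (a * s + b * t)) : LCR (fun s => (f s).toReal) where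
  nn := fun s _ => ENNReal.toReal_nonneg
  lc := by
    intro s t a b hs ht ha hb hab
    have := ENNReal.toReal_mono (hfin (a * s + b * t) (by positivity)) (hlc s t a b hs ht ha hb hab)
    rwa [ENNReal.toReal_mul, ← ENNReal.toReal_rpow, ← ENNReal.toReal_rpow] at this

end Crest.Agent.R239.LogC1D
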