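import Crest.Agent.R239.Dom_640
import Crest.Agent.R239.Gain_161
import Crest.Agent.R239.Cmp_142

/-! # R239, one-level comparison, one-body core (helper264)

`cap_cut` : cutting a symmetric convex set on which `‖B x‖ ≤ (1+δ) R` by `‖B x‖ ≤ R`.
`level_std` : pull back under `R` with `‖R g‖² ≤ ‖g‖² - s₁⟨n,g⟩² + Σ ⟨w k,g⟩²`, slab, cap, gain. -/

set_option autoImplicit false
set_option linter.unusedSectionVars false
open MeasureTheory ProbabilityTheory Set Filter Topology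
open scoped RealInnerProductSpace ENNReal NNReal

namespace Crest.Agent.R239.Lv264

open Crest.Agent.R239 Crest.Agent.R239.Dom640

variable {E : Type*} [NormedAddCommGroup E] [InnerProductSpace ℝ E] [FiniteDimensional ℝ E]
  [MeasurableSpace E] [BorelSpace E]
variable {H : Type*} [NormedAddCommGroup H] [InnerProductSpace ℝ H] [FiniteDimensional ℝ H]

lemma exp_le_one_sub {y : ℝ} (h0 : 0 ≤ y) (h1 : y ≤ 1 / 4) : Real.exp (-(4 / 3 * y)) ≤ 1 - y := by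
  -- `exp (4/3 y) ≥ 1 + 4/3 y ≥ 1/(1-y)`
  have h2 : 1 + 4 / 3 * y ≤ Real.exp (4 / 3 * y) := by
    linarith [Real.add_one_le_exp (4 / 3 * y)]
  rw [Real.exp_neg]
  rw [inv_le_comm₀ (Real.exp_pos _) (by linarith)]
  refine le_trans ?_ h2
  rw [inv_le_iff_one_le_mul₀ (by linarith)]
  nlinarith

/-- cutting by a cap when the body is already inside a slightly larger cap -/
theorem cap_cut {C : Set E} (hC : MeasurableSet C) (cC : Convex ℝ C) (sC : ∀ x ∈ C, -x ∈ C)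
    (B : E →L[ℝ] H) {σ2 R δ : ℝ} (hR : 0 < R) (hσ : ∫ x, ‖B x‖ ^ 2 ∂(stdGaussian E) ≤ σ2)
    (h16 : 16 * σ2 ≤ R ^ 2) (hδ : 0 ≤ δ)
    (hb : ∀ x ∈ C, ‖B x‖ ≤ (1 + δ) * R) :
    Real.exp (-(32 / 3 * (σ2 / R ^ 2) * δ)) * (stdGaussian E).real C
      ≤ (stdGaussian E).real (C ∩ {x | ‖B x‖ ≤ R}) := by
  have hR2 : 0 < R ^ 2 := by positivity
  have hσ0 : 0 ≤ σ2 := le_trans (integral_nonneg fun x => by positivity) hσ
  rcases eq_or_lt_of_le hδ with h | hδ'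
  · subst h
    have : C ∩ {x | ‖B x‖ ≤ R} = C := by
      refine inter_eq_left.2 fun x hx => ?_
      have := hb x hx
      simpa using this
    rw [this]; simp
  rcases eq_or_lt_of_le (measureReal_nonneg (μ := stdGaussian E) (s := C)) with h0 | h0
  · rw [← h0]; simp [measureReal_nonneg]
  set a : ℝ := 2 * δ / (1 + 2 * δ) with ha
  have hd : 0 < 1 + 2 * δ := by linarith
  have ha0 : 0 < a := by positivity
  have ha1 : a < 1 := by rw [ha, div_lt_one hd]; linarith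
  have ha2 : a ≤ 2 * δ := by
    rw [ha, div_le_iff₀ hd]; nlinarith
  have haδ : a * (1 / 2 + δ) = δ := by rw [ha]; field_simp
  set N2 : Set E := C ∩ {x | ‖B x‖ ≤ R / 2} with hN2
  have mB : ∀ r : ℝ, MeasurableSet {x : E | ‖B x‖ ≤ r} := fun r =>
    measurableSet_le B.continuous.norm.measurable measurable_const
  have hcut := cut hC cC sC B (r := R / 2) (by positivity)
  have hx0 : 0 ≤ 4 * (σ2 / R ^ 2) := by positivity
  have hx1 : 4 * (σ2 / R ^ 2) ≤ 1 / 4 := by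
    rw [← mul_div_assoc, div_le_iff₀ hR2]; linarith
  have h1 : (1 - 4 * (σ2 / R ^ 2)) * (stdGaussian E).real C ≤ (stdGaussian E).real N2 := by
    refine le_trans (mul_le_mul_of_nonneg_right ?_ measureReal_nonneg) hcut
    have : (∫ x, ‖B x‖ ^ 2 ∂(stdGaussian E)) / (R / 2) ^ 2 ≤ 4 * (σ2 / R ^ 2) := by
      rw [div_le_iff₀ (by positivity)]
      have : 4 * (σ2 / R ^ 2) * (R / 2) ^ 2 = σ2 := by field_simp; ring
      rw [this]; exact hσ
    linarith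
  have h2 : Real.exp (-(4 / 3 * (4 * (σ2 / R ^ 2)))) * (stdGaussian E).real C
      ≤ (stdGaussian E).real N2 :=
    le_trans (mul_le_mul_of_nonneg_right (exp_le_one_sub hx0 hx1) measureReal_nonneg) h1
  have hpl := pr_real (E := E) ha0 ha1 hC (hC.inter (mB (R / 2))) (hC.inter (mB R))
    (fun x hx y hy => ⟨cC hx hy.1 (by linarith) ha0.le (by ring), by
      have hx' := hb x hx
      have hy' : ‖B y‖ ≤ R / 2 := hy.2
      have h3 : ‖B ((1 - a) • x + a • y)‖ ≤ (1 - a) * ‖B x‖ + a * ‖B y‖ := by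
        rw [map_add, map_smul, map_smul]
        refine (norm_add_le _ _).trans ?_
        rw [norm_smul, norm_smul, Real.norm_of_nonneg (by linarith : (0:ℝ) ≤ 1 - a),
          Real.norm_of_nonneg ha0.le]
      have h4 : (1 - a) * ‖B x‖ ≤ (1 - a) * ((1 + δ) * R) :=
        mul_le_mul_of_nonneg_left hx' (by linarith)
      have h5 : a * ‖B y‖ ≤ a * (R / 2) := mul_le_mul_of_nonneg_left hy' ha0.le
      have h6 : (1 - a) * ((1 + δ) * R) + a * (R / 2) = (1 + δ - a * (1 / 2 + δ)) * R := by ring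
      rw [haδ] at h6
      show ‖B ((1 - a) • x + a • y)‖ ≤ R
      calc _ ≤ (1 - a) * ((1 + δ) * R) + a * (R / 2) := by linarith
        _ = R := by rw [h6]; ring⟩)
  refine le_trans ?_ hpl
  have h7 : ((Real.exp (-(4 / 3 * (4 * (σ2 / R ^ 2)))) * (stdGaussian E).real C)) ^ a
      ≤ (stdGaussian E).real N2 ^ a :=
    Real.rpow_le_rpow (by positivity) h2 ha0.le
  have h8 : (stdGaussian E).real C ^ (1 - a)
      * (Real.exp (-(4 / 3 * (4 * (σ2 / R ^ 2)))) * (stdGaussian E).real C) ^ a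
      = Real.exp (-(4 / 3 * (4 * (σ2 / R ^ 2))) * a) * (stdGaussian E).real C := by
    rw [Real.mul_rpow (Real.exp_pos _).le h0.le, ← Real.exp_mul]
    have : (stdGaussian E).real C ^ (1 - a) * (stdGaussian E).real C ^ a
        = (stdGaussian E).real C := by
      rw [← Real.rpow_add h0]; simp
    calc _ = Real.exp (-(4 / 3 * (4 * (σ2 / R ^ 2))) * a) *
        ((stdGaussian E).real C ^ (1 - a) * (stdGaussian E).real C ^ a) := by ring
      _ = _ := by rw [this]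
  calc Real.exp (-(32 / 3 * (σ2 / R ^ 2) * δ)) * (stdGaussian E).real C
      ≤ Real.exp (-(4 / 3 * (4 * (σ2 / R ^ 2))) * a) * (stdGaussian E).real C := by
        refine mul_le_mul_of_nonneg_right (Real.exp_le_exp.2 ?_) h0.le
        have : σ2 / R ^ 2 * a ≤ σ2 / R ^ 2 * (2 * δ) :=
          mul_le_mul_of_nonneg_left ha2 (by positivity)
        nlinarith
    _ = (stdGaussian E).real C ^ (1 - a)
      * (Real.exp (-(4 / 3 * (4 * (σ2 / R ^ 2)))) * (stdGaussian E).real C) ^ a := h8.symm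
    _ ≤ _ := mul_le_mul_of_nonneg_left h7 (by positivity)

/-- the same, hypothesis `‖B x‖² (1 - h) ≤ R²`, any `h ≥ 0` -/
theorem cap_cut' {C : Set E} (hC : MeasurableSet C) (cC : Convex ℝ C) (sC : ∀ x ∈ C, -x ∈ C)
    (B : E →L[ℝ] H) {σ2 R h : ℝ} (hR : 0 < R) (hσ : ∫ x, ‖B x‖ ^ 2 ∂(stdGaussian E) ≤ σ2)
    (h16 : 16 * σ2 ≤ R ^ 2) (hh : 0 ≤ h)
    (hb : ∀ x ∈ C, ‖B x‖ ^ 2 * (1 - h) ≤ R ^ 2) :
    Real.exp (-(32 / 3 * (σ2 / R ^ 2) * h)) * (stdGaussian E).real C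
      ≤ (stdGaussian E).real (C ∩ {x | ‖B x‖ ≤ R}) := by
  have hR2 : 0 < R ^ 2 := by positivity
  have hσ0 : 0 ≤ σ2 := le_trans (integral_nonneg fun x => by positivity) hσ
  rcases le_or_gt h (1 / 2) with h2 | h2
  · refine cap_cut hC cC sC B hR hσ h16 hh fun x hx => ?_
    have h3 := hb x hx
    refine le_of_sq_le_sq ?_ (by positivity)
    have h4 : (1 : ℝ) ≤ (1 + h) ^ 2 * (1 - h) := by nlinarith [mul_nonneg hh (sub_nonneg.2 h2), mul_nonneg hh hh]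
    have h5 : ‖B x‖ ^ 2 * 1 ≤ ‖B x‖ ^ 2 * ((1 + h) ^ 2 * (1 - h)) :=
      mul_le_mul_of_nonneg_left h4 (by positivity)
    have h6 : (1 + h) ^ 2 * (‖B x‖ ^ 2 * (1 - h)) ≤ (1 + h) ^ 2 * R ^ 2 :=
      mul_le_mul_of_nonneg_left h3 (by positivity)
    nlinarith
  · have hcut := cut hC cC sC B (r := R) hR
    refine le_trans (mul_le_mul_of_nonneg_right ?_ measureReal_nonneg) hcut
    have hy0 : 0 ≤ σ2 / R ^ 2 := by positivity
    have hy1 : σ2 / R ^ 2 ≤ 1 / 4 := by rw [div_le_iff₀ hR2]; linarith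
    have e1 : Real.exp (-(32 / 3 * (σ2 / R ^ 2) * h)) ≤ Real.exp (-(4 / 3 * (σ2 / R ^ 2))) := by
      refine Real.exp_le_exp.2 ?_
      nlinarith
    refine e1.trans ((exp_le_one_sub hy0 hy1).trans ?_)
    have : (∫ x, ‖B x‖ ^ 2 ∂(stdGaussian E)) / R ^ 2 ≤ σ2 / R ^ 2 :=
      div_le_div_of_nonneg_right hσ hR2.le
    linarith

section scl

open Crest.Agent.R239.Gain161

lemma scl_eq (r : ℝ) (n x : E) : scl r n x = x + ((r - 1) * ⟪n, x⟫) • n := by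
  rw [scl_apply, proj_apply]
  module

lemma scl_symm (r : ℝ) (n x y : E) : ⟪scl r n x, y⟫ = ⟪x, scl r n y⟫ := by
  rw [scl_eq, scl_eq, inner_add_left, inner_add_right, inner_smul_left, inner_smul_right,
    real_inner_comm x n]
  simp only [conj_trivial]
  ring

lemma adjoint_scl (r : ℝ) (n : E) : (scl r n).adjoint = scl r n := by
  symm
  rw [ContinuousLinearMap.eq_adjoint_iff]
  exact fun x y => scl_symm r n x y

lemma norm_scl_inv_sq_le {n : E} (hn : ‖n‖ = 1) {r s₁ : ℝ} (hr : 0 < r) (h : r ^ 2 = 1 - s₁)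
    (h0 : 0 ≤ s₁) (h1 : s₁ ≤ 1 / 4) (x : E) : ‖scl r⁻¹ n x‖ ^ 2 ≤ 4 / 3 * ‖x‖ ^ 2 := by
  rw [norm_scl_sq hn]
  have hcs : ⟪n, x⟫ ^ 2 ≤ ‖x‖ ^ 2 := by
    have := abs_real_inner_le_norm n x
    rw [hn, one_mul] at this
    rw [← sq_abs]
    exact pow_le_pow_left₀ (abs_nonneg _) this 2
  have h2 : (r⁻¹) ^ 2 = (1 - s₁)⁻¹ := by rw [inv_pow, h]
  have h3 : (1 - s₁)⁻¹ ≤ 4 / 3 := by
    rw [inv_le_comm₀ (by linarith) (by norm_num)]; linarith
  have h4 : 1 ≤ (1 - s₁)⁻¹ := by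
    rw [one_le_inv₀ (by linarith)]; linarith
  rw [h2]
  nlinarith [sq_nonneg ⟪n, x⟫]

theorem level_std {ι : Type*} (s : Finset ι) (R : E →L[ℝ] E) (w : ι → E) {n : E} (hn : ‖n‖ = 1)
    {s₁ : ℝ} (h0 : 0 ≤ s₁) (h1 : s₁ ≤ 1 / 4)
    (hR : ∀ g, ‖R g‖ ^ 2 ≤ ‖g‖ ^ 2 - s₁ * ⟪n, g⟫ ^ 2 + ∑ k ∈ s, ⟪w k, g⟫ ^ 2)
    {Q : Set E} (mQ : MeasurableSet Q) (cQ : Convex ℝ Q) (sQ : ∀ x ∈ Q, -x ∈ Q) (ω : E) (t : ℝ)
    (B : E →L[ℝ] H) {σ2 Rc h : ℝ} (hRc : 0 < Rc)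
    (hσ : ∫ x, ‖B x‖ ^ 2 ∂(stdGaussian E) ≤ σ2) (h16 : 64 / 3 * σ2 ≤ Rc ^ 2) (hh : 0 ≤ h)
    (hb : ∀ g, R g ∈ Q → ‖B g‖ ^ 2 * (1 - h) ≤ Rc ^ 2)
    {K : Set E} (hK : K = {g | R g ∈ Q} ∩ {g | |⟪ω, g⟫| ≤ t} ∩ {g | ‖B g‖ ≤ Rc}) :
    ∃ (ω' : E) (m : ℝ), ‖ω'‖ ^ 2 ≤ 4 / 3 * ‖ω‖ ^ 2 ∧ (s₁ = 0 → ω' = ω) ∧
      Real.exp (-(2 / 3 * ∑ k ∈ s, ‖w k‖ ^ 2)) * Real.exp (-(128 / 9 * (σ2 / Rc ^ 2) * h)) *
        (stdGaussian E).real {g | |⟪ω', g⟫| ≤ t} * (stdGaussian E).real Q ≤ m ∧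
      m ≤ (stdGaussian E).real K ∧
      (∀ c, s₁ ≤ c / 256 → ∫ x in K, ⟪n, x⟫ ^ 2 ∂(stdGaussian E) ≤ (1 - c) * (stdGaussian E).real K →
        m ≤ Real.exp (-(s₁ * c / 4)) * (stdGaussian E).real K) := by
  set r : ℝ := √(1 - s₁) with hr'
  have hr : 0 < r := Real.sqrt_pos.2 (by linarith)
  have hr2 : r ^ 2 = 1 - s₁ := Real.sq_sqrt (by linarith)
  have hri : r⁻¹ ^ 2 * (1 - s₁) = 1 := by rw [← hr2]; field_simp
  set L : E →L[ℝ] E := scl r⁻¹ n with hL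
  have hLn : ∀ x, ‖L x‖ ^ 2 ≤ 4 / 3 * ‖x‖ ^ 2 := fun x =>
    norm_scl_inv_sq_le hn hr hr2 h0 h1 x
  have hLs : ∀ x y, ⟪L x, y⟫ = ⟪x, L y⟫ := fun x y => scl_symm _ _ _ _
  have hLr : ∀ x, L (scl r n x) = x := fun x => by
    rw [hL, scl_scl hn, inv_mul_cancel₀ hr.ne', scl_one]
  have hR' : ∀ g, ‖(R ∘L L) g‖ ^ 2 ≤ ‖g‖ ^ 2 + ∑ k ∈ s, ⟪L (w k), g⟫ ^ 2 := by
    intro g
    have e1 := hR (L g)
    have e2 : ‖L g‖ ^ 2 - s₁ * ⟪n, L g⟫ ^ 2 = ‖g‖ ^ 2 := by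
      rw [hL, norm_scl_sq hn, inner_scl hn]
      linear_combination ⟪n, g⟫ ^ 2 * hri
    simp only [hLs]
    rw [ContinuousLinearMap.comp_apply]
    linarith
  have hcmp := Crest.Agent.R239.Cmp142.cmp_sum_real mQ cQ sQ s (R ∘L L) (fun k => L (w k)) hR'
  have hsum : ∑ k ∈ s, ‖L (w k)‖ ^ 2 ≤ 4 / 3 * ∑ k ∈ s, ‖w k‖ ^ 2 := by
    rw [Finset.mul_sum]; exact Finset.sum_le_sum fun k _ => hLn _
  set C0 : Set E := (R ∘L L) ⁻¹' Q with hC0
  have mC0 : MeasurableSet C0 := (R ∘L L).continuous.measurable mQ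
  have cC0 : Convex ℝ C0 := cQ.linear_preimage ((R ∘L L : E →L[ℝ] E) : E →ₗ[ℝ] E)
  have sC0 : ∀ x ∈ C0, -x ∈ C0 := pre_symm _ sQ
  set ω' : E := L ω with hω'
  set C1 : Set E := C0 ∩ {x | |⟪ω', x⟫| ≤ t} with hC1
  have mC1 : MeasurableSet C1 := mC0.inter (measurableSet_slab _ _)
  have cslab : Convex ℝ {x : E | |⟪ω', x⟫| ≤ t} := by
    have : {x : E | |⟪ω', x⟫| ≤ t} = (innerSL ℝ ω') ⁻¹' (Icc (-t) t) := by
      ext x; simp [abs_le]
    rw [this]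
    exact (convex_Icc _ _).linear_preimage ((innerSL ℝ ω' : E →L[ℝ] ℝ) : E →ₗ[ℝ] ℝ)
  have cC1 : Convex ℝ C1 := cC0.inter cslab
  have sC1 : ∀ x ∈ C1, -x ∈ C1 := fun x hx => ⟨sC0 x hx.1, by
    have : |⟪ω', x⟫| ≤ t := hx.2
    show |⟪ω', -x⟫| ≤ t
    rwa [inner_neg_right, abs_neg]⟩
  have hsl := slab_real mC0 cC0 sC0 ω' t
  have hσ' : ∫ x, ‖(B ∘L L) x‖ ^ 2 ∂(stdGaussian E) ≤ 4 / 3 * σ2 := by
    rw [integral_norm_sq] at hσ ⊢
    refine le_trans ?_ (mul_le_mul_of_nonneg_left hσ (by norm_num))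
    rw [Finset.mul_sum]
    refine Finset.sum_le_sum fun i _ => ?_
    rw [ContinuousLinearMap.adjoint_comp, hL, adjoint_scl, ContinuousLinearMap.comp_apply]
    exact hLn _
  have hcap := cap_cut' mC1 cC1 sC1 (B ∘L L) hRc hσ' (by linarith) hh
    (fun x hx => hb (L x) hx.1)
  set C2 : Set E := C1 ∩ {x | ‖(B ∘L L) x‖ ≤ Rc} with hC2
  have mC2 : MeasurableSet C2 :=
    mC1.inter (measurableSet_le (B ∘L L).continuous.norm.measurable measurable_const)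
  have hpre : (scl r n) ⁻¹' C2 = K := by
    rw [hK]
    ext x
    simp only [hC2, hC1, hC0, mem_preimage, mem_inter_iff, mem_ofPred_eq,
      ContinuousLinearMap.comp_apply, hLr, hω', hLs]
  refine ⟨ω', (stdGaussian E).real C2, hLn ω, fun h => ?_, ?_, ?_, ?_⟩
  · have : r = 1 := by rw [hr', h]; simp
    rw [hω', hL, this, inv_one, scl_one]
  · -- lower bound
    have e1 : Real.exp (-(2 / 3 * ∑ k ∈ s, ‖w k‖ ^ 2)) * (stdGaussian E).real Q
        ≤ (stdGaussian E).real C0 := by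
      refine le_trans (mul_le_mul_of_nonneg_right (Real.exp_le_exp.2 ?_) measureReal_nonneg) hcmp
      linarith
    have e2 : (32 / 3 * (4 / 3 * σ2 / Rc ^ 2) * h) = 128 / 9 * (σ2 / Rc ^ 2) * h := by ring
    rw [e2] at hcap
    calc _ = Real.exp (-(128 / 9 * (σ2 / Rc ^ 2) * h)) *
        ((Real.exp (-(2 / 3 * ∑ k ∈ s, ‖w k‖ ^ 2)) * (stdGaussian E).real Q) *
          (stdGaussian E).real {g | |⟪ω', g⟫| ≤ t}) := by ring
      _ ≤ Real.exp (-(128 / 9 * (σ2 / Rc ^ 2) * h)) *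
        ((stdGaussian E).real C0 * (stdGaussian E).real {g | |⟪ω', g⟫| ≤ t}) := by
          gcongr
      _ ≤ Real.exp (-(128 / 9 * (σ2 / Rc ^ 2) * h)) * (stdGaussian E).real C1 := by
          gcongr
      _ ≤ _ := hcap
  · -- contraction
    have := Crest.Agent.R239.Cmp142.contraction (scl r n) (fun g => by
      refine le_of_sq_le_sq ?_ (norm_nonneg _)
      rw [norm_scl_sq hn, hr2]
      nlinarith [sq_nonneg ⟪n, g⟫]) mC2 (cC1.inter (by
        intro x hx y hy a b ha hb' hab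
        have hx' : ‖(B ∘L L) x‖ ≤ Rc := hx
        have hy' : ‖(B ∘L L) y‖ ≤ Rc := hy
        show ‖(B ∘L L) (a • x + b • y)‖ ≤ Rc
        rw [map_add, map_smul, map_smul]
        refine (norm_add_le _ _).trans ?_
        rw [norm_smul, norm_smul, Real.norm_of_nonneg ha, Real.norm_of_nonneg hb']
        calc a * ‖(B ∘L L) x‖ + b * ‖(B ∘L L) y‖ ≤ a * Rc + b * Rc := by gcongr
          _ = Rc := by rw [← add_mul, hab, one_mul])) (fun x hx => ⟨sC1 x hx.1, by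
            show ‖(B ∘L L) (-x)‖ ≤ Rc
            rw [map_neg, norm_neg]; exact hx.2⟩)
    rw [hpre] at this
    exact ENNReal.toReal_mono (measure_ne_top _ _) this
  · intro c hc hthin
    have hcapc : Convex ℝ K := by
      rw [← hpre]
      refine Convex.linear_preimage (f := ((scl r n : E →L[ℝ] E) : E →ₗ[ℝ] E)) ?_
      exact cC1.inter (by
        intro x hx y hy a b ha hb' hab
        have hx' : ‖(B ∘L L) x‖ ≤ Rc := hx
        have hy' : ‖(B ∘L L) y‖ ≤ Rc := hy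
        show ‖(B ∘L L) (a • x + b • y)‖ ≤ Rc
        rw [map_add, map_smul, map_smul]
        refine (norm_add_le _ _).trans ?_
        rw [norm_smul, norm_smul, Real.norm_of_nonneg ha, Real.norm_of_nonneg hb']
        calc a * ‖(B ∘L L) x‖ + b * ‖(B ∘L L) y‖ ≤ a * Rc + b * Rc := by gcongr
          _ = Rc := by rw [← add_mul, hab, one_mul])
    have mK : MeasurableSet K := by
      rw [← hpre]; exact (scl r n).continuous.measurable mC2
    have sK : ∀ x ∈ K, -x ∈ K := by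
      rw [← hpre]
      refine pre_symm _ fun x hx => ⟨sC1 x hx.1, by
            show ‖(B ∘L L) (-x)‖ ≤ Rc
            rw [map_neg, norm_neg]; exact hx.2⟩
    have := scale_le hn hr hr2 h0 (by linarith) hc mC2 (by
      intro u _
      rw [hpre]
      exact slab_real mK hcapc sK n u) (by rw [hpre]; exact hthin)
    rwa [hpre] at this

end scl

end Crest.Agent.R239.Lv264
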