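import Crest.Agent.R239.Mix1_614
import Crest.Agent.R239.CmpR_174
import Crest.Agent.R239.Dom_640

/-!
# R239 / S0370 : one-level core inequality (helper534)

`core` : mixture of a body `K` of the flag `V` with the pull back `R ⁻¹ B` of a body of the tilted
flag, cut by a slab and by the cap in the world of `V`.
-/

set_option autoImplicit false
set_option linter.unusedVariables false

open MeasureTheory ProbabilityTheory Set Filter Topology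
open scoped RealInnerProductSpace ENNReal NNReal

namespace Crest.Agent.R239.Lv534

open Crest.Agent.R239

variable {E : Type*} [NormedAddCommGroup E] [InnerProductSpace ℝ E] [FiniteDimensional ℝ E]
  [MeasurableSpace E] [BorelSpace E]
variable {G : Type*} [NormedAddCommGroup G] [InnerProductSpace ℝ G] [FiniteDimensional ℝ G]

lemma log_one_sub_ge {e : ℝ} (h0 : 0 ≤ e) (h : e ≤ 1 / 2) : -(2 * e) ≤ Real.log (1 - e) := by
  have h1 : 0 < 1 - e := by linarith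
  have h2 := Real.one_sub_inv_le_log_of_pos h1
  have h3 : (1 - e)⁻¹ ≤ 1 + 2 * e := by
    rw [inv_le_comm₀ h1 (by linarith), inv_le_iff_one_le_mul₀ (by linarith)]
    nlinarith
  linarith

/-- trivial cut -/
theorem cap_triv {C : Set E} (mC : MeasurableSet C) (cC : Convex ℝ C) (sC : ∀ x ∈ C, -x ∈ C)
    (Y : E →L[ℝ] G) {r ε : ℝ} (hr : 0 < r) (h0 : 0 ≤ ε) (h1 : ε ≤ 1 / 2)
    (hE : ∫ x, ‖Y x‖ ^ 2 ∂(stdGaussian E) ≤ ε * r ^ 2) :
    (1 - ε) * (stdGaussian E).real C ≤ (stdGaussian E).real (C ∩ {x | ‖Y x‖ ≤ r}) := by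
  refine le_trans ?_ (Dom640.cut mC cC sC Y hr)
  refine mul_le_mul_of_nonneg_right ?_ measureReal_nonneg
  have : (∫ x, ‖Y x‖ ^ 2 ∂(stdGaussian E)) / r ^ 2 ≤ ε := by
    rw [div_le_iff₀ (by positivity)]; exact hE
  linarith

/-- the cap cut: cost `4 ε h` -/
theorem cap_cut {C : Set E} (mC : MeasurableSet C) (cC : Convex ℝ C) (sC : ∀ x ∈ C, -x ∈ C)
    (Y : E →L[ℝ] G) {R0 h ε : ℝ} (hR0 : 0 < R0) (hh : 0 ≤ h) (h0 : 0 ≤ ε) (h1 : ε ≤ 1 / 2)
    (hE : ∫ x, ‖Y x‖ ^ 2 ∂(stdGaussian E) ≤ ε * (R0 / 2) ^ 2)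
    (hC : h ≤ 1 / 2 → ∀ x ∈ C, ‖Y x‖ ≤ (1 + h) * R0) (hpos : 0 < (stdGaussian E).real C) :
    0 < (stdGaussian E).real (C ∩ {x | ‖Y x‖ ≤ R0}) ∧
      Real.log ((stdGaussian E).real C) - 4 * ε * h
        ≤ Real.log ((stdGaussian E).real (C ∩ {x | ‖Y x‖ ≤ R0})) := by
  have hE' : ∫ x, ‖Y x‖ ^ 2 ∂(stdGaussian E) ≤ ε * R0 ^ 2 := by
    refine hE.trans ?_
    nlinarith [mul_nonneg h0 (sq_nonneg R0)]
  have ht := cap_triv mC cC sC Y hR0 h0 h1 hE'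
  have h1e : 0 < 1 - ε := by linarith
  have hp : 0 < (stdGaussian E).real (C ∩ {x | ‖Y x‖ ≤ R0}) :=
    lt_of_lt_of_le (mul_pos h1e hpos) ht
  refine ⟨hp, ?_⟩
  have hlog := log_one_sub_ge h0 h1
  rcases le_or_gt h (1 / 2) with hle | hgt
  · rcases eq_or_lt_of_le hh with h00 | hpos'
    · have e : C ∩ {x | ‖Y x‖ ≤ R0} = C := by
        refine inter_eq_left.2 fun x hx => ?_
        have := hC hle x hx
        rw [← h00] at this
        simpa using this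
      rw [e, ← h00]; simp
    · set a : ℝ := h / (h + 1 / 2) with ha
      have hden : 0 < h + 1 / 2 := by linarith
      have ha0 : 0 < a := div_pos hpos' hden
      have ha1 : a < 1 := by rw [ha, div_lt_one hden]; linarith
      have hah : a * (h + 1 / 2) = h := by rw [ha]; field_simp
      have ha2 : a ≤ 2 * h := by nlinarith
      have mB : MeasurableSet (C ∩ {x : E | ‖Y x‖ ≤ R0 / 2}) :=
        mC.inter (measurableSet_le Y.continuous.norm.measurable measurable_const)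
      have mD : MeasurableSet (C ∩ {x : E | ‖Y x‖ ≤ R0}) :=
        mC.inter (measurableSet_le Y.continuous.norm.measurable measurable_const)
      have hpr := Dom640.pr_real ha0 ha1 mC mB mD (fun x hx y hy => by
        refine ⟨cC hx hy.1 (by linarith) ha0.le (by ring), ?_⟩
        have k1 := hC hle x hx
        have k2 : ‖Y y‖ ≤ R0 / 2 := hy.2
        show ‖Y ((1 - a) • x + a • y)‖ ≤ R0
        rw [map_add, map_smul, map_smul]
        have k3 : ‖(1 - a) • Y x + a • Y y‖ ≤ (1 - a) * ‖Y x‖ + a * ‖Y y‖ := by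
          refine (norm_add_le _ _).trans ?_
          rw [norm_smul, norm_smul, Real.norm_of_nonneg (by linarith : 0 ≤ 1 - a),
            Real.norm_of_nonneg ha0.le]
        have k4 : (1 - a) * ‖Y x‖ ≤ (1 - a) * ((1 + h) * R0) :=
          mul_le_mul_of_nonneg_left k1 (by linarith)
        have k5 : a * ‖Y y‖ ≤ a * (R0 / 2) := mul_le_mul_of_nonneg_left k2 ha0.le
        have k6 : (1 - a) * ((1 + h) * R0) + a * (R0 / 2) = R0 * (1 + h - a * (h + 1 / 2)) := by ring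
        rw [hah] at k6
        linarith)
      have hR2 : 0 < R0 / 2 := by linarith
      have hB := cap_triv mC cC sC Y hR2 h0 h1 hE
      have hBp : 0 < (stdGaussian E).real (C ∩ {x | ‖Y x‖ ≤ R0 / 2}) :=
        lt_of_lt_of_le (mul_pos h1e hpos) hB
      have l1 := Real.log_le_log (by positivity) hpr
      rw [Real.log_mul (by positivity) (by positivity), Real.log_rpow hpos, Real.log_rpow hBp] at l1
      have l2 := Real.log_le_log (mul_pos h1e hpos) hB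
      rw [Real.log_mul h1e.ne' hpos.ne'] at l2
      have l3 : a * (Real.log (1 - ε) + Real.log ((stdGaussian E).real C))
          ≤ a * Real.log ((stdGaussian E).real (C ∩ {x | ‖Y x‖ ≤ R0 / 2})) :=
        mul_le_mul_of_nonneg_left l2 ha0.le
      have l4 : -(a * (2 * ε)) ≤ a * Real.log (1 - ε) := by
        have := mul_le_mul_of_nonneg_left hlog ha0.le
        linarith
      have l5 : a * (2 * ε) ≤ 2 * h * (2 * ε) := mul_le_mul_of_nonneg_right ha2 (by linarith)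
      linarith
  · have l1 := Real.log_le_log (mul_pos h1e hpos) ht
    rw [Real.log_mul h1e.ne' hpos.ne'] at l1
    have : 2 * ε ≤ 4 * ε * h := by nlinarith
    linarith

lemma norm_Sc_sq_le {n : E} (hn : ‖n‖ = 1) {c : ℝ} (hc : 1 ≤ c ^ 2) (x : E) :
    ‖CmpR174.Sc n c x‖ ^ 2 ≤ c ^ 2 * ‖x‖ ^ 2 := by
  rw [CmpR174.norm_Sc_sq hn]
  have h1 : ⟪n, x⟫ ^ 2 ≤ ‖x‖ ^ 2 := by
    have := abs_real_inner_le_norm n x
    rw [hn, one_mul] at this
    rw [← sq_abs]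
    exact pow_le_pow_left₀ (abs_nonneg _) this 2
  nlinarith

lemma adjoint_Sc (n : E) (c : ℝ) (y : E) :
    ContinuousLinearMap.adjoint (CmpR174.Sc n c) y = CmpR174.Sc n c y := by
  refine ext_inner_left ℝ fun x => ?_
  rw [ContinuousLinearMap.adjoint_inner_right]
  exact CmpR174.inner_Sc_comm n c x y

/-- image of the trace under the stretch -/
lemma integral_comp_Sc {n : E} (hn : ‖n‖ = 1) {c : ℝ} (hc : 1 ≤ c ^ 2) (Y : E →L[ℝ] G) :
    ∫ x, ‖(Y ∘L CmpR174.Sc n c) x‖ ^ 2 ∂(stdGaussian E)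
      ≤ c ^ 2 * ∫ x, ‖Y x‖ ^ 2 ∂(stdGaussian E) := by
  rw [Dom640.integral_norm_sq, Dom640.integral_norm_sq, Finset.mul_sum]
  refine Finset.sum_le_sum fun i _ => ?_
  rw [ContinuousLinearMap.adjoint_comp]
  show ‖ContinuousLinearMap.adjoint (CmpR174.Sc n c) (ContinuousLinearMap.adjoint Y _)‖ ^ 2 ≤ _
  rw [adjoint_Sc]
  exact norm_Sc_sq_le hn hc _

/-- **core inequality of one level** -/
theorem core {n : E} (hn : ‖n‖ = 1) {τ : ℝ} (h0 : 0 ≤ τ) (h1 : τ ≤ 1 / 4) (R : E →L[ℝ] E)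
    {ι : Type*} (J : Finset ι) (u : ι → E)
    (hN : ∀ g, ‖R g‖ ^ 2 + τ * ⟪n, g⟫ ^ 2 ≤ ‖g‖ ^ 2 + ∑ k ∈ J, ⟪u k, g⟫ ^ 2)
    {K B W : Set E} (mK : MeasurableSet K) (Kpos : 0 < (stdGaussian E).real K)
    (mB : MeasurableSet B) (cB : Convex ℝ B) (sB : ∀ x ∈ B, -x ∈ B)
    (Bpos : 0 < (stdGaussian E).real B) (a : E) {t ps : ℝ} (hps0 : 0 < ps)
    (hps : ∀ w : E, ‖w‖ ^ 2 ≤ 4 / 3 * ‖a‖ ^ 2 → ps ≤ (stdGaussian E).real {x | |⟪w, x⟫| ≤ t})
    (Y : E →L[ℝ] G) {R0 h ε : ℝ} (hR0 : 0 < R0) (hh : 0 ≤ h) (hε0 : 0 ≤ ε) (hε1 : ε ≤ 1 / 2)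
    (hE : 4 / 3 * ∫ x, ‖Y x‖ ^ 2 ∂(stdGaussian E) ≤ ε * (R0 / 2) ^ 2)
    (hY : h ≤ 1 / 2 → ∀ g, R g ∈ B → ‖Y g‖ ≤ (1 + h) * R0)
    (mW : MeasurableSet W)
    (hW : ∀ x ∈ K, ∀ y, R y ∈ B → |⟪a, y⟫| ≤ t → ‖Y y‖ ≤ R0 →
      (1 / 2 : ℝ) • x + (1 / 2 : ℝ) • y ∈ W) :
    0 < (stdGaussian E).real W ∧
    Real.log ((stdGaussian E).real K) + Real.log ((stdGaussian E).real B) +
      τ / 2 * (1 - (1 + 4 * τ) *
        ((∫ x in K, ⟪n, x⟫ ^ 2 ∂(stdGaussian E)) / (stdGaussian E).real K))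
      - ∑ k ∈ J, ‖u k‖ ^ 2 + Real.log ps - 4 * ε * h
      ≤ 2 * Real.log ((stdGaussian E).real W) := by
  have hτ1 : 0 < 1 - τ := by linarith
  set c : ℝ := 1 / Real.sqrt (1 - τ) with hc
  have hc2 : c ^ 2 = (1 - τ)⁻¹ := by
    rw [hc, div_pow, Real.sq_sqrt hτ1.le, one_pow, one_div]
  have hc1 : 1 ≤ c ^ 2 := by rw [hc2]; exact (one_le_inv₀ hτ1).2 (by linarith)
  have hc43 : c ^ 2 ≤ 4 / 3 := by
    rw [hc2, inv_le_comm₀ hτ1 (by norm_num)]; norm_num; linarith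
  have hcτ : c ^ 2 * (1 - τ) = 1 := by rw [hc2, inv_mul_cancel₀ hτ1.ne']
  set A : E →L[ℝ] E := CmpR174.Sc n c with hA
  set Q : Set E := {y | R y ∈ B ∧ |⟪a, y⟫| ≤ t ∧ ‖Y y‖ ≤ R0} with hQ
  have mQ : MeasurableSet Q := by
    have e : Q = R ⁻¹' B ∩ ({y | |⟪a, y⟫| ≤ t} ∩ {y | ‖Y y‖ ≤ R0}) := rfl
    rw [e]
    exact (R.continuous.measurable mB).inter ((Dom640.measurableSet_slab a t).inter
      (measurableSet_le Y.continuous.norm.measurable measurable_const))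
  -- mixture
  have hmix := Mix1_614.mix1 mK mQ mW (fun x hx y hy => hW x hx y hy.1 hy.2.1 hy.2.2) hn h0 h1 Kpos
  have hAQ : {x : E | Mix1_614.scl n (1 / Real.sqrt (1 - τ)) x ∈ Q} = A ⁻¹' Q := by
    ext x
    show Mix1_614.scl n (1 / Real.sqrt (1 - τ)) x ∈ Q ↔ A x ∈ Q
    have : Mix1_614.scl n (1 / Real.sqrt (1 - τ)) x = A x := by
      rw [hA, CmpR174.Sc_apply, ← hc]; rfl
    rw [this]
  rw [hAQ] at hmix
  -- comparison
  set C1 : Set E := (R ∘L A) ⁻¹' B with hC1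
  have mC1 : MeasurableSet C1 := (R ∘L A).continuous.measurable mB
  have cC1 : Convex ℝ C1 := Dom640.pre_conv (R ∘L A) cB
  have sC1 : ∀ x ∈ C1, -x ∈ C1 := Dom640.pre_symm (R ∘L A) sB
  have hcmp := CmpR174.cmp J (fun k => A (u k)) (R ∘L A) (fun g => by
    have k1 := hN (A g)
    have k2 : ‖A g‖ ^ 2 = ‖g‖ ^ 2 + (c ^ 2 - 1) * ⟪n, g⟫ ^ 2 := CmpR174.norm_Sc_sq hn c g
    have k3 : ⟪n, A g⟫ = c * ⟪n, g⟫ := CmpR174.inner_n_Sc hn c g
    have k4 : ∀ k ∈ J, ⟪u k, A g⟫ ^ 2 = ⟪A (u k), g⟫ ^ 2 := fun k _ => by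
      rw [hA, CmpR174.inner_Sc_comm]
    rw [Finset.sum_congr rfl k4, k2, k3] at k1
    show ‖R (A g)‖ ^ 2 ≤ _
    have k5 : τ * (c * ⟪n, g⟫) ^ 2 = (c ^ 2 - c ^ 2 * (1 - τ)) * ⟪n, g⟫ ^ 2 := by ring
    rw [k5, hcτ] at k1
    linarith) mB cB sB
  have hsum : ∑ k ∈ J, ‖A (u k)‖ ^ 2 ≤ 4 / 3 * ∑ k ∈ J, ‖u k‖ ^ 2 := by
    rw [Finset.mul_sum]
    refine Finset.sum_le_sum fun k _ => (norm_Sc_sq_le hn hc1 (u k)).trans ?_
    exact mul_le_mul_of_nonneg_right hc43 (by positivity)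
  have hC1p : 0 < (stdGaussian E).real C1 :=
    lt_of_lt_of_le (mul_pos (Real.exp_pos _) Bpos) hcmp
  have l1 := Real.log_le_log (mul_pos (Real.exp_pos _) Bpos) hcmp
  rw [Real.log_mul (Real.exp_pos _).ne' Bpos.ne', Real.log_exp] at l1
  -- slab
  set C2 : Set E := C1 ∩ {x | |⟪A a, x⟫| ≤ t} with hC2
  have mS : MeasurableSet {x : E | |⟪A a, x⟫| ≤ t} := Dom640.measurableSet_slab _ _
  have mC2 : MeasurableSet C2 := mC1.inter mS
  have cC2 : Convex ℝ C2 := by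
    refine cC1.inter ?_
    have e : {x : E | |⟪A a, x⟫| ≤ t} = (innerSL ℝ (A a)) ⁻¹' (Icc (-t) t) := by
      ext x; simp [abs_le]
    rw [e]
    exact (convex_Icc _ _).linear_preimage (innerSL ℝ (A a) : E →ₗ[ℝ] ℝ)
  have sC2 : ∀ x ∈ C2, -x ∈ C2 := fun x hx => ⟨sC1 x hx.1, by
    show |⟪A a, -x⟫| ≤ t
    rw [inner_neg_right, abs_neg]; exact hx.2⟩
  have hsl := Dom640.slab_real mC1 cC1 sC1 (A a) t
  have hps' : ps ≤ (stdGaussian E).real {x | |⟪A a, x⟫| ≤ t} := by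
    refine hps _ ((norm_Sc_sq_le hn hc1 a).trans ?_)
    exact mul_le_mul_of_nonneg_right hc43 (by positivity)
  have hsl2 : (stdGaussian E).real C1 * ps ≤ (stdGaussian E).real C2 :=
    (mul_le_mul_of_nonneg_left hps' measureReal_nonneg).trans hsl
  have hC2p : 0 < (stdGaussian E).real C2 := lt_of_lt_of_le (mul_pos hC1p hps0) hsl2
  have l2 := Real.log_le_log (mul_pos hC1p hps0) hsl2
  rw [Real.log_mul hC1p.ne' hps0.ne'] at l2
  -- cap
  have hE' : ∫ x, ‖(Y ∘L A) x‖ ^ 2 ∂(stdGaussian E) ≤ ε * (R0 / 2) ^ 2 := by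
    refine (integral_comp_Sc hn hc1 Y).trans (le_trans ?_ hE)
    exact mul_le_mul_of_nonneg_right hc43 (integral_nonneg fun x => by positivity)
  obtain ⟨hC3p, l3⟩ := cap_cut mC2 cC2 sC2 (Y ∘L A) hR0 hh hε0 hε1 hE'
    (fun hle x hx => hY hle (A x) hx.1) hC2p
  have hC3 : C2 ∩ {x | ‖(Y ∘L A) x‖ ≤ R0} = A ⁻¹' Q := by
    ext x
    show ((R (A x) ∈ B ∧ |⟪A a, x⟫| ≤ t) ∧ ‖Y (A x)‖ ≤ R0) ↔
      (R (A x) ∈ B ∧ |⟪a, A x⟫| ≤ t ∧ ‖Y (A x)‖ ≤ R0)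
    rw [show ⟪A a, x⟫ = ⟪a, A x⟫ from CmpR174.inner_Sc_comm n c a x]
    tauto
  rw [hC3] at hC3p l3
  have hW2 : 0 < (stdGaussian E).real W ^ 2 :=
    lt_of_lt_of_le (by positivity) hmix
  have hWp : 0 < (stdGaussian E).real W := by
    rcases eq_or_lt_of_le (measureReal_nonneg (μ := stdGaussian E) (s := W)) with e | e
    · rw [← e] at hW2; norm_num at hW2
    · exact e
  refine ⟨hWp, ?_⟩
  have l4 := Real.log_le_log (by positivity) hmix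
  rw [Real.log_mul (by positivity) (Real.exp_pos _).ne', Real.log_mul Kpos.ne' hC3p.ne',
    Real.log_exp, Real.log_pow] at l4
  push_cast at l4
  have hs0 : 0 ≤ ∑ k ∈ J, ‖u k‖ ^ 2 := Finset.sum_nonneg fun k _ => by positivity
  have e5 : τ / 2 * (1 - (1 + 4 * τ) *
        ((∫ x in K, ⟪n, x⟫ ^ 2 ∂(stdGaussian E)) / (stdGaussian E).real K))
      = τ / 2 - (τ + 4 * τ ^ 2) / 2 *
        ((∫ x in K, ⟪n, x⟫ ^ 2 ∂(stdGaussian E)) / (stdGaussian E).real K) := by ring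
  rw [e5]
  linarith

end Crest.Agent.R239.Lv534
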