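import Mathlib
import Crest.Agent.R239.Gau4
import Crest.Agent.R239.Gau6
import Crest.Agent.R239.Cmp_142
import Crest.Agent.R239.Mom_764

/-! R239 (helper614): Gaussian comparison in covariance form.

`cov_cmp` : if `‖S† t‖² ≤ ‖C† t‖² + Σ_k ⟪C a_k, t⟫²` then
`exp(-(Σ ‖a_k‖²)/2) gau C K ≤ gau S K` for every symmetric convex measurable `K`. -/

set_option autoImplicit false
set_option linter.unusedSectionVars false
open MeasureTheory ProbabilityTheory Set Filter Topology
open scoped RealInnerProductSpace ENNReal NNReal InnerProduct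

namespace Crest.Agent.R239.Lv614

open Crest.Agent.R239

variable {E : Type*} [NormedAddCommGroup E] [InnerProductSpace ℝ E] [FiniteDimensional ℝ E]
  [MeasurableSpace E] [BorelSpace E]
variable {F : Type*} [NormedAddCommGroup F] [InnerProductSpace ℝ F] [FiniteDimensional ℝ F]
  [MeasurableSpace F] [BorelSpace F]
variable {G : Type*} [NormedAddCommGroup G] [InnerProductSpace ℝ G] [FiniteDimensional ℝ G]
  [MeasurableSpace G] [BorelSpace G]

/-- Anderson monotonicity in the covariance, symmetric convex sets. -/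
theorem gau_mono_symm {S : F →L[ℝ] E} {C : G →L[ℝ] E} (h : ∀ t, ‖S.adjoint t‖ ≤ ‖C.adjoint t‖)
    {K : Set E} (mK : MeasurableSet K) (cK : Convex ℝ K) (sK : ∀ x ∈ K, -x ∈ K) :
    gau C K ≤ gau S K := by
  obtain ⟨D, hD⟩ := exists_complement S C h
  have h1 := gau_mix (A := D) (B := S) (C := C) (fun t => by rw [add_comm]; exact hD t) mK
  rw [h1]
  calc ∫⁻ x, gau S {z | D x + z ∈ K} ∂(stdGaussian E) ≤ ∫⁻ _, gau S K ∂(stdGaussian E) := by
        refine lintegral_mono fun x => ?_
        have hm : MeasurableSet {z : E | D x + z ∈ K} := measurable_const_add (D x) mK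
        rw [gau_apply S hm, gau_apply S mK]
        exact Cmp142.anderson S mK cK sK (D x)
    _ = gau S K := by simp

/-- shift of a symmetric set -/
theorem shift_symm (h : E) {K : Set E} (mK : MeasurableSet K) (sK : ∀ x ∈ K, -x ∈ K) :
    Real.exp (-‖h‖ ^ 2 / 2) * (stdGaussian E).real K ≤ (stdGaussian E).real {x | x + h ∈ K} := by
  have h1 := cameron_martin_measure_real h mK
  have h2 := cameron_martin_measure_real (-h) mK
  have mS : MeasurableSet {x : E | x + h ∈ K} := measurable_add_const h mK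
  have hset : {x : E | -x ∈ {x : E | x + h ∈ K}} = {x : E | x + -h ∈ K} := by
    ext x
    simp only [mem_ofPred_eq]
    constructor
    · intro hx
      have := sK _ hx
      rwa [neg_add, neg_neg] at this
    · intro hx
      have := sK _ hx
      rwa [neg_add, neg_neg] at this
  have h3 : (stdGaussian E).real {x | x + -h ∈ K} = (stdGaussian E).real {x | x + h ∈ K} := by
    rw [← hset]
    have := Cmp142.std_neg (E := E) mS
    simp only [Measure.real, this]
  rw [h3] at h2
  have i1 : Integrable (fun x : E => Real.exp (⟪h, x⟫ - ‖h‖ ^ 2 / 2)) (stdGaussian E) :=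
    integrable_exp_inner h
  have i2 : Integrable (fun x : E => Real.exp (⟪-h, x⟫ - ‖-h‖ ^ 2 / 2)) (stdGaussian E) :=
    integrable_exp_inner (-h)
  have h4 : (stdGaussian E).real {x | x + h ∈ K} + (stdGaussian E).real {x | x + h ∈ K}
      = ∫ x in K, (Real.exp (⟪h, x⟫ - ‖h‖ ^ 2 / 2) + Real.exp (⟪-h, x⟫ - ‖-h‖ ^ 2 / 2))
        ∂(stdGaussian E) := by
    rw [integral_add i1.integrableOn i2.integrableOn, ← h1, ← h2]
  have h5 : ∫ x in K, (2 * Real.exp (-‖h‖ ^ 2 / 2)) ∂(stdGaussian E)
      ≤ ∫ x in K, (Real.exp (⟪h, x⟫ - ‖h‖ ^ 2 / 2) + Real.exp (⟪-h, x⟫ - ‖-h‖ ^ 2 / 2))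
        ∂(stdGaussian E) := by
    apply integral_mono (integrable_const _) (i1.integrableOn.add i2.integrableOn)
    intro x
    simp only [inner_neg_left, norm_neg, Pi.add_apply]
    have e1 : Real.exp (⟪h, x⟫ - ‖h‖ ^ 2 / 2) = Real.exp (-‖h‖ ^ 2 / 2) * Real.exp ⟪h, x⟫ := by
      rw [← Real.exp_add]; congr 1; ring
    have e2 : Real.exp (-⟪h, x⟫ - ‖h‖ ^ 2 / 2) = Real.exp (-‖h‖ ^ 2 / 2) * Real.exp (-⟪h, x⟫) := by
      rw [← Real.exp_add]; congr 1; ring
    rw [e1, e2]
    have e3 := Real.add_one_le_exp ⟪h, x⟫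
    have e4 := Real.add_one_le_exp (-⟪h, x⟫)
    have e5 := Real.exp_pos (-‖h‖ ^ 2 / 2)
    nlinarith
  rw [integral_const, ← h4] at h5
  simp only [measureReal_restrict_apply_univ, smul_eq_mul] at h5
  linarith

/-- `∫ ‖L x‖²` of a sum of vectors with independent coefficients, exponential form (Jensen). -/
theorem exp_jensen {Ω : Type*} [MeasurableSpace Ω] (μ : Measure Ω) [IsProbabilityMeasure μ]
    {f : Ω → ℝ} (hf : Integrable f μ) (h0 : ∀ x, 0 ≤ f x) (mf : Measurable f) :
    Real.exp (-(∫ x, f x ∂μ) / 2) ≤ ∫ x, Real.exp (-(f x) / 2) ∂μ := by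
  set a := ∫ x, f x ∂μ with ha
  have ie : Integrable (fun x => Real.exp (-(f x) / 2)) μ := by
    refine Integrable.of_bound (by fun_prop) 1 (Eventually.of_forall fun x => ?_)
    rw [Real.norm_eq_abs, abs_of_pos (Real.exp_pos _), Real.exp_le_one_iff]
    have := h0 x
    linarith
  have h1 : ∫ x, (Real.exp (-a / 2) * (1 + a / 2 - f x / 2)) ∂μ ≤ ∫ x, Real.exp (-(f x) / 2) ∂μ := by
    apply integral_mono
    · exact ((integrable_const _).sub (hf.div_const _)).const_mul _
    · exact ie
    · intro x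
      simp only
      have h2 := Real.add_one_le_exp (-(f x) / 2 + a / 2)
      have h3 : Real.exp (-(f x) / 2) = Real.exp (-a / 2) * Real.exp (-(f x) / 2 + a / 2) := by
        rw [← Real.exp_add]; congr 1; ring
      rw [h3]
      apply mul_le_mul_of_nonneg_left _ (Real.exp_pos _).le
      linarith
  have h4 : ∫ x, (Real.exp (-a / 2) * (1 + a / 2 - f x / 2)) ∂μ = Real.exp (-a / 2) := by
    rw [integral_const_mul, integral_sub (integrable_const _) (hf.div_const _), integral_div,
      integral_const, ← ha]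
    simp
  linarith

/-- **Covariance form of the comparison.** -/
theorem cov_cmp {ι : Type*} (s : Finset ι) {S : F →L[ℝ] E} {C : G →L[ℝ] E} (a : ι → G)
    (h : ∀ t, ‖S.adjoint t‖ ^ 2 ≤ ‖C.adjoint t‖ ^ 2 + ∑ k ∈ s, ⟪C (a k), t⟫ ^ 2)
    {K : Set E} (mK : MeasurableSet K) (cK : Convex ℝ K) (sK : ∀ x ∈ K, -x ∈ K) :
    Real.exp (-(∑ k ∈ s, ‖a k‖ ^ 2) / 2) * (gau C).real K ≤ (gau S).real K := by
  classical
  -- the operator of the additional noise
  set L : EuclideanSpace ℝ s →L[ℝ] G :=
    ∑ k : s, (innerSL ℝ (EuclideanSpace.single k (1:ℝ) : EuclideanSpace ℝ s)).smulRight (a k)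
    with hL
  have hLx : ∀ x : EuclideanSpace ℝ s, L x = ∑ k : s, x k • a k := by
    intro x
    rw [hL, _root_.sum_apply]
    refine Finset.sum_congr rfl fun k _ => ?_
    rw [ContinuousLinearMap.smulRight_apply, innerSL_apply_apply, EuclideanSpace.inner_single_left]
    simp
  have hLadj : ∀ g : G, ‖L.adjoint g‖ ^ 2 = ∑ k ∈ s, ⟪a k, g⟫ ^ 2 := by
    intro g
    have h1 : ∀ k : s, (L.adjoint g) k = ⟪a k, g⟫ := by
      intro k
      have : (L.adjoint g) k
          = ⟪(EuclideanSpace.single k (1:ℝ) : EuclideanSpace ℝ s), L.adjoint g⟫ := by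
        rw [EuclideanSpace.inner_single_left]; simp
      rw [this, ContinuousLinearMap.adjoint_inner_right, hLx]
      congr 1
      rw [Finset.sum_eq_single k]
      · simp
      · intro b _ hb
        simp [hb]
      · simp
    rw [EuclideanSpace.norm_sq_eq]
    rw [← Finset.sum_coe_sort s]
    refine Finset.sum_congr rfl fun k _ => ?_
    rw [h1, Real.norm_eq_abs, sq_abs]
  set A : EuclideanSpace ℝ s →L[ℝ] E := C ∘L L with hA
  have hAadj : ∀ t, ‖A.adjoint t‖ ^ 2 = ∑ k ∈ s, ⟪C (a k), t⟫ ^ 2 := by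
    intro t
    have : A.adjoint t = L.adjoint (C.adjoint t) := by
      rw [hA, ContinuousLinearMap.adjoint_comp]; rfl
    rw [this, hLadj]
    refine Finset.sum_congr rfl fun k _ => ?_
    rw [ContinuousLinearMap.adjoint_inner_right]
  -- a root of the big covariance
  obtain ⟨C1, hC1⟩ := exists_root (C ∘L C.adjoint + A ∘L A.adjoint) (by
    intro x y
    simp only [add_apply, ContinuousLinearMap.comp_apply, inner_add_left, inner_add_right]
    rw [← ContinuousLinearMap.adjoint_inner_right C, ← ContinuousLinearMap.adjoint_inner_right A,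
      ← ContinuousLinearMap.adjoint_inner_left C, ← ContinuousLinearMap.adjoint_inner_left A]) (by
    intro x
    simp only [add_apply, inner_add_left]
    rw [← norm_adjoint_sq, ← norm_adjoint_sq]
    positivity)
  have hC1' : ∀ t, ‖A.adjoint t‖ ^ 2 + ‖C.adjoint t‖ ^ 2 = ‖C1.adjoint t‖ ^ 2 := by
    intro t
    rw [hC1]
    simp only [add_apply, inner_add_left]
    rw [← norm_adjoint_sq, ← norm_adjoint_sq]
    ring
  have hmono : gau C1 K ≤ gau S K := by
    apply gau_mono_symm _ mK cK sK
    intro t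
    have h1 : ‖S.adjoint t‖ ^ 2 ≤ ‖C1.adjoint t‖ ^ 2 := by
      rw [← hC1', hAadj]
      linarith [h t]
    exact (pow_le_pow_iff_left₀ (norm_nonneg _) (norm_nonneg _) two_ne_zero).1 h1
  have hmono' : (gau C1).real K ≤ (gau S).real K := ENNReal.toReal_mono (measure_ne_top _ _) hmono
  refine le_trans ?_ hmono'
  -- mixture
  have hmix := gau_mix_real hC1' mK
  have hmeas := measurable_gau_shift_real C mK
  have hmix2 : (gau C1).real K = ∫ x, (gau C).real {z | A x + z ∈ K} ∂(stdGaussian (EuclideanSpace ℝ s)) := by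
    rw [hmix]
    unfold gau
    rw [integral_map A.continuous.aemeasurable]
    exact hmeas.aestronglyMeasurable
  rw [hmix2]
  -- pointwise bound
  have hpt : ∀ x : EuclideanSpace ℝ s, Real.exp (-‖L x‖ ^ 2 / 2) * (gau C).real K ≤ (gau C).real {z | A x + z ∈ K} := by
    intro x
    have hm : MeasurableSet {z : E | A x + z ∈ K} := measurable_const_add (A x) mK
    rw [gau_real_apply C mK, gau_real_apply C hm]
    have h1 := shift_symm (L x) (K := C ⁻¹' K) (C.continuous.measurable mK) (by
      intro y hy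
      simp only [mem_preimage, map_neg]
      exact sK _ hy)
    have h2 : {y : G | y + L x ∈ C ⁻¹' K} = C ⁻¹' {z | A x + z ∈ K} := by
      ext y
      simp [hA, add_comm]
    rwa [h2] at h1
  have hint : ∫ x, ‖L x‖ ^ 2 ∂(stdGaussian (EuclideanSpace ℝ s)) = ∑ k ∈ s, ‖a k‖ ^ 2 := by
    rw [Mom764.integral_norm_sq (stdOrthonormalBasis ℝ G) L]
    simp_rw [hLadj]
    rw [Finset.sum_comm]
    refine Finset.sum_congr rfl fun k _ => ?_
    rw [Mom764.norm_sq_eq_sum (stdOrthonormalBasis ℝ G) (a k)]
    refine Finset.sum_congr rfl fun i _ => ?_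
    rw [real_inner_comm]
  have hJ := exp_jensen (stdGaussian (EuclideanSpace ℝ s)) (Mom764.integrable_norm_sq L) (fun x => by positivity)
    (by fun_prop)
  rw [hint] at hJ
  have h5 : ∫ x, Real.exp (-‖L x‖ ^ 2 / 2) * (gau C).real K ∂(stdGaussian (EuclideanSpace ℝ s))
      ≤ ∫ x, (gau C).real {z | A x + z ∈ K} ∂(stdGaussian (EuclideanSpace ℝ s)) := by
    apply integral_mono
    · apply Integrable.mul_const
      refine Integrable.of_bound (by fun_prop) 1 (Eventually.of_forall fun x => ?_)
      rw [Real.norm_eq_abs, abs_of_pos (Real.exp_pos _), Real.exp_le_one_iff]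
      have := sq_nonneg ‖L x‖
      linarith
    · refine Integrable.of_bound (hmeas.comp A.continuous.measurable).aestronglyMeasurable 1
        (Eventually.of_forall fun x => ?_)
      rw [Real.norm_eq_abs, abs_of_nonneg measureReal_nonneg]
      exact measureReal_le_one
    · exact hpt
  rw [integral_mul_const] at h5
  refine le_trans ?_ h5
  exact mul_le_mul_of_nonneg_right hJ measureReal_nonneg

end Crest.Agent.R239.Lv614
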