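import Crest.Agent.R239.Lv1_264
import Crest.Agent.R239.Lev_964

/-! # R239, one-level comparison with gain (helper264)

`level_std'` : `level_std` with the ellipsoid cut of `Lev_964.cap_cut` (no positivity of the radius)
and with the slab direction chosen before the slab width.
`lev_gain` : the flag level version, all cuts on the side of `V` after the comparison, and the gain
`s₁ c / 4` if the pulled back body is thin. -/

set_option autoImplicit false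
set_option linter.unusedSectionVars false
open MeasureTheory ProbabilityTheory Set Filter Topology
open scoped RealInnerProductSpace ENNReal NNReal

namespace Crest.Agent.R239.Lv264

open Crest.Agent.R239 Crest.Agent.R239.Dom640 Crest.Agent.R239.Gain161

variable {E : Type*} [NormedAddCommGroup E] [InnerProductSpace ℝ E] [FiniteDimensional ℝ E]
  [MeasurableSpace E] [BorelSpace E]
variable {H : Type*} [NormedAddCommGroup H] [InnerProductSpace ℝ H] [FiniteDimensional ℝ H]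

lemma convex_slab (ω : E) (t : ℝ) : Convex ℝ {x : E | |⟪ω, x⟫| ≤ t} := by
  have : {x : E | |⟪ω, x⟫| ≤ t} = (innerSL ℝ ω) ⁻¹' (Icc (-t) t) := by
    ext x; simp [abs_le]
  rw [this]
  exact (convex_Icc _ _).linear_preimage ((innerSL ℝ ω : E →L[ℝ] ℝ) : E →ₗ[ℝ] ℝ)

lemma convex_ell (B : E →L[ℝ] H) {c : ℝ} (hc : 0 ≤ c) : Convex ℝ {x : E | ‖B x‖ ^ 2 ≤ c} := by
  have : {x : E | ‖B x‖ ^ 2 ≤ c} = B ⁻¹' (Metric.closedBall 0 (√c)) := by
    ext x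
    simp only [mem_ofPred_eq, mem_preimage, mem_closedBall_zero_iff]
    rw [Real.le_sqrt (norm_nonneg _) hc]
  rw [this]
  exact (convex_closedBall _ _).linear_preimage _

theorem level_std' {ι : Type*} (s : Finset ι) (R : E →L[ℝ] E) (w : ι → E) {n : E} (hn : ‖n‖ = 1)
    {s₁ : ℝ} (h0 : 0 ≤ s₁) (h1 : s₁ ≤ 1 / 4)
    (hR : ∀ g, ‖R g‖ ^ 2 ≤ ‖g‖ ^ 2 - s₁ * ⟪n, g⟫ ^ 2 + ∑ k ∈ s, ⟪w k, g⟫ ^ 2)
    {Q : Set E} (mQ : MeasurableSet Q) (cQ : Convex ℝ Q) (sQ : ∀ x ∈ Q, -x ∈ Q) (ω : E)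
    (B : E →L[ℝ] H) {σ2 ρ h : ℝ} (hρ : 32 ≤ ρ)
    (hσ : ∫ x, ‖B x‖ ^ 2 ∂(stdGaussian E) ≤ σ2) (hh : 0 ≤ h)
    (hb : ∀ g, R g ∈ Q → (1 - h) * ‖B g‖ ^ 2 ≤ ρ ^ 2 * σ2) :
    ∃ ω' : E, ‖ω'‖ ^ 2 ≤ 4 / 3 * ‖ω‖ ^ 2 ∧ ∀ t : ℝ,
      ∃ m : ℝ,
      Real.exp (-(2 / 3 * ∑ k ∈ s, ‖w k‖ ^ 2)) * Real.exp (-(64 / 3 * h / ρ ^ 2)) *
        (stdGaussian E).real {g | |⟪ω', g⟫| ≤ t} * (stdGaussian E).real Q ≤ m ∧
      m ≤ (stdGaussian E).real ({g | R g ∈ Q} ∩ {g | |⟪ω, g⟫| ≤ t} ∩ {g | ‖B g‖ ^ 2 ≤ ρ ^ 2 * σ2}) ∧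
      (∀ c, s₁ ≤ c / 256 →
        ∫ x in ({g | R g ∈ Q} ∩ {g | |⟪ω, g⟫| ≤ t} ∩ {g | ‖B g‖ ^ 2 ≤ ρ ^ 2 * σ2}),
            ⟪n, x⟫ ^ 2 ∂(stdGaussian E) ≤ (1 - c) * (stdGaussian E).real
              ({g | R g ∈ Q} ∩ {g | |⟪ω, g⟫| ≤ t} ∩ {g | ‖B g‖ ^ 2 ≤ ρ ^ 2 * σ2}) →
        m ≤ Real.exp (-(s₁ * c / 4)) * (stdGaussian E).real
          ({g | R g ∈ Q} ∩ {g | |⟪ω, g⟫| ≤ t} ∩ {g | ‖B g‖ ^ 2 ≤ ρ ^ 2 * σ2})) := by
  have hσ0 : 0 ≤ σ2 := le_trans (integral_nonneg fun x => by positivity) hσ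
  set r : ℝ := √(1 - s₁) with hr'
  have hr : 0 < r := Real.sqrt_pos.2 (by linarith)
  have hr2 : r ^ 2 = 1 - s₁ := Real.sq_sqrt (by linarith)
  have hri : r⁻¹ ^ 2 * (1 - s₁) = 1 := by rw [← hr2]; field_simp
  set L : E →L[ℝ] E := scl r⁻¹ n with hL
  have hLn : ∀ x, ‖L x‖ ^ 2 ≤ 4 / 3 * ‖x‖ ^ 2 := fun x =>
    norm_scl_inv_sq_le hn hr hr2 h0 h1 x
  have hLs : ∀ x y, ⟪L x, y⟫ = ⟪x, L y⟫ := fun x y => scl_symm _ _ _ _
  have hLr : ∀ x, L (scl r n x) = x := fun x => by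
    rw [hL, scl_scl hn, inv_mul_cancel₀ hr.ne', scl_one]
  have hR' : ∀ g, ‖(R ∘L L) g‖ ^ 2 ≤ ‖g‖ ^ 2 + ∑ k ∈ s, ⟪L (w k), g⟫ ^ 2 := by
    intro g
    have e1 := hR (L g)
    have e2 : ‖L g‖ ^ 2 - s₁ * ⟪n, L g⟫ ^ 2 = ‖g‖ ^ 2 := by
      rw [hL, norm_scl_sq hn, inner_scl hn]
      linear_combination ⟪n, g⟫ ^ 2 * hri
    simp only [hLs]
    rw [ContinuousLinearMap.comp_apply]
    linarith
  have hcmp := Crest.Agent.R239.Cmp142.cmp_sum_real mQ cQ sQ s (R ∘L L) (fun k => L (w k)) hR'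
  have hsum : ∑ k ∈ s, ‖L (w k)‖ ^ 2 ≤ 4 / 3 * ∑ k ∈ s, ‖w k‖ ^ 2 := by
    rw [Finset.mul_sum]; exact Finset.sum_le_sum fun k _ => hLn _
  set C0 : Set E := (R ∘L L) ⁻¹' Q with hC0
  have mC0 : MeasurableSet C0 := (R ∘L L).continuous.measurable mQ
  have cC0 : Convex ℝ C0 := cQ.linear_preimage ((R ∘L L : E →L[ℝ] E) : E →ₗ[ℝ] E)
  have sC0 : ∀ x ∈ C0, -x ∈ C0 := pre_symm _ sQ
  refine ⟨L ω, hLn ω, fun t => ?_⟩
  set ω' : E := L ω with hω'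
  set C1 : Set E := C0 ∩ {x | |⟪ω', x⟫| ≤ t} with hC1
  have mC1 : MeasurableSet C1 := mC0.inter (measurableSet_slab _ _)
  have cC1 : Convex ℝ C1 := cC0.inter (convex_slab _ _)
  have sC1 : ∀ x ∈ C1, -x ∈ C1 := fun x hx => ⟨sC0 x hx.1, by
    have : |⟪ω', x⟫| ≤ t := hx.2
    show |⟪ω', -x⟫| ≤ t
    rwa [inner_neg_right, abs_neg]⟩
  have hsl := slab_real mC0 cC0 sC0 ω' t
  have hσ' : ∫ x, ‖(B ∘L L) x‖ ^ 2 ∂(stdGaussian E) ≤ 4 / 3 * σ2 := by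
    rw [integral_norm_sq] at hσ ⊢
    refine le_trans ?_ (mul_le_mul_of_nonneg_left hσ (by norm_num))
    rw [Finset.mul_sum]
    refine Finset.sum_le_sum fun i _ => ?_
    rw [ContinuousLinearMap.adjoint_comp, hL, adjoint_scl, ContinuousLinearMap.comp_apply]
    exact hLn _
  have hρ' : 16 ≤ √(3 / 4) * ρ := by
    have : (1 : ℝ) / 2 ≤ √(3 / 4) := Real.le_sqrt_of_sq_le (by norm_num)
    nlinarith
  have hρ2 : (√(3 / 4) * ρ) ^ 2 = 3 / 4 * ρ ^ 2 := by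
    rw [mul_pow, Real.sq_sqrt (by norm_num)]
  have hρσ : (√(3 / 4) * ρ) ^ 2 * (4 / 3 * σ2) = ρ ^ 2 * σ2 := by rw [hρ2]; ring
  have hcap := Lev964.cap_cut (A := B ∘L L) mC1 cC1 sC1 hρ' hσ' hh
    (fun x hx => by rw [hρσ]; exact hb (L x) hx.1)
  rw [hρσ, hρ2] at hcap
  have hexp : 16 * h / (3 / 4 * ρ ^ 2) = 64 / 3 * h / ρ ^ 2 := by
    have : ρ ≠ 0 := by linarith
    field_simp; ring
  rw [hexp] at hcap
  set C2 : Set E := C1 ∩ {x | ‖(B ∘L L) x‖ ^ 2 ≤ ρ ^ 2 * σ2} with hC2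
  set K : Set E := {g | R g ∈ Q} ∩ {g | |⟪ω, g⟫| ≤ t} ∩ {g | ‖B g‖ ^ 2 ≤ ρ ^ 2 * σ2} with hK
  have mC2 : MeasurableSet C2 :=
    mC1.inter (measurableSet_le ((B ∘L L).continuous.norm.pow 2).measurable measurable_const)
  have cC2 : Convex ℝ C2 := cC1.inter (convex_ell _ (by positivity))
  have sC2 : ∀ x ∈ C2, -x ∈ C2 := fun x hx => ⟨sC1 x hx.1, by
            show ‖(B ∘L L) (-x)‖ ^ 2 ≤ ρ ^ 2 * σ2
            rw [map_neg, norm_neg]; exact hx.2⟩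
  have hpre : (scl r n) ⁻¹' C2 = K := by
    rw [hK]
    ext x
    simp only [hC2, hC1, hC0, mem_preimage, mem_inter_iff, mem_ofPred_eq,
      ContinuousLinearMap.comp_apply, hLr, hω', hLs]
  refine ⟨(stdGaussian E).real C2, ?_, ?_, ?_⟩
  · -- lower bound
    have e1 : Real.exp (-(2 / 3 * ∑ k ∈ s, ‖w k‖ ^ 2)) * (stdGaussian E).real Q
        ≤ (stdGaussian E).real C0 := by
      refine le_trans (mul_le_mul_of_nonneg_right (Real.exp_le_exp.2 ?_) measureReal_nonneg) hcmp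
      linarith
    calc _ = Real.exp (-(64 / 3 * h / ρ ^ 2)) *
        ((Real.exp (-(2 / 3 * ∑ k ∈ s, ‖w k‖ ^ 2)) * (stdGaussian E).real Q) *
          (stdGaussian E).real {g | |⟪ω', g⟫| ≤ t}) := by ring
      _ ≤ Real.exp (-(64 / 3 * h / ρ ^ 2)) *
        ((stdGaussian E).real C0 * (stdGaussian E).real {g | |⟪ω', g⟫| ≤ t}) := by
          gcongr
      _ ≤ Real.exp (-(64 / 3 * h / ρ ^ 2)) * (stdGaussian E).real C1 := by
          gcongr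
      _ ≤ _ := hcap
  · -- contraction
    have := Crest.Agent.R239.Cmp142.contraction (scl r n) (fun g => by
      refine le_of_sq_le_sq ?_ (norm_nonneg _)
      rw [norm_scl_sq hn, hr2]
      nlinarith [sq_nonneg ⟪n, g⟫]) mC2 cC2 sC2
    rw [hpre] at this
    exact ENNReal.toReal_mono (measure_ne_top _ _) this
  · intro c hc hthin
    have hcapc : Convex ℝ K := by
      rw [← hpre]
      exact Convex.linear_preimage (f := ((scl r n : E →L[ℝ] E) : E →ₗ[ℝ] E)) cC2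
    have mK : MeasurableSet K := by
      rw [← hpre]; exact (scl r n).continuous.measurable mC2
    have sK : ∀ x ∈ K, -x ∈ K := by
      rw [← hpre]
      exact pre_symm _ sC2
    have := scale_le hn hr hr2 h0 (by linarith) hc mC2 (by
      intro u _
      rw [hpre]
      exact slab_real mK hcapc sK n u) (by rw [hpre]; exact hthin)
    rwa [hpre] at this

open FD

/-- the level comparison with gain -/
theorem lev_gain {p : Par} (hp : p.Ok) (hρ : 32 ≤ p.rho) {V W : Flag E} {i : ℕ} (hiW : i ≤ W.n)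
    {v : E} {s : ℝ} (hs0 : 0 ≤ s) (hM : ∀ x ∈ V.M i, Ts v s x ∈ W.M i) {h : ℝ} (h0 : 0 ≤ h)
    (hcap : ∀ x ∈ V.M i, (1 - h) * V.N i x ≤ W.N i (Ts v s x)) (hrr : W.rr i ≤ V.rr i)
    {K' : Set E} (hK' : Adm p W i K')
    {ι : Type*} (J : Finset ι) (u : ι → E) {n : E} (hn : ‖n‖ = 1)
    {s₁ : ℝ} (h0s : 0 ≤ s₁) (h1s : s₁ ≤ 1 / 4)
    (hR : ∀ g, ‖W.Hi i (Ts v s (V.H i g))‖ ^ 2
      ≤ ‖g‖ ^ 2 - s₁ * ⟪n, g⟫ ^ 2 + ∑ k ∈ J, ⟪u k, g⟫ ^ 2) (μ : Multiset E) :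
    ∃ ω' : E, ‖ω'‖ ^ 2 ≤ 4 / 3 * ‖V.H i v‖ ^ 2 ∧ ∀ t : ℝ, 0 < t →
      0 < (stdGaussian E).real {g | |⟪ω', g⟫| ≤ t} →
      Adm p V i (Lev964.pb p V i v s t K') ∧
      val p V i μ (Lev964.pb p V i v s t K') ≤ val p W i μ K' + s * t * S μ v
        + p.lam i * (2 / 3 * ∑ k ∈ J, ‖u k‖ ^ 2 + 64 / 3 * h / p.rho ^ 2
          - Real.log ((stdGaussian E).real {g | |⟪ω', g⟫| ≤ t})) ∧
      (∀ c, s₁ ≤ c / 256 →
        ∫ x in V.H i ⁻¹' (Lev964.pb p V i v s t K'), ⟪n, x⟫ ^ 2 ∂(stdGaussian E)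
          ≤ (1 - c) * (stdGaussian E).real (V.H i ⁻¹' (Lev964.pb p V i v s t K')) →
        val p V i μ (Lev964.pb p V i v s t K') + p.lam i * (s₁ * c / 4)
          ≤ val p W i μ K' + s * t * S μ v
        + p.lam i * (2 / 3 * ∑ k ∈ J, ‖u k‖ ^ 2 + 64 / 3 * h / p.rho ^ 2
          - Real.log ((stdGaussian E).real {g | |⟪ω', g⟫| ≤ t}))) := by
  obtain ⟨hcl, hcv, hsy, hsub, hpos⟩ := id hK'
  have hcp := Lev964.adm_compact hK'
  have h0K' := Lev964.adm_zero hK'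
  have hlam : 0 < p.lam i := by
    have := hp.tau_pos; have := hp.A_ge
    unfold Par.lam; positivity
  have hTs : Continuous (Ts v s : E → E) := (Ts v s).continuous
  have hBmem : ∀ g, W.H i (W.Hi i (Ts v s (V.H i g))) = Ts v s (V.H i g) := by
    intro g
    rw [Lev964.H_Hi W hiW (hM _ (Lev964.H_mem V i g))]
  have hK'r : (gau (W.H i)).real K' = (stdGaussian E).real (W.H i ⁻¹' K') :=
    gau_real_apply _ hcl.measurableSet
  obtain ⟨ω', hω', hall⟩ := level_std' J (W.Hi i ∘L Ts v s ∘L V.H i) u hn h0s h1s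
    (by intro g; simpa using hR g)
    (Q := W.H i ⁻¹' K') (hcl.preimage (W.H i).continuous).measurableSet
    (hcv.linear_preimage (W.H i).toLinearMap)
    (fun x hx => by
      simp only [mem_preimage, map_neg] at hx ⊢
      exact hsy _ hx) (V.H i v) (Lev964.NB V i ∘L V.H i) hρ (Lev964.integral_N V i).le h0
    (by
      intro g hg
      simp only [mem_preimage, ContinuousLinearMap.comp_apply, hBmem] at hg
      rw [ContinuousLinearMap.comp_apply, Lev964.norm_NB_sq]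
      refine (hcap _ (Lev964.H_mem V i g)).trans ((hsub hg).2.trans ?_)
      exact mul_le_mul_of_nonneg_left hrr (by positivity))
  refine ⟨ω', hω', fun t ht hslab => ?_⟩
  obtain ⟨m, hm1, hm2, hm3⟩ := hall t
  -- the body
  set K := Lev964.pb p V i v s t K' with hKdef
  have hpre : V.H i ⁻¹' K = {g | (W.Hi i ∘L Ts v s ∘L V.H i) g ∈ W.H i ⁻¹' K'} ∩
      {g | |⟪V.H i v, g⟫| ≤ t} ∩
      {g | ‖(Lev964.NB V i ∘L V.H i) g‖ ^ 2 ≤ p.rho ^ 2 * V.rr i} := by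
    ext g
    simp only [mem_preimage, mem_inter_iff, mem_ofPred_eq, hBmem, ContinuousLinearMap.comp_apply,
      Lev964.norm_NB_sq, Lev964.inner_H]
    change ((V.H i g ∈ V.M i ∧ Ts v s (V.H i g) ∈ K') ∧ |⟪v, V.H i g⟫| ≤ t ∧ _) ↔ _
    have := Lev964.H_mem V i g
    tauto
  rw [← hpre] at hm2 hm3
  have hKcl : IsClosed K := by
    have e1 : K = ((V.M i : Set E) ∩ (Ts v s) ⁻¹' K') ∩ ({x | |⟪v, x⟫| ≤ t} ∩ {x | V.N i x ≤ p.rho ^ 2 * V.rr i}) := rfl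
    rw [e1]
    exact ((V.M i).closed_of_finiteDimensional.inter (hcl.preimage hTs)).inter
      ((isClosed_le (by fun_prop) continuous_const).inter (Lev964.isClosed_N V i _))
  have hKcv : Convex ℝ K := by
    have e1 : K = ((V.M i : Set E) ∩ (Ts v s) ⁻¹' K') ∩ ({x | |⟪v, x⟫| ≤ t} ∩ {x | V.N i x ≤ p.rho ^ 2 * V.rr i}) := rfl
    rw [e1]
    refine ((V.M i).convex.inter (hcv.linear_preimage _)).inter
      ((convex_slab v t).inter (Lev964.convex_N V i ?_))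
    have := Lev964.rr_nonneg V i; positivity
  have hKsy : ∀ x ∈ K, -x ∈ K := by
    rintro x ⟨⟨h1, h2⟩, h3, h4⟩
    refine ⟨⟨(V.M i).neg_mem h1, ?_⟩, ?_, ?_⟩
    · rw [map_neg]; exact hsy _ h2
    · rwa [inner_neg_right, abs_neg]
    · rwa [Lev964.N_neg]
  have hKsub : K ⊆ V.cap p.rho i := fun x hx => ⟨hx.1.1, hx.2.2⟩
  have h0K : (0:E) ∈ K := by
    refine ⟨⟨(V.M i).zero_mem, ?_⟩, ?_, ?_⟩
    · rwa [map_zero]
    · simpa using ht.le
    · have := Lev964.rr_nonneg V i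
      have h5 : V.N i (0:E) = 0 := by rw [← Lev964.norm_NB_sq, map_zero]; simp
      rw [h5]; positivity
  have hKr : (gau (V.H i)).real K = (stdGaussian E).real (V.H i ⁻¹' K) :=
    gau_real_apply _ hKcl.measurableSet
  rw [hK'r] at hpos
  have hmpos : 0 < m := lt_of_lt_of_le (by positivity) hm1
  have hKpos : 0 < (gau (V.H i)).real K := by rw [hKr]; exact lt_of_lt_of_le hmpos hm2
  have hlogm : Real.log ((stdGaussian E).real (W.H i ⁻¹' K'))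
      + Real.log ((stdGaussian E).real {g | |⟪ω', g⟫| ≤ t})
      - 2 / 3 * ∑ k ∈ J, ‖u k‖ ^ 2 - 64 / 3 * h / p.rho ^ 2 ≤ Real.log m := by
    refine le_trans (le_of_eq ?_) (Real.log_le_log (by positivity) hm1)
    rw [Real.log_mul (by positivity) hpos.ne', Real.log_mul (by positivity) hslab.ne',
      Real.log_mul (Real.exp_pos _).ne' (Real.exp_pos _).ne', Real.log_exp, Real.log_exp]
    ring
  have hEh : Eh K μ ≤ Eh K' μ + s * t * S μ v :=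
    F6core696.Eh_pullback (B := K) hcp ⟨0, h0K⟩ hs0 (fun x => Ts_apply v s x)
      (fun x hx => hx.1.2) (fun x hx => hx.2.1) μ
  refine ⟨⟨hKcl, hKcv, hKsy, hKsub, hKpos⟩, ?_, ?_⟩
  · have hlog : Real.log m ≤ Real.log ((gau (V.H i)).real K) := by
      rw [hKr]; exact Real.log_le_log hmpos hm2
    unfold val
    rw [hK'r]
    nlinarith [mul_le_mul_of_nonneg_left (hlogm.trans hlog) hlam.le]
  · intro c hc hthin
    have h7 := hm3 c hc hthin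
    have hlog : Real.log m ≤ -(s₁ * c / 4) + Real.log ((gau (V.H i)).real K) := by
      rw [hKr]
      refine (Real.log_le_log hmpos h7).trans (le_of_eq ?_)
      rw [Real.log_mul (Real.exp_pos _).ne' (by rw [← hKr]; exact hKpos.ne'), Real.log_exp]
    unfold val
    rw [hK'r]
    nlinarith [mul_le_mul_of_nonneg_left (hlogm.trans hlog) hlam.le]

end Crest.Agent.R239.Lv264
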