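import Crest.Agent.R239.FDef
import Crest.Agent.R239.FlagAlg_557
import Crest.Agent.R239.Rot_203
import Crest.Agent.R239.Caps_171

/-! R239 (helper303), flag algebra for `Target_LEV`: the comparison map
`R = (V.rot v s).Hi i ∘ T_s ∘ V.H i`, rank-one gain, explicit error vectors, the gauge `N`. -/

set_option autoImplicit false
set_option linter.unusedSectionVars false
open MeasureTheory ProbabilityTheory Set
open scoped RealInnerProductSpace ENNReal NNReal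

namespace Crest.Agent.R239.Lv303

open Crest.Agent.R239 (gau)
open Crest.Agent.R239.FD

variable {E : Type*} [NormedAddCommGroup E] [InnerProductSpace ℝ E] [FiniteDimensional ℝ E]

lemma th_pos : 0 < th := by unfold th; norm_num
lemma th_le : th ≤ 1 := by unfold th; norm_num

lemma botn (V : Flag E) : V.M V.n = ⊥ := V.bot V.n le_rfl

lemma H_eq (V : Flag E) (i : ℕ) : V.H i = FlagAlg557.H V.M th V.n i := rfl

lemma Hi_eq (V : Flag E) (i : ℕ) : V.Hi i = FlagAlg557.Hi V.M th V.n i := by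
  unfold Flag.Hi FlagAlg557.Hi FlagAlg557.comb
  refine Finset.sum_congr rfl fun j _ => ?_
  rw [inv_pow]
  rfl

/-- the gauge as a norm -/
lemma N_eq (V : Flag E) (i : ℕ) (x : E) :
    V.N i x = ‖FlagAlg557.Hi V.M (√th) V.n i x‖ ^ 2 := by
  unfold Flag.N FlagAlg557.Hi
  rw [FlagAlg557.norm_comb_sq V.anti]
  refine Finset.sum_congr rfl fun j _ => ?_
  have : ((√th ^ (j - i))⁻¹) ^ 2 = (th⁻¹) ^ (j - i) := by
    rw [inv_pow, ← pow_mul, mul_comm (j - i) 2, pow_mul, Real.sq_sqrt th_pos.le, inv_pow]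
  rw [this]
  rfl

lemma Ts_lin (v : E) (s : ℝ) : (Ts v s).toLinearMap = Rot203.Ts s v := by
  ext x
  simp [Ts_apply]

lemma rot_M (V : Flag E) (v : E) (s : ℝ) (j : ℕ) :
    (V.rot v s).M j = (V.M j).map (Rot203.Ts s v) := by
  rw [← Ts_lin]; rfl

section rot

variable (V : Flag E) {v : E} (hv : ‖v‖ = 1) {s : ℝ} (hs0 : 0 < s) (hs1 : s < 1)

include hv in
lemma norm_P_le_one (j : ℕ) : ‖V.P j v‖ ^ 2 ≤ 1 := by
  have h1 : ‖V.P j v‖ ≤ ‖v‖ := (V.M j).norm_starProjection_apply_le v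
  rw [hv] at h1
  nlinarith [norm_nonneg (V.P j v)]

include hv hs0 hs1 in
lemma den_pos (j : ℕ) : 0 < 1 - (2 * s - s ^ 2) * ‖V.P j v‖ ^ 2 := by
  have h1 := norm_P_le_one V hv j
  have h2 : 0 < 2 * s - s ^ 2 := by nlinarith
  have h3 : 2 * s - s ^ 2 < 1 := by nlinarith [mul_self_nonneg (1 - s), sq_pos_of_pos (sub_pos.2 hs1)]
  nlinarith

include hv hs0 hs1 in
lemma norm_P_rot_sq (j : ℕ) (x : E) :
    ‖(V.rot v s).P j (Ts v s x)‖ ^ 2 = ‖V.P j x‖ ^ 2 - (2 * s - s ^ 2) * ⟪v, x⟫ ^ 2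
      + (2 * s - s ^ 2) * (⟪v, x⟫ - ⟪V.P j v, x⟫) ^ 2 / (1 - (2 * s - s ^ 2) * ‖V.P j v‖ ^ 2) := by
  have h := Rot203.norm_proj_Ts_sq hv (V.M j) s x (den_pos V hv hs0 hs1 j).ne'
  have e1 : (V.rot v s).P j (Ts v s x)
      = ((V.M j).map (Rot203.Ts s v)).starProjection (Rot203.Ts s v x) := by
    have : Ts v s x = Rot203.Ts s v x := by simp [Ts_apply]
    unfold Flag.P
    rw [this]
    simp only [rot_M]
  rw [e1]
  exact h

lemma rot_n : (V.rot v s).n = V.n := rfl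

lemma mem_rot {i : ℕ} {x : E} (hx : x ∈ V.M i) : Ts v s x ∈ (V.rot v s).M i :=
  Submodule.mem_map_of_mem hx

lemma P_of_mem {i : ℕ} {x : E} (hx : x ∈ V.M i) : V.P i x = x :=
  FlagAlg557.P_of_mem hx

lemma H_mem (i : ℕ) (g : E) : V.H i g ∈ V.M i := by
  rw [H_eq]; exact FlagAlg557.comb_mem V.anti _ _ _ _

/-- the comparison map -/
noncomputable def RR (v : E) (s : ℝ) (i : ℕ) : E →L[ℝ] E :=
  (V.rot v s).Hi i ∘L (Ts v s ∘L V.H i)

lemma RR_apply (i : ℕ) (g : E) : RR V v s i g = (V.rot v s).Hi i (Ts v s (V.H i g)) := rfl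

lemma H_RR {i : ℕ} (hi : i ≤ V.n) (g : E) :
    (V.rot v s).H i (RR V v s i g) = Ts v s (V.H i g) := by
  rw [RR_apply, H_eq, Hi_eq, FlagAlg557.H_Hi (V.rot v s).anti th_pos (show i ≤ (V.rot v s).n from hi) (botn _)]
  exact FlagAlg557.P_of_mem (mem_rot V (H_mem V i g))


/-- Abel form of the gauge with parameter `t`, for vectors of `M i` -/
lemma phi_eq (W : Flag E) (t : ℝ) {i : ℕ} (hi : i < W.n) (x : E) :
    ‖FlagAlg557.Hi W.M t W.n i x‖ ^ 2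
      = ‖W.P i x‖ ^ 2 + ∑ j ∈ Finset.Ico (i + 1) W.n, FlagAlg557.om t (j - i) * ‖W.P j x‖ ^ 2 :=
  FlagAlg557.norm_Hi_sq W.anti hi (botn W) x

include hv in
lemma norm_Ts_sq (x : E) : ‖Ts v s x‖ ^ 2 = ‖x‖ ^ 2 - (2 * s - s ^ 2) * ⟪v, x⟫ ^ 2 := by
  have : Ts v s x = Rot203.Ts s v x := by simp [Ts_apply]
  rw [this]
  exact Rot203.norm_Ts_sq hv s x

include hv hs0 hs1 in
/-- the rotated gauge with parameter `t` -/
lemma phi_rot (t : ℝ) {i : ℕ} (hi : i < V.n) {x : E} (hx : x ∈ V.M i) :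
    ‖FlagAlg557.Hi (V.rot v s).M t (V.rot v s).n i (Ts v s x)‖ ^ 2
      = ‖FlagAlg557.Hi V.M t V.n i x‖ ^ 2 - (2 * s - s ^ 2) * ⟪v, x⟫ ^ 2
        + ∑ j ∈ Finset.Ico (i + 1) V.n, FlagAlg557.om t (j - i) *
          (-((2 * s - s ^ 2) * ⟪v, x⟫ ^ 2) + (2 * s - s ^ 2) * (⟪v, x⟫ - ⟪V.P j v, x⟫) ^ 2
            / (1 - (2 * s - s ^ 2) * ‖V.P j v‖ ^ 2)) := by
  rw [phi_eq (V.rot v s) t (show i < (V.rot v s).n from hi), phi_eq V t hi]
  have e1 : (V.rot v s).P i (Ts v s x) = Ts v s x := FlagAlg557.P_of_mem (mem_rot V hx)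
  rw [e1, norm_Ts_sq hv, P_of_mem V hx]
  have e2 : ∀ j, ‖(V.rot v s).P j (Ts v s x)‖ ^ 2 = ‖V.P j x‖ ^ 2
      + (-((2 * s - s ^ 2) * ⟪v, x⟫ ^ 2) + (2 * s - s ^ 2) * (⟪v, x⟫ - ⟪V.P j v, x⟫) ^ 2
            / (1 - (2 * s - s ^ 2) * ‖V.P j v‖ ^ 2)) := by
    intro j
    rw [norm_P_rot_sq V hv hs0 hs1]
    ring
  simp only [e2, mul_add, Finset.sum_add_distrib, rot_n]
  ring

/-- `c_j = sb b_j / (1 - sb b_j)` -/
noncomputable def cj (V : Flag E) (v : E) (sb : ℝ) (j : ℕ) : ℝ :=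
  sb * ‖V.P j v‖ ^ 2 / (1 - sb * ‖V.P j v‖ ^ 2)

/-- weight of the `ζ_j` error -/
noncomputable def al (m : ℕ) : ℝ := FlagAlg557.om th m * (1 + 2 * (25 / 8) ^ m) + 1 / 2

lemma om_nn (m : ℕ) : 0 ≤ FlagAlg557.om th m := FlagAlg557.om_nonneg th_pos th_le m

lemma om_val {m : ℕ} (hm : 1 ≤ m) : FlagAlg557.om th m = (25 / 16) ^ m * (9 / 25) := by
  rw [FlagAlg557.om_eq th_pos m hm]
  have : (th ^ m)⁻¹ ^ 2 = (25 / 16) ^ m := by
    rw [inv_pow, ← pow_mul, mul_comm m 2, pow_mul, ← inv_pow]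
    congr 1
    unfold th; norm_num
  rw [this]
  unfold th; norm_num

lemma sum_half_pow (i n : ℕ) : ∑ j ∈ Finset.Ico (i + 1) n, ((1:ℝ) / 2) ^ (j - i) ≤ 1 := by
  rcases Nat.lt_or_ge (i + 1) n with h | h
  · have key : ∀ m, i + 1 ≤ m → ∑ j ∈ Finset.Ico (i + 1) m, ((1:ℝ) / 2) ^ (j - i)
        = 1 - (1 / 2) ^ (m - 1 - i) := by
      intro m hm
      induction m, hm using Nat.le_induction with
      | base => simp
      | succ m hm ih =>
        rw [Finset.sum_Ico_succ_top (by omega), ih]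
        have e1 : m - i = (m - 1 - i) + 1 := by omega
        have e2 : m + 1 - 1 - i = (m - 1 - i) + 1 := by omega
        rw [e1, e2, pow_succ]
        ring
    rw [key n h.le]
    have : (0:ℝ) ≤ (1 / 2) ^ (n - 1 - i) := by positivity
    linarith
  · rw [Finset.Ico_eq_empty (by omega)]
    simp

include hv in
lemma xi_split {i : ℕ} {x : E} (hx : x ∈ V.M i) :
    ⟪V.Q i v, x⟫ = ⟪v, x⟫ - ⟪V.P (i + 1) v, x⟫ := by
  have h1 : ⟪V.P i v, x⟫ = ⟪v, x⟫ := by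
    have := FlagAlg557.inner_P_comm' (M := V.M) i v x
    have e : FlagAlg557.P V.M i = V.P i := rfl
    rw [e] at this
    rw [this, P_of_mem V hx]
  have h2 : V.Q i v = V.P i v - V.P (i + 1) v := rfl
  rw [h2, inner_sub_left, h1]

include hv hs0 hs1 in
/-- **pointwise comparison of the precision forms** -/
lemma prec_ineq {i : ℕ} (hi : i < V.n) {x : E} (hx : x ∈ V.M i) :
    ‖(V.rot v s).Hi i (Ts v s x)‖ ^ 2 + (2 * s - s ^ 2) / 4 * ⟪V.Q i v, x⟫ ^ 2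
      ≤ ‖V.Hi i x‖ ^ 2 + ∑ j ∈ Finset.Ico (i + 1) V.n,
        ((2 * s - s ^ 2) * al (j - i) * ⟪V.P j v, x⟫ ^ 2
          + (2 * s - s ^ 2) * FlagAlg557.om th (j - i) * cj V v (2 * s - s ^ 2) j
            * ⟪v - V.P j v, x⟫ ^ 2) := by
  rw [Hi_eq, Hi_eq, phi_rot V hv hs0 hs1 th hi hx]
  set sb : ℝ := 2 * s - s ^ 2 with hsb
  have sb0 : 0 < sb := by rw [hsb]; nlinarith
  set ξ : ℝ := ⟪v, x⟫ with hξ
  -- per-index inequality
  have hper : ∀ j ∈ Finset.Ico (i + 1) V.n, FlagAlg557.om th (j - i) *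
        (-(sb * ξ ^ 2) + sb * (ξ - ⟪V.P j v, x⟫) ^ 2 / (1 - sb * ‖V.P j v‖ ^ 2))
      ≤ (9 / 50 * sb * ξ ^ 2) * (1 / 2) ^ (j - i)
        + (sb * FlagAlg557.om th (j - i) * (1 + 2 * (25 / 8) ^ (j - i)) * ⟪V.P j v, x⟫ ^ 2
          + sb * FlagAlg557.om th (j - i) * cj V v sb j * ⟪v - V.P j v, x⟫ ^ 2) := by
    intro j hj
    have hm : 1 ≤ j - i := by have := (Finset.mem_Ico.1 hj).1; omega
    set ζ : ℝ := ⟪V.P j v, x⟫ with hζ
    have ea : ⟪v - V.P j v, x⟫ = ξ - ζ := by rw [inner_sub_left]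
    rw [ea]
    have hd := den_pos V hv hs0 hs1 j
    rw [← hsb] at hd
    have e1 : sb * (ξ - ζ) ^ 2 / (1 - sb * ‖V.P j v‖ ^ 2)
        = sb * (ξ - ζ) ^ 2 + sb * cj V v sb j * (ξ - ζ) ^ 2 := by
      unfold cj
      field_simp
      ring
    rw [e1]
    set X : ℝ := (25 / 8 : ℝ) ^ (j - i) with hX
    have hX0 : 0 < X := by positivity
    have hom := om_val hm
    have homX : FlagAlg557.om th (j - i) * (1 / (2 * X)) = 9 / 50 * (1 / 2) ^ (j - i) := by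
      rw [hom, hX, one_div (2 * _), mul_inv, ← inv_pow]
      have : (25 / 16 : ℝ) ^ (j - i) * ((25 / 8 : ℝ)⁻¹) ^ (j - i) = (1 / 2) ^ (j - i) := by
        rw [← mul_pow]; norm_num
      calc (25 / 16 : ℝ) ^ (j - i) * (9 / 25) * (2⁻¹ * ((25 / 8 : ℝ)⁻¹) ^ (j - i))
          = (9 / 50) * ((25 / 16 : ℝ) ^ (j - i) * ((25 / 8 : ℝ)⁻¹) ^ (j - i)) := by ring
        _ = _ := by rw [this]
    have hyoung : -(2 * ξ * ζ) ≤ 1 / (2 * X) * ξ ^ 2 + 2 * X * ζ ^ 2 := by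
      have h2 : 0 ≤ 1 / (2 * X) * (ξ + 2 * X * ζ) ^ 2 := by positivity
      have h3 : 1 / (2 * X) * (ξ + 2 * X * ζ) ^ 2
          = 1 / (2 * X) * ξ ^ 2 + 2 * ξ * ζ + 2 * X * ζ ^ 2 := by
        field_simp; ring
      linarith
    have hbase : -(sb * ξ ^ 2) + (sb * (ξ - ζ) ^ 2 + sb * cj V v sb j * (ξ - ζ) ^ 2)
        ≤ sb * (1 / (2 * X)) * ξ ^ 2 + (sb * (1 + 2 * X) * ζ ^ 2
          + sb * cj V v sb j * (ξ - ζ) ^ 2) := by
      have := mul_le_mul_of_nonneg_left hyoung sb0.le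
      nlinarith
    have hmul := mul_le_mul_of_nonneg_left hbase (om_nn (j - i))
    have e5 : FlagAlg557.om th (j - i) * (sb * (1 / (2 * X)) * ξ ^ 2 + (sb * (1 + 2 * X) * ζ ^ 2
          + sb * cj V v sb j * (ξ - ζ) ^ 2))
        = (9 / 50 * sb * ξ ^ 2) * (1 / 2) ^ (j - i)
        + (sb * FlagAlg557.om th (j - i) * (1 + 2 * X) * ζ ^ 2
          + sb * FlagAlg557.om th (j - i) * cj V v sb j * (ξ - ζ) ^ 2) := by
      calc _ = sb * ξ ^ 2 * (FlagAlg557.om th (j - i) * (1 / (2 * X)))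
            + (sb * FlagAlg557.om th (j - i) * (1 + 2 * X) * ζ ^ 2
              + sb * FlagAlg557.om th (j - i) * cj V v sb j * (ξ - ζ) ^ 2) := by ring
        _ = _ := by rw [homX]; ring
    rw [e5] at hmul
    exact hmul
  have hsum := Finset.sum_le_sum hper
  rw [Finset.sum_add_distrib, ← Finset.mul_sum] at hsum
  have hhalf := sum_half_pow i V.n
  have hξsum : (9 / 50 * sb * ξ ^ 2) * ∑ j ∈ Finset.Ico (i + 1) V.n, ((1:ℝ) / 2) ^ (j - i)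
      ≤ 9 / 50 * sb * ξ ^ 2 := by
    have : 0 ≤ 9 / 50 * sb * ξ ^ 2 := by positivity
    nlinarith
  -- the gain term
  have hq := xi_split V hv hx
  rw [← hξ] at hq
  have hζ1 : sb / 2 * ⟪V.P (i + 1) v, x⟫ ^ 2
      ≤ ∑ j ∈ Finset.Ico (i + 1) V.n, sb * (1 / 2) * ⟪V.P j v, x⟫ ^ 2 := by
    rcases Nat.lt_or_ge (i + 1) V.n with h | h
    · have hmem : i + 1 ∈ Finset.Ico (i + 1) V.n := Finset.mem_Ico.2 ⟨le_rfl, h⟩
      have := Finset.single_le_sum (f := fun j => sb * (1 / 2) * ⟪V.P j v, x⟫ ^ 2)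
        (fun j _ => by positivity) hmem
      linarith
    · have hbot : V.M (i + 1) = ⊥ := V.bot _ h
      have : V.P (i + 1) v = 0 := by
        have := (V.M (i + 1)).starProjection_apply_mem v
        rw [show (V.M (i + 1)).starProjection v = V.P (i + 1) v from rfl, hbot] at this
        exact (Submodule.mem_bot ℝ).1 this
      rw [this, inner_zero_left]
      have h0 : (0:ℝ) ≤ ∑ j ∈ Finset.Ico (i + 1) V.n, sb * (1 / 2) * ⟪V.P j v, x⟫ ^ 2 :=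
        Finset.sum_nonneg fun j _ => by positivity
      simpa using h0
  have hgain : sb / 4 * ⟪V.Q i v, x⟫ ^ 2 ≤ sb / 2 * ξ ^ 2 + sb / 2 * ⟪V.P (i + 1) v, x⟫ ^ 2 := by
    rw [hq]
    have : (ξ - ⟪V.P (i + 1) v, x⟫) ^ 2 ≤ 2 * ξ ^ 2 + 2 * ⟪V.P (i + 1) v, x⟫ ^ 2 := by
      nlinarith [sq_nonneg (ξ + ⟪V.P (i + 1) v, x⟫)]
    nlinarith
  have hfin : ∑ j ∈ Finset.Ico (i + 1) V.n,
        (sb * al (j - i) * ⟪V.P j v, x⟫ ^ 2
          + sb * FlagAlg557.om th (j - i) * cj V v sb j * ⟪v - V.P j v, x⟫ ^ 2)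
      = ∑ j ∈ Finset.Ico (i + 1) V.n,
        (sb * FlagAlg557.om th (j - i) * (1 + 2 * (25 / 8) ^ (j - i)) * ⟪V.P j v, x⟫ ^ 2
          + sb * FlagAlg557.om th (j - i) * cj V v sb j * ⟪v - V.P j v, x⟫ ^ 2)
        + ∑ j ∈ Finset.Ico (i + 1) V.n, sb * (1 / 2) * ⟪V.P j v, x⟫ ^ 2 := by
    rw [← Finset.sum_add_distrib]
    refine Finset.sum_congr rfl fun j _ => ?_
    unfold al
    ring
  rw [hfin]
  nlinarith [mul_nonneg sb0.le (sq_nonneg ξ)]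

end rot

end Crest.Agent.R239.Lv303
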