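import Crest.Agent.R239.FDef
import Crest.Agent.R239.Lv1_534
import Crest.Agent.R239.F6b_696
import Crest.Agent.R239.AdmHalf_606
import Crest.Agent.R239.F5_411
import Crest.Agent.R239.Cap_526
import Crest.Agent.R239.PRot_711
import Crest.Agent.R239.RemLv_758
import Crest.Agent.R239.T1_689
import Crest.Agent.R239.MomF_764

/-!
# R239 / S0370 : Target_LEV (helper534), part 2 : one level of the flag
-/

set_option autoImplicit false
set_option linter.unusedVariables false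
set_option linter.unusedSectionVars false

open MeasureTheory ProbabilityTheory Set
open scoped RealInnerProductSpace ENNReal NNReal

namespace Crest.Agent.R239.Lv534

open Crest.Agent.R239 Crest.Agent.R239.FD
open Crest.Agent.R239.Rem603 (slab slab_std slab_anti)

variable {E : Type*} [NormedAddCommGroup E] [InnerProductSpace ℝ E] [FiniteDimensional ℝ E]
  [MeasurableSpace E] [BorelSpace E]

section algebra

variable (V : Flag E)

lemma rr_rot {v : E} (hv : ‖v‖ = 1) {s : ℝ} (hs : s < 1) (i : ℕ) :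
    (V.rot v s).rr i = V.rr i := by
  unfold Flag.rr
  refine Finset.sum_congr rfl fun j _ => ?_
  rw [T1689.rot_k V hv hs]

lemma norm_P_sq_le_N {i : ℕ} (hi : i < V.n) {j : ℕ} (hij : i ≤ j) (hj : j ≤ V.n) (x : E) :
    ‖V.P j x‖ ^ 2 ≤ th ^ (j - i) * V.N i x := by
  have h1 : ‖V.P j x‖ ^ 2 = ∑ l ∈ Finset.Ico j V.n, ‖V.Q l x‖ ^ 2 :=
    FlagAlg557.norm_P_sq_sum (M := V.M) V.anti hj (V.bot _ le_rfl) x
  have hth : (0:ℝ) < th := by norm_num [th]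
  have hthi : (1:ℝ) ≤ th⁻¹ := by norm_num [th]
  have h2 : ∑ l ∈ Finset.Ico j V.n, (th⁻¹) ^ (l - i) * ‖V.Q l x‖ ^ 2 ≤ V.N i x := by
    unfold Flag.N
    refine Finset.sum_le_sum_of_subset_of_nonneg ?_ fun l _ _ => by positivity
    exact Finset.Ico_subset_Ico hij le_rfl
  have h3 : (th⁻¹) ^ (j - i) * ‖V.P j x‖ ^ 2
      ≤ ∑ l ∈ Finset.Ico j V.n, (th⁻¹) ^ (l - i) * ‖V.Q l x‖ ^ 2 := by
    rw [h1, Finset.mul_sum]
    refine Finset.sum_le_sum fun l hl => ?_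
    have hl' := (Finset.mem_Ico.1 hl).1
    have := pow_le_pow_right₀ hthi (show j - i ≤ l - i by omega)
    exact mul_le_mul_of_nonneg_right this (by positivity)
  have h4 : th ^ (j - i) * ((th⁻¹) ^ (j - i) * ‖V.P j x‖ ^ 2) = ‖V.P j x‖ ^ 2 := by
    rw [← mul_assoc, ← mul_pow, mul_inv_cancel₀ hth.ne', one_pow, one_mul]
  rw [← h4]
  exact mul_le_mul_of_nonneg_left (h3.trans h2) (by positivity)

lemma inner_P_sq_le (v x : E) (j : ℕ) : ⟪V.P j v, x⟫ ^ 2 ≤ V.b v j * ‖V.P j x‖ ^ 2 := by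
  have h1 : ⟪V.P j v, x⟫ = ⟪V.P j v, V.P j x⟫ := by
    have h := FlagAlg557.inner_P_comm' (M := V.M) j (V.P j v) x
    have h2 : V.P j (V.P j v) = V.P j v := F6b696.P_P_of_le V le_rfl v
    change ⟪V.P j (V.P j v), x⟫ = ⟪V.P j v, V.P j x⟫ at h
    rwa [h2] at h
  rw [h1, Flag.b, ← mul_pow]
  exact sq_le_sq' (by
    have := abs_real_inner_le_norm (V.P j v) (V.P j x)
    have := neg_abs_le ⟪V.P j v, V.P j x⟫
    linarith) (real_inner_le_norm _ _)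

/-- elementary term of the gauge comparison -/
lemma termN {sb b : ℝ} (h0 : 0 ≤ sb * b) (h1 : sb * b < 1) {e : ℝ} (he : 0 < e) (x z : ℝ) :
    x ^ 2 - (x - z) ^ 2 / (1 - sb * b) ≤ e * x ^ 2 + z ^ 2 / e := by
  have hd : 0 < 1 - sb * b := by linarith
  have h2 : (x - z) ^ 2 ≤ (x - z) ^ 2 / (1 - sb * b) := by
    rw [le_div_iff₀ hd]
    nlinarith [sq_nonneg (x - z)]
  have h3 : 2 * x * z ≤ e * x ^ 2 + z ^ 2 / e := by
    have h4 : 0 ≤ (e * x - z) ^ 2 / e := by positivity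
    have h5 : (e * x - z) ^ 2 / e = e * x ^ 2 - 2 * x * z + z ^ 2 / e := by
      field_simp
      ring
    linarith
  nlinarith [sq_nonneg z]

lemma sum_half (i n : ℕ) : ∑ j ∈ Finset.Ico (i + 1) n, (1 / 2 : ℝ) ^ (j - i) ≤ 1 :=
  MomF764.sum_half_le i n

/-- pointwise comparison of the gauges -/
theorem qN_le {v : E} (hv : ‖v‖ = 1) {sb : ℝ} (h0 : 0 ≤ sb) (h1 : sb ≤ 1 / 2) {i : ℕ}
    (hi : i < V.n) {x : E} (hx : x ∈ V.M i) :
    qN V v sb i x ≤ sb * (2 * V.b v i + BB V v i) * V.N i x := by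
  have hN0 : 0 ≤ V.N i x := AdmHalf606.N_nonneg V i x
  have hb0 : ∀ j, 0 ≤ V.b v j := fun j => T1689.b_nonneg V v j
  have hb1 : ∀ j, V.b v j ≤ 1 := fun j => T1689.b_le_one V hv j
  have hPx : V.P i x = x := F6b696.P_of_mem V hx
  have hxi : ⟪v, x⟫ ^ 2 ≤ V.b v i * V.N i x := by
    have e : ⟪v, x⟫ = ⟪V.P i v, x⟫ := by
      have h := FlagAlg557.inner_P_comm' (M := V.M) i v x
      change ⟪V.P i v, x⟫ = ⟪v, V.P i x⟫ at h
      rw [hPx] at h
      exact h.symm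
    rw [e]
    refine (inner_P_sq_le V v x i).trans (mul_le_mul_of_nonneg_left ?_ (hb0 i))
    have := norm_P_sq_le_N V hi le_rfl hi.le x
    simpa using this
  have hth : (0:ℝ) < th := by norm_num [th]
  have hterm : ∀ j ∈ Finset.Ico (i + 1) V.n,
      omN (j - i) * (⟪v, x⟫ ^ 2 - ⟪v - V.P j v, x⟫ ^ 2 / (1 - sb * V.b v j))
        ≤ ((1 / 2 : ℝ) ^ (j - i) * V.b v i + (25 / 8 : ℝ) ^ (j - i) * V.b v j) * V.N i x := by
    intro j hj
    obtain ⟨hj1, hj2⟩ := Finset.mem_Ico.1 hj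
    set m := j - i with hm
    have hsbj : sb * V.b v j < 1 := by nlinarith [hb0 j, hb1 j]
    have he : (0:ℝ) < (th / 2) ^ m := by positivity
    have hz : ⟪V.P j v, x⟫ ^ 2 ≤ V.b v j * (th ^ m * V.N i x) :=
      (inner_P_sq_le V v x j).trans
        (mul_le_mul_of_nonneg_left (norm_P_sq_le_N V hi (by omega) hj2.le x) (hb0 j))
    have h2 := termN (mul_nonneg h0 (hb0 j)) hsbj he ⟪v, x⟫ ⟪V.P j v, x⟫
    rw [← inner_sub_left] at h2
    have homN : 0 ≤ omN m := by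
      unfold omN
      have : (0:ℝ) ≤ 1 - th := by norm_num [th]
      positivity
    refine (mul_le_mul_of_nonneg_left h2 homN).trans ?_
    have h3 : omN m * ((th / 2) ^ m * ⟪v, x⟫ ^ 2) ≤ (1 / 2 : ℝ) ^ m * (V.b v i * V.N i x) := by
      have e1 : omN m * (th / 2) ^ m = (1 - th) * (1 / 2 : ℝ) ^ m := by
        unfold omN
        rw [mul_right_comm, ← mul_pow]
        rw [show th⁻¹ * (th / 2) = 1 / 2 by field_simp]
        ring
      rw [← mul_assoc, e1]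
      have h5 : (1 - th) * (1 / 2 : ℝ) ^ m ≤ (1 / 2 : ℝ) ^ m := by
        have : (1 - th : ℝ) ≤ 1 := by linarith
        have h6 : (0:ℝ) ≤ (1 / 2 : ℝ) ^ m := by positivity
        nlinarith
      exact mul_le_mul h5 hxi (sq_nonneg _) (by positivity)
    have h4 : omN m * (⟪V.P j v, x⟫ ^ 2 / (th / 2) ^ m)
        ≤ (25 / 8 : ℝ) ^ m * (V.b v j * V.N i x) := by
      have e2 : omN m / (th / 2) ^ m * th ^ m = (1 - th) * (2 / th) ^ m := by
        unfold omN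
        have e3 : (th / 2) ^ m ≠ 0 := he.ne'
        have e4 : th ^ m ≠ 0 := by positivity
        rw [div_pow, div_pow, inv_pow]
        field_simp
      have e5 : (2 / th : ℝ) ^ m ≤ (25 / 8) ^ m := by
        refine pow_le_pow_left₀ (by positivity) ?_ m
        norm_num [th]
      have h6 : omN m / (th / 2) ^ m * th ^ m ≤ (25 / 8 : ℝ) ^ m := by
        rw [e2]
        have : (1 - th : ℝ) ≤ 1 := by linarith
        have h7 : (0:ℝ) ≤ (2 / th) ^ m := by positivity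
        nlinarith
      calc omN m * (⟪V.P j v, x⟫ ^ 2 / (th / 2) ^ m)
          = omN m / (th / 2) ^ m * ⟪V.P j v, x⟫ ^ 2 := by ring
        _ ≤ omN m / (th / 2) ^ m * (V.b v j * (th ^ m * V.N i x)) :=
            mul_le_mul_of_nonneg_left hz (by positivity)
        _ = omN m / (th / 2) ^ m * th ^ m * (V.b v j * V.N i x) := by ring
        _ ≤ (25 / 8 : ℝ) ^ m * (V.b v j * V.N i x) :=
            mul_le_mul_of_nonneg_right h6 (mul_nonneg (hb0 j) hN0)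
    calc omN m * ((th / 2) ^ m * ⟪v, x⟫ ^ 2 + ⟪V.P j v, x⟫ ^ 2 / (th / 2) ^ m)
        = omN m * ((th / 2) ^ m * ⟪v, x⟫ ^ 2) + omN m * (⟪V.P j v, x⟫ ^ 2 / (th / 2) ^ m) := by
          ring
      _ ≤ (1 / 2 : ℝ) ^ m * (V.b v i * V.N i x) + (25 / 8 : ℝ) ^ m * (V.b v j * V.N i x) :=
          add_le_add h3 h4
      _ = _ := by ring
  have hsum := Finset.sum_le_sum hterm
  rw [← Finset.sum_mul, Finset.sum_add_distrib, ← Finset.sum_mul] at hsum
  have hs2 : ((∑ j ∈ Finset.Ico (i + 1) V.n, (1 / 2 : ℝ) ^ (j - i)) * V.b v i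
      + ∑ j ∈ Finset.Ico (i + 1) V.n, (25 / 8 : ℝ) ^ (j - i) * V.b v j) * V.N i x
      ≤ (V.b v i + BB V v i) * V.N i x := by
    refine mul_le_mul_of_nonneg_right ?_ hN0
    have := mul_le_mul_of_nonneg_right (sum_half i V.n) (hb0 i)
    unfold BB
    linarith
  unfold qN
  have h8 := mul_le_mul_of_nonneg_left (hsum.trans hs2) h0
  have h9 := mul_le_mul_of_nonneg_left hxi h0
  nlinarith

end algebra

lemma T1689lam {p : Par} (hp : p.Ok) (i : ℕ) : 0 < p.lam i :=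
  mul_pos hp.tau_pos (pow_pos (by linarith [hp.A_ge]) i)

/-! ### positivity of the pulled back body -/

lemma convex_slab (a : E) (t : ℝ) : Convex ℝ {x : E | |⟪a, x⟫| ≤ t} := by
  have e : {x : E | |⟪a, x⟫| ≤ t} = (innerSL ℝ a) ⁻¹' (Icc (-t) t) := by
    ext x; simp [abs_le]
  rw [e]
  exact (convex_Icc _ _).linear_preimage (innerSL ℝ a : E →ₗ[ℝ] ℝ)

theorem pull_pos (R : E →L[ℝ] E) {ι : Type*} (J : Finset ι) (u : ι → E)
    (hN : ∀ g, ‖R g‖ ^ 2 ≤ ‖g‖ ^ 2 + ∑ k ∈ J, ⟪u k, g⟫ ^ 2)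
    {B : Set E} (mB : MeasurableSet B) (cB : Convex ℝ B) (sB : ∀ x ∈ B, -x ∈ B)
    (Bpos : 0 < (stdGaussian E).real B) (a : E) {t ps : ℝ} (hps0 : 0 < ps)
    (hps : ps ≤ (stdGaussian E).real {x | |⟪a, x⟫| ≤ t})
    {G : Type*} [NormedAddCommGroup G] [InnerProductSpace ℝ G] [FiniteDimensional ℝ G]
    (Y : E →L[ℝ] G) {R0 ε : ℝ} (hR0 : 0 < R0) (hε0 : 0 ≤ ε) (hε1 : ε ≤ 1 / 2)
    (hE : ∫ x, ‖Y x‖ ^ 2 ∂(stdGaussian E) ≤ ε * R0 ^ 2) :
    0 < (stdGaussian E).real {y | R y ∈ B ∧ |⟪a, y⟫| ≤ t ∧ ‖Y y‖ ≤ R0} := by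
  have hcmp := CmpR174.cmp J u R hN mB cB sB
  have h1 : 0 < (stdGaussian E).real (R ⁻¹' B) :=
    lt_of_lt_of_le (mul_pos (Real.exp_pos _) Bpos) hcmp
  have m1 : MeasurableSet (R ⁻¹' B) := R.continuous.measurable mB
  have c1 : Convex ℝ (R ⁻¹' B) := Dom640.pre_conv R cB
  have s1 := Dom640.pre_symm R sB
  have h2 := Dom640.slab_real m1 c1 s1 a t
  have h3 : 0 < (stdGaussian E).real (R ⁻¹' B ∩ {x | |⟪a, x⟫| ≤ t}) :=
    lt_of_lt_of_le (mul_pos h1 (lt_of_lt_of_le hps0 hps)) h2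
  have m2 : MeasurableSet (R ⁻¹' B ∩ {x : E | |⟪a, x⟫| ≤ t}) :=
    m1.inter (Dom640.measurableSet_slab a t)
  have h4 := cap_triv m2 (c1.inter (convex_slab a t)) (fun x hx => ⟨s1 x hx.1, by
    show |⟪a, -x⟫| ≤ t
    rw [inner_neg_right, abs_neg]; exact hx.2⟩) Y hR0 hε0 hε1 hE
  have e : R ⁻¹' B ∩ {x : E | |⟪a, x⟫| ≤ t} ∩ {x | ‖Y x‖ ≤ R0}
      = {y | R y ∈ B ∧ |⟪a, y⟫| ≤ t ∧ ‖Y y‖ ≤ R0} := by
    ext x
    show ((R x ∈ B ∧ |⟪a, x⟫| ≤ t) ∧ ‖Y x‖ ≤ R0) ↔ _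
    rw [and_assoc]; rfl
  rw [e] at h4
  exact lt_of_lt_of_le (mul_pos (by linarith) h3) h4

/-! ### the level inequality -/

lemma inner_H_comm' (V : Flag E) (i : ℕ) (x y : E) : ⟪V.H i x, y⟫ = ⟪x, V.H i y⟫ :=
  FlagAlg557.inner_comb_comm (M := V.M) i V.n (fun j => th ^ (j - i)) x y

/-- cap gauge in `g` coordinates -/
noncomputable def Yg (V : Flag E) (i : ℕ) : E →L[ℝ] E := Cap526.Bc V i ∘L V.H i

lemma norm_Yg_sq (V : Flag E) (i : ℕ) (g : E) : ‖Yg V i g‖ ^ 2 = V.N i (V.H i g) :=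
  Cap526.norm_Bc_sq V i _

lemma integral_Yg (V : Flag E) (i : ℕ) : ∫ g, ‖Yg V i g‖ ^ 2 ∂(stdGaussian E) = V.rr i := by
  rw [← Cap526.integral_N V i, Mom764.integral_gau _ (by fun_prop)]
  rfl

set_option maxHeartbeats 2000000 in
theorem level {p : Par} (hp : p.Ok) {V : Flag E} {μ : Multiset E} {v : E} {i : ℕ}
    (hv : ‖v‖ = 1) (hi : i < V.n) (hrr : 0 < V.rr i) {s : ℝ} (hs0 : 0 < s) (hs1 : s < 1)
    (hsb : 2 * s - s ^ 2 ≤ 1 / 2) {n : E} (hn : ‖n‖ = 1) {τ : ℝ} (hτ0 : 0 ≤ τ) (hτ1 : τ ≤ 1 / 4)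
    (hτ : ∀ g, τ * ⟪n, g⟫ ^ 2 ≤ (2 * s - s ^ 2) / 2 * ⟪V.Q i v, g⟫ ^ 2)
    {K K' : Set E} {sl : ℝ} (hK : NearOpt p V i μ K sl) (hK' : Adm p (V.rot v s) i K')
    {w : ℝ≥0} (hw : 4 / 3 * V.b v i ≤ w) {t : ℝ} (hslab : 0 < slab w t) :
    D p V i μ + p.lam i * (τ / 2 * (1 - (1 + 4 * τ) *
        ((∫ x in V.H i ⁻¹' K, ⟪n, x⟫ ^ 2 ∂(stdGaussian E)) / (stdGaussian E).real (V.H i ⁻¹' K))))
      ≤ val p (V.rot v s) i μ K' + (s * (t * S μ v) - p.lam i * Real.log (slab w t)) +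
        p.lam i * ((2 * s - s ^ 2) * BB V v i
          + 4 * (16 / (3 * p.rho ^ 2)) * ((2 * s - s ^ 2) * (2 * V.b v i + BB V v i))) + sl := by
  have hsb0 : 0 < 2 * s - s ^ 2 := by nlinarith
  set sb := 2 * s - s ^ 2 with hsbdef
  have hlam : 0 < p.lam i := T1689lam hp i
  have hrho : 16 ≤ p.rho := hp.rho_ge
  set ε : ℝ := 16 / (3 * p.rho ^ 2) with hε
  have hε0 : 0 ≤ ε := by positivity
  have hrho2 : 256 ≤ p.rho ^ 2 := by nlinarith
  have hε1 : ε ≤ 1 / 2 := by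
    rw [hε, div_le_iff₀ (by positivity)]; linarith
  set h : ℝ := sb * (2 * V.b v i + BB V v i) with hh
  have hb0 : 0 ≤ V.b v i := T1689.b_nonneg V v i
  have hBB0 : 0 ≤ BB V v i := MomF764.BB_nonneg V v i
  have hh0 : 0 ≤ h := by positivity
  set R0 : ℝ := p.rho * Real.sqrt (V.rr i) with hR0d
  have hR0 : 0 < R0 := by positivity
  have hR0sq : R0 ^ 2 = p.rho ^ 2 * V.rr i := by
    rw [hR0d, mul_pow, Real.sq_sqrt hrr.le]
  set R : E →L[ℝ] E := F6b696.Rm V v s i with hR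
  set B : Set E := (V.rot v s).H i ⁻¹' K' with hB
  set a : E := V.H i v with ha
  obtain ⟨J, u, hJ1, hJ2⟩ := F5411.f5_N V hv hs0 hs1 hsb i
  have hJ1' : ∀ g, ‖R g‖ ^ 2 + sb / 2 * ⟪V.Q i v, g⟫ ^ 2 ≤ ‖g‖ ^ 2 + ∑ k ∈ J, ⟪u k, g⟫ ^ 2 := hJ1
  obtain ⟨K'cl, K'cv, K'sy, K'cap, K'pos⟩ := hK'
  have mB : MeasurableSet B := ((V.rot v s).H i).continuous.measurable K'cl.measurableSet
  have cB : Convex ℝ B := Dom640.pre_conv _ K'cv
  have sB : ∀ x ∈ B, -x ∈ B := Dom640.pre_symm _ K'sy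
  have Bpos : 0 < (stdGaussian E).real B := by
    rw [hB, ← gau_real_apply _ K'cl.measurableSet]; exact K'pos
  have ha2 : ‖a‖ ^ 2 ≤ V.b v i := F5411.norm_H_le V i v
  have hps : ∀ w' : E, ‖w'‖ ^ 2 ≤ 4 / 3 * ‖a‖ ^ 2 →
      slab w t ≤ (stdGaussian E).real {x | |⟪w', x⟫| ≤ t} := by
    intro w' hw'
    rw [slab_std]
    refine slab_anti ?_ t
    rw [← NNReal.coe_le_coe]
    push_cast
    linarith
  have hYsq : ∀ g, ‖Yg V i g‖ ^ 2 = V.N i (V.H i g) := norm_Yg_sq V i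
  have hEY : 4 / 3 * ∫ x, ‖Yg V i x‖ ^ 2 ∂(stdGaussian E) ≤ ε * (R0 / 2) ^ 2 := by
    rw [integral_Yg, div_pow, hR0sq, hε]
    have : p.rho ^ 2 ≠ 0 := by positivity
    field_simp
    norm_num
  have hYR : h ≤ 1 / 2 → ∀ g, R g ∈ B → ‖Yg V i g‖ ≤ (1 + h) * R0 := by
    intro hle g hg
    have h1 : Ts v s (V.H i g) ∈ K' := by
      have : (V.rot v s).H i (R g) ∈ K' := hg
      rwa [hR, ← F6b696.Ts_H] at this
    have h2 := (K'cap h1).2
    have hmem := F6b696.H_mem V i g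
    rw [PRot711.p_rotN V v s i _ hv hs0 hs1 hmem, rr_rot V hv hs1] at h2
    have h3 := qN_le V hv hsb0.le hsb hi hmem
    rw [← hh] at h3
    have h4 : (1 - h) * V.N i (V.H i g) ≤ p.rho ^ 2 * V.rr i := by linarith
    have h5 : ‖Yg V i g‖ ^ 2 ≤ ((1 + h) * R0) ^ 2 := by
      rw [hYsq, mul_pow, hR0sq]
      have hNn : 0 ≤ V.N i (V.H i g) := AdmHalf606.N_nonneg V i _
      have h6 : 1 ≤ (1 + h) ^ 2 * (1 - h) := by
        have h61 : 0 ≤ 1 - h - h ^ 2 := by nlinarith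
        have h62 := mul_nonneg hh0 h61
        nlinarith
      calc V.N i (V.H i g) = 1 * V.N i (V.H i g) := by ring
        _ ≤ (1 + h) ^ 2 * (1 - h) * V.N i (V.H i g) := mul_le_mul_of_nonneg_right h6 hNn
        _ = (1 + h) ^ 2 * ((1 - h) * V.N i (V.H i g)) := by ring
        _ ≤ _ := mul_le_mul_of_nonneg_left h4 (by positivity)
    exact (sq_le_sq₀ (norm_nonneg _) (by positivity)).1 h5
  -- the body `Q`
  set Q : Set E := Ts v s ⁻¹' K' ∩ ({x | |⟪v, x⟫| ≤ t} ∩ V.cap p.rho i) with hQ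
  have hHQ : V.H i ⁻¹' Q = {y | R y ∈ B ∧ |⟪a, y⟫| ≤ t ∧ ‖Yg V i y‖ ≤ R0} := by
    ext y
    have e1 : Ts v s (V.H i y) ∈ K' ↔ R y ∈ B := by
      show _ ↔ (V.rot v s).H i (R y) ∈ K'
      rw [hR, ← F6b696.Ts_H]
    have e2 : ⟪v, V.H i y⟫ = ⟪a, y⟫ := (inner_H_comm' V i v y).symm
    have e3 : V.H i y ∈ V.cap p.rho i ↔ ‖Yg V i y‖ ≤ R0 := by
      rw [← sq_le_sq₀ (norm_nonneg _) hR0.le, hYsq, hR0sq]
      exact ⟨fun h => h.2, fun h => ⟨F6b696.H_mem V i y, h⟩⟩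
    show (Ts v s (V.H i y) ∈ K' ∧ |⟪v, V.H i y⟫| ≤ t ∧ V.H i y ∈ V.cap p.rho i) ↔ _
    rw [e1, e2, e3]; rfl
  have Qcl : IsClosed Q := (K'cl.preimage (Ts v s).continuous).inter
    ((isClosed_le (by fun_prop) continuous_const).inter (AdmHalf606.cap_closed V i p.rho))
  have Qcv : Convex ℝ Q := (K'cv.linear_preimage (Ts v s : E →ₗ[ℝ] E)).inter
    ((convex_slab v t).inter (AdmHalf606.cap_convex V i p.rho))
  have Qsy : ∀ x ∈ Q, -x ∈ Q := fun x hx => ⟨by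
      show Ts v s (-x) ∈ K'
      rw [map_neg]; exact K'sy _ hx.1, by
      show |⟪v, -x⟫| ≤ t
      rw [inner_neg_right, abs_neg]; exact hx.2.1, AdmHalf606.cap_neg V i p.rho hx.2.2⟩
  have Qpos : 0 < (gau (V.H i)).real Q := by
    rw [gau_real_apply _ Qcl.measurableSet, hHQ]
    refine pull_pos R J u (fun g => ?_) mB cB sB Bpos a hslab (hps a (by nlinarith [sq_nonneg ‖a‖]))
      (Yg V i) hR0 hε0 hε1 ?_
    · have := hJ1' g
      have h2 : 0 ≤ sb / 2 * ⟪V.Q i v, g⟫ ^ 2 := by positivity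
      linarith
    · have h1 : 0 ≤ ∫ x, ‖Yg V i x‖ ^ 2 ∂(stdGaussian E) := integral_nonneg fun x => by positivity
      have h2 : ε * (R0 / 2) ^ 2 ≤ ε * R0 ^ 2 := by
        refine mul_le_mul_of_nonneg_left ?_ hε0
        nlinarith [sq_nonneg R0]
      linarith
  have hQadm : Adm p V i Q := ⟨Qcl, Qcv, Qsy, fun x hx => hx.2.2, Qpos⟩
  have hHalf := AdmHalf606.adm_half hK.1 hQadm
  have hEhalf := AdmHalf606.Eh_half hK.1 hQadm μ
  have hD := F6b696.D_le_val (μ := μ) (fun j => (T1689lam hp j).le) hHalf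
  have hEQ : Eh Q μ ≤ Eh K' μ + s * t * S μ v := by
    refine F6core696.Eh_pullback (AdmHalf606.adm_compact (V := V.rot v s) (i := i) (p := p)
      ⟨K'cl, K'cv, K'sy, K'cap, K'pos⟩) (AdmHalf606.adm_nonempty hQadm) (T := Ts v s) hs0.le
      (fun x => Ts_apply v s x) (fun x hx => hx.1) (fun x hx => hx.2.1) μ
  have mK : MeasurableSet K := hK.1.1.measurableSet
  have Kpos : 0 < (stdGaussian E).real (V.H i ⁻¹' K) := by
    rw [← gau_real_apply _ mK]; exact hK.1.2.2.2.2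
  obtain ⟨hWp, hcore⟩ := core hn hτ0 hτ1 R J u (fun g => by
      have := hJ1' g
      have := hτ g
      linarith) ((V.H i).continuous.measurable mK) Kpos mB cB sB Bpos a hslab hps (Yg V i) hR0
      hh0 hε0 hε1 hEY hYR ((V.H i).continuous.measurable hHalf.1.measurableSet)
      (W := V.H i ⁻¹' AdmHalf606.half K Q) (fun x hx y h1 h2 h3 => by
        have hy : y ∈ V.H i ⁻¹' Q := by rw [hHQ]; exact ⟨h1, h2, h3⟩
        show V.H i ((1 / 2 : ℝ) • x + (1 / 2 : ℝ) • y) ∈ AdmHalf606.half K Q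
        rw [map_add, map_smul, map_smul]
        exact AdmHalf606.mem_half.2 ⟨_, hx, _, hy, rfl⟩)
  have e1 : Real.log ((gau (V.H i)).real (AdmHalf606.half K Q))
      = Real.log ((stdGaussian E).real (V.H i ⁻¹' AdmHalf606.half K Q)) := by
    rw [gau_real_apply _ hHalf.1.measurableSet]
  have e2 : (gau (V.H i)).real K = (stdGaussian E).real (V.H i ⁻¹' K) := gau_real_apply _ mK
  have e3 : (gau ((V.rot v s).H i)).real K' = (stdGaussian E).real B :=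
    gau_real_apply _ K'cl.measurableSet
  have hKval := hK.2
  unfold val at hD hKval
  rw [e1, hEhalf] at hD
  rw [e2] at hKval
  unfold val
  rw [e3]
  have h7 := mul_le_mul_of_nonneg_left hcore hlam.le
  have h8 := mul_le_mul_of_nonneg_left hJ2 hlam.le
  have e9 : s * (t * S μ v) = s * t * S μ v := by ring
  rw [e9]
  have e10 : 4 * ε * h = 4 * ε * (sb * (2 * V.b v i + BB V v i)) := by rw [hh]
  rw [← e10]
  linarith

end Crest.Agent.R239.Lv534
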