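import Mathlib
import Crest.Agent.R239.FDef
import Crest.Agent.R239.FlagAlg_557
import Crest.Agent.R239.ProjRot_557

/-! R239 (helper614): algebra of the tilted flag `V.rot v s` in covariance form. -/

set_option autoImplicit false
set_option linter.unusedSectionVars false
open MeasureTheory ProbabilityTheory Set Filter Topology Finset
open scoped RealInnerProductSpace

namespace Crest.Agent.R239.Lv614

open Crest.Agent.R239 Crest.Agent.R239.FD

variable {E : Type*} [NormedAddCommGroup E] [InnerProductSpace ℝ E] [FiniteDimensional ℝ E]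
  [MeasurableSpace E] [BorelSpace E]

/-- Abel summation -/
lemma abel (β c : ℕ → ℝ) {i n : ℕ} (h : i < n) (hβ : β n = 0) :
    ∑ j ∈ Finset.Ico i n, c (j - i) * (β j - β (j + 1))
      = c 0 * β i + ∑ j ∈ Finset.Ico (i + 1) n, (c (j - i) - c (j - i - 1)) * β j := by
  have key : ∀ m, i + 1 ≤ m → ∑ j ∈ Finset.Ico i m, c (j - i) * (β j - β (j + 1))
      = c 0 * β i + ∑ j ∈ Finset.Ico (i + 1) m, (c (j - i) - c (j - i - 1)) * β j
        - c (m - 1 - i) * β m := by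
    intro m hm
    induction m, hm using Nat.le_induction with
    | base => simp; ring
    | succ m hm ih =>
      rw [Finset.sum_Ico_succ_top (by omega), ih, Finset.sum_Ico_succ_top (by omega)]
      have e1 : m + 1 - 1 - i = m - i := by omega
      have e2 : m - 1 - i = m - i - 1 := by omega
      rw [e1, e2]
      ring
  rw [key n h, hβ]
  ring

/-! ### bridges -/

lemma th_pos : (0:ℝ) < th := by unfold th; norm_num
lemma th_lt : th < 1 := by unfold th; norm_num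

lemma P_eq (V : Flag E) (j : ℕ) : V.P j = FlagAlg557.P V.M j := rfl
lemma Q_eq (V : Flag E) (j : ℕ) : V.Q j = FlagAlg557.Q V.M j := rfl
lemma H_eq (V : Flag E) (i : ℕ) : V.H i = FlagAlg557.H V.M th V.n i := rfl
lemma Hi_eq (V : Flag E) (i : ℕ) : V.Hi i = FlagAlg557.Hi V.M th V.n i := by
  unfold Flag.Hi FlagAlg557.Hi FlagAlg557.comb
  refine Finset.sum_congr rfl fun j _ => ?_
  rw [inv_pow]; rfl

variable (V : Flag E)

lemma Mn : V.M V.n = ⊥ := V.bot V.n le_rfl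

lemma P_mem (j : ℕ) (x : E) : V.P j x ∈ V.M j := FlagAlg557.P_mem j x

lemma P_of_mem {j : ℕ} {x : E} (h : x ∈ V.M j) : V.P j x = x := FlagAlg557.P_of_mem h

lemma P_n (x : E) : V.P V.n x = 0 := FlagAlg557.P_eq_zero (Mn V) x

lemma inner_P (j : ℕ) (x y : E) : ⟪V.P j x, y⟫ = ⟪x, V.P j y⟫ := FlagAlg557.inner_P_comm' j x y

lemma norm_Q_sq (j : ℕ) (x : E) : ‖V.Q j x‖ ^ 2 = ‖V.P j x‖ ^ 2 - ‖V.P (j + 1) x‖ ^ 2 :=
  FlagAlg557.norm_Q_sq' V.anti j x

lemma norm_P_le (j : ℕ) (x : E) : ‖V.P j x‖ ≤ ‖x‖ := (V.M j).norm_starProjection_apply_le x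

lemma norm_P_anti {i j : ℕ} (h : i ≤ j) (x : E) : ‖V.P j x‖ ≤ ‖V.P i x‖ :=
  FlagAlg557.norm_P_anti V.anti h x

lemma P_P {i j : ℕ} (h : i ≤ j) (x : E) : V.P j (V.P i x) = V.P j x :=
  FlagAlg557.P_P V.anti h x

lemma P_P' {i j : ℕ} (h : i ≤ j) (x : E) : V.P i (V.P j x) = V.P j x :=
  FlagAlg557.P_P' V.anti h x

lemma H_adj (i : ℕ) : (V.H i).adjoint = V.H i := by
  ext x
  apply ext_inner_right ℝ
  intro y
  rw [ContinuousLinearMap.adjoint_inner_left, H_eq]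
  exact (FlagAlg557.inner_comb_comm i V.n _ x y).symm

lemma H_mem (i : ℕ) (x : E) : V.H i x ∈ V.M i := by
  rw [H_eq]; exact FlagAlg557.comb_mem V.anti i V.n _ x

lemma H_Hi {i : ℕ} (h : i ≤ V.n) (x : E) : V.H i (V.Hi i x) = V.P i x := by
  rw [H_eq, Hi_eq]; exact FlagAlg557.H_Hi V.anti th_pos h (Mn V) x

/-- covariance of level `i` by the projections -/
lemma norm_H_sq {i : ℕ} (h : i < V.n) (t : E) :
    ‖V.H i t‖ ^ 2 = ‖V.P i t‖ ^ 2
      - ∑ j ∈ Finset.Ico (i + 1) V.n, (th ^ (2 * (j - i - 1)) - th ^ (2 * (j - i))) * ‖V.P j t‖ ^ 2 := by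
  have h1 : ‖V.H i t‖ ^ 2 = ∑ j ∈ Finset.Ico i V.n, th ^ (2 * (j - i)) *
      (‖V.P j t‖ ^ 2 - ‖V.P (j + 1) t‖ ^ 2) := by
    rw [H_eq, FlagAlg557.norm_H_sq V.anti]
    refine Finset.sum_congr rfl fun j _ => ?_
    rw [← norm_Q_sq, ← pow_mul, mul_comm (j - i) 2]
    rfl
  rw [h1, abel (fun j => ‖V.P j t‖ ^ 2) (fun m => th ^ (2 * m)) h (by simp [P_n])]
  simp only [mul_zero, pow_zero, one_mul]
  rw [sub_eq_add_neg, ← Finset.sum_neg_distrib]
  congr 1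
  refine Finset.sum_congr rfl fun j _ => ?_
  ring

lemma N_eq {i : ℕ} (h : i < V.n) (x : E) :
    V.N i x = ‖V.P i x‖ ^ 2
      + ∑ j ∈ Finset.Ico (i + 1) V.n, ((th⁻¹) ^ (j - i) - (th⁻¹) ^ (j - i - 1)) * ‖V.P j x‖ ^ 2 := by
  have h1 : V.N i x = ∑ j ∈ Finset.Ico i V.n, (th⁻¹) ^ (j - i) *
      (‖V.P j x‖ ^ 2 - ‖V.P (j + 1) x‖ ^ 2) := by
    unfold Flag.N
    refine Finset.sum_congr rfl fun j _ => ?_
    rw [← norm_Q_sq]
  rw [h1, abel (fun j => ‖V.P j x‖ ^ 2) (fun m => (th⁻¹) ^ m) h (by simp [P_n])]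
  simp only [pow_zero, one_mul]

lemma N_nonneg (i : ℕ) (x : E) : 0 ≤ V.N i x := by
  unfold Flag.N
  apply Finset.sum_nonneg
  intro j _
  have := th_pos
  positivity

lemma norm_P_le_N {i j : ℕ} (hij : i ≤ j) (hjn : j ≤ V.n) (x : E) :
    ‖V.P j x‖ ^ 2 ≤ th ^ (j - i) * V.N i x := by
  have h0 := th_pos
  have h1 : ‖V.P j x‖ ^ 2 = ∑ l ∈ Finset.Ico j V.n, ‖V.Q l x‖ ^ 2 :=
    FlagAlg557.norm_P_sq_sum V.anti hjn (Mn V) x
  rw [h1]
  unfold Flag.N
  rw [Finset.mul_sum]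
  have h2 : ∑ l ∈ Finset.Ico j V.n, ‖V.Q l x‖ ^ 2
      ≤ ∑ l ∈ Finset.Ico j V.n, th ^ (j - i) * ((th⁻¹) ^ (l - i) * ‖V.Q l x‖ ^ 2) := by
    apply Finset.sum_le_sum
    intro l hl
    have hl' := Finset.mem_Ico.1 hl
    have e : th ^ (j - i) * ((th⁻¹) ^ (l - i) * ‖V.Q l x‖ ^ 2)
        = (th⁻¹) ^ (l - j) * ‖V.Q l x‖ ^ 2 := by
      have : l - i = (j - i) + (l - j) := by omega
      rw [this, pow_add, ← mul_assoc, ← mul_assoc, ← mul_pow, mul_inv_cancel₀ h0.ne', one_pow,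
        one_mul]
    rw [e]
    have h3 : 1 ≤ (th⁻¹) ^ (l - j) := by
      apply one_le_pow₀
      rw [one_le_inv₀ h0]
      exact th_lt.le
    nlinarith [sq_nonneg ‖V.Q l x‖]
  refine h2.trans ?_
  apply Finset.sum_le_sum_of_subset_of_nonneg
  · intro l hl
    have := Finset.mem_Ico.1 hl
    exact Finset.mem_Ico.2 ⟨by omega, this.2⟩
  · intro l _ _
    positivity

/-! ### the rotation -/

variable {v : E} {s : ℝ}

lemma Ts_eq (v : E) (s : ℝ) : (Ts v s : E →L[ℝ] E) = ProjRot557.Tr v s := by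
  ext x
  rw [Ts_apply, ProjRot557.Tr_apply]

lemma rot_P (j : ℕ) : (V.rot v s).P j
    = ((V.M j).map (ProjRot557.Tr v s : E →ₗ[ℝ] E)).starProjection := by
  unfold Flag.P Flag.rot
  simp only
  congr 1

lemma Ts_adj (v : E) (s : ℝ) : (Ts v s : E →L[ℝ] E).adjoint = Ts v s := by
  ext x
  apply ext_inner_right ℝ
  intro y
  rw [ContinuousLinearMap.adjoint_inner_left, Ts_apply, Ts_apply, inner_sub_left, inner_sub_right,
    inner_smul_left, inner_smul_right, real_inner_comm x v]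
  simp only [conj_trivial]
  ring

lemma b_le (hv : ‖v‖ = 1) (j : ℕ) : V.b v j ≤ 1 := by
  unfold Flag.b
  have := norm_P_le V j v
  rw [hv] at this
  nlinarith [norm_nonneg (V.P j v)]

lemma b_nonneg (j : ℕ) : 0 ≤ V.b v j := by unfold Flag.b; positivity

lemma b_anti {i j : ℕ} (h : i ≤ j) : V.b v j ≤ V.b v i := by
  unfold Flag.b
  have := norm_P_anti V h v
  nlinarith [norm_nonneg (V.P j v), norm_nonneg (V.P i v)]

lemma b_n : V.b v V.n = 0 := by unfold Flag.b; rw [P_n]; simp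

variable (hv : ‖v‖ = 1) (hs0 : 0 < s) (hs1 : s < 1) (hsb : 2 * s - s ^ 2 ≤ 1 / 2)
include hv hs0 hs1 hsb

lemma sb_pos : 0 < 2 * s - s ^ 2 := by nlinarith

lemma den_ge (j : ℕ) : 1 / 2 ≤ 1 - (2 * s - s ^ 2) * V.b v j := by
  have h1 := b_le V hv j
  have h2 := b_nonneg V (v := v) j
  have h3 : 0 < 2 * s - s ^ 2 := by nlinarith
  nlinarith

/-- weight of the rank one term -/
noncomputable def be (V : Flag E) (v : E) (s : ℝ) (j : ℕ) : ℝ :=
  (2 * s - s ^ 2) / (1 - (2 * s - s ^ 2) * V.b v j)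

lemma be_le (j : ℕ) : be V v s j ≤ 2 * (2 * s - s ^ 2) := by
  have h1 := den_ge V hv hs0 hs1 hsb j
  have h3 : 0 < 2 * s - s ^ 2 := by nlinarith
  unfold be
  rw [div_le_iff₀ (by linarith)]
  nlinarith

lemma be_ge (j : ℕ) : 2 * s - s ^ 2 ≤ be V v s j := by
  have h1 := den_ge V hv hs0 hs1 hsb j
  have h3 : 0 < 2 * s - s ^ 2 := by nlinarith
  have h2 := b_nonneg V (v := v) j
  unfold be
  rw [le_div_iff₀ (by linarith)]
  nlinarith [mul_nonneg h3.le h2]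

lemma be_pos (j : ℕ) : 0 < be V v s j := by
  have := be_ge V hv hs0 hs1 hsb j
  have h3 : 0 < 2 * s - s ^ 2 := by nlinarith
  linarith

/-- (C1) in the form for `T x` -/
lemma rot_norm_T (j : ℕ) (x : E) :
    ‖(V.rot v s).P j (Ts v s x)‖ ^ 2 = ‖V.P j x‖ ^ 2 - (2 * s - s ^ 2) * ⟪v, x⟫ ^ 2
      + be V v s j * (⟪v, x⟫ - ⟪V.P j v, x⟫) ^ 2 := by
  have hd := den_ge V hv hs0 hs1 hsb j
  have h := ProjRot557.norm_P_map_Tr_sq (V.M j) hv (s := s) (by
    have : ProjRot557.sbar s * ‖(V.M j).starProjection v‖ ^ 2 = (2 * s - s ^ 2) * V.b v j := rfl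
    rw [this]; linarith) x
  rw [rot_P, Ts_eq, h]
  unfold be Flag.b Flag.P ProjRot557.sbar
  ring

/-- covariance form of (C1) -/
lemma rot_norm (j : ℕ) (t : E) :
    ‖(V.rot v s).P j t‖ ^ 2 = ‖V.P j (Ts v s t)‖ ^ 2 + be V v s j * ⟪V.P j v, Ts v s t⟫ ^ 2 := by
  have hd := den_ge V hv hs0 hs1 hsb j
  have hs' : 1 - s ≠ 0 := by linarith
  have hvv : ⟪v, v⟫ = (1:ℝ) := by rw [real_inner_self_eq_norm_sq, hv]; norm_num
  set x : E := t + (s / (1 - s) * ⟪v, t⟫) • v with hx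
  have hvx : ⟪v, x⟫ = ⟪v, t⟫ / (1 - s) := by
    rw [hx, inner_add_right, inner_smul_right, hvv]
    field_simp
    try ring
  have hTx : Ts v s x = t := by
    rw [Ts_apply, hvx, hx, add_sub_assoc, ← sub_smul]
    have : s / (1 - s) * ⟪v, t⟫ - s * (⟪v, t⟫ / (1 - s)) = 0 := by
      field_simp
      try ring
    rw [this, zero_smul, add_zero]
  have h := rot_norm_T V hv hs0 hs1 hsb j x
  rw [hTx] at h
  rw [h, hvx]
  set w := V.P j v with hw
  have hww : ‖w‖ ^ 2 = V.b v j := rfl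
  have hwv : ⟪w, v⟫ = V.b v j := by
    rw [← hww, ← real_inner_self_eq_norm_sq, hw]
    exact (ProjRot557.inner_P_P (V.M j) v v).symm
  have hwPt : ⟪V.P j t, w⟫ = ⟪w, t⟫ := by
    rw [real_inner_comm]
    exact ProjRot557.inner_P_P (V.M j) v t
  have e1 : ‖V.P j x‖ ^ 2 = ‖V.P j t‖ ^ 2 + 2 * (s / (1 - s) * ⟪v, t⟫) * ⟪w, t⟫
      + (s / (1 - s) * ⟪v, t⟫) ^ 2 * V.b v j := by
    rw [hx, map_add, map_smul, norm_add_sq_real, inner_smul_right, norm_smul, mul_pow, hwPt,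
      Real.norm_eq_abs, sq_abs, ← hww]
    ring
  have e2 : ‖V.P j (Ts v s t)‖ ^ 2 = ‖V.P j t‖ ^ 2 - 2 * (s * ⟪v, t⟫) * ⟪w, t⟫
      + (s * ⟪v, t⟫) ^ 2 * V.b v j := by
    rw [Ts_apply, map_sub, map_smul, norm_sub_sq_real, inner_smul_right, norm_smul, mul_pow, hwPt,
      Real.norm_eq_abs, sq_abs, ← hww]
    ring
  have e3 : ⟪w, x⟫ = ⟪w, t⟫ + s / (1 - s) * ⟪v, t⟫ * V.b v j := by
    rw [hx, inner_add_right, inner_smul_right, hwv]
  have e4 : ⟪w, Ts v s t⟫ = ⟪w, t⟫ - s * ⟪v, t⟫ * V.b v j := by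
    rw [Ts_apply, inner_sub_right, inner_smul_right, hwv]
  rw [e1, e2, e3, e4]
  have hc : be V v s j * (1 - (2 * s - s ^ 2) * V.b v j) = 2 * s - s ^ 2 := by
    unfold be
    rw [div_mul_cancel₀ _ (by linarith)]
  generalize be V v s j = c at hc ⊢
  generalize V.b v j = β at hc ⊢
  obtain ⟨y, hy⟩ : ∃ y, ⟪v, t⟫ = (1 - s) * y := ⟨⟪v, t⟫ / (1 - s), by field_simp⟩
  have f1 : s / (1 - s) * ⟪v, t⟫ = s * y := by rw [hy]; field_simp
  have f2 : ⟪v, t⟫ / (1 - s) = y := by rw [hy]; field_simp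
  rw [f1, f2, hy]
  linear_combination (-(2 * y * ⟪w, t⟫ + s ^ 2 * y ^ 2 * β - y ^ 2)) * hc

/-- `‖P^s_l T w_j‖² ≤ b_l` for `l ≥ j` -/
lemma rot_P_Tw {j l : ℕ} (hjl : j ≤ l) :
    ‖(V.rot v s).P l (Ts v s (V.P j v))‖ ^ 2 ≤ V.b v l := by
  have h := rot_norm_T V hv hs0 hs1 hsb l (V.P j v)
  have hd := den_ge V hv hs0 hs1 hsb l
  have e1 : V.P l (V.P j v) = V.P l v := P_P V hjl v
  have e2 : ⟪v, V.P j v⟫ = V.b v j := by
    unfold Flag.b
    rw [← real_inner_self_eq_norm_sq, real_inner_comm]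
    exact (ProjRot557.inner_P_P (V.M j) v v).symm
  have e3 : ⟪V.P l v, V.P j v⟫ = V.b v l := by
    rw [← inner_P, P_P' V hjl]
    unfold Flag.b
    rw [← real_inner_self_eq_norm_sq]
    exact (ProjRot557.inner_P_P (V.M l) v v).symm
  rw [e1, e2, e3] at h
  rw [h]
  have hc : be V v s l * (1 - (2 * s - s ^ 2) * V.b v l) = 2 * s - s ^ 2 := by
    unfold be
    rw [div_mul_cancel₀ _ (by linarith)]
  have hb1 := b_le V hv j
  have hb2 := b_nonneg V (v := v) l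
  have hb3 := b_anti V (v := v) hjl
  have hbe := be_pos V hv hs0 hs1 hsb l
  have h0 : ‖V.P l v‖ ^ 2 = V.b v l := rfl
  rw [h0]
  generalize be V v s l = c at hc hbe ⊢
  generalize V.b v l = β at *
  generalize V.b v j = α at *
  have h3 : 0 < 2 * s - s ^ 2 := by nlinarith
  generalize 2 * s - s ^ 2 = σ at *
  -- c (α - β)² ≤ σ α² = c (1 - σ β) α²
  have h4 : c * (α - β) ^ 2 ≤ c * ((1 - σ * β) * α ^ 2) := by
    apply mul_le_mul_of_nonneg_left _ hbe.le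
    have hα : 0 ≤ α := hb2.trans hb3
    have hσα : σ * α ≤ 1 := by nlinarith
    nlinarith [mul_nonneg hb2 (sub_nonneg.2 hb3), mul_nonneg (mul_nonneg hb2 hα) (sub_nonneg.2 hσα)]
  have h5 : c * ((1 - σ * β) * α ^ 2) = σ * α ^ 2 := by rw [← mul_assoc, hc]
  linarith

/-- `T w_j` lies in the tilted subspace -/
lemma Tw_mem {i j : ℕ} (hij : i ≤ j) : Ts v s (V.P j v) ∈ (V.rot v s).M i :=
  Submodule.mem_map_of_mem (V.anti hij (P_mem V j v))

/-- the vectors of the noise -/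
lemma rot_H_Hi {i j : ℕ} (hin : i ≤ V.n) (hij : i ≤ j) :
    (V.rot v s).H i ((V.rot v s).Hi i (Ts v s (V.P j v))) = Ts v s (V.P j v) := by
  rw [H_Hi (V.rot v s) hin]
  exact P_of_mem (V.rot v s) (Tw_mem V hv hs0 hs1 hsb hij)

/-- `X_i = Σ_{l > i} th^{-2(l-i)} b_l` -/
noncomputable def XX (V : Flag E) (v : E) (i : ℕ) : ℝ :=
  ∑ l ∈ Finset.Ico (i + 1) V.n, (th⁻¹) ^ (2 * (l - i)) * V.b v l

omit hv hs0 hs1 hsb in
lemma XX_le_BB (i : ℕ) : XX V v i ≤ BB V v i := by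
  unfold XX BB
  apply Finset.sum_le_sum
  intro l _
  apply mul_le_mul_of_nonneg_right _ (b_nonneg V l)
  rw [pow_mul]
  apply pow_le_pow_left₀ (by unfold th; norm_num)
  unfold th; norm_num

omit hv hs0 hs1 hsb in
lemma XX_nonneg (i : ℕ) : 0 ≤ XX V v i := by
  unfold XX
  apply Finset.sum_nonneg
  intro l _
  have := th_pos
  have := b_nonneg V (v := v) l
  positivity

/-- norm of the noise vectors -/
lemma norm_Hi_Tw {i j : ℕ} (hij : i < j) :
    ‖(V.rot v s).Hi i (Ts v s (V.P j v))‖ ^ 2 ≤ XX V v i := by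
  have hth := th_pos
  set W := V.rot v s with hW
  set y := Ts v s (V.P j v) with hy
  have hn : W.n = V.n := rfl
  rw [Hi_eq, FlagAlg557.Hi, FlagAlg557.norm_comb_sq W.anti]
  have hyM : y ∈ W.M j := Tw_mem V hv hs0 hs1 hsb le_rfl
  -- terms below j vanish
  have h1 : ∀ l ∈ Finset.Ico i W.n, ((th ^ (l - i))⁻¹) ^ 2 * ‖FlagAlg557.Q W.M l y‖ ^ 2
      ≤ if j ≤ l then (th⁻¹) ^ (2 * (l - i)) * V.b v l else 0 := by
    intro l hl
    split_ifs with hjl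
    · have e1 : ((th ^ (l - i))⁻¹) ^ 2 = (th⁻¹) ^ (2 * (l - i)) := by
        rw [← inv_pow, ← pow_mul, mul_comm]
      rw [e1]
      apply mul_le_mul_of_nonneg_left _ (by positivity)
      have h2 : ‖FlagAlg557.Q W.M l y‖ ^ 2 = ‖W.P l y‖ ^ 2 - ‖W.P (l + 1) y‖ ^ 2 := norm_Q_sq W l y
      rw [h2]
      have h3 := rot_P_Tw V hv hs0 hs1 hsb hjl
      have h4 := sq_nonneg ‖W.P (l + 1) y‖
      linarith
    · have h2 : FlagAlg557.Q W.M l y = 0 := by
        rw [FlagAlg557.Q_apply]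
        have e1 : FlagAlg557.P W.M l y = y := P_of_mem W (W.anti (by omega) hyM)
        have e2 : FlagAlg557.P W.M (l + 1) y = y := P_of_mem W (W.anti (by omega) hyM)
        rw [e1, e2, sub_self]
      rw [h2]; simp
  refine (Finset.sum_le_sum h1).trans ?_
  rw [← Finset.sum_filter]
  unfold XX
  apply Finset.sum_le_sum_of_subset_of_nonneg
  · intro l hl
    have := Finset.mem_filter.1 hl
    have h3 := Finset.mem_Ico.1 this.1
    exact Finset.mem_Ico.2 ⟨by omega, by rw [← hn]; exact h3.2⟩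
  · intro l _ _
    have := b_nonneg V (v := v) l
    positivity

/-- weights of the noise: `c_j = σ_{j-i} be_j + [j = i+1] be_i` -/
noncomputable def cw (V : Flag E) (v : E) (s : ℝ) (i j : ℕ) : ℝ :=
  (th ^ (2 * (j - i - 1)) - th ^ (2 * (j - i))) * be V v s j + if j = i + 1 then be V v s i else 0

omit hv hs0 hs1 hsb in
lemma sg_nonneg (m : ℕ) : 0 ≤ th ^ (2 * (m - 1)) - th ^ (2 * m) := by
  have : th ^ (2 * m) ≤ th ^ (2 * (m - 1)) := by
    apply pow_le_pow_of_le_one th_pos.le th_lt.le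
    omega
  linarith

lemma cw_nonneg (i j : ℕ) : 0 ≤ cw V v s i j := by
  unfold cw
  have h1 := sg_nonneg (j - i)
  have h2 := be_pos V hv hs0 hs1 hsb j
  have h3 := be_pos V hv hs0 hs1 hsb i
  split_ifs <;> positivity

omit hv hs0 hs1 hsb in
lemma sum_sg {i m : ℕ} (h : i + 1 ≤ m) :
    ∑ j ∈ Finset.Ico (i + 1) m, (th ^ (2 * (j - i - 1)) - th ^ (2 * (j - i)))
      = 1 - th ^ (2 * (m - 1 - i)) := by
  induction m, h using Nat.le_induction with
  | base => simp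
  | succ m hm ih =>
    rw [Finset.sum_Ico_succ_top (by omega), ih]
    have e1 : m + 1 - 1 - i = m - i := by omega
    have e2 : m - 1 - i = m - i - 1 := by omega
    rw [e1, e2]; ring

lemma sum_cw {i : ℕ} (h : i < V.n) :
    ∑ j ∈ Finset.Ico (i + 1) (V.n + 1), cw V v s i j ≤ 4 * (2 * s - s ^ 2) := by
  unfold cw
  rw [Finset.sum_add_distrib]
  have h1 : ∑ j ∈ Finset.Ico (i + 1) (V.n + 1),
      (th ^ (2 * (j - i - 1)) - th ^ (2 * (j - i))) * be V v s j ≤ 2 * (2 * s - s ^ 2) := by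
    calc ∑ j ∈ Finset.Ico (i + 1) (V.n + 1),
          (th ^ (2 * (j - i - 1)) - th ^ (2 * (j - i))) * be V v s j
        ≤ ∑ j ∈ Finset.Ico (i + 1) (V.n + 1),
          (th ^ (2 * (j - i - 1)) - th ^ (2 * (j - i))) * (2 * (2 * s - s ^ 2)) := by
          apply Finset.sum_le_sum
          intro j _
          exact mul_le_mul_of_nonneg_left (be_le V hv hs0 hs1 hsb j) (sg_nonneg (j - i))
      _ = (1 - th ^ (2 * (V.n + 1 - 1 - i))) * (2 * (2 * s - s ^ 2)) := by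
          rw [← Finset.sum_mul, sum_sg (by omega)]
      _ ≤ 2 * (2 * s - s ^ 2) := by
          have := sb_pos hv hs0 hs1 hsb
          have h2 : 0 ≤ th ^ (2 * (V.n + 1 - 1 - i)) := pow_nonneg th_pos.le _
          nlinarith
  have h2 : ∑ j ∈ Finset.Ico (i + 1) (V.n + 1), (if j = i + 1 then be V v s i else 0)
      = be V v s i := by
    rw [Finset.sum_ite_eq' (Finset.Ico (i + 1) (V.n + 1)) (i + 1)]
    rw [if_pos (Finset.mem_Ico.2 ⟨le_rfl, by omega⟩)]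
  rw [h2]
  have h3 := be_le V hv hs0 hs1 hsb i
  linarith

/-- main covariance inequality: `n` a unit vector with `H_i n = n` -/
lemma cov_ineq {i : ℕ} (h : i < V.n) {n : E} {τ : ℝ}
    (hn : ∀ y, τ * ⟪n, y⟫ ^ 2 ≤ be V v s i * ⟪V.P i v, y⟫ ^ 2 + be V v s i * ⟪V.P (i + 1) v, y⟫ ^ 2)
    (t : E) :
    ‖V.H i (Ts v s t)‖ ^ 2 + τ * ⟪n, Ts v s t⟫ ^ 2
      ≤ ‖(V.rot v s).H i t‖ ^ 2
        + ∑ j ∈ Finset.Ico (i + 1) (V.n + 1), cw V v s i j * ⟪Ts v s (V.P j v), t⟫ ^ 2 := by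
  set y := Ts v s t with hy
  have hT : ∀ x, ⟪Ts v s x, t⟫ = ⟪x, y⟫ := by
    intro x
    rw [hy, ← ContinuousLinearMap.adjoint_inner_right, Ts_adj]
  simp_rw [hT]
  rw [norm_H_sq V h, norm_H_sq (V.rot v s) h]
  simp_rw [rot_norm V hv hs0 hs1 hsb]
  rw [← hy]
  have hn' : (V.rot v s).n = V.n := rfl
  rw [hn']
  have hs1 : ∑ j ∈ Finset.Ico (i + 1) (V.n + 1), cw V v s i j * ⟪V.P j v, y⟫ ^ 2
      = ∑ j ∈ Finset.Ico (i + 1) V.n, (th ^ (2 * (j - i - 1)) - th ^ (2 * (j - i))) *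
          (be V v s j * ⟪V.P j v, y⟫ ^ 2) + be V v s i * ⟪V.P (i + 1) v, y⟫ ^ 2 := by
    unfold cw
    simp_rw [add_mul]
    rw [Finset.sum_add_distrib, Finset.sum_Ico_succ_top (by omega), P_n]
    have h2 : ∑ j ∈ Finset.Ico (i + 1) (V.n + 1), (if j = i + 1 then be V v s i else 0) *
        ⟪V.P j v, y⟫ ^ 2 = be V v s i * ⟪V.P (i + 1) v, y⟫ ^ 2 := by
      rw [Finset.sum_eq_single (i + 1)]
      · simp
      · intro b _ hb
        simp [hb]
      · intro hb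
        exact absurd (Finset.mem_Ico.2 ⟨le_rfl, by omega⟩) hb
    rw [h2]
    simp only [inner_zero_left]
    have h3 : ∀ j ∈ Finset.Ico (i + 1) V.n,
        (th ^ (2 * (j - i - 1)) - th ^ (2 * (j - i))) * be V v s j * ⟪V.P j v, y⟫ ^ 2
        = (th ^ (2 * (j - i - 1)) - th ^ (2 * (j - i))) * (be V v s j * ⟪V.P j v, y⟫ ^ 2) :=
      fun j _ => by ring
    rw [Finset.sum_congr rfl h3]
    ring
  rw [hs1]
  simp_rw [mul_add]
  rw [Finset.sum_add_distrib]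
  have := hn y
  linarith

end Crest.Agent.R239.Lv614
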