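import Crest.Agent.R239.Lv2_303
import Crest.Agent.R239.Dom_640

/-! R239 (helper303), flag algebra for `Target_LEV`, part 2: error vectors in `g`-space, their
total size, the gauge comparison and its Gaussian mean. -/

set_option autoImplicit false
set_option linter.unusedSectionVars false
open MeasureTheory ProbabilityTheory Set
open scoped RealInnerProductSpace ENNReal NNReal

namespace Crest.Agent.R239.Lv303

open Crest.Agent.R239 (gau)
open Crest.Agent.R239.FD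

variable {E : Type*} [NormedAddCommGroup E] [InnerProductSpace ℝ E] [FiniteDimensional ℝ E]

variable (V : Flag E) {v : E} (hv : ‖v‖ = 1) {s : ℝ} (hs0 : 0 < s) (hs1 : s < 1)

/-- index set of the error vectors -/
def JJ (V : Flag E) (i : ℕ) : Finset (ℕ ⊕ ℕ) :=
  (Finset.Ico (i + 1) V.n).disjSum (Finset.Ico (i + 1) V.n)

/-- error vectors -/
noncomputable def uu (V : Flag E) (v : E) (sb : ℝ) (i : ℕ) : ℕ ⊕ ℕ → E
  | Sum.inl j => √(sb * al (j - i)) • V.H i (V.P j v)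
  | Sum.inr j => √(sb * FlagAlg557.om th (j - i) * cj V v sb j) • V.H i (v - V.P j v)

lemma inner_H_comm (i : ℕ) (x y : E) : ⟪V.H i x, y⟫ = ⟪x, V.H i y⟫ :=
  FlagAlg557.inner_comb_comm _ _ _ _ _

lemma al_nn (m : ℕ) : 0 ≤ al m := by
  unfold al
  have := om_nn m
  positivity

include hv hs0 hs1 in
lemma cj_nn (j : ℕ) : 0 ≤ cj V v (2 * s - s ^ 2) j := by
  unfold cj
  have h1 := den_pos V hv hs0 hs1 j
  have h2 : 0 < 2 * s - s ^ 2 := by nlinarith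
  positivity

lemma Hi_H {i : ℕ} (hi : i ≤ V.n) (g : E) : V.Hi i (V.H i g) = V.P i g := by
  rw [Hi_eq, H_eq]
  exact FlagAlg557.Hi_H V.anti th_pos hi (botn V) g

lemma norm_P_le (j : ℕ) (g : E) : ‖V.P j g‖ ≤ ‖g‖ := (V.M j).norm_starProjection_apply_le g

lemma H_Q_self {i : ℕ} (hi : i < V.n) (x : E) : V.H i (V.Q i x) = V.Q i x := by
  have h := FlagAlg557.comb_Q V.anti (i := i) (n := V.n) (j := i) (Finset.mem_Ico.2 ⟨le_rfl, hi⟩)
    (fun j => th ^ (j - i)) x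
  simp only [Nat.sub_self, pow_zero, one_smul] at h
  exact h

include hv hs0 hs1 in
/-- **the form comparison in `g`-space** -/
theorem RR_ineq {i : ℕ} (hi : i < V.n) (g : E) :
    ‖RR V v s i g‖ ^ 2 + (2 * s - s ^ 2) / 4 * ⟪V.Q i v, g⟫ ^ 2
      ≤ ‖g‖ ^ 2 + ∑ k ∈ JJ V i, ⟪uu V v (2 * s - s ^ 2) i k, g⟫ ^ 2 := by
  have h := prec_ineq V hv hs0 hs1 hi (H_mem V i g)
  rw [Hi_H V hi.le] at h
  have e1 : ⟪V.Q i v, V.H i g⟫ = ⟪V.Q i v, g⟫ := by
    rw [← inner_H_comm, H_Q_self V hi]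
  rw [e1, ← RR_apply] at h
  have h2 : ‖V.P i g‖ ^ 2 ≤ ‖g‖ ^ 2 := pow_le_pow_left₀ (norm_nonneg _) (norm_P_le V i g) 2
  have hsb : 0 < 2 * s - s ^ 2 := by nlinarith
  have e3 : ∑ k ∈ JJ V i, ⟪uu V v (2 * s - s ^ 2) i k, g⟫ ^ 2
      = ∑ j ∈ Finset.Ico (i + 1) V.n,
        ((2 * s - s ^ 2) * al (j - i) * ⟪V.P j v, V.H i g⟫ ^ 2
          + (2 * s - s ^ 2) * FlagAlg557.om th (j - i) * cj V v (2 * s - s ^ 2) j
            * ⟪v - V.P j v, V.H i g⟫ ^ 2) := by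
    unfold JJ
    rw [Finset.sum_disjSum, ← Finset.sum_add_distrib]
    refine Finset.sum_congr rfl fun j _ => ?_
    have a1 : 0 ≤ (2 * s - s ^ 2) * al (j - i) := mul_nonneg hsb.le (al_nn _)
    have a2 : 0 ≤ (2 * s - s ^ 2) * FlagAlg557.om th (j - i) * cj V v (2 * s - s ^ 2) j :=
      mul_nonneg (mul_nonneg hsb.le (om_nn _)) (cj_nn V hv hs0 hs1 j)
    simp only [uu, inner_smul_left, inner_H_comm, conj_trivial, mul_pow, Real.sq_sqrt a1,
      Real.sq_sqrt a2]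
  rw [e3]
  linarith

include hv in
lemma norm_sub_P_le (j : ℕ) : ‖v - V.P j v‖ ^ 2 ≤ 1 := by
  have h := FlagAlg557.norm_H_sub_sq_le (M := V.M) V.anti th_pos
  have h1 : ‖v - V.P j v‖ ^ 2 = ‖v‖ ^ 2 - ‖V.P j v‖ ^ 2 := ProjRot557.norm_P_sub_sq (V.M j) v
  rw [h1, hv]
  nlinarith [sq_nonneg ‖V.P j v‖]

lemma norm_H_le' {i : ℕ} (x : E) : ‖V.H i x‖ ≤ ‖x‖ := by
  rw [H_eq]
  exact (FlagAlg557.norm_H_le V.anti th_pos th_le V.n i (botn V) x).trans (norm_P_le V i x)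

lemma norm_H_P {i j : ℕ} (hij : i ≤ j) (hj : j ≤ V.n) (x : E) :
    ‖V.H i (V.P j x)‖ ^ 2 ≤ (16 / 25) ^ (j - i) * ‖V.P j x‖ ^ 2 := by
  have h := FlagAlg557.norm_H_P_le V.anti th_pos th_le hij hj (botn V) x
  have h2 : ‖V.H i (V.P j x)‖ ^ 2 ≤ (th ^ (j - i) * ‖V.P j x‖) ^ 2 :=
    pow_le_pow_left₀ (norm_nonneg _) h 2
  rw [mul_pow, ← pow_mul, mul_comm (j - i) 2, pow_mul] at h2
  have : th ^ 2 = 16 / 25 := by unfold th; norm_num
  rwa [this] at h2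

include hv hs0 hs1 in
/-- **total size of the error vectors** -/
theorem uu_size (hsb : 2 * s - s ^ 2 ≤ 1 / 2) {i : ℕ} (_hi : i < V.n) :
    ∑ k ∈ JJ V i, ‖uu V v (2 * s - s ^ 2) i k‖ ^ 2 ≤ 2 * (2 * s - s ^ 2) * BB V v i := by
  set sb : ℝ := 2 * s - s ^ 2 with hsbdef
  have sb0 : 0 < sb := by rw [hsbdef]; nlinarith
  unfold JJ BB
  rw [Finset.sum_disjSum, ← Finset.sum_add_distrib, Finset.mul_sum]
  refine Finset.sum_le_sum fun j hj => ?_
  have hj1 := (Finset.mem_Ico.1 hj).1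
  have hj2 := (Finset.mem_Ico.1 hj).2
  have hm : 1 ≤ j - i := by omega
  have a1 : 0 ≤ sb * al (j - i) := mul_nonneg sb0.le (al_nn _)
  have hc0 : 0 ≤ cj V v sb j := cj_nn V hv hs0 hs1 j
  have a2 : 0 ≤ sb * FlagAlg557.om th (j - i) * cj V v sb j :=
    mul_nonneg (mul_nonneg sb0.le (om_nn _)) hc0
  simp only [uu, norm_smul, mul_pow, Real.norm_eq_abs, sq_abs, Real.sq_sqrt a1, Real.sq_sqrt a2]
  unfold Flag.b
  set b : ℝ := ‖V.P j v‖ ^ 2 with hb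
  have hb0 : 0 ≤ b := sq_nonneg _
  have hb1 : b ≤ 1 := norm_P_le_one V hv j
  set X : ℝ := (25 / 8 : ℝ) ^ (j - i) with hX
  set Y : ℝ := (16 / 25 : ℝ) ^ (j - i) with hY
  set Z : ℝ := (25 / 16 : ℝ) ^ (j - i) with hZ
  have hX1 : 25 / 8 ≤ X := by
    have := pow_le_pow_right₀ (show (1:ℝ) ≤ 25 / 8 by norm_num) hm
    rwa [pow_one] at this
  have hY0 : 0 < Y := by positivity
  have hY1 : Y ≤ 16 / 25 := by
    have := pow_le_pow_of_le_one (show (0:ℝ) ≤ 16 / 25 by norm_num) (by norm_num) hm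
    rwa [pow_one] at this
  have hZY : Z * Y = 1 := by rw [hZ, hY, ← mul_pow]; norm_num
  have hZX : Z ≤ 1 / 2 * X := by
    have e : Z = (1 / 2) ^ (j - i) * X := by rw [hZ, hX, ← mul_pow]; norm_num
    rw [e]
    have h12 : ((1:ℝ) / 2) ^ (j - i) ≤ 1 / 2 := by
      have := pow_le_pow_of_le_one (show (0:ℝ) ≤ 1 / 2 by norm_num) (by norm_num) hm
      rwa [pow_one] at this
    exact mul_le_mul_of_nonneg_right h12 (by linarith)
  have hZ0 : 0 < Z := by positivity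
  have hc1 : cj V v sb j ≤ b := by
    unfold cj
    rw [← hb, div_le_iff₀ (by nlinarith)]
    nlinarith [mul_nonneg sb0.le hb0]
  have h1 : ‖V.H i (V.P j v)‖ ^ 2 ≤ Y * b := norm_H_P V (by omega) hj2.le v
  have h2 : ‖V.H i (v - V.P j v)‖ ^ 2 ≤ 1 :=
    (pow_le_pow_left₀ (norm_nonneg _) (norm_H_le' V _) 2).trans (norm_sub_P_le V hv j)
  have hal : al (j - i) = Z * (9 / 25) * (1 + 2 * X) + 1 / 2 := by
    unfold al; rw [om_val hm]
  have hom : FlagAlg557.om th (j - i) = Z * (9 / 25) := om_val hm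
  have t1 : sb * al (j - i) * ‖V.H i (V.P j v)‖ ^ 2 ≤ sb * X * b := by
    refine (mul_le_mul_of_nonneg_left h1 a1).trans ?_
    rw [hal]
    have e : sb * (Z * (9 / 25) * (1 + 2 * X) + 1 / 2) * (Y * b)
        = sb * b * ((Z * Y) * (9 / 25) * (1 + 2 * X) + Y / 2) := by ring
    rw [e, hZY]
    have : 1 * (9 / 25) * (1 + 2 * X) + Y / 2 ≤ X := by linarith
    calc sb * b * (1 * (9 / 25) * (1 + 2 * X) + Y / 2) ≤ sb * b * X :=
          mul_le_mul_of_nonneg_left this (mul_nonneg sb0.le hb0)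
      _ = sb * X * b := by ring
  have t2 : sb * FlagAlg557.om th (j - i) * cj V v sb j * ‖V.H i (v - V.P j v)‖ ^ 2
      ≤ sb * X * b := by
    refine (mul_le_mul_of_nonneg_left h2 a2).trans ?_
    rw [hom, mul_one]
    calc sb * (Z * (9 / 25)) * cj V v sb j ≤ sb * (Z * (9 / 25)) * b :=
          mul_le_mul_of_nonneg_left hc1 (by positivity)
      _ ≤ sb * X * b := by
          have : Z * (9 / 25) ≤ X := by linarith
          have h9 : sb * (Z * (9 / 25)) ≤ sb * X := mul_le_mul_of_nonneg_left this sb0.le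
          exact mul_le_mul_of_nonneg_right h9 hb0
  calc _ ≤ sb * X * b + sb * X * b := add_le_add t1 t2
    _ = 2 * sb * (X * b) := by ring

/-! ### the gauge -/

/-- square root of `H i` -/
noncomputable def XX (V : Flag E) (i : ℕ) : E →L[ℝ] E :=
  FlagAlg557.comb V.M i V.n fun j => √(th ^ (j - i))

lemma N_H (i : ℕ) (g : E) : V.N i (V.H i g) = ‖XX V i g‖ ^ 2 := by
  unfold Flag.N XX
  rw [FlagAlg557.norm_comb_sq V.anti]
  refine Finset.sum_congr rfl fun j hj => ?_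
  have h1 : V.Q j (V.H i g) = th ^ (j - i) • V.Q j g :=
    FlagAlg557.Q_comb V.anti hj (fun j => th ^ (j - i)) g
  have h2 : FlagAlg557.Q V.M j g = V.Q j g := rfl
  have hp : 0 < th ^ (j - i) := pow_pos th_pos _
  rw [h1, h2, Real.sq_sqrt hp.le, norm_smul, mul_pow, Real.norm_eq_abs, sq_abs, inv_pow]
  field_simp

/-- pointwise: the old gauge is controlled by the new one -/
lemma Hi_inner_abel (t : ℝ) {i : ℕ} (hi : i < V.n) (x y : E) :
    ⟪FlagAlg557.Hi V.M t V.n i x, FlagAlg557.Hi V.M t V.n i y⟫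
      = ⟪V.P i x, V.P i y⟫
        + ∑ j ∈ Finset.Ico (i + 1) V.n, FlagAlg557.om t (j - i) * ⟪V.P j x, V.P j y⟫ := by
  have h1 := phi_eq V t hi (x + y)
  have h2 := phi_eq V t hi x
  have h3 := phi_eq V t hi y
  rw [map_add] at h1
  rw [norm_add_sq_real] at h1
  have e : ∀ j, ‖V.P j (x + y)‖ ^ 2 = ‖V.P j x‖ ^ 2 + 2 * ⟪V.P j x, V.P j y⟫ + ‖V.P j y‖ ^ 2 := by
    intro j; rw [map_add, norm_add_sq_real]
  simp only [e, mul_add, Finset.sum_add_distrib] at h1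
  have e2 : ∑ j ∈ Finset.Ico (i + 1) V.n, FlagAlg557.om t (j - i) * (2 * ⟪V.P j x, V.P j y⟫)
      = 2 * ∑ j ∈ Finset.Ico (i + 1) V.n, FlagAlg557.om t (j - i) * ⟪V.P j x, V.P j y⟫ := by
    rw [Finset.mul_sum]
    exact Finset.sum_congr rfl fun j _ => by ring
  rw [e2] at h1
  linarith

lemma inner_P_P (j : ℕ) (x y : E) : ⟪V.P j x, V.P j y⟫ = ⟪V.P j x, y⟫ := by
  have := ProjRot557.inner_P_P (V.M j) x y
  exact this

include hv hs0 hs1 in
theorem N_ineq {i : ℕ} (hi : i < V.n) {x : E} (hx : x ∈ V.M i) :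
    (1 - (2 * s - s ^ 2) * V.N i v) * V.N i x ≤ (V.rot v s).N i (Ts v s x) := by
  set sb : ℝ := 2 * s - s ^ 2 with hsbdef
  have sb0 : 0 < sb := by rw [hsbdef]; nlinarith
  have ht1 : √th ≤ 1 := by
    rw [Real.sqrt_le_left (by norm_num)]; simpa using th_le
  have ht0 : 0 < √th := Real.sqrt_pos.2 th_pos
  have omn : ∀ m, 0 ≤ FlagAlg557.om (√th) m := fun m => FlagAlg557.om_nonneg ht0 ht1 m
  have hcs : ⟪FlagAlg557.Hi V.M (√th) V.n i v, FlagAlg557.Hi V.M (√th) V.n i x⟫ ^ 2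
      ≤ V.N i v * V.N i x := by
    rw [N_eq, N_eq, ← mul_pow, ← sq_abs]
    exact pow_le_pow_left₀ (abs_nonneg _) (abs_real_inner_le_norm _ _) 2
  rw [Hi_inner_abel V _ hi] at hcs
  have eP : V.P i x = x := P_of_mem V hx
  have e0 : ⟪V.P i v, V.P i x⟫ = ⟪v, x⟫ := by
    have h9 := FlagAlg557.inner_P_comm' (M := V.M) i v x
    rw [show FlagAlg557.P V.M i = V.P i from rfl] at h9
    rw [inner_P_P, h9, eP]
  simp only [inner_P_P] at hcs
  rw [← inner_P_P, e0] at hcs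
  have hrot := phi_rot V hv hs0 hs1 (√th) hi hx
  rw [← N_eq V, ← N_eq (V.rot v s), ← hsbdef] at hrot
  rw [hrot]
  set ξ : ℝ := ⟪v, x⟫ with hξ
  set Y : ℝ := ∑ j ∈ Finset.Ico (i + 1) V.n, FlagAlg557.om (√th) (j - i) * ⟪V.P j v, x⟫ with hY
  have hlow : -(2 * sb * ξ * Y) ≤ ∑ j ∈ Finset.Ico (i + 1) V.n, FlagAlg557.om (√th) (j - i) *
          (-(sb * ξ ^ 2) + sb * (ξ - ⟪V.P j v, x⟫) ^ 2 / (1 - sb * ‖V.P j v‖ ^ 2)) := by
    rw [hY, Finset.mul_sum, ← Finset.sum_neg_distrib]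
    refine Finset.sum_le_sum fun j _ => ?_
    have hd := den_pos V hv hs0 hs1 j
    rw [← hsbdef] at hd
    have h1 : sb * (ξ - ⟪V.P j v, x⟫) ^ 2 ≤ sb * (ξ - ⟪V.P j v, x⟫) ^ 2 / (1 - sb * ‖V.P j v‖ ^ 2) := by
      rw [le_div_iff₀ hd]
      have : 0 ≤ sb * (ξ - ⟪V.P j v, x⟫) ^ 2 * (sb * ‖V.P j v‖ ^ 2) := by positivity
      nlinarith
    have h2 : -(2 * sb * ξ * (FlagAlg557.om (√th) (j - i) * ⟪V.P j v, x⟫))
        = FlagAlg557.om (√th) (j - i) * (-(2 * sb * ξ * ⟪V.P j v, x⟫)) := by ring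
    rw [h2]
    refine mul_le_mul_of_nonneg_left ?_ (omn _)
    nlinarith [mul_nonneg sb0.le (sq_nonneg ⟪V.P j v, x⟫)]
  have hsq : sb * (ξ + Y) ^ 2 ≤ sb * (V.N i v * V.N i x) := mul_le_mul_of_nonneg_left hcs sb0.le
  nlinarith [mul_nonneg sb0.le (sq_nonneg Y)]

lemma N_le (i : ℕ) (hi : i < V.n) : V.N i v ≤ V.b v i + BB V v i := by
  unfold Flag.N BB Flag.b
  rw [Finset.sum_eq_sum_Ico_succ_bot hi]
  have hQ : ∀ j, ‖V.Q j v‖ ^ 2 ≤ ‖V.P j v‖ ^ 2 := by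
    intro j
    have := FlagAlg557.norm_Q_sq' V.anti j v
    have e : ‖V.Q j v‖ ^ 2 = ‖V.P j v‖ ^ 2 - ‖V.P (j + 1) v‖ ^ 2 := this
    nlinarith [sq_nonneg ‖V.P (j + 1) v‖]
  refine add_le_add ?_ (Finset.sum_le_sum fun j hj => ?_)
  · simpa using hQ i
  · have h1 : (th⁻¹) ^ (j - i) ≤ (25 / 8 : ℝ) ^ (j - i) := by
      refine pow_le_pow_left₀ (by unfold th; norm_num) (by unfold th; norm_num) _
    exact mul_le_mul h1 (hQ j) (sq_nonneg _) (by positivity)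

section meas
variable [MeasurableSpace E] [BorelSpace E]

lemma integral_Q_sq (j : ℕ) : ∫ g, ‖V.Q j g‖ ^ 2 ∂(stdGaussian E) = (V.k j : ℝ) := by
  have h := Caps171.integral_blk_sq (E := E) (V.anti (Nat.le_succ j))
  unfold Flag.k
  rw [Nat.cast_sub (Submodule.finrank_mono (V.anti (Nat.le_succ j)))]
  exact h

/-- **Gaussian mean of the gauge** -/
theorem integral_XX (i : ℕ) : ∫ g, ‖XX V i g‖ ^ 2 ∂(stdGaussian E) = V.rr i := by
  have h1 : ∀ g, ‖XX V i g‖ ^ 2 = ∑ j ∈ Finset.Ico i V.n, th ^ (j - i) * ‖V.Q j g‖ ^ 2 := by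
    intro g
    unfold XX
    rw [FlagAlg557.norm_comb_sq V.anti]
    refine Finset.sum_congr rfl fun j _ => ?_
    rw [Real.sq_sqrt (pow_pos th_pos _).le]
    rfl
  simp only [h1]
  rw [integral_finsetSum]
  · unfold Flag.rr
    refine Finset.sum_congr rfl fun j _ => ?_
    rw [integral_const_mul, integral_Q_sq]
  · intro j _
    exact (Dom640.integrable_norm_sq (V.Q j)).const_mul _

end meas

end Crest.Agent.R239.Lv303
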