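import Crest.Agent.R239.Lv1_303
import Crest.Agent.R239.Lv2b_303

/-! R239 (helper303), the one-level inequality for `D` (FDef, ellipsoidal cap). -/

set_option autoImplicit false
set_option linter.unusedSectionVars false
open MeasureTheory ProbabilityTheory Set
open scoped RealInnerProductSpace ENNReal NNReal

namespace Crest.Agent.R239.Lv303

open Crest.Agent.R239 (gau)
open Crest.Agent.R239.FD

variable {E : Type*} [NormedAddCommGroup E] [InnerProductSpace ℝ E] [FiniteDimensional ℝ E]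

/-! ### the cap -/

lemma norm_sq_le_N (V : Flag E) {i : ℕ} (hi : i < V.n) {x : E} (hx : x ∈ V.M i) :
    ‖x‖ ^ 2 ≤ V.N i x := by
  have h1 := FlagAlg557.norm_P_sq_sum V.anti hi.le (botn V) x
  have h2 : FlagAlg557.P V.M i x = x := FlagAlg557.P_of_mem hx
  rw [h2] at h1
  rw [h1]
  unfold Flag.N
  refine Finset.sum_le_sum fun j _ => ?_
  have h3 : (1:ℝ) ≤ (th⁻¹) ^ (j - i) := one_le_pow₀ (by unfold th; norm_num)
  have h4 : FlagAlg557.Q V.M j x = V.Q j x := rfl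
  rw [h4]
  nlinarith [sq_nonneg ‖V.Q j x‖]

lemma rr_nonneg (V : Flag E) (i : ℕ) : 0 ≤ V.rr i :=
  Finset.sum_nonneg fun j _ => mul_nonneg (pow_pos th_pos _).le (Nat.cast_nonneg _)

lemma cap_norm_le (V : Flag E) {rho : ℝ} {i : ℕ} (hi : i < V.n) {x : E} (hx : x ∈ V.cap rho i) :
    ‖x‖ ^ 2 ≤ rho ^ 2 * V.rr i := (norm_sq_le_N V hi hx.1).trans hx.2

lemma continuous_N (V : Flag E) (i : ℕ) : Continuous (V.N i) := by
  have : V.N i = fun x => ‖FlagAlg557.Hi V.M (√th) V.n i x‖ ^ 2 := by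
    funext x; exact N_eq V i x
  rw [this]
  fun_prop

lemma isClosed_M (V : Flag E) (i : ℕ) : IsClosed {x : E | x ∈ V.M i} :=
  (V.M i).closed_of_finiteDimensional

lemma isClosed_cap (V : Flag E) (rho : ℝ) (i : ℕ) : IsClosed (V.cap rho i) := by
  have : V.cap rho i = {x : E | x ∈ V.M i} ∩ {x | V.N i x ≤ rho ^ 2 * V.rr i} := rfl
  rw [this]
  exact (isClosed_M V i).inter (isClosed_le (continuous_N V i) continuous_const)

lemma N_half (V : Flag E) (i : ℕ) {a b : ℝ} (ha : 0 ≤ a) (hb : 0 ≤ b) (hab : a + b = 1) (x y : E) :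
    V.N i (a • x + b • y) ≤ a * V.N i x + b * V.N i y := by
  rw [N_eq, N_eq, N_eq, map_add, map_smul, map_smul]
  set x' := FlagAlg557.Hi V.M (√th) V.n i x
  set y' := FlagAlg557.Hi V.M (√th) V.n i y
  have h1 : ‖a • x' + b • y'‖ ≤ a * ‖x'‖ + b * ‖y'‖ := by
    refine (norm_add_le _ _).trans (le_of_eq ?_)
    rw [norm_smul, norm_smul, Real.norm_of_nonneg ha, Real.norm_of_nonneg hb]
  have h2 : ‖a • x' + b • y'‖ ^ 2 ≤ (a * ‖x'‖ + b * ‖y'‖) ^ 2 :=
    pow_le_pow_left₀ (norm_nonneg _) h1 2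
  have hb' : b = 1 - a := by linarith
  subst hb'
  nlinarith [mul_nonneg (mul_nonneg ha hb) (sq_nonneg (‖x'‖ - ‖y'‖))]

lemma convex_cap (V : Flag E) (rho : ℝ) (i : ℕ) : Convex ℝ (V.cap rho i) := by
  intro x hx y hy a b ha hb hab
  refine ⟨(V.M i).add_mem ((V.M i).smul_mem a hx.1) ((V.M i).smul_mem b hy.1), ?_⟩
  have h := N_half V i ha hb hab x y
  have h1 : a * V.N i x ≤ a * (rho ^ 2 * V.rr i) := mul_le_mul_of_nonneg_left hx.2 ha
  have h2 : b * V.N i y ≤ b * (rho ^ 2 * V.rr i) := mul_le_mul_of_nonneg_left hy.2 hb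
  have h3 : a * (rho ^ 2 * V.rr i) + b * (rho ^ 2 * V.rr i) = rho ^ 2 * V.rr i := by
    rw [← add_mul, hab, one_mul]
  show V.N i (a • x + b • y) ≤ rho ^ 2 * V.rr i
  linarith

lemma N_neg (V : Flag E) (i : ℕ) (x : E) : V.N i (-x) = V.N i x := by
  rw [N_eq, N_eq, map_neg, norm_neg]

lemma symm_cap (V : Flag E) (rho : ℝ) (i : ℕ) : ∀ x ∈ V.cap rho i, -x ∈ V.cap rho i := by
  intro x hx
  exact ⟨(V.M i).neg_mem hx.1, by show V.N i (-x) ≤ _; rw [N_neg]; exact hx.2⟩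

section meas
variable [MeasurableSpace E] [BorelSpace E]

/-! ### soft API -/

lemma gau_real (V : Flag E) (i : ℕ) {K : Set E} (hK : IsClosed K) :
    (gau (V.H i)).real K = (stdGaussian E).real (V.H i ⁻¹' K) :=
  gau_real_apply _ hK.measurableSet

variable {p : Par} {V : Flag E} {i : ℕ} {K : Set E}

lemma Adm.closed (h : Adm p V i K) : IsClosed K := h.1
lemma Adm.conv (h : Adm p V i K) : Convex ℝ K := h.2.1
lemma Adm.symm (h : Adm p V i K) : ∀ x ∈ K, -x ∈ K := h.2.2.1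
lemma Adm.sub (h : Adm p V i K) : K ⊆ V.cap p.rho i := h.2.2.2.1
lemma Adm.pos (h : Adm p V i K) : 0 < (gau (V.H i)).real K := h.2.2.2.2

lemma Adm.nonempty (h : Adm p V i K) : K.Nonempty := by
  by_contra hne
  rw [not_nonempty_iff_eq_empty] at hne
  have := Adm.pos h
  rw [hne] at this
  simp at this

lemma Adm.zero_mem (h : Adm p V i K) : (0:E) ∈ K := by
  obtain ⟨x, hx⟩ := Adm.nonempty h
  have := Adm.conv h hx (Adm.symm h x hx) (show (0:ℝ) ≤ 1 / 2 by norm_num)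
    (show (0:ℝ) ≤ 1 / 2 by norm_num) (by norm_num)
  simpa using this

lemma Adm.bdd (h : Adm p V i K) (hi : i < V.n) (z : E) :
    BddAbove ((fun x : E => ⟪x, z⟫) '' K) := by
  refine ⟨√(p.rho ^ 2 * V.rr i) * ‖z‖, ?_⟩
  rintro _ ⟨x, hx, rfl⟩
  have h1 : ‖x‖ ≤ √(p.rho ^ 2 * V.rr i) := Real.le_sqrt_of_sq_le (cap_norm_le V hi (Adm.sub h hx))
  exact (real_inner_le_norm x z).trans (mul_le_mul_of_nonneg_right h1 (norm_nonneg _))

lemma Adm.le_hs (h : Adm p V i K) (hi : i < V.n) {x : E} (hx : x ∈ K) (z : E) :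
    ⟪x, z⟫ ≤ hs K z := le_csSup (Adm.bdd h hi z) ⟨x, hx, rfl⟩

lemma Adm.hs_nonneg (h : Adm p V i K) (hi : i < V.n) (z : E) : 0 ≤ hs K z := by
  have := Adm.le_hs h hi (Adm.zero_mem h) z
  simpa using this

lemma hs_le {K : Set E} (hne : K.Nonempty) {z : E} {c : ℝ} (h : ∀ x ∈ K, ⟪x, z⟫ ≤ c) :
    hs K z ≤ c := by
  refine csSup_le (hne.image _) ?_
  rintro _ ⟨x, hx, rfl⟩
  exact h x hx

lemma Adm.compact (h : Adm p V i K) (hi : i < V.n) : IsCompact K := by
  refine Metric.isCompact_of_isClosed_isBounded (Adm.closed h) ?_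
  refine (Metric.isBounded_closedBall (x := (0:E)) (r := √(p.rho ^ 2 * V.rr i))).subset ?_
  intro x hx
  rw [mem_closedBall_zero_iff]
  exact Real.le_sqrt_of_sq_le (cap_norm_le V hi (Adm.sub h hx))

lemma Eh_nonneg (h : Adm p V i K) (hi : i < V.n) (μ : Multiset E) : 0 ≤ Eh K μ := by
  unfold Eh
  refine Multiset.sum_nonneg ?_
  intro a ha
  obtain ⟨z, _, rfl⟩ := Multiset.mem_map.1 ha
  exact Adm.hs_nonneg h hi z

lemma val_nonneg (hl : 0 ≤ p.lam i) (h : Adm p V i K) (hi : i < V.n) (μ : Multiset E) :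
    0 ≤ val p V i μ K := by
  unfold val
  have h1 := Eh_nonneg h hi μ
  have h2 : Real.log ((gau (V.H i)).real K) ≤ 0 :=
    Real.log_nonpos measureReal_nonneg measureReal_le_one
  nlinarith [mul_nonneg hl (neg_nonneg.2 h2)]

lemma bddBelow_val (hl : 0 ≤ p.lam i) (hi : i < V.n) (μ : Multiset E) :
    BddBelow (val p V i μ '' {K | Adm p V i K}) := by
  refine ⟨0, ?_⟩
  rintro _ ⟨K, hK, rfl⟩
  exact val_nonneg hl hK hi μ

lemma D_le (hl : 0 ≤ p.lam i) (h : Adm p V i K) (hi : i < V.n) (μ : Multiset E) :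
    D p V i μ ≤ val p V i μ K := csInf_le (bddBelow_val hl hi μ) ⟨K, h, rfl⟩

lemma XX_zero (h : V.rr i = 0) (g : E) : XX V i g = 0 := by
  have h1 := integral_XX V i
  rw [h, Dom640.integral_norm_sq] at h1
  have h2 := (Finset.sum_eq_zero_iff_of_nonneg fun j _ => sq_nonneg _).1 h1
  have h3 : ‖XX V i g‖ ^ 2 = 0 := by
    rw [Dom640.norm_sq_eq_sum]
    refine Finset.sum_eq_zero fun j hj => ?_
    have h4 := h2 j hj
    rw [sq_eq_zero_iff, norm_eq_zero] at h4
    rw [h4, inner_zero_left]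
    norm_num
  rw [sq_eq_zero_iff, norm_eq_zero] at h3
  exact h3

lemma adm_cap (hrho : 16 ≤ p.rho) (hi : i < V.n) : Adm p V i (V.cap p.rho i) := by
  refine ⟨isClosed_cap V _ i, convex_cap V _ i, symm_cap V _ i, subset_rfl, ?_⟩
  rw [gau_real V i (isClosed_cap V _ i)]
  have hpre : V.H i ⁻¹' (V.cap p.rho i) = {g | ‖XX V i g‖ ^ 2 ≤ p.rho ^ 2 * V.rr i} := by
    ext g
    simp only [mem_preimage, Flag.cap, mem_ofPred_eq, N_H]
    exact ⟨fun h => h.2, fun h => ⟨H_mem V i g, h⟩⟩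
  rw [hpre]
  rcases eq_or_lt_of_le (rr_nonneg V i) with h0 | h0
  · have : {g : E | ‖XX V i g‖ ^ 2 ≤ p.rho ^ 2 * V.rr i} = univ := by
      ext g
      simp [XX_zero h0.symm, ← h0]
    rw [this]
    simp
  · have hr : 0 < p.rho * √(V.rr i) := mul_pos (by linarith) (Real.sqrt_pos.2 h0)
    have hcut := Dom640.cut (E := E) MeasurableSet.univ convex_univ (fun x _ => mem_univ _)
      (XX V i) hr
    have hr2 : (p.rho * √(V.rr i)) ^ 2 = p.rho ^ 2 * V.rr i := by
      rw [mul_pow, Real.sq_sqrt h0.le]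
    rw [integral_XX, hr2, univ_inter] at hcut
    have e1 : V.rr i / (p.rho ^ 2 * V.rr i) = 1 / p.rho ^ 2 := by
      field_simp
    rw [e1] at hcut
    have e2 : (1:ℝ) / p.rho ^ 2 ≤ 1 / 2 := by
      apply one_div_le_one_div_of_le (by norm_num)
      nlinarith
    have e3 : (stdGaussian E).real univ = 1 := by simp
    rw [e3, mul_one] at hcut
    have e4 : {x : E | ‖XX V i x‖ ≤ p.rho * √(V.rr i)} = {g | ‖XX V i g‖ ^ 2 ≤ p.rho ^ 2 * V.rr i} := by
      ext g
      simp only [mem_ofPred_eq]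
      rw [← hr2]
      exact (pow_le_pow_iff_left₀ (norm_nonneg _) hr.le two_ne_zero).symm
    rw [e4] at hcut
    linarith

lemma exists_near (hrho : 16 ≤ p.rho) (hl : 0 ≤ p.lam i) (hi : i < V.n) (μ : Multiset E) {ε : ℝ}
    (hε : 0 < ε) : ∃ K, Adm p V i K ∧ val p V i μ K ≤ D p V i μ + ε := by
  have hne : (val p V i μ '' {K | Adm p V i K}).Nonempty := ⟨_, _, adm_cap hrho hi, rfl⟩
  obtain ⟨_, ⟨K, hK, rfl⟩, h⟩ := exists_lt_of_csInf_lt hne
    (show sInf (val p V i μ '' {K | Adm p V i K}) < D p V i μ + ε by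
      show D p V i μ < _; linarith)
  exact ⟨K, hK, h.le⟩

lemma le_D (hrho : 16 ≤ p.rho) (hi : i < V.n) (μ : Multiset E) {c : ℝ}
    (h : ∀ K, Adm p V i K → c ≤ val p V i μ K) : c ≤ D p V i μ := by
  have hne : (val p V i μ '' {K | Adm p V i K}).Nonempty := ⟨_, _, adm_cap hrho hi, rfl⟩
  refine le_csInf hne ?_
  rintro _ ⟨K, hK, rfl⟩
  exact h K hK

end meas

lemma rr_rot (V : Flag E) {v : E} (hv : ‖v‖ = 1) {s : ℝ} (hs1 : s < 1) (i : ℕ) :
    (V.rot v s).rr i = V.rr i := by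
  have hinj : Function.Injective (Ts v s).toLinearMap := by
    rw [← LinearMap.ker_eq_bot, LinearMap.ker_eq_bot']
    intro x hx
    have hx' : Ts v s x = 0 := hx
    have h1 : ⟪v, Ts v s x⟫ = (1 - s) * ⟪v, x⟫ := by
      rw [Ts_apply, inner_sub_right, inner_smul_right, real_inner_self_eq_norm_sq, hv]; ring
    rw [hx', inner_zero_right] at h1
    have h2 : ⟪v, x⟫ = 0 := by
      rcases mul_eq_zero.1 h1.symm with h | h
      · linarith
      · exact h
    rw [Ts_apply, h2] at hx'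
    simpa using hx'
  unfold Flag.rr
  rw [rot_n]
  refine Finset.sum_congr rfl fun j _ => ?_
  have hk : ∀ l, Module.finrank ℝ ((V.rot v s).M l) = Module.finrank ℝ (V.M l) := fun l =>
    ((V.M l).equivMapOfInjective _ hinj).finrank_eq.symm
  unfold Flag.k
  rw [hk, hk]

lemma k_rot (V : Flag E) {v : E} (hv : ‖v‖ = 1) {s : ℝ} (hs1 : s < 1) (j : ℕ) :
    (V.rot v s).k j = V.k j := by
  have hinj : Function.Injective (Ts v s).toLinearMap := by
    rw [← LinearMap.ker_eq_bot, LinearMap.ker_eq_bot']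
    intro x hx
    have hx' : Ts v s x = 0 := hx
    have h1 : ⟪v, Ts v s x⟫ = (1 - s) * ⟪v, x⟫ := by
      rw [Ts_apply, inner_sub_right, inner_smul_right, real_inner_self_eq_norm_sq, hv]; ring
    rw [hx', inner_zero_right] at h1
    have h2 : ⟪v, x⟫ = 0 := by
      rcases mul_eq_zero.1 h1.symm with h | h
      · linarith
      · exact h
    rw [Ts_apply, h2] at hx'
    simpa using hx'
  have hk : ∀ l, Module.finrank ℝ ((V.rot v s).M l) = Module.finrank ℝ (V.M l) := fun l =>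
    ((V.M l).equivMapOfInjective _ hinj).finrank_eq.symm
  unfold Flag.k
  rw [hk, hk]

end Crest.Agent.R239.Lv303
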