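import Mathlib
import Crest.Agent.R239.FDef
import Crest.Agent.R239.AdmHalf_606
import Crest.Agent.R239.F6b_696

/-!
# R239 / helper236 : F4b, the level-`i` step of THIN

If the demotion of the unit vector `w` of the block `V_i` costs enough at level `i`, every
near-optimal body of `(V, i)` is thin in direction `w`.
-/

set_option autoImplicit false
set_option linter.unusedSectionVars false

open MeasureTheory ProbabilityTheory Set
open scoped RealInnerProductSpace

namespace Crest.Agent.R239.ThinLev236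

open Crest.Agent.R239 Crest.Agent.R239.FD
open Crest.Agent.R239.AdmHalf606 (half mem_half adm_compact adm_nonempty cap_convex)
open Crest.Agent.R239.F6core696 (mix mix_compact mix_convex mix_neg mix_subset)
open Crest.Agent.R239.F6b696 (D_le_val P_P_of_le P_mem P_of_mem Q_Q_self Q_Q_ne)

variable {E : Type*} [NormedAddCommGroup E] [InnerProductSpace ℝ E] [FiniteDimensional ℝ E]
  [MeasurableSpace E] [BorelSpace E]

lemma lam_pos {p : Par} (hp : p.Ok) (i : ℕ) : 0 < p.lam i :=
  mul_pos hp.tau_pos (pow_pos (by linarith [hp.A_ge]) i)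

lemma lam_succ (p : Par) (i : ℕ) : p.lam (i + 1) = p.A * p.lam i := by
  unfold Par.lam; ring

/-! ### block vectors -/

section block

variable {V : Flag E} {i : ℕ} {w : E}

lemma lt_n (hw : ‖w‖ = 1) (hQ : V.Q i w = w) : i < V.n := by
  by_contra h
  push Not at h
  have h1 : V.M i = ⊥ := V.bot i h
  have h2 : w ∈ V.M i := by
    rw [← hQ]
    refine (V.M i).sub_mem (P_mem V i w) (V.anti (Nat.le_succ i) (P_mem V (i + 1) w))
  rw [h1, Submodule.mem_bot] at h2
  simp [h2] at hw

lemma Q_ne (hQ : V.Q i w = w) {j : ℕ} (h : j ≠ i) : V.Q j w = 0 := by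
  rw [← hQ]; exact Q_Q_ne V h w

lemma H_self (hw : ‖w‖ = 1) (hQ : V.Q i w = w) : V.H i w = w := by
  have hin := lt_n hw hQ
  have h1 : V.H i w = ∑ j ∈ Finset.Ico i V.n, th ^ (j - i) • V.Q j w := F6b696.H_apply V i w
  rw [h1, Finset.sum_eq_single i]
  · simp [hQ]
  · intro j _ hj
    rw [Q_ne hQ hj, smul_zero]
  · intro h
    exact absurd (Finset.mem_Ico.2 ⟨le_rfl, hin⟩) h

lemma inner_Q_comm (V : Flag E) (j : ℕ) (x y : E) : ⟪V.Q j x, y⟫ = ⟪x, V.Q j y⟫ := by
  have h1 := fun k => Submodule.inner_starProjection_left_eq_right (V.M k) x y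
  change ⟪(V.M j).starProjection x - (V.M (j + 1)).starProjection x, y⟫
    = ⟪x, (V.M j).starProjection y - (V.M (j + 1)).starProjection y⟫
  rw [inner_sub_left, inner_sub_right, h1, h1]

lemma inner_H_comm (V : Flag E) (i : ℕ) (x y : E) : ⟪V.H i x, y⟫ = ⟪x, V.H i y⟫ := by
  rw [F6b696.H_apply, F6b696.H_apply, sum_inner, inner_sum]
  refine Finset.sum_congr rfl fun j _ => ?_
  rw [real_inner_smul_left, real_inner_smul_right, inner_Q_comm]

lemma inner_w_H (hw : ‖w‖ = 1) (hQ : V.Q i w = w) (x : E) : ⟪w, V.H i x⟫ = ⟪w, x⟫ := by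
  rw [← inner_H_comm, H_self hw hQ]

lemma setIntegral_sq (hw : ‖w‖ = 1) (hQ : V.Q i w = w) {K : Set E} (hK : MeasurableSet K) :
    ∫ x in K, ⟪w, x⟫ ^ 2 ∂(gau (V.H i)) = ∫ x in V.H i ⁻¹' K, ⟪w, x⟫ ^ 2 ∂(stdGaussian E) := by
  unfold gau
  rw [setIntegral_map hK (by fun_prop) (V.H i).continuous.aemeasurable]
  simp_rw [inner_w_H hw hQ]

end block

lemma thin_num {lam a b c eK eK' eC DV DD s s' δ : ℝ} (hl : 0 ≤ lam) (ha : 0 < a) (hb : 0 < b)
    (hc : 0 < c) (heC : eC ≤ (eK + eK') / 2) (hV : DV ≤ eC - lam * Real.log c)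
    (hK : eK - lam * Real.log a ≤ DV + s) (hK' : eK' - lam * Real.log b ≤ DD + s')
    (hben : Real.exp (-δ) * Real.sqrt (a * b) ≤ c) : DV - DD ≤ s + s' + 2 * δ * lam := by
  have h1 : Real.log a + Real.log b ≤ 2 * δ + 2 * Real.log c := by
    have h0 : 0 < Real.sqrt (a * b) := Real.sqrt_pos.2 (mul_pos ha hb)
    have h2 := Real.log_le_log (mul_pos (Real.exp_pos (-δ)) h0) hben
    rw [Real.log_mul (Real.exp_pos _).ne' h0.ne', Real.log_exp, Real.log_sqrt (mul_pos ha hb).le,
      Real.log_mul ha.ne' hb.ne'] at h2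
    linarith
  have h3 := mul_le_mul_of_nonneg_left h1 hl
  nlinarith

/-- The level-`i` step: `W` = flag with `w` demoted. -/
theorem thin_level {p : Par} (hp : p.Ok) {dl c' : ℝ} (hB : P_BEN E dl c') {V W : Flag E} {i : ℕ}
    {w : E} (hw : ‖w‖ = 1) (hQ : V.Q i w = w) (hH : ∀ x, W.H i x = V.H i (x - ⟪w, x⟫ • w))
    (hcap : W.cap p.rho i ⊆ V.cap p.rho i) {μ : Multiset E} {K K' : Set E} {sl s' : ℝ}
    (hK : NearOpt p V i μ K sl) (hK' : NearOpt p W i μ K' s')
    (hgap : sl + s' + 2 * dl * p.lam i < D p V i μ - D p W i μ) :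
    (∫ x in K, ⟪w, x⟫ ^ 2 ∂(gau (V.H i))) ≤ (1 - c') * (gau (V.H i)).real K := by
  by_contra hcon
  push Not at hcon
  have hl := (lam_pos hp i).le
  have cK : IsCompact K := adm_compact hK.1
  have cK' : IsCompact K' := adm_compact hK'.1
  have mK := cK.measurableSet
  have mK' := cK'.measurableSet
  have cC : IsCompact (half K K') := mix_compact cK cK'
  have mC := cC.measurableSet
  rw [setIntegral_sq hw hQ mK, gau_real_apply _ mK] at hcon
  have e3 : (stdGaussian E).real {x | V.H i (x - ⟪w, x⟫ • w) ∈ K'} = (gau (W.H i)).real K' := by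
    rw [gau_real_apply _ mK']
    congr 1
    ext x
    simp [hH]
  have hcyl : ∀ x, ⟪w, x - ⟪w, x⟫ • w⟫ = 0 := by
    intro x
    rw [inner_sub_right, real_inner_smul_right, real_inner_self_eq_norm_sq, hw]
    ring
  have hlin : IsLinearMap ℝ fun x : E => V.H i (x - ⟪w, x⟫ • w) := by
    constructor
    · intro x y
      rw [← map_add]
      congr 1
      rw [inner_add_right, add_smul]
      abel
    · intro c x
      rw [← map_smul]
      congr 1
      rw [real_inner_smul_right, smul_sub, mul_smul]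
  have hcont : Continuous fun x : E => V.H i (x - ⟪w, x⟫ • w) := by fun_prop
  have hb := hB w hw (V.H i ⁻¹' K) {x | V.H i (x - ⟪w, x⟫ • w) ∈ K'} (V.H i ⁻¹' (half K K'))
    (cK.isClosed.preimage (V.H i).continuous)
    (hK.1.2.1.is_linear_preimage (V.H i).toLinearMap.isLinear)
    (fun x hx => by
      have := hK.1.2.2.1 _ hx
      rw [mem_preimage, map_neg]
      exact this)
    (cK'.isClosed.preimage hcont)
    (hK'.1.2.1.is_linear_preimage hlin)
    (fun x hx => by
      have h1 := hK'.1.2.2.1 _ hx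
      have h2 := hlin.map_neg x
      simp only [mem_setOf_eq]
      rw [h2]
      exact h1)
    (cC.isClosed.preimage (V.H i).continuous)
    (fun x => by
      simp only [mem_setOf_eq]
      rw [hcyl x, zero_smul, sub_zero])
    (fun x hx y hy hwy => by
      simp only [mem_setOf_eq] at hy
      rw [hwy, zero_smul, sub_zero] at hy
      rw [mem_preimage, mem_half]
      exact ⟨V.H i x, hx, V.H i y, hy, by simp⟩)
  rcases hb with hb | hb
  · exact absurd hb (not_le.2 hcon)
  · rw [e3, ← gau_real_apply _ mK, ← gau_real_apply _ mC] at hb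
    have gK : 0 < (gau (V.H i)).real K := hK.1.2.2.2.2
    have gK' : 0 < (gau (W.H i)).real K' := hK'.1.2.2.2.2
    have gC : 0 < (gau (V.H i)).real (half K K') :=
      lt_of_lt_of_le (mul_pos (Real.exp_pos _) (Real.sqrt_pos.2 (mul_pos gK gK'))) hb
    have aC : Adm p V i (half K K') :=
      ⟨cC.isClosed, mix_convex hK.1.2.1 hK'.1.2.1, mix_neg hK.1.2.2.1 hK'.1.2.2.1,
        mix_subset (by norm_num) (by norm_num) (cap_convex V i p.rho) hK.1.2.2.2.1
          (hK'.1.2.2.2.1.trans hcap), gC⟩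
    have hEh : Eh (half K K') μ ≤ (Eh K μ + Eh K' μ) / 2 := by
      have h := F6core696.Eh_mix (a := 1 / 2) (by norm_num) (by norm_num) cK cK'
        (adm_nonempty hK.1) (adm_nonempty hK'.1) μ
      have h' : Eh (half K K') μ = (1 - 1 / 2) * Eh K μ + 1 / 2 * Eh K' μ := h
      rw [h']
      linarith
    have hV := D_le_val (fun i => (lam_pos hp i).le) (μ := μ) aC
    have := thin_num hl gK gK' gC hEh hV hK.2 hK'.2 hb
    linarith

end Crest.Agent.R239.ThinLev236
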