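import Crest.Agent.R239.Lv2_534
import Crest.Agent.R239.ThinLev_236

/-!
# R239 / S0370 : Target_LEV (helper534), part 3
-/

set_option autoImplicit false
set_option linter.unusedVariables false
set_option linter.unusedSectionVars false

open MeasureTheory ProbabilityTheory Set
open scoped RealInnerProductSpace ENNReal NNReal

namespace Crest.Agent.R239.Lv534

open Crest.Agent.R239 Crest.Agent.R239.FD
open Crest.Agent.R239.Rem603 (slab slab_std slab_anti)

variable {E : Type*} [NormedAddCommGroup E] [InnerProductSpace ℝ E] [FiniteDimensional ℝ E]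
  [MeasurableSpace E] [BorelSpace E]

lemma finrank_le_sum (V : Flag E) (i m : ℕ) :
    Module.finrank ℝ (V.M i) ≤ ∑ j ∈ Finset.Ico i (i + m), V.k j
      + Module.finrank ℝ (V.M (i + m)) := by
  induction m with
  | zero => simp
  | succ m ih =>
    rw [← add_assoc, Finset.sum_Ico_succ_top (by omega)]
    have : Module.finrank ℝ (V.M (i + m)) ≤ V.k (i + m) + Module.finrank ℝ (V.M (i + m + 1)) := by
      unfold Flag.k; omega
    omega

lemma bot_of_rr (V : Flag E) {i : ℕ} (hi : i < V.n) (h : V.rr i = 0) : V.M i = ⊥ := by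
  unfold Flag.rr at h
  have hth : (0:ℝ) < th := by norm_num [th]
  have hk : ∀ j ∈ Finset.Ico i V.n, V.k j = 0 := by
    intro j hj
    have h1 := (Finset.sum_eq_zero_iff_of_nonneg (fun j _ =>
      mul_nonneg (pow_nonneg hth.le _) (Nat.cast_nonneg _))).1 h j hj
    rcases mul_eq_zero.1 h1 with h2 | h2
    · exact absurd h2 (pow_pos hth _).ne'
    · exact_mod_cast h2
  have h1 := finrank_le_sum V i (V.n - i)
  rw [show i + (V.n - i) = V.n by omega, Finset.sum_eq_zero hk, V.bot V.n le_rfl, finrank_bot] at h1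
  exact Submodule.finrank_eq_zero.1 (by omega)

/-- value at a level with `M i = ⊥` -/
lemma D_le_zero {p : Par} (hp : p.Ok) (V : Flag E) (μ : Multiset E) {i : ℕ} (h : V.M i = ⊥) :
    D p V i μ ≤ 0 := by
  have hH : ∀ g, V.H i g = 0 := fun g => by
    have := F6b696.H_mem V i g
    rwa [h, Submodule.mem_bot] at this
  have hm : (gau (V.H i)).real ({0} : Set E) = 1 := by
    rw [gau_real_apply _ (measurableSet_singleton 0)]
    have : V.H i ⁻¹' ({0} : Set E) = univ := by ext g; simp [hH g]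
    rw [this]; simp
  have hadm : Adm p V i {0} := by
    refine ⟨isClosed_singleton, convex_singleton 0, by simp, ?_, by rw [hm]; norm_num⟩
    intro x hx
    rw [mem_singleton_iff] at hx
    subst hx
    refine ⟨(V.M i).zero_mem, ?_⟩
    rw [AdmHalf606.N_zero]
    exact mul_nonneg (sq_nonneg _) (Cap526.rr_nonneg V i)
  have h1 := F6b696.D_le_val (μ := μ) (fun j => (T1689lam hp j).le) hadm
  unfold val at h1
  rw [hm, Real.log_one, mul_zero, sub_zero] at h1
  have h2 : Eh ({0} : Set E) μ = 0 := by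
    unfold Eh
    have : (FD.hs ({0} : Set E)) = fun _ => (0:ℝ) := by
      funext z; simp [FD.hs]
    rw [this]
    simp
  linarith

lemma D_nonneg {p : Par} (hp : p.Ok) (V : Flag E) (μ : Multiset E) (i : ℕ) : 0 ≤ D p V i μ := by
  unfold D
  refine Real.sInf_nonneg ?_
  rintro _ ⟨K, hK, rfl⟩
  exact F6b696.val_nonneg (fun j => (T1689lam hp j).le) hK

lemma exists_nearOpt {p : Par} (hp : p.Ok) (V : Flag E) (μ : Multiset E) (i : ℕ) {sl : ℝ}
    (hsl : 0 < sl) : ∃ K, NearOpt p V i μ K sl := by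
  have hne : (val p V i μ '' {K | Adm p V i K}).Nonempty :=
    ⟨_, _, Cap526.adm_cap (by linarith [hp.rho_ge]) V i, rfl⟩
  obtain ⟨_, ⟨K, hK, rfl⟩, hlt⟩ := Real.lt_sInf_add_pos hne hsl
  exact ⟨K, hK, hlt.le⟩

lemma le_D {p : Par} (hp : p.Ok) (V : Flag E) (μ : Multiset E) (i : ℕ) {x : ℝ}
    (h : ∀ K, Adm p V i K → x ≤ val p V i μ K) : x ≤ D p V i μ := by
  refine le_csInf ⟨_, _, Cap526.adm_cap (by linarith [hp.rho_ge]) V i, rfl⟩ ?_
  rintro _ ⟨K, hK, rfl⟩
  exact h K hK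

lemma S_nonneg (μ : Multiset E) (v : E) : 0 ≤ S μ v := by
  unfold S
  refine Multiset.sum_nonneg ?_
  intro x hx
  obtain ⟨z, _, rfl⟩ := Multiset.mem_map.1 hx
  exact abs_nonneg _

lemma b_of_bot (V : Flag E) (v : E) {i : ℕ} (h : V.M i = ⊥) : V.b v i = 0 := by
  have : V.P i v = 0 := by
    have := F6b696.P_mem V i v
    rwa [h, Submodule.mem_bot] at this
  unfold Flag.b
  rw [this]; simp

lemma norm_Q_sq (V : Flag E) (v : E) (i : ℕ) : ‖V.Q i v‖ ^ 2 = V.b v i - V.b v (i + 1) :=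
  FlagAlg557.norm_Q_sq' (M := V.M) V.anti i v

lemma b_succ_le_BB (V : Flag E) (v : E) (i : ℕ) : V.b v (i + 1) ≤ BB V v i := by
  rcases lt_or_ge (i + 1) V.n with h | h
  · unfold BB
    have h1 : (25 / 8 : ℝ) ^ (i + 1 - i) * V.b v (i + 1)
        ≤ ∑ j ∈ Finset.Ico (i + 1) V.n, (25 / 8 : ℝ) ^ (j - i) * V.b v j :=
      Finset.single_le_sum (f := fun j => (25 / 8 : ℝ) ^ (j - i) * V.b v j)
        (fun j _ => mul_nonneg (by positivity) (T1689.b_nonneg V v j))
        (Finset.mem_Ico.2 ⟨le_rfl, h⟩)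
    rw [show i + 1 - i = 1 by omega, pow_one] at h1
    have := T1689.b_nonneg V v (i + 1)
    linarith
  · rw [b_of_bot V v (V.bot _ h)]
    exact MomF764.BB_nonneg V v i

lemma lam_eq (p : Par) {I i : ℕ} (h : I ≤ i) : p.lam i = p.lam I * p.A ^ (i - I) := by
  unfold Par.lam
  rw [mul_assoc, ← pow_add]
  congr 2
  omega

set_option maxHeartbeats 2000000 in
/-- the level inequality above `I` -/
theorem levhi {p : Par} (hp : p.Ok) {c' dl s : ℝ} (hc0 : 0 < c') (hc1 : c' < 1) (hdl : 0 < dl)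
    (hs0 : 0 < s) (hs1 : s < 1) (hsb : 2 * s - s ^ 2 = c' / 4) (hrho : 4096 / c' ≤ p.rho) :
    P_LEVhi E p s c' dl (c' ^ 2 / 64) (2 + 27 * 1024 / c' ^ 2) := by
  intro V μ v I i hv hS hIi hin hthin
  have hlamI := T1689lam hp I
  have hlam := T1689lam hp i
  have hb0 := T1689.b_nonneg V v i
  have hb1 := T1689.b_le_one V hv i
  have hBB0 := MomF764.BB_nonneg V v i
  have hhalf : (0:ℝ) < (1 / 2 : ℝ) ^ (i - I) := by positivity
  have hC9 : (0:ℝ) < 2 + 27 * 1024 / c' ^ 2 := by positivity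
  rcases eq_or_lt_of_le (Cap526.rr_nonneg V i) with hrr | hrr
  · have hbot := bot_of_rr V hin hrr.symm
    have h1 := D_le_zero hp V μ hbot
    have h2 := D_nonneg hp (V.rot v s) μ i
    rw [b_of_bot V v hbot]
    have h3 : 0 ≤ p.lam i * ((2 + 27 * 1024 / c' ^ 2) * BB V v i) := by positivity
    have h4 : 0 ≤ (2 + 27 * 1024 / c' ^ 2) * p.lam I * (1 / 2) ^ (i - I) := by positivity
    linarith
  set sb := 2 * s - s ^ 2 with hsbd
  have hsb2 : sb ≤ 1 / 2 := by rw [hsb]; linarith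
  have hsb0 : 0 < sb := by rw [hsb]; linarith
  refine le_D hp _ μ i fun K' hK' => ?_
  -- slack
  refine le_of_forall_pos_le_add fun δ hδ => ?_
  set sl : ℝ := min δ (dl * p.lam i) with hsl
  have hsl0 : 0 < sl := lt_min hδ (mul_pos hdl hlam)
  obtain ⟨K, hK⟩ := exists_nearOpt hp V μ i hsl0
  have hKd : NearOpt p V i μ K (dl * p.lam i) := ⟨hK.1, hK.2.trans (by
    have := min_le_right δ (dl * p.lam i); linarith)⟩
  -- slab
  set w : ℝ≥0 := ⟨4 / 3 * V.b v i, by positivity⟩ with hw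
  have hwc : (w : ℝ) = 4 / 3 * V.b v i := rfl
  set e : ℝ := c' ^ 2 / 1024 with he
  have he0 : 0 < e := by positivity
  have he1 : e ≤ 1 := by rw [he]; nlinarith
  have hS0 := S_nonneg μ v
  obtain ⟨t, ht0, htp, ht⟩ := RemLv758.rem_hi (v := w) (A := p.A) (li := p.lam i) (lI := p.lam I)
    (S := S μ v) (e := e) (m := i - I) hp.A_ge hlamI (by omega) (lam_eq p hIi.le) hS he0 he1
  have mK : MeasurableSet K := hK.1.1.measurableSet
  have hHK : (gau (V.H i)).real K = (stdGaussian E).real (V.H i ⁻¹' K) := gau_real_apply _ mK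
  have Kpos : 0 < (stdGaussian E).real (V.H i ⁻¹' K) := by rw [← hHK]; exact hK.1.2.2.2.2
  have hb' := T1689.b_nonneg V v (i + 1)
  have hbs := b_succ_le_BB V v i
  have hQ2 := norm_Q_sq V v i
  -- the gain
  have key : D p V i μ + p.lam i * (sb * c' / 8 * (V.b v i - V.b v (i + 1)))
      ≤ val p (V.rot v s) i μ K' + (s * (t * S μ v) - p.lam i * Real.log (slab w t)) +
        p.lam i * (sb * BB V v i
          + 4 * (16 / (3 * p.rho ^ 2)) * (sb * (2 * V.b v i + BB V v i))) + sl := by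
    rcases eq_or_ne (V.Q i v) 0 with h0 | h0
    · have h1 := level hp hv hin hrr hs0 hs1 hsb2 (n := v) hv (τ := 0) le_rfl (by norm_num)
        (fun g => by rw [h0]; simp) hK hK' (w := w) (by rw [hwc]) htp
      rw [h0, norm_zero] at hQ2
      have h2 : V.b v i - V.b v (i + 1) = 0 := by rw [← hQ2]; norm_num
      rw [h2]
      simp only [zero_div, zero_mul, mul_zero, add_zero] at h1 ⊢
      exact h1
    · set al : ℝ := ‖V.Q i v‖ with hal
      have hal0 : 0 < al := norm_pos_iff.2 h0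
      have hal1 : al ^ 2 ≤ 1 := by rw [hQ2]; linarith
      set n : E := al⁻¹ • V.Q i v with hn
      have hn1 : ‖n‖ = 1 := by
        rw [hn, norm_smul, norm_inv, Real.norm_of_nonneg hal0.le, ← hal, inv_mul_cancel₀ hal0.ne']
      have hQn : V.Q i n = n := by rw [hn, map_smul, F6b696.Q_Q_self]
      set τ : ℝ := sb / 2 * al ^ 2 with hτ
      have hτ0 : 0 ≤ τ := by positivity
      have hτ1 : τ ≤ sb / 2 := by rw [hτ]; nlinarith
      have h1 := level hp hv hin hrr hs0 hs1 hsb2 hn1 hτ0 (by linarith)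
        (fun g => by
          rw [hn, inner_smul_left, RCLike.conj_to_real, mul_pow, hτ]
          have : al ^ 2 * (al⁻¹) ^ 2 = 1 := by rw [← mul_pow, mul_inv_cancel₀ hal0.ne', one_pow]
          have h2 : sb / 2 * al ^ 2 * ((al⁻¹) ^ 2 * ⟪V.Q i v, g⟫ ^ 2)
              = sb / 2 * (al ^ 2 * (al⁻¹) ^ 2) * ⟪V.Q i v, g⟫ ^ 2 := by ring
          rw [h2, this, mul_one]) hK hK' (w := w) (by rw [hwc]) htp
      have hth := hthin K hKd n hn1 hQn
      rw [ThinLev236.setIntegral_sq hn1 hQn mK, hHK] at hth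
      set EK : ℝ := (∫ x in V.H i ⁻¹' K, ⟪n, x⟫ ^ 2 ∂(stdGaussian E)) /
        (stdGaussian E).real (V.H i ⁻¹' K) with hEK
      have hEK1 : EK ≤ 1 - c' := by rw [hEK, div_le_iff₀ Kpos]; exact hth
      have hg : sb * c' / 8 * (V.b v i - V.b v (i + 1)) ≤ τ / 2 * (1 - (1 + 4 * τ) * EK) := by
        rw [← hQ2]
        have h3 : (1 + 4 * τ) * EK ≤ (1 + 4 * τ) * (1 - c') :=
          mul_le_mul_of_nonneg_left hEK1 (by positivity)
        have h4 : c' / 2 ≤ 1 - (1 + 4 * τ) * EK := by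
          have : (1 + 4 * τ) * (1 - c') ≤ 1 - c' + 4 * τ := by
            have e1 : (1 + 4 * τ) * (1 - c') = 1 - c' + 4 * τ - 4 * (τ * c') := by ring
            have e2 := mul_nonneg hτ0 hc0.le
            linarith
          have h5 : 4 * τ ≤ c' / 2 := by rw [hsb] at hτ1; linarith
          linarith
        have h5 : τ / 2 * (c' / 2) ≤ τ / 2 * (1 - (1 + 4 * τ) * EK) :=
          mul_le_mul_of_nonneg_left h4 (by positivity)
        have h6 : sb * c' / 8 * al ^ 2 = τ / 2 * (c' / 2) := by rw [hτ]; ring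
        linarith
      have h7 := mul_le_mul_of_nonneg_left hg hlam.le
      linarith
  -- numerics
  have hsl1 : sl ≤ δ := min_le_left _ _
  have hstS : s * (t * S μ v) ≤ t * S μ v := by
    have : 0 ≤ t * S μ v := by positivity
    nlinarith
  rw [hwc] at ht
  have hrho1 : 4096 / c' ≤ p.rho ^ 2 := by
    have h1 : 1 ≤ p.rho := by linarith [hp.rho_ge]
    nlinarith
  have heps : 4 * (16 / (3 * p.rho ^ 2)) ≤ c' / 128 := by
    have h1 : 0 < p.rho ^ 2 := by nlinarith [hp.rho_ge]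
    rw [div_le_iff₀ hc0] at hrho1
    rw [mul_div_assoc', div_le_iff₀ (by positivity)]
    nlinarith
  have hcap : 4 * (16 / (3 * p.rho ^ 2)) * (sb * (2 * V.b v i + BB V v i))
      ≤ c' / 128 * (sb * (2 * V.b v i + BB V v i)) :=
    mul_le_mul_of_nonneg_right heps (by positivity)
  have hcap2 := mul_le_mul_of_nonneg_left hcap hlam.le
  have e27 : 27 / e = 27 * 1024 / c' ^ 2 := by rw [he]; field_simp
  rw [e27] at ht
  rw [hsb] at key hcap2
  have hbs2 := mul_le_mul_of_nonneg_left hbs hlam.le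
  have hlb : 0 ≤ p.lam i * V.b v i := by positivity
  have hlB : 0 ≤ p.lam i * BB V v i := by positivity
  have hc2 : 0 < c' ^ 2 := by positivity
  have hcc : c' ^ 2 ≤ c' := by nlinarith
  have X1 : 0 ≤ c' ^ 2 * (p.lam i * V.b v i) := by positivity
  have X2 : c' ^ 2 * (p.lam i * V.b v (i + 1)) ≤ c' ^ 2 * (p.lam i * BB V v i) :=
    mul_le_mul_of_nonneg_left hbs2 hc2.le
  have X3 : c' ^ 2 * (p.lam i * BB V v i) ≤ 1 * (p.lam i * BB V v i) :=
    mul_le_mul_of_nonneg_right (by nlinarith) hlB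
  have X4 : c' * (p.lam i * BB V v i) ≤ 1 * (p.lam i * BB V v i) :=
    mul_le_mul_of_nonneg_right hc1.le hlB
  have X5 : 0 ≤ 27 * 1024 / c' ^ 2 * (p.lam i * BB V v i) := by positivity
  have X6 : 0 ≤ p.lam I * (1 / 2) ^ (i - I) := by positivity
  have X7 : e * p.lam i * (4 / 3 * V.b v i) = c' ^ 2 / 768 * (p.lam i * V.b v i) := by
    rw [he]; ring
  rw [X7] at ht
  have K1 : D p V i μ + c' ^ 2 / 32 * (p.lam i * V.b v i) - c' ^ 2 / 32 * (p.lam i * V.b v (i + 1))
      ≤ val p (V.rot v s) i μ K' + (s * (t * S μ v) - p.lam i * Real.log (slab w t))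
        + c' / 4 * (p.lam i * BB V v i)
        + (c' ^ 2 / 256 * (p.lam i * V.b v i) + c' ^ 2 / 512 * (p.lam i * BB V v i)) + sl := by
    have e1 : p.lam i * (c' / 4 * c' / 8 * (V.b v i - V.b v (i + 1)))
        = c' ^ 2 / 32 * (p.lam i * V.b v i) - c' ^ 2 / 32 * (p.lam i * V.b v (i + 1)) := by ring
    have e2 : p.lam i * (c' / 128 * (c' / 4 * (2 * V.b v i + BB V v i)))
        = c' ^ 2 / 256 * (p.lam i * V.b v i) + c' ^ 2 / 512 * (p.lam i * BB V v i) := by ring
    rw [e1] at key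
    rw [e2] at hcap2
    rw [mul_add] at key
    have e3 : p.lam i * (c' / 4 * BB V v i) = c' / 4 * (p.lam i * BB V v i) := by ring
    rw [e3] at key
    linarith
  have G1 : p.lam i * (c' ^ 2 / 64 * V.b v i - (2 + 27 * 1024 / c' ^ 2) * BB V v i)
      = c' ^ 2 / 64 * (p.lam i * V.b v i) - 2 * (p.lam i * BB V v i)
        - 27 * 1024 / c' ^ 2 * (p.lam i * BB V v i) := by ring
  have G2 : (2 + 27 * 1024 / c' ^ 2) * p.lam I * (1 / 2) ^ (i - I)
      = 2 * (p.lam I * (1 / 2) ^ (i - I)) + 27 * 1024 / c' ^ 2 * p.lam I * (1 / 2) ^ (i - I) := by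
    ring
  rw [G1, G2]
  linarith

end Crest.Agent.R239.Lv534
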