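import Crest.Agent.R239.Lv3_303

/-! R239 (helper303), the one-level inequality for `D` (FDef, ellipsoidal cap), part 2. -/

set_option autoImplicit false
set_option linter.unusedSectionVars false
open MeasureTheory ProbabilityTheory Set
open scoped RealInnerProductSpace ENNReal NNReal Pointwise

namespace Crest.Agent.R239.Lv303

open Crest.Agent.R239 (gau)
open Crest.Agent.R239.FD

variable {E : Type*} [NormedAddCommGroup E] [InnerProductSpace ℝ E] [FiniteDimensional ℝ E]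
  [MeasurableSpace E] [BorelSpace E]

lemma neg_log_one_sub {x : ℝ} (h0 : 0 ≤ x) (h1 : x ≤ 1 / 8) : -Real.log (1 - x) ≤ 2 * x := by
  have hp : 0 < 1 - x := by linarith
  have h := Real.one_sub_inv_le_log_of_pos hp
  have h2 : (1 - x)⁻¹ ≤ 1 + 2 * x := by
    rw [inv_le_comm₀ hp (by linarith), inv_eq_one_div, div_le_iff₀ (by linarith)]
    nlinarith
  linarith

/-- **one-level inequality** -/
theorem level_ineq {p : Par} {V : Flag E} {v : E} (hv : ‖v‖ = 1) {s : ℝ} (hs0 : 0 < s)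
    (hs1 : s < 1) (hsb : 2 * s - s ^ 2 ≤ 1 / 2) {i : ℕ} (hi : i < V.n) (hrho : 16 ≤ p.rho)
    (hl : 0 < p.lam i) (μ : Multiset E) {K K' : Set E} (hK : Adm p V i K)
    (hK' : Adm p (V.rot v s) i K') {n : E} (hn : ‖n‖ = 1) {τ : ℝ} (hτ0 : 0 ≤ τ) (hτ1 : τ ≤ 1 / 4)
    (hnτ : ∀ g, τ * ⟪n, g⟫ ^ 2 ≤ (2 * s - s ^ 2) / 4 * ⟪V.Q i v, g⟫ ^ 2) {t : ℝ} (ht : 0 ≤ t)
    (hpt : 0 < (stdGaussian E).real {g : E | |⟪Sc n (1 / √(1 - τ)) (V.H i v), g⟫| ≤ t}) :
    2 * D p V i μ ≤ val p V i μ K + val p (V.rot v s) i μ K' + s * t * S μ v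
      - p.lam i * Real.log ((stdGaussian E).real
          {g : E | |⟪Sc n (1 / √(1 - τ)) (V.H i v), g⟫| ≤ t})
      + p.lam i * (2 * (2 * s - s ^ 2) * BB V v i)
      + p.lam i * (64 / p.rho ^ 2 * ((2 * s - s ^ 2) * (V.b v i + BB V v i)))
      - p.lam i * (τ / 2 - (τ + 4 * τ ^ 2) / 2 *
        ((∫ x in V.H i ⁻¹' K, ⟪n, x⟫ ^ 2 ∂(stdGaussian E))
          / (stdGaussian E).real (V.H i ⁻¹' K))) := by
  set sb : ℝ := 2 * s - s ^ 2 with hsbdef
  have sb0 : 0 < sb := by rw [hsbdef]; nlinarith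
  set γ := stdGaussian E with hγ
  -- new body
  set K1 : Set E := {x | x ∈ V.M i ∧ Ts v s x ∈ K' ∧ |⟪v, x⟫| ≤ t ∧ V.N i x ≤ p.rho ^ 2 * V.rr i}
    with hK1
  have K1cap : K1 ⊆ V.cap p.rho i := fun x hx => ⟨hx.1, hx.2.2.2⟩
  have K1closed : IsClosed K1 := by
    have e : K1 = {x : E | x ∈ V.M i} ∩ ((Ts v s ⁻¹' K') ∩
        ({x : E | |⟪v, x⟫| ≤ t} ∩ {x : E | V.N i x ≤ p.rho ^ 2 * V.rr i})) := by
      ext x; simp [hK1]
    rw [e]
    exact (isClosed_M V i).inter (((Adm.closed hK').preimage (Ts v s).continuous).inter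
      ((isClosed_le (by fun_prop) continuous_const).inter
        (isClosed_le (continuous_N V i) continuous_const)))
  have K1conv : Convex ℝ K1 := by
    intro x hx y hy a b ha hb hab
    have hc := convex_cap V p.rho i (K1cap hx) (K1cap hy) ha hb hab
    refine ⟨hc.1, ?_, ?_, hc.2⟩
    · rw [map_add, map_smul, map_smul]
      exact Adm.conv hK' hx.2.1 hy.2.1 ha hb hab
    · rw [inner_add_right, inner_smul_right, inner_smul_right]
      have h1 : |a * ⟪v, x⟫ + b * ⟪v, y⟫| ≤ a * |⟪v, x⟫| + b * |⟪v, y⟫| := by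
        refine (abs_add_le _ _).trans (le_of_eq ?_)
        rw [abs_mul, abs_mul, abs_of_nonneg ha, abs_of_nonneg hb]
      have h2 : a * |⟪v, x⟫| ≤ a * t := mul_le_mul_of_nonneg_left hx.2.2.1 ha
      have h3 : b * |⟪v, y⟫| ≤ b * t := mul_le_mul_of_nonneg_left hy.2.2.1 hb
      have h4 : a * t + b * t = t := by rw [← add_mul, hab, one_mul]
      linarith
  have K1symm : ∀ x ∈ K1, -x ∈ K1 := by
    intro x hx
    have hc := symm_cap V p.rho i x (K1cap hx)
    refine ⟨hc.1, ?_, ?_, hc.2⟩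
    · rw [map_neg]; exact Adm.symm hK' _ hx.2.1
    · rw [inner_neg_right, abs_neg]; exact hx.2.2.1
  have K1zero : (0:E) ∈ K1 := by
    refine ⟨(V.M i).zero_mem, by rw [map_zero]; exact Adm.zero_mem hK', by simpa using ht, ?_⟩
    have : V.N i (0:E) = 0 := by rw [N_eq, map_zero]; simp
    rw [this]
    exact mul_nonneg (sq_nonneg _) (rr_nonneg V i)
  have K1comp : IsCompact K1 := by
    refine Metric.isCompact_of_isClosed_isBounded K1closed ?_
    refine (Metric.isBounded_closedBall (x := (0:E)) (r := √(p.rho ^ 2 * V.rr i))).subset ?_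
    intro x hx
    rw [mem_closedBall_zero_iff]
    exact Real.le_sqrt_of_sq_le (cap_norm_le V hi (K1cap hx))
  -- the mixture
  set W : Set E := (fun q : E × E => (1 / 2 : ℝ) • q.1 + (1 / 2 : ℝ) • q.2) '' (K ×ˢ K1) with hW
  have Wcomp : IsCompact W := ((Adm.compact hK hi).prod K1comp).image (by fun_prop)
  have Wclosed : IsClosed W := Wcomp.isClosed
  have Wconv : Convex ℝ W := by
    have := ((Adm.conv hK).prod K1conv).linear_image
      (((1 / 2 : ℝ) • LinearMap.fst ℝ E E) + ((1 / 2 : ℝ) • LinearMap.snd ℝ E E))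
    have e : W = (((1 / 2 : ℝ) • LinearMap.fst ℝ E E) + ((1 / 2 : ℝ) • LinearMap.snd ℝ E E)) ''
        (K ×ˢ K1) := by
      rw [hW]; rfl
    rw [e]; exact this
  have Wsymm : ∀ x ∈ W, -x ∈ W := by
    rintro _ ⟨⟨x, y⟩, ⟨hx, hy⟩, rfl⟩
    refine ⟨(-x, -y), ⟨Adm.symm hK x hx, K1symm y hy⟩, ?_⟩
    simp only [smul_neg]
    abel
  have Wcap : W ⊆ V.cap p.rho i := by
    rintro _ ⟨⟨x, y⟩, ⟨hx, hy⟩, rfl⟩
    exact convex_cap V p.rho i (Adm.sub hK hx) (K1cap hy) (by norm_num) (by norm_num) (by norm_num)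
  -- gaussian preimages
  have gK : (gau (V.H i)).real K = γ.real (V.H i ⁻¹' K) := gau_real V i (Adm.closed hK)
  have gK' : (gau ((V.rot v s).H i)).real K' = γ.real ((V.rot v s).H i ⁻¹' K') :=
    gau_real (V.rot v s) i (Adm.closed hK')
  have gW : (gau (V.H i)).real W = γ.real (V.H i ⁻¹' W) := gau_real V i Wclosed
  have pK : 0 < γ.real (V.H i ⁻¹' K) := gK ▸ Adm.pos hK
  have pK' : 0 < γ.real ((V.rot v s).H i ⁻¹' K') := gK' ▸ Adm.pos hK'
  -- the radius
  obtain ⟨r, hr0, hr2, hrE⟩ : ∃ r : ℝ, 0 < r ∧ (∀ g, ‖XX V i g‖ ≤ r → V.N i (V.H i g) ≤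
      p.rho ^ 2 * V.rr i) ∧ (∫ g, ‖XX V i g‖ ^ 2 ∂γ ≤ 1 / p.rho ^ 2 * r ^ 2 ∧
      ∀ g, V.H i g ∈ V.M i → (1 - min (sb * V.N i v) 1) * ‖XX V i g‖ ^ 2 ≤ p.rho ^ 2 * V.rr i →
        (1 - min (sb * V.N i v) 1) * ‖XX V i g‖ ^ 2 ≤ r ^ 2) := by
    have hrho0 : 0 < p.rho := by linarith
    rcases eq_or_lt_of_le (rr_nonneg V i) with h0 | h0
    · refine ⟨1, one_pos, ?_, ?_, ?_⟩
      · intro g _
        rw [N_H, XX_zero h0.symm, ← h0]; simp
      · have : (fun g => ‖XX V i g‖ ^ 2) = fun _ : E => (0:ℝ) := by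
          funext g; rw [XX_zero h0.symm]; simp
        rw [this]
        simp only [integral_zero, one_pow, mul_one]
        positivity
      · intro g _ _
        rw [XX_zero h0.symm]; simp
    · refine ⟨p.rho * √(V.rr i), mul_pos hrho0 (Real.sqrt_pos.2 h0), ?_, ?_, ?_⟩
      · intro g hg
        rw [N_H]
        have := pow_le_pow_left₀ (norm_nonneg _) hg 2
        rwa [mul_pow, Real.sq_sqrt h0.le] at this
      · rw [hγ, integral_XX, mul_pow, Real.sq_sqrt h0.le]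
        apply le_of_eq
        field_simp
      · intro g _ h
        rwa [mul_pow, Real.sq_sqrt h0.le]
  have hκ : (1:ℝ) / p.rho ^ 2 ≤ 1 / 256 := by
    apply one_div_le_one_div_of_le (by norm_num)
    nlinarith
  have hκ0 : (0:ℝ) < 1 / p.rho ^ 2 := by positivity
  set h : ℝ := min (sb * V.N i v) 1 with hh
  have hN0 : 0 ≤ V.N i v := by rw [N_eq]; positivity
  have hh0 : 0 ≤ h := le_min (mul_nonneg sb0.le hN0) zero_le_one
  have hh1 : h ≤ 1 := min_le_right _ _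
  have hhN : h ≤ sb * V.N i v := min_le_left _ _
  have hcapX : ∀ g, RR V v s i g ∈ (V.rot v s).H i ⁻¹' K' → (1 - h) * ‖XX V i g‖ ^ 2 ≤ r ^ 2 := by
    intro g hg
    rw [mem_preimage, H_RR V hi.le] at hg
    refine hrE.2 g (H_mem V i g) ?_
    have h1 := N_ineq V hv hs0 hs1 hi (H_mem V i g)
    rw [N_H, ← hsbdef] at h1
    have h2 : (V.rot v s).N i (Ts v s (V.H i g)) ≤ p.rho ^ 2 * (V.rot v s).rr i :=
      (Adm.sub hK' hg).2
    rw [rr_rot V hv hs1] at h2
    rcases le_total (sb * V.N i v) 1 with h3 | h3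
    · rw [hh, min_eq_left h3]; linarith
    · rw [hh, min_eq_right h3, sub_self, zero_mul]
      exact mul_nonneg (sq_nonneg _) (rr_nonneg V i)
  have hNform : ∀ g, ‖RR V v s i g‖ ^ 2 + τ * ⟪n, g⟫ ^ 2
      ≤ ‖g‖ ^ 2 + ∑ k ∈ JJ V i, ⟪uu V v sb i k, g⟫ ^ 2 := by
    intro g
    have h1 := RR_ineq V hv hs0 hs1 hi g
    rw [← hsbdef] at h1
    have h2 := hnτ g
    linarith
  have Bclosed : IsClosed ((V.rot v s).H i ⁻¹' K') :=
    (Adm.closed hK').preimage ((V.rot v s).H i).continuous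
  have Bconv : Convex ℝ ((V.rot v s).H i ⁻¹' K') :=
    (Adm.conv hK').linear_preimage (((V.rot v s).H i : E →L[ℝ] E) : E →ₗ[ℝ] E)
  have Bsymm : ∀ x ∈ (V.rot v s).H i ⁻¹' K', -x ∈ (V.rot v s).H i ⁻¹' K' := by
    intro x hx
    rw [mem_preimage, map_neg]
    exact Adm.symm hK' _ hx
  have hpos : 0 ≤ 1 - 32 * h * (1 / p.rho ^ 2) := by
    have : 32 * h * (1 / p.rho ^ 2) ≤ 32 * 1 * (1 / 256) := by gcongr
    linarith
  have hlev := lev_one (E := E) (H := E) hn hτ0 hτ1 (RR V v s i) (JJ V i) (uu V v sb i) hNform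
    (K := V.H i ⁻¹' K) (B := (V.rot v s).H i ⁻¹' K') (W := V.H i ⁻¹' W)
    (((Adm.closed hK).preimage (V.H i).continuous).measurableSet) pK Bclosed Bconv Bsymm
    (V.H i v) t (XX V i) (r := r) (h := h) (κ := 1 / p.rho ^ 2) hr0 hh0 (by linarith) hcapX
    hrE.1 ((Wclosed.preimage (V.H i).continuous).measurableSet) (by
      intro x hx y hy1 hy2 hy3
      rw [mem_preimage, map_add, map_smul, map_smul]
      refine ⟨(V.H i x, V.H i y), ⟨hx, ?_⟩, rfl⟩
      refine ⟨H_mem V i y, ?_, ?_, hr2 y hy3⟩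
      · rw [mem_preimage, H_RR V hi.le] at hy1; exact hy1
      · rw [inner_H_comm] at hy2; exact hy2) hpos
  -- logarithms
  set e : ℝ := (∫ x in V.H i ⁻¹' K, ⟪n, x⟫ ^ 2 ∂γ) / γ.real (V.H i ⁻¹' K) with he
  set pt : ℝ := γ.real {g : E | |⟪Sc n (1 / √(1 - τ)) (V.H i v), g⟫| ≤ t} with hptdef
  set su : ℝ := ∑ k ∈ JJ V i, ‖uu V v sb i k‖ ^ 2 with hsu
  have hpos' : 0 < 1 - 32 * h * (1 / p.rho ^ 2) := by
    have : 32 * h * (1 / p.rho ^ 2) ≤ 32 * 1 * (1 / 256) := by gcongr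
    linarith
  have hWpos : 0 < γ.real (V.H i ⁻¹' W) := by
    have h1 : 0 < γ.real (V.H i ⁻¹' W) ^ 2 := by
      refine lt_of_lt_of_le ?_ hlev
      positivity
    by_contra hcon
    have : γ.real (V.H i ⁻¹' W) = 0 := le_antisymm (not_lt.1 hcon) measureReal_nonneg
    rw [this] at h1
    norm_num at h1
  have hlog := Real.log_le_log (by positivity) hlev
  rw [Real.log_pow, Real.log_mul (by positivity) (Real.exp_pos _).ne', Real.log_exp,
    Real.log_mul pK.ne' (by positivity), Real.log_mul (by positivity) hpos'.ne',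
    Real.log_mul (by positivity) hpt.ne', Real.log_mul (Real.exp_pos _).ne' pK'.ne',
    Real.log_exp] at hlog
  push_cast at hlog
  have Wadm : Adm p V i W := ⟨Wclosed, Wconv, Wsymm, Wcap, by rw [gW]; exact hWpos⟩
  have hD := D_le hl.le Wadm hi μ
  -- support functions
  have hEh : 2 * Eh W μ ≤ Eh K μ + Eh K' μ + s * t * S μ v := by
    have hz : ∀ z : E, 2 * hs W z ≤ hs K z + (hs K' z + s * t * |⟪v, z⟫|) := by
      intro z
      have h1 : hs W z ≤ (hs K z + (hs K' z + s * t * |⟪v, z⟫|)) / 2 := by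
        refine hs_le (Adm.nonempty Wadm) ?_
        rintro _ ⟨⟨x, y⟩, ⟨hx, hy⟩, rfl⟩
        have a1 := Adm.le_hs hK hi hx z
        have hi' : i < (V.rot v s).n := hi
        have a2 := Adm.le_hs hK' hi' hy.2.1 z
        have a3 : ⟪y, z⟫ = ⟪Ts v s y, z⟫ + s * ⟪v, y⟫ * ⟪v, z⟫ := by
          rw [Ts_apply, inner_sub_left, inner_smul_left]; simp
        have a4 : ⟪v, y⟫ * ⟪v, z⟫ ≤ t * |⟪v, z⟫| := by
          refine (le_abs_self _).trans ?_
          rw [abs_mul]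
          exact mul_le_mul_of_nonneg_right hy.2.2.1 (abs_nonneg _)
        have a5 := mul_le_mul_of_nonneg_left a4 hs0.le
        simp only [inner_add_left, inner_smul_left, conj_trivial]
        linarith
      linarith
    unfold Eh S
    rw [← Multiset.sum_map_mul_left, ← Multiset.sum_map_mul_left, ← Multiset.sum_map_add,
      ← Multiset.sum_map_add]
    refine Multiset.sum_map_le_sum_map _ _ ?_
    intro z _
    have := hz z
    linarith
  have hsize := uu_size V hv hs0 hs1 hsb hi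
  rw [← hsbdef, ← hsu] at hsize
  have hNle := N_le (v := v) V i hi
  have hlcap : -Real.log (1 - 32 * h * (1 / p.rho ^ 2))
      ≤ 64 / p.rho ^ 2 * (sb * (V.b v i + BB V v i)) := by
    have h1 : 32 * h * (1 / p.rho ^ 2) ≤ 1 / 8 := by
      have : 32 * h * (1 / p.rho ^ 2) ≤ 32 * 1 * (1 / 256) := by gcongr
      linarith
    refine (neg_log_one_sub (by positivity) h1).trans ?_
    have h2 : h ≤ sb * (V.b v i + BB V v i) :=
      hhN.trans (mul_le_mul_of_nonneg_left hNle sb0.le)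
    calc 2 * (32 * h * (1 / p.rho ^ 2)) = 64 / p.rho ^ 2 * h := by ring
      _ ≤ _ := mul_le_mul_of_nonneg_left h2 (by positivity)
  unfold val at hD ⊢
  rw [gW] at hD
  rw [gK, gK']
  have hlmul := mul_le_mul_of_nonneg_left hlog hl.le
  have hsz2 := mul_le_mul_of_nonneg_left hsize hl.le
  have hcap2 := mul_le_mul_of_nonneg_left hlcap hl.le
  nlinarith

end Crest.Agent.R239.Lv303
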