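import Crest.Agent.R239.LineGauss
import Crest.Agent.R239.Gau4

/-!
# R239, block G4 : the mixture lemma (helper223)

* `PLd` : midpoint Prekopa–Leindler with a multiplicative defect depending on the difference.
* `PLd_std` : for the standard Gaussian measure of `E` the defect `exp (‖x - y‖² / 8)` is allowed.
* `mix_core` : `(∫_K e^{-p/2} dγ) (∫_Q e^{q₀/2} dγ) ≤ γ(W)²` as soon as `q₀ r ≤ p k + ‖k - r‖²/2`.
* `mix_log` : the mixture lemma in logarithmic form.
-/

set_option autoImplicit false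
set_option linter.unusedSectionVars false

open MeasureTheory ProbabilityTheory Set
open scoped ENNReal NNReal RealInnerProductSpace

namespace Crest.Agent.R239.Mix223

open Crest.Agent.Lib.PrekopaLeindler Crest.Agent.R239

/-- Midpoint Prekopa–Leindler with a defect `c (x - y)`. -/
def PLd (E : Type*) [AddCommGroup E] [Module ℝ E] [MeasurableSpace E] (μ : Measure E)
    (c : E → ℝ≥0∞) : Prop :=
  ∀ f g h : E → ℝ≥0∞, Measurable f → Measurable g → Measurable h →
    (∀ x y, f x ^ (1 / 2 : ℝ) * g y ^ (1 / 2 : ℝ) ≤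
      c (x - y) * h ((1 / 2 : ℝ) • x + (1 / 2 : ℝ) • y)) →
    (∫⁻ x, f x ∂μ) ^ (1 / 2 : ℝ) * (∫⁻ x, g x ∂μ) ^ (1 / 2 : ℝ) ≤ ∫⁻ x, h x ∂μ

theorem PLd.prod {E F : Type*} [AddCommGroup E] [Module ℝ E] [MeasurableSpace E]
    [AddCommGroup F] [Module ℝ F] [MeasurableSpace F] {μ : Measure E} {ν : Measure F}
    [SFinite μ] [SFinite ν] {c : E → ℝ≥0∞} {d : F → ℝ≥0∞}
    (hE : PLd E μ c) (hF : PLd F ν d) :
    PLd (E × F) (μ.prod ν) (fun p => c p.1 * d p.2) := by
  intro f g h hf hg hh H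
  rw [lintegral_prod _ hf.aemeasurable, lintegral_prod _ hg.aemeasurable,
    lintegral_prod _ hh.aemeasurable]
  refine hE _ _ _ hf.lintegral_prod_right' hg.lintegral_prod_right'
    hh.lintegral_prod_right' ?_
  intro x y
  have hm : Measurable fun z : F => h ((1 / 2 : ℝ) • x + (1 / 2 : ℝ) • y, z) :=
    hh.comp measurable_prodMk_left
  rw [← lintegral_const_mul _ hm]
  refine hF _ _ _ (hf.comp measurable_prodMk_left) (hg.comp measurable_prodMk_left)
    (hm.const_mul _) ?_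
  intro x' y'
  have := H (x, x') (y, y')
  simp only [Prod.fst_sub, Prod.snd_sub, Prod.smul_mk, Prod.mk_add_mk] at this
  calc f (x, x') ^ (1 / 2 : ℝ) * g (y, y') ^ (1 / 2 : ℝ) ≤ _ := this
    _ = d (x' - y') * (c (x - y) * h ((1 / 2 : ℝ) • x + (1 / 2 : ℝ) • y,
          (1 / 2 : ℝ) • x' + (1 / 2 : ℝ) • y')) := by ring

theorem PLd.of_measurePreserving {E F : Type*} [AddCommGroup E] [Module ℝ E] [MeasurableSpace E]
    [AddCommGroup F] [Module ℝ F] [MeasurableSpace F] {μ : Measure E} {ν : Measure F}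
    (e : E → F) (he : MeasurePreserving e μ ν)
    (hlin : ∀ (a b : ℝ) (x y : E), e (a • x + b • y) = a • e x + b • e y)
    {c : E → ℝ≥0∞} {d : F → ℝ≥0∞} (hcd : ∀ x, d (e x) = c x)
    (hE : PLd E μ c) : PLd F ν d := by
  intro f g h hf hg hh H
  rw [← he.lintegral_comp hf, ← he.lintegral_comp hg, ← he.lintegral_comp hh]
  refine hE _ _ _ (hf.comp he.measurable) (hg.comp he.measurable) (hh.comp he.measurable) ?_
  intro x y
  have h1 : e (x - y) = e x - e y := by
    have := hlin 1 (-1) x y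
    simpa [sub_eq_add_neg] using this
  rw [hlin, ← hcd, h1]
  exact H _ _

theorem PLd_g1 : PLd ℝ g1 (fun x => ENNReal.ofReal (Real.exp (x ^ 2 / 8))) := by
  have hd : g1 = volume.withDensity (gaussianPDF 0 1) := gaussianReal_of_var_ne_zero 0 one_ne_zero
  intro f g h hf hg hh H
  have hw := measurable_gaussianPDF 0 1
  rw [hd, lintegral_withDensity_eq_lintegral_mul _ hw hf,
    lintegral_withDensity_eq_lintegral_mul _ hw hg,
    lintegral_withDensity_eq_lintegral_mul _ hw hh]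
  have key := PL_real (1 / 2) (by norm_num) (by norm_num) (gaussianPDF 0 1 * f)
    (gaussianPDF 0 1 * g) (gaussianPDF 0 1 * h) (hw.mul hf) (hw.mul hg) (hw.mul hh) ?_
  · have h12 : (1 - 1 / 2 : ℝ) = 1 / 2 := by norm_num
    rw [h12] at key
    exact key
  intro x y
  have h12 : (1 - 1 / 2 : ℝ) = 1 / 2 := by norm_num
  rw [h12]
  simp only [Pi.mul_apply]
  rw [ENNReal.mul_rpow_of_nonneg _ _ (by norm_num), ENNReal.mul_rpow_of_nonneg _ _ (by norm_num)]
  have hwxy : gaussianPDF 0 1 x ^ (1 / 2 : ℝ) * gaussianPDF 0 1 y ^ (1 / 2 : ℝ) *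
      ENNReal.ofReal (Real.exp ((x - y) ^ 2 / 8)) =
      gaussianPDF 0 1 ((1 / 2 : ℝ) • x + (1 / 2 : ℝ) • y) := by
    simp only [gaussianPDF]
    rw [ENNReal.ofReal_rpow_of_nonneg (gaussianPDFReal_nonneg _ _ _) (by norm_num),
      ENNReal.ofReal_rpow_of_nonneg (gaussianPDFReal_nonneg _ _ _) (by norm_num),
      ← ENNReal.ofReal_mul (Real.rpow_nonneg (gaussianPDFReal_nonneg _ _ _) _),
      ← ENNReal.ofReal_mul (mul_nonneg (Real.rpow_nonneg (gaussianPDFReal_nonneg _ _ _) _)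
        (Real.rpow_nonneg (gaussianPDFReal_nonneg _ _ _) _))]
    congr 1
    simp only [gaussianPDFReal, NNReal.coe_one, mul_one, sub_zero, smul_eq_mul]
    have hc : (0:ℝ) < (Real.sqrt (2 * Real.pi))⁻¹ := by positivity
    rw [Real.mul_rpow hc.le (Real.exp_pos _).le, Real.mul_rpow hc.le (Real.exp_pos _).le,
      ← Real.exp_mul, ← Real.exp_mul]
    have h3 : (Real.sqrt (2 * Real.pi))⁻¹ ^ (1 / 2 : ℝ) * (Real.sqrt (2 * Real.pi))⁻¹ ^ (1 / 2 : ℝ)
        = (Real.sqrt (2 * Real.pi))⁻¹ := by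
      rw [← Real.rpow_add hc]; norm_num
    calc _ = ((Real.sqrt (2 * Real.pi))⁻¹ ^ (1 / 2 : ℝ) *
          (Real.sqrt (2 * Real.pi))⁻¹ ^ (1 / 2 : ℝ)) *
          (Real.exp (-x ^ 2 / 2 * (1 / 2)) * Real.exp (-y ^ 2 / 2 * (1 / 2)) *
            Real.exp ((x - y) ^ 2 / 8)) := by ring
      _ = _ := by
        rw [h3, ← Real.exp_add, ← Real.exp_add]
        congr 2
        ring
  calc gaussianPDF 0 1 x ^ (1 / 2 : ℝ) * f x ^ (1 / 2 : ℝ) *
        (gaussianPDF 0 1 y ^ (1 / 2 : ℝ) * g y ^ (1 / 2 : ℝ))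
      = (gaussianPDF 0 1 x ^ (1 / 2 : ℝ) * gaussianPDF 0 1 y ^ (1 / 2 : ℝ)) *
        (f x ^ (1 / 2 : ℝ) * g y ^ (1 / 2 : ℝ)) := by ring
    _ ≤ (gaussianPDF 0 1 x ^ (1 / 2 : ℝ) * gaussianPDF 0 1 y ^ (1 / 2 : ℝ)) *
        (ENNReal.ofReal (Real.exp ((x - y) ^ 2 / 8)) *
          h ((1 / 2 : ℝ) • x + (1 / 2 : ℝ) • y)) := by
        exact mul_le_mul' le_rfl (H x y)
    _ = _ := by rw [← hwxy]; ring

theorem PLd_gp (m : ℕ) : PLd (Fin m → ℝ) (gp m)
    (fun x => ENNReal.ofReal (Real.exp ((∑ i, x i ^ 2) / 8))) := by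
  induction m with
  | zero =>
    intro f g h hf hg hh H
    have : gp 0 = Measure.dirac (fun i => 0) := Measure.pi_of_empty _ _
    rw [this, lintegral_dirac, lintegral_dirac, lintegral_dirac]
    have := H (fun i => 0) (fun i => 0)
    have h0 : ((1 / 2 : ℝ) • (fun i => 0) + (1 / 2 : ℝ) • (fun i => 0) : Fin 0 → ℝ)
        = fun i => 0 := by
      ext i; exact i.elim0
    rw [h0] at this
    simpa using this
  | succ n ih =>
    refine PLd.of_measurePreserving
      (MeasurableEquiv.piFinSuccAbove (fun _ : Fin (n+1) => ℝ) 0).symm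
      ((measurePreserving_piFinSuccAbove (fun _ : Fin (n+1) => gaussianReal 0 1) 0).symm) ?_ ?_
        (PLd_g1.prod ih)
    · intro a b x y
      ext i
      refine Fin.cases ?_ (fun j => ?_) i
      · simp [MeasurableEquiv.piFinSuccAbove]
      · simp [MeasurableEquiv.piFinSuccAbove]
    · rintro ⟨s, z⟩
      simp only [MeasurableEquiv.piFinSuccAbove, Fin.sum_univ_succ]
      rw [← ENNReal.ofReal_mul (Real.exp_pos _).le, ← Real.exp_add]
      simp
      congr 2
      ring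

section std

variable {E : Type*} [NormedAddCommGroup E] [InnerProductSpace ℝ E] [FiniteDimensional ℝ E]
  [MeasurableSpace E] [BorelSpace E]

/-- **Midpoint Prekopa–Leindler for the standard Gaussian with the exact quadratic defect.** -/
theorem PLd_std : PLd E (stdGaussian E)
    (fun x => ENNReal.ofReal (Real.exp (‖x‖ ^ 2 / 8))) := by
  refine PLd.of_measurePreserving
    (fun x : Fin (Module.finrank ℝ E) → ℝ => ∑ i, x i • stdOrthonormalBasis ℝ E i)
    ⟨by fun_prop, rfl⟩ ?_ ?_ (PLd_gp _)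
  · intro a b x y
    simp [add_smul, Finset.sum_add_distrib, Finset.smul_sum, mul_smul]
  · intro x
    rw [norm_sq_sum_smul]

/-- Core of the mixture lemma. -/
theorem mix_core {K Q W : Set E} (hK : MeasurableSet K) (hQ : MeasurableSet Q)
    (hW : MeasurableSet W)
    (hmid : ∀ k ∈ K, ∀ r ∈ Q, (1 / 2 : ℝ) • k + (1 / 2 : ℝ) • r ∈ W)
    {p q : E → ℝ} (hp : Measurable p) (hq : Measurable q)
    (H : ∀ k ∈ K, ∀ r ∈ Q, q r ≤ p k + ‖k - r‖ ^ 2 / 2) :
    (∫⁻ x in K, ENNReal.ofReal (Real.exp (-(p x) / 2)) ∂(stdGaussian E)) *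
      (∫⁻ x in Q, ENNReal.ofReal (Real.exp (q x / 2)) ∂(stdGaussian E)) ≤
      (stdGaussian E W) ^ 2 := by
  classical
  set f : E → ℝ≥0∞ := K.indicator fun x => ENNReal.ofReal (Real.exp (-(p x) / 2)) with hf
  set g : E → ℝ≥0∞ := Q.indicator fun x => ENNReal.ofReal (Real.exp (q x / 2)) with hg
  have hfm : Measurable f := by
    refine Measurable.indicator ?_ hK
    fun_prop
  have hgm : Measurable g := by
    refine Measurable.indicator ?_ hQ
    fun_prop
  have key := PLd_std (E := E) f g (W.indicator 1) hfm hgm (measurable_one.indicator hW) ?_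
  · rw [lintegral_indicator hK, lintegral_indicator hQ, lintegral_indicator_one hW] at key
    have h2 := ENNReal.rpow_le_rpow key (z := 2) (by norm_num)
    rw [ENNReal.mul_rpow_of_nonneg _ _ (by norm_num), ← ENNReal.rpow_mul, ← ENNReal.rpow_mul] at h2
    norm_num at h2
    exact h2
  intro x y
  by_cases hx : x ∈ K
  swap
  · simp [hf, indicator_of_notMem hx]
  by_cases hy : y ∈ Q
  swap
  · simp [hg, indicator_of_notMem hy]
  rw [hf, hg, indicator_of_mem hx, indicator_of_mem hy, indicator_of_mem (hmid x hx y hy),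
    Pi.one_apply, mul_one, ENNReal.ofReal_rpow_of_nonneg (Real.exp_pos _).le (by norm_num),
    ENNReal.ofReal_rpow_of_nonneg (Real.exp_pos _).le (by norm_num),
    ← ENNReal.ofReal_mul (Real.rpow_nonneg (Real.exp_pos _).le _)]
  apply ENNReal.ofReal_le_ofReal
  rw [← Real.exp_mul, ← Real.exp_mul, ← Real.exp_add]
  apply Real.exp_le_exp.2
  have := H x hx y hy
  linarith

/-- Jensen's inequality for `exp` on a set of positive measure. -/
theorem jensen_set {X : Type*} [MeasurableSpace X] {μ : Measure X} [IsFiniteMeasure μ] {K : Set X}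
    (hK : MeasurableSet K) (hK0 : 0 < μ.real K) {y : X → ℝ}
    (hy : IntegrableOn y K μ) (hey : IntegrableOn (fun x => Real.exp (y x)) K μ) :
    Real.exp ((∫ x in K, y x ∂μ) / μ.real K) * μ.real K ≤ ∫ x in K, Real.exp (y x) ∂μ := by
  set m := (∫ x in K, y x ∂μ) / μ.real K with hm
  have h1 : ∫ x in K, Real.exp m * (1 + (y x - m)) ∂μ ≤ ∫ x in K, Real.exp (y x) ∂μ := by
    refine setIntegral_mono_on ?_ hey hK ?_
    · exact (((integrable_const (1 : ℝ)).add (hy.sub (integrable_const m))).const_mul _)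
    · intro x _
      have h2 := Real.add_one_le_exp (y x - m)
      have h3 : Real.exp (y x) = Real.exp m * Real.exp (y x - m) := by
        rw [← Real.exp_add]; congr 1; ring
      rw [h3]
      exact mul_le_mul_of_nonneg_left (by linarith) (Real.exp_pos _).le
  refine le_trans (le_of_eq ?_) h1
  rw [integral_const_mul]
  congr 1
  have e1 : ∫ a in K, (1 + (y a - m)) ∂μ = (∫ _ in K, (1 - m) ∂μ) + ∫ a in K, y a ∂μ := by
    rw [← integral_add (integrable_const _) hy]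
    refine integral_congr_ae (Filter.Eventually.of_forall fun a => ?_)
    simp only; ring
  rw [e1, setIntegral_const, smul_eq_mul, hm]
  field_simp
  ring

/-- Cauchy–Schwarz for the form of a nonnegative symmetric operator, as used in the mixture lemma. -/
lemma form_le {T : E →L[ℝ] E} (hTs : ∀ x y, ⟪T x, y⟫ = ⟪x, T y⟫) (hT0 : ∀ x, 0 ≤ ⟪T x, x⟫)
    {τ : ℝ} (hτ0 : 0 ≤ τ) (hτ : τ ≤ 1 / 4) (hTτ : ∀ x, ⟪T x, x⟫ ≤ τ * ‖x‖ ^ 2) (k r : E) :
    ⟪T r, r⟫ ≤ (1 + 4 * τ) * ⟪T k, k⟫ + ‖k - r‖ ^ 2 / 2 := by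
  obtain ⟨d, rfl⟩ : ∃ d, r = k + d := ⟨r - k, by abel⟩
  have hnd : ‖k - (k + d)‖ ^ 2 = ‖d‖ ^ 2 := by
    have : k - (k + d) = -d := by abel
    rw [this, norm_neg]
  have hsym : ⟪T d, k⟫ = ⟪T k, d⟫ := by rw [hTs, real_inner_comm]
  have hexp : ⟪T (k + d), k + d⟫ = ⟪T k, k⟫ + 2 * ⟪T k, d⟫ + ⟪T d, d⟫ := by
    rw [map_add, inner_add_left, inner_add_right, inner_add_right, hsym]; ring
  have hd1 := hTτ d
  have hk0 := hT0 k
  have hcs : ∀ t : ℝ, 2 * t * ⟪T k, d⟫ ≤ t ^ 2 * ⟪T k, k⟫ + τ * ‖d‖ ^ 2 := by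
    intro t
    have h := hT0 (t • k - d)
    have h2 : ⟪T (t • k - d), t • k - d⟫
        = t ^ 2 * ⟪T k, k⟫ - 2 * t * ⟪T k, d⟫ + ⟪T d, d⟫ := by
      rw [map_sub, map_smul, inner_sub_left, inner_sub_right, inner_sub_right,
        real_inner_smul_left, real_inner_smul_right, real_inner_smul_left, real_inner_smul_right,
        hsym]
      ring
    rw [h2] at h
    linarith
  have key : 2 * ⟪T k, d⟫ ≤ 4 * τ * ⟪T k, k⟫ + ‖d‖ ^ 2 / 4 := by
    rcases hτ0.eq_or_lt with h0 | hpos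
    · rw [← h0] at hcs ⊢
      have : ⟪T k, d⟫ ≤ 0 := by
        by_contra hc
        push Not at hc
        have h3 := hcs (⟪T k, d⟫ / (⟪T k, k⟫ + 1))
        have h4 : 0 < ⟪T k, k⟫ + 1 := by linarith
        have h5 : 2 * (⟪T k, d⟫ / (⟪T k, k⟫ + 1)) * ⟪T k, d⟫
            = 2 * (⟪T k, d⟫ ^ 2 / (⟪T k, k⟫ + 1)) := by ring
        have h6 : (⟪T k, d⟫ / (⟪T k, k⟫ + 1)) ^ 2 * ⟪T k, k⟫ ≤ ⟪T k, d⟫ ^ 2 / (⟪T k, k⟫ + 1) := by
          rw [div_pow, div_mul_eq_mul_div, div_le_div_iff₀ (by positivity) h4]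
          nlinarith [sq_nonneg ⟪T k, d⟫, mul_nonneg (sq_nonneg ⟪T k, d⟫) h4.le]
        have h7 : 0 < ⟪T k, d⟫ ^ 2 / (⟪T k, k⟫ + 1) := by positivity
        rw [h5] at h3
        linarith
      nlinarith [sq_nonneg ‖d‖]
    · have h3 := hcs (4 * τ)
      have h4 : 4 * τ * (2 * ⟪T k, d⟫) ≤ 4 * τ * (4 * τ * ⟪T k, k⟫ + ‖d‖ ^ 2 / 4) := by
        nlinarith
      exact le_of_mul_le_mul_left h4 (by linarith)
  rw [hexp, hnd]
  nlinarith [sq_nonneg ‖d‖]

/-- a continuous quadratic bound gives integrability of `exp (q/2)` -/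
lemma integrable_exp_half {q : E → ℝ} (hq : Measurable q) {τ : ℝ} (hτ : τ < 1)
    (hqτ : ∀ x, q x ≤ τ * ‖x‖ ^ 2) :
    Integrable (fun x => Real.exp (q x / 2)) (stdGaussian E) := by
  refine (integrable_exp_norm_sq (E := E) hτ).mono' (by fun_prop) (Filter.Eventually.of_forall ?_)
  intro x
  rw [Real.norm_eq_abs, abs_of_pos (Real.exp_pos _)]
  exact Real.exp_le_exp.2 (by have := hqτ x; linarith)

lemma integrable_form (T : E →L[ℝ] E) :
    Integrable (fun x => ⟪T x, x⟫) (stdGaussian E) := by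
  have h1 : Integrable (fun x : E => Real.exp (1 / 2 * ‖x‖ ^ 2 / 2)) (stdGaussian E) :=
    integrable_exp_norm_sq (by norm_num)
  refine (h1.const_mul (4 * ‖T‖)).mono' (by fun_prop) (Filter.Eventually.of_forall ?_)
  intro x
  have h2 : |⟪T x, x⟫| ≤ ‖T‖ * ‖x‖ ^ 2 := by
    calc |⟪T x, x⟫| ≤ ‖T x‖ * ‖x‖ := abs_real_inner_le_norm _ _
      _ ≤ ‖T‖ * ‖x‖ * ‖x‖ := by gcongr; exact T.le_opNorm x
      _ = ‖T‖ * ‖x‖ ^ 2 := by ring
  rw [Real.norm_eq_abs]
  have h3 := Real.add_one_le_exp (1 / 2 * ‖x‖ ^ 2 / 2)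
  have h4 : ‖x‖ ^ 2 ≤ 4 * Real.exp (1 / 2 * ‖x‖ ^ 2 / 2) := by linarith
  calc |⟪T x, x⟫| ≤ ‖T‖ * ‖x‖ ^ 2 := h2
    _ ≤ ‖T‖ * (4 * Real.exp (1 / 2 * ‖x‖ ^ 2 / 2)) := by gcongr
    _ = _ := by ring

/-- **Mixture lemma (236), logarithmic form.**  `q` (possibly indefinite) is the form of the tilt,
`⟪T x, x⟫ ≥ q x` a nonnegative majorant with `T ≤ τ ≤ 1/4`. -/
theorem mix_log {K Q W : Set E} (hK : MeasurableSet K) (hQ : MeasurableSet Q)
    (hW : MeasurableSet W)
    (hmid : ∀ k ∈ K, ∀ r ∈ Q, (1 / 2 : ℝ) • k + (1 / 2 : ℝ) • r ∈ W)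
    (hK0 : 0 < (stdGaussian E).real K) (hQ0 : 0 < (stdGaussian E).real Q)
    {T : E →L[ℝ] E} (hTs : ∀ x y, ⟪T x, y⟫ = ⟪x, T y⟫) (hT0 : ∀ x, 0 ≤ ⟪T x, x⟫)
    {τ : ℝ} (hτ0 : 0 ≤ τ) (hτ : τ ≤ 1 / 4) (hTτ : ∀ x, ⟪T x, x⟫ ≤ τ * ‖x‖ ^ 2)
    {q : E → ℝ} (hq : Measurable q) (hqi : Integrable q (stdGaussian E))
    (hqT : ∀ x, q x ≤ ⟪T x, x⟫) :
    Real.log ((stdGaussian E).real K)
      + Real.log ((∫ x in Q, Real.exp (q x / 2) ∂(stdGaussian E)) /
          (∫ x, Real.exp (q x / 2) ∂(stdGaussian E)))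
      + (1 / 2) * ((∫ x, q x ∂(stdGaussian E))
          - (1 + 4 * τ) * ((∫ x in K, ⟪T x, x⟫ ∂(stdGaussian E)) / (stdGaussian E).real K))
      ≤ 2 * Real.log ((stdGaussian E).real W) := by
  set γ : Measure E := stdGaussian E with hγ
  have hTm : Measurable fun x : E => ⟪T x, x⟫ := by fun_prop
  have hTi := integrable_form T
  set p : E → ℝ := fun x => (1 + 4 * τ) * ⟪T x, x⟫ with hp
  have hpm : Measurable p := hTm.const_mul _
  have hpi : Integrable p γ := hTi.const_mul _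
  have hqτ : ∀ x, q x ≤ τ * ‖x‖ ^ 2 := fun x => (hqT x).trans (hTτ x)
  have heq : Integrable (fun x => Real.exp (q x / 2)) γ :=
    integrable_exp_half hq (by linarith) hqτ
  have hep : Integrable (fun x => Real.exp (-(p x) / 2)) γ := by
    refine (integrable_const (1 : ℝ)).mono' (by fun_prop) (Filter.Eventually.of_forall ?_)
    intro x
    rw [Real.norm_eq_abs, abs_of_pos (Real.exp_pos _), Real.exp_le_one_iff]
    have : 0 ≤ p x := mul_nonneg (by linarith) (hT0 x)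
    linarith
  have core := mix_core (E := E) hK hQ hW hmid hpm hq (fun k _ r _ =>
    (hqT r).trans (form_le hTs hT0 hτ0 hτ hTτ k r))
  set A : ℝ := ∫ x in K, Real.exp (-(p x) / 2) ∂γ with hA
  set B : ℝ := ∫ x in Q, Real.exp (q x / 2) ∂γ with hB
  set Z : ℝ := ∫ x, Real.exp (q x / 2) ∂γ with hZ
  have hA' : ∫⁻ x in K, ENNReal.ofReal (Real.exp (-(p x) / 2)) ∂γ = ENNReal.ofReal A := by
    rw [hA, ofReal_integral_eq_lintegral_ofReal hep.integrableOn
      (Filter.Eventually.of_forall fun x => (Real.exp_pos _).le)]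
  have hB' : ∫⁻ x in Q, ENNReal.ofReal (Real.exp (q x / 2)) ∂γ = ENNReal.ofReal B := by
    rw [hB, ofReal_integral_eq_lintegral_ofReal heq.integrableOn
      (Filter.Eventually.of_forall fun x => (Real.exp_pos _).le)]
  have hA0 : 0 ≤ A := integral_nonneg fun x => (Real.exp_pos _).le
  have hB0 : 0 ≤ B := integral_nonneg fun x => (Real.exp_pos _).le
  have hAB : A * B ≤ (γ.real W) ^ 2 := by
    rw [hA', hB', ← ENNReal.ofReal_mul hA0] at core
    have h1 : (γ W) ^ 2 = ENNReal.ofReal ((γ.real W) ^ 2) := by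
      rw [ENNReal.ofReal_pow measureReal_nonneg, ofReal_measureReal (measure_ne_top _ _)]
    rw [h1] at core
    exact (ENNReal.ofReal_le_ofReal_iff (by positivity)).1 core
  -- Jensen on `K`
  have hJK : Real.exp (-(1 / 2) * ((1 + 4 * τ) * ((∫ x in K, ⟪T x, x⟫ ∂γ) / γ.real K))) * γ.real K
      ≤ A := by
    have h := jensen_set (μ := γ) hK hK0 (y := fun x => -(p x) / 2)
      ((hpi.neg.div_const 2).integrableOn) hep.integrableOn
    refine le_trans (le_of_eq ?_) h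
    congr 2
    have : ∫ x in K, -(p x) / 2 ∂γ = -(1 / 2) * ((1 + 4 * τ) * ∫ x in K, ⟪T x, x⟫ ∂γ) := by
      rw [← integral_const_mul, ← integral_const_mul]
      refine integral_congr_ae (Filter.Eventually.of_forall fun x => ?_)
      simp only [hp]; ring
    rw [this]; ring
  -- Jensen for `Z`
  have hJZ : Real.exp ((1 / 2) * ∫ x, q x ∂γ) ≤ Z := by
    have h := jensen_set (μ := γ) MeasurableSet.univ (by simp [hγ]) (y := fun x => q x / 2)
      ((hqi.div_const 2).integrableOn) heq.integrableOn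
    simp only [Measure.restrict_univ, probReal_univ, div_one, mul_one] at h
    refine le_trans (le_of_eq ?_) h
    congr 1
    rw [← integral_const_mul]
    refine integral_congr_ae (Filter.Eventually.of_forall fun x => ?_)
    simp only; ring
  -- positivity
  have hApos : 0 < A := lt_of_lt_of_le (mul_pos (Real.exp_pos _) hK0) hJK
  have hZpos : 0 < Z := lt_of_lt_of_le (Real.exp_pos _) hJZ
  have hBpos : 0 < B := by
    have h := jensen_set (μ := γ) hQ hQ0 (y := fun x => q x / 2)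
      ((hqi.div_const 2).integrableOn) heq.integrableOn
    exact lt_of_lt_of_le (mul_pos (Real.exp_pos _) hQ0) h
  have hWpos : 0 < γ.real W := by
    by_contra hc
    have : γ.real W = 0 := le_antisymm (not_lt.1 hc) measureReal_nonneg
    rw [this] at hAB
    have := mul_pos hApos hBpos
    nlinarith
  have l1 : Real.log A + Real.log B ≤ 2 * Real.log (γ.real W) := by
    rw [← Real.log_mul hApos.ne' hBpos.ne']
    calc Real.log (A * B) ≤ Real.log ((γ.real W) ^ 2) :=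
          Real.log_le_log (mul_pos hApos hBpos) hAB
      _ = _ := by rw [Real.log_pow]; norm_num
  have l2 : -(1 / 2) * ((1 + 4 * τ) * ((∫ x in K, ⟪T x, x⟫ ∂γ) / γ.real K))
      + Real.log (γ.real K) ≤ Real.log A := by
    have h := Real.log_le_log (mul_pos (Real.exp_pos _) hK0) hJK
    rwa [Real.log_mul (Real.exp_pos _).ne' hK0.ne', Real.log_exp] at h
  have l3 : (1 / 2) * ∫ x, q x ∂γ ≤ Real.log Z := by
    have h := Real.log_le_log (Real.exp_pos _) hJZ
    rwa [Real.log_exp] at h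
  rw [Real.log_div hBpos.ne' hZpos.ne']
  linarith

end std

end Crest.Agent.R239.Mix223
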