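import Crest.Agent.R239.FDef
import Crest.Agent.R239.Mix_223

/-! # R239, block G4 over FDef : `P_MIX` holds (helper223) -/

set_option autoImplicit false

open MeasureTheory ProbabilityTheory
open scoped RealInnerProductSpace

namespace Crest.Agent.R239.MixF223

open Crest.Agent.R239 Crest.Agent.R239.FD Crest.Agent.R239.Mix223

variable {E : Type*} [NormedAddCommGroup E] [InnerProductSpace ℝ E] [FiniteDimensional ℝ E]
  [MeasurableSpace E] [BorelSpace E]

theorem p_mix : P_MIX E := by
  intro T T0 τ hT hτ0 hτ hTτ hT0 K Q W hK hQ hW hmid hγK hγQ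
  have hsym : ∀ x y : E, ⟪T x, y⟫ = ⟪x, T y⟫ := fun x y => hT.isSymmetric x y
  have hpos : ∀ x : E, 0 ≤ ⟪T x, x⟫ := fun x => hT.inner_nonneg_left x
  have hT0' : Measurable fun g : E => ⟪T0 g, g⟫ := by fun_prop
  exact mix_log hK hQ hW hmid hγK hγQ hsym hpos hτ0 hτ hTτ hT0' (integrable_form T0) hT0

end Crest.Agent.R239.MixF223
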