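import Crest.Agent.R239.LineGauss
import Crest.Agent.R239.Gau4

/-!
# R239 (S0370), block G4 : the mixture lemma for the standard Gaussian (helper419)

* `SPL_std` : Prekopa–Leindler for `stdGaussian E` at the midpoint with the Gaussian deficit
  `exp (-‖x - y‖ ^ 2 / 8)`.
* `mix_lintegral`, `mix_real`, `mix_log`, `mix_log_quad`.
-/

set_option autoImplicit false
set_option linter.unusedSectionVars false

open MeasureTheory ProbabilityTheory Set
open scoped ENNReal NNReal RealInnerProductSpace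

namespace Crest.Agent.R239.MixG

open Crest.Agent.Lib.PrekopaLeindler Crest.Agent.R239

/-- midpoint Prekopa–Leindler with deficit `exp (-(N (x - y)) / 8)`. -/
def SPL (E : Type*) [AddCommGroup E] [Module ℝ E] [MeasurableSpace E] (N : E → ℝ)
    (μ : Measure E) : Prop :=
  ∀ f g h : E → ℝ≥0∞, Measurable f → Measurable g → Measurable h →
    (∀ x y, f x ^ (1/2:ℝ) * g y ^ (1/2:ℝ) * ENNReal.ofReal (Real.exp (-(N (x - y)) / 8)) ≤
      h ((1/2:ℝ) • x + (1/2:ℝ) • y)) →
    (∫⁻ x, f x ∂μ) ^ (1/2:ℝ) * (∫⁻ x, g x ∂μ) ^ (1/2:ℝ) ≤ ∫⁻ x, h x ∂μ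

lemma pdf_mid (x y : ℝ) :
    gaussianPDF 0 1 x ^ (1/2:ℝ) * gaussianPDF 0 1 y ^ (1/2:ℝ) =
      gaussianPDF 0 1 ((1/2:ℝ) • x + (1/2:ℝ) • y) *
        ENNReal.ofReal (Real.exp (-((x - y)^2) / 8)) := by
  simp only [gaussianPDF]
  rw [ENNReal.ofReal_rpow_of_nonneg (gaussianPDFReal_nonneg _ _ _) (by norm_num),
    ENNReal.ofReal_rpow_of_nonneg (gaussianPDFReal_nonneg _ _ _) (by norm_num),
    ← ENNReal.ofReal_mul (Real.rpow_nonneg (gaussianPDFReal_nonneg _ _ _) _),
    ← ENNReal.ofReal_mul (gaussianPDFReal_nonneg _ _ _)]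
  congr 1
  simp only [gaussianPDFReal, NNReal.coe_one, mul_one, sub_zero, smul_eq_mul]
  have hc : (0:ℝ) < (Real.sqrt (2 * Real.pi))⁻¹ := by positivity
  rw [Real.mul_rpow hc.le (Real.exp_pos _).le, Real.mul_rpow hc.le (Real.exp_pos _).le]
  have h3 : (Real.sqrt (2 * Real.pi))⁻¹ ^ (1/2:ℝ) * (Real.sqrt (2 * Real.pi))⁻¹ ^ (1/2:ℝ)
      = (Real.sqrt (2 * Real.pi))⁻¹ := by
    rw [← Real.rpow_add hc]; norm_num
  have h4 : Real.exp (-x ^ 2 / 2) ^ (1/2:ℝ) * Real.exp (-y ^ 2 / 2) ^ (1/2:ℝ) =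
      Real.exp (-(1/2 * x + 1/2 * y)^2 / 2) * Real.exp (-((x - y)^2) / 8) := by
    rw [← Real.exp_mul, ← Real.exp_mul, ← Real.exp_add, ← Real.exp_add]
    congr 1; ring
  calc _ = ((Real.sqrt (2 * Real.pi))⁻¹ ^ (1/2:ℝ) * (Real.sqrt (2 * Real.pi))⁻¹ ^ (1/2:ℝ)) *
        (Real.exp (-x ^ 2 / 2) ^ (1/2:ℝ) * Real.exp (-y ^ 2 / 2) ^ (1/2:ℝ)) := by ring
    _ = _ := by rw [h3, h4]; ring

theorem SPL_g1 : SPL ℝ (fun z => z^2) g1 := by
  intro f g h hf hg hh H
  have hd : g1 = volume.withDensity (gaussianPDF 0 1) := gaussianReal_of_var_ne_zero 0 one_ne_zero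
  have hm := measurable_gaussianPDF 0 1
  rw [hd, lintegral_withDensity_eq_lintegral_mul _ hm hf,
    lintegral_withDensity_eq_lintegral_mul _ hm hg, lintegral_withDensity_eq_lintegral_mul _ hm hh]
  have e : (1:ℝ) - 1/2 = 1/2 := by norm_num
  have := PL_real (1/2) (by norm_num) (by norm_num) (gaussianPDF 0 1 * f) (gaussianPDF 0 1 * g)
    (gaussianPDF 0 1 * h) (hm.mul hf) (hm.mul hg) (hm.mul hh) ?_
  · rw [e] at this; exact this
  · intro x y
    rw [e]
    simp only [Pi.mul_apply]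
    rw [ENNReal.mul_rpow_of_nonneg _ _ (by norm_num), ENNReal.mul_rpow_of_nonneg _ _ (by norm_num)]
    calc gaussianPDF 0 1 x ^ (1/2:ℝ) * f x ^ (1/2:ℝ) * (gaussianPDF 0 1 y ^ (1/2:ℝ) * g y ^ (1/2:ℝ))
        = (gaussianPDF 0 1 x ^ (1/2:ℝ) * gaussianPDF 0 1 y ^ (1/2:ℝ)) *
            (f x ^ (1/2:ℝ) * g y ^ (1/2:ℝ)) := by ring
      _ = gaussianPDF 0 1 ((1/2:ℝ) • x + (1/2:ℝ) • y) *
            (f x ^ (1/2:ℝ) * g y ^ (1/2:ℝ) * ENNReal.ofReal (Real.exp (-((x - y)^2) / 8))) := by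
          rw [pdf_mid]; ring
      _ ≤ _ := mul_le_mul_right (H x y) _

theorem SPL.prod {E F : Type*} [AddCommGroup E] [Module ℝ E] [MeasurableSpace E]
    [AddCommGroup F] [Module ℝ F] [MeasurableSpace F] {N : E → ℝ} {N' : F → ℝ}
    {μ : Measure E} {ν : Measure F}
    [SFinite μ] [SFinite ν] (hE : SPL E N μ) (hF : SPL F N' ν) :
    SPL (E × F) (fun p => N p.1 + N' p.2) (μ.prod ν) := by
  intro f g h hf hg hh H
  rw [lintegral_prod _ hf.aemeasurable, lintegral_prod _ hg.aemeasurable,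
    lintegral_prod _ hh.aemeasurable]
  refine hE _ _ _ hf.lintegral_prod_right' hg.lintegral_prod_right'
    hh.lintegral_prod_right' ?_
  intro x y
  have hh' : Measurable (fun z' => h ((1/2:ℝ) • x + (1/2:ℝ) • y, z')) :=
    hh.comp measurable_prodMk_left
  have key := hF (fun x' => f (x, x')) (fun y' => g (y, y'))
    (fun z' => h ((1/2:ℝ) • x + (1/2:ℝ) • y, z') * ENNReal.ofReal (Real.exp (N (x - y) / 8)))
    (hf.comp measurable_prodMk_left) (hg.comp measurable_prodMk_left)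
    (hh'.mul_const _) ?_
  · rw [lintegral_mul_const _ hh'] at key
    calc _ ≤ (∫⁻ z', h ((1/2:ℝ) • x + (1/2:ℝ) • y, z') ∂ν) *
          ENNReal.ofReal (Real.exp (N (x - y) / 8)) * ENNReal.ofReal (Real.exp (-(N (x - y)) / 8)) :=
          mul_le_mul_left key _
      _ = _ := by
          rw [mul_assoc, ← ENNReal.ofReal_mul (Real.exp_pos _).le, ← Real.exp_add]
          have : N (x - y) / 8 + -(N (x - y)) / 8 = 0 := by ring
          rw [this]; simp
  · intro x' y'
    have h1 := H (x, x') (y, y')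
    simp only [Prod.mk_sub_mk] at h1
    calc f (x, x') ^ (1/2:ℝ) * g (y, y') ^ (1/2:ℝ) * ENNReal.ofReal (Real.exp (-(N' (x' - y')) / 8))
        = f (x, x') ^ (1/2:ℝ) * g (y, y') ^ (1/2:ℝ) *
          ENNReal.ofReal (Real.exp (-(N (x - y) + N' (x' - y')) / 8)) *
            ENNReal.ofReal (Real.exp (N (x - y) / 8)) := by
          rw [mul_assoc (f (x, x') ^ (1/2:ℝ) * g (y, y') ^ (1/2:ℝ)),
            ← ENNReal.ofReal_mul (Real.exp_pos _).le, ← Real.exp_add]
          congr 3; ring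
      _ ≤ _ := mul_le_mul_left h1 _

theorem SPL.of_measurePreserving {E F : Type*} [AddCommGroup E] [Module ℝ E] [MeasurableSpace E]
    [AddCommGroup F] [Module ℝ F] [MeasurableSpace F] {N : E → ℝ} {N' : F → ℝ}
    {μ : Measure E} {ν : Measure F}
    (e : E → F) (he : MeasurePreserving e μ ν)
    (hlin : ∀ (a b : ℝ) (x y : E), e (a • x + b • y) = a • e x + b • e y)
    (hN : ∀ x y : E, N (x - y) = N' (e x - e y))
    (hE : SPL E N μ) : SPL F N' ν := by
  intro f g h hf hg hh H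
  rw [← he.lintegral_comp hf, ← he.lintegral_comp hg, ← he.lintegral_comp hh]
  refine hE _ _ _ (hf.comp he.measurable) (hg.comp he.measurable) (hh.comp he.measurable) ?_
  intro x y
  rw [hlin, hN]
  exact H _ _

theorem SPL_gp (m : ℕ) : SPL (Fin m → ℝ) (fun z => ∑ i, (z i)^2) (gp m) := by
  induction m with
  | zero =>
    intro f g h hf hg hh H
    have : gp 0 = Measure.dirac (fun i => 0) := Measure.pi_of_empty _ _
    rw [this, lintegral_dirac, lintegral_dirac, lintegral_dirac]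
    have h1 := H (fun i => 0) (fun i => 0)
    have h0 : ((1/2:ℝ) • (fun i => 0) + (1/2:ℝ) • (fun i => 0) : Fin 0 → ℝ) = fun i => 0 := by
      ext i; exact i.elim0
    rw [h0] at h1
    simp only [Finset.univ_eq_empty, Finset.sum_empty, neg_zero, zero_div, Real.exp_zero,
      ENNReal.ofReal_one, mul_one] at h1
    exact h1
  | succ n ih =>
    have hp : SPL (ℝ × (Fin n → ℝ)) (fun p => p.1^2 + ∑ i, (p.2 i)^2) (g1.prod (gp n)) :=
      SPL.prod (N := fun z : ℝ => z^2) (N' := fun z : Fin n → ℝ => ∑ i, (z i)^2) SPL_g1 ih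
    have hmp : MeasurePreserving (MeasurableEquiv.piFinSuccAbove (fun _ : Fin (n+1) => ℝ) 0).symm
        (g1.prod (gp n)) (gp (n+1)) :=
      (measurePreserving_piFinSuccAbove (fun _ : Fin (n+1) => gaussianReal 0 1) 0).symm
    refine SPL.of_measurePreserving _ hmp ?_ ?_ hp
    · intro a b x y
      ext i
      refine Fin.cases ?_ (fun j => ?_) i
      · simp [MeasurableEquiv.piFinSuccAbove]
      · simp [MeasurableEquiv.piFinSuccAbove]
    · intro x y
      simp [MeasurableEquiv.piFinSuccAbove, Fin.sum_univ_succ]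

section std

variable {E : Type*} [NormedAddCommGroup E] [InnerProductSpace ℝ E] [FiniteDimensional ℝ E]
  [MeasurableSpace E] [BorelSpace E]

theorem SPL_std : SPL E (fun z => ‖z‖^2) (stdGaussian E) := by
  refine SPL.of_measurePreserving (N := fun z : Fin (Module.finrank ℝ E) → ℝ => ∑ i, (z i)^2)
    (fun x : Fin (Module.finrank ℝ E) → ℝ => ∑ i, x i • stdOrthonormalBasis ℝ E i)
    ⟨by fun_prop, rfl⟩ ?_ ?_ (SPL_gp _)
  · intro a b x y
    simp [add_smul, Finset.sum_add_distrib, Finset.smul_sum, mul_smul]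
  · intro x y
    have h := norm_sq_sum_smul (E := E) (x - y)
    simp only [Pi.sub_apply, sub_smul, Finset.sum_sub_distrib] at h
    simp only [Pi.sub_apply]
    rw [h]

/-- **Mixture lemma, abstract form** (`lintegral` version). -/
theorem mix_lintegral {K Q C : Set E} (hK : MeasurableSet K) (hQ : MeasurableSet Q)
    (hC : MeasurableSet C) (hmid : ∀ k ∈ K, ∀ r ∈ Q, (1/2:ℝ) • k + (1/2:ℝ) • r ∈ C)
    {c q : E → ℝ} (hc : Measurable c) (hq : Measurable q)
    (h : ∀ k ∈ K, ∀ r ∈ Q, q r ≤ c k + ‖k - r‖ ^ 2 / 2) :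
    (∫⁻ k in K, ENNReal.ofReal (Real.exp (-(c k) / 2)) ∂(stdGaussian E)) ^ (1/2:ℝ) *
      (∫⁻ r in Q, ENNReal.ofReal (Real.exp (q r / 2)) ∂(stdGaussian E)) ^ (1/2:ℝ)
      ≤ stdGaussian E C := by
  have key := SPL_std (E := E) (K.indicator fun k => ENNReal.ofReal (Real.exp (-(c k) / 2)))
    (Q.indicator fun r => ENNReal.ofReal (Real.exp (q r / 2))) (C.indicator 1)
    (Measurable.indicator (by fun_prop) hK) (Measurable.indicator (by fun_prop) hQ)
    (measurable_one.indicator hC) ?_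
  · rw [lintegral_indicator hK, lintegral_indicator hQ, lintegral_indicator_one hC] at key
    exact key
  · intro x y
    by_cases hx : x ∈ K
    · by_cases hy : y ∈ Q
      · rw [indicator_of_mem hx, indicator_of_mem hy, indicator_of_mem (hmid x hx y hy),
          ENNReal.ofReal_rpow_of_nonneg (Real.exp_pos _).le (by norm_num),
          ENNReal.ofReal_rpow_of_nonneg (Real.exp_pos _).le (by norm_num),
          ← ENNReal.ofReal_mul (Real.rpow_nonneg (Real.exp_pos _).le _),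
          ← ENNReal.ofReal_mul (by positivity), ← Real.exp_mul, ← Real.exp_mul, ← Real.exp_add,
          ← Real.exp_add]
        simp only [Pi.one_apply]
        rw [ENNReal.ofReal_le_one]
        apply Real.exp_le_one_iff.2
        have := h x hx y hy
        linarith
      · rw [indicator_of_notMem hy]
        simp
    · rw [indicator_of_notMem hx]
      simp

/-- **Mixture lemma, abstract form** (real version). -/
theorem mix_real {K Q C : Set E} (hK : MeasurableSet K) (hQ : MeasurableSet Q)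
    (hC : MeasurableSet C) (hmid : ∀ k ∈ K, ∀ r ∈ Q, (1/2:ℝ) • k + (1/2:ℝ) • r ∈ C)
    {c q : E → ℝ} (hc : Measurable c) (hq : Measurable q)
    (h : ∀ k ∈ K, ∀ r ∈ Q, q r ≤ c k + ‖k - r‖ ^ 2 / 2) :
    (∫ k in K, Real.exp (-(c k) / 2) ∂(stdGaussian E)) *
      (∫ r in Q, Real.exp (q r / 2) ∂(stdGaussian E)) ≤ (stdGaussian E).real C ^ 2 := by
  have key := mix_lintegral hK hQ hC hmid hc hq h
  rw [integral_eq_lintegral_of_nonneg_ae (Filter.Eventually.of_forall fun x => (Real.exp_pos _).le)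
      (by fun_prop),
    integral_eq_lintegral_of_nonneg_ae (Filter.Eventually.of_forall fun x => (Real.exp_pos _).le)
      (by fun_prop), ← ENNReal.toReal_mul, Measure.real, ← ENNReal.toReal_pow]
  apply ENNReal.toReal_mono (by finiteness)
  have h2 := pow_le_pow_left' key 2
  rw [mul_pow, ← ENNReal.rpow_natCast, ← ENNReal.rpow_natCast, ← ENNReal.rpow_mul,
    ← ENNReal.rpow_mul] at h2
  simpa using h2

/-- Jensen for the restriction of the Gaussian to `K`. -/
lemma jensen_K {K : Set E} (hKpos : 0 < (stdGaussian E).real K)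
    {f : E → ℝ} (hf : IntegrableOn f K (stdGaussian E))
    (hef : IntegrableOn (fun x => Real.exp (f x)) K (stdGaussian E)) :
    (stdGaussian E).real K * Real.exp ((∫ x in K, f x ∂(stdGaussian E)) / (stdGaussian E).real K)
      ≤ ∫ x in K, Real.exp (f x) ∂(stdGaussian E) := by
  have h0 : stdGaussian E K ≠ 0 := by
    intro h; simp [Measure.real, h] at hKpos
  have h1 : stdGaussian E K ≠ ∞ := measure_ne_top _ _
  have := ConvexOn.map_set_average_le convexOn_exp Real.continuous_exp.continuousOn isClosed_univ h0 h1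
    (Filter.Eventually.of_forall fun x => mem_univ _) hf hef
  rw [setAverage_eq, setAverage_eq, smul_eq_mul, smul_eq_mul] at this
  have h2 := mul_le_mul_of_nonneg_left this hKpos.le
  rw [← mul_assoc, mul_inv_cancel₀ hKpos.ne', one_mul] at h2
  rwa [div_eq_inv_mul]

lemma jensen_univ {f : E → ℝ} (hf : Integrable f (stdGaussian E))
    (hef : Integrable (fun x => Real.exp (f x)) (stdGaussian E)) :
    Real.exp (∫ x, f x ∂(stdGaussian E)) ≤ ∫ x, Real.exp (f x) ∂(stdGaussian E) := by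
  have := jensen_K (E := E) (K := univ) (by simp) hf.integrableOn hef.integrableOn
  simpa using this

/-- **Mixture lemma, log form.** -/
theorem mix_log {K Q C : Set E} (hK : MeasurableSet K) (hQ : MeasurableSet Q)
    (hC : MeasurableSet C) (hmid : ∀ k ∈ K, ∀ r ∈ Q, (1/2:ℝ) • k + (1/2:ℝ) • r ∈ C)
    {c q : E → ℝ} (hc : Measurable c) (hq : Measurable q)
    (h : ∀ k ∈ K, ∀ r ∈ Q, q r ≤ c k + ‖k - r‖ ^ 2 / 2)
    (hc0 : ∀ x, 0 ≤ c x) (hcK : IntegrableOn c K (stdGaussian E))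
    (hqi : Integrable q (stdGaussian E))
    (heq : Integrable (fun x => Real.exp (q x / 2)) (stdGaussian E))
    (hKpos : 0 < (stdGaussian E).real K) (hQpos : 0 < (stdGaussian E).real Q) :
    1/2 * Real.log ((stdGaussian E).real K) +
      1/2 * Real.log ((∫ r in Q, Real.exp (q r / 2) ∂(stdGaussian E)) /
        ∫ r, Real.exp (q r / 2) ∂(stdGaussian E)) +
      1/4 * ((∫ x, q x ∂(stdGaussian E)) -
        (∫ x in K, c x ∂(stdGaussian E)) / (stdGaussian E).real K)
      ≤ Real.log ((stdGaussian E).real C) := by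
  have key := mix_real hK hQ hC hmid hc hq h
  set I1 := ∫ k in K, Real.exp (-(c k) / 2) ∂(stdGaussian E) with hI1
  set I2 := ∫ r in Q, Real.exp (q r / 2) ∂(stdGaussian E) with hI2
  set Z := ∫ r, Real.exp (q r / 2) ∂(stdGaussian E) with hZ
  set gK := (stdGaussian E).real K
  set IC := ∫ x in K, c x ∂(stdGaussian E) with hIC
  set Iq := ∫ x, q x ∂(stdGaussian E) with hIq
  have J1 : gK * Real.exp (-(IC / gK) / 2) ≤ I1 := by
    have h1 := jensen_K (f := fun x => -(c x) / 2) hKpos (hcK.neg.div_const 2) ?_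
    · have e1 : ∫ x in K, -(c x) / 2 ∂(stdGaussian E) = -IC / 2 := by
        rw [integral_div, integral_neg]
      rw [e1] at h1
      convert h1 using 3
      ring
    · refine (integrable_const (1:ℝ)).mono (by fun_prop) (Filter.Eventually.of_forall fun x => ?_)
      rw [Real.norm_eq_abs, abs_of_pos (Real.exp_pos _), norm_one]
      apply Real.exp_le_one_iff.2
      have := hc0 x
      linarith
  have J2 : Real.exp (Iq / 2) ≤ Z := by
    have h1 := jensen_univ (f := fun x => q x / 2) (hqi.div_const 2) heq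
    rwa [integral_div] at h1
  have hI2pos : 0 < I2 := by
    rw [hI2, setIntegral_pos_iff_support_of_nonneg_ae
      (Filter.Eventually.of_forall fun x => (Real.exp_pos _).le) heq.integrableOn]
    have : Function.support (fun r => Real.exp (q r / 2)) ∩ Q = Q := by
      rw [inter_eq_right]
      intro x _
      simp [Function.mem_support]
    rw [this]
    rw [pos_iff_ne_zero]
    intro h0
    simp [Measure.real, h0] at hQpos
  have hZpos : 0 < Z := (Real.exp_pos _).trans_le J2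
  have hI1pos : 0 < I1 := (by positivity : 0 < gK * Real.exp (-(IC / gK) / 2)).trans_le J1
  have hCpos : 0 < (stdGaussian E).real C := by
    have h1 : 0 < (stdGaussian E).real C ^ 2 := (mul_pos hI1pos hI2pos).trans_le key
    exact lt_of_le_of_ne measureReal_nonneg (fun h0 => by rw [← h0] at h1; simp at h1)
  have L0 : Real.log I1 + Real.log I2 ≤ 2 * Real.log ((stdGaussian E).real C) := by
    rw [← Real.log_mul hI1pos.ne' hI2pos.ne']
    have := Real.log_le_log (mul_pos hI1pos hI2pos) key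
    rwa [Real.log_pow] at this
  have L1 : Real.log gK + (-(IC / gK) / 2) ≤ Real.log I1 := by
    have := Real.log_le_log (by positivity) J1
    rwa [Real.log_mul hKpos.ne' (Real.exp_pos _).ne', Real.log_exp] at this
  have L2 : Iq / 2 ≤ Real.log Z := by
    have := Real.log_le_log (Real.exp_pos _) J2
    rwa [Real.log_exp] at this
  have L3 : Real.log (I2 / Z) = Real.log I2 - Real.log Z := Real.log_div hI2pos.ne' hZpos.ne'
  rw [L3]
  linarith

variable {H : Type*} [NormedAddCommGroup H] [InnerProductSpace ℝ H]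

lemma quad_pointwise (B : E →L[ℝ] H) {τ : ℝ} (hτ : τ ≤ 1/4)
    (hB : ∀ x, ‖B x‖ ^ 2 ≤ τ * ‖x‖ ^ 2) (k r : E) :
    ‖B r‖ ^ 2 ≤ (1 + 4 * τ) * ‖B k‖ ^ 2 + ‖k - r‖ ^ 2 / 2 := by
  have h1 : ‖B r‖ ≤ ‖B k‖ + ‖B (k - r)‖ := by
    have : B r = B k - B (k - r) := by simp
    rw [this]
    exact norm_sub_le _ _
  have h2 := hB (k - r)
  have h3 := hB k
  rcases le_or_gt τ 0 with h0 | h0
  · have h4 : ‖B (k - r)‖ ^ 2 ≤ 0 := h2.trans (mul_nonpos_of_nonpos_of_nonneg h0 (sq_nonneg _))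
    have h5 : ‖B (k - r)‖ = 0 := by
      have := sq_nonneg ‖B (k - r)‖
      exact pow_eq_zero_iff (two_ne_zero) |>.1 (le_antisymm h4 this)
    have h6 : ‖B k‖ ^ 2 ≤ 0 := h3.trans (mul_nonpos_of_nonpos_of_nonneg h0 (sq_nonneg _))
    have h7 : ‖B k‖ = 0 := pow_eq_zero_iff (two_ne_zero) |>.1 (le_antisymm h6 (sq_nonneg _))
    have h8 : ‖B r‖ = 0 := le_antisymm (by rw [h5, h7] at h1; simpa using h1) (norm_nonneg _)
    rw [h8, h7]
    nlinarith [sq_nonneg ‖k - r‖]
  · set a := ‖B k‖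
    set b := ‖B (k - r)‖
    set n := ‖k - r‖
    have ha : 0 ≤ a := norm_nonneg _
    have hb : 0 ≤ b := norm_nonneg _
    have h4 : ‖B r‖ ^ 2 ≤ (a + b) ^ 2 := pow_le_pow_left₀ (norm_nonneg _) h1 2
    -- `2 a b ≤ 4 τ a² + b² / (4 τ)`
    have h5 : 2 * a * b ≤ 4 * τ * a ^ 2 + b ^ 2 / (4 * τ) := by
      have : 0 ≤ (4 * τ * a - b) ^ 2 / (4 * τ) := by positivity
      have e : (4 * τ * a - b) ^ 2 / (4 * τ) = 4 * τ * a ^ 2 - 2 * a * b + b ^ 2 / (4 * τ) := by
        field_simp; ring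
      linarith
    have h6 : b ^ 2 / (4 * τ) ≤ n ^ 2 / 4 := by
      rw [div_le_iff₀ (by positivity)]
      nlinarith
    have h7 : b ^ 2 ≤ n ^ 2 / 4 := h2.trans (by nlinarith [sq_nonneg n])
    nlinarith

lemma integrable_norm_sq_std : Integrable (fun x : E => ‖x‖ ^ 2) (stdGaussian E) := by
  have h := integrable_exp_norm_sq (E := E) (l := 1/2) (by norm_num)
  refine (h.const_mul 4).mono (by fun_prop) (Filter.Eventually.of_forall fun x => ?_)
  rw [Real.norm_eq_abs, Real.norm_eq_abs, abs_of_nonneg (by positivity),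
    abs_of_nonneg (by positivity)]
  have := Real.add_one_le_exp (1/2 * ‖x‖ ^ 2 / 2)
  nlinarith [sq_nonneg ‖x‖]

lemma integrable_of_quad_bound {f : E → ℝ} (hf : Measurable f) {A : ℝ}
    (h : ∀ x, |f x| ≤ A * ‖x‖ ^ 2) : Integrable f (stdGaussian E) := by
  refine (integrable_norm_sq_std.const_mul A).mono hf.aestronglyMeasurable
    (Filter.Eventually.of_forall fun x => ?_)
  rw [Real.norm_eq_abs, Real.norm_eq_abs]
  exact (h x).trans (le_abs_self _)

/-- **Mixture lemma, quadratic form version** (`q ≤ ‖B ·‖² ≤ τ ‖·‖²`, `τ ≤ 1/4`; `q` need not be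
positive).  `q` is any measurable function with `|q| ≤ A ‖·‖²`. -/
theorem mix_quad {K Q C : Set E} (hK : MeasurableSet K) (hQ : MeasurableSet Q)
    (hC : MeasurableSet C) (hmid : ∀ k ∈ K, ∀ r ∈ Q, (1/2:ℝ) • k + (1/2:ℝ) • r ∈ C)
    (B : E →L[ℝ] H) {τ A : ℝ} (hτ0 : 0 ≤ τ) (hτ : τ ≤ 1/4) (hB : ∀ x, ‖B x‖ ^ 2 ≤ τ * ‖x‖ ^ 2)
    {q : E → ℝ} (hq : Measurable q) (hqA : ∀ x, |q x| ≤ A * ‖x‖ ^ 2)
    (hqB : ∀ x, q x ≤ ‖B x‖ ^ 2)
    (hKpos : 0 < (stdGaussian E).real K) (hQpos : 0 < (stdGaussian E).real Q) :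
    1/2 * Real.log ((stdGaussian E).real K) +
      1/2 * Real.log ((∫ r in Q, Real.exp (q r / 2) ∂(stdGaussian E)) /
        ∫ r, Real.exp (q r / 2) ∂(stdGaussian E)) +
      1/4 * ((∫ x, q x ∂(stdGaussian E)) -
        (1 + 4 * τ) * ((∫ x in K, ‖B x‖ ^ 2 ∂(stdGaussian E)) / (stdGaussian E).real K))
      ≤ Real.log ((stdGaussian E).real C) := by
  have hBc : Continuous (fun x : E => ‖B x‖ ^ 2) := by fun_prop
  have hBi : Integrable (fun x => ‖B x‖ ^ 2) (stdGaussian E) :=
    integrable_of_quad_bound hBc.measurable (A := τ)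
      (fun x => by rw [abs_of_nonneg (by positivity)]; exact hB x)
  have key := mix_log hK hQ hC hmid (c := fun x => (1 + 4 * τ) * ‖B x‖ ^ 2) (q := q)
    (hBc.measurable.const_mul _)
    hq (fun k _ r _ => (hqB r).trans (quad_pointwise B hτ hB k r)) (fun x => by positivity)
    (hBi.const_mul _).integrableOn (integrable_of_quad_bound hq hqA) ?_ hKpos hQpos
  · rw [integral_const_mul, mul_div_assoc] at key
    exact key
  · refine (integrable_exp_norm_sq (E := E) (l := 1/4) (by norm_num)).mono (by fun_prop)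
      (Filter.Eventually.of_forall fun x => ?_)
    rw [Real.norm_eq_abs, Real.norm_eq_abs, abs_of_pos (Real.exp_pos _),
      abs_of_pos (Real.exp_pos _)]
    apply Real.exp_le_exp.2
    have h1 := hqB x
    have h2 := hB x
    nlinarith [sq_nonneg ‖x‖]

end std

end Crest.Agent.R239.MixG
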