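import Crest.Agent.R239.F6b_696
import Crest.Agent.R239.Fl_597
import Crest.Agent.R239.PRot_711
import Crest.Agent.R239.T1B_350

/-! R239 (helper350), T1-B: the block direction `n'_i` of the tilted flag; the cap inequality
`N_i(x) ≤ N^s_i(T x) + sb (2 b_i + BB_i) N_i(x)`. -/

set_option autoImplicit false
set_option linter.unusedSectionVars false
open MeasureTheory ProbabilityTheory
open scoped RealInnerProductSpace

namespace Crest.Agent.R239.NB350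

open Crest.Agent.R239 (gau)
open Crest.Agent.R239.FD Crest.Agent.R239.F6b696

variable {E : Type*} [NormedAddCommGroup E] [InnerProductSpace ℝ E] [FiniteDimensional ℝ E]
  [MeasurableSpace E] [BorelSpace E]

lemma inner_P (V : Flag E) (j : ℕ) (x y : E) : ⟪V.P j x, y⟫ = ⟪x, V.P j y⟫ := by
  unfold Flag.P
  exact Submodule.inner_starProjection_left_eq_right _ _ _

lemma inner_Q (V : Flag E) (j : ℕ) (x y : E) : ⟪V.Q j x, y⟫ = ⟪x, V.Q j y⟫ := by
  rw [Q_apply, Q_apply, inner_sub_left, inner_sub_right, inner_P, inner_P]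

lemma inner_H (V : Flag E) (i : ℕ) (x y : E) : ⟪V.H i x, y⟫ = ⟪x, V.H i y⟫ := by
  rw [H_apply, H_apply, sum_inner, inner_sum]
  refine Finset.sum_congr rfl fun j _ => ?_
  rw [inner_smul_left, inner_smul_right, inner_Q]
  simp

lemma inner_Hi (V : Flag E) (i : ℕ) (x y : E) : ⟪V.Hi i x, y⟫ = ⟪x, V.Hi i y⟫ := by
  rw [Hi_apply, Hi_apply, sum_inner, inner_sum]
  refine Finset.sum_congr rfl fun j _ => ?_
  rw [inner_smul_left, inner_smul_right, inner_Q]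
  simp

lemma H_block (V : Flag E) {i : ℕ} (hi : i < V.n) {w : E} (hw : V.Q i w = w) : V.H i w = w := by
  rw [H_apply, Finset.sum_eq_single_of_mem i (Finset.mem_Ico.2 ⟨le_rfl, hi⟩)]
  · simp [hw]
  · intro j _ hj
    rw [← hw, Q_Q_ne V hj, smul_zero]

lemma Hi_block (V : Flag E) {i : ℕ} (hi : i < V.n) {w : E} (hw : V.Q i w = w) : V.Hi i w = w := by
  rw [Hi_apply, Finset.sum_eq_single_of_mem i (Finset.mem_Ico.2 ⟨le_rfl, hi⟩)]
  · simp [hw]
  · intro j _ hj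
    rw [← hw, Q_Q_ne V hj, smul_zero]

lemma norm_Ts_le {v : E} (hv : ‖v‖ = 1) {s : ℝ} (hs0 : 0 < s) (hs1 : s < 1) (x : E) :
    ‖Ts v s x‖ ≤ ‖x‖ := by
  have h : ‖Ts v s x‖ ^ 2 ≤ ‖x‖ ^ 2 := by
    rw [Ts_apply, norm_sub_sq_real, inner_smul_right, norm_smul, hv, mul_one, Real.norm_eq_abs,
      sq_abs, real_inner_comm v x]
    nlinarith [sq_nonneg ⟪v, x⟫, mul_pos hs0 (by linarith : (0 : ℝ) < 2 - s)]
  exact abs_le_of_sq_le_sq' h (norm_nonneg _) |>.2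

lemma inner_Ts (v : E) (s : ℝ) (x y : E) : ⟪Ts v s x, y⟫ = ⟪x, Ts v s y⟫ := by
  rw [Ts_apply, Ts_apply, inner_sub_left, inner_sub_right, inner_smul_left, inner_smul_right,
    real_inner_comm v x]
  simp
  ring

/-- the block direction of the tilted flag -/
theorem exists_dir (V : Flag E) {v : E} (hv : ‖v‖ = 1) {s : ℝ} (hs0 : 0 < s) (hs1 : s < 1)
    {i : ℕ} (hi : i < V.n) (hQ : V.Q i v ≠ 0) :
    ∃ w : E, ‖w‖ = 1 ∧ (V.rot v s).Q i w = w ∧
      ∀ g, ‖V.Q i v‖ ^ 2 * ⟪w, Rm V v s i g⟫ ^ 2 ≤ ⟪V.Q i v, g⟫ ^ 2 := by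
  set W := V.rot v s with hW
  have hiW : i < W.n := hi
  set n := V.Q i v with hn
  set T := Ts v s with hT
  have hnM : n ∈ V.M i := Q_mem V le_rfl v
  have hPn : V.P (i + 1) n = 0 := by
    rw [hn, Q_apply, map_sub, P_P_of_le V (Nat.le_succ i), P_P_of_le V le_rfl, sub_self]
  have hnQ : V.Q i n = n := by rw [hn, Q_Q_self]
  set w' := W.Q i (T n) with hw'
  have hTn : T n ∈ W.M i := Ts_mem V i hnM
  have hw'0 : w' ≠ 0 := by
    intro h0
    have h1 : W.P i (T n) = W.P (i + 1) (T n) := by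
      have := h0
      rw [hw', Q_apply, sub_eq_zero] at this
      exact this
    rw [P_of_mem W hTn] at h1
    have h2 : T n ∈ W.M (i + 1) := by rw [h1]; exact P_mem W _ _
    obtain ⟨y, hy, hyT⟩ := Submodule.mem_map.1 h2
    have h3 : y = n := T1B350.Ts_injective hv hs1 hyT
    rw [h3] at hy
    have h4 : V.P (i + 1) n = n := P_of_mem V hy
    rw [hPn] at h4
    exact hQ h4.symm
  have hw'n : 0 < ‖w'‖ := norm_pos_iff.2 hw'0
  set w := ‖w'‖⁻¹ • w' with hw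
  have hw1 : ‖w‖ = 1 := by
    rw [hw, norm_smul, norm_inv, norm_norm, inv_mul_cancel₀ hw'n.ne']
  have hwQ : W.Q i w = w := by
    rw [hw, map_smul, hw', Q_Q_self]
  have hn0 : 0 < ‖n‖ := norm_pos_iff.2 hQ
  -- the linear functional
  have key : ∀ x ∈ V.M i, ⟪n, x⟫ = 0 → ⟪w', T x⟫ = 0 := by
    intro y hy hny
    have hy1 : V.Q i y = y - V.P (i + 1) y := by rw [Q_apply, P_of_mem V hy]
    set z := V.Q i y with hz
    have hyz : y = z + V.P (i + 1) y := by rw [hy1]; abel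
    have hvz : ⟪v, z⟫ = 0 := by rw [hz, ← inner_Q, ← hn, hny]
    have hTz : T z = z := by rw [hT, Ts_apply, hvz]; simp
    have hzM : z ∈ V.M i := Q_mem V le_rfl y
    have hzW : z ∈ W.M i := by rw [← hTz]; exact Ts_mem V i hzM
    have hPz : W.P (i + 1) z = 0 := by
      unfold Flag.P
      rw [Submodule.starProjection_apply_eq_zero_iff, Submodule.mem_orthogonal]
      intro u hu
      obtain ⟨u', hu', rfl⟩ := Submodule.mem_map.1 hu
      show ⟪Ts v s u', z⟫ = 0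
      rw [inner_Ts, ← hT, hTz, hz, ← inner_Q, Q_apply, P_of_mem V (V.anti (Nat.le_succ i) hu'),
        P_of_mem V hu', sub_self, inner_zero_left]
    have hQz : W.Q i z = z := by rw [Q_apply, P_of_mem W hzW, hPz, sub_zero]
    have h1 : ⟪w', z⟫ = 0 := by
      rw [hw', inner_Q, hQz, hT, inner_Ts, ← hT, hTz, hz, ← inner_Q, hnQ, hny]
    have h2 : ⟪w', T (V.P (i + 1) y)⟫ = 0 := by
      have h3 : T (V.P (i + 1) y) ∈ W.M (i + 1) := Ts_mem V (i + 1) (P_mem V _ _)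
      rw [hw', inner_Q, Q_apply W i (T (V.P (i + 1) y)), P_of_mem W (W.anti (Nat.le_succ i) h3),
        P_of_mem W h3, sub_self, inner_zero_right]
    rw [hyz, map_add, hTz, inner_add_right, h1, h2, add_zero]
  refine ⟨w, hw1, hwQ, fun g => ?_⟩
  set x := V.H i g with hx
  have hxM : x ∈ V.M i := H_mem V i g
  have h1 : ⟪w, Rm V v s i g⟫ = ⟪w, T x⟫ := by
    rw [Rm_apply, ← inner_Hi, Hi_block W hiW hwQ]
  have h2 : ⟪n, x⟫ = ⟪n, g⟫ := by
    rw [hx, ← inner_H, H_block V hi hnQ]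
  set c := ⟪n, x⟫ / ‖n‖ ^ 2 with hc
  have h3 : ⟪n, x - c • n⟫ = 0 := by
    rw [inner_sub_right, inner_smul_right, real_inner_self_eq_norm_sq, hc]
    field_simp
    ring
  have h4 : ⟪w, T (x - c • n)⟫ = 0 := by
    rw [hw, inner_smul_left, key _ ((V.M i).sub_mem hxM ((V.M i).smul_mem _ hnM)) h3, mul_zero]
  have h5 : ⟪w, T x⟫ = c * ⟪w, T n⟫ := by
    rw [map_sub, map_smul, inner_sub_right, inner_smul_right] at h4
    linarith
  have h6 : ⟪w, T n⟫ ^ 2 ≤ ‖n‖ ^ 2 := by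
    have h7 := abs_real_inner_le_norm w (T n)
    rw [hw1, one_mul] at h7
    have h8 := h7.trans (norm_Ts_le hv hs0 hs1 n)
    have h9 := abs_nonneg ⟪w, T n⟫
    rw [← sq_abs]
    exact pow_le_pow_left₀ h9 h8 2
  rw [h1, h5, ← h2]
  have h10 : ‖n‖ ^ 2 * (c * ⟪w, T n⟫) ^ 2 = ⟪n, x⟫ ^ 2 * (⟪w, T n⟫ ^ 2 / ‖n‖ ^ 2) := by
    rw [hc]
    field_simp
  rw [h10]
  have h11 : ⟪w, T n⟫ ^ 2 / ‖n‖ ^ 2 ≤ 1 := by
    rw [div_le_one (by positivity)]
    exact h6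
  have h12 := sq_nonneg ⟪n, x⟫
  nlinarith

/-! ### the cap gauge -/

lemma b_anti (V : Flag E) (v : E) {i j : ℕ} (h : i ≤ j) : V.b v j ≤ V.b v i := by
  unfold Flag.b
  rw [← P_P_of_le V h v]
  exact pow_le_pow_left₀ (norm_nonneg _) (norm_P_le V j _) 2

lemma norm_P_sq_le_N (V : Flag E) {i j : ℕ} (hij : i ≤ j) (x : E) :
    ‖V.P j x‖ ^ 2 ≤ th ^ (j - i) * V.N i x := by
  have h1 : ‖V.P j x‖ ^ 2 ≤ V.N j (V.P j x) := Fl597.norm_sq_le_N V (P_mem V j x)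
  refine h1.trans ?_
  have h2 : V.N j (V.P j x) = ∑ l ∈ Finset.Ico j V.n, (th⁻¹) ^ (l - j) * ‖V.Q l x‖ ^ 2 := by
    unfold Flag.N
    refine Finset.sum_congr rfl fun l hl => ?_
    have hl' := (Finset.mem_Ico.1 hl).1
    rw [Q_apply, P_P_of_le V hl', P_P_of_le V (hl'.trans (Nat.le_succ l)), Q_apply]
  rw [h2]
  unfold Flag.N
  rw [Finset.mul_sum]
  have hth := F6b696.th_pos
  have h3 : ∑ l ∈ Finset.Ico j V.n, (th⁻¹) ^ (l - j) * ‖V.Q l x‖ ^ 2
      = ∑ l ∈ Finset.Ico j V.n, th ^ (j - i) * ((th⁻¹) ^ (l - i) * ‖V.Q l x‖ ^ 2) := by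
    refine Finset.sum_congr rfl fun l hl => ?_
    have hl' := (Finset.mem_Ico.1 hl).1
    have h4 : l - i = (l - j) + (j - i) := by omega
    rw [h4, pow_add, inv_pow th (j - i)]
    have : th ^ (j - i) ≠ 0 := by positivity
    field_simp
  rw [h3]
  refine Finset.sum_le_sum_of_subset_of_nonneg (Finset.Ico_subset_Ico_left hij) fun l _ _ => ?_
  positivity

lemma geo_th (i n : ℕ) : ∑ j ∈ Finset.Ico (i + 1) n, (1 - th) * th ^ (j - i) ≤ 1 := by
  have key : ∀ m : ℕ, ∑ j ∈ Finset.Ico (i + 1) (i + 1 + m), (1 - th) * th ^ (j - i)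
      = th - th ^ (m + 1) := by
    intro m
    induction m with
    | zero => simp
    | succ m ihm =>
      rw [← Nat.add_assoc, Finset.sum_Ico_succ_top (by omega), ihm]
      have : i + 1 + m - i = m + 1 := by omega
      rw [this]
      ring
  by_cases h : i + 1 ≤ n
  · obtain ⟨m, rfl⟩ := Nat.exists_eq_add_of_le h
    rw [key]
    have h1 : (0 : ℝ) ≤ th ^ (m + 1) := by have := F6b696.th_pos; positivity
    have h2 : th ≤ 1 := by norm_num [th]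
    linarith
  · rw [Finset.Ico_eq_empty (by omega)]
    simp

theorem qN_le (V : Flag E) {v : E} (hv : ‖v‖ = 1) {s : ℝ} (hs0 : 0 < s) (hs1 : s < 1)
    (hsb : 2 * s - s ^ 2 ≤ 1 / 2) {i : ℕ} {x : E} (hx : x ∈ V.M i) :
    qN V v (2 * s - s ^ 2) i x
      ≤ (2 * s - s ^ 2) * (2 * V.b v i + BB V v i) * V.N i x := by
  have hsb0 : 0 < 2 * s - s ^ 2 := by nlinarith
  set sb := 2 * s - s ^ 2 with hsbd
  set N := V.N i x with hN
  have hN0 : 0 ≤ N := Fl597.N_nonneg V i x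
  have hbn : ∀ j, 0 ≤ V.b v j := fun j => sq_nonneg _
  have hb1 : ∀ j, V.b v j ≤ 1 := fun j => T1B350.b_le_one V hv j
  have hth := F6b696.th_pos
  have hth1 : th < 1 := by norm_num [th]
  -- the two pointwise bounds
  have hxi : ⟪v, x⟫ ^ 2 ≤ V.b v i * N := by
    have h1 : ⟪v, x⟫ = ⟪V.P i v, x⟫ := by rw [inner_P, P_of_mem V hx]
    have h2 := abs_real_inner_le_norm (V.P i v) x
    rw [← h1] at h2
    have h3 : ⟪v, x⟫ ^ 2 ≤ (‖V.P i v‖ * ‖x‖) ^ 2 := by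
      rw [← sq_abs]
      exact pow_le_pow_left₀ (abs_nonneg _) h2 2
    have h4 := Fl597.norm_sq_le_N V hx
    calc ⟪v, x⟫ ^ 2 ≤ (‖V.P i v‖ * ‖x‖) ^ 2 := h3
      _ = V.b v i * ‖x‖ ^ 2 := by rw [mul_pow]; rfl
      _ ≤ V.b v i * N := mul_le_mul_of_nonneg_left h4 (hbn i)
  have hze : ∀ j, i ≤ j → ⟪V.P j v, x⟫ ^ 2 ≤ th ^ (j - i) * (V.b v j * N) := by
    intro j hj
    have h1 : ⟪V.P j v, x⟫ = ⟪V.P j v, V.P j x⟫ := by
      rw [inner_P, ← P_P_of_le V (le_refl j) x, ← inner_P, P_P_of_le V (le_refl j) x]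
    have h2 := abs_real_inner_le_norm (V.P j v) (V.P j x)
    rw [← h1] at h2
    have h3 : ⟪V.P j v, x⟫ ^ 2 ≤ (‖V.P j v‖ * ‖V.P j x‖) ^ 2 := by
      rw [← sq_abs]
      exact pow_le_pow_left₀ (abs_nonneg _) h2 2
    have h4 := norm_P_sq_le_N V hj x
    calc ⟪V.P j v, x⟫ ^ 2 ≤ (‖V.P j v‖ * ‖V.P j x‖) ^ 2 := h3
      _ = V.b v j * ‖V.P j x‖ ^ 2 := by rw [mul_pow]; rfl
      _ ≤ V.b v j * (th ^ (j - i) * N) := mul_le_mul_of_nonneg_left h4 (hbn j)
      _ = _ := by ring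
  have hterm : ∀ j ∈ Finset.Ico (i + 1) V.n,
      omN (j - i) * (⟪v, x⟫ ^ 2 - ⟪v - V.P j v, x⟫ ^ 2 / (1 - sb * V.b v j))
        ≤ (1 - th) * th ^ (j - i) * (V.b v i * N) + (25 / 8 : ℝ) ^ (j - i) * V.b v j * N := by
    intro j hj
    obtain ⟨hj1, hj2⟩ := Finset.mem_Ico.1 hj
    have hij : i ≤ j := by omega
    set m := j - i with hm
    set xi := ⟪v, x⟫ with hxid
    set ze := ⟪V.P j v, x⟫ with hzed
    have ha : ⟪v - V.P j v, x⟫ = xi - ze := by rw [inner_sub_left]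
    have hB0 : 0 < 1 - sb * V.b v j := by nlinarith [hb1 j, hbn j]
    have hB1 : 1 - sb * V.b v j ≤ 1 := by nlinarith [hbn j]
    have h1 : (xi - ze) ^ 2 ≤ (xi - ze) ^ 2 / (1 - sb * V.b v j) := by
      rw [le_div_iff₀ hB0]
      nlinarith [sq_nonneg (xi - ze)]
    have hom0 : 0 ≤ omN m := by
      unfold omN
      have : 0 ≤ 1 - th := by linarith
      positivity
    have hthm : 0 < th ^ m := by positivity
    -- 2 xi ze ≤ th^(2m) xi^2 + th^(-2m) ze^2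
    have h2 : 2 * xi * ze ≤ th ^ (2 * m) * xi ^ 2 + (th ^ (2 * m))⁻¹ * ze ^ 2 := by
      have h3 : 0 < th ^ (2 * m) := by positivity
      have h4 : 0 ≤ (th ^ m * xi - (th ^ m)⁻¹ * ze) ^ 2 := sq_nonneg _
      have h5 : (th ^ m * xi - (th ^ m)⁻¹ * ze) ^ 2
          = th ^ (2 * m) * xi ^ 2 + (th ^ (2 * m))⁻¹ * ze ^ 2 - 2 * xi * ze := by
        rw [two_mul, pow_add]
        field_simp
        ring
      linarith
    have h6 : xi ^ 2 - (xi - ze) ^ 2 / (1 - sb * V.b v j)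
        ≤ th ^ (2 * m) * (V.b v i * N) + (th ^ (2 * m))⁻¹ * (th ^ m * (V.b v j * N)) := by
      have h7 : xi ^ 2 - (xi - ze) ^ 2 ≤ 2 * xi * ze := by nlinarith [sq_nonneg ze]
      have h8 : th ^ (2 * m) * xi ^ 2 ≤ th ^ (2 * m) * (V.b v i * N) :=
        mul_le_mul_of_nonneg_left hxi (by positivity)
      have h9 : (th ^ (2 * m))⁻¹ * ze ^ 2 ≤ (th ^ (2 * m))⁻¹ * (th ^ m * (V.b v j * N)) :=
        mul_le_mul_of_nonneg_left (hze j hij) (by positivity)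
      linarith
    rw [ha]
    refine (mul_le_mul_of_nonneg_left h6 hom0).trans ?_
    have h10 : omN m * (th ^ (2 * m) * (V.b v i * N) + (th ^ (2 * m))⁻¹ * (th ^ m * (V.b v j * N)))
        = (1 - th) * th ^ m * (V.b v i * N) + (1 - th) * ((th ^ 2)⁻¹) ^ m * (V.b v j * N) := by
      unfold omN
      rw [two_mul, pow_add, inv_pow, inv_pow, ← pow_mul, mul_comm 2 m, pow_mul]
      field_simp
    rw [h10]
    have h11 : (1 - th) * ((th ^ 2)⁻¹) ^ m ≤ (25 / 8 : ℝ) ^ m := by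
      have h12 : ((th ^ 2)⁻¹) ^ m ≤ (25 / 8 : ℝ) ^ m := by
        apply pow_le_pow_left₀ (by positivity)
        norm_num [th]
      have h13 : (0 : ℝ) ≤ ((th ^ 2)⁻¹) ^ m := by positivity
      nlinarith
    have h14 : 0 ≤ V.b v j * N := mul_nonneg (hbn j) hN0
    have := mul_le_mul_of_nonneg_right h11 h14
    linarith
  have hsum := Finset.sum_le_sum hterm
  rw [Finset.sum_add_distrib, ← Finset.sum_mul, ← Finset.sum_mul] at hsum
  have hgeo := geo_th i V.n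
  have hbN : 0 ≤ V.b v i * N := mul_nonneg (hbn i) hN0
  have hBB : ∑ j ∈ Finset.Ico (i + 1) V.n, (25 / 8 : ℝ) ^ (j - i) * V.b v j = BB V v i := rfl
  rw [hBB] at hsum
  have h15 : (∑ j ∈ Finset.Ico (i + 1) V.n, (1 - th) * th ^ (j - i)) * (V.b v i * N)
      ≤ 1 * (V.b v i * N) := mul_le_mul_of_nonneg_right hgeo hbN
  unfold qN
  have h16 : sb * ⟪v, x⟫ ^ 2 ≤ sb * (V.b v i * N) := mul_le_mul_of_nonneg_left hxi hsb0.le
  have h17 : sb * ∑ j ∈ Finset.Ico (i + 1) V.n,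
      omN (j - i) * (⟪v, x⟫ ^ 2 - ⟪v - V.P j v, x⟫ ^ 2 / (1 - sb * V.b v j))
      ≤ sb * (1 * (V.b v i * N) + BB V v i * N) := by
    apply mul_le_mul_of_nonneg_left _ hsb0.le
    linarith
  calc _ ≤ sb * (V.b v i * N) + sb * (1 * (V.b v i * N) + BB V v i * N) := by linarith
    _ = _ := by ring

end Crest.Agent.R239.NB350
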