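import Mathlib.Analysis.InnerProductSpace.Projection.Basic
import Mathlib.Analysis.InnerProductSpace.Projection.Submodule
import Mathlib.Analysis.InnerProductSpace.Adjoint

/-!
helper283, R239 (helper583's flag potential), block F7/F5: the explicit new block vector.

`Tm s v x = x - s ⟪v,x⟫ v`, `M' ≤ M`, `v` unit, `v = p' + al n + r` with `p' ∈ M'`, `n ∈ M`, `n ⊥ M'`,
`‖n‖ = 1`, `r ⊥ M`.  `n' = T m`, `m = √(B'/B) (n + (sb al / B') p')`.
-/

set_option autoImplicit false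
open scoped RealInnerProductSpace

namespace Crest.Agent.R239.NJ283

variable {E : Type*} [NormedAddCommGroup E] [InnerProductSpace ℝ E]

/-- the contraction `x ↦ x - s ⟪v,x⟫ v` -/
noncomputable def Tm (s : ℝ) (v : E) : E →L[ℝ] E :=
  ContinuousLinearMap.id ℝ E - s • ((innerSL ℝ v).smulRight v)

@[simp] lemma Tm_apply (s : ℝ) (v x : E) : Tm s v x = x - (s * ⟪v, x⟫) • v := by
  simp [Tm, smul_smul]

lemma Tm_symm (s : ℝ) (v x y : E) : ⟪Tm s v x, y⟫ = ⟪x, Tm s v y⟫ := by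
  simp only [Tm_apply, inner_sub_left, inner_sub_right, real_inner_smul_left, real_inner_smul_right]
  rw [real_inner_comm x v]; ring

lemma Tm_Tm (s : ℝ) (v x : E) (hv : ‖v‖ = 1) :
    Tm s v (Tm s v x) = x - ((2 * s - s ^ 2) * ⟪v, x⟫) • v := by
  have h1 : ⟪v, v⟫ = (1 : ℝ) := by rw [real_inner_self_eq_norm_sq, hv]; norm_num
  simp only [Tm_apply, inner_sub_right, real_inner_smul_right, h1]
  rw [sub_sub, ← add_smul]
  congr 2; ring

lemma Tm_norm_sq (s : ℝ) (v x : E) (hv : ‖v‖ = 1) :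
    ‖Tm s v x‖ ^ 2 = ‖x‖ ^ 2 - (2 * s - s ^ 2) * ⟪v, x⟫ ^ 2 := by
  rw [← real_inner_self_eq_norm_sq, Tm_symm, Tm_Tm s v x hv, inner_sub_right,
    real_inner_smul_right, real_inner_self_eq_norm_sq, real_inner_comm x v]
  ring

lemma Tm_of_orth {s : ℝ} {v x : E} (h : ⟪v, x⟫ = 0) : Tm s v x = x := by
  simp [h]

/-- data of one block: `v = p' + al n + r`. -/
structure Blk (M M' : Submodule ℝ E) (v : E) (s : ℝ) where
  n : E
  p' : E
  al : ℝ
  hle : M' ≤ M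
  hv : ‖v‖ = 1
  hs0 : 0 ≤ s
  hs1 : s < 1
  hal : 0 < al
  hn : n ∈ M
  hn1 : ‖n‖ = 1
  hnM' : ∀ x ∈ M', ⟪n, x⟫ = 0
  hp' : p' ∈ M'
  hr : ∀ x ∈ M, ⟪v - p' - al • n, x⟫ = 0

namespace Blk

variable {M M' : Submodule ℝ E} {v : E} {s : ℝ} (D : Blk M M' v s)

/-- `2 s - s²` -/
def sb (_ : Blk M M' v s) : ℝ := 2 * s - s ^ 2
/-- `p = P_M v`. -/
noncomputable def p : E := D.p' + D.al • D.n
noncomputable def b' : ℝ := ‖D.p'‖ ^ 2
noncomputable def b : ℝ := D.b' + D.al ^ 2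
noncomputable def B' : ℝ := 1 - D.sb * D.b'
noncomputable def B : ℝ := 1 - D.sb * D.b
noncomputable def c : ℝ := Real.sqrt (D.B / D.B')
noncomputable def gam : ℝ := D.sb * D.al / Real.sqrt (D.B * D.B')
noncomputable def m : E := Real.sqrt (D.B' / D.B) • (D.n + (D.sb * D.al / D.B') • D.p')
/-- the new block vector -/
noncomputable def n' : E := Tm s v D.m

lemma sb_nonneg : 0 ≤ D.sb := by
  have h0 := D.hs0; have h1 := D.hs1
  unfold sb; nlinarith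

lemma sb_lt : D.sb < 1 := by
  have h1 := D.hs1
  unfold sb; nlinarith [sq_nonneg (1 - s), mul_pos (sub_pos.2 h1) (sub_pos.2 h1)]

lemma inner_v (x : E) (hx : x ∈ M) : ⟪v, x⟫ = ⟪D.p', x⟫ + D.al * ⟪D.n, x⟫ := by
  have h := D.hr x hx
  rw [inner_sub_left, inner_sub_left, real_inner_smul_left] at h
  linarith

lemma inner_v_p' : ⟪v, D.p'⟫ = D.b' := by
  rw [D.inner_v D.p' (D.hle D.hp'), D.hnM' D.p' D.hp', real_inner_self_eq_norm_sq, b']; ring

lemma inner_v_n : ⟪v, D.n⟫ = D.al := by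
  rw [D.inner_v D.n D.hn, real_inner_self_eq_norm_sq, D.hn1, real_inner_comm,
    D.hnM' D.p' D.hp']; ring

lemma p_mem : D.p ∈ M := M.add_mem (D.hle D.hp') (M.smul_mem _ D.hn)

lemma inner_vp (x : E) (hx : x ∈ M) : ⟪v - D.p, x⟫ = 0 := by
  have h := D.hr x hx
  rw [p, ← sub_sub]; exact h

lemma norm_p_sq : ‖D.p‖ ^ 2 = D.b := by
  have h := D.hnM' D.p' D.hp'
  have h' : ⟪D.p', D.n⟫ = 0 := by rw [real_inner_comm]; exact h
  rw [p, ← real_inner_self_eq_norm_sq, inner_add_left, inner_add_right, inner_add_right,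
    real_inner_smul_left, real_inner_smul_right, real_inner_smul_left, real_inner_smul_right,
    h, h', real_inner_self_eq_norm_sq, real_inner_self_eq_norm_sq,
    D.hn1, b, b']
  ring

lemma b_le_one : D.b ≤ 1 := by
  have h1 : ⟪v - D.p, D.p⟫ = 0 := D.inner_vp D.p D.p_mem
  have h2 : ‖v‖ ^ 2 = ‖v - D.p‖ ^ 2 + ‖D.p‖ ^ 2 := by
    have : v = (v - D.p) + D.p := by abel
    have h1' : ⟪D.p, v - D.p⟫ = 0 := by rw [real_inner_comm]; exact h1
    conv_lhs => rw [this]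
    rw [← real_inner_self_eq_norm_sq, inner_add_left, inner_add_right, inner_add_right, h1,
      h1', real_inner_self_eq_norm_sq, real_inner_self_eq_norm_sq]
    ring
  rw [D.hv, D.norm_p_sq] at h2
  nlinarith [sq_nonneg ‖v - D.p‖]

lemma b'_nonneg : 0 ≤ D.b' := sq_nonneg _
lemma b'_le : D.b' ≤ D.b := by unfold b; nlinarith [sq_nonneg D.al]

lemma B_pos : 0 < D.B := by
  have h1 := D.sb_nonneg; have h2 := D.sb_lt; have h3 := D.b_le_one
  have h4 : 0 ≤ D.b := le_trans D.b'_nonneg D.b'_le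
  unfold B; nlinarith

lemma B_le : D.B ≤ D.B' := by
  have h1 := D.sb_nonneg; have h2 := D.b'_le
  unfold B B'; nlinarith

lemma B'_pos : 0 < D.B' := lt_of_lt_of_le D.B_pos D.B_le

lemma B_eq : D.B = D.B' - D.sb * D.al ^ 2 := by unfold B B' b; ring

lemma inner_v_m : ⟪v, D.m⟫ = Real.sqrt (D.B' / D.B) * (D.al / D.B') := by
  have hB := D.B'_pos.ne'
  rw [m, real_inner_smul_right, inner_add_right, real_inner_smul_right, D.inner_v_n, D.inner_v_p']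
  congr 1
  field_simp
  unfold B'; ring

lemma m_mem : D.m ∈ M := M.smul_mem _ (M.add_mem D.hn (M.smul_mem _ (D.hle D.hp')))

lemma n'_mem : D.n' ∈ M.map (Tm s v).toLinearMap := ⟨D.m, D.m_mem, rfl⟩

lemma sqrt_eq1 : Real.sqrt (D.B' / D.B) * (D.B / D.B') = D.c := by
  have hB := D.B_pos; have hB' := D.B'_pos
  have h1 : D.B / D.B' = Real.sqrt (D.B / D.B') * Real.sqrt (D.B / D.B') :=
    (Real.mul_self_sqrt (by positivity)).symm
  rw [h1, ← mul_assoc, ← Real.sqrt_mul (by positivity)]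
  have h2 : D.B' / D.B * (D.B / D.B') = 1 := by field_simp
  rw [h2, Real.sqrt_one, one_mul, c]

lemma sqrt_eq2 : Real.sqrt (D.B' / D.B) / D.B' = 1 / Real.sqrt (D.B * D.B') := by
  have hB := D.B_pos; have hB' := D.B'_pos
  rw [Real.sqrt_div hB'.le, Real.sqrt_mul hB.le]
  have h1 : Real.sqrt D.B' * Real.sqrt D.B' = D.B' := Real.mul_self_sqrt hB'.le
  have h2 : 0 < Real.sqrt D.B' := Real.sqrt_pos.2 hB'
  have h3 : 0 < Real.sqrt D.B := Real.sqrt_pos.2 hB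
  field_simp
  rw [sq, h1]

/-- the key identity `T n' = c n - gam (v - P v)`. -/
theorem T_n' : Tm s v D.n' = D.c • D.n - D.gam • (v - D.p) := by
  have hB := D.B'_pos.ne'
  rw [n', Tm_Tm s v _ D.hv, D.inner_v_m]
  change D.m - (D.sb * (Real.sqrt (D.B' / D.B) * (D.al / D.B'))) • v = _
  have e1 : D.c = Real.sqrt (D.B' / D.B) * (1 - D.sb * D.al ^ 2 / D.B') := by
    rw [← D.sqrt_eq1, D.B_eq]; congr 1; field_simp
  have e2 : D.gam = Real.sqrt (D.B' / D.B) * (D.sb * D.al / D.B') := by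
    have h := D.sqrt_eq2
    rw [gam]
    calc D.sb * D.al / Real.sqrt (D.B * D.B') = D.sb * D.al * (1 / Real.sqrt (D.B * D.B')) := by ring
      _ = D.sb * D.al * (Real.sqrt (D.B' / D.B) / D.B') := by rw [h]
      _ = _ := by ring
  rw [e1, e2, m, p]
  module

/-- `⟨n', T x⟩ = c ⟨n, x⟩ - gam ⟨v - P v, x⟩` for all `x`. -/
theorem inner_n'_T (x : E) : ⟪D.n', Tm s v x⟫ = D.c * ⟪D.n, x⟫ - D.gam * ⟪v - D.p, x⟫ := by
  rw [← Tm_symm, D.T_n', inner_sub_left, real_inner_smul_left, real_inner_smul_left]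

lemma c_mul : D.c * Real.sqrt (D.B' / D.B) = 1 := by
  have hB := D.B_pos; have hB' := D.B'_pos
  rw [c, ← Real.sqrt_mul (by positivity)]
  have h2 : D.B / D.B' * (D.B' / D.B) = 1 := by field_simp
  rw [h2, Real.sqrt_one]

theorem norm_n' : ‖D.n'‖ = 1 := by
  have h : ‖D.n'‖ ^ 2 = 1 := by
    rw [← real_inner_self_eq_norm_sq]
    conv_lhs => rw [show (⟪D.n', D.n'⟫ : ℝ) = ⟪D.n', Tm s v D.m⟫ from rfl]
    rw [D.inner_n'_T, D.inner_vp D.m D.m_mem, m, real_inner_smul_right, inner_add_right,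
      real_inner_smul_right, real_inner_self_eq_norm_sq, D.hn1, D.hnM' D.p' D.hp']
    have := D.c_mul
    linear_combination this
  nlinarith [norm_nonneg D.n']

theorem n'_orth (x : E) (hx : x ∈ M') : ⟪D.n', Tm s v x⟫ = 0 := by
  rw [D.inner_n'_T, D.hnM' x hx, D.inner_vp x (D.hle hx)]; ring

theorem n'_orth' (y : E) (hy : y ∈ M'.map (Tm s v).toLinearMap) : ⟪D.n', y⟫ = 0 := by
  obtain ⟨x, hx, rfl⟩ := hy
  exact D.n'_orth x hx

lemma inner_n_of (w : E) (hw : w ∈ M) (hw' : ∀ x ∈ M', ⟪w, x⟫ = 0) (hvw : ⟪v, w⟫ = 0) :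
    ⟪D.n, w⟫ = 0 := by
  have h := D.inner_v w hw
  rw [hvw, real_inner_comm, hw' D.p' D.hp'] at h
  have := D.hal
  nlinarith [h, this, mul_eq_zero.1 (show D.al * ⟪D.n, w⟫ = 0 by linarith)]

theorem n'_orth_W (w : E) (hw : w ∈ M) (hw' : ∀ x ∈ M', ⟪w, x⟫ = 0) (hvw : ⟪v, w⟫ = 0) :
    ⟪D.n', w⟫ = 0 := by
  have h := D.inner_n'_T w
  rw [Tm_of_orth hvw, D.inner_n_of w hw hw' hvw, D.inner_vp w hw] at h
  rw [h]; ring

lemma c_nonneg : 0 ≤ D.c := Real.sqrt_nonneg _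

lemma c_le_one : D.c ≤ 1 := by
  rw [c]; apply Real.sqrt_le_one.2 ?_ |> fun h => h
  exact (div_le_one D.B'_pos).2 D.B_le

/-- `1 - c ≤ sb al² / B'`. -/
lemma one_sub_c_le : 1 - D.c ≤ D.sb * D.al ^ 2 / D.B' := by
  have hB := D.B_pos; have hB' := D.B'_pos
  have h1 : D.c * D.c = D.B / D.B' := Real.mul_self_sqrt (by positivity)
  have h2 : D.B / D.B' = 1 - D.sb * D.al ^ 2 / D.B' := by
    rw [D.B_eq]; field_simp
  have h3 := D.c_nonneg; have h4 := D.c_le_one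
  nlinarith

lemma half_le_B (h : D.sb ≤ 1 / 2) : 1 / 2 ≤ D.B := by
  have h1 := D.b_le_one; have h0 := D.sb_nonneg
  have h4 : 0 ≤ D.b := le_trans D.b'_nonneg D.b'_le
  unfold B; nlinarith

lemma one_sub_c_le' (h : D.sb ≤ 1 / 2) : 1 - D.c ≤ 2 * D.sb * D.al ^ 2 := by
  refine le_trans D.one_sub_c_le ?_
  have hB := D.half_le_B h; have hB' := D.B_le
  have h0 := D.sb_nonneg
  rw [div_le_iff₀ D.B'_pos]
  nlinarith [mul_nonneg h0 (sq_nonneg D.al)]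

lemma gam_nonneg : 0 ≤ D.gam := by
  have h0 := D.sb_nonneg; have h1 := D.hal
  unfold gam; positivity

lemma gam_le (h : D.sb ≤ 1 / 2) : D.gam ≤ 2 * D.sb * D.al := by
  have hB := D.half_le_B h; have hB' := D.B_le
  have h0 := D.sb_nonneg; have h1 := D.hal
  have h2 : 1 / 2 ≤ Real.sqrt (D.B * D.B') := by
    apply Real.le_sqrt_of_sq_le
    nlinarith
  unfold gam
  rw [div_le_iff₀ (by linarith)]
  nlinarith [mul_nonneg h0 h1.le]


/-- Bessel form of the cap comparison.  `q = (P_M - P_M') g`, `Z = (P_{TM} - P_{TM'}) z`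
(any vectors with the listed inner product relations), `c0 = θ^{j-i}`. -/
theorem cap_key (g x z q Z : E) (c0 : ℝ) (hc0 : 0 < c0)
    (hq : q ∈ M) (hq' : ∀ y ∈ M', ⟪q, y⟫ = 0)
    (hqg : ∀ w ∈ M, (∀ y ∈ M', ⟪w, y⟫ = 0) → ⟪w, q⟫ = ⟪w, g⟫)
    (hx : ∀ w ∈ M, (∀ y ∈ M', ⟪w, y⟫ = 0) → ⟪w, x⟫ = c0 * ⟪w, g⟫)
    (hz : ∀ w ∈ M.map (Tm s v).toLinearMap, (∀ y ∈ M'.map (Tm s v).toLinearMap, ⟪w, y⟫ = 0) →
      ⟪w, z⟫ = c0⁻¹ * ⟪w, Tm s v x⟫)
    (hZ : ∀ w ∈ M.map (Tm s v).toLinearMap, (∀ y ∈ M'.map (Tm s v).toLinearMap, ⟪w, y⟫ = 0) →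
      ⟪w, Z⟫ = ⟪w, z⟫) :
    ‖q - ((1 - D.c) * ⟪D.n, g⟫ + D.gam * (c0⁻¹ * ⟪v - D.p, x⟫)) • D.n‖ ≤ ‖Z‖ := by
  have hnq : ⟪D.n, q⟫ = ⟪D.n, g⟫ := hqg D.n D.hn D.hnM'
  have hnn : ⟪D.n, D.n⟫ = (1 : ℝ) := by rw [real_inner_self_eq_norm_sq, D.hn1]; norm_num
  set w : E := q - ⟪D.n, g⟫ • D.n with hw
  set t : ℝ := D.c * ⟪D.n, g⟫ - D.gam * (c0⁻¹ * ⟪v - D.p, x⟫) with ht
  have hwM : w ∈ M := M.sub_mem hq (M.smul_mem _ D.hn)
  have hwM' : ∀ y ∈ M', ⟪w, y⟫ = 0 := by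
    intro y hy
    rw [hw, inner_sub_left, real_inner_smul_left, hq' y hy, D.hnM' y hy]; ring
  have hwn : ⟪D.n, w⟫ = 0 := by
    rw [hw, inner_sub_right, real_inner_smul_right, hnq, hnn]; ring
  have hvw : ⟪v, w⟫ = 0 := by
    rw [D.inner_v w hwM, hwn, real_inner_comm, hwM' D.p' D.hp']; ring
  have hTw : Tm s v w = w := Tm_of_orth hvw
  have hwT : w ∈ M.map (Tm s v).toLinearMap := ⟨w, hwM, hTw⟩
  have hwT' : ∀ y ∈ M'.map (Tm s v).toLinearMap, ⟪w, y⟫ = 0 := by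
    rintro _ ⟨y, hy, rfl⟩
    change ⟪w, Tm s v y⟫ = 0
    rw [← Tm_symm, hTw, hwM' y hy]
  have hwg : ⟪w, g⟫ = ‖w‖ ^ 2 := by
    rw [← hqg w hwM hwM']
    have : q = w + ⟪D.n, g⟫ • D.n := by rw [hw]; abel
    conv_lhs => rw [this]
    rw [inner_add_right, real_inner_smul_right, real_inner_comm, real_inner_comm D.n w, hwn,
      real_inner_self_eq_norm_sq]; ring
  have hwZ : ⟪w, Z⟫ = ‖w‖ ^ 2 := by
    rw [hZ w hwT hwT', hz w hwT hwT', ← Tm_symm, hTw, hx w hwM hwM', hwg]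
    field_simp
  have hnZ : ⟪D.n', Z⟫ = t := by
    rw [hZ D.n' D.n'_mem D.n'_orth', hz D.n' D.n'_mem D.n'_orth', D.inner_n'_T,
      hx D.n D.hn D.hnM', ht]
    field_simp
  have hn'w : ⟪D.n', w⟫ = 0 := D.n'_orth_W w hwM hwM' hvw
  set e : E := w + t • D.n' with he
  have he2 : ‖e‖ ^ 2 = ‖w‖ ^ 2 + t ^ 2 := by
    rw [he, ← real_inner_self_eq_norm_sq, inner_add_left, inner_add_right, inner_add_right,
      real_inner_smul_left, real_inner_smul_right, real_inner_smul_left, real_inner_smul_right,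
      hn'w, real_inner_comm D.n' w, hn'w, real_inner_self_eq_norm_sq, real_inner_self_eq_norm_sq,
      D.norm_n']
    ring
  have heZ : ⟪e, Z⟫ = ‖e‖ ^ 2 := by
    rw [he2, he, inner_add_left, real_inner_smul_left, hwZ, hnZ]; ring
  have hle : ‖e‖ ≤ ‖Z‖ := by
    have h1 : ‖e‖ ^ 2 ≤ ‖e‖ * ‖Z‖ := by rw [← heZ]; exact real_inner_le_norm e Z
    rcases eq_or_lt_of_le (norm_nonneg e) with h0 | h0
    · rw [← h0]; exact norm_nonneg _
    · nlinarith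
  have hlhs : q - ((1 - D.c) * ⟪D.n, g⟫ + D.gam * (c0⁻¹ * ⟪v - D.p, x⟫)) • D.n = w + t • D.n := by
    rw [hw, ht]; module
  have h3 : ‖w + t • D.n‖ ^ 2 = ‖w‖ ^ 2 + t ^ 2 := by
    rw [← real_inner_self_eq_norm_sq, inner_add_left, inner_add_right, inner_add_right,
      real_inner_smul_left, real_inner_smul_right, real_inner_smul_left, real_inner_smul_right,
      hwn, real_inner_comm D.n w, hwn, real_inner_self_eq_norm_sq, real_inner_self_eq_norm_sq,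
      D.hn1]
    ring
  rw [hlhs]
  have h4 : ‖w + t • D.n‖ = ‖e‖ := by
    have := norm_nonneg (w + t • D.n); have := norm_nonneg e
    nlinarith [sq_nonneg (‖w + t • D.n‖ - ‖e‖)]
  rw [h4]; exact hle

end Blk

end Crest.Agent.R239.NJ283
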