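import Crest.Agent.R239.FDef
import Crest.Agent.R239.FlagAlg_557

/-! R239 / S0370, one-step line (docs 2444 / 2447), helper921, part 1: linear algebra of the flag
`W_j = P M_j (j > I)`, `W_j = M_j + ℝ v (j ≤ I)`, `P = 1 - v vᵀ`. -/

set_option autoImplicit false
set_option linter.unusedSectionVars false

open scoped RealInnerProductSpace
open Finset

namespace Crest.Agent.R239.OS921

open Crest.Agent.R239.FD Crest.Agent.R239.ProjRot557

variable {E : Type*} [NormedAddCommGroup E] [InnerProductSpace ℝ E] [FiniteDimensional ℝ E]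

lemma th_pos : (0 : ℝ) < th := by unfold th; norm_num
lemma th_lt : th < 1 := by unfold th; norm_num
lemma th_eq : th = 4 / 5 := rfl

/-! ### one subspace -/

/-- `v - P_U v` -/
noncomputable def dv (U : Submodule ℝ E) (v : E) : E := v - U.starProjection v

lemma dv_orth (U : Submodule ℝ E) (v : E) {y : E} (hy : y ∈ U) : ⟪dv U v, y⟫ = 0 :=
  U.starProjection_inner_eq_zero v y hy

lemma norm_dv_sq (U : Submodule ℝ E) {v : E} (hv : ‖v‖ = 1) :
    ‖dv U v‖ ^ 2 = 1 - ‖U.starProjection v‖ ^ 2 := by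
  have := norm_P_sub_sq U v
  rw [hv] at this
  simpa [dv] using this

lemma dv_of_mem {U : Submodule ℝ E} {v : E} (h : v ∈ U) : dv U v = 0 := by
  unfold dv
  rw [Submodule.starProjection_eq_self_iff.2 h, sub_self]

theorem proj_sup (U : Submodule ℝ E) {v : E} (hv : ‖v‖ = 1) (x : E) :
    (U ⊔ Submodule.span ℝ {v}).starProjection x
      = U.starProjection x + (⟪dv U v, x⟫ / (1 - ‖U.starProjection v‖ ^ 2)) • dv U v := by
  by_cases h : v ∈ U
  · rw [P_congr (sup_span_of_mem h), dv_of_mem h]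
    simp
  · rw [P_insert h x]
    congr 1
    rw [← norm_dv_sq U hv]
    unfold newDir
    change ⟪‖dv U v‖⁻¹ • dv U v, x⟫ • ‖dv U v‖⁻¹ • dv U v = _
    rw [real_inner_smul_left, smul_smul]
    congr 1
    have : ‖dv U v‖ ≠ 0 := by
      rw [norm_ne_zero_iff]
      exact sub_P_ne_zero h
    field_simp

lemma Ts1_apply (v x : E) : Ts v 1 x = x - ⟪v, x⟫ • v := by
  rw [Ts_apply, one_mul]

lemma inner_v_Ts1 {v : E} (hv : ‖v‖ = 1) (x : E) : ⟪v, Ts v 1 x⟫ = 0 := by
  rw [Ts1_apply, inner_sub_right, inner_smul_right, real_inner_self_eq_norm_sq, hv]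
  ring

lemma inner_v_sup (U : Submodule ℝ E) {v : E} (x : E) :
    ⟪v, (U ⊔ Submodule.span ℝ {v}).starProjection x⟫ = ⟪v, x⟫ := by
  have hm : v ∈ U ⊔ Submodule.span ℝ {v} :=
    Submodule.mem_sup_right (Submodule.mem_span_singleton_self v)
  exact inner_P_right _ v x hm

theorem proj_map (U : Submodule ℝ E) {v : E} (hv : ‖v‖ = 1) (x : E) :
    (U.map (Ts v 1).toLinearMap).starProjection x
      = (U ⊔ Submodule.span ℝ {v}).starProjection x - ⟪v, x⟫ • v := by
  set y := (U ⊔ Submodule.span ℝ {v}).starProjection x with hy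
  have hym : y ∈ U ⊔ Submodule.span ℝ {v} := Submodule.starProjection_apply_mem _ x
  refine Submodule.eq_starProjection_of_mem_of_inner_eq_zero ?_ ?_
  · obtain ⟨m, hm, w, hw, hmw⟩ := Submodule.mem_sup.1 hym
    obtain ⟨c, rfl⟩ := Submodule.mem_span_singleton.1 hw
    refine ⟨m, hm, ?_⟩
    change Ts v 1 m = _
    have h1 : ⟪v, y⟫ = ⟪v, x⟫ := inner_v_sup U x
    rw [← hmw, inner_add_right, inner_smul_right, real_inner_self_eq_norm_sq, hv] at h1
    rw [Ts1_apply, ← hmw, ← h1]
    module
  · rintro w ⟨m, hm, rfl⟩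
    change ⟪x - (y - ⟪v, x⟫ • v), Ts v 1 m⟫ = 0
    have e : x - (y - ⟪v, x⟫ • v) = (x - y) + ⟪v, x⟫ • v := by abel
    rw [e, inner_add_left, real_inner_smul_left, inner_v_Ts1 hv, mul_zero, add_zero]
    refine Submodule.starProjection_inner_eq_zero x _ ?_
    rw [Ts1_apply]
    exact Submodule.sub_mem _ (Submodule.mem_sup_left hm) (Submodule.smul_mem _ _
      (Submodule.mem_sup_right (Submodule.mem_span_singleton_self v)))

theorem norm_proj_sup_sq (U : Submodule ℝ E) {v : E} (hv : ‖v‖ = 1) (x : E) :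
    ‖(U ⊔ Submodule.span ℝ {v}).starProjection x‖ ^ 2
      = ‖U.starProjection x‖ ^ 2 + ⟪dv U v, x⟫ ^ 2 / (1 - ‖U.starProjection v‖ ^ 2) := by
  rw [proj_sup U hv, ← real_inner_self_eq_norm_sq, inner_add_left, inner_add_right, inner_add_right,
    real_inner_smul_left, real_inner_smul_left, inner_smul_right, inner_smul_right,
    real_inner_self_eq_norm_sq, real_inner_self_eq_norm_sq, norm_dv_sq U hv,
    dv_orth U v (Submodule.starProjection_apply_mem _ x), real_inner_comm (dv U v),
    dv_orth U v (Submodule.starProjection_apply_mem _ x)]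
  by_cases h : 1 - ‖U.starProjection v‖ ^ 2 = 0
  · rw [h]; simp
  · field_simp
    ring

theorem norm_proj_map_sq (U : Submodule ℝ E) {v : E} (hv : ‖v‖ = 1) (x : E) :
    ‖(U.map (Ts v 1).toLinearMap).starProjection x‖ ^ 2
      = ‖U.starProjection x‖ ^ 2 + ⟪dv U v, x⟫ ^ 2 / (1 - ‖U.starProjection v‖ ^ 2)
        - ⟪v, x⟫ ^ 2 := by
  have h : ⟪(U ⊔ Submodule.span ℝ {v}).starProjection x, v⟫ = ⟪v, x⟫ := by
    rw [real_inner_comm]
    exact inner_v_sup U x
  rw [← norm_proj_sup_sq U hv, proj_map U hv, norm_sub_sq_real, inner_smul_right, norm_smul, hv,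
    h, mul_one, Real.norm_eq_abs, sq_abs]
  ring

/-- the projection on `P U` does not see the `v` component -/
lemma proj_map_Ts (U : Submodule ℝ E) {v : E} (hv : ‖v‖ = 1) (x : E) :
    (U.map (Ts v 1).toLinearMap).starProjection (Ts v 1 x)
      = (U.map (Ts v 1).toLinearMap).starProjection x := by
  rw [Ts1_apply, map_sub, map_smul]
  have : (U.map (Ts v 1).toLinearMap).starProjection v = 0 := by
    refine Submodule.eq_starProjection_of_mem_of_inner_eq_zero (Submodule.zero_mem _) ?_
    rintro w ⟨m, _, rfl⟩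
    rw [sub_zero]
    exact inner_v_Ts1 hv m
  rw [this, smul_zero, sub_zero]

lemma norm_proj_v_sq_le (U : Submodule ℝ E) {v : E} (hv : ‖v‖ = 1) :
    ‖U.starProjection v‖ ^ 2 ≤ 1 := by
  have := norm_dv_sq U hv
  nlinarith [sq_nonneg ‖dv U v‖]

lemma mem_of_norm_proj (U : Submodule ℝ E) {v : E} (hv : ‖v‖ = 1)
    (h : ‖U.starProjection v‖ ^ 2 = 1) : v ∈ U := by
  have h1 := norm_dv_sq U hv
  rw [h, sub_self] at h1
  have h2 : dv U v = 0 := by
    rw [← norm_eq_zero]
    exact pow_eq_zero_iff (two_ne_zero) |>.1 h1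
  have h3 : U.starProjection v = v := by
    unfold dv at h2
    exact (sub_eq_zero.1 h2).symm
  rw [← h3]
  exact Submodule.starProjection_apply_mem _ _

/-! ### dimensions -/

lemma finrank_map_add (U : Submodule ℝ E) (f : E →ₗ[ℝ] E) :
    Module.finrank ℝ (U.map f) + Module.finrank ℝ (LinearMap.ker f ⊓ U : Submodule ℝ E)
      = Module.finrank ℝ U := by
  have h := LinearMap.finrank_range_add_finrank_ker (f.domRestrict U)
  have h1 : LinearMap.range (f.domRestrict U) = U.map f := LinearMap.range_domRestrict U f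
  rw [h1] at h
  have h2 : Module.finrank ℝ (LinearMap.ker (f.domRestrict U))
      = Module.finrank ℝ (LinearMap.ker f ⊓ U : Submodule ℝ E) := by
    have e : LinearMap.ker f ⊓ U = (LinearMap.ker (f.domRestrict U)).map U.subtype := by
      ext x
      simp only [Submodule.mem_inf, LinearMap.mem_ker, Submodule.mem_map, Submodule.coe_subtype]
      constructor
      · rintro ⟨h1, h2⟩
        exact ⟨⟨x, h2⟩, h1, rfl⟩
      · rintro ⟨y, h1, rfl⟩
        exact ⟨h1, y.2⟩
    rw [e]
    exact (LinearEquiv.finrank_eq (Submodule.equivMapOfInjective U.subtype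
      (Submodule.injective_subtype U) _))
  rw [h2] at h
  exact h

/-- `k` does not grow under a linear map -/
lemma finrank_map_sub_le {A B : Submodule ℝ E} (h : B ≤ A) (f : E →ₗ[ℝ] E) :
    Module.finrank ℝ (A.map f) - Module.finrank ℝ (B.map f)
      ≤ Module.finrank ℝ A - Module.finrank ℝ B := by
  have h1 := finrank_map_add A f
  have h2 := finrank_map_add B f
  have h3 : Module.finrank ℝ (LinearMap.ker f ⊓ B : Submodule ℝ E)
      ≤ Module.finrank ℝ (LinearMap.ker f ⊓ A : Submodule ℝ E) :=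
    Submodule.finrank_mono (inf_le_inf_left _ h)
  omega

/-- `dim P U = dim U - [v ∈ U]` -/
lemma finrank_map_Ts1 (U : Submodule ℝ E) {v : E} (hv : ‖v‖ = 1) [Decidable (v ∈ U)] :
    Module.finrank ℝ (U.map (Ts v 1).toLinearMap) + (if v ∈ U then 1 else 0)
      = Module.finrank ℝ U := by
  have hv0 : v ≠ 0 := by
    intro h
    rw [h, norm_zero] at hv
    norm_num at hv
  have hker : LinearMap.ker (Ts v 1).toLinearMap = Submodule.span ℝ {v} := by
    ext x
    rw [LinearMap.mem_ker, Submodule.mem_span_singleton]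
    change Ts v 1 x = 0 ↔ _
    rw [Ts1_apply, sub_eq_zero]
    constructor
    · intro h
      exact ⟨⟪v, x⟫, h.symm⟩
    · rintro ⟨a, rfl⟩
      rw [inner_smul_right, real_inner_self_eq_norm_sq, hv]
      simp
  have h1 := finrank_map_add U (Ts v 1).toLinearMap
  rw [hker] at h1
  split_ifs with h
  · have e : Submodule.span ℝ {v} ⊓ U = Submodule.span ℝ {v} :=
      inf_eq_left.2 ((Submodule.span_singleton_le_iff_mem v U).2 h)
    rw [e, finrank_span_singleton hv0] at h1
    exact h1
  · have e : Submodule.span ℝ {v} ⊓ U = ⊥ := by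
      rw [eq_bot_iff]
      rintro x ⟨hx1, hx2⟩
      obtain ⟨a, rfl⟩ := Submodule.mem_span_singleton.1 hx1
      rw [Submodule.mem_bot]
      by_contra hne
      have ha : a ≠ 0 := fun h0 => hne (by rw [h0, zero_smul])
      exact h ((Submodule.smul_mem_iff U ha).1 hx2)
    rw [e, finrank_bot] at h1
    exact h1

lemma finrank_sup_span (U : Submodule ℝ E) (v : E) [Decidable (v ∈ U)] :
    Module.finrank ℝ (U ⊔ Submodule.span ℝ {v} : Submodule ℝ E) + (if v ∈ U then 1 else 0)
      = Module.finrank ℝ U + 1 := by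
  split_ifs with h
  · rw [sup_span_of_mem h]
  · rw [finrank_insert h]

end Crest.Agent.R239.OS921
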