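import Crest.Agent.R239.OS1_921

/-! R239 / S0370, one-step line, helper921, part 2: the flag `W` and its forms. -/

set_option autoImplicit false
set_option linter.unusedSectionVars false

open scoped RealInnerProductSpace
open Finset

namespace Crest.Agent.R239.OS921

open Crest.Agent.R239.FD Crest.Agent.R239.ProjRot557

variable {E : Type*} [NormedAddCommGroup E] [InnerProductSpace ℝ E] [FiniteDimensional ℝ E]

/-! ### block forms -/

lemma abel_sum (c f : ℕ → ℝ) {i n : ℕ} (h : i + 1 ≤ n) :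
    ∑ j ∈ Ico i n, c (j - i) * (f j - f (j + 1))
      = c 0 * f i + ∑ j ∈ Ico (i + 1) n, (c (j - i) - c (j - i - 1)) * f j
        - c (n - 1 - i) * f n := by
  induction n, h using Nat.le_induction with
  | base => simp; ring
  | succ n hn ih =>
    rw [Finset.sum_Ico_succ_top (by omega), Finset.sum_Ico_succ_top (by omega), ih]
    have e1 : n + 1 - 1 - i = n - i := by omega
    have e2 : n - i - 1 = n - 1 - i := by omega
    rw [e1, e2]
    ring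

lemma bot_n (V : Flag E) : V.M V.n = ⊥ := V.bot _ le_rfl

lemma P_n (V : Flag E) (x : E) : V.P V.n x = 0 := FlagAlg557.P_eq_zero (bot_n V) x

lemma norm_Q_sq (V : Flag E) (j : ℕ) (x : E) :
    ‖V.Q j x‖ ^ 2 = ‖V.P j x‖ ^ 2 - ‖V.P (j + 1) x‖ ^ 2 :=
  FlagAlg557.norm_Q_sq' V.anti j x

lemma P_of_mem (V : Flag E) {j : ℕ} {x : E} (h : x ∈ V.M j) : V.P j x = x :=
  FlagAlg557.P_of_mem h

/-- block form with weights `c` -/
noncomputable def form (V : Flag E) (c : ℕ → ℝ) (i : ℕ) (x : E) : ℝ :=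
  ∑ j ∈ Ico i V.n, c (j - i) * ‖V.Q j x‖ ^ 2

lemma form_eq (V : Flag E) (c : ℕ → ℝ) {i : ℕ} (hi : i < V.n) (x : E) :
    form V c i x = c 0 * ‖V.P i x‖ ^ 2
      + ∑ j ∈ Ico (i + 1) V.n, (c (j - i) - c (j - i - 1)) * ‖V.P j x‖ ^ 2 := by
  unfold form
  have h := abel_sum c (fun j => ‖V.P j x‖ ^ 2) (Nat.succ_le_of_lt hi)
  simp only [P_n, norm_zero] at h
  rw [Finset.sum_congr rfl fun j _ => by rw [norm_Q_sq V j x]]
  rw [h]
  ring

lemma norm_Hi_sq (V : Flag E) (i : ℕ) (x : E) :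
    ‖V.Hi i x‖ ^ 2 = form V (fun m => (th⁻¹) ^ (2 * m)) i x := by
  have h := FlagAlg557.norm_comb_sq V.anti i V.n (fun j => (th⁻¹) ^ (j - i)) x
  unfold form
  refine Eq.trans h (Finset.sum_congr rfl fun j _ => ?_)
  change ((th⁻¹) ^ (j - i)) ^ 2 * _ = _
  rw [← pow_mul, mul_comm (j - i) 2]
  rfl

lemma N_eq_form (V : Flag E) (i : ℕ) (x : E) : V.N i x = form V (fun m => (th⁻¹) ^ m) i x := rfl

lemma dP (m : ℕ) (hm : 1 ≤ m) : (th⁻¹) ^ (2 * m) - (th⁻¹) ^ (2 * (m - 1)) = om m := by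
  obtain ⟨k, rfl⟩ : ∃ k, m = k + 1 := ⟨m - 1, by omega⟩
  rw [Nat.add_sub_cancel, om]
  have e : (th⁻¹ : ℝ) ^ (2 * (k + 1)) = (th⁻¹) ^ (2 * k) * (th⁻¹) ^ 2 := by
    rw [← pow_add]; ring_nf
  rw [e, th_eq]
  ring

lemma dN (m : ℕ) (hm : 1 ≤ m) : (th⁻¹) ^ m - (th⁻¹) ^ (m - 1) = (th⁻¹) ^ m * (1 - th) := by
  obtain ⟨k, rfl⟩ : ∃ k, m = k + 1 := ⟨m - 1, by omega⟩
  rw [Nat.add_sub_cancel, pow_succ, th_eq]
  ring

lemma om_nonneg (m : ℕ) : 0 ≤ om m := by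
  unfold om
  have : (0 : ℝ) ≤ 1 - th ^ 2 := by unfold th; norm_num
  have h2 : (0 : ℝ) ≤ (th⁻¹) ^ (2 * m) := by
    have := th_pos; positivity
  exact mul_nonneg h2 this

/-! ### the flag `W` -/

/-- the one-step flag -/
noncomputable def Wf (V : Flag E) (v : E) (I : ℕ) (hI : I < V.n) : Flag E where
  n := V.n
  M j := if j ≤ I then V.M j ⊔ Submodule.span ℝ {v} else (V.M j).map (Ts v 1).toLinearMap
  anti := by
    intro j k hjk
    by_cases hk : k ≤ I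
    · have hj : j ≤ I := hjk.trans hk
      simp only [hj, hk, if_true]
      exact sup_le_sup_right (V.anti hjk) _
    · by_cases hj : j ≤ I
      · simp only [hj, hk, if_true, if_false]
        rintro _ ⟨m, hm, rfl⟩
        change Ts v 1 m ∈ _
        rw [Ts1_apply]
        exact Submodule.sub_mem _ (Submodule.mem_sup_left (V.anti hjk hm)) (Submodule.smul_mem _ _
          (Submodule.mem_sup_right (Submodule.mem_span_singleton_self v)))
      · simp only [hj, hk, if_false]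
        exact Submodule.map_mono (V.anti hjk)
  bot := by
    intro j hj
    have : ¬ j ≤ I := by omega
    simp only [this, if_false]
    rw [V.bot j hj, Submodule.map_bot]

variable {V : Flag E} {v : E} {I : ℕ} {hI : I < V.n}

lemma Wf_n : (Wf V v I hI).n = V.n := rfl

lemma Wf_M_lo {j : ℕ} (h : j ≤ I) : (Wf V v I hI).M j = V.M j ⊔ Submodule.span ℝ {v} := by
  change (if j ≤ I then _ else _) = _
  rw [if_pos h]

lemma Wf_M_hi {j : ℕ} (h : I < j) :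
    (Wf V v I hI).M j = (V.M j).map (Ts v 1).toLinearMap := by
  change (if j ≤ I then _ else _) = _
  rw [if_neg (by omega)]

/-- `a_j(x)^2/(1-b_j)` -/
noncomputable def aa (V : Flag E) (v : E) (j : ℕ) (x : E) : ℝ :=
  ⟪dv (V.M j) v, x⟫ ^ 2 / (1 - V.b v j)

lemma b_def (V : Flag E) (v : E) (j : ℕ) : V.b v j = ‖(V.M j).starProjection v‖ ^ 2 := rfl

lemma b_nonneg (V : Flag E) (v : E) (j : ℕ) : 0 ≤ V.b v j := by rw [b_def]; positivity

lemma b_le_one (V : Flag E) {v : E} (hv : ‖v‖ = 1) (j : ℕ) : V.b v j ≤ 1 :=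
  norm_proj_v_sq_le _ hv

lemma b_anti (V : Flag E) (v : E) {i j : ℕ} (h : i ≤ j) : V.b v j ≤ V.b v i := by
  rw [b_def, b_def]
  exact pow_le_pow_left₀ (norm_nonneg _) (FlagAlg557.norm_P_anti V.anti h v) 2

lemma b_n (V : Flag E) (v : E) : V.b v V.n = 0 := by
  have := P_n V v
  unfold Flag.b
  rw [this]
  simp

lemma WP_lo (hv : ‖v‖ = 1) {j : ℕ} (h : j ≤ I) (x : E) :
    ‖(Wf V v I hI).P j x‖ ^ 2 = ‖V.P j x‖ ^ 2 + aa V v j x := by
  unfold Flag.P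
  rw [P_congr (Wf_M_lo h), norm_proj_sup_sq _ hv]
  rfl

lemma WP_hi (hv : ‖v‖ = 1) {j : ℕ} (h : I < j) (x : E) :
    ‖(Wf V v I hI).P j x‖ ^ 2 = ‖V.P j x‖ ^ 2 + aa V v j x - ⟪v, x⟫ ^ 2 := by
  unfold Flag.P
  rw [P_congr (Wf_M_hi h), norm_proj_map_sq _ hv]
  rfl

lemma WP_Ts (hv : ‖v‖ = 1) {j : ℕ} (h : I < j) (x : E) :
    (Wf V v I hI).P j (Ts v 1 x) = (Wf V v I hI).P j x := by
  unfold Flag.P
  rw [P_congr (Wf_M_hi h)]
  exact proj_map_Ts _ hv x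

lemma aa_of_mem {i : ℕ} {x : E} (hx : x ∈ V.M i) : aa V v i x = 0 := by
  unfold aa
  rw [dv_orth _ _ hx]
  simp

/-- forms of `W` above `I` -/
lemma hi_form (hv : ‖v‖ = 1) (c : ℕ → ℝ) {i : ℕ} (hIi : I < i) (hi : i < V.n) {x : E}
    (hx : x ∈ V.M i) :
    form (Wf V v I hI) c i (Ts v 1 x) = form V c i x - c 0 * ⟪v, x⟫ ^ 2
      + ∑ j ∈ Ico (i + 1) V.n, (c (j - i) - c (j - i - 1)) * (aa V v j x - ⟪v, x⟫ ^ 2) := by
  rw [form_eq _ c (by rw [Wf_n]; exact hi), form_eq V c hi, Wf_n, WP_Ts hv hIi,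
    WP_hi hv hIi, aa_of_mem hx]
  have : ∑ j ∈ Ico (i + 1) V.n, (c (j - i) - c (j - i - 1)) * ‖(Wf V v I hI).P j (Ts v 1 x)‖ ^ 2
      = ∑ j ∈ Ico (i + 1) V.n, ((c (j - i) - c (j - i - 1)) * ‖V.P j x‖ ^ 2
        + (c (j - i) - c (j - i - 1)) * (aa V v j x - ⟪v, x⟫ ^ 2)) := by
    refine Finset.sum_congr rfl fun j hj => ?_
    have hj' := (Finset.mem_Ico.1 hj).1
    rw [WP_Ts hv (by omega), WP_hi hv (by omega)]
    ring
  rw [this, Finset.sum_add_distrib]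
  ring

/-- forms of `W` up to `I` -/
lemma lo_form (hv : ‖v‖ = 1) (c : ℕ → ℝ) {i : ℕ} (hIi : i ≤ I) {x : E}
    (hx : x ∈ V.M i) :
    form (Wf V v I hI) c i x = form V c i x
      + ∑ j ∈ Ico (i + 1) V.n, (c (j - i) - c (j - i - 1))
        * (aa V v j x - if j ≤ I then 0 else ⟪v, x⟫ ^ 2) := by
  have hi : i < V.n := by omega
  rw [form_eq _ c (by rw [Wf_n]; exact hi), form_eq V c hi, Wf_n,
    WP_lo hv hIi, aa_of_mem hx]
  have : ∑ j ∈ Ico (i + 1) V.n, (c (j - i) - c (j - i - 1)) * ‖(Wf V v I hI).P j x‖ ^ 2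
      = ∑ j ∈ Ico (i + 1) V.n, ((c (j - i) - c (j - i - 1)) * ‖V.P j x‖ ^ 2
        + (c (j - i) - c (j - i - 1)) * (aa V v j x - if j ≤ I then 0 else ⟪v, x⟫ ^ 2)) := by
    refine Finset.sum_congr rfl fun j _ => ?_
    split_ifs with h
    · rw [WP_lo hv h]; ring
    · rw [WP_hi hv (by omega)]; ring
  rw [this, Finset.sum_add_distrib]
  ring

/-! ### pointwise bounds -/

/-- `a_j = ⟪v - P_j v, x⟫`, `ζ_j = ⟪P_j v, x⟫` -/
lemma xi_eq (V : Flag E) (v x : E) (j : ℕ) :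
    ⟪v, x⟫ = ⟪dv (V.M j) v, x⟫ + ⟪V.P j v, x⟫ := by
  unfold dv Flag.P
  rw [← inner_add_left, sub_add_cancel]

lemma aa_sub_le (hv : ‖v‖ = 1) (j : ℕ) (x : E) {e : ℝ} (he : 0 < e) :
    aa V v j x - ⟪v, x⟫ ^ 2 ≤ (V.b v j / (1 - V.b v j) + e) * ⟪dv (V.M j) v, x⟫ ^ 2
      + (1 / e) * ⟪V.P j v, x⟫ ^ 2 := by
  have hx := xi_eq V v x j
  set a := ⟪dv (V.M j) v, x⟫ with ha
  set z := ⟪V.P j v, x⟫ with hz
  have hb := b_le_one V hv j
  have key : -(2 * a * z) ≤ e * a ^ 2 + (1 / e) * z ^ 2 := by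
    have h1 : 0 ≤ (e * a + z) ^ 2 := sq_nonneg _
    have h2 : e * a ^ 2 + (1 / e) * z ^ 2 + 2 * a * z = (e * a + z) ^ 2 / e := by
      field_simp
      ring
    have h3 : 0 ≤ (e * a + z) ^ 2 / e := by positivity
    linarith
  unfold aa
  rw [← ha, hx]
  rcases eq_or_lt_of_le hb with h | h
  · have h0 : dv (V.M j) v = 0 := dv_of_mem (mem_of_norm_proj _ hv h)
    have ha0 : a = 0 := by rw [ha, h0, inner_zero_left]
    rw [ha0]
    have : 0 ≤ (1 / e) * z ^ 2 := by positivity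
    simp only [ne_eq, OfNat.ofNat_ne_zero, not_false_eq_true, zero_pow, zero_div, mul_zero,
      zero_add, zero_sub]
    nlinarith [sq_nonneg z]
  · have h1 : 0 < 1 - V.b v j := by linarith
    have e1 : a ^ 2 / (1 - V.b v j) = a ^ 2 + V.b v j / (1 - V.b v j) * a ^ 2 := by
      field_simp
      ring
    rw [e1]
    nlinarith [sq_nonneg z]

lemma aa_nonneg (hv : ‖v‖ = 1) (j : ℕ) (x : E) : 0 ≤ aa V v j x :=
  div_nonneg (sq_nonneg _) (by linarith [b_le_one V hv j])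

lemma aa_sub_ge (hv : ‖v‖ = 1) (j : ℕ) (x : E) {e : ℝ} (he : 0 < e) :
    -(e * ⟪dv (V.M j) v, x⟫ ^ 2 + (1 + 1 / e) * ⟪V.P j v, x⟫ ^ 2) ≤ aa V v j x - ⟪v, x⟫ ^ 2 := by
  have hx := xi_eq V v x j
  have h0 : ⟪dv (V.M j) v, x⟫ ^ 2 ≤ aa V v j x := by
    unfold aa
    have hb := b_le_one V hv j
    rcases eq_or_lt_of_le hb with h | h
    · have h0 : dv (V.M j) v = 0 := dv_of_mem (mem_of_norm_proj _ hv h)
      rw [h0, inner_zero_left]
      simp
    · have h1 : 0 < 1 - V.b v j := by linarith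
      rw [le_div_iff₀ h1]
      have := b_nonneg V v j
      nlinarith [sq_nonneg ⟪dv (V.M j) v, x⟫]
  set a := ⟪dv (V.M j) v, x⟫ with ha
  set z := ⟪V.P j v, x⟫ with hz
  have key : 2 * a * z ≤ e * a ^ 2 + (1 / e) * z ^ 2 := by
    have h1 : 0 ≤ (e * a - z) ^ 2 := sq_nonneg _
    have h2 : e * a ^ 2 + (1 / e) * z ^ 2 - 2 * a * z = (e * a - z) ^ 2 / e := by
      field_simp
      ring
    have h3 : 0 ≤ (e * a - z) ^ 2 / e := by positivity
    linarith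
  rw [hx]
  nlinarith

end Crest.Agent.R239.OS921
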