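import Crest.Agent.R239.OS2_921
import Crest.Agent.R239.Mom_764

/-! R239 / S0370, one-step line, helper921, part 3: sums of squares, cap inequality, dimensions. -/

set_option autoImplicit false
set_option linter.unusedSectionVars false

open scoped RealInnerProductSpace
open Finset

namespace Crest.Agent.R239.OS921

open Crest.Agent.R239.FD Crest.Agent.R239.ProjRot557

section noMeas

variable {E : Type*} [NormedAddCommGroup E] [InnerProductSpace ℝ E] [FiniteDimensional ℝ E]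

lemma inner_H (V : Flag E) (i : ℕ) (x g : E) : ⟪x, V.H i g⟫ = ⟪V.H i x, g⟫ :=
  (FlagAlg557.inner_comb_comm i V.n (fun j => th ^ (j - i)) x g).symm

lemma inner_Hi (V : Flag E) (i : ℕ) (x g : E) : ⟪x, V.Hi i g⟫ = ⟪V.Hi i x, g⟫ :=
  (FlagAlg557.inner_comb_comm i V.n (fun j => (th⁻¹) ^ (j - i)) x g).symm

lemma H_mem (V : Flag E) (i : ℕ) (g : E) : V.H i g ∈ V.M i :=
  FlagAlg557.comb_mem V.anti i V.n (fun j => th ^ (j - i)) g

lemma norm_H_dv (V : Flag E) (v : E) {i j : ℕ} (hij : i ≤ j) (hjn : j ≤ V.n) :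
    ‖V.H i (dv (V.M j) v)‖ ^ 2 ≤ V.b v i - V.b v j :=
  FlagAlg557.norm_H_sub_sq_le V.anti th_pos th_lt.le hij hjn v

lemma norm_H_P (V : Flag E) (v : E) {i j : ℕ} (hij : i ≤ j) (hjn : j ≤ V.n) :
    ‖V.H i (V.P j v)‖ ^ 2 ≤ th ^ (2 * (j - i)) * V.b v j := by
  have h := FlagAlg557.norm_H_P_le V.anti th_pos th_lt.le hij hjn (bot_n V) v
  have h1 : ‖V.H i (V.P j v)‖ ≤ th ^ (j - i) * ‖V.P j v‖ := h
  have h2 := pow_le_pow_left₀ (norm_nonneg _) h1 2
  rw [mul_pow, ← pow_mul, mul_comm (j - i) 2] at h2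
  exact h2

/-! ### sums of squares -/

variable {V : Flag E} {v : E} {I : ℕ} {hI : I < V.n}

lemma om_pos (m : ℕ) : 0 < om m := by
  unfold om
  have : (0 : ℝ) < 1 - th ^ 2 := by unfold th; norm_num
  have h2 : (0 : ℝ) < (th⁻¹) ^ (2 * m) := by
    have := th_pos; positivity
  exact mul_pos h2 this

lemma em_pos {eps : ℝ} (he : 0 < eps) (m : ℕ) : 0 < em eps m := by
  unfold FD.em
  have := th_pos
  positivity

lemma bdiv_nonneg (hv : ‖v‖ = 1) (j : ℕ) : 0 ≤ V.b v j / (1 - V.b v j) :=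
  div_nonneg (b_nonneg V v j) (by linarith [b_le_one V hv j])

/-- the vectors of the majorant -/
noncomputable def wv (V : Flag E) (v : E) (i : ℕ) (α β : ℕ → ℝ) : ℕ × Bool → E := fun k =>
  if k.2 then √(β k.1) • V.H i (V.P k.1 v) else √(α k.1) • V.H i (dv (V.M k.1) v)

lemma sum_wv_sq {α β : ℕ → ℝ} (hα : ∀ j, 0 ≤ α j) (hβ : ∀ j, 0 ≤ β j) (i n : ℕ) (g : E) :
    ∑ k ∈ Ico (i + 1) n ×ˢ (univ : Finset Bool), ⟪wv V v i α β k, g⟫ ^ 2
      = ∑ j ∈ Ico (i + 1) n, (α j * ⟪dv (V.M j) v, V.H i g⟫ ^ 2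
        + β j * ⟪V.P j v, V.H i g⟫ ^ 2) := by
  rw [Finset.sum_product]
  refine Finset.sum_congr rfl fun j _ => ?_
  rw [Fintype.sum_bool]
  simp only [wv, if_true, Bool.false_eq_true, if_false]
  rw [real_inner_smul_left, real_inner_smul_left, mul_pow, mul_pow, Real.sq_sqrt (hα j),
    Real.sq_sqrt (hβ j), inner_H, inner_H]
  ring

lemma sum_wv_norm {α β : ℕ → ℝ} (hα : ∀ j, 0 ≤ α j) (hβ : ∀ j, 0 ≤ β j) (i n : ℕ) :
    ∑ k ∈ Ico (i + 1) n ×ˢ (univ : Finset Bool), ‖wv V v i α β k‖ ^ 2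
      = ∑ j ∈ Ico (i + 1) n, (α j * ‖V.H i (dv (V.M j) v)‖ ^ 2
        + β j * ‖V.H i (V.P j v)‖ ^ 2) := by
  rw [Finset.sum_product]
  refine Finset.sum_congr rfl fun j _ => ?_
  rw [Fintype.sum_bool]
  simp only [wv, if_true, Bool.false_eq_true, if_false]
  rw [norm_smul, norm_smul, mul_pow, mul_pow, Real.norm_eq_abs, Real.norm_eq_abs, sq_abs, sq_abs,
    Real.sq_sqrt (hα j), Real.sq_sqrt (hβ j)]
  ring

lemma Hi_H (V : Flag E) {i : ℕ} (hi : i ≤ V.n) (x : E) : V.Hi i (V.H i x) = V.P i x :=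
  Mom764.Hi_H V.anti th_pos.ne' hi (bot_n V) x

lemma H_Hi (V : Flag E) {i : ℕ} (hi : i ≤ V.n) (x : E) : V.H i (V.Hi i x) = V.P i x :=
  Mom764.H_Hi V.anti th_pos.ne' hi (bot_n V) x

lemma norm_P_le (V : Flag E) (i : ℕ) (g : E) : ‖V.P i g‖ ≤ ‖g‖ :=
  Submodule.norm_starProjection_apply_le _ g

lemma formP_H (V : Flag E) {i : ℕ} (hi : i ≤ V.n) (g : E) :
    form V (fun m => (th⁻¹) ^ (2 * m)) i (V.H i g) ≤ ‖g‖ ^ 2 := by
  rw [← norm_Hi_sq, Hi_H V hi]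
  exact pow_le_pow_left₀ (norm_nonneg _) (norm_P_le V i g) 2

lemma inner_Q_of_mem (V : Flag E) (v : E) {i : ℕ} {x : E} (hx : x ∈ V.M i) :
    ⟪V.Q i v, x⟫ = ⟪v, x⟫ - ⟪V.P (i + 1) v, x⟫ := by
  have h : ⟪V.P i v, x⟫ = ⟪v, x⟫ := inner_P_left _ v x hx
  change ⟪V.P i v - V.P (i + 1) v, x⟫ = _
  rw [inner_sub_left, h]

/-- coefficients above `I` -/
noncomputable def alH (V : Flag E) (v : E) (eps : ℝ) (i j : ℕ) : ℝ :=
  om (j - i) * (V.b v j / (1 - V.b v j) + em eps (j - i))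

/-- coefficients above `I` -/
noncomputable def beH (eps : ℝ) (i j : ℕ) : ℝ := om (j - i) / em eps (j - i) + 1

lemma alH_nonneg (hv : ‖v‖ = 1) {eps : ℝ} (he : 0 < eps) (i j : ℕ) : 0 ≤ alH V v eps i j :=
  mul_nonneg (om_nonneg _) (add_nonneg (bdiv_nonneg hv j) (em_pos he _).le)

lemma beH_nonneg {eps : ℝ} (he : 0 < eps) (i j : ℕ) : 0 ≤ beH eps i j :=
  add_nonneg (div_nonneg (om_nonneg _) (em_pos he _).le) zero_le_one

theorem hi_cmp (hv : ‖v‖ = 1) {eps : ℝ} (he : 0 < eps) {i : ℕ} (hIi : I < i) (hi : i < V.n)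
    (g : E) :
    ‖(Wf V v I hI).Hi i (Ts v 1 (V.H i g))‖ ^ 2 + (1 / 2) * ⟪V.Q i v, V.H i g⟫ ^ 2
      ≤ ‖g‖ ^ 2 + ∑ k ∈ Ico (i + 1) V.n ×ˢ (univ : Finset Bool),
          ⟪wv V v i (alH V v eps i) (beH eps i) k, g⟫ ^ 2 := by
  have hx := H_mem V i g
  have hP := formP_H V hi.le g
  rw [sum_wv_sq (alH_nonneg hv he i) (beH_nonneg he i), norm_Hi_sq, hi_form hv _ hIi hi hx,
    inner_Q_of_mem V v hx]
  set x := V.H i g with hxdef
  have h1 : ∑ j ∈ Ico (i + 1) V.n, ((th⁻¹) ^ (2 * (j - i)) - (th⁻¹) ^ (2 * (j - i - 1)))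
        * (aa V v j x - ⟪v, x⟫ ^ 2)
      ≤ ∑ j ∈ Ico (i + 1) V.n, (alH V v eps i j * ⟪dv (V.M j) v, x⟫ ^ 2
        + (om (j - i) / em eps (j - i)) * ⟪V.P j v, x⟫ ^ 2) := by
    refine Finset.sum_le_sum fun j hj => ?_
    have hj' := (Finset.mem_Ico.1 hj).1
    rw [dP _ (by omega)]
    have h2 := mul_le_mul_of_nonneg_left (aa_sub_le (V := V) hv j x (em_pos he (j - i)))
      (om_nonneg (j - i))
    refine h2.trans (le_of_eq ?_)
    unfold alH
    ring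
  have h3 : ⟪V.P (i + 1) v, x⟫ ^ 2 ≤ ∑ j ∈ Ico (i + 1) V.n, ⟪V.P j v, x⟫ ^ 2 := by
    rcases Nat.lt_or_ge (i + 1) V.n with h | h
    · exact Finset.single_le_sum (f := fun j => ⟪V.P j v, x⟫ ^ 2) (fun j _ => sq_nonneg _)
        (Finset.mem_Ico.2 ⟨le_rfl, h⟩)
    · have e : i + 1 = V.n := by omega
      rw [e, P_n, inner_zero_left]
      simp
  have h4 : ∑ j ∈ Ico (i + 1) V.n, (alH V v eps i j * ⟪dv (V.M j) v, x⟫ ^ 2
        + beH eps i j * ⟪V.P j v, x⟫ ^ 2)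
      = ∑ j ∈ Ico (i + 1) V.n, (alH V v eps i j * ⟪dv (V.M j) v, x⟫ ^ 2
        + (om (j - i) / em eps (j - i)) * ⟪V.P j v, x⟫ ^ 2)
        + ∑ j ∈ Ico (i + 1) V.n, ⟪V.P j v, x⟫ ^ 2 := by
    rw [← Finset.sum_add_distrib]
    refine Finset.sum_congr rfl fun j _ => ?_
    unfold beH
    ring
  rw [h4]
  have h5 : (1 / 2 : ℝ) * (⟪v, x⟫ - ⟪V.P (i + 1) v, x⟫) ^ 2
      ≤ ⟪v, x⟫ ^ 2 + ⟪V.P (i + 1) v, x⟫ ^ 2 := by
    nlinarith [sq_nonneg (⟪v, x⟫ + ⟪V.P (i + 1) v, x⟫)]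
  simp only [mul_zero, pow_zero, one_mul]
  linarith

/-! ### the sums of the norms -/

lemma om_le (m : ℕ) : om m ≤ (25 / 16 : ℝ) ^ m := by
  unfold om
  have e : (th⁻¹ : ℝ) ^ (2 * m) = (25 / 16) ^ m := by
    rw [pow_mul]
    congr 1
    unfold th
    norm_num
  rw [e]
  have h1 : (0 : ℝ) < (25 / 16) ^ m := by positivity
  have h2 : (1 : ℝ) - th ^ 2 ≤ 1 := by unfold th; norm_num
  nlinarith

lemma om_em {eps : ℝ} (m : ℕ) : om m * em eps m = (9 / 25) * eps * (1 / 2) ^ m := by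
  unfold om FD.em
  have e : (th⁻¹ : ℝ) ^ (2 * m) = (25 / 16) ^ m := by
    rw [pow_mul]
    congr 1
    unfold th
    norm_num
  have e2 : (th ^ 2 / 2 : ℝ) = 8 / 25 := by unfold th; norm_num
  have e3 : (1 : ℝ) - th ^ 2 = 9 / 25 := by unfold th; norm_num
  rw [e, e2, e3]
  have : (25 / 16 : ℝ) ^ m * (8 / 25) ^ m = (1 / 2) ^ m := by
    rw [← mul_pow]
    norm_num
  calc (25 / 16 : ℝ) ^ m * (9 / 25) * (eps * (8 / 25) ^ m)
      = (9 / 25) * eps * ((25 / 16 : ℝ) ^ m * (8 / 25) ^ m) := by ring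
    _ = _ := by rw [this]

lemma om_div_em {eps : ℝ} (he : 0 < eps) (m : ℕ) :
    om m / em eps m * th ^ (2 * m) = (9 / 25) / eps * (25 / 8) ^ m := by
  unfold om FD.em
  have e : (th⁻¹ : ℝ) ^ (2 * m) = (25 / 16) ^ m := by
    rw [pow_mul]
    congr 1
    unfold th
    norm_num
  have e' : (th : ℝ) ^ (2 * m) = (16 / 25) ^ m := by
    rw [pow_mul]
    congr 1
    unfold th
    norm_num
  have e2 : (th ^ 2 / 2 : ℝ) = 8 / 25 := by unfold th; norm_num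
  have e3 : (1 : ℝ) - th ^ 2 = 9 / 25 := by unfold th; norm_num
  rw [e, e', e2, e3]
  have h1 : (25 / 16 : ℝ) ^ m * (16 / 25) ^ m = 1 := by
    rw [← mul_pow]
    norm_num
  have h2 : (25 / 8 : ℝ) ^ m * (8 / 25) ^ m = 1 := by
    rw [← mul_pow]
    norm_num
  have h3 : (0 : ℝ) < (8 / 25) ^ m := by positivity
  rw [div_mul_eq_mul_div, div_eq_iff (by positivity)]
  calc (25 / 16 : ℝ) ^ m * (9 / 25) * (16 / 25) ^ m
      = (9 / 25) * ((25 / 16 : ℝ) ^ m * (16 / 25) ^ m) := by ring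
    _ = (9 / 25) * ((25 / 8 : ℝ) ^ m * (8 / 25) ^ m) := by rw [h1, h2]
    _ = 9 / 25 / eps * (25 / 8) ^ m * (eps * (8 / 25) ^ m) := by
        field_simp

lemma sum_half (i n : ℕ) : ∑ j ∈ Ico (i + 1) n, (1 / 2 : ℝ) ^ (j - i) ≤ 1 := by
  rcases Nat.lt_or_ge i n with h | h
  · have key : ∑ j ∈ Ico (i + 1) n, (1 / 2 : ℝ) ^ (j - i) = 1 - (1 / 2) ^ (n - 1 - i) := by
      induction n, (Nat.succ_le_of_lt h) using Nat.le_induction with
      | base => simp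
      | succ n hn ih =>
        rw [Finset.sum_Ico_succ_top (by omega), ih (by omega)]
        have e : n + 1 - 1 - i = (n - 1 - i) + 1 := by omega
        have e2 : n - i = (n - 1 - i) + 1 := by omega
        rw [e, e2, pow_succ]
        ring
    rw [key]
    have : (0 : ℝ) ≤ (1 / 2) ^ (n - 1 - i) := by positivity
    linarith
  · rw [Finset.Ico_eq_empty (by omega)]
    simp

lemma th2_le (m : ℕ) : th ^ (2 * m) ≤ (25 / 8 : ℝ) ^ m := by
  have h1 : th ^ (2 * m) ≤ 1 := pow_le_one₀ th_pos.le th_lt.le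
  have h2 : (1 : ℝ) ≤ (25 / 8) ^ m := one_le_pow₀ (by norm_num)
  linarith

lemma p25_le (m : ℕ) : (25 / 16 : ℝ) ^ m ≤ (25 / 8 : ℝ) ^ m :=
  pow_le_pow_left₀ (by norm_num) (by norm_num) m

theorem hi_norm (hv : ‖v‖ = 1) {eps : ℝ} (he : 0 < eps) (he1 : eps ≤ 1) {i : ℕ} :
    ∑ k ∈ Ico (i + 1) V.n ×ˢ (univ : Finset Bool),
        ‖wv V v i (alH V v eps i) (beH eps i) k‖ ^ 2
      ≤ eps * V.b v i + (3 / eps) * BB V v i := by
  rw [sum_wv_norm (alH_nonneg hv he i) (beH_nonneg he i)]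
  have hterm : ∀ j ∈ Ico (i + 1) V.n,
      alH V v eps i j * ‖V.H i (dv (V.M j) v)‖ ^ 2 + beH eps i j * ‖V.H i (V.P j v)‖ ^ 2
        ≤ eps * V.b v i * (1 / 2) ^ (j - i) + (3 / eps) * ((25 / 8) ^ (j - i) * V.b v j) := by
    intro j hj
    obtain ⟨hj1, hj2⟩ := Finset.mem_Ico.1 hj
    have hA := norm_H_dv V v (show i ≤ j by omega) hj2.le
    have hZ := norm_H_P V v (show i ≤ j by omega) hj2.le
    have hbj := b_nonneg V v j
    have hb1 := b_le_one V hv i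
    have hbj1 := b_le_one V hv j
    set A := ‖V.H i (dv (V.M j) v)‖ ^ 2
    set Z := ‖V.H i (V.P j v)‖ ^ 2
    set m := j - i
    have hA0 : 0 ≤ A := sq_nonneg _
    -- the a-part
    have h1 : V.b v j / (1 - V.b v j) * A ≤ V.b v j := by
      rcases eq_or_lt_of_le hbj1 with h | h
      · rw [h, sub_self, div_zero, zero_mul]
        exact zero_le_one
      · have h2 : 0 < 1 - V.b v j := by linarith
        rw [div_mul_eq_mul_div, div_le_iff₀ h2]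
        nlinarith
    have h2 : alH V v eps i j * A ≤ (25 / 8) ^ m * V.b v j + eps * V.b v i * (1 / 2) ^ m := by
      have e1 : alH V v eps i j * A = om m * (V.b v j / (1 - V.b v j) * A)
          + (om m * em eps m) * A := by
        unfold alH
        ring
      rw [e1, om_em]
      have h3 : om m * (V.b v j / (1 - V.b v j) * A) ≤ (25 / 8) ^ m * V.b v j :=
        mul_le_mul ((om_le m).trans (p25_le m)) h1
          (mul_nonneg (bdiv_nonneg hv j) hA0) (by positivity)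
      have h4 : 9 / 25 * eps * (1 / 2) ^ m * A ≤ eps * V.b v i * (1 / 2) ^ m := by
        have h5 : 9 / 25 * A ≤ V.b v i := by linarith
        have h6 : 0 ≤ eps * (1 / 2 : ℝ) ^ m := by positivity
        nlinarith
      linarith
    have h3 : beH eps i j * Z ≤ ((9 / 25) / eps * (25 / 8) ^ m + (25 / 8) ^ m) * V.b v j := by
      have h4 : beH eps i j * Z ≤ beH eps i j * (th ^ (2 * m) * V.b v j) :=
        mul_le_mul_of_nonneg_left hZ (beH_nonneg he i j)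
      refine h4.trans ?_
      have e : beH eps i j * (th ^ (2 * m) * V.b v j)
          = (om m / em eps m * th ^ (2 * m) + th ^ (2 * m)) * V.b v j := by
        unfold beH
        ring
      rw [e, om_div_em he]
      exact mul_le_mul_of_nonneg_right (by linarith [th2_le m]) hbj
    have h5 : (9 / 25) / eps * (25 / 8) ^ m + (25 / 8 : ℝ) ^ m + (25 / 8) ^ m
        ≤ (3 / eps) * (25 / 8) ^ m := by
      have h6 : (0 : ℝ) < (25 / 8) ^ m := by positivity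
      have h7 : 1 ≤ 1 / eps := by rw [le_div_iff₀ he]; linarith
      have e1 : (9 / 25) / eps = (9 / 25) * (1 / eps) := by ring
      have e2 : 3 / eps = 3 * (1 / eps) := by ring
      rw [e1, e2]
      nlinarith
    have h8 := mul_le_mul_of_nonneg_right h5 hbj
    linarith
  refine (Finset.sum_le_sum hterm).trans ?_
  rw [Finset.sum_add_distrib, ← Finset.mul_sum, ← Finset.mul_sum]
  have h1 := sum_half i V.n
  have h2 : 0 ≤ eps * V.b v i := mul_nonneg he.le (b_nonneg V v i)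
  have h3 : eps * V.b v i * ∑ j ∈ Ico (i + 1) V.n, (1 / 2 : ℝ) ^ (j - i) ≤ eps * V.b v i := by
    nlinarith
  have h4 : ∑ j ∈ Ico (i + 1) V.n, (25 / 8 : ℝ) ^ (j - i) * V.b v j = BB V v i := rfl
  rw [h4]
  linarith

end noMeas

end Crest.Agent.R239.OS921
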