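import Crest.Agent.R239.OS3_921

/-! R239 / S0370, one-step line, helper921, part 4: levels `≤ I`, cap inequality, dimensions. -/

set_option autoImplicit false
set_option linter.unusedSectionVars false

open scoped RealInnerProductSpace
open Finset

namespace Crest.Agent.R239.OS921

open Crest.Agent.R239.FD Crest.Agent.R239.ProjRot557

variable {E : Type*} [NormedAddCommGroup E] [InnerProductSpace ℝ E] [FiniteDimensional ℝ E]
variable {V : Flag E} {v : E} {I : ℕ} {hI : I < V.n}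

/-! ### levels up to `I` -/

/-- coefficients up to `I` -/
noncomputable def alL (V : Flag E) (v : E) (I : ℕ) (eps : ℝ) (i j : ℕ) : ℝ :=
  om (j - i) * (if j ≤ I then 1 / (1 - V.b v j) else V.b v j / (1 - V.b v j) + em eps (j - i))

/-- coefficients up to `I` -/
noncomputable def beL (I : ℕ) (eps : ℝ) (i j : ℕ) : ℝ :=
  if j ≤ I then 0 else om (j - i) / em eps (j - i)

lemma alL_nonneg (hv : ‖v‖ = 1) {eps : ℝ} (he : 0 < eps) (i j : ℕ) : 0 ≤ alL V v I eps i j := by
  refine mul_nonneg (om_nonneg _) ?_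
  split_ifs
  · exact div_nonneg zero_le_one (by linarith [b_le_one V hv j])
  · exact add_nonneg (bdiv_nonneg hv j) (em_pos he _).le

lemma beL_nonneg {eps : ℝ} (he : 0 < eps) (i j : ℕ) : 0 ≤ beL I eps i j := by
  unfold beL
  split_ifs
  · exact le_rfl
  · exact div_nonneg (om_nonneg _) (em_pos he _).le

theorem lo_cmp (hv : ‖v‖ = 1) {eps : ℝ} (he : 0 < eps) {i : ℕ} (hIi : i ≤ I) (hI : I < V.n)
    (g : E) :
    ‖(Wf V v I hI).Hi i (V.H i g)‖ ^ 2
      ≤ ‖g‖ ^ 2 + ∑ k ∈ Ico (i + 1) V.n ×ˢ (univ : Finset Bool),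
          ⟪wv V v i (alL V v I eps i) (beL I eps i) k, g⟫ ^ 2 := by
  have hx := H_mem V i g
  have hP := formP_H V (show i ≤ V.n by omega) g
  rw [sum_wv_sq (alL_nonneg hv he i) (beL_nonneg he i), norm_Hi_sq, lo_form hv _ hIi hx]
  set x := V.H i g with hxdef
  have h1 : ∑ j ∈ Ico (i + 1) V.n, ((th⁻¹) ^ (2 * (j - i)) - (th⁻¹) ^ (2 * (j - i - 1)))
        * (aa V v j x - if j ≤ I then 0 else ⟪v, x⟫ ^ 2)
      ≤ ∑ j ∈ Ico (i + 1) V.n, (alL V v I eps i j * ⟪dv (V.M j) v, x⟫ ^ 2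
        + beL I eps i j * ⟪V.P j v, x⟫ ^ 2) := by
    refine Finset.sum_le_sum fun j hj => ?_
    have hj' := (Finset.mem_Ico.1 hj).1
    rw [dP _ (by omega)]
    unfold alL beL
    split_ifs with h
    · refine le_of_eq ?_
      unfold aa
      ring
    · have h2 := mul_le_mul_of_nonneg_left (aa_sub_le (V := V) hv j x (em_pos he (j - i)))
        (om_nonneg (j - i))
      refine h2.trans (le_of_eq ?_)
      ring
  linarith

lemma sum_om {i I : ℕ} (h : i ≤ I) :
    ∑ j ∈ Ico (i + 1) (I + 1), om (j - i) = (25 / 16 : ℝ) ^ (I - i) - 1 := by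
  induction I, h using Nat.le_induction with
  | base => simp
  | succ n hn ih =>
    rw [Finset.sum_Ico_succ_top (by omega), ih]
    have e : n + 1 - i = (n - i) + 1 := by omega
    rw [e]
    unfold om
    have e2 : (th⁻¹ : ℝ) ^ (2 * (n - i + 1)) = (25 / 16) ^ (n - i + 1) := by
      rw [pow_mul]
      congr 1
      unfold th
      norm_num
    rw [e2, pow_succ, th_eq]
    ring

theorem lo_norm (hv : ‖v‖ = 1) {eps : ℝ} (he : 0 < eps) (he1 : eps ≤ 1) {i : ℕ} (hIi : i ≤ I)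
    (hI : I < V.n) :
    ∑ k ∈ Ico (i + 1) V.n ×ˢ (univ : Finset Bool),
        ‖wv V v i (alL V v I eps i) (beL I eps i) k‖ ^ 2
      ≤ ((25 / 16 : ℝ) ^ (I - i) - 1) + eps
        + (3 / eps) * ∑ j ∈ Ico (I + 1) V.n, (25 / 8 : ℝ) ^ (j - i) * V.b v j := by
  rw [sum_wv_norm (alL_nonneg hv he i) (beL_nonneg he i),
    ← Finset.sum_Ico_consecutive _ (show i + 1 ≤ I + 1 by omega) (show I + 1 ≤ V.n by omega),
    ← sum_om hIi]
  have hb1 := b_le_one V hv i
  have t1 : ∑ j ∈ Ico (i + 1) (I + 1), (alL V v I eps i j * ‖V.H i (dv (V.M j) v)‖ ^ 2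
      + beL I eps i j * ‖V.H i (V.P j v)‖ ^ 2) ≤ ∑ j ∈ Ico (i + 1) (I + 1), om (j - i) := by
    refine Finset.sum_le_sum fun j hj => ?_
    obtain ⟨hj1, hj2⟩ := Finset.mem_Ico.1 hj
    have hA := norm_H_dv V v (show i ≤ j by omega) (show j ≤ V.n by omega)
    have hA0 : 0 ≤ ‖V.H i (dv (V.M j) v)‖ ^ 2 := sq_nonneg _
    have hbj1 := b_le_one V hv j
    unfold alL beL
    rw [if_pos (by omega), if_pos (by omega), zero_mul, add_zero]
    rcases eq_or_lt_of_le hbj1 with h | h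
    · rw [h, sub_self, div_zero, mul_zero, zero_mul]
      exact om_nonneg _
    · have h2 : 0 < 1 - V.b v j := by linarith
      have h3 : 1 / (1 - V.b v j) * ‖V.H i (dv (V.M j) v)‖ ^ 2 ≤ 1 := by
        rw [div_mul_eq_mul_div, one_mul, div_le_one h2]
        linarith
      have := mul_le_mul_of_nonneg_left h3 (om_nonneg (j - i))
      linarith
  have t2 : ∑ j ∈ Ico (I + 1) V.n, (alL V v I eps i j * ‖V.H i (dv (V.M j) v)‖ ^ 2
      + beL I eps i j * ‖V.H i (V.P j v)‖ ^ 2)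
      ≤ eps + (3 / eps) * ∑ j ∈ Ico (I + 1) V.n, (25 / 8 : ℝ) ^ (j - i) * V.b v j := by
    have hterm : ∀ j ∈ Ico (I + 1) V.n,
        alL V v I eps i j * ‖V.H i (dv (V.M j) v)‖ ^ 2 + beL I eps i j * ‖V.H i (V.P j v)‖ ^ 2
          ≤ eps * (1 / 2) ^ (j - i) + (3 / eps) * ((25 / 8) ^ (j - i) * V.b v j) := by
      intro j hj
      obtain ⟨hj1, hj2⟩ := Finset.mem_Ico.1 hj
      have hA := norm_H_dv V v (show i ≤ j by omega) hj2.le
      have hZ := norm_H_P V v (show i ≤ j by omega) hj2.le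
      have hbj := b_nonneg V v j
      have hbj1 := b_le_one V hv j
      unfold alL beL
      rw [if_neg (by omega), if_neg (by omega)]
      set A := ‖V.H i (dv (V.M j) v)‖ ^ 2
      set Z := ‖V.H i (V.P j v)‖ ^ 2
      set m := j - i
      have hA0 : 0 ≤ A := sq_nonneg _
      have h1 : V.b v j / (1 - V.b v j) * A ≤ V.b v j := by
        rcases eq_or_lt_of_le hbj1 with h | h
        · rw [h, sub_self, div_zero, zero_mul]
          exact zero_le_one
        · have h2 : 0 < 1 - V.b v j := by linarith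
          rw [div_mul_eq_mul_div, div_le_iff₀ h2]
          nlinarith
      have h2 : om m * (V.b v j / (1 - V.b v j) + em eps m) * A
          ≤ (25 / 8) ^ m * V.b v j + eps * (1 / 2) ^ m := by
        have e1 : om m * (V.b v j / (1 - V.b v j) + em eps m) * A
            = om m * (V.b v j / (1 - V.b v j) * A) + (om m * em eps m) * A := by
          ring
        rw [e1, om_em]
        have h3 : om m * (V.b v j / (1 - V.b v j) * A) ≤ (25 / 8) ^ m * V.b v j :=
          mul_le_mul ((om_le m).trans (p25_le m)) h1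
            (mul_nonneg (bdiv_nonneg hv j) hA0) (by positivity)
        have h4 : 9 / 25 * eps * (1 / 2) ^ m * A ≤ eps * (1 / 2) ^ m := by
          have h5 : 9 / 25 * A ≤ 1 := by linarith
          have h6 : 0 ≤ eps * (1 / 2 : ℝ) ^ m := by positivity
          nlinarith
        linarith
      have h3 : om m / em eps m * Z ≤ ((9 / 25) / eps * (25 / 8) ^ m) * V.b v j := by
        have h4 : om m / em eps m * Z ≤ om m / em eps m * (th ^ (2 * m) * V.b v j) :=
          mul_le_mul_of_nonneg_left hZ (div_nonneg (om_nonneg _) (em_pos he _).le)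
        refine h4.trans ?_
        rw [← mul_assoc, om_div_em he]
      have h5 : (9 / 25) / eps * (25 / 8) ^ m + (25 / 8 : ℝ) ^ m
          ≤ (3 / eps) * (25 / 8) ^ m := by
        have h6 : (0 : ℝ) < (25 / 8) ^ m := by positivity
        have h7 : 1 ≤ 1 / eps := by rw [le_div_iff₀ he]; linarith
        have e1 : (9 / 25) / eps = (9 / 25) * (1 / eps) := by ring
        have e2 : 3 / eps = 3 * (1 / eps) := by ring
        rw [e1, e2]
        nlinarith
      have h8 := mul_le_mul_of_nonneg_right h5 hbj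
      linarith
    refine (Finset.sum_le_sum hterm).trans ?_
    rw [Finset.sum_add_distrib, ← Finset.mul_sum, ← Finset.mul_sum]
    have h1 : ∑ j ∈ Ico (I + 1) V.n, (1 / 2 : ℝ) ^ (j - i) ≤ 1 := by
      refine le_trans ?_ (sum_half i V.n)
      refine Finset.sum_le_sum_of_subset_of_nonneg ?_ fun _ _ _ => by positivity
      exact Finset.Ico_subset_Ico (by omega) le_rfl
    nlinarith
  linarith

/-! ### the cap inequality -/

lemma N_nonneg (V : Flag E) (i : ℕ) (x : E) : 0 ≤ V.N i x := by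
  unfold Flag.N
  refine Finset.sum_nonneg fun j _ => ?_
  have := th_pos
  positivity

lemma norm_P_le_N (V : Flag E) {i j : ℕ} (hij : i ≤ j) (hj : j ≤ V.n) (x : E) :
    ‖V.P j x‖ ^ 2 ≤ th ^ (j - i) * V.N i x := by
  have h1 : ‖V.P j x‖ ^ 2 = ∑ l ∈ Ico j V.n, ‖V.Q l x‖ ^ 2 :=
    FlagAlg557.norm_P_sq_sum V.anti hj (bot_n V) x
  have hth := th_pos
  have h2 : (th⁻¹) ^ (j - i) * ‖V.P j x‖ ^ 2 ≤ V.N i x := by
    rw [h1, Finset.mul_sum]
    unfold Flag.N
    rw [← Finset.sum_Ico_consecutive _ hij hj]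
    have h3 : ∀ l ∈ Ico j V.n, (th⁻¹) ^ (j - i) * ‖V.Q l x‖ ^ 2
        ≤ (th⁻¹) ^ (l - i) * ‖V.Q l x‖ ^ 2 := by
      intro l hl
      have hl' := (Finset.mem_Ico.1 hl).1
      refine mul_le_mul_of_nonneg_right ?_ (sq_nonneg _)
      refine pow_le_pow_right₀ ?_ (by omega)
      rw [one_le_inv₀ hth]
      exact th_lt.le
    have h4 := Finset.sum_le_sum h3
    have h5 : 0 ≤ ∑ l ∈ Ico i j, (th⁻¹) ^ (l - i) * ‖V.Q l x‖ ^ 2 :=
      Finset.sum_nonneg fun l _ => by positivity
    linarith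
  have h3 : ‖V.P j x‖ ^ 2 = th ^ (j - i) * ((th⁻¹) ^ (j - i) * ‖V.P j x‖ ^ 2) := by
    rw [← mul_assoc, ← mul_pow, mul_inv_cancel₀ hth.ne', one_pow, one_mul]
  rw [h3]
  exact mul_le_mul_of_nonneg_left h2 (by positivity)

lemma norm_le_N (V : Flag E) {i : ℕ} (hi : i ≤ V.n) {x : E} (hx : x ∈ V.M i) :
    ‖x‖ ^ 2 ≤ V.N i x := by
  have := norm_P_le_N V le_rfl hi x
  rwa [P_of_mem V hx, Nat.sub_self, pow_zero, one_mul] at this

lemma inner_sq_le (x y : E) : ⟪x, y⟫ ^ 2 ≤ ‖x‖ ^ 2 * ‖y‖ ^ 2 := by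
  have h := abs_real_inner_le_norm x y
  have h2 := pow_le_pow_left₀ (abs_nonneg _) h 2
  rw [sq_abs, mul_pow] at h2
  exact h2

lemma sum_th (i n : ℕ) : ∑ j ∈ Ico (i + 1) n, (1 - th) * th ^ (j - i) ≤ th := by
  rcases Nat.lt_or_ge i n with h | h
  · have key : ∑ j ∈ Ico (i + 1) n, (1 - th) * th ^ (j - i) = th - th ^ (n - i) := by
      induction n, (Nat.succ_le_of_lt h) using Nat.le_induction with
      | base => simp
      | succ n hn ih =>
        rw [Finset.sum_Ico_succ_top (by omega), ih (by omega)]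
        have e : n + 1 - i = (n - i) + 1 := by omega
        rw [e, pow_succ]
        ring
    rw [key]
    have : (0 : ℝ) ≤ th ^ (n - i) := pow_nonneg th_pos.le _
    linarith
  · rw [Finset.Ico_eq_empty (by omega)]
    simpa using th_pos.le

theorem cap_ineq (hv : ‖v‖ = 1) {i : ℕ} (hIi : I < i) (hi : i < V.n) {x : E}
    (hx : x ∈ V.M i) :
    (1 - (2 * V.b v i + BB V v i)) * V.N i x ≤ (Wf V v I hI).N i (Ts v 1 x) := by
  rw [N_eq_form (Wf V v I hI), hi_form hv _ hIi hi hx, ← N_eq_form]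
  set N := V.N i x with hN
  have hN0 : 0 ≤ N := N_nonneg V i x
  have hth := th_pos
  have hxN : ‖x‖ ^ 2 ≤ N := norm_le_N V hi.le hx
  have hbi := b_nonneg V v i
  have hxi : ⟪v, x⟫ ^ 2 ≤ V.b v i * N := by
    have h1 : ⟪v, x⟫ = ⟪V.P i v, x⟫ := (inner_P_left _ v x hx).symm
    rw [h1]
    refine (inner_sq_le _ _).trans ?_
    exact mul_le_mul_of_nonneg_left hxN hbi
  have hterm : ∀ j ∈ Ico (i + 1) V.n,
      -((1 - th) * th ^ (j - i) * (V.b v i * N) + (25 / 8) ^ (j - i) * V.b v j * N)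
        ≤ ((th⁻¹) ^ (j - i) - (th⁻¹) ^ (j - i - 1)) * (aa V v j x - ⟪v, x⟫ ^ 2) := by
    intro j hj
    obtain ⟨hj1, hj2⟩ := Finset.mem_Ico.1 hj
    rw [dN _ (by omega)]
    have hP := norm_P_le_N V (show i ≤ j by omega) hj2.le x
    rw [← hN] at hP
    have hbj := b_nonneg V v j
    set m := j - i
    have hg := aa_sub_ge (V := V) hv j x (show 0 < th ^ (2 * m) by positivity)
    have ha : ⟪dv (V.M j) v, x⟫ ^ 2 ≤ V.b v i * N := by
      have h1 : ⟪dv (V.M j) v, x⟫ = ⟪V.P i v - V.P j v, x⟫ := by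
        unfold dv
        rw [inner_sub_left, inner_sub_left]
        congr 1
        exact (inner_P_left _ v x hx).symm
      rw [h1]
      refine (inner_sq_le _ _).trans ?_
      have h2 : ‖V.P i v - V.P j v‖ ^ 2 ≤ V.b v i := by
        have h3 : V.P j v = (V.M j).starProjection (V.P i v) :=
          (FlagAlg557.P_P V.anti (show i ≤ j by omega) v).symm
        rw [h3, norm_P_sub_sq]
        have : V.b v i = ‖V.P i v‖ ^ 2 := rfl
        rw [this]
        linarith [sq_nonneg ‖(V.M j).starProjection (V.P i v)‖]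
      exact mul_le_mul h2 hxN (sq_nonneg _) hbi
    have hz : ⟪V.P j v, x⟫ ^ 2 ≤ V.b v j * (th ^ m * N) := by
      have h1 : ⟪V.P j v, x⟫ = ⟪V.P j v, V.P j x⟫ :=
        (inner_P_right _ _ x (FlagAlg557.P_mem j v)).symm
      rw [h1]
      refine (inner_sq_le _ _).trans ?_
      exact mul_le_mul_of_nonneg_left hP hbj
    have hc : 0 ≤ (th⁻¹) ^ m * (1 - th) :=
      mul_nonneg (by positivity) (by linarith [th_lt])
    have h1 := mul_le_mul_of_nonneg_left hg hc
    refine le_trans ?_ h1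
    rw [mul_neg, neg_le_neg_iff, mul_add]
    have e1 : (th⁻¹) ^ m * (1 - th) * (th ^ (2 * m) * ⟪dv (V.M j) v, x⟫ ^ 2)
        = (1 - th) * th ^ m * ⟪dv (V.M j) v, x⟫ ^ 2 := by
      have : (th⁻¹ : ℝ) ^ m * th ^ (2 * m) = th ^ m := by
        rw [two_mul, pow_add, ← mul_assoc, ← mul_pow, inv_mul_cancel₀ hth.ne', one_pow, one_mul]
      calc (th⁻¹) ^ m * (1 - th) * (th ^ (2 * m) * ⟪dv (V.M j) v, x⟫ ^ 2)
          = (1 - th) * ((th⁻¹ : ℝ) ^ m * th ^ (2 * m)) * ⟪dv (V.M j) v, x⟫ ^ 2 := by ring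
        _ = _ := by rw [this]
    have h2 : (1 - th) * th ^ m * ⟪dv (V.M j) v, x⟫ ^ 2 ≤ (1 - th) * th ^ m * (V.b v i * N) :=
      mul_le_mul_of_nonneg_left ha (mul_nonneg (by linarith [th_lt]) (by positivity))
    have h3 : (th⁻¹) ^ m * (1 - th) * ((1 + 1 / th ^ (2 * m)) * ⟪V.P j v, x⟫ ^ 2)
        ≤ (25 / 8) ^ m * V.b v j * N := by
      have h4 : (1 + 1 / th ^ (2 * m)) * ⟪V.P j v, x⟫ ^ 2
          ≤ (1 + 1 / th ^ (2 * m)) * (V.b v j * (th ^ m * N)) :=
        mul_le_mul_of_nonneg_left hz (by positivity)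
      have h5 := mul_le_mul_of_nonneg_left h4 hc
      refine h5.trans ?_
      have e2 : (th⁻¹) ^ m * (1 - th) * ((1 + 1 / th ^ (2 * m)) * (V.b v j * (th ^ m * N)))
          = (1 - th) * (1 + 1 / th ^ (2 * m)) * (V.b v j * N) := by
        have : (th⁻¹ : ℝ) ^ m * th ^ m = 1 := by
          rw [← mul_pow, inv_mul_cancel₀ hth.ne', one_pow]
        calc _ = ((th⁻¹ : ℝ) ^ m * th ^ m) * ((1 - th) * (1 + 1 / th ^ (2 * m)) * (V.b v j * N)) := by
              ring
          _ = _ := by rw [this, one_mul]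
      rw [e2, mul_assoc ((25 / 8 : ℝ) ^ m)]
      refine mul_le_mul_of_nonneg_right ?_ (mul_nonneg hbj hN0)
      have e3 : 1 / th ^ (2 * m) = (25 / 16 : ℝ) ^ m := by
        rw [one_div, ← inv_pow, pow_mul]
        congr 1
        unfold th
        norm_num
      rw [e3]
      have h6 := p25_le m
      have h7 : (1 : ℝ) ≤ (25 / 8) ^ m := one_le_pow₀ (by norm_num)
      have h8 : (1 : ℝ) - th = 1 / 5 := by unfold th; norm_num
      rw [h8]
      linarith
    rw [e1]
    exact add_le_add h2 h3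
  have hsum := Finset.sum_le_sum hterm
  rw [Finset.sum_neg_distrib, Finset.sum_add_distrib, ← Finset.sum_mul, ← Finset.sum_mul] at hsum
  have hth1 := sum_th i V.n
  have hBB : ∑ j ∈ Ico (i + 1) V.n, (25 / 8 : ℝ) ^ (j - i) * V.b v j = BB V v i := rfl
  rw [hBB] at hsum
  have h9 : (∑ j ∈ Ico (i + 1) V.n, (1 - th) * th ^ (j - i)) * (V.b v i * N)
      ≤ 1 * (V.b v i * N) :=
    mul_le_mul_of_nonneg_right (hth1.trans th_lt.le) (mul_nonneg hbi hN0)
  simp only [pow_zero, one_mul]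
  rw [one_mul] at h9
  nlinarith

/-! ### dimensions -/

lemma k_real (V : Flag E) (j : ℕ) :
    (V.k j : ℝ) = (Module.finrank ℝ (V.M j) : ℝ) - Module.finrank ℝ (V.M (j + 1)) := by
  unfold Flag.k
  rw [Nat.cast_sub (Submodule.finrank_mono (V.anti (Nat.le_succ j)))]

lemma finrank_congr {A B : Submodule ℝ E} (h : A = B) :
    Module.finrank ℝ A = Module.finrank ℝ B := by rw [h]

lemma Wk_le {j : ℕ} (h : I < j) : (Wf V v I hI).k j ≤ V.k j := by
  unfold Flag.k
  rw [finrank_congr (Wf_M_hi h), finrank_congr (Wf_M_hi (show I < j + 1 by omega))]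
  exact finrank_map_sub_le (V.anti (Nat.le_succ j)) _

theorem rr_le {i : ℕ} (h : I < i) : (Wf V v I hI).rr i ≤ V.rr i := by
  unfold Flag.rr
  rw [Wf_n]
  refine Finset.sum_le_sum fun j hj => ?_
  have hj' := (Finset.mem_Ico.1 hj).1
  have h1 : ((Wf V v I hI).k j : ℝ) ≤ V.k j := by
    exact_mod_cast Wk_le (show I < j by omega)
  exact mul_le_mul_of_nonneg_left h1 (pow_nonneg th_pos.le _)

open Classical in
/-- `[v ∈ M_j]` -/
noncomputable def del (V : Flag E) (v : E) (j : ℕ) : ℝ := if v ∈ V.M j then 1 else 0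

lemma del_anti (V : Flag E) (v : E) {i j : ℕ} (h : i ≤ j) : del V v j ≤ del V v i := by
  unfold del
  split_ifs with h1 h2 h2
  · exact le_rfl
  · exact absurd (V.anti h h1) h2
  · exact zero_le_one
  · exact le_rfl

lemma del_n (hv : ‖v‖ = 1) : del V v V.n = 0 := by
  unfold del
  rw [if_neg]
  rw [bot_n V, Submodule.mem_bot]
  intro h
  rw [h, norm_zero] at hv
  norm_num at hv

lemma Wfin (hv : ‖v‖ = 1) (j : ℕ) :
    (Module.finrank ℝ ((Wf V v I hI).M j) : ℝ)
      = Module.finrank ℝ (V.M j) - del V v j + (if j ≤ I then 1 else 0) := by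
  classical
  split_ifs with h
  · rw [finrank_congr (Wf_M_lo h)]
    have := finrank_sup_span (V.M j) v
    unfold del
    split_ifs at this ⊢ with h2
    · have h3 : ((Module.finrank ℝ (V.M j ⊔ Submodule.span ℝ {v} : Submodule ℝ E) + 1 : ℕ) : ℝ)
          = ((Module.finrank ℝ (V.M j) + 1 : ℕ) : ℝ) := by rw [this]
      push_cast at h3
      linarith
    · have h3 : ((Module.finrank ℝ (V.M j ⊔ Submodule.span ℝ {v} : Submodule ℝ E) + 0 : ℕ) : ℝ)
          = ((Module.finrank ℝ (V.M j) + 1 : ℕ) : ℝ) := by rw [this]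
      push_cast at h3
      linarith
  · rw [finrank_congr (Wf_M_hi (show I < j by omega))]
    have := finrank_map_Ts1 (V.M j) hv
    unfold del
    split_ifs at this ⊢ with h2
    · have h3 : ((Module.finrank ℝ ((V.M j).map (Ts v 1).toLinearMap) + 1 : ℕ) : ℝ)
          = ((Module.finrank ℝ (V.M j) : ℕ) : ℝ) := by rw [this]
      push_cast at h3
      linarith
    · have h3 : ((Module.finrank ℝ ((V.M j).map (Ts v 1).toLinearMap) + 0 : ℕ) : ℝ)
          = ((Module.finrank ℝ (V.M j) : ℕ) : ℝ) := by rw [this]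
      push_cast at h3
      linarith

lemma Wk_eq (hv : ‖v‖ = 1) (j : ℕ) :
    ((Wf V v I hI).k j : ℝ) = V.k j - (del V v j - del V v (j + 1)) + (if j = I then 1 else 0) := by
  rw [k_real, k_real, Wfin hv, Wfin hv]
  have : (if j ≤ I then (1 : ℝ) else 0) - (if j + 1 ≤ I then 1 else 0)
      = (if j = I then 1 else 0) := by
    by_cases h1 : j + 1 ≤ I
    · rw [if_pos h1, if_pos (by omega), if_neg (by omega)]; norm_num
    · by_cases h2 : j ≤ I
      · rw [if_neg h1, if_pos h2, if_pos (by omega)]; norm_num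
      · rw [if_neg h1, if_neg h2, if_neg (by omega)]; norm_num
  rw [← this]
  ring

lemma tele_del (V : Flag E) (v : E) {i n : ℕ} (h : i ≤ n) :
    ∑ j ∈ Ico i n, (del V v j - del V v (j + 1)) = del V v i - del V v n := by
  induction n, h using Nat.le_induction with
  | base => simp
  | succ n hn ih =>
    rw [Finset.sum_Ico_succ_top (by omega), ih]
    ring

/-- the penalty, general -/
theorem pen_le (hv : ‖v‖ = 1) (lam : ℕ → ℝ) (hlam : ∀ j, 0 ≤ lam j) :
    ∑ j ∈ range V.n, lam j * ((Wf V v I hI).k j : ℝ)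
      ≤ ∑ j ∈ range V.n, lam j * (V.k j : ℝ) + lam I := by
  have h1 : ∑ j ∈ range V.n, lam j * ((Wf V v I hI).k j : ℝ)
      = ∑ j ∈ range V.n, lam j * (V.k j : ℝ)
        - ∑ j ∈ range V.n, lam j * (del V v j - del V v (j + 1)) + lam I := by
    have e : ∑ j ∈ range V.n, lam j * (if j = I then (1 : ℝ) else 0) = lam I := by
      simp [hI]
    rw [← e, ← Finset.sum_sub_distrib, ← Finset.sum_add_distrib]
    refine Finset.sum_congr rfl fun j _ => ?_
    rw [Wk_eq hv]
    ring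
  have h2 : 0 ≤ ∑ j ∈ range V.n, lam j * (del V v j - del V v (j + 1)) :=
    Finset.sum_nonneg fun j _ => mul_nonneg (hlam j) (by linarith [del_anti V v (Nat.le_succ j)])
  linarith

/-- the penalty when `v ∈ M_i` -/
theorem pen_le_mem (hv : ‖v‖ = 1) (lam : ℕ → ℝ) (hlam : ∀ j, 0 ≤ lam j) (hmono : Monotone lam)
    {i : ℕ} (hi : i < V.n) (hvi : v ∈ V.M i) :
    ∑ j ∈ range V.n, lam j * ((Wf V v I hI).k j : ℝ)
      ≤ ∑ j ∈ range V.n, lam j * (V.k j : ℝ) + lam I - lam i := by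
  have h1 : ∑ j ∈ range V.n, lam j * ((Wf V v I hI).k j : ℝ)
      = ∑ j ∈ range V.n, lam j * (V.k j : ℝ)
        - ∑ j ∈ range V.n, lam j * (del V v j - del V v (j + 1)) + lam I := by
    have e : ∑ j ∈ range V.n, lam j * (if j = I then (1 : ℝ) else 0) = lam I := by
      simp [hI]
    rw [← e, ← Finset.sum_sub_distrib, ← Finset.sum_add_distrib]
    refine Finset.sum_congr rfl fun j _ => ?_
    rw [Wk_eq hv]
    ring
  have h2 : lam i ≤ ∑ j ∈ range V.n, lam j * (del V v j - del V v (j + 1)) := by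
    have h3 : ∑ j ∈ Ico i V.n, lam i * (del V v j - del V v (j + 1))
        ≤ ∑ j ∈ range V.n, lam j * (del V v j - del V v (j + 1)) := by
      rw [Finset.range_eq_Ico, ← Finset.sum_Ico_consecutive _ (Nat.zero_le i) hi.le]
      have h4 : 0 ≤ ∑ j ∈ Ico 0 i, lam j * (del V v j - del V v (j + 1)) :=
        Finset.sum_nonneg fun j _ =>
          mul_nonneg (hlam j) (by linarith [del_anti V v (Nat.le_succ j)])
      have h5 : ∑ j ∈ Ico i V.n, lam i * (del V v j - del V v (j + 1))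
          ≤ ∑ j ∈ Ico i V.n, lam j * (del V v j - del V v (j + 1)) :=
        Finset.sum_le_sum fun j hj => mul_le_mul_of_nonneg_right (hmono (Finset.mem_Ico.1 hj).1)
          (by linarith [del_anti V v (Nat.le_succ j)])
      linarith
    rw [← Finset.mul_sum, tele_del V v hi.le, del_n hv] at h3
    have h6 : del V v i = 1 := by
      unfold del
      rw [if_pos hvi]
    rw [h6] at h3
    linarith
  linarith

end Crest.Agent.R239.OS921
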