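import Crest.Agent.R239.FDef

/-! R239 (helper142), one-step line (doc 2444): the flag `W` and the projection formulas. -/

set_option autoImplicit false
set_option linter.unusedSectionVars false
open MeasureTheory ProbabilityTheory
open scoped RealInnerProductSpace

namespace Crest.Agent.R239.One142

open Crest.Agent.R239 Crest.Agent.R239.FD

variable {E : Type*} [NormedAddCommGroup E] [InnerProductSpace ℝ E] [FiniteDimensional ℝ E]

/-! ### One subspace -/

/-- square of the component of `x` along the unit vector of `v - P_M v` (zero if `v ∈ M`) -/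
noncomputable def nn (M : Submodule ℝ E) (v x : E) : ℝ :=
  ⟪v - M.starProjection v, x⟫ ^ 2 / (1 - ‖M.starProjection v‖ ^ 2)

/-- the unit vector itself (zero if `v ∈ M`) -/
noncomputable def nv (M : Submodule ℝ E) (v : E) : E :=
  (√(1 - ‖M.starProjection v‖ ^ 2))⁻¹ • (v - M.starProjection v)

lemma norm_proj_sq_le (M : Submodule ℝ E) {v : E} (hv : ‖v‖ = 1) :
    ‖M.starProjection v‖ ^ 2 ≤ 1 := by
  have h := M.norm_starProjection_apply_le v
  rw [hv] at h
  have h0 := norm_nonneg (M.starProjection v)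
  nlinarith

lemma proj_inner_self (M : Submodule ℝ E) (v : E) :
    ⟪M.starProjection v, v⟫ = ‖M.starProjection v‖ ^ 2 := by
  have h1 : ⟪M.starProjection v, v⟫ = ⟪M.starProjection v, M.starProjection v⟫ := by
    have h2 : M.starProjection (M.starProjection v) = M.starProjection v :=
      M.starProjection_eq_self_iff.2 (M.starProjection_apply_mem v)
    conv_lhs => rw [← h2]
    exact M.inner_starProjection_left_eq_right _ _
  rw [h1, real_inner_self_eq_norm_sq]

lemma norm_sub_proj_sq (M : Submodule ℝ E) {v : E} (hv : ‖v‖ = 1) :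
    ‖v - M.starProjection v‖ ^ 2 = 1 - ‖M.starProjection v‖ ^ 2 := by
  rw [norm_sub_sq_real, real_inner_comm, proj_inner_self, hv]
  ring

lemma inner_sub_proj_self (M : Submodule ℝ E) {v : E} (hv : ‖v‖ = 1) :
    ⟪v - M.starProjection v, v⟫ = 1 - ‖M.starProjection v‖ ^ 2 := by
  rw [inner_sub_left, proj_inner_self, real_inner_self_eq_norm_sq, hv]
  ring

lemma mem_iff_proj_one (M : Submodule ℝ E) {v : E} (hv : ‖v‖ = 1) :
    v ∈ M ↔ ‖M.starProjection v‖ ^ 2 = 1 := by
  constructor
  · intro h
    rw [M.starProjection_eq_self_iff.2 h, hv]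
    norm_num
  · intro h
    have h1 := norm_sub_proj_sq M hv
    rw [h, sub_self] at h1
    have h2 : v - M.starProjection v = 0 := norm_eq_zero.1 (pow_eq_zero_iff (by norm_num) |>.1 h1)
    rw [sub_eq_zero] at h2
    exact M.starProjection_eq_self_iff.1 h2.symm

lemma nn_nonneg (M : Submodule ℝ E) {v : E} (hv : ‖v‖ = 1) (x : E) : 0 ≤ nn M v x :=
  div_nonneg (sq_nonneg _) (by have := norm_proj_sq_le M hv; linarith)

lemma nn_eq (M : Submodule ℝ E) {v : E} (hv : ‖v‖ = 1) (x : E) : nn M v x = ⟪nv M v, x⟫ ^ 2 := by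
  have h := norm_proj_sq_le M hv
  rw [nn, nv, inner_smul_left]
  simp only [conj_trivial]
  rw [mul_pow, inv_pow, Real.sq_sqrt (by linarith)]
  ring

lemma norm_nv_le (M : Submodule ℝ E) {v : E} (hv : ‖v‖ = 1) : ‖nv M v‖ ^ 2 ≤ 1 := by
  have h := norm_proj_sq_le M hv
  rw [nv, norm_smul, mul_pow, norm_sub_proj_sq M hv, norm_inv, Real.norm_eq_abs,
    abs_of_nonneg (Real.sqrt_nonneg _), inv_pow, Real.sq_sqrt (by linarith)]
  exact inv_mul_le_one

lemma nv_orthogonal (M : Submodule ℝ E) (v : E) {x : E} (hx : x ∈ M) : ⟪nv M v, x⟫ = 0 := by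
  rw [nv, inner_smul_left, M.starProjection_inner_eq_zero v x hx, mul_zero]

lemma nn_eq_zero (M : Submodule ℝ E) (v : E) {x : E} (hx : x ∈ M) : nn M v x = 0 := by
  rw [nn, M.starProjection_inner_eq_zero v x hx]
  simp

/-- `b + (1 - b) = 1` splitting: `⟪v - P v, x⟫² = (1 - b) nn` -/
lemma inner_sub_proj_sq (M : Submodule ℝ E) {v : E} (hv : ‖v‖ = 1) (x : E) :
    ⟪v - M.starProjection v, x⟫ ^ 2 = (1 - ‖M.starProjection v‖ ^ 2) * nn M v x := by
  have h := norm_proj_sq_le M hv
  by_cases h0 : 1 - ‖M.starProjection v‖ ^ 2 = 0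
  · have h1 : v - M.starProjection v = 0 := by
      have h2 := norm_sub_proj_sq M hv
      rw [h0] at h2
      exact norm_eq_zero.1 (pow_eq_zero_iff (by norm_num) |>.1 h2)
    rw [h1, h0]
    simp
  · rw [nn]
    field_simp

/-- exact form of (F2) -/
lemma nn_sub_sq (M : Submodule ℝ E) {v : E} (hv : ‖v‖ = 1) (x : E) :
    nn M v x - ⟪v, x⟫ ^ 2 = -(2 * ⟪v, x⟫ * ⟪M.starProjection v, x⟫)
      + ⟪M.starProjection v, x⟫ ^ 2 + ‖M.starProjection v‖ ^ 2 * nn M v x := by
  have h := inner_sub_proj_sq M hv x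
  rw [inner_sub_left] at h
  linear_combination (-1 : ℝ) * h

/-- projection on `M ⊔ ℝ v` -/
theorem proj_sup (M : Submodule ℝ E) {v : E} (hv : ‖v‖ = 1) (x : E) :
    (M ⊔ Submodule.span ℝ {v}).starProjection x
      = M.starProjection x + ⟪nv M v, x⟫ • nv M v := by
  apply Submodule.eq_starProjection_of_mem_of_inner_eq_zero
  · apply Submodule.add_mem
    · exact Submodule.mem_sup_left (M.starProjection_apply_mem x)
    · apply Submodule.smul_mem
      rw [nv]
      apply Submodule.smul_mem
      apply Submodule.sub_mem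
      · exact Submodule.mem_sup_right (Submodule.mem_span_singleton_self v)
      · exact Submodule.mem_sup_left (M.starProjection_apply_mem v)
  · intro w hw
    have hM : ∀ w ∈ M, ⟪x - (M.starProjection x + ⟪nv M v, x⟫ • nv M v), w⟫ = 0 := by
      intro w hw
      rw [← sub_sub, inner_sub_left, M.starProjection_inner_eq_zero x w hw, inner_smul_left,
        nv_orthogonal M v hw]
      simp
    have hvv : ⟪x - (M.starProjection x + ⟪nv M v, x⟫ • nv M v), v⟫ = 0 := by
      have h1 := norm_proj_sq_le M hv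
      have h2 : ∀ y : E, ⟪y, M.starProjection v⟫ = 0 → ⟪y, v⟫ = ⟪y, v - M.starProjection v⟫ := by
        intro y h
        rw [inner_sub_right, h, sub_zero]
      rw [h2 _ (hM _ (M.starProjection_apply_mem v)), ← sub_sub,
        inner_sub_left, inner_sub_left, inner_smul_left]
      have h3 : ⟪M.starProjection x, v - M.starProjection v⟫ = 0 := by
        rw [real_inner_comm]
        exact M.starProjection_inner_eq_zero v _ (M.starProjection_apply_mem x)
      rw [h3, sub_zero]
      simp only [conj_trivial, nv, inner_smul_left]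
      rw [real_inner_self_eq_norm_sq, norm_sub_proj_sq M hv, real_inner_comm x]
      by_cases h0 : 1 - ‖M.starProjection v‖ ^ 2 = 0
      · have h4 : v - M.starProjection v = 0 := by
          have h5 := norm_sub_proj_sq M hv
          rw [h0] at h5
          exact norm_eq_zero.1 (pow_eq_zero_iff (by norm_num) |>.1 h5)
        rw [h4]
        simp
      · have h6 : 0 < 1 - ‖M.starProjection v‖ ^ 2 := lt_of_le_of_ne (by linarith) (Ne.symm h0)
        have h7 : (√(1 - ‖M.starProjection v‖ ^ 2))⁻¹ * (√(1 - ‖M.starProjection v‖ ^ 2))⁻¹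
            * (1 - ‖M.starProjection v‖ ^ 2) = 1 := by
          rw [← mul_inv, Real.mul_self_sqrt h6.le]
          field_simp
        have h8 : ∀ a : ℝ, a - (√(1 - ‖M.starProjection v‖ ^ 2))⁻¹ * a
            * ((√(1 - ‖M.starProjection v‖ ^ 2))⁻¹ * (1 - ‖M.starProjection v‖ ^ 2)) = 0 := by
          intro a
          linear_combination (-a) * h7
        exact h8 _
    obtain ⟨m, hm, y, hy, rfl⟩ := Submodule.mem_sup.1 hw
    obtain ⟨c, rfl⟩ := Submodule.mem_span_singleton.1 hy
    rw [inner_add_right, hM m hm, inner_smul_right, hvv]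
    simp

theorem norm_proj_sup (M : Submodule ℝ E) {v : E} (hv : ‖v‖ = 1) (x : E) :
    ‖(M ⊔ Submodule.span ℝ {v}).starProjection x‖ ^ 2
      = ‖M.starProjection x‖ ^ 2 + nn M v x := by
  rw [proj_sup M hv, norm_add_sq_real, inner_smul_right,
    real_inner_comm (nv M v) (M.starProjection x),
    nv_orthogonal M v (M.starProjection_apply_mem x), norm_smul, mul_pow]
  have h1 : |⟪nv M v, x⟫| ^ 2 * ‖nv M v‖ ^ 2 = nn M v x := by
    rw [sq_abs, nn_eq M hv]
    by_cases h0 : v - M.starProjection v = 0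
    · rw [nv, h0]
      simp
    · have h2 : ‖nv M v‖ ^ 2 = 1 := by
        have h3 := norm_sub_proj_sq M hv
        have h4 : 0 < ‖v - M.starProjection v‖ ^ 2 := by positivity
        rw [nv, norm_smul, mul_pow, norm_inv, Real.norm_eq_abs, abs_of_nonneg (Real.sqrt_nonneg _),
          inv_pow, Real.sq_sqrt (by linarith), ← h3]
        field_simp
      rw [h2, mul_one]
  rw [Real.norm_eq_abs, h1]
  ring

lemma Ts_one_apply (v x : E) : Ts v 1 x = x - ⟪v, x⟫ • v := by
  rw [Ts_apply, one_mul]

lemma inner_Ts_one {v : E} (hv : ‖v‖ = 1) (x : E) : ⟪v, Ts v 1 x⟫ = 0 := by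
  rw [Ts_one_apply, inner_sub_right, inner_smul_right, real_inner_self_eq_norm_sq, hv]
  ring

/-- projection on `P M`, `P = 1 - v vᵀ` -/
theorem proj_map (M : Submodule ℝ E) {v : E} (hv : ‖v‖ = 1) (x : E) :
    (M.map (Ts v 1).toLinearMap).starProjection x
      = (M ⊔ Submodule.span ℝ {v}).starProjection x - ⟪v, x⟫ • v := by
  set L := M ⊔ Submodule.span ℝ {v} with hL
  have hvL : v ∈ L := Submodule.mem_sup_right (Submodule.mem_span_singleton_self v)
  have hvx : ⟪v, L.starProjection x⟫ = ⟪v, x⟫ := by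
    have := L.starProjection_inner_eq_zero x v hvL
    rw [inner_sub_left, sub_eq_zero] at this
    rw [real_inner_comm, ← this, real_inner_comm]
  apply Submodule.eq_starProjection_of_mem_of_inner_eq_zero
  · obtain ⟨m, hm, y, hy, hmy⟩ := Submodule.mem_sup.1 (L.starProjection_apply_mem x)
    obtain ⟨c, rfl⟩ := Submodule.mem_span_singleton.1 hy
    refine Submodule.mem_map.2 ⟨m, hm, ?_⟩
    show Ts v 1 m = _
    rw [Ts_one_apply, ← hvx, ← hmy, inner_add_right, inner_smul_right,
      real_inner_self_eq_norm_sq, hv]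
    module
  · intro w hw
    obtain ⟨m, hm, rfl⟩ := Submodule.mem_map.1 hw
    have h1 : (Ts v 1).toLinearMap m = Ts v 1 m := rfl
    have h2 : Ts v 1 m ∈ L := by
      rw [Ts_one_apply]
      exact Submodule.sub_mem _ (Submodule.mem_sup_left hm) (Submodule.smul_mem _ _ hvL)
    rw [h1, ← sub_add, inner_add_left, L.starProjection_inner_eq_zero x _ h2, inner_smul_left,
      inner_Ts_one hv]
    simp

theorem norm_proj_map (M : Submodule ℝ E) {v : E} (hv : ‖v‖ = 1) (x : E) :
    ‖(M.map (Ts v 1).toLinearMap).starProjection x‖ ^ 2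
      = ‖M.starProjection x‖ ^ 2 + nn M v x - ⟪v, x⟫ ^ 2 := by
  have hvL : v ∈ M ⊔ Submodule.span ℝ {v} :=
    Submodule.mem_sup_right (Submodule.mem_span_singleton_self v)
  have hvx : ⟪v, (M ⊔ Submodule.span ℝ {v}).starProjection x⟫ = ⟪v, x⟫ := by
    have := (M ⊔ Submodule.span ℝ {v}).starProjection_inner_eq_zero x v hvL
    rw [inner_sub_left, sub_eq_zero] at this
    rw [real_inner_comm, ← this, real_inner_comm]
  rw [proj_map M hv, norm_sub_sq_real, norm_proj_sup M hv, inner_smul_right,
    real_inner_comm v ((M ⊔ Submodule.span ℝ {v}).starProjection x), hvx,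
    norm_smul, hv, mul_one, Real.norm_eq_abs, sq_abs]
  ring

/-- `P_{PM}` does not see the component along `v` -/
lemma proj_map_Ts (M : Submodule ℝ E) {v : E} (hv : ‖v‖ = 1) (x : E) :
    (M.map (Ts v 1).toLinearMap).starProjection (Ts v 1 x)
      = (M.map (Ts v 1).toLinearMap).starProjection x := by
  rw [Ts_one_apply, map_sub, map_smul]
  have h : (M.map (Ts v 1).toLinearMap).starProjection v = 0 := by
    rw [proj_map M hv, real_inner_self_eq_norm_sq, hv,
      (Submodule.starProjection_eq_self_iff).2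
        (Submodule.mem_sup_right (Submodule.mem_span_singleton_self v))]
    simp
  rw [h, smul_zero, sub_zero]

/-! ### The flag -/

/-- the flag `W`: `M_j ⊔ ℝ v` for `j ≤ I`, `P M_j` for `j > I` -/
noncomputable def one (V : Flag E) (v : E) (I : ℕ) : Flag E where
  n := max V.n (I + 1)
  M j := if j ≤ I then V.M j ⊔ Submodule.span ℝ {v} else (V.M j).map (Ts v 1).toLinearMap
  anti := by
    intro j k hjk
    show (if k ≤ I then _ else _) ≤ (if j ≤ I then _ else _)
    by_cases hk : k ≤ I
    · have hj : j ≤ I := hjk.trans hk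
      rw [if_pos hk, if_pos hj]
      exact sup_le_sup_right (V.anti hjk) _
    · rw [if_neg hk]
      by_cases hj : j ≤ I
      · rw [if_pos hj]
        rintro _ ⟨m, hm, rfl⟩
        show Ts v 1 m ∈ _
        rw [Ts_one_apply]
        exact Submodule.sub_mem _ (Submodule.mem_sup_left (V.anti hjk hm))
          (Submodule.smul_mem _ _ (Submodule.mem_sup_right (Submodule.mem_span_singleton_self v)))
      · rw [if_neg hj]
        exact Submodule.map_mono (V.anti hjk)
  bot := by
    intro i hi
    have h1 : ¬ i ≤ I := by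
      have := le_trans (le_max_right V.n (I + 1)) hi
      omega
    rw [if_neg h1, V.bot i (le_trans (le_max_left _ _) hi), Submodule.map_bot]

variable (V : Flag E) (v : E) (I : ℕ)

lemma one_n : (one V v I).n = max V.n (I + 1) := rfl

lemma one_M_le {j : ℕ} (hj : j ≤ I) :
    (one V v I).M j = V.M j ⊔ Submodule.span ℝ {v} := if_pos hj

lemma one_M_gt {j : ℕ} (hj : I < j) :
    (one V v I).M j = (V.M j).map (Ts v 1).toLinearMap := if_neg (by omega)

lemma mem_one {j : ℕ} (hj : j ≤ I) : v ∈ (one V v I).M j := by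
  rw [one_M_le V v I hj]
  exact Submodule.mem_sup_right (Submodule.mem_span_singleton_self v)

lemma le_one {j : ℕ} (hj : j ≤ I) : V.M j ≤ (one V v I).M j := by
  rw [one_M_le V v I hj]
  exact le_sup_left

variable {v}

theorem one_P_le {j : ℕ} (hj : j ≤ I) (hv : ‖v‖ = 1) (x : E) :
    ‖(one V v I).P j x‖ ^ 2 = ‖V.P j x‖ ^ 2 + nn (V.M j) v x := by
  show ‖((one V v I).M j).starProjection x‖ ^ 2 = _
  simp only [one_M_le V v I hj]
  exact norm_proj_sup _ hv x

theorem one_P_gt {j : ℕ} (hj : I < j) (hv : ‖v‖ = 1) (x : E) :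
    ‖(one V v I).P j x‖ ^ 2 = ‖V.P j x‖ ^ 2 + nn (V.M j) v x - ⟪v, x⟫ ^ 2 := by
  show ‖((one V v I).M j).starProjection x‖ ^ 2 = _
  simp only [one_M_gt V v I hj]
  exact norm_proj_map _ hv x

theorem one_P_gt_Ts {j : ℕ} (hj : I < j) (hv : ‖v‖ = 1) (x : E) :
    (one V v I).P j (Ts v 1 x) = (one V v I).P j x := by
  show ((one V v I).M j).starProjection _ = ((one V v I).M j).starProjection _
  simp only [one_M_gt V v I hj]
  exact proj_map_Ts _ hv x

end Crest.Agent.R239.One142
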