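import Crest.Agent.R239.One1_142
import Crest.Agent.R239.PRot_711
import Crest.Agent.R239.Mom_764

/-! R239 (helper142), one-step line (doc 2444): comparison inputs as sums of squares. -/

set_option autoImplicit false
set_option linter.unusedSectionVars false
open MeasureTheory ProbabilityTheory Finset
open scoped RealInnerProductSpace

namespace Crest.Agent.R239.One142

open Crest.Agent.R239 Crest.Agent.R239.FD

variable {E : Type*} [NormedAddCommGroup E] [InnerProductSpace ℝ E] [FiniteDimensional ℝ E]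

/-! ### Flag algebra -/

section flag
variable (V : Flag E)

lemma P_zero {j : ℕ} (h : V.n ≤ j) (x : E) : V.P j x = 0 := by
  have h1 : V.P j x ∈ V.M j := (V.M j).starProjection_apply_mem x
  rw [V.bot j h] at h1
  simpa using h1

lemma b_zero {j : ℕ} (h : V.n ≤ j) (v : E) : V.b v j = 0 := by
  unfold Flag.b
  rw [P_zero V h]
  simp

lemma Hi_zero {i : ℕ} (h : V.n ≤ i) (x : E) : V.Hi i x = 0 := by
  rw [Flag.Hi, Finset.Ico_eq_empty_of_le h]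
  simp

lemma P_of_mem {j : ℕ} {x : E} (hx : x ∈ V.M j) : V.P j x = x :=
  (V.M j).starProjection_eq_self_iff.2 hx

lemma P_mem (j : ℕ) (x : E) : V.P j x ∈ V.M j := (V.M j).starProjection_apply_mem x

lemma inner_P (j : ℕ) (x y : E) : ⟪V.P j x, y⟫ = ⟪x, V.P j y⟫ :=
  (V.M j).inner_starProjection_left_eq_right x y

/-- precision identity with an arbitrary upper bound `m ≥ V.n` -/
lemma norm_Hi_sq_ext {i m : ℕ} (hm : V.n ≤ m) (x : E) :
    ‖V.Hi i x‖ ^ 2 = ‖V.P i x‖ ^ 2 + ∑ j ∈ Ico (i + 1) m, om (j - i) * ‖V.P j x‖ ^ 2 := by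
  rcases lt_or_ge i V.n with hi | hi
  · rw [PRot711.norm_Hi_sq V hi]
    congr 1
    rw [← Finset.sum_Ico_consecutive _ (Nat.succ_le_of_lt hi) hm]
    have h0 : ∑ j ∈ Ico V.n m, om (j - i) * ‖V.P j x‖ ^ 2 = 0 := by
      refine Finset.sum_eq_zero fun j hj => ?_
      rw [P_zero V (mem_Ico.1 hj).1]
      simp
    rw [h0, add_zero]
  · rw [Hi_zero V hi, P_zero V hi]
    have h0 : ∑ j ∈ Ico (i + 1) m, om (j - i) * ‖V.P j x‖ ^ 2 = 0 := by
      refine Finset.sum_eq_zero fun j hj => ?_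
      rw [P_zero V (hi.trans (by have := (mem_Ico.1 hj).1; omega))]
      simp
    rw [h0]
    simp

lemma N_eq_ext {i m : ℕ} (hm : V.n ≤ m) (x : E) :
    V.N i x = ‖V.P i x‖ ^ 2 + ∑ j ∈ Ico (i + 1) m, omN (j - i) * ‖V.P j x‖ ^ 2 := by
  rcases lt_or_ge i V.n with hi | hi
  · rw [PRot711.N_eq V hi]
    congr 1
    rw [← Finset.sum_Ico_consecutive _ (Nat.succ_le_of_lt hi) hm]
    have h0 : ∑ j ∈ Ico V.n m, omN (j - i) * ‖V.P j x‖ ^ 2 = 0 := by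
      refine Finset.sum_eq_zero fun j hj => ?_
      rw [P_zero V (mem_Ico.1 hj).1]
      simp
    rw [h0, add_zero]
  · rw [Flag.N, Finset.Ico_eq_empty_of_le hi, P_zero V hi]
    have h0 : ∑ j ∈ Ico (i + 1) m, omN (j - i) * ‖V.P j x‖ ^ 2 = 0 := by
      refine Finset.sum_eq_zero fun j hj => ?_
      rw [P_zero V (hi.trans (by have := (mem_Ico.1 hj).1; omega))]
      simp
    rw [h0]
    simp

lemma H_mem (i : ℕ) (x : E) : V.H i x ∈ V.M i := QPlus711.Hm_mem V.anti V.n i th x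

lemma Hi_mem (i : ℕ) (x : E) : V.Hi i x ∈ V.M i := QPlus711.Hm_mem V.anti V.n i th⁻¹ x

lemma inner_H (i : ℕ) (x y : E) : ⟪V.H i x, y⟫ = ⟪x, V.H i y⟫ :=
  QPlus711.inner_Hm_left V.n i th x y

lemma inner_Hi (i : ℕ) (x y : E) : ⟪V.Hi i x, y⟫ = ⟪x, V.Hi i y⟫ :=
  QPlus711.inner_Hm_left V.n i th⁻¹ x y

lemma Hi_H (i : ℕ) (x : E) : V.Hi i (V.H i x) = V.P i x := by
  rcases le_or_gt i V.n with hi | hi
  · exact QPlus711.Hm_inv_Hm V.anti hi (V.bot V.n le_rfl) PRot711.th_ne x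
  · rw [Hi_zero V hi.le, P_zero V hi.le]

lemma H_Hi (i : ℕ) (x : E) : V.H i (V.Hi i x) = V.P i x := by
  rcases le_or_gt i V.n with hi | hi
  · exact QPlus711.Hm_Hm_inv V.anti hi (V.bot V.n le_rfl) PRot711.th_ne x
  · rw [Hi_zero V hi.le, P_zero V hi.le, map_zero]

lemma norm_P_le (j : ℕ) (x : E) : ‖V.P j x‖ ≤ ‖x‖ := (V.M j).norm_starProjection_apply_le x

lemma norm_H_le (i : ℕ) (x : E) : ‖V.H i x‖ ≤ ‖x‖ := by
  have h1 : ‖V.H i x‖ ^ 2 ≤ ‖x‖ ^ 2 := by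
    have h := QPlus711.norm_Hm_sq V.anti V.n i th x
    have h2 : ∑ j ∈ Ico i V.n, (th ^ 2) ^ (j - i) * ‖QPlus711.Qj V.M j x‖ ^ 2
        ≤ ∑ j ∈ Ico i V.n, ‖QPlus711.Qj V.M j x‖ ^ 2 := by
      refine Finset.sum_le_sum fun j _ => ?_
      have h3 : (th ^ 2) ^ (j - i) ≤ 1 := by
        apply pow_le_one₀ (by positivity)
        have := PRot711.th_pos
        have := PRot711.th_lt_one
        nlinarith
      nlinarith [sq_nonneg ‖QPlus711.Qj V.M j x‖]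
    have h4 : ∑ j ∈ Ico i V.n, ‖QPlus711.Qj V.M j x‖ ^ 2 ≤ ‖x‖ ^ 2 := by
      rcases le_or_gt i V.n with hi | hi
      · rw [QPlus711.sum_norm_Qj_sq V.anti hi]
        have h5 : ‖QPlus711.Pj V.M i x‖ ≤ ‖x‖ := norm_P_le V i x
        have h6 := norm_nonneg (QPlus711.Pj V.M i x)
        have h7 := sq_nonneg ‖QPlus711.Pj V.M V.n x‖
        nlinarith
      · rw [Finset.Ico_eq_empty_of_le hi.le]
        simp
    calc ‖V.H i x‖ ^ 2 = ‖QPlus711.Hm V.M V.n i th x‖ ^ 2 := rfl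
      _ ≤ ‖x‖ ^ 2 := by rw [h]; exact h2.trans h4
  exact abs_le_of_sq_le_sq' h1 (norm_nonneg _) |>.2

lemma norm_H_P_sq_le {i j : ℕ} (hij : i ≤ j) (v : E) :
    ‖V.H i (V.P j v)‖ ^ 2 ≤ (th ^ 2) ^ (j - i) * V.b v j :=
  QPlus711.norm_wze_sq_le V.anti (V.bot V.n le_rfl) PRot711.th_pos.le PRot711.th_lt_one.le hij

/-- `Hi ∘ Hi = P_i + Σ om P_j` -/
lemma Hi_Hi_eq {i : ℕ} (hi : i < V.n) (x : E) :
    V.Hi i (V.Hi i x) = V.P i x + ∑ j ∈ Ico (i + 1) V.n, om (j - i) • V.P j x := by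
  obtain ⟨m, hm⟩ : ∃ m, V.n = i + m + 1 := ⟨V.n - i - 1, by omega⟩
  apply ext_inner_right ℝ
  intro y
  have h1 : V.Hi i (V.Hi i x) = QPlus711.Hm V.M V.n i (th⁻¹ * th⁻¹) x :=
    QPlus711.Hm_Hm V.anti V.n i th⁻¹ th⁻¹ x
  rw [h1, QPlus711.Hm_apply, sum_inner, inner_add_left, sum_inner]
  have h2 : ∀ j ∈ Ico i V.n, ⟪(th⁻¹ * th⁻¹) ^ (j - i) • QPlus711.Qj V.M j x, y⟫
      = (th⁻¹ * th⁻¹) ^ (j - i) * (⟪V.P j x, y⟫ - ⟪V.P (j + 1) x, y⟫) := by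
    intro j _
    rw [inner_smul_left, QPlus711.Qj_apply, inner_sub_left]
    rfl
  rw [Finset.sum_congr rfl h2, hm, QPlus711.abel_sum (th⁻¹ * th⁻¹) (fun j => ⟪V.P j x, y⟫) i m]
  have h3 : ⟪V.P (i + m + 1) x, y⟫ = 0 := by
    rw [P_zero V (by omega)]
    simp
  simp only [h3, mul_zero, sub_zero]
  congr 1
  refine Finset.sum_congr rfl fun j hj => ?_
  rw [inner_smul_left, PRot711.om_eq (by have := mem_Ico.1 hj; omega)]
  simp only [conj_trivial, pow_two]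

lemma H_P_self (i : ℕ) (x : E) : V.H i (V.P i x) = V.H i x := by
  apply ext_inner_right ℝ
  intro y
  rw [inner_H, inner_P, P_of_mem V (H_mem V i y), inner_H]

/-- `Hi_i v = H_i v + Σ om H_i P_j v` -/
lemma Hi_expand {i m : ℕ} (hm : V.n ≤ m) (v : E) :
    V.Hi i v = V.H i v + ∑ j ∈ Ico (i + 1) m, om (j - i) • V.H i (V.P j v) := by
  rcases lt_or_ge i V.n with hi | hi
  · have h1 := congrArg (V.H i) (Hi_Hi_eq V hi v)
    rw [H_Hi, P_of_mem V (Hi_mem V i v), map_add, H_P_self, map_sum] at h1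
    rw [h1]
    congr 1
    rw [← Finset.sum_Ico_consecutive _ (Nat.succ_le_of_lt hi) hm]
    have h0 : ∑ j ∈ Ico V.n m, om (j - i) • V.H i (V.P j v) = 0 := by
      refine Finset.sum_eq_zero fun j hj => ?_
      rw [P_zero V (mem_Ico.1 hj).1]
      simp
    rw [h0, add_zero]
    exact Finset.sum_congr rfl fun j _ => by rw [map_smul]
  · have h2 : ∀ y, V.H i y = 0 := by
      intro y
      rw [Flag.H, Finset.Ico_eq_empty_of_le hi]
      simp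
    rw [Hi_zero V hi]
    simp [h2]

/-- orthogonal sums over the blocks -/
lemma norm_sum_Q_sq (s : Finset ℕ) (c : ℕ → ℝ) (x : E) :
    ‖∑ j ∈ s, c j • V.Q j x‖ ^ 2 = ∑ j ∈ s, c j ^ 2 * ‖V.Q j x‖ ^ 2 :=
  Mom764.norm_sum_Q_sq V.anti s c x

lemma norm_Q_sq (j : ℕ) (x : E) : ‖V.Q j x‖ ^ 2 = ‖V.P j x‖ ^ 2 - ‖V.P (j + 1) x‖ ^ 2 :=
  QPlus711.norm_Qj_sq V.anti j x

lemma Hi_apply (i : ℕ) (x : E) :
    V.Hi i x = ∑ j ∈ Ico i V.n, (th⁻¹) ^ (j - i) • V.Q j x := by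
  simp [Flag.Hi]

lemma H_apply (i : ℕ) (x : E) : V.H i x = ∑ j ∈ Ico i V.n, th ^ (j - i) • V.Q j x := by
  simp [Flag.H]

/-- the tail weight `b_{i+1} + Σ_{j>i} om_{j-i} b_j` -/
noncomputable def tl (v : E) (i : ℕ) : ℝ :=
  V.b v (i + 1) + ∑ j ∈ Ico (i + 1) V.n, om (j - i) * V.b v j

lemma tl_nonneg (v : E) (i : ℕ) : 0 ≤ tl V v i :=
  add_nonneg (PRot711.b_nonneg V v _)
    (Finset.sum_nonneg fun j _ => mul_nonneg (PRot711.om_pos _).le (PRot711.b_nonneg V v j))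

lemma norm_Hi_sub_Q (i : ℕ) (v : E) : ‖V.Hi i v - V.Q i v‖ ^ 2 = tl V v i := by
  rcases lt_or_ge i V.n with hi | hi
  · have h1 : V.Hi i v - V.Q i v = ∑ j ∈ Ico (i + 1) V.n, (th⁻¹) ^ (j - i) • V.Q j v := by
      rw [Hi_apply, Finset.sum_eq_sum_Ico_succ_bot hi]
      simp
    have h2 : ‖V.Hi i v‖ ^ 2 = ‖V.Q i v‖ ^ 2 + ‖V.Hi i v - V.Q i v‖ ^ 2 := by
      rw [h1, norm_sum_Q_sq, Hi_apply, norm_sum_Q_sq, Finset.sum_eq_sum_Ico_succ_bot hi]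
      simp
    have h3 := norm_Hi_sq_ext V (i := i) le_rfl v
    rw [h2, norm_Q_sq] at h3
    unfold tl Flag.b
    linarith
  · have h4 : V.Q i v = 0 := by
      show V.P i v - V.P (i + 1) v = 0
      rw [P_zero V hi, P_zero V (by omega), sub_zero]
    rw [Hi_zero V hi, h4, tl, b_zero V (by omega), Finset.Ico_eq_empty_of_le (by omega)]
    simp

lemma norm_Hi_sub_H (i : ℕ) (v : E) : ‖V.Hi i v - V.H i v‖ ^ 2 ≤ tl V v i := by
  rcases lt_or_ge i V.n with hi | hi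
  · have h1 : V.Hi i v - V.H i v
        = ∑ j ∈ Ico i V.n, ((th⁻¹) ^ (j - i) - th ^ (j - i)) • V.Q j v := by
      rw [Hi_apply, H_apply, ← Finset.sum_sub_distrib]
      exact Finset.sum_congr rfl fun j _ => by rw [sub_smul]
    have h2 : V.Hi i v - V.Q i v = ∑ j ∈ Ico (i + 1) V.n, (th⁻¹) ^ (j - i) • V.Q j v := by
      rw [Hi_apply, Finset.sum_eq_sum_Ico_succ_bot hi]
      simp
    rw [← norm_Hi_sub_Q, h1, h2, norm_sum_Q_sq, norm_sum_Q_sq, Finset.sum_eq_sum_Ico_succ_bot hi]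
    have h3 : ((th⁻¹) ^ (i - i) - th ^ (i - i)) ^ 2 * ‖V.Q i v‖ ^ 2 = 0 := by simp
    rw [h3, zero_add]
    refine Finset.sum_le_sum fun j _ => ?_
    have h4 : th ^ (j - i) ≤ (th⁻¹) ^ (j - i) := by
      apply pow_le_pow_left₀ PRot711.th_pos.le
      have := PRot711.th_lt_one
      have h5 := one_le_inv₀ PRot711.th_pos |>.2 this.le
      linarith
    have h6 : 0 < th ^ (j - i) := pow_pos PRot711.th_pos _
    have h7 : ((th⁻¹) ^ (j - i) - th ^ (j - i)) ^ 2 ≤ ((th⁻¹) ^ (j - i)) ^ 2 := by nlinarith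
    nlinarith [sq_nonneg ‖V.Q j v‖]
  · rw [Hi_zero V hi, H_apply, Finset.Ico_eq_empty_of_le hi]
    simp [tl_nonneg]

end flag

/-! ### Levels above `I` -/

section hi
variable (V : Flag E) {v : E} (I : ℕ)

lemma le_one_n : V.n ≤ (one V v I).n := le_max_left _ _

/-- exact formula for the precision of the level `i > I` of `W` at `P x`, `x ∈ M_i` -/
theorem hi_exact (hv : ‖v‖ = 1) {i : ℕ} (hi : I < i) (g : E) :
    ‖(one V v I).Hi i (Ts v 1 (V.H i g))‖ ^ 2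
      = ‖V.P i g‖ ^ 2 - ⟪V.Hi i v, g⟫ ^ 2 + ⟪V.Hi i v - V.H i v, g⟫ ^ 2
        + ∑ j ∈ Ico (i + 1) (one V v I).n, om (j - i) * (⟪V.H i (V.P j v), g⟫ ^ 2
            + V.b v j * nn (V.M j) v (V.H i g)) := by
  set W := one V v I with hW
  set m := W.n with hm
  set x := V.H i g with hx
  have hxm : x ∈ V.M i := H_mem V i g
  have h1 : ‖W.Hi i (Ts v 1 x)‖ ^ 2
      = ‖W.P i x‖ ^ 2 + ∑ j ∈ Ico (i + 1) m, om (j - i) * ‖W.P j x‖ ^ 2 := by
    rw [norm_Hi_sq_ext W (i := i) (m := m) le_rfl, one_P_gt_Ts V I hi hv]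
    congr 1
    refine Finset.sum_congr rfl fun j hj => ?_
    rw [one_P_gt_Ts V I (by have := (mem_Ico.1 hj).1; omega) hv]
  have h2 : ‖W.P i x‖ ^ 2 = ‖V.P i x‖ ^ 2 - ⟪v, x⟫ ^ 2 := by
    rw [one_P_gt V I hi hv, nn_eq_zero _ _ hxm, add_zero]
  have h3 : ∀ j ∈ Ico (i + 1) m, om (j - i) * ‖W.P j x‖ ^ 2
      = om (j - i) * ‖V.P j x‖ ^ 2 + (-(2 * ⟪v, x⟫) * (om (j - i) * ⟪V.P j v, x⟫)
        + om (j - i) * (⟪V.P j v, x⟫ ^ 2 + V.b v j * nn (V.M j) v x)) := by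
    intro j hj
    rw [one_P_gt V I (by have := (mem_Ico.1 hj).1; omega) hv]
    have := nn_sub_sq (V.M j) hv x
    have h4 : nn (V.M j) v x - ⟪v, x⟫ ^ 2 = -(2 * ⟪v, x⟫ * ⟪V.P j v, x⟫)
      + ⟪V.P j v, x⟫ ^ 2 + V.b v j * nn (V.M j) v x := this
    linear_combination om (j - i) * h4
  rw [h1, h2, Finset.sum_congr rfl h3, Finset.sum_add_distrib, Finset.sum_add_distrib,
    ← Finset.mul_sum]
  have h5 := norm_Hi_sq_ext V (i := i) (m := m) (le_one_n V I) x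
  rw [hx, Hi_H] at h5
  have h6 : ⟪V.Hi i v - V.H i v, g⟫ = ∑ j ∈ Ico (i + 1) m, om (j - i) * ⟪V.P j v, x⟫ := by
    rw [Hi_expand V (i := i) (m := m) (le_one_n V I) v, add_sub_cancel_left, sum_inner]
    refine Finset.sum_congr rfl fun j _ => ?_
    rw [inner_smul_left, inner_H]
    rfl
  have h7 : ⟪V.Hi i v, g⟫ = ⟪v, x⟫ + ∑ j ∈ Ico (i + 1) m, om (j - i) * ⟪V.P j v, x⟫ := by
    rw [← h6, inner_sub_left, inner_H]
    ring
  have h8 : ∀ j, ⟪V.H i (V.P j v), g⟫ = ⟪V.P j v, x⟫ := fun j => inner_H V i _ _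
  simp only [h8]
  rw [h6, h7]
  linear_combination (-1 : ℝ) * h5

end hi

end Crest.Agent.R239.One142
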