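import Crest.Agent.R239.One2_142

/-! R239 (helper142), one-step line (doc 2444): comparison inputs, final forms. -/

set_option autoImplicit false
set_option linter.unusedSectionVars false
open MeasureTheory ProbabilityTheory Finset
open scoped RealInnerProductSpace

namespace Crest.Agent.R239.One142

open Crest.Agent.R239 Crest.Agent.R239.FD

variable {E : Type*} [NormedAddCommGroup E] [InnerProductSpace ℝ E] [FiniteDimensional ℝ E]

/-- reindexing a finite family by a finset of `ℕ` -/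
lemma reindex {ι : Type*} (s : Finset ι) (u : ι → E) :
    ∃ (J : Finset ℕ) (w : ℕ → E), ∀ f : E → ℝ, ∑ k ∈ J, f (w k) = ∑ k ∈ s, f (u k) := by
  refine ⟨range s.card, fun k => if h : k < s.card then u (s.equivFin.symm ⟨k, h⟩) else 0,
    fun f => ?_⟩
  rw [Finset.sum_range]
  have h1 : ∀ k : Fin s.card, f (if h : (k : ℕ) < s.card then
      u (s.equivFin.symm ⟨k, h⟩) else 0) = f (u (s.equivFin.symm k)) := by
    intro k
    rw [dif_pos k.2]
  rw [Finset.sum_congr rfl fun k _ => h1 k]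
  rw [Equiv.sum_comp s.equivFin.symm (fun a : s => f (u a))]
  exact Finset.sum_coe_sort s (fun a => f (u a))

lemma inner_smul_sq (c : ℝ) (hc : 0 ≤ c) (w g : E) : ⟪√c • w, g⟫ ^ 2 = c * ⟪w, g⟫ ^ 2 := by
  rw [inner_smul_left]
  simp only [conj_trivial]
  rw [mul_pow, Real.sq_sqrt hc]

lemma norm_smul_sq (c : ℝ) (hc : 0 ≤ c) (w : E) : ‖√c • w‖ ^ 2 = c * ‖w‖ ^ 2 := by
  rw [norm_smul, mul_pow, Real.norm_eq_abs, sq_abs, Real.sq_sqrt hc]

section hi
variable (V : Flag E) {v : E} (I : ℕ)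

lemma norm_H_nv_le (hv : ‖v‖ = 1) (i j : ℕ) : ‖V.H i (nv (V.M j) v)‖ ^ 2 ≤ 1 := by
  have h1 := norm_H_le V i (nv (V.M j) v)
  have h2 := norm_nv_le (V.M j) hv
  have h3 := norm_nonneg (V.H i (nv (V.M j) v))
  nlinarith

lemma norm_H_P_le' {i j : ℕ} (hij : i ≤ j) (v : E) : ‖V.H i (V.P j v)‖ ^ 2 ≤ V.b v j := by
  have h1 := norm_H_P_sq_le V hij v
  have h2 : (th ^ 2) ^ (j - i) ≤ 1 := by
    apply pow_le_one₀ (by positivity)
    have := PRot711.th_pos
    have := PRot711.th_lt_one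
    nlinarith
  have h3 := PRot711.b_nonneg V v j
  nlinarith

lemma sum_om_b_le_tl (v : E) {i m : ℕ} (hm : V.n ≤ m) :
    ∑ j ∈ Ico (i + 1) m, om (j - i) * V.b v j ≤ tl V v i := by
  have h1 : ∑ j ∈ Ico (i + 1) m, om (j - i) * V.b v j
      = ∑ j ∈ Ico (i + 1) V.n, om (j - i) * V.b v j := by
    rcases le_or_gt (i + 1) V.n with hi | hi
    · rw [← Finset.sum_Ico_consecutive _ hi hm]
      have h0 : ∑ j ∈ Ico V.n m, om (j - i) * V.b v j = 0 := by
        refine Finset.sum_eq_zero fun j hj => ?_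
        rw [b_zero V (mem_Ico.1 hj).1]
        simp
      rw [h0, add_zero]
    · rw [Finset.Ico_eq_empty_of_le hi.le]
      refine Finset.sum_eq_zero fun j hj => ?_
      rw [b_zero V (hi.le.trans (mem_Ico.1 hj).1)]
      simp
  rw [h1, tl]
  have := PRot711.b_nonneg V v (i + 1)
  linarith

/-- **comparison input, levels `i > I`** -/
theorem hi_input (hv : ‖v‖ = 1) {i : ℕ} (hi : I < i) :
    ∃ (J : Finset ℕ) (u : ℕ → E),
      (∀ g, ‖(one V v I).Hi i (Ts v 1 (V.H i g))‖ ^ 2 + 1 / 2 * ⟪V.Q i v, g⟫ ^ 2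
          ≤ ‖g‖ ^ 2 + ∑ k ∈ J, ⟪u k, g⟫ ^ 2) ∧
      ∑ k ∈ J, ‖u k‖ ^ 2 ≤ 4 * tl V v i := by
  set m := (one V v I).n with hm
  let s : Finset (Bool ⊕ (ℕ ⊕ ℕ)) :=
    Finset.univ.disjSum ((Ico (i + 1) m).disjSum (Ico (i + 1) m))
  let u : Bool ⊕ (ℕ ⊕ ℕ) → E := Sum.elim
    (fun b => if b then V.Hi i v - V.H i v else V.Hi i v - V.Q i v)
    (Sum.elim (fun j => √(om (j - i)) • V.H i (V.P j v))
      (fun j => √(om (j - i) * V.b v j) • V.H i (nv (V.M j) v)))
  obtain ⟨J, w, hw⟩ := reindex s u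
  have hb : ∀ j, 0 ≤ om (j - i) * V.b v j := fun j =>
    mul_nonneg (PRot711.om_pos _).le (PRot711.b_nonneg V v j)
  refine ⟨J, w, fun g => ?_, ?_⟩
  · rw [hw fun y => ⟪y, g⟫ ^ 2, hi_exact V I hv hi g]
    simp only [s, u, Finset.sum_disjSum, Sum.elim_inl, Sum.elim_inr, Fintype.sum_bool, if_true,
      Bool.false_eq_true, if_false]
    have h1 : ∑ j ∈ Ico (i + 1) m, ⟪√(om (j - i)) • V.H i (V.P j v), g⟫ ^ 2
        + ∑ j ∈ Ico (i + 1) m, ⟪√(om (j - i) * V.b v j) • V.H i (nv (V.M j) v), g⟫ ^ 2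
        = ∑ j ∈ Ico (i + 1) m, om (j - i) * (⟪V.H i (V.P j v), g⟫ ^ 2
            + V.b v j * nn (V.M j) v (V.H i g)) := by
      rw [← Finset.sum_add_distrib]
      refine Finset.sum_congr rfl fun j _ => ?_
      rw [inner_smul_sq _ (PRot711.om_pos _).le, inner_smul_sq _ (hb j), nn_eq _ hv,
        inner_H V i (nv (V.M j) v) g]
      ring
    have h2 : ‖V.P i g‖ ^ 2 ≤ ‖g‖ ^ 2 := by
      have := norm_P_le V i g
      have := norm_nonneg (V.P i g)
      nlinarith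
    have h3 : ⟪V.Hi i v, g⟫ = ⟪V.Q i v, g⟫ + ⟪V.Hi i v - V.Q i v, g⟫ := by
      rw [inner_sub_left]; ring
    have h4 : 1 / 2 * ⟪V.Q i v, g⟫ ^ 2 - ⟪V.Hi i v - V.Q i v, g⟫ ^ 2 ≤ ⟪V.Hi i v, g⟫ ^ 2 := by
      rw [h3]
      nlinarith [sq_nonneg (⟪V.Q i v, g⟫ + 2 * ⟪V.Hi i v - V.Q i v, g⟫)]
    rw [h1]
    linarith
  · rw [hw fun y => ‖y‖ ^ 2]
    simp only [s, u, Finset.sum_disjSum, Sum.elim_inl, Sum.elim_inr, Fintype.sum_bool, if_true,
      Bool.false_eq_true, if_false]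
    have h1 := norm_Hi_sub_H V i v
    have h2 := norm_Hi_sub_Q V i v
    have h3 : ∑ j ∈ Ico (i + 1) m, ‖√(om (j - i)) • V.H i (V.P j v)‖ ^ 2 ≤ tl V v i := by
      refine le_trans (Finset.sum_le_sum fun j hj => ?_) (sum_om_b_le_tl V v (le_one_n V I))
      rw [norm_smul_sq _ (PRot711.om_pos _).le]
      exact mul_le_mul_of_nonneg_left
        (norm_H_P_le' V (by have := (mem_Ico.1 hj).1; omega) v) (PRot711.om_pos _).le
    have h4 : ∑ j ∈ Ico (i + 1) m, ‖√(om (j - i) * V.b v j) • V.H i (nv (V.M j) v)‖ ^ 2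
        ≤ tl V v i := by
      refine le_trans (Finset.sum_le_sum fun j hj => ?_) (sum_om_b_le_tl V v (le_one_n V I))
      rw [norm_smul_sq _ (hb j)]
      calc om (j - i) * V.b v j * ‖V.H i (nv (V.M j) v)‖ ^ 2
          ≤ om (j - i) * V.b v j * 1 :=
            mul_le_mul_of_nonneg_left (norm_H_nv_le V hv i j) (hb j)
        _ = _ := mul_one _
    linarith

/-! ### The direction of the gain inside the block of `W` -/

lemma Q_mem {i j : ℕ} (h : i ≤ j) (x : E) : V.Q j x ∈ V.M i :=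
  (V.M i).sub_mem (V.anti h (P_mem V j x)) (V.anti (h.trans (Nat.le_succ j)) (P_mem V _ x))

lemma inner_Q_v (i : ℕ) (v : E) : ⟪V.Q i v, v⟫ = ‖V.Q i v‖ ^ 2 := by
  rw [norm_Q_sq]
  show ⟪V.P i v - V.P (i + 1) v, v⟫ = _
  rw [inner_sub_left]
  have h1 : ⟪V.P i v, v⟫ = ‖V.P i v‖ ^ 2 := proj_inner_self (V.M i) v
  have h2 : ⟪V.P (i + 1) v, v⟫ = ‖V.P (i + 1) v‖ ^ 2 := proj_inner_self (V.M (i + 1)) v
  rw [h1, h2]

lemma H_Q (i : ℕ) (x : E) : V.H i (V.Q i x) = V.Q i x := by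
  rcases lt_or_ge i V.n with hi | hi
  · have h : ∀ y, V.H i (V.Q i y) = V.Q i y := by
      intro y
      rw [H_apply, Finset.sum_eq_sum_Ico_succ_bot hi]
      have h1 : V.Q i (V.Q i y) = V.Q i y := QPlus711.Qj_Qj_self V.anti i y
      have h2 : ∑ j ∈ Ico (i + 1) V.n, th ^ (j - i) • V.Q j (V.Q i y) = 0 := by
        refine Finset.sum_eq_zero fun j hj => ?_
        have h3 : V.Q j (V.Q i y) = 0 :=
          QPlus711.Qj_Qj_ne V.anti (by have := (mem_Ico.1 hj).1; omega) y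
        rw [h3, smul_zero]
      rw [h1, h2]
      simp
    exact h x
  · have h4 : V.Q i x = 0 := by
      show V.P i x - V.P (i + 1) x = 0
      rw [P_zero V hi, P_zero V (by omega), sub_zero]
    rw [h4, map_zero]

theorem exists_dir (hv : ‖v‖ = 1) {i : ℕ} (hi : I < i) (hq : V.Q i v ≠ 0) (hb : V.b v i < 1) :
    ∃ n' : E, ‖n'‖ = 1 ∧ (one V v I).Q i n' = n' ∧
      ∀ g, ‖V.Q i v‖ ^ 2 * ⟪n', (one V v I).Hi i (Ts v 1 (V.H i g))⟫ ^ 2 ≤ ⟪V.Q i v, g⟫ ^ 2 := by
  set W := one V v I with hW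
  set a : ℝ := ‖V.Q i v‖ ^ 2 with ha
  set b' : ℝ := V.b v (i + 1) with hb'
  have ha0 : 0 < a := by positivity
  have hab : a = V.b v i - b' := norm_Q_sq V i v
  have hb'0 : 0 ≤ b' := PRot711.b_nonneg V v _
  have hb'1 : 0 < 1 - b' := by linarith
  have h1b : 0 < 1 - V.b v i := by linarith
  set c : ℝ := a / (1 - b') with hc
  have hc1 : c * (1 - b') = a := by rw [hc]; field_simp
  set y : E := V.Q i v + c • V.P (i + 1) v with hy
  have hyM : y ∈ V.M i := by
    refine (V.M i).add_mem (Q_mem V le_rfl v) ((V.M i).smul_mem _ ?_)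
    exact V.anti (Nat.le_succ i) (P_mem V _ v)
  have hPv : ⟪v, V.P (i + 1) v⟫ = b' := by
    rw [real_inner_comm]
    exact proj_inner_self (V.M (i + 1)) v
  have hvy : ⟪v, y⟫ = c := by
    rw [hy, inner_add_right, inner_smul_right, real_inner_comm, inner_Q_v, hPv]
    linear_combination -hc1
  have hPQ : ∀ x, V.P (i + 1) (V.Q i x) = 0 := fun x =>
    QPlus711.Pj_Qj_of_gt V.anti (Nat.lt_succ_self i) x
  have hyn : ‖y‖ ^ 2 = a + c ^ 2 * b' := by
    have h1 : ⟪V.Q i v, V.P (i + 1) v⟫ = 0 := by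
      rw [← inner_P, hPQ, inner_zero_left]
    rw [hy, norm_add_sq_real, inner_smul_right, h1, norm_smul, mul_pow, Real.norm_eq_abs, sq_abs]
    have h2 : ‖V.P (i + 1) v‖ ^ 2 = b' := rfl
    rw [h2]
    ring
  -- the unnormalised direction
  set z : E := Ts v 1 y with hz
  have hzn : ‖z‖ ^ 2 = a * (1 - V.b v i) / (1 - b') := by
    have hyv : ⟪y, v⟫ = c := by rw [real_inner_comm]; exact hvy
    have h3 : V.b v i = a + b' := by linarith
    rw [hz, Ts_one_apply, norm_sub_sq_real, inner_smul_right, hvy, hyv, norm_smul, hv,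
      mul_one, Real.norm_eq_abs, sq_abs, hyn, eq_div_iff hb'1.ne', h3]
    linear_combination (-(c * (1 - b')) - a) * hc1
  have hz0 : 0 < ‖z‖ ^ 2 := by rw [hzn]; positivity
  have hzne : z ≠ 0 := by
    intro h
    rw [h] at hz0
    simp at hz0
  have hzi : z ∈ W.M i := by
    rw [hW, one_M_gt V v I hi]
    exact Submodule.mem_map.2 ⟨y, hyM, rfl⟩
  have hzv : ⟪z, v⟫ = 0 := by rw [real_inner_comm]; exact inner_Ts_one hv y
  have hzP : W.P (i + 1) z = 0 := by
    have h1 : ∀ w ∈ W.M (i + 1), ⟪z, w⟫ = 0 := by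
      intro w hw
      rw [hW, one_M_gt V v I (by omega)] at hw
      obtain ⟨x, hx, rfl⟩ := Submodule.mem_map.1 hw
      have h2 : (Ts v 1).toLinearMap x = Ts v 1 x := rfl
      have h3 : ⟪V.Q i v, x⟫ = 0 := by
        have : ⟪V.Q i v, x⟫ = ⟪V.Q i v, V.P (i + 1) x⟫ := by rw [P_of_mem V hx]
        rw [this, ← inner_P, hPQ, inner_zero_left]
      have h4 : ⟪V.P (i + 1) v, x⟫ = ⟪v, x⟫ := by
        rw [inner_P, P_of_mem V hx]
      rw [h2, Ts_one_apply, inner_sub_right, inner_smul_right, hzv, mul_zero, sub_zero, hz,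
        Ts_one_apply, inner_sub_left, inner_smul_left, hvy, hy, inner_add_left, inner_smul_left, h3,
        h4]
      simp
    have h5 : W.P (i + 1) z ∈ W.M (i + 1) := P_mem W _ z
    have h6 : ‖W.P (i + 1) z‖ ^ 2 = 0 := by
      rw [← real_inner_self_eq_norm_sq, inner_P, P_of_mem W h5]
      exact h1 _ h5
    exact norm_eq_zero.1 (pow_eq_zero_iff (by norm_num) |>.1 h6)
  have hzQ : W.Q i z = z := by
    show W.P i z - W.P (i + 1) z = z
    rw [hzP, P_of_mem W hzi, sub_zero]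
  have hzHi : W.Hi i z = z := by
    rcases lt_or_ge i W.n with hin | hin
    · have h7 : W.Hi i z = W.Hi i (W.Q i z) := by rw [hzQ]
      rw [h7, Hi_apply, Finset.sum_eq_sum_Ico_succ_bot hin]
      have h8 : W.Q i (W.Q i z) = W.Q i z := QPlus711.Qj_Qj_self W.anti i z
      have h9 : ∑ j ∈ Ico (i + 1) W.n, (th⁻¹) ^ (j - i) • W.Q j (W.Q i z) = 0 := by
        refine Finset.sum_eq_zero fun j hj => ?_
        have h3 : W.Q j (W.Q i z) = 0 :=
          QPlus711.Qj_Qj_ne W.anti (by have := (mem_Ico.1 hj).1; omega) z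
        rw [h3, smul_zero]
      rw [h8, h9, hzQ]
      simp
    · exfalso
      rw [W.bot i hin] at hzi
      exact hzne (by simpa using hzi)
  have hzx : ∀ x ∈ V.M i, ⟪z, x⟫ = (1 - c) * ⟪V.Q i v, x⟫ := by
    intro x hx
    have h1 : ⟪v, x⟫ = ⟪V.Q i v, x⟫ + ⟪V.P (i + 1) v, x⟫ := by
      have h2 : ⟪v, x⟫ = ⟪V.P i v, x⟫ := by rw [inner_P, P_of_mem V hx]
      rw [h2, ← inner_add_left]
      congr 1
      show V.P i v = V.P i v - V.P (i + 1) v + V.P (i + 1) v
      abel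
    rw [hz, Ts_one_apply, inner_sub_left, inner_smul_left, hvy, hy, inner_add_left, inner_smul_left,
      h1]
    simp only [conj_trivial]
    ring
  refine ⟨‖z‖⁻¹ • z, ?_, ?_, fun g => ?_⟩
  · rw [norm_smul, norm_inv, norm_norm]
    exact inv_mul_cancel₀ (norm_ne_zero_iff.2 hzne)
  · rw [map_smul, hzQ]
  · set x := V.H i g with hx
    have hxm : x ∈ V.M i := H_mem V i g
    have h1 : ⟪z, W.Hi i (Ts v 1 x)⟫ = (1 - c) * ⟪V.Q i v, g⟫ := by
      rw [← inner_Hi, hzHi, Ts_one_apply, inner_sub_right, inner_smul_right, hzv, mul_zero,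
        sub_zero, hzx x hxm, hx, ← inner_H, H_Q]
    have h2 : (1 - c) * (1 - b') = 1 - V.b v i := by
      have : V.b v i = a + b' := by linarith
      rw [this]
      linear_combination -hc1
    rw [inner_smul_left, h1]
    simp only [conj_trivial]
    have h3 : (‖z‖⁻¹ * ((1 - c) * ⟪V.Q i v, g⟫)) ^ 2
        = (1 - c) ^ 2 / ‖z‖ ^ 2 * ⟪V.Q i v, g⟫ ^ 2 := by
      rw [mul_pow, mul_pow, inv_pow]
      ring
    have h4 : a * ((1 - c) ^ 2 / ‖z‖ ^ 2) ≤ 1 := by
      rw [hzn]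
      have h5 : a * ((1 - c) ^ 2 / (a * (1 - V.b v i) / (1 - b')))
          = ((1 - c) * (1 - b')) * (1 - c) / (1 - V.b v i) := by
        field_simp
      rw [h5, h2]
      have h6 : (1 - V.b v i) * (1 - c) / (1 - V.b v i) = 1 - c := by field_simp
      rw [h6]
      have : 0 ≤ c := by rw [hc]; positivity
      linarith
    calc a * (‖z‖⁻¹ * ((1 - c) * ⟪V.Q i v, g⟫)) ^ 2
        = a * ((1 - c) ^ 2 / ‖z‖ ^ 2) * ⟪V.Q i v, g⟫ ^ 2 := by rw [h3]; ring
      _ ≤ 1 * ⟪V.Q i v, g⟫ ^ 2 := by gcongr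
      _ = _ := one_mul _

end hi

/-! ### Levels `≤ I` -/

section lo
variable (V : Flag E) {v : E} (I : ℕ)

theorem lo_exact (hv : ‖v‖ = 1) {i : ℕ} (hi : i ≤ I) (g : E) :
    ‖(one V v I).Hi i (V.H i g)‖ ^ 2
      = ‖V.P i g‖ ^ 2 + ∑ j ∈ Ico (i + 1) (I + 1), om (j - i) * nn (V.M j) v (V.H i g)
        + ∑ j ∈ Ico (I + 1) (one V v I).n, om (j - i) *
            (-(2 * ⟪V.H i v, g⟫ * ⟪V.H i (V.P j v), g⟫) + ⟪V.H i (V.P j v), g⟫ ^ 2
            + V.b v j * nn (V.M j) v (V.H i g)) := by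
  set W := one V v I with hW
  set m := W.n with hm
  set x := V.H i g with hx
  have hxm : x ∈ V.M i := H_mem V i g
  have hIm : I + 1 ≤ m := le_max_right _ _
  have h0 := norm_Hi_sq_ext V (i := i) (m := m) (le_one_n V I) x
  rw [hx, Hi_H, ← hx] at h0
  rw [norm_Hi_sq_ext W (i := i) (m := m) le_rfl, h0,
    ← Finset.sum_Ico_consecutive _ (Nat.succ_le_succ hi) hIm,
    ← Finset.sum_Ico_consecutive _ (Nat.succ_le_succ hi) hIm, one_P_le V I hi hv,
    nn_eq_zero _ _ hxm, add_zero]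
  have h1 : ∑ j ∈ Ico (i + 1) (I + 1), om (j - i) * ‖W.P j x‖ ^ 2
      = ∑ j ∈ Ico (i + 1) (I + 1), om (j - i) * ‖V.P j x‖ ^ 2
        + ∑ j ∈ Ico (i + 1) (I + 1), om (j - i) * nn (V.M j) v x := by
    rw [← Finset.sum_add_distrib]
    refine Finset.sum_congr rfl fun j hj => ?_
    rw [one_P_le V I (by have := (mem_Ico.1 hj).2; omega) hv]
    ring
  have h8 : ∀ w, ⟪V.H i w, g⟫ = ⟪w, x⟫ := fun w => inner_H V i _ _
  have h2 : ∑ j ∈ Ico (I + 1) m, om (j - i) * ‖W.P j x‖ ^ 2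
      = ∑ j ∈ Ico (I + 1) m, om (j - i) * ‖V.P j x‖ ^ 2
        + ∑ j ∈ Ico (I + 1) m, om (j - i) *
            (-(2 * ⟪v, x⟫ * ⟪V.P j v, x⟫) + ⟪V.P j v, x⟫ ^ 2 + V.b v j * nn (V.M j) v x) := by
    rw [← Finset.sum_add_distrib]
    refine Finset.sum_congr rfl fun j hj => ?_
    rw [one_P_gt V I (by have := (mem_Ico.1 hj).1; omega) hv]
    have h4 : nn (V.M j) v x - ⟪v, x⟫ ^ 2 = -(2 * ⟪v, x⟫ * ⟪V.P j v, x⟫)
      + ⟪V.P j v, x⟫ ^ 2 + V.b v j * nn (V.M j) v x := nn_sub_sq (V.M j) hv x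
    linear_combination om (j - i) * h4
  simp only [h8]
  rw [h1, h2]
  ring

/-- the tail of the levels above `I` seen from `i ≤ I` -/
noncomputable def tlo (v : E) (I i : ℕ) : ℝ :=
  ∑ j ∈ Ico (I + 1) V.n, (25 / 8 : ℝ) ^ (j - i) * V.b v j

lemma tlo_nonneg (v : E) (I i : ℕ) : 0 ≤ tlo V v I i :=
  Finset.sum_nonneg fun j _ => mul_nonneg (by positivity) (PRot711.b_nonneg V v j)

lemma om_val (m : ℕ) : om m = (25 / 16) ^ m * (9 / 25) := by
  unfold om th
  rw [pow_mul]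
  norm_num

lemma sum_om_eq {i I : ℕ} (hi : i ≤ I) :
    ∑ j ∈ Ico (i + 1) (I + 1), om (j - i) = (th⁻¹) ^ (2 * (I - i)) - 1 := by
  induction I, hi using Nat.le_induction with
  | base => simp
  | succ I hI ih =>
    rw [Finset.sum_Ico_succ_top (by omega), ih]
    have h1 : I + 1 - i = (I - i) + 1 := by omega
    rw [h1, om_val, pow_mul, pow_mul]
    have h2 : (th⁻¹) ^ 2 = 25 / 16 := by unfold th; norm_num
    rw [h2, pow_succ]
    ring

lemma sum_half_le {i I : ℕ} (hi : i ≤ I) {m : ℕ} (hm : I + 1 ≤ m) :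
    ∑ j ∈ Ico (I + 1) m, (1 / 2 : ℝ) ^ (j - i) ≤ (1 / 2) ^ (I - i) := by
  have key : ∑ j ∈ Ico (I + 1) m, (1 / 2 : ℝ) ^ (j - i)
      = (1 / 2) ^ (I - i) - (1 / 2) ^ (m - 1 - i) := by
    induction m, hm using Nat.le_induction with
    | base => simp
    | succ m hm ih =>
      rw [Finset.sum_Ico_succ_top (by omega), ih]
      have h1 : m - i = (m - 1 - i) + 1 := by omega
      have h2 : m + 1 - 1 - i = (m - 1 - i) + 1 := by omega
      rw [h1, h2, pow_succ]
      ring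
  rw [key]
  have : (0 : ℝ) ≤ (1 / 2) ^ (m - 1 - i) := by positivity
  linarith

/-- **comparison input, levels `i ≤ I`** -/
theorem lo_input (hv : ‖v‖ = 1) {i : ℕ} (hi : i ≤ I) {eps : ℝ} (he : 0 < eps) :
    ∃ (J : Finset ℕ) (u : ℕ → E),
      (∀ g, ‖(one V v I).Hi i (V.H i g)‖ ^ 2 ≤ ‖g‖ ^ 2 + ∑ k ∈ J, ⟪u k, g⟫ ^ 2) ∧
      ∑ k ∈ J, ‖u k‖ ^ 2 ≤ ((th⁻¹) ^ (2 * (I - i)) - 1) + eps * (1 / 2) ^ (I - i)
        + (1 / eps + 2) * tlo V v I i := by
  set m := (one V v I).n with hm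
  have hIm : I + 1 ≤ m := le_max_right _ _
  have hem : ∀ k : ℕ, 0 < em eps k := fun k => PRot711.em_pos he k
  let s : Finset (ℕ ⊕ (ℕ ⊕ (ℕ ⊕ ℕ))) :=
    (Ico (i + 1) (I + 1)).disjSum ((Ico (I + 1) m).disjSum
      ((Ico (I + 1) m).disjSum (Ico (I + 1) m)))
  let u : ℕ ⊕ (ℕ ⊕ (ℕ ⊕ ℕ)) → E := Sum.elim
    (fun j => √(om (j - i)) • V.H i (nv (V.M j) v))
    (Sum.elim (fun j => √(om (j - i) * em eps (j - i)) • V.H i v)
      (Sum.elim (fun j => √(om (j - i) * (1 + 1 / em eps (j - i))) • V.H i (V.P j v))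
        (fun j => √(om (j - i) * V.b v j) • V.H i (nv (V.M j) v))))
  obtain ⟨J, w, hw⟩ := reindex s u
  have hb : ∀ j, 0 ≤ om (j - i) * V.b v j := fun j =>
    mul_nonneg (PRot711.om_pos _).le (PRot711.b_nonneg V v j)
  have hc1 : ∀ j, 0 ≤ om (j - i) * em eps (j - i) := fun j =>
    mul_nonneg (PRot711.om_pos _).le (hem _).le
  have hc2 : ∀ j, 0 ≤ om (j - i) * (1 + 1 / em eps (j - i)) := fun j => by
    have := hem (j - i)
    have := PRot711.om_pos (j - i)
    positivity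
  refine ⟨J, w, fun g => ?_, ?_⟩
  · rw [hw fun y => ⟪y, g⟫ ^ 2, lo_exact V I hv hi g]
    simp only [s, u, Finset.sum_disjSum, Sum.elim_inl, Sum.elim_inr]
    have h1 : ∑ j ∈ Ico (i + 1) (I + 1), ⟪√(om (j - i)) • V.H i (nv (V.M j) v), g⟫ ^ 2
        = ∑ j ∈ Ico (i + 1) (I + 1), om (j - i) * nn (V.M j) v (V.H i g) := by
      refine Finset.sum_congr rfl fun j _ => ?_
      rw [inner_smul_sq _ (PRot711.om_pos _).le, nn_eq _ hv, inner_H V i (nv (V.M j) v) g]
    have h2 : ‖V.P i g‖ ^ 2 ≤ ‖g‖ ^ 2 := by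
      have := norm_P_le V i g
      have := norm_nonneg (V.P i g)
      nlinarith
    have h3 : ∑ j ∈ Ico (I + 1) m, om (j - i) *
            (-(2 * ⟪V.H i v, g⟫ * ⟪V.H i (V.P j v), g⟫) + ⟪V.H i (V.P j v), g⟫ ^ 2
            + V.b v j * nn (V.M j) v (V.H i g))
        ≤ ∑ j ∈ Ico (I + 1) m, ⟪√(om (j - i) * em eps (j - i)) • V.H i v, g⟫ ^ 2
          + (∑ j ∈ Ico (I + 1) m,
              ⟪√(om (j - i) * (1 + 1 / em eps (j - i))) • V.H i (V.P j v), g⟫ ^ 2
            + ∑ j ∈ Ico (I + 1) m, ⟪√(om (j - i) * V.b v j) • V.H i (nv (V.M j) v), g⟫ ^ 2) := by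
      rw [← Finset.sum_add_distrib, ← Finset.sum_add_distrib]
      refine Finset.sum_le_sum fun j _ => ?_
      rw [inner_smul_sq _ (hc1 j), inner_smul_sq _ (hc2 j), inner_smul_sq _ (hb j), nn_eq _ hv,
        inner_H V i (nv (V.M j) v) g]
      set p := ⟪V.H i v, g⟫
      set q := ⟪V.H i (V.P j v), g⟫
      have he' := hem (j - i)
      have h5 : -(2 * p * q) ≤ em eps (j - i) * p ^ 2 + 1 / em eps (j - i) * q ^ 2 := by
        have h6 : em eps (j - i) * p ^ 2 + 1 / em eps (j - i) * q ^ 2 + 2 * p * q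
            = (em eps (j - i) * p + q) ^ 2 / em eps (j - i) := by
          field_simp
          ring
        have h7 : 0 ≤ (em eps (j - i) * p + q) ^ 2 / em eps (j - i) := by positivity
        linarith
      have h8 := PRot711.om_pos (j - i)
      nlinarith [mul_le_mul_of_nonneg_left h5 h8.le]
    rw [h1]
    linarith
  · rw [hw fun y => ‖y‖ ^ 2]
    simp only [s, u, Finset.sum_disjSum, Sum.elim_inl, Sum.elim_inr]
    have h1 : ∑ j ∈ Ico (i + 1) (I + 1), ‖√(om (j - i)) • V.H i (nv (V.M j) v)‖ ^ 2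
        ≤ (th⁻¹) ^ (2 * (I - i)) - 1 := by
      rw [← sum_om_eq hi]
      refine Finset.sum_le_sum fun j _ => ?_
      rw [norm_smul_sq _ (PRot711.om_pos _).le]
      have := norm_H_nv_le V hv i j
      have := PRot711.om_pos (j - i)
      nlinarith
    have hth : th ^ 2 / 2 = 8 / 25 := by unfold th; norm_num
    have h2 : ∑ j ∈ Ico (I + 1) m, ‖√(om (j - i) * em eps (j - i)) • V.H i v‖ ^ 2
        ≤ eps * (1 / 2) ^ (I - i) := by
      have h3 : ∑ j ∈ Ico (I + 1) m, ‖√(om (j - i) * em eps (j - i)) • V.H i v‖ ^ 2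
          ≤ ∑ j ∈ Ico (I + 1) m, eps * (1 / 2 : ℝ) ^ (j - i) := by
        refine Finset.sum_le_sum fun j _ => ?_
        rw [norm_smul_sq _ (hc1 j)]
        have h4 := norm_H_le V i v
        rw [hv] at h4
        have h5 : ‖V.H i v‖ ^ 2 ≤ 1 := by
          have := norm_nonneg (V.H i v)
          nlinarith
        have h6 : om (j - i) * em eps (j - i) = 9 / 25 * (eps * (1 / 2) ^ (j - i)) := by
          rw [om_val, FD.em, hth]
          have : (1 / 2 : ℝ) ^ (j - i) = (25 / 16) ^ (j - i) * (8 / 25) ^ (j - i) := by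
            rw [← mul_pow]; norm_num
          rw [this]
          ring
        rw [h6]
        have h7 : 0 ≤ eps * (1 / 2 : ℝ) ^ (j - i) := by positivity
        nlinarith
      refine h3.trans ?_
      rw [← Finset.mul_sum]
      exact mul_le_mul_of_nonneg_left (sum_half_le hi hIm) he.le
    have h34 : ∑ j ∈ Ico (I + 1) m,
          ‖√(om (j - i) * (1 + 1 / em eps (j - i))) • V.H i (V.P j v)‖ ^ 2
        + ∑ j ∈ Ico (I + 1) m, ‖√(om (j - i) * V.b v j) • V.H i (nv (V.M j) v)‖ ^ 2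
        ≤ (1 / eps + 2) * tlo V v I i := by
      have h5 : tlo V v I i = ∑ j ∈ Ico (I + 1) m, (25 / 8 : ℝ) ^ (j - i) * V.b v j := by
        unfold tlo
        rcases le_or_gt (I + 1) V.n with hin | hin
        · rw [← Finset.sum_Ico_consecutive _ hin (le_one_n V I)]
          have h0 : ∑ j ∈ Ico V.n m, (25 / 8 : ℝ) ^ (j - i) * V.b v j = 0 := by
            refine Finset.sum_eq_zero fun j hj => ?_
            rw [b_zero V (mem_Ico.1 hj).1, mul_zero]
          rw [← hm, h0, add_zero]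
        · rw [Finset.Ico_eq_empty_of_le hin.le]
          symm
          refine Finset.sum_eq_zero fun j hj => ?_
          rw [b_zero V (hin.le.trans (mem_Ico.1 hj).1), mul_zero]
      rw [h5, ← Finset.sum_add_distrib, Finset.mul_sum]
      refine Finset.sum_le_sum fun j hj => ?_
      have hij : i ≤ j := by have := (mem_Ico.1 hj).1; omega
      rw [norm_smul_sq _ (hc2 j), norm_smul_sq _ (hb j)]
      have h6 := norm_H_P_sq_le V hij v
      have h7 := norm_H_nv_le V hv i j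
      have hbj := PRot711.b_nonneg V v j
      set k := j - i with hk
      have e1 : om k * (1 + 1 / em eps k) * (th ^ 2) ^ k
          = 9 / 25 * (1 + (25 / 8) ^ k / eps) := by
        rw [om_val, FD.em, hth]
        have h8 : (th ^ 2) ^ k * (25 / 16) ^ k = 1 := by
          rw [← mul_pow]
          unfold th
          norm_num
        have h9 : (1 : ℝ) / (eps * (8 / 25) ^ k) = (25 / 8) ^ k / eps := by
          have h10 : ((8 / 25 : ℝ)) ^ k * (25 / 8) ^ k = 1 := by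
            rw [← mul_pow]; norm_num
          have h11 : ((8 / 25 : ℝ)) ^ k ≠ 0 := by positivity
          field_simp
          linarith
        rw [h9]
        linear_combination (9 / 25 * (1 + (25 / 8) ^ k / eps)) * h8
      have e2 : om k ≤ 9 / 25 * (25 / 8) ^ k := by
        rw [om_val]
        have : (25 / 16 : ℝ) ^ k ≤ (25 / 8) ^ k := pow_le_pow_left₀ (by norm_num) (by norm_num) k
        nlinarith
      have e3 : (1 : ℝ) ≤ (25 / 8) ^ k := one_le_pow₀ (by norm_num)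
      have hck := hc2 j
      rw [← hk] at hck
      have hbk := hb j
      rw [← hk] at hbk
      calc om k * (1 + 1 / em eps k) * ‖V.H i (V.P j v)‖ ^ 2
            + om k * V.b v j * ‖V.H i (nv (V.M j) v)‖ ^ 2
          ≤ om k * (1 + 1 / em eps k) * ((th ^ 2) ^ k * V.b v j) + om k * V.b v j * 1 := by
            gcongr
        _ = (9 / 25 * (1 + (25 / 8) ^ k / eps)) * V.b v j + om k * V.b v j := by
            rw [← e1]; ring
        _ ≤ (9 / 25 * (1 + (25 / 8) ^ k / eps)) * V.b v j + 9 / 25 * (25 / 8) ^ k * V.b v j := by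
            gcongr
        _ ≤ (1 / eps + 2) * ((25 / 8) ^ k * V.b v j) := by
            have h12 : 9 / 25 * (1 + (25 / 8 : ℝ) ^ k / eps) + 9 / 25 * (25 / 8) ^ k
                ≤ (1 / eps + 2) * (25 / 8) ^ k := by
              have h13 : (25 / 8 : ℝ) ^ k / eps = 1 / eps * (25 / 8) ^ k := by ring
              rw [h13]
              have h14 : 0 ≤ 1 / eps * (25 / 8 : ℝ) ^ k := by positivity
              nlinarith
            calc _ = (9 / 25 * (1 + (25 / 8 : ℝ) ^ k / eps) + 9 / 25 * (25 / 8) ^ k) * V.b v j := by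
                  ring
              _ ≤ ((1 / eps + 2) * (25 / 8) ^ k) * V.b v j := by gcongr
              _ = _ := by ring
    linarith

end lo

/-! ### The gauge of the caps -/

section cap
variable (V : Flag E) {v : E} (I : ℕ)

/-- on `W.M i` the map `W.H i ∘ W.Hi i` is the identity: levels `> I` -/
lemma W_H_hi {i : ℕ} (hi : I < i) (g : E) :
    (one V v I).H i ((one V v I).Hi i (Ts v 1 (V.H i g))) = Ts v 1 (V.H i g) := by
  rw [H_Hi, P_of_mem]
  rw [one_M_gt V v I hi]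
  exact Submodule.mem_map.2 ⟨V.H i g, H_mem V i g, rfl⟩

/-- levels `≤ I` -/
lemma W_H_lo {i : ℕ} (hi : i ≤ I) (g : E) :
    (one V v I).H i ((one V v I).Hi i (V.H i g)) = V.H i g := by
  rw [H_Hi, P_of_mem]
  exact le_one V v I hi (H_mem V i g)

end cap

end Crest.Agent.R239.One142
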