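import Mathlib
import Crest.Agent.R239.ProjRot_557
import Crest.Agent.R239.Rot_203

/-!
R239, helper653: the flag `one M I v`: `v` is inserted at levels `≤ I` and projected out of
the levels `> I`. Projections, nestedness.
-/

set_option autoImplicit false
set_option linter.unusedSectionVars false
set_option linter.unusedVariables false

open Finset Module
open scoped RealInnerProductSpace

namespace Crest.Agent.R239.OneAlg653

open Crest.Agent.R239.Rot203 (Ts Ts_apply)

variable {E : Type*} [NormedAddCommGroup E] [InnerProductSpace ℝ E] [FiniteDimensional ℝ E]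

/-- unit vector of `v - P v` (or `0`) -/
noncomputable def nn (V : Submodule ℝ E) (v : E) : E :=
  ‖v - V.starProjection v‖⁻¹ • (v - V.starProjection v)

lemma norm_nn_le (V : Submodule ℝ E) (v : E) : ‖nn V v‖ ≤ 1 := by
  unfold nn
  rw [norm_smul, norm_inv, norm_norm]
  exact inv_mul_le_one

lemma norm_smul_nn (V : Submodule ℝ E) (v : E) :
    ‖v - V.starProjection v‖ • nn V v = v - V.starProjection v := by
  unfold nn
  rcases eq_or_ne (v - V.starProjection v) 0 with h | h
  · rw [h]; simp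
  · rw [smul_smul, mul_inv_cancel₀ (norm_ne_zero_iff.2 h), one_smul]

lemma sup_span_congr {V : Submodule ℝ E} {v w : E} {c : ℝ} (hc : c ≠ 0) (h : w - c • v ∈ V) :
    V ⊔ (ℝ ∙ w) = V ⊔ (ℝ ∙ v) := by
  apply le_antisymm
  · refine sup_le le_sup_left ?_
    rw [Submodule.span_singleton_le_iff_mem]
    have : w = (w - c • v) + c • v := by abel
    rw [this]
    exact Submodule.add_mem_sup h (Submodule.smul_mem _ _ (Submodule.mem_span_singleton_self v))
  · refine sup_le le_sup_left ?_
    rw [Submodule.span_singleton_le_iff_mem]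
    have : v = (-c⁻¹) • (w - c • v) + c⁻¹ • w := by
      rw [smul_sub, smul_smul]
      have : -c⁻¹ * c = -1 := by field_simp
      rw [this]
      module
    rw [this]
    exact Submodule.add_mem_sup (V.smul_mem _ h)
      (Submodule.smul_mem _ _ (Submodule.mem_span_singleton_self w))

/-- projection on `V ⊔ ℝ v` -/
theorem norm_P_sup_sq (V : Submodule ℝ E) (v x : E) :
    ‖(V ⊔ (ℝ ∙ v)).starProjection x‖ ^ 2 = ‖V.starProjection x‖ ^ 2 + ⟪nn V v, x⟫ ^ 2 := by
  rcases eq_or_ne (v - V.starProjection v) 0 with h | h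
  · have hv : v ∈ V := by
      have : v = V.starProjection v := sub_eq_zero.1 h
      rw [this]; exact V.starProjection_apply_mem v
    have h1 : V ⊔ (ℝ ∙ v) = V := by
      rw [sup_eq_left, Submodule.span_singleton_le_iff_mem]; exact hv
    rw [ProjRot557.P_congr h1]
    unfold nn
    rw [h]; simp
  · have hn : ‖nn V v‖ = 1 := by
      unfold nn
      rw [norm_smul, norm_inv, norm_norm, inv_mul_cancel₀ (norm_ne_zero_iff.2 h)]
    have h1 : V ⊔ (ℝ ∙ v) = V ⊔ (ℝ ∙ nn V v) := by
      symm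
      refine sup_span_congr (inv_ne_zero (norm_ne_zero_iff.2 h)) ?_
      unfold nn
      rw [← smul_sub, sub_sub_cancel_left]
      exact V.smul_mem _ (V.neg_mem (V.starProjection_apply_mem v))
    rw [ProjRot557.P_congr h1, ProjRot557.norm_P_sup_span_sq V hn]
    intro y hy
    unfold nn
    rw [inner_smul_left]
    have : ⟪v - V.starProjection v, y⟫ = 0 := V.starProjection_inner_eq_zero v y hy
    rw [this, mul_zero]

lemma map_sup_span (V : Submodule ℝ E) {v : E} :
    V.map (Ts 1 v) ⊔ (ℝ ∙ v) = V ⊔ (ℝ ∙ v) := by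
  apply le_antisymm
  · refine sup_le ?_ le_sup_right
    rintro _ ⟨m, hm, rfl⟩
    rw [Ts_apply, sub_eq_add_neg, ← neg_smul]
    exact Submodule.add_mem_sup hm (Submodule.smul_mem _ _ (Submodule.mem_span_singleton_self v))
  · refine sup_le ?_ le_sup_right
    intro m hm
    have : m = Ts 1 v m + (1 * ⟪v, m⟫) • v := by rw [Ts_apply]; abel
    rw [this]
    exact Submodule.add_mem_sup (Submodule.mem_map_of_mem hm)
      (Submodule.smul_mem _ _ (Submodule.mem_span_singleton_self v))

/-- projection on `T V`, `T = 1 - v vᵀ` -/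
theorem norm_P_map_sq (V : Submodule ℝ E) {v : E} (hv : ‖v‖ = 1) (x : E) :
    ‖(V.map (Ts 1 v)).starProjection x‖ ^ 2
      = ‖V.starProjection x‖ ^ 2 + ⟪nn V v, x⟫ ^ 2 - ⟪v, x⟫ ^ 2 := by
  have h1 := ProjRot557.norm_P_sup_span_sq (V.map (Ts 1 v)) hv (by
    rintro _ ⟨m, hm, rfl⟩
    rw [Ts_apply, inner_sub_right, inner_smul_right, real_inner_self_eq_norm_sq, hv]
    ring) x
  rw [ProjRot557.P_congr (map_sup_span V), norm_P_sup_sq] at h1
  linarith

/-- the flag of 859's line D -/
noncomputable def one (M : ℕ → Submodule ℝ E) (I : ℕ) (v : E) (j : ℕ) : Submodule ℝ E :=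
  if j ≤ I then M j ⊔ (ℝ ∙ v) else (M j).map (Ts 1 v)

variable {M : ℕ → Submodule ℝ E} {I : ℕ} {v : E}

lemma one_low {j : ℕ} (h : j ≤ I) : one M I v j = M j ⊔ (ℝ ∙ v) := by simp [one, h]

lemma one_high {j : ℕ} (h : I < j) : one M I v j = (M j).map (Ts 1 v) := by
  simp [one, not_le.2 h]

lemma one_antitone (hM : Antitone M) : Antitone (one M I v) := by
  intro j k hjk
  rcases le_or_gt k I with hk | hk
  · rw [one_low hk, one_low (hjk.trans hk)]
    exact sup_le_sup_right (hM hjk) _
  · rw [one_high hk]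
    rcases le_or_gt j I with hj | hj
    · rw [one_low hj]
      exact (le_sup_left.trans (map_sup_span (M k)).le).trans (sup_le_sup_right (hM hjk) _)
    · rw [one_high hj]
      exact Submodule.map_mono (hM hjk)

/-- the quadratic inequality for one projected level -/
lemma quad_high (V : Submodule ℝ E) {v : E} (hv : ‖v‖ = 1) {e : ℝ} (he : 0 < e) (x : E) :
    ⟪nn V v, x⟫ ^ 2 - ⟪v, x⟫ ^ 2
      ≤ (‖V.starProjection v‖ ^ 2 + e) * ⟪nn V v, x⟫ ^ 2 + e⁻¹ * ⟪V.starProjection v, x⟫ ^ 2 := by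
  have h1 := norm_smul_nn V v
  have h2 : ‖v - V.starProjection v‖ ^ 2 = 1 - ‖V.starProjection v‖ ^ 2 := by
    rw [ProjRot557.norm_P_sub_sq, hv]; ring
  set c := ⟪nn V v, x⟫
  set z := ⟪V.starProjection v, x⟫
  set u := ‖v - V.starProjection v‖ with hu
  set b := ‖V.starProjection v‖ ^ 2 with hb
  have h3 : ⟪v, x⟫ = z + u * c := by
    have h4 : v = V.starProjection v + u • nn V v := by rw [h1]; abel
    calc ⟪v, x⟫ = ⟪V.starProjection v + u • nn V v, x⟫ := by rw [← h4]
      _ = z + u * c := by rw [inner_add_left, inner_smul_left]; rfl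
  rw [h3]
  have hb0 : 0 ≤ b := by positivity
  have h5 : -(2 * (u * c) * z) ≤ e * (u * c) ^ 2 + e⁻¹ * z ^ 2 := by
    have h6 : 0 ≤ e⁻¹ * (e * (u * c) + z) ^ 2 := by positivity
    have h7 : e⁻¹ * (e * (u * c) + z) ^ 2 = e * (u * c) ^ 2 + 2 * (u * c) * z + e⁻¹ * z ^ 2 := by
      field_simp
      ring
    linarith
  have h8 : (u * c) ^ 2 = (1 - b) * c ^ 2 := by rw [mul_pow, h2]
  have h9 : e * ((1 - b) * c ^ 2) ≤ e * c ^ 2 := by
    have : 0 ≤ e * (b * c ^ 2) := by positivity
    nlinarith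
  rw [h8] at h5
  nlinarith [sq_nonneg z, h8]

end Crest.Agent.R239.OneAlg653
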