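import Mathlib
import Crest.Agent.R239.FDef
import Crest.Agent.R239.AdmHalf_606
import Crest.Agent.R239.F6b_696
import Crest.Agent.R239.Cap_526
import Crest.Agent.R239.Mix1_614
import Crest.Agent.R239.Dom_640

/-! R239 / S0370, one-step line (helper502, doc 2444), helper525: section 3 (levels above `I`),
abstract form: radial cut and the one-level comparison by a projection with a rank one mixture. -/

set_option autoImplicit false
set_option linter.unusedSectionVars false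
open MeasureTheory ProbabilityTheory Set Filter Topology Pointwise
open scoped RealInnerProductSpace

namespace Crest.Agent.R239.OneC525

open Crest.Agent.R239 Crest.Agent.R239.FD
open Crest.Agent.R239.F6core696 (mix mem_mix mix_compact mix_nonempty mix_convex mix_neg mix_subset)
open Crest.Agent.R239.Dom640 (gau_cut gau_slab_real gau_pr_real measurableSet_slab)

variable {E : Type*} [NormedAddCommGroup E] [InnerProductSpace ℝ E] [FiniteDimensional ℝ E]
  [MeasurableSpace E] [BorelSpace E]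
variable {F : Type*} [NormedAddCommGroup F] [InnerProductSpace ℝ F] [FiniteDimensional ℝ F]
  [MeasurableSpace F] [BorelSpace F]
variable {H : Type*} [NormedAddCommGroup H] [InnerProductSpace ℝ H] [FiniteDimensional ℝ H]

lemma neg_log_one_sub_le {x : ℝ} (h0 : 0 ≤ x) (h1 : x ≤ 1 / 2) : -Real.log (1 - x) ≤ 2 * x := by
  have h := Real.one_sub_inv_le_log_of_pos (x := 1 - x) (by linarith)
  have h2 : (1 - x)⁻¹ ≤ 1 + 2 * x := by
    rw [inv_le_iff_one_le_mul₀ (by linarith)]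
    nlinarith
  linarith

/-- **Radial cut.**  If `(1-h) ‖B y‖² ≤ R²` on `K`, cutting `K` by `‖B y‖ ≤ R` costs `exp (-16 x h)`,
where `x R²` bounds the Gaussian mean of `‖B y‖²`. -/
theorem radial_cut (A : F →L[ℝ] E) {K : Set E} (mK : MeasurableSet K) (cK : Convex ℝ K)
    (sK : ∀ x ∈ K, -x ∈ K) (B : E →L[ℝ] H) {R h x : ℝ} (hR : 0 < R) (h0 : 0 ≤ h) (hx0 : 0 ≤ x)
    (hx : ∫ y, ‖B y‖ ^ 2 ∂(gau A) ≤ x * R ^ 2) (hx1 : 8 * x ≤ 1)
    (hKB : ∀ y ∈ K, (1 - h) * ‖B y‖ ^ 2 ≤ R ^ 2) :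
    Real.exp (-(16 * x * h)) * (gau A).real K ≤ (gau A).real (K ∩ {y | ‖B y‖ ≤ R}) := by
  have mB : ∀ r : ℝ, MeasurableSet {y : E | ‖B y‖ ≤ r} := fun r =>
    measurableSet_le B.continuous.norm.measurable measurable_const
  have hR2 : 0 < R ^ 2 := by positivity
  have hK0 : 0 ≤ (gau A).real K := measureReal_nonneg
  by_cases hh : 1 / 2 < h
  · -- trivial cut
    have h1 := gau_cut A mK cK sK B hR
    have h2 : (∫ y, ‖B y‖ ^ 2 ∂(gau A)) / R ^ 2 ≤ x := by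
      rw [div_le_iff₀ hR2]; exact hx
    have h3 : Real.exp (-(16 * x * h)) ≤ 1 - x := by
      have h4 := neg_log_one_sub_le hx0 (by linarith : x ≤ 1 / 2)
      have h5 : Real.exp (-(16 * x * h)) ≤ Real.exp (Real.log (1 - x)) := by
        apply Real.exp_le_exp.2
        nlinarith
      rwa [Real.exp_log (by linarith)] at h5
    refine le_trans ?_ h1
    exact mul_le_mul_of_nonneg_right (by linarith) hK0
  · have hh' : h ≤ 1 / 2 := not_lt.1 hh
    -- sets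
    have hcut := gau_cut A mK cK sK B (by positivity : (0:ℝ) < R / 2)
    have h2 : (∫ y, ‖B y‖ ^ 2 ∂(gau A)) / (R / 2) ^ 2 ≤ 4 * x := by
      rw [div_le_iff₀ (by positivity)]
      calc _ ≤ x * R ^ 2 := hx
        _ = 4 * x * (R / 2) ^ 2 := by ring
    have hG : (1 - 4 * x) * (gau A).real K ≤ (gau A).real (K ∩ {y | ‖B y‖ ≤ R / 2}) :=
      le_trans (mul_le_mul_of_nonneg_right (by linarith) hK0) hcut
    rcases eq_or_lt_of_le h0 with he | hpos
    · -- h = 0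
      rw [← he]
      have : K ∩ {y | ‖B y‖ ≤ R} = K := by
        refine inter_eq_left.2 fun y hy => ?_
        have h3 := hKB y hy
        rw [← he] at h3
        have h4 : ‖B y‖ ^ 2 ≤ R ^ 2 := by linarith
        exact (abs_le_of_sq_le_sq' h4 hR.le).2
      rw [this]; simp
    -- t = weight of the big body
    have hK1 : ∀ y ∈ K, ‖B y‖ ≤ R * (1 + h) := by
      intro y hy
      have h3 := hKB y hy
      have h4 : ‖B y‖ ^ 2 ≤ (R * (1 + h)) ^ 2 := by
        have h5 : (1 - h) * ‖B y‖ ^ 2 ≤ (1 - h) * (R * (1 + h)) ^ 2 := by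
          refine h3.trans ?_
          have h6 : 1 ≤ (1 - h) * (1 + h) ^ 2 := by
            have h7 : 0 ≤ h * (1 - h - h ^ 2) := mul_nonneg h0 (by nlinarith)
            nlinarith
          calc R ^ 2 = 1 * R ^ 2 := by ring
            _ ≤ ((1 - h) * (1 + h) ^ 2) * R ^ 2 := by gcongr
            _ = _ := by ring
        exact le_of_mul_le_mul_left h5 (by linarith)
      exact (abs_le_of_sq_le_sq' h4 (by positivity)).2
    set t : ℝ := 1 / (1 + 2 * h) with ht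
    have hden : 0 < 1 + 2 * h := by linarith
    have ht0 : 0 < t := by positivity
    have ht1 : t < 1 := by
      rw [ht, div_lt_one hden]; linarith
    have hconv : ∀ y ∈ K ∩ {y | ‖B y‖ ≤ R / 2}, ∀ z ∈ K,
        (1 - t) • y + t • z ∈ K ∩ {y | ‖B y‖ ≤ R} := by
      rintro y ⟨hy1, hy2⟩ z hz
      refine ⟨cK hy1 hz (by linarith) ht0.le (by ring), ?_⟩
      simp only [mem_ofPred_eq] at hy2 ⊢
      rw [map_add, map_smul, map_smul]
      refine (norm_add_le _ _).trans ?_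
      rw [norm_smul, norm_smul, Real.norm_of_nonneg (by linarith : 0 ≤ 1 - t),
        Real.norm_of_nonneg ht0.le]
      have h3 := hK1 z hz
      calc (1 - t) * ‖B y‖ + t * ‖B z‖ ≤ (1 - t) * (R / 2) + t * (R * (1 + h)) := by
            gcongr
        _ = R := by
            rw [ht]; field_simp; ring
    have hpr := gau_pr_real A ht0 ht1 (mK.inter (mB (R / 2))) mK (mK.inter (mB R)) hconv
    -- conclusion
    rcases eq_or_lt_of_le hK0 with hz | hKpos
    · rw [← hz]; simp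
    have h41 : 0 < 1 - 4 * x := by linarith
    have h5 : ((1 - 4 * x) * (gau A).real K) ^ (1 - t) * (gau A).real K ^ t
        ≤ (gau A).real (K ∩ {y | ‖B y‖ ≤ R}) := by
      refine le_trans ?_ hpr
      gcongr
    refine le_trans ?_ h5
    have e1 : 1 - t + t = 1 := by ring
    have e2 : ((1 - 4 * x) * (gau A).real K) ^ (1 - t) * (gau A).real K ^ t
        = (1 - 4 * x) ^ (1 - t) * (gau A).real K := by
      rw [Real.mul_rpow h41.le hKpos.le, mul_assoc, ← Real.rpow_add hKpos, e1, Real.rpow_one]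
    rw [e2]
    refine mul_le_mul_of_nonneg_right ?_ hK0
    rw [Real.rpow_def_of_pos h41]
    apply Real.exp_le_exp.2
    have h6 := neg_log_one_sub_le (x := 4 * x) (by linarith) (by linarith)
    have h7 : 1 - t ≤ 2 * h := by
      rw [ht, sub_le_iff_le_add, ← sub_le_iff_le_add', le_div_iff₀ hden]
      nlinarith
    have h8 : 0 ≤ 1 - t := by linarith
    nlinarith [mul_le_mul_of_nonneg_right h6 h8]

/-! ### the stretch along `n` -/

open Crest.Agent.R239.Mix1_614 (scl mix1)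

/-- `x ↦ x + (c-1) ⟪n,x⟫ n` -/
noncomputable def st (n : E) (c : ℝ) : E →L[ℝ] E :=
  ContinuousLinearMap.id ℝ E + (c - 1) • (innerSL ℝ n).smulRight n

lemma st_apply (n : E) (c : ℝ) (x : E) : st n c x = x + ((c - 1) * ⟪n, x⟫) • n := by
  simp [st, smul_smul]

lemma st_eq_scl (n : E) (c : ℝ) (x : E) : st n c x = scl n c x := st_apply n c x

lemma inner_st {n : E} (hn : ‖n‖ = 1) (c : ℝ) (x : E) : ⟪n, st n c x⟫ = c * ⟪n, x⟫ := by
  rw [st_apply, inner_add_right, inner_smul_right, real_inner_self_eq_norm_sq, hn]; ring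

lemma norm_st_sq {n : E} (hn : ‖n‖ = 1) (c : ℝ) (x : E) :
    ‖st n c x‖ ^ 2 = ‖x‖ ^ 2 + (c ^ 2 - 1) * ⟪n, x⟫ ^ 2 := by
  rw [st_apply, @norm_add_sq_real, norm_smul, hn, inner_smul_right, real_inner_comm, mul_one,
    Real.norm_eq_abs, sq_abs]
  ring

lemma st_symm (n : E) (c : ℝ) (x y : E) : ⟪st n c x, y⟫ = ⟪x, st n c y⟫ := by
  rw [st_apply, st_apply, inner_add_left, inner_add_right, inner_smul_left, inner_smul_right]
  simp only [conj_trivial]
  rw [real_inner_comm n x]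
  ring

lemma adjoint_st (n : E) (c : ℝ) : (st n c).adjoint = st n c := by
  symm
  rw [ContinuousLinearMap.eq_adjoint_iff]
  exact st_symm n c

lemma norm_st_le {n : E} (hn : ‖n‖ = 1) {c : ℝ} (hc : 1 ≤ c ^ 2) (x : E) :
    ‖st n c x‖ ^ 2 ≤ c ^ 2 * ‖x‖ ^ 2 := by
  rw [norm_st_sq hn]
  have h2 : ⟪n, x⟫ ^ 2 ≤ ‖x‖ ^ 2 := by
    have := abs_real_inner_le_norm n x
    rw [hn, one_mul] at this
    calc ⟪n, x⟫ ^ 2 = |⟪n, x⟫| ^ 2 := (sq_abs _).symm
      _ ≤ _ := by gcongr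
  nlinarith [mul_le_mul_of_nonneg_left h2 (by linarith : 0 ≤ c ^ 2 - 1)]

/-- second moments grow at most by `c²` -/
lemma integral_st_le {n : E} (hn : ‖n‖ = 1) {c : ℝ} (hc : 1 ≤ c ^ 2) (A : E →L[ℝ] E)
    (B : E →L[ℝ] H) :
    ∫ x, ‖B x‖ ^ 2 ∂(gau (A ∘L st n c)) ≤ c ^ 2 * ∫ x, ‖B x‖ ^ 2 ∂(gau A) := by
  rw [Mom764.integral_gau _ (by fun_prop), Mom764.integral_gau _ (by fun_prop)]
  have e1 : ∫ g, ‖B ((A ∘L st n c) g)‖ ^ 2 ∂(stdGaussian E)
      = ∫ g, ‖(B ∘L A ∘L st n c) g‖ ^ 2 ∂(stdGaussian E) := rfl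
  have e2 : ∫ g, ‖B (A g)‖ ^ 2 ∂(stdGaussian E) = ∫ g, ‖(B ∘L A) g‖ ^ 2 ∂(stdGaussian E) := rfl
  rw [e1, e2, Dom640.integral_norm_sq, Dom640.integral_norm_sq, Finset.mul_sum]
  refine Finset.sum_le_sum fun k _ => ?_
  have e3 : (B ∘L A ∘L st n c).adjoint (stdOrthonormalBasis ℝ H k)
      = st n c ((B ∘L A).adjoint (stdOrthonormalBasis ℝ H k)) := by
    rw [← ContinuousLinearMap.comp_assoc, ContinuousLinearMap.adjoint_comp, adjoint_st]
    rfl
  rw [e3]
  exact norm_st_le hn hc _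

/-! ### the one-level comparison -/

lemma fin_arith {lam D EK EQ EK' lK lQ lM lK' St su hh g G sl lS : ℝ} (hlam : 0 ≤ lam)
    (hD : D ≤ (EK + EQ) / 2 - lam * lM) (hKv : EK - lam * lK ≤ D + sl) (hEQ : EQ ≤ EK' + St)
    (hlog : lK + lQ + G ≤ 2 * lM) (hlogQ : lK' - su + lS - hh ≤ lQ) (hgain : g ≤ G) :
    D ≤ EK' - lam * lK' + sl + (St - lam * lS) + lam * (su + hh) - lam * g := by
  have a1 := mul_le_mul_of_nonneg_left hlog hlam
  have a2 := mul_le_mul_of_nonneg_left hlogQ hlam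
  have a3 := mul_le_mul_of_nonneg_left hgain hlam
  linarith

theorem lev_abs {p : Par} (hp : p.Ok) {V W : Flag E} {i : ℕ} {μ : Multiset E} {v : E}
    (hT : ∀ x ∈ V.M i, Ts v 1 x ∈ W.M i)
    {n : E} (hn : ‖n‖ = 1) {τ : ℝ} (hτ0 : 0 ≤ τ) (hτ : τ ≤ 1 / 8)
    {ι : Type*} (J : Finset ι) (u : ι → E)
    (hR : ∀ g, ‖W.Hi i (Ts v 1 (V.H i g))‖ ^ 2 + τ * ⟪n, g⟫ ^ 2
      ≤ ‖g‖ ^ 2 + ∑ k ∈ J, ⟪u k, g⟫ ^ 2)
    {h : ℝ} (hh : 0 ≤ h) (hN : ∀ x ∈ V.M i, (1 - h) * V.N i x ≤ W.N i (Ts v 1 x))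
    (hrr : W.rr i ≤ V.rr i) (hrr0 : 0 < V.rr i)
    {K : Set E} (hK : Adm p V i K) {sl : ℝ} (hKv : val p V i μ K ≤ D p V i μ + sl)
    {c' : ℝ} (hc'0 : 0 ≤ c') (hthin : ∫ g in (V.H i) ⁻¹' K, ⟪n, g⟫ ^ 2 ∂(stdGaussian E)
      ≤ (1 - c') * (stdGaussian E).real ((V.H i) ⁻¹' K))
    {K' : Set E} (hK' : Adm p W i K') {t : ℝ}
    (hsl : 0 < (gau (V.H i ∘L st n (1 / Real.sqrt (1 - τ)))).real {x | |⟪v, x⟫| ≤ t}) :
    D p V i μ ≤ val p W i μ K' + sl + (t * S μ v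
      - p.lam i * Real.log ((gau (V.H i ∘L st n (1 / Real.sqrt (1 - τ)))).real
        {x | |⟪v, x⟫| ≤ t}))
      + p.lam i * (∑ k ∈ J, ‖u k‖ ^ 2 + 32 / p.rho ^ 2 * h) - p.lam i * (τ / 2 * (c' - 4 * τ)) := by
  have hlam0 : ∀ i, 0 ≤ p.lam i := fun i => by
    unfold Par.lam
    have h1 := hp.tau_pos
    have h2 := hp.A_ge
    positivity
  have hrho : 16 ≤ p.rho := hp.rho_ge
  have hrho0 : 0 < p.rho := by linarith
  -- the stretch
  set c : ℝ := 1 / Real.sqrt (1 - τ) with hc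
  have h1τ : 0 < 1 - τ := by linarith
  have hsq : 0 < Real.sqrt (1 - τ) := Real.sqrt_pos.2 h1τ
  have hc2 : c ^ 2 = 1 / (1 - τ) := by
    rw [hc, div_pow, Real.sq_sqrt h1τ.le, one_pow]
  have hc1 : 1 ≤ c ^ 2 := by
    rw [hc2, le_div_iff₀ h1τ]; linarith
  have hc3 : c ^ 2 ≤ 2 := by
    rw [hc2, div_le_iff₀ h1τ]; linarith
  set A : E →L[ℝ] E := V.H i ∘L st n c with hA
  -- measurability facts
  have mK : MeasurableSet K := hK.1.measurableSet
  have mK' : MeasurableSet K' := hK'.1.measurableSet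
  have hKc : IsCompact K := AdmHalf606.adm_compact hK
  have hK'c : IsCompact K' := AdmHalf606.adm_compact hK'
  have hMcl : IsClosed (V.M i : Set E) := Submodule.closed_of_finiteDimensional _
  have h0K' : (0 : E) ∈ K' := AdmHalf606.adm_zero hK'
  have h0K : (0 : E) ∈ K := AdmHalf606.adm_zero hK
  have ht0 : 0 ≤ t := by
    by_contra hneg
    have : {x : E | |⟪v, x⟫| ≤ t} = ∅ := by
      ext x
      simp only [mem_ofPred_eq, mem_empty_iff_false, iff_false, not_le]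
      exact lt_of_lt_of_le (not_le.1 hneg) (abs_nonneg _)
    rw [this] at hsl
    simp at hsl
  -- the pulled back body
  set Q0 : Set E := (Ts v 1) ⁻¹' K' ∩ (V.M i : Set E) with hQ0
  have clQ0 : IsClosed Q0 := (hK'.1.preimage (Ts v 1).continuous).inter hMcl
  have cvQ0 : Convex ℝ Q0 :=
    (hK'.2.1.linear_preimage (Ts v 1).toLinearMap).inter (V.M i).convex
  have syQ0 : ∀ x ∈ Q0, -x ∈ Q0 := by
    rintro x ⟨hx, hxM⟩
    refine ⟨?_, (V.M i).neg_mem hxM⟩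
    simp only [mem_preimage, map_neg]
    exact hK'.2.2.1 _ hx
  -- its measure
  have hmem : ∀ g, V.H i g ∈ V.M i := fun g => F6b696.H_mem V i g
  have hRm : ∀ g, W.H i (W.Hi i (Ts v 1 (V.H i g))) = Ts v 1 (V.H i g) := by
    intro g
    rw [F6b696.H_Hi, F6b696.P_of_mem W (hT _ (hmem g))]
  have hcmp : Real.exp (-∑ k ∈ J, ‖u k‖ ^ 2) * (gau (W.H i)).real K' ≤ (gau A).real Q0 := by
    have mB : MeasurableSet ((W.H i) ⁻¹' K') := (W.H i).continuous.measurable mK'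
    have cB : Convex ℝ ((W.H i) ⁻¹' K') := hK'.2.1.linear_preimage (W.H i).toLinearMap
    have sB : ∀ x ∈ (W.H i) ⁻¹' K', -x ∈ (W.H i) ⁻¹' K' := by
      intro x hx
      simp only [mem_preimage, map_neg] at hx ⊢
      exact hK'.2.2.1 _ hx
    have h1 := Cmp142.cmp_sum_real mB cB sB J (W.Hi i ∘L Ts v 1 ∘L V.H i ∘L st n c)
      (fun k => st n c (u k)) (by
        intro g
        have h2 := hR (st n c g)
        have h3 := norm_st_sq hn c g
        have h4 := inner_st hn c g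
        have h5 : (W.Hi i ∘L Ts v 1 ∘L V.H i ∘L st n c) g
          = W.Hi i (Ts v 1 (V.H i (st n c g))) := rfl
        rw [h5]
        simp only [st_symm]
        rw [h3, h4] at h2
        have h6 : τ * (c * ⟪n, g⟫) ^ 2 = (c ^ 2 - 1) * ⟪n, g⟫ ^ 2 := by
          have h7 : τ * c ^ 2 = c ^ 2 - 1 := by
            rw [hc2]; field_simp; ring
          calc τ * (c * ⟪n, g⟫) ^ 2 = (τ * c ^ 2) * ⟪n, g⟫ ^ 2 := by ring
            _ = _ := by rw [h7]
        linarith)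
    have h8 : ∑ k ∈ J, ‖st n c (u k)‖ ^ 2 ≤ 2 * ∑ k ∈ J, ‖u k‖ ^ 2 := by
      rw [Finset.mul_sum]
      refine Finset.sum_le_sum fun k _ => (norm_st_le hn hc1 _).trans ?_
      exact mul_le_mul_of_nonneg_right hc3 (sq_nonneg _)
    have h9 : Real.exp (-∑ k ∈ J, ‖u k‖ ^ 2) * (stdGaussian E).real ((W.H i) ⁻¹' K')
        ≤ (stdGaussian E).real ((W.Hi i ∘L Ts v 1 ∘L V.H i ∘L st n c) ⁻¹' ((W.H i) ⁻¹' K')) := by
      refine le_trans (mul_le_mul_of_nonneg_right (Real.exp_le_exp.2 ?_) measureReal_nonneg) h1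
      linarith
    rw [gau_real_apply _ mK', gau_real_apply _ clQ0.measurableSet]
    refine h9.trans (measureReal_mono ?_ (measure_ne_top _ _))
    intro g hg
    have hg' : W.H i (W.Hi i (Ts v 1 (V.H i (st n c g)))) ∈ K' := hg
    rw [hRm] at hg'
    exact ⟨hg', hmem _⟩
  -- the cuts
  set Q1 : Set E := Q0 ∩ {x | |⟪v, x⟫| ≤ t} with hQ1
  have clS : IsClosed {x : E | |⟪v, x⟫| ≤ t} := isClosed_le (by fun_prop) continuous_const
  have cvS : Convex ℝ {x : E | |⟪v, x⟫| ≤ t} := by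
    intro x hx y hy a b ha hb hab
    simp only [mem_ofPred_eq] at hx hy ⊢
    rw [inner_add_right, inner_smul_right, inner_smul_right]
    calc |a * ⟪v, x⟫ + b * ⟪v, y⟫| ≤ |a * ⟪v, x⟫| + |b * ⟪v, y⟫| := abs_add_le _ _
      _ = a * |⟪v, x⟫| + b * |⟪v, y⟫| := by rw [abs_mul, abs_mul, abs_of_nonneg ha, abs_of_nonneg hb]
      _ ≤ a * t + b * t := by gcongr
      _ = t := by rw [← add_mul, hab, one_mul]
  have syS : ∀ x ∈ {x : E | |⟪v, x⟫| ≤ t}, -x ∈ {x : E | |⟪v, x⟫| ≤ t} := by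
    intro x hx
    simpa using hx
  have clQ1 : IsClosed Q1 := clQ0.inter clS
  have cvQ1 : Convex ℝ Q1 := cvQ0.inter cvS
  have syQ1 : ∀ x ∈ Q1, -x ∈ Q1 := fun x hx => ⟨syQ0 x hx.1, syS x hx.2⟩
  have hslab := gau_slab_real A clQ0.measurableSet cvQ0 syQ0 v t
  -- the cap
  have hR0 : 0 < p.rho * Real.sqrt (V.rr i) := mul_pos hrho0 (Real.sqrt_pos.2 hrr0)
  have hR2 : (p.rho * Real.sqrt (V.rr i)) ^ 2 = p.rho ^ 2 * V.rr i := by
    rw [mul_pow, Real.sq_sqrt hrr0.le]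
  have hrho2 : 0 < p.rho ^ 2 := by positivity
  have hcap := radial_cut A clQ1.measurableSet cvQ1 syQ1 (Cap526.Bc V i)
    (R := p.rho * Real.sqrt (V.rr i)) (h := h) (x := 2 / p.rho ^ 2) hR0 hh (by positivity) (by
      refine (integral_st_le hn hc1 (V.H i) (Cap526.Bc V i)).trans ?_
      rw [Cap526.integral_N, hR2]
      have e : 2 / p.rho ^ 2 * (p.rho ^ 2 * V.rr i) = 2 * V.rr i := by field_simp
      rw [e]
      exact mul_le_mul_of_nonneg_right hc3 hrr0.le)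
    (by
      rw [← mul_div_assoc, div_le_one hrho2]
      nlinarith) (by
      rintro x ⟨⟨hx1, hx2⟩, -⟩
      rw [Cap526.norm_Bc_sq, hR2]
      refine (hN x hx2).trans ?_
      have h2 := (hK'.2.2.2.1 hx1).2
      refine h2.trans ?_
      exact mul_le_mul_of_nonneg_left hrr hrho2.le)
  set Q : Set E := Q1 ∩ {y | ‖Cap526.Bc V i y‖ ≤ p.rho * Real.sqrt (V.rr i)} with hQ
  have clB : IsClosed {y : E | ‖Cap526.Bc V i y‖ ≤ p.rho * Real.sqrt (V.rr i)} :=
    isClosed_le (by fun_prop) continuous_const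
  have cvB : Convex ℝ {y : E | ‖Cap526.Bc V i y‖ ≤ p.rho * Real.sqrt (V.rr i)} := by
    intro x hx y hy a b ha hb hab
    simp only [mem_ofPred_eq] at hx hy ⊢
    rw [map_add, map_smul, map_smul]
    refine (norm_add_le _ _).trans ?_
    rw [norm_smul, norm_smul, Real.norm_of_nonneg ha, Real.norm_of_nonneg hb]
    calc a * ‖Cap526.Bc V i x‖ + b * ‖Cap526.Bc V i y‖
        ≤ a * (p.rho * Real.sqrt (V.rr i)) + b * (p.rho * Real.sqrt (V.rr i)) := by gcongr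
      _ = _ := by rw [← add_mul, hab, one_mul]
  have clQ : IsClosed Q := clQ1.inter clB
  have cvQ : Convex ℝ Q := cvQ1.inter cvB
  have syQ : ∀ x ∈ Q, -x ∈ Q := by
    rintro x ⟨hx1, hx2⟩
    refine ⟨syQ1 x hx1, ?_⟩
    simpa using hx2
  have hQcap : Q ⊆ V.cap p.rho i := by
    rintro x ⟨⟨⟨hx1, hx2⟩, -⟩, hx3⟩
    refine ⟨hx2, ?_⟩
    rw [← Cap526.norm_Bc_sq, ← hR2]
    exact pow_le_pow_left₀ (norm_nonneg _) hx3 2
  have hQc : IsCompact Q := (AdmHalf606.cap_compact V i p.rho).of_isClosed_subset clQ hQcap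
  have h0Q : (0 : E) ∈ Q := by
    refine ⟨⟨⟨by simpa using h0K', (V.M i).zero_mem⟩, by simpa using ht0⟩, ?_⟩
    simpa using hR0.le
  -- lower bound of the measure of `Q`
  have hK'pos : 0 < (gau (W.H i)).real K' := hK'.2.2.2.2
  have hQ0pos : 0 < (gau A).real Q0 := lt_of_lt_of_le (by positivity) hcmp
  have hQ1pos : 0 < (gau A).real Q1 := lt_of_lt_of_le (mul_pos hQ0pos hsl) hslab
  have hQpos : 0 < (gau A).real Q := lt_of_lt_of_le (by positivity) hcap
  have hlogQ : Real.log ((gau (W.H i)).real K') - ∑ k ∈ J, ‖u k‖ ^ 2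
      + Real.log ((gau A).real {x | |⟪v, x⟫| ≤ t}) - 32 / p.rho ^ 2 * h
      ≤ Real.log ((gau A).real Q) := by
    have l1 := Real.log_le_log (by positivity) hcmp
    rw [Real.log_mul (Real.exp_pos _).ne' hK'pos.ne', Real.log_exp] at l1
    have l2 := Real.log_le_log (by positivity) hslab
    rw [Real.log_mul hQ0pos.ne' hsl.ne'] at l2
    have l3 := Real.log_le_log (by positivity) hcap
    rw [Real.log_mul (Real.exp_pos _).ne' hQ1pos.ne', Real.log_exp] at l3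
    have e : 16 * (2 / p.rho ^ 2) * h = 32 / p.rho ^ 2 * h := by ring
    rw [e] at l3
    linarith
  -- mixture
  have hWc : IsCompact (mix (1 / 2 : ℝ) K Q) := mix_compact hKc hQc
  have mH := (V.H i).continuous.measurable
  have hKpos : 0 < (stdGaussian E).real ((V.H i) ⁻¹' K) := by
    rw [← gau_real_apply _ mK]; exact hK.2.2.2.2
  have hmix := mix1 (K := (V.H i) ⁻¹' K) (Q := (V.H i) ⁻¹' Q)
    (W := (V.H i) ⁻¹' (mix (1 / 2 : ℝ) K Q)) (mH mK) (mH clQ.measurableSet)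
    (mH hWc.measurableSet) (by
      intro x hx y hy
      refine mem_mix.2 ⟨V.H i x, hx, V.H i y, hy, ?_⟩
      rw [map_add, map_smul, map_smul]
      norm_num) hn hτ0 (by linarith) hKpos
  have hQeq : (stdGaussian E).real {x | scl n (1 / Real.sqrt (1 - τ)) x ∈ (V.H i) ⁻¹' Q}
      = (gau A).real Q := by
    rw [gau_real_apply _ clQ.measurableSet]
    have : {x | scl n (1 / Real.sqrt (1 - τ)) x ∈ (V.H i) ⁻¹' Q} = A ⁻¹' Q := by
      ext x
      show V.H i (scl n (1 / Real.sqrt (1 - τ)) x) ∈ Q ↔ V.H i (st n c x) ∈ Q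
      rw [← st_eq_scl]
    rw [this]
  rw [hQeq, ← gau_real_apply _ hWc.measurableSet, ← gau_real_apply _ mK] at hmix
  have hMpos : 0 < (gau (V.H i)).real (mix (1 / 2 : ℝ) K Q) := by
    have h1 : 0 < (gau (V.H i)).real (mix (1 / 2 : ℝ) K Q) ^ 2 :=
      lt_of_lt_of_le (mul_pos (mul_pos hK.2.2.2.2 hQpos) (Real.exp_pos _)) hmix
    rcases lt_or_eq_of_le (measureReal_nonneg (μ := gau (V.H i)) (s := mix (1 / 2 : ℝ) K Q))
      with h2 | h2
    · exact h2
    · rw [← h2] at h1; simp at h1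
  have hadm : Adm p V i (mix (1 / 2 : ℝ) K Q) :=
    ⟨hWc.isClosed, mix_convex hK.2.1 cvQ, mix_neg hK.2.2.1 syQ,
      mix_subset (by norm_num) (by norm_num) (AdmHalf606.cap_convex V i p.rho) hK.2.2.2.1 hQcap,
      hMpos⟩
  have hD := F6b696.D_le_val (μ := μ) hlam0 hadm
  have hEh : Eh (mix (1 / 2 : ℝ) K Q) μ = (Eh K μ + Eh Q μ) / 2 := by
    have h := F6core696.Eh_mix (a := 1 / 2) (by norm_num) (by norm_num) hKc hQc ⟨0, h0K⟩ ⟨0, h0Q⟩ μ
    have h' : Eh (mix (1 / 2 : ℝ) K Q) μ = (1 - 1 / 2) * Eh K μ + 1 / 2 * Eh Q μ := h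
    rw [h']; ring
  have hEQ : Eh Q μ ≤ Eh K' μ + t * S μ v := by
    have h := F6core696.Eh_pullback (T := Ts v 1) (v := v) (s := 1) (t := t) hK'c ⟨0, h0Q⟩
      (by norm_num) (fun x => by rw [Ts_apply]) (fun x hx => hx.1.1.1) (fun x hx => hx.1.2) μ
    have h' : Eh Q μ ≤ Eh K' μ + 1 * t * S μ v := h
    linarith
  -- logarithm of the mixture inequality
  have hlog := Real.log_le_log (mul_pos (mul_pos hK.2.2.2.2 hQpos) (Real.exp_pos _)) hmix
  rw [Real.log_mul (mul_pos hK.2.2.2.2 hQpos).ne' (Real.exp_pos _).ne',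
    Real.log_mul hK.2.2.2.2.ne' hQpos.ne', Real.log_exp, Real.log_pow] at hlog
  have heK : (∫ x in (V.H i) ⁻¹' K, ⟪n, x⟫ ^ 2 ∂(stdGaussian E)) / (gau (V.H i)).real K
      ≤ 1 - c' := by
    rw [div_le_iff₀ hK.2.2.2.2, gau_real_apply _ mK]
    exact hthin
  have hgain : τ / 2 * (c' - 4 * τ) ≤ τ / 2 - (τ + 4 * τ ^ 2) / 2 *
      ((∫ x in (V.H i) ⁻¹' K, ⟪n, x⟫ ^ 2 ∂(stdGaussian E)) / (gau (V.H i)).real K) := by
    have h1 := mul_le_mul_of_nonneg_left heK (by positivity : 0 ≤ (τ + 4 * τ ^ 2) / 2)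
    have h2 : 0 ≤ 2 * τ ^ 2 * c' := by positivity
    have h3 : τ / 2 * (c' - 4 * τ) = τ / 2 - (τ + 4 * τ ^ 2) / 2 * (1 - c') - 2 * τ ^ 2 * c' := by
      ring
    linarith
  have hlog' : Real.log ((gau (V.H i)).real K) + Real.log ((gau A).real Q) +
      (τ / 2 - (τ + 4 * τ ^ 2) / 2 *
      ((∫ x in (V.H i) ⁻¹' K, ⟪n, x⟫ ^ 2 ∂(stdGaussian E)) / (gau (V.H i)).real K))
      ≤ 2 * Real.log ((gau (V.H i)).real (mix (1 / 2 : ℝ) K Q)) := by
    exact_mod_cast hlog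
  unfold val at hD hKv ⊢
  rw [hEh] at hD
  exact fin_arith (hlam0 i) hD hKv hEQ hlog' hlogQ hgain

end Crest.Agent.R239.OneC525
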