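import Mathlib
import Crest.Agent.R239.FDef

/-! R239 / S0370, ONE-STEP LINE (docs 2444 helper502, 2447 helper859): literals over `FDef`.
`W` is ANY flag with `IsOne V W v I` (142's `Flag.one V v I` is one of them). -/

set_option autoImplicit false
open MeasureTheory ProbabilityTheory
open scoped RealInnerProductSpace

namespace Crest.Agent.R239.FD

variable {E : Type*} [NormedAddCommGroup E] [InnerProductSpace ℝ E] [FiniteDimensional ℝ E]
  [MeasurableSpace E] [BorelSpace E]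

/-- `W` = the one-step flag: `W_j = M_j + R v` for `j ≤ I`, `W_j = P M_j` for `j > I`, `P = 1 - v v^T` -/
def IsOne {E : Type*} [NormedAddCommGroup E] [InnerProductSpace ℝ E]
    (V W : Flag E) (v : E) (I : ℕ) : Prop :=
  W.n = max V.n (I + 1) ∧
  (∀ j, j ≤ I → W.M j = V.M j ⊔ Submodule.span ℝ {v}) ∧
  (∀ j, I < j → W.M j = (V.M j).map (Ts v 1).toLinearMap)

/-- (W) existence of the flag -/
def P_ONEex (E : Type*) [NormedAddCommGroup E] [InnerProductSpace ℝ E] : Prop :=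
  ∀ (V : Flag E) (v : E) (I : ℕ), ‖v‖ = 1 → ∃ W : Flag E, IsOne V W v I

/-- (PEN) penalty: at most one new dimension at level `I`; if `v ∈ M_m`, `m > I`, it is a gain -/
def P_ONEpen (E : Type*) [NormedAddCommGroup E] [InnerProductSpace ℝ E] [FiniteDimensional ℝ E]
    (p : Par) : Prop :=
  ∀ (V W : Flag E) (v : E) (I : ℕ), ‖v‖ = 1 → IsOne V W v I →
    (∑ i ∈ Finset.range W.n, p.lam i * (W.k i : ℝ)
      ≤ (∑ i ∈ Finset.range V.n, p.lam i * (V.k i : ℝ)) + p.lam I) ∧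
    (∀ m, I < m → v ∈ V.M m →
      (∑ i ∈ Finset.range W.n, p.lam i * (W.k i : ℝ)) + (p.lam m - p.lam I)
        ≤ ∑ i ∈ Finset.range V.n, p.lam i * (V.k i : ℝ))

/-- (LO) levels `i ≤ I` (section + CMP + one Markov cut) -/
def P_ONElo (E : Type*) [NormedAddCommGroup E] [InnerProductSpace ℝ E] [FiniteDimensional ℝ E]
    [MeasurableSpace E] [BorelSpace E] (p : Par) (C : ℝ) : Prop :=
  ∀ (V W : Flag E) (μ : Multiset E) (v : E) (I i : ℕ) (eps : ℝ), ‖v‖ = 1 → IsOne V W v I →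
    i ≤ I → i < V.n → 0 < eps → eps ≤ 1 →
    D p V i μ - p.lam i * ((th⁻¹) ^ (2 * (I - i)) - 1 + 2 / p.rho ^ 2 + eps
        + (C / eps) * ∑ j ∈ Finset.Ico (I + 1) V.n, (25 / 8 : ℝ) ^ (j - i) * V.b v j)
      ≤ D p W i μ

/-- (HI) levels `i > I`: loss, and gain `c1 al_i^2` if `W` is thin at `i` -/
def P_ONEhi (E : Type*) [NormedAddCommGroup E] [InnerProductSpace ℝ E] [FiniteDimensional ℝ E]
    [MeasurableSpace E] [BorelSpace E] (p : Par) (c' dl c1 C sm S0 : ℝ) : Prop :=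
  ∀ (V W : Flag E) (μ : Multiset E) (v : E) (I i : ℕ), ‖v‖ = 1 → IsOne V W v I →
    I < i → i < V.n → S μ v ≤ S0 * p.lam I →
    (D p V i μ - p.lam i * ((sm + C / p.rho ^ 2) * V.b v i + C * BB V v i)
        - sm * (1 / 2) ^ (i - I) * p.lam I ≤ D p W i μ) ∧
    (v ∉ V.M i → ThinAt p W μ i c' dl →
      D p V i μ + p.lam i * (c1 * (V.b v i - V.b v (i + 1)))
        - p.lam i * ((sm + C / p.rho ^ 2) * V.b v i + C * BB V v i)
        - sm * (1 / 2) ^ (i - I) * p.lam I ≤ D p W i μ)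

/-- (HI), variant with thinness measured at `V` (MIX / lev_core instead of the stretch lemma) -/
def P_ONEhiV (E : Type*) [NormedAddCommGroup E] [InnerProductSpace ℝ E] [FiniteDimensional ℝ E]
    [MeasurableSpace E] [BorelSpace E] (p : Par) (c' dl c1 C sm S0 : ℝ) : Prop :=
  ∀ (V W : Flag E) (μ : Multiset E) (v : E) (I i : ℕ), ‖v‖ = 1 → IsOne V W v I →
    I < i → i < V.n → S μ v ≤ S0 * p.lam I → ThinAt p V μ i c' dl →
      D p V i μ + p.lam i * (c1 * (V.b v i - V.b v (i + 1)))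
        - p.lam i * ((sm + C / p.rho ^ 2) * V.b v i + C * BB V v i)
        - sm * (1 / 2) ^ (i - I) * p.lam I ≤ D p W i μ

/-- (GR) growth at level `I` of `W` -/
def P_ONEgr (E : Type*) [NormedAddCommGroup E] [InnerProductSpace ℝ E] [FiniteDimensional ℝ E]
    [MeasurableSpace E] [BorelSpace E] (p : Par) (C1 eta : ℝ) : Prop :=
  ∀ (V W : Flag E) (v : E) (I : ℕ) (s : Multiset (E × E)) (eta' : ℝ), ‖v‖ = 1 → IsOne V W v I →
    2 * S (s.map fun q => q.1 + q.2) v < S (s.map Prod.fst + s.map Prod.snd) v →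
    0 < eta' → eta' ≤ eta →
    C1 * eta' * S (s.map Prod.fst + s.map Prod.snd) v = p.lam I →
    D p W I (s.map fun q => q.1 + q.2) + (2 / 5) * p.lam I / C1
      ≤ D p W I (s.map Prod.fst + s.map Prod.snd)

/-- (U3g) growth of `Ut p` when `lam_I` fits the letter (fine grid: `C1 eta s' ≤ lam_I ≤ 2 C1 eta s'`) -/
def P_U3g (E : Type*) [NormedAddCommGroup E] [InnerProductSpace ℝ E] [FiniteDimensional ℝ E]
    [MeasurableSpace E] [BorelSpace E] (p : Par) (C1 eta c : ℝ) : Prop :=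
  ∀ (I : ℕ) (v : E) (s : Multiset (E × E)), ‖v‖ = 1 →
    2 * S (s.map fun q => q.1 + q.2) v < S (s.map Prod.fst + s.map Prod.snd) v →
    C1 * eta * S (s.map Prod.fst + s.map Prod.snd) v ≤ p.lam I →
    p.lam I ≤ 2 * C1 * eta * S (s.map Prod.fst + s.map Prod.snd) v →
    Ut p (s.map fun q => q.1 + q.2) + c * S (s.map Prod.fst + s.map Prod.snd) v
      ≤ Ut p (s.map Prod.fst + s.map Prod.snd)

def Target_ONElo : Prop := ∃ C : ℝ, 0 < C ∧ ∀ (d : ℕ) (p : Par), p.Ok →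
  P_ONElo (EuclideanSpace ℝ (Fin d)) p C

def Target_ONEhi : Prop := ∀ c' dl : ℝ, 0 < c' → c' < 1 → 0 < dl → ∃ c1 C : ℝ, 0 < c1 ∧ 0 < C ∧
  ∀ sm S0 : ℝ, 0 < sm → 0 < S0 → ∃ A0 : ℝ, ∀ (d : ℕ) (p : Par), p.Ok → A0 ≤ p.A →
    P_ONEhi (EuclideanSpace ℝ (Fin d)) p c' dl c1 C sm S0

def Target_ONEhiV : Prop := ∀ c' dl : ℝ, 0 < c' → c' < 1 → 0 < dl → ∃ c1 C : ℝ, 0 < c1 ∧ 0 < C ∧
  ∀ sm S0 : ℝ, 0 < sm → 0 < S0 → ∃ A0 : ℝ, ∀ (d : ℕ) (p : Par), p.Ok → A0 ≤ p.A →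
    P_ONEhiV (EuclideanSpace ℝ (Fin d)) p c' dl c1 C sm S0

def Target_ONEgr : Prop := ∃ C1 eta : ℝ, 1 ≤ C1 ∧ 0 < eta ∧ eta ≤ 1 ∧ ∀ (d : ℕ) (p : Par), p.Ok →
  P_ONEgr (EuclideanSpace ℝ (Fin d)) p C1 eta

/-- target of the assembly (502): constants, then every large `A` and every base `tau` -/
def Target_U3g : Prop := ∃ C1 eta c kap rho A0 : ℝ, 1 ≤ C1 ∧ 0 < eta ∧ 0 < c ∧
  ∀ A tau : ℝ, A0 ≤ A → 0 < tau → (⟨rho, kap, A, tau⟩ : Par).Ok ∧
    ∀ d : ℕ, P_U3g (EuclideanSpace ℝ (Fin d)) ⟨rho, kap, A, tau⟩ C1 eta c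

end Crest.Agent.R239.FD
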