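import Crest.Agent.R239.RadCut_631
import Crest.Agent.R239.MomF_764
import Crest.Agent.R239.One1_142
import Crest.Agent.R239.OneLit_502

/-! R239, one-step line (docs 2444 / 2447): the cap step at the levels `i > I`, in the world of `V`.
`(1 - h_i) N_i(x) ≤ N^W_i(T x)` pointwise on `M_i`, `h_i = 2 b_i + BB_i`, and the radial cut. -/

set_option autoImplicit false
set_option linter.unusedSectionVars false
open MeasureTheory ProbabilityTheory
open scoped RealInnerProductSpace BigOperators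

namespace Crest.Agent.R239.OneCap631

open Crest.Agent.R239 Crest.Agent.R239.FD Crest.Agent.R239.MomF764

variable {E : Type*} [NormedAddCommGroup E] [InnerProductSpace ℝ E] [FiniteDimensional ℝ E]
  [MeasurableSpace E] [BorelSpace E]

/-! ### the gauge `N` -/

/-- square root of the weight -/
noncomputable def rt : ℝ := Real.sqrt (th⁻¹)

lemma rt_sq : rt ^ 2 = th⁻¹ := Real.sq_sqrt (by have := th_pos; positivity)

lemma rt_pow (m : ℕ) : rt ^ (2 * m) = (th⁻¹) ^ m := by rw [pow_mul, rt_sq]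

/-- linear map with `‖Bg i x‖² = N_i x` -/
noncomputable def Bg (V : Flag E) (i : ℕ) : E →L[ℝ] E := Mom764.H rt V.M V.n i

lemma norm_Bg_sq (V : Flag E) (i : ℕ) (x : E) : ‖Bg V i x‖ ^ 2 = V.N i x := by
  unfold Bg Flag.N
  rw [Mom764.norm_H_sq V.anti]
  exact Finset.sum_congr rfl fun j _ => by rw [rt_pow]; rfl

lemma N_nonneg (V : Flag E) (i : ℕ) (x : E) : 0 ≤ V.N i x := by
  rw [← norm_Bg_sq]; positivity

lemma k_cast (V : Flag E) (j : ℕ) :
    (V.k j : ℝ) = Module.finrank ℝ (V.M j) - Module.finrank ℝ (V.M (j + 1)) :=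
  Soft450.bdim_cast V.anti j

/-- `E_{g_i} N_i = rr_i` -/
theorem integral_N (V : Flag E) (i : ℕ) :
    ∫ x, ‖Bg V i x‖ ^ 2 ∂(gau (V.H i)) = V.rr i := by
  rw [Mom764.integral_gau _ (by fun_prop)]
  have h : (fun g : E => ‖Bg V i (V.H i g)‖ ^ 2)
      = fun g => ∑ l ∈ Finset.Ico i V.n, (th⁻¹) ^ (l - i)
        * ‖((Mom764.Q V.M l) ∘L (Mom764.H th V.M V.n i)) g‖ ^ 2 := by
    funext g
    rw [norm_Bg_sq]
    rfl
  rw [h, integral_finsetSum _ fun l _ => ((Mom764.integrable_norm_sq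
    ((Mom764.Q V.M l) ∘L (Mom764.H th V.M V.n i))).const_mul _)]
  unfold Flag.rr
  refine Finset.sum_congr rfl fun l hl => ?_
  rw [Finset.mem_Ico] at hl
  have h2 := Mom764.integral_norm_Q_sq V.anti th hl.1 hl.2
  rw [integral_const_mul]
  simp only [ContinuousLinearMap.comp_apply]
  rw [h2, ← k_cast]
  have : (th⁻¹) ^ (l - i) * th ^ (2 * (l - i)) = th ^ (l - i) := by
    rw [two_mul, pow_add, ← mul_assoc, ← mul_pow, inv_mul_cancel₀ th_ne, one_pow, one_mul]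
  rw [← mul_assoc, this]

/-- Abel form of the gauge -/
theorem N_eq (V : Flag E) {i : ℕ} (hin : i ≤ V.n) (x : E) :
    V.N i x = ‖V.P i x‖ ^ 2 + ∑ j ∈ Finset.Ico (i + 1) V.n, omN (j - i) * ‖V.P j x‖ ^ 2 := by
  have h := Mom764.norm_Hi_sq (θ := rt⁻¹) V.anti hin (botn V) x
  rw [Mom764.Hi_eq_H, inv_inv] at h
  rw [← norm_Bg_sq]
  unfold Bg
  rw [h]
  congr 1
  refine Finset.sum_congr rfl fun j hj => ?_
  rw [Finset.mem_Ico] at hj
  congr 1
  obtain ⟨m, hm⟩ : ∃ m, j - i = m + 1 := ⟨j - i - 1, by omega⟩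
  rw [rt_pow, rt_pow, hm, Nat.add_sub_cancel]
  unfold omN
  rw [pow_succ]
  have := th_ne
  field_simp

lemma omN_nonneg (m : ℕ) : 0 ≤ omN m := by
  unfold omN
  have := th_pos
  have := th_le
  exact mul_nonneg (by positivity) (by linarith)

lemma N_anti_tail (V : Flag E) {i j : ℕ} (hij : i ≤ j) (hjn : j ≤ V.n) (x : E) :
    ‖V.P j x‖ ^ 2 ≤ th ^ (j - i) * V.N i x := by
  have h1 : ‖V.P j x‖ ^ 2 = ∑ l ∈ Finset.Ico j V.n, ‖V.Q l x‖ ^ 2 := by
    have := Mom764.sum_norm_Q_sq V.anti hjn x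
    rw [botn V] at this
    have h2 : ‖V.P j x‖ ^ 2 = ‖(V.M j).starProjection x‖ ^ 2 := rfl
    rw [h2]
    have h3 : ∑ l ∈ Finset.Ico j V.n, ‖V.Q l x‖ ^ 2
        = ∑ l ∈ Finset.Ico j V.n, ‖Mom764.Q V.M l x‖ ^ 2 := rfl
    rw [h3, this]
    simp
  have h2 : (th⁻¹) ^ (j - i) * ‖V.P j x‖ ^ 2 ≤ V.N i x := by
    rw [h1, Finset.mul_sum]
    unfold Flag.N
    rw [← Finset.sum_Ico_consecutive _ hij hjn]
    have h0 : 0 ≤ ∑ l ∈ Finset.Ico i j, (th⁻¹) ^ (l - i) * ‖V.Q l x‖ ^ 2 :=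
      Finset.sum_nonneg fun l _ => by have := th_pos; positivity
    refine le_trans ?_ (le_add_of_nonneg_left h0)
    refine Finset.sum_le_sum fun l hl => ?_
    rw [Finset.mem_Ico] at hl
    refine mul_le_mul_of_nonneg_right ?_ (sq_nonneg _)
    exact pow_le_pow_right₀ ((one_le_inv₀ th_pos).2 th_le) (by omega)
  have hp : 0 < th ^ (j - i) := pow_pos th_pos _
  have h3 := mul_le_mul_of_nonneg_left h2 hp.le
  rw [← mul_assoc, ← mul_pow, mul_inv_cancel₀ th_ne, one_pow, one_mul] at h3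
  exact h3

/-- `⟪P_j v, x⟫² ≤ b_j θ^(j-i) N_i(x)` -/
lemma zeta_sq_le (V : Flag E) (v : E) {i j : ℕ} (hij : i ≤ j) (hjn : j ≤ V.n) (x : E) :
    ⟪V.P j v, x⟫ ^ 2 ≤ V.b v j * (th ^ (j - i) * V.N i x) := by
  have h1 : ⟪V.P j v, x⟫ = ⟪V.P j v, V.P j x⟫ := by
    have h2 : V.P j (V.P j v) = V.P j v :=
      (V.M j).starProjection_eq_self_iff.2 ((V.M j).starProjection_apply_mem v)
    conv_lhs => rw [← h2]
    exact (V.M j).inner_starProjection_left_eq_right _ _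
  rw [h1]
  have h3 : |⟪V.P j v, V.P j x⟫| ≤ ‖V.P j v‖ * ‖V.P j x‖ := abs_real_inner_le_norm _ _
  have h4 : ⟪V.P j v, V.P j x⟫ ^ 2 ≤ (‖V.P j v‖ * ‖V.P j x‖) ^ 2 := sq_le_sq' (by
    have := neg_abs_le (⟪V.P j v, V.P j x⟫ : ℝ); linarith) (le_trans (le_abs_self _) h3)
  refine h4.trans ?_
  rw [mul_pow]
  exact mul_le_mul_of_nonneg_left (N_anti_tail V hij hjn x) (sq_nonneg _)

lemma geom_le (n i : ℕ) : ∑ j ∈ Finset.Ico (i + 1) n, (1 - th) * th ^ (j - i) ≤ 1 := by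
  have key : ∀ N, i + 1 ≤ N →
      ∑ j ∈ Finset.Ico (i + 1) N, (1 - th) * th ^ (j - i) = th - th ^ (N - i) := by
    intro N hN
    induction N, hN using Nat.le_induction with
    | base => simp
    | succ N hN ih =>
      rw [Finset.sum_Ico_succ_top hN, ih]
      have : N + 1 - i = (N - i) + 1 := by omega
      rw [this, pow_succ]
      ring
  rcases le_or_gt (i + 1) n with h | h
  · rw [key n h]
    have h1 := th_le
    have h2 : 0 ≤ th ^ (n - i) := by have := th_pos; positivity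
    linarith
  · rw [Finset.Ico_eq_empty_of_le h.le]
    simp

variable {V W : Flag E} {v : E} {I : ℕ}

/-- projection of `T x` in the new flag, levels above `I` -/
lemma P_Ts_ge (hv : ‖v‖ = 1) (hW : IsOne V W v I) {j : ℕ} (hj : I < j) (x : E) :
    ‖V.P j x‖ ^ 2 - 2 * (⟪v, x⟫ * ⟪V.P j v, x⟫) ≤ ‖W.P j (Ts v 1 x)‖ ^ 2 := by
  have e : ‖W.P j (Ts v 1 x)‖ ^ 2 = ‖(V.M j).starProjection x‖ ^ 2
      + One142.nn (V.M j) v x - ⟪v, x⟫ ^ 2 := by
    show ‖(W.M j).starProjection (Ts v 1 x)‖ ^ 2 = _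
    simp only [hW.2.2 j hj]
    rw [One142.proj_map_Ts (V.M j) hv x, One142.norm_proj_map (V.M j) hv x]
  have h1 := One142.nn_sub_sq (V.M j) hv x
  have h2 := One142.nn_nonneg (V.M j) hv x
  have h3 : 0 ≤ ‖(V.M j).starProjection v‖ ^ 2 * One142.nn (V.M j) v x := by positivity
  have h4 : 0 ≤ ⟪(V.M j).starProjection v, x⟫ ^ 2 := sq_nonneg _
  rw [e]
  show ‖(V.M j).starProjection x‖ ^ 2 - 2 * (⟪v, x⟫ * ⟪(V.M j).starProjection v, x⟫) ≤ _
  linarith

/-- **the pointwise inequality** `(1 - h_i) N_i(x) ≤ N^W_i(T x)`, `h_i = 2 b_i + BB_i` -/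
theorem N_Ts_ge (hv : ‖v‖ = 1) (hW : IsOne V W v I) {i : ℕ} (hi : I < i) (hin : i < V.n)
    {x : E} (hx : x ∈ V.M i) :
    (1 - (2 * V.b v i + BB V v i)) * V.N i x ≤ W.N i (Ts v 1 x) := by
  have hWn : W.n = V.n := by rw [hW.1]; exact max_eq_left (by omega)
  have hN0 : 0 ≤ V.N i x := N_nonneg V i x
  rw [N_eq W (by omega) (Ts v 1 x), hWn]
  have hPx : V.P i x = x := (V.M i).starProjection_eq_self_iff.2 hx
  have hxi : ⟪V.P i v, x⟫ = ⟪v, x⟫ := by
    have : ⟪V.P i v, x⟫ = ⟪v, V.P i x⟫ := (V.M i).inner_starProjection_left_eq_right _ _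
    rw [this, hPx]
  have hξ : ⟪v, x⟫ ^ 2 ≤ V.b v i * V.N i x := by
    have := zeta_sq_le V v (le_refl i) hin.le x
    rw [hxi] at this
    simpa using this
  -- level `i` itself
  have h0 : ‖V.P i x‖ ^ 2 - ⟪v, x⟫ ^ 2 ≤ ‖W.P i (Ts v 1 x)‖ ^ 2 := by
    have e : ‖W.P i (Ts v 1 x)‖ ^ 2 = ‖(V.M i).starProjection x‖ ^ 2
        + One142.nn (V.M i) v x - ⟪v, x⟫ ^ 2 := by
      show ‖(W.M i).starProjection (Ts v 1 x)‖ ^ 2 = _
      simp only [hW.2.2 i hi]
      rw [One142.proj_map_Ts (V.M i) hv x, One142.norm_proj_map (V.M i) hv x]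
    have h2 := One142.nn_nonneg (V.M i) hv x
    rw [e]
    show ‖(V.M i).starProjection x‖ ^ 2 - _ ≤ _
    linarith
  have hterm : ∀ j ∈ Finset.Ico (i + 1) V.n,
      omN (j - i) * ‖V.P j x‖ ^ 2 - ((1 - th) * th ^ (j - i) * (V.b v i * V.N i x)
        + (25 / 8 : ℝ) ^ (j - i) * V.b v j * V.N i x)
        ≤ omN (j - i) * ‖W.P j (Ts v 1 x)‖ ^ 2 := by
    intro j hj
    rw [Finset.mem_Ico] at hj
    have h1 := P_Ts_ge hv hW (show I < j by omega) x
    have h2 := zeta_sq_le V v (show i ≤ j by omega) hj.2.le x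
    have h3 := mul_le_mul_of_nonneg_left h1 (omN_nonneg (j - i))
    set ξ := ⟪v, x⟫ with hξd
    set ζ := ⟪V.P j v, x⟫ with hζd
    set m := j - i with hm
    have hp : 0 < th ^ (2 * m) := by have := th_pos; positivity
    have hth := th_pos
    -- 2 ξ ζ ≤ th^(2m) ξ² + th^(-2m) ζ²
    have hyoung : 2 * (ξ * ζ) ≤ th ^ (2 * m) * ξ ^ 2 + (th⁻¹) ^ (2 * m) * ζ ^ 2 := by
      have e1 : th ^ (2 * m) = (th ^ m) ^ 2 := by rw [← pow_mul, mul_comm]
      have e2 : (th⁻¹) ^ (2 * m) = ((th⁻¹) ^ m) ^ 2 := by rw [← pow_mul, mul_comm]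
      have e3 : th ^ m * (th⁻¹) ^ m = 1 := by rw [← mul_pow, mul_inv_cancel₀ th_ne, one_pow]
      rw [e1, e2]
      nlinarith [sq_nonneg (th ^ m * ξ - (th⁻¹) ^ m * ζ), e3]
    have hω := omN_nonneg m
    have e4 : omN m * th ^ (2 * m) = (1 - th) * th ^ m := by
      unfold omN
      have : (th⁻¹) ^ m * th ^ (2 * m) = th ^ m := by
        rw [two_mul, pow_add, ← mul_assoc, ← mul_pow, inv_mul_cancel₀ th_ne, one_pow, one_mul]
      calc (th⁻¹) ^ m * (1 - th) * th ^ (2 * m) = ((th⁻¹) ^ m * th ^ (2 * m)) * (1 - th) := by ring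
        _ = _ := by rw [this]; ring
    have e5 : omN m * (th⁻¹) ^ (2 * m) * th ^ m ≤ (25 / 8 : ℝ) ^ m := by
      unfold omN
      have : (th⁻¹) ^ m * th ^ m = 1 := by rw [← mul_pow, inv_mul_cancel₀ th_ne, one_pow]
      have e6 : (th⁻¹) ^ m * (1 - th) * (th⁻¹) ^ (2 * m) * th ^ m = (1 - th) * (25 / 16) ^ m := by
        calc _ = ((th⁻¹) ^ m * th ^ m) * (1 - th) * (th⁻¹) ^ (2 * m) := by ring
          _ = _ := by rw [this, pow_mul, th_inv_sq]; ring
      rw [e6]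
      have h7 : (25 / 16 : ℝ) ^ m ≤ (25 / 8) ^ m := pow_le_pow_left₀ (by norm_num) (by norm_num) m
      have h8 : (0 : ℝ) ≤ (25 / 16) ^ m := by positivity
      have h9 : (1 - th : ℝ) ≤ 1 := by linarith
      nlinarith [mul_le_mul_of_nonneg_right h9 h8]
    have h5 : omN m * (2 * (ξ * ζ)) ≤ (1 - th) * th ^ m * (V.b v i * V.N i x)
        + (25 / 8 : ℝ) ^ m * V.b v j * V.N i x := by
      have hb := b_nonneg V v j
      calc omN m * (2 * (ξ * ζ)) ≤ omN m * (th ^ (2 * m) * ξ ^ 2 + (th⁻¹) ^ (2 * m) * ζ ^ 2) :=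
            mul_le_mul_of_nonneg_left hyoung hω
        _ = (omN m * th ^ (2 * m)) * ξ ^ 2 + (omN m * (th⁻¹) ^ (2 * m)) * ζ ^ 2 := by ring
        _ ≤ (omN m * th ^ (2 * m)) * (V.b v i * V.N i x)
            + (omN m * (th⁻¹) ^ (2 * m)) * (V.b v j * (th ^ m * V.N i x)) := by
            gcongr
        _ = (1 - th) * th ^ m * (V.b v i * V.N i x)
            + (omN m * (th⁻¹) ^ (2 * m) * th ^ m) * (V.b v j * V.N i x) := by rw [e4]; ring
        _ ≤ (1 - th) * th ^ m * (V.b v i * V.N i x)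
            + (25 / 8 : ℝ) ^ m * (V.b v j * V.N i x) := by
            gcongr
        _ = _ := by ring
    calc omN m * ‖V.P j x‖ ^ 2 - ((1 - th) * th ^ m * (V.b v i * V.N i x)
          + (25 / 8 : ℝ) ^ m * V.b v j * V.N i x)
        ≤ omN m * ‖V.P j x‖ ^ 2 - omN m * (2 * (ξ * ζ)) := by linarith
      _ = omN m * (‖V.P j x‖ ^ 2 - 2 * (ξ * ζ)) := by ring
      _ ≤ _ := h3
  have hsum := Finset.sum_le_sum hterm
  rw [Finset.sum_sub_distrib, Finset.sum_add_distrib, ← Finset.sum_mul, ← Finset.sum_mul] at hsum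
  have hgeo := mul_le_mul_of_nonneg_right (geom_le V.n i) (mul_nonneg (b_nonneg V v i) hN0)
  have hNe := N_eq V hin.le x
  have hBB : ∑ j ∈ Finset.Ico (i + 1) V.n, (25 / 8 : ℝ) ^ (j - i) * V.b v j = BB V v i := rfl
  rw [hBB] at hsum
  have : (1 - (2 * V.b v i + BB V v i)) * V.N i x
      = V.N i x - V.b v i * V.N i x - V.b v i * V.N i x - BB V v i * V.N i x := by ring
  rw [this]
  linarith

/-! ### dimensions -/

lemma nv_of_mem (M : Submodule ℝ E) {v : E} (h : v ∈ M) : One142.nv M v = 0 := by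
  unfold One142.nv
  rw [M.starProjection_eq_self_iff.2 h, sub_self, smul_zero]

lemma norm_nv_sq (M : Submodule ℝ E) {v : E} (hv : ‖v‖ = 1) (h : v ∉ M) :
    ‖One142.nv M v‖ ^ 2 = 1 := by
  have h1 := One142.norm_proj_sq_le M hv
  have h2 : ‖M.starProjection v‖ ^ 2 ≠ 1 := fun h3 => h ((One142.mem_iff_proj_one M hv).2 h3)
  have h3 : 0 < 1 - ‖M.starProjection v‖ ^ 2 := by
    rcases lt_or_eq_of_le h1 with h4 | h4
    · linarith
    · exact absurd h4 h2
  unfold One142.nv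
  rw [norm_smul, mul_pow, One142.norm_sub_proj_sq M hv, norm_inv, Real.norm_eq_abs,
    abs_of_nonneg (Real.sqrt_nonneg _), inv_pow, Real.sq_sqrt h3.le]
  exact inv_mul_cancel₀ h3.ne'

/-- dimension of the projected subspace -/
lemma finrank_map_Ts (M : Submodule ℝ E) {v : E} (hv : ‖v‖ = 1) :
    (Module.finrank ℝ (M.map (Ts v 1).toLinearMap) : ℝ)
      = Module.finrank ℝ M + ‖One142.nv M v‖ ^ 2 - 1 := by
  have b := stdOrthonormalBasis ℝ E
  rw [← Mom764.sum_norm_starProjection b (M.map (Ts v 1).toLinearMap),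
    ← Mom764.sum_norm_starProjection b M]
  have h1 : ∀ w : E, ∑ k, ⟪w, b k⟫ ^ 2 = ‖w‖ ^ 2 := by
    intro w
    rw [Mom764.norm_sq_eq_sum b w]
    exact Finset.sum_congr rfl fun k _ => by rw [real_inner_comm]
  have h2 : ∑ k, ‖(M.map (Ts v 1).toLinearMap).starProjection (b k)‖ ^ 2
      = ∑ k, (‖M.starProjection (b k)‖ ^ 2 + ⟪One142.nv M v, b k⟫ ^ 2 - ⟪v, b k⟫ ^ 2) := by
    refine Finset.sum_congr rfl fun k _ => ?_
    rw [One142.norm_proj_map M hv, One142.nn_eq M hv]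
  rw [h2, Finset.sum_sub_distrib, Finset.sum_add_distrib, h1, h1, hv]
  norm_num

lemma norm_nv_anti {M M' : Submodule ℝ E} (h : M ≤ M') {v : E} (hv : ‖v‖ = 1) :
    ‖One142.nv M' v‖ ^ 2 ≤ ‖One142.nv M v‖ ^ 2 := by
  by_cases hm : v ∈ M
  · rw [nv_of_mem M' (h hm), nv_of_mem M hm]
  · rw [norm_nv_sq M hv hm]
    exact One142.norm_nv_le M' hv

/-- block dimensions do not increase above `I` -/
theorem k_le (hv : ‖v‖ = 1) (hW : IsOne V W v I) {j : ℕ} (hj : I < j) :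
    (W.k j : ℝ) ≤ V.k j := by
  have e1 : (Module.finrank ℝ (W.M j) : ℝ)
      = Module.finrank ℝ ((V.M j).map (Ts v 1).toLinearMap) := by rw [hW.2.2 j hj]
  have e2 : (Module.finrank ℝ (W.M (j + 1)) : ℝ)
      = Module.finrank ℝ ((V.M (j + 1)).map (Ts v 1).toLinearMap) := by
    rw [hW.2.2 (j + 1) (by omega)]
  rw [k_cast W, k_cast V, e1, e2, finrank_map_Ts (V.M j) hv, finrank_map_Ts (V.M (j + 1)) hv]
  have := norm_nv_anti (V.anti (Nat.le_succ j)) hv
  linarith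

theorem rr_le (hv : ‖v‖ = 1) (hW : IsOne V W v I) {i : ℕ} (hi : I < i) (hin : i < V.n) :
    W.rr i ≤ V.rr i := by
  have hWn : W.n = V.n := by rw [hW.1]; exact max_eq_left (by omega)
  unfold Flag.rr
  rw [hWn]
  refine Finset.sum_le_sum fun j hj => ?_
  rw [Finset.mem_Ico] at hj
  exact mul_le_mul_of_nonneg_left (k_le hv hW (by omega)) (by have := th_pos; positivity)

lemma rr_nonneg (V : Flag E) (i : ℕ) : 0 ≤ V.rr i :=
  Finset.sum_nonneg fun j _ => by have := th_pos; positivity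

/-- if `rr i = 0` then `M i = 0` -/
lemma N_zero_of_rr (V : Flag E) {i : ℕ} (hin : i ≤ V.n) (h : V.rr i = 0) {x : E}
    (hx : x ∈ V.M i) : x = 0 := by
  have h1 : ∀ j ∈ Finset.Ico i V.n, th ^ (j - i) * (V.k j : ℝ) = 0 :=
    (Finset.sum_eq_zero_iff_of_nonneg fun j _ => by have := th_pos; positivity).1 h
  have h2 : ∑ j ∈ Finset.Ico i V.n, (Soft450.bdim V.M j : ℝ) = 0 := by
    refine Finset.sum_eq_zero fun j hj => ?_
    rcases mul_eq_zero.1 (h1 j hj) with h3 | h3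
    · exact absurd h3 (pow_pos th_pos _).ne'
    · exact h3
  rw [Soft450.sum_bdim V.anti hin, botn V] at h2
  have h3 : Module.finrank ℝ (V.M i) = 0 := by
    have : (Module.finrank ℝ (V.M i) : ℝ) = 0 := by simpa using h2
    exact_mod_cast this
  have h4 : V.M i = ⊥ := Submodule.finrank_eq_zero.1 h3
  rw [h4] at hx
  exact (Submodule.mem_bot ℝ).1 hx

/-- **cap cut at a level `i > I`, in the world of `V`**: total cost linear in `b`. -/
theorem cap_cut (hv : ‖v‖ = 1) (hW : IsOne V W v I) {i : ℕ} (hi : I < i) (hin : i < V.n)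
    {rho : ℝ} (hrho : 16 ≤ rho) {Q : Set E} (mQ : MeasurableSet Q) (cQ : Convex ℝ Q)
    (sQ : ∀ x ∈ Q, -x ∈ Q) (hQM : ∀ x ∈ Q, x ∈ V.M i)
    (hQ : ∀ x ∈ Q, Ts v 1 x ∈ W.cap rho i) :
    Real.exp (-(16 * (2 * V.b v i + BB V v i) / rho ^ 2)) * (gau (V.H i)).real Q
      ≤ (gau (V.H i)).real (Q ∩ V.cap rho i) := by
  have hrho0 : 0 < rho := by linarith
  rcases (rr_nonneg V i).eq_or_lt with h0 | h0
  · have h1 : Q ∩ V.cap rho i = Q := by
      apply Set.inter_eq_left.2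
      intro x hx
      refine ⟨hQM x hx, ?_⟩
      rw [N_zero_of_rr V hin.le h0.symm (hQM x hx), ← norm_Bg_sq, map_zero]
      have := rr_nonneg V i
      simpa using by positivity
    rw [h1]
    have h2 : Real.exp (-(16 * (2 * V.b v i + BB V v i) / rho ^ 2)) ≤ 1 := by
      apply Real.exp_le_one_iff.2
      have := b_nonneg V v i
      have := BB_nonneg V v i
      have : 0 ≤ 16 * (2 * V.b v i + BB V v i) / rho ^ 2 := by positivity
      linarith
    exact mul_le_of_le_one_left measureReal_nonneg h2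
  · set R := rho * Real.sqrt (V.rr i) with hR
    have hR0 : 0 < R := mul_pos hrho0 (Real.sqrt_pos.2 h0)
    have hR2 : R ^ 2 = rho ^ 2 * V.rr i := by rw [hR, mul_pow, Real.sq_sqrt h0.le]
    set h := 2 * V.b v i + BB V v i with hh
    have hh0 : 0 ≤ h := by
      have := b_nonneg V v i
      have := BB_nonneg V v i
      positivity
    have hE : ∫ x, ‖Bg V i x‖ ^ 2 ∂(gau (V.H i)) ≤ R ^ 2 / rho ^ 2 := by
      rw [integral_N, hR2, mul_div_cancel_left₀ _ (by positivity)]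
    have hb : h ≤ 1 / 2 → ∀ x ∈ Q, ‖Bg V i x‖ ≤ (1 + h) * R := by
      intro h12 x hx
      have h1 := N_Ts_ge hv hW hi hin (hQM x hx)
      have h2 : W.N i (Ts v 1 x) ≤ rho ^ 2 * V.rr i :=
        (hQ x hx).2.trans (mul_le_mul_of_nonneg_left (rr_le hv hW hi hin) (by positivity))
      rw [← hh] at h1
      have h3 : (1 - h) * ‖Bg V i x‖ ^ 2 ≤ R ^ 2 := by
        rw [norm_Bg_sq, hR2]; exact h1.trans h2
      have h4 : ‖Bg V i x‖ ^ 2 ≤ ((1 + h) * R) ^ 2 := by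
        have h5 : 1 ≤ (1 - h) * (1 + h) ^ 2 := by
          have h51 : 0 ≤ 1 - h - h ^ 2 := by nlinarith
          nlinarith [mul_nonneg hh0 h51]
        have h6 : (1 - h) * ‖Bg V i x‖ ^ 2 ≤ (1 - h) * ((1 + h) * R) ^ 2 := by
          calc _ ≤ R ^ 2 := h3
            _ = 1 * R ^ 2 := (one_mul _).symm
            _ ≤ ((1 - h) * (1 + h) ^ 2) * R ^ 2 := mul_le_mul_of_nonneg_right h5 (by positivity)
            _ = _ := by ring
        exact le_of_mul_le_mul_left h6 (by linarith)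
      exact (abs_le_of_sq_le_sq' h4 (by positivity)).2
    have hcut := RadCut631.rad_cut (V.H i) mQ cQ sQ (Bg V i) hR0 hrho hE hh0 hb
    refine hcut.trans (measureReal_mono ?_)
    rintro x ⟨hx1, hx2⟩
    refine ⟨hx1, hQM x hx1, ?_⟩
    rw [← norm_Bg_sq, ← hR2]
    exact pow_le_pow_left₀ (norm_nonneg _) hx2 2

end Crest.Agent.R239.OneCap631
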