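import Mathlib
import Crest.Agent.R239.RemLev_864

/-! R239 leaf REM (helper864): the slab remainder for LINE D (`S ≤ s0 lam I`, `A` large). -/

set_option autoImplicit false

open MeasureTheory ProbabilityTheory Set Real
open scoped RealInnerProductSpace ENNReal NNReal InnerProduct

namespace Crest.Agent.R239.Rem864

open Crest.Agent.R239.FD

variable {E : Type*} [NormedAddCommGroup E] [InnerProductSpace ℝ E] [FiniteDimensional ℝ E]
  [MeasurableSpace E] [BorelSpace E]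
variable {F : Type*} [NormedAddCommGroup F] [InnerProductSpace ℝ F] [FiniteDimensional ℝ F]
  [MeasurableSpace F] [BorelSpace F]

/-- slab remainder above `I`, `S ≤ s0 lam I`, `A` large. -/
theorem rem_D {p : Par} (hp : p.Ok) {I i : ℕ} (hI : I < i) {Sv s e s0 sm : ℝ} (hs01 : 1 ≤ s0)
    (hs0A : s0 ≤ p.A) (hS0 : 0 ≤ Sv) (hS : Sv ≤ s0 * p.lam I) (hs0 : 0 ≤ s) (hs1 : s ≤ 1)
    (he : 0 < e) (he1 : e ≤ 1) (hsm : 0 < sm) (hAsm : (24 * s0 ^ 2 / (e * sm)) ^ 2 ≤ p.A)
    (A : F →L[ℝ] E) (n : E) :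
    ∃ t, 0 < t ∧ 0 < (gau A).real {x | |⟪n, x⟫| ≤ t} ∧
      s * t * Sv - p.lam i * log ((gau A).real {x | |⟪n, x⟫| ≤ t}) ≤
        e * p.lam i * ‖A.adjoint n‖ ^ 2 + sm * p.lam I * (1 / 2) ^ (i - I) := by
  obtain ⟨m, rfl⟩ : ∃ m, i = I + (m + 1) := ⟨i - I - 1, by omega⟩
  have hm : I + (m + 1) - I = m + 1 := by omega
  rw [hm]
  have hlI := lam_pos hp I
  have hli := lam_pos hp (I + (m + 1))
  have hA := hp.A_ge
  have hA0 : 0 < p.A := by linarith
  have hAm : 1 ≤ p.A ^ m := one_le_pow₀ (by linarith)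
  have hla : p.lam (I + (m + 1)) = p.lam I * p.A ^ (m + 1) := lam_add p I (m + 1)
  have hle : s0 * p.lam I ≤ p.lam (I + (m + 1)) := by
    rw [hla, pow_succ]
    have h1 : s0 ≤ p.A ^ m * p.A := by nlinarith
    nlinarith
  have hs0p : 0 < s0 := by linarith
  have hsS0 : 0 ≤ s * Sv := mul_nonneg hs0 hS0
  have hsS : s * Sv ≤ s0 * p.lam I := by nlinarith
  have hhalf : (0 : ℝ) < (1 / 2) ^ (m + 1) := by positivity
  obtain ⟨t, h1, h2, h3⟩ := gau_r3 A n (S := s * Sv) (lam := p.lam (I + (m + 1))) (e := e)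
    (ε := sm / 2 * p.lam I * (1 / 2) ^ (m + 1)) hli hsS0 (hsS.trans hle) he he1 (by positivity)
  refine ⟨t, h1, h2, ?_⟩
  have h4 : s * t * Sv = s * Sv * t := by ring
  rw [h4]
  refine h3.trans ?_
  -- the main term
  have key : (s * Sv) ^ 2 / p.lam (I + (m + 1)) * log (2 * p.lam (I + (m + 1)) / (s * Sv)) ≤
      3 * ((s0 * p.lam I) * (s0 * ((√p.A)⁻¹ * (1 / 2) ^ m))) := by
    rcases hsS0.eq_or_lt with h | h
    · rw [← h]; simp; positivity
    · set x : ℝ := s * Sv / p.lam (I + (m + 1)) with hx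
      have hx0 : 0 < x := div_pos h hli
      have e1 : (s * Sv) ^ 2 / p.lam (I + (m + 1)) = p.lam (I + (m + 1)) * x ^ 2 := by
        rw [hx]; field_simp
      have e2 : 2 * p.lam (I + (m + 1)) / (s * Sv) = 2 / x := by
        rw [hx]; field_simp
      rw [e1, e2, mul_assoc]
      have h5 := sq_log_le hx0
      have h6 : x ≤ s0 * (p.A ^ (m + 1))⁻¹ := by
        rw [hx, hla, div_le_iff₀ (by positivity)]
        have : s0 * (p.A ^ (m + 1))⁻¹ * (p.lam I * p.A ^ (m + 1)) = s0 * p.lam I := by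
          field_simp
        rw [this]; exact hsS
      have h7 : √x ≤ s0 * ((√p.A)⁻¹ * (1 / 2) ^ m) := by
        have g1 : √x ≤ √(s0 * (p.A ^ (m + 1))⁻¹) := Real.sqrt_le_sqrt h6
        have g2 : √(s0 * (p.A ^ (m + 1))⁻¹) = √s0 * (√((p.A ^ m)⁻¹) * (√p.A)⁻¹) := by
          rw [Real.sqrt_mul hs0p.le, pow_succ, mul_inv, Real.sqrt_mul (by positivity),
            Real.sqrt_inv p.A]
        have g3 := inv_pow_le_quarter hA m
        have g4 : √s0 ≤ s0 := by
          rw [Real.sqrt_le_left (by linarith)]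
          nlinarith
        rw [g2] at g1
        have g5 : 0 < (√p.A)⁻¹ := by positivity
        calc √x ≤ √s0 * (√((p.A ^ m)⁻¹) * (√p.A)⁻¹) := g1
          _ ≤ s0 * ((1 / 2) ^ m * (√p.A)⁻¹) := by
              apply mul_le_mul g4 _ (by positivity) (by linarith)
              exact mul_le_mul_of_nonneg_right g3 g5.le
          _ = s0 * ((√p.A)⁻¹ * (1 / 2) ^ m) := by ring
      have h8 : p.lam (I + (m + 1)) * x ≤ s0 * p.lam I := by
        have : p.lam (I + (m + 1)) * x = s * Sv := by rw [hx]; field_simp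
        rw [this]; exact hsS
      calc p.lam (I + (m + 1)) * (x ^ 2 * log (2 / x)) ≤ p.lam (I + (m + 1)) * (3 * (x * √x)) :=
            mul_le_mul_of_nonneg_left h5 hli.le
        _ = 3 * ((p.lam (I + (m + 1)) * x) * √x) := by ring
        _ ≤ 3 * ((s0 * p.lam I) * (s0 * ((√p.A)⁻¹ * (1 / 2) ^ m))) := by
            apply mul_le_mul_of_nonneg_left _ (by norm_num)
            exact mul_le_mul h8 h7 (Real.sqrt_nonneg _) (by positivity)
  have hsq : 0 < √p.A := Real.sqrt_pos.2 hA0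
  have hAbig : 24 * s0 ^ 2 / (e * sm) ≤ √p.A := Real.le_sqrt_of_sq_le hAsm
  have hsmall : 24 * s0 ^ 2 * (√p.A)⁻¹ ≤ e * sm := by
    rw [div_le_iff₀ (by positivity)] at hAbig
    rw [← div_eq_mul_inv, div_le_iff₀ hsq]
    linarith
  have hhm : (0 : ℝ) < (1 / 2) ^ m := by positivity
  have h9 : 2 / e * ((s * Sv) ^ 2 / p.lam (I + (m + 1))) *
      log (2 * p.lam (I + (m + 1)) / (s * Sv)) ≤ sm / 2 * p.lam I * (1 / 2) ^ (m + 1) := by
    calc 2 / e * ((s * Sv) ^ 2 / p.lam (I + (m + 1))) *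
          log (2 * p.lam (I + (m + 1)) / (s * Sv))
        = 2 / e * ((s * Sv) ^ 2 / p.lam (I + (m + 1)) *
          log (2 * p.lam (I + (m + 1)) / (s * Sv))) := by ring
      _ ≤ 2 / e * (3 * ((s0 * p.lam I) * (s0 * ((√p.A)⁻¹ * (1 / 2) ^ m)))) :=
          mul_le_mul_of_nonneg_left key (by positivity)
      _ = (24 * s0 ^ 2 * (√p.A)⁻¹) * (1 / e * (p.lam I * (1 / 2) ^ (m + 1)) / 2) := by
          rw [pow_succ]; ring
      _ ≤ (e * sm) * (1 / e * (p.lam I * (1 / 2) ^ (m + 1)) / 2) :=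
          mul_le_mul_of_nonneg_right hsmall (by positivity)
      _ = sm / 2 * p.lam I * (1 / 2) ^ (m + 1) := by
          field_simp
  have h10 : sm * p.lam I * (1 / 2) ^ (m + 1) = sm / 2 * p.lam I * (1 / 2) ^ (m + 1) +
      sm / 2 * p.lam I * (1 / 2) ^ (m + 1) := by ring
  linarith

end Crest.Agent.R239.Rem864
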