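import Crest.Agent.R239.OneC_525
import Crest.Agent.R239.OneLit_502
import Crest.Agent.R239.OneCap_631
import Crest.Agent.R239.LD3_711
import Crest.Agent.R239.RemD_864
import Crest.Agent.R239.DemLin_853
import Crest.Agent.R239.One2_142

/-! R239, ONE-STEP LINE (helper525): `target_ONEhiV : Target_ONEhiV`. -/

set_option autoImplicit false
set_option linter.unusedSectionVars false
open MeasureTheory ProbabilityTheory Set
open scoped RealInnerProductSpace

namespace Crest.Agent.R239.OneD525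

open Crest.Agent.R239.FD
open Crest.Agent.R239.OneC525
open Crest.Agent.R239 (gau gau_real_apply)

variable {E : Type*} [NormedAddCommGroup E] [InnerProductSpace ℝ E] [FiniteDimensional ℝ E]
  [MeasurableSpace E] [BorelSpace E]

/-- two flags which agree from level `l` on have the same `D l` (copy of 824's lemma) -/
lemma D_congr (p : Par) {V W : Flag E} {l : ℕ} (hn : W.n = V.n) (hM : ∀ j, l ≤ j → W.M j = V.M j)
    (μ : Multiset E) : D p W l μ = D p V l μ := by
  have hQ : ∀ j, l ≤ j → W.Q j = V.Q j := by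
    intro j hj
    unfold Flag.Q Flag.P
    rw [Dem853.starProj_congr (hM j hj), Dem853.starProj_congr (hM (j+1) (by omega))]
  have hk : ∀ j, l ≤ j → W.k j = V.k j := by
    intro j hj
    unfold Flag.k
    rw [hM j hj, hM (j+1) (by omega)]
  have hH : W.H l = V.H l := by
    unfold Flag.H
    rw [hn]
    exact Finset.sum_congr rfl fun j hj => by rw [hQ j (Finset.mem_Ico.1 hj).1]
  have hN : ∀ x, W.N l x = V.N l x := by
    intro x
    unfold Flag.N
    rw [hn]
    exact Finset.sum_congr rfl fun j hj => by rw [hQ j (Finset.mem_Ico.1 hj).1]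
  have hr : W.rr l = V.rr l := by
    unfold Flag.rr
    rw [hn]
    exact Finset.sum_congr rfl fun j hj => by rw [hk j (Finset.mem_Ico.1 hj).1]
  have hcap : W.cap p.rho l = V.cap p.rho l := by
    unfold Flag.cap
    ext x
    simp only [mem_ofPred_eq, hM l le_rfl, hN, hr]
  have hA : ∀ K, Adm p W l K ↔ Adm p V l K := by
    intro K
    unfold Adm
    rw [hcap, hH]
  unfold D
  have h1 : {K | Adm p W l K} = {K | Adm p V l K} := by ext K; exact hA K
  rw [h1]
  congr 1
  ext r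
  unfold val
  rw [hH]

set_option maxHeartbeats 2000000 in
/-- the level inequality with explicit constants. -/
theorem onehiV_level {p : Par} (hp : p.Ok) {V W : Flag E} {μ : Multiset E} {v : E} {i : ℕ}
    (hv : ‖v‖ = 1) (hT1 : LD3.IsT1 V W v i) (hin : i < V.n)
    (hN : ∀ x ∈ V.M i, (1 - (2 * V.b v i + BB V v i)) * V.N i x ≤ W.N i (Ts v 1 x))
    (hrr : W.rr i ≤ V.rr i)
    (hrr' : V.rr i = 0 → ∀ x ∈ V.M i, x = 0)
    {c' dl : ℝ} (hc0 : 0 < c') (hc1 : c' < 1) (hdl : 0 < dl) {e R : ℝ} (he : 0 ≤ e) (hR0 : 0 ≤ R)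
    (hrem : ∀ A : E →L[ℝ] E, ∃ t, 0 < t ∧ 0 < (gau A).real {x | |⟪v, x⟫| ≤ t} ∧
      t * S μ v - p.lam i * Real.log ((gau A).real {x | |⟪v, x⟫| ≤ t}) ≤
        e * p.lam i * ‖A.adjoint v‖ ^ 2 + R)
    (hthin : ThinAt p V μ i c' dl) :
    D p V i μ + p.lam i * (c' ^ 2 / 32 * (V.b v i - V.b v (i + 1)))
      - p.lam i * ((2 * e + 64 / p.rho ^ 2) * V.b v i + 2 * BB V v i) - R ≤ D p W i μ := by
  have hlam : 0 < p.lam i := Rem864.lam_pos hp i
  have hrho : 16 ≤ p.rho := hp.rho_ge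
  have hrho0 : 0 < p.rho := by linarith
  have hBB : 0 ≤ BB V v i := Finset.sum_nonneg fun j _ => by
    unfold Flag.b; positivity
  have hb0 : 0 ≤ V.b v i := by unfold Flag.b; positivity
  have hbs0 : 0 ≤ V.b v (i + 1) := by unfold Flag.b; positivity
  rcases (OneCap631.rr_nonneg V i).eq_or_lt with h0 | hpos
  · -- `M_i = 0`
    have hz := hrr' h0.symm
    have hVbot : V.M i = ⊥ := (Submodule.eq_bot_iff _).2 hz
    have hVb : ∀ j, i ≤ j → V.M j = ⊥ := fun j hj => by
      have := V.anti hj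
      rw [hVbot] at this
      exact le_bot_iff.1 this
    have hD : D p W i μ = D p V i μ := D_congr p hT1.n (fun j hj => by
      rw [hT1.M j hj, hVb j hj, Submodule.map_bot]) μ
    have hbz : V.b v i = 0 := by
      unfold Flag.b
      have h1 : V.P i v = 0 := hz _ (LD3.P_mem V i v)
      rw [h1]; simp
    rw [hD, hbz]
    have h1 : 0 ≤ p.lam i * BB V v i := mul_nonneg hlam.le hBB
    have h2 : 0 ≤ p.lam i * (c' ^ 2 / 32 * V.b v (i + 1)) := by positivity
    nlinarith
  · -- main case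
    -- direction and gain
    have hal : ‖V.Q i v‖ ^ 2 = V.b v i - V.b v (i + 1) := LD3.al_sq V v i
    have hb1 : V.b v i ≤ 1 := by
      unfold Flag.b
      have h1 := LD3.norm_P_le (V := V) i v
      rw [hv] at h1
      have h2 := norm_nonneg (V.P i v)
      nlinarith
    obtain ⟨n, τ, c'', hn, hτ0, hτ1, hτQ, hc''0, hgain, hthinn⟩ : ∃ (n : E) (τ c'' : ℝ), ‖n‖ = 1 ∧
        0 ≤ τ ∧ τ ≤ 1 / 8 ∧ (∀ g, τ * ⟪n, g⟫ ^ 2 ≤ 1 / 2 * ⟪V.Q i v, g⟫ ^ 2) ∧ 0 ≤ c'' ∧
        c' ^ 2 / 32 * (V.b v i - V.b v (i + 1)) ≤ τ / 2 * (c'' - 4 * τ) ∧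
        ∀ K, NearOpt p V i μ K (dl * p.lam i) → ∫ g in (V.H i) ⁻¹' K, ⟪n, g⟫ ^ 2 ∂(stdGaussian E)
          ≤ (1 - c'') * (stdGaussian E).real ((V.H i) ⁻¹' K) := by
      by_cases hQ0 : V.Q i v = 0
      · refine ⟨v, 0, 0, hv, le_rfl, by norm_num, fun g => by rw [zero_mul]; positivity, le_rfl, ?_,
          fun K hK => ?_⟩
        · rw [← hal, hQ0]; simp
        · have mK : MeasurableSet K := hK.1.1.measurableSet
          have h1 := Dom640.dom_sq (K := (V.H i) ⁻¹' K) ((V.H i).continuous.measurable mK)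
            (hK.1.2.1.linear_preimage (V.H i).toLinearMap)
            (fun x hx => by
              show V.H i (-x) ∈ K
              rw [map_neg]; exact hK.1.2.2.1 _ hx) v
          rw [hv] at h1
          linarith
      · have hal0 : 0 < ‖V.Q i v‖ := norm_pos_iff.2 hQ0
        have hal1 : ‖V.Q i v‖ ^ 2 ≤ 1 := by rw [hal]; linarith
        refine ⟨‖V.Q i v‖⁻¹ • V.Q i v, c' / 8 * ‖V.Q i v‖ ^ 2, c', ?_, by positivity, by nlinarith,
          fun g => ?_, hc0.le, ?_, fun K hK => ?_⟩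
        · rw [norm_smul, norm_inv, norm_norm, inv_mul_cancel₀ hal0.ne']
        · rw [inner_smul_left, conj_trivial, mul_pow, inv_pow]
          have h1 : c' / 8 * ‖V.Q i v‖ ^ 2 * ((‖V.Q i v‖ ^ 2)⁻¹ * ⟪V.Q i v, g⟫ ^ 2)
              = c' / 8 * ⟪V.Q i v, g⟫ ^ 2 := by field_simp
          rw [h1]
          nlinarith [sq_nonneg ⟪V.Q i v, g⟫]
        · rw [← hal]
          have h1 : 0 ≤ c' * ‖V.Q i v‖ ^ 2 := by positivity
          have h2 : c' * ‖V.Q i v‖ ^ 2 ≤ c' := by nlinarith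
          nlinarith [mul_nonneg h1 (sub_nonneg.2 h2)]
        · have mK : MeasurableSet K := hK.1.1.measurableSet
          have hnn : ‖‖V.Q i v‖⁻¹ • V.Q i v‖ = 1 := by
            rw [norm_smul, norm_inv, norm_norm, inv_mul_cancel₀ hal0.ne']
          have hQn : V.Q i (‖V.Q i v‖⁻¹ • V.Q i v) = ‖V.Q i v‖⁻¹ • V.Q i v := by
            rw [map_smul]
            congr 1
            exact QPlus711.Qj_Qj_self V.anti i v
          have h1 := hthin K hK _ hnn hQn
          have h2 : ∫ g in V.H i ⁻¹' K, ⟪‖V.Q i v‖⁻¹ • V.Q i v, g⟫ ^ 2 ∂(stdGaussian E)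
              = ∫ x in K, ⟪‖V.Q i v‖⁻¹ • V.Q i v, x⟫ ^ 2 ∂(gau (V.H i)) := by
            unfold gau
            rw [setIntegral_map mK (by fun_prop) (V.H i).continuous.aemeasurable]
            refine integral_congr_ae (Filter.Eventually.of_forall fun g => ?_)
            have h1 : ⟪‖V.Q i v‖⁻¹ • V.Q i v, V.H i g⟫ = ⟪‖V.Q i v‖⁻¹ • V.Q i v, g⟫ := by
              rw [← LD3.inner_H, map_smul, LD3.H_of_Q hin]
            simp only [h1]
          rw [h2, ← gau_real_apply (V.H i) mK]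
          exact h1
    -- the stretch and the slab
    set c : ℝ := 1 / Real.sqrt (1 - τ) with hc
    have h1τ : 0 < 1 - τ := by linarith
    have hc2 : c ^ 2 = 1 / (1 - τ) := by
      rw [hc, div_pow, Real.sq_sqrt h1τ.le, one_pow]
    have hcc1 : 1 ≤ c ^ 2 := by
      rw [hc2, le_div_iff₀ h1τ]; linarith
    have hcc2 : c ^ 2 ≤ 2 := by
      rw [hc2, div_le_iff₀ h1τ]; linarith
    obtain ⟨t, ht0, hslab, hS⟩ := hrem (V.H i ∘L st n c)
    have hadj : ‖(V.H i ∘L st n c).adjoint v‖ ^ 2 ≤ 2 * V.b v i := by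
      rw [ContinuousLinearMap.adjoint_comp, adjoint_st]
      have h1 : (V.H i).adjoint v = V.H i v := by
        have := Mom764.adjoint_H (M := V.M) th V.n i
        have h2 : (V.H i).adjoint = V.H i := this
        rw [h2]
      show ‖st n c ((V.H i).adjoint v)‖ ^ 2 ≤ _
      rw [h1]
      have h2 := norm_st_le hn hcc1 (V.H i v)
      have h3 : ‖V.H i v‖ ≤ ‖V.P i v‖ := by
        rw [← One142.H_P_self (V := V) i v]
        exact One142.norm_H_le V i _
      have h4 : ‖V.H i v‖ ^ 2 ≤ V.b v i := by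
        unfold Flag.b
        exact pow_le_pow_left₀ (norm_nonneg _) h3 2
      have h5 : 0 ≤ ‖V.H i v‖ ^ 2 := by positivity
      nlinarith
    have hRN : ∀ g, ‖W.Hi i (Ts v 1 (V.H i g))‖ ^ 2 + τ * ⟪n, g⟫ ^ 2
        ≤ ‖g‖ ^ 2 + ∑ k ∈ LD3.Jx V i, ⟪LD3.ux V v i k, g⟫ ^ 2 := fun g => by
      have h1 := LD3.N_base hT1 hv hin g
      have h2 := hτQ g
      linarith
    have hsum := LD3.sum_norm_ux (V := V) (i := i) hv hin
    -- reduce to every admissible body of `W`, with slack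
    have hne : (val p W i μ '' {K | Adm p W i K}).Nonempty :=
      ⟨_, _, Cap526.adm_cap (by linarith) W i, rfl⟩
    have main : ∀ K', Adm p W i K' →
        D p V i μ + p.lam i * (c' ^ 2 / 32 * (V.b v i - V.b v (i + 1)))
          - p.lam i * ((2 * e + 64 / p.rho ^ 2) * V.b v i + 2 * BB V v i) - R ≤ val p W i μ K' := by
      intro K' hK'
      refine le_of_forall_pos_le_add fun δ hδ => ?_
      set δ' : ℝ := min δ (dl * p.lam i) with hδ'
      have hδ'0 : 0 < δ' := lt_min hδ (by positivity)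
      have hneV : (val p V i μ '' {K | Adm p V i K}).Nonempty :=
        ⟨_, _, Cap526.adm_cap (by linarith) V i, rfl⟩
      obtain ⟨_, ⟨K, hK, rfl⟩, hKv⟩ := exists_lt_of_csInf_lt hneV
        (lt_add_of_pos_right (D p V i μ) hδ'0)
      have hth := hthinn K ⟨hK, hKv.le.trans (by
        have := min_le_right δ (dl * p.lam i)
        linarith)⟩
      have h := lev_abs hp (fun x hx => LD3.mem_W hT1 hx) hn hτ0 hτ1 (LD3.Jx V i) (LD3.ux V v i)
        hRN (h := 2 * V.b v i + BB V v i) (by positivity) hN hrr hpos hK hKv.le hc''0 hth hK' hslab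
      have h1 : δ' ≤ δ := min_le_left _ _
      have hr2 : (0:ℝ) < p.rho ^ 2 := by positivity
      have h2 : 32 / p.rho ^ 2 * (2 * V.b v i + BB V v i)
          ≤ 64 / p.rho ^ 2 * V.b v i + 1 * BB V v i := by
        have h3 : 32 / p.rho ^ 2 ≤ 1 := by
          rw [div_le_one hr2]; nlinarith
        have h4 : 32 / p.rho ^ 2 * BB V v i ≤ 1 * BB V v i := mul_le_mul_of_nonneg_right h3 hBB
        have h5 : 32 / p.rho ^ 2 * (2 * V.b v i + BB V v i)
          = 64 / p.rho ^ 2 * V.b v i + 32 / p.rho ^ 2 * BB V v i := by ring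
        rw [h5]
        linarith
      have h6 : e * p.lam i * ‖(V.H i ∘L st n c).adjoint v‖ ^ 2 ≤ e * p.lam i * (2 * V.b v i) :=
        mul_le_mul_of_nonneg_left hadj (mul_nonneg he hlam.le)
      have h7 : p.lam i * (∑ k ∈ LD3.Jx V i, ‖LD3.ux V v i k‖ ^ 2
          + 32 / p.rho ^ 2 * (2 * V.b v i + BB V v i))
          ≤ p.lam i * (BB V v i + (64 / p.rho ^ 2 * V.b v i + 1 * BB V v i)) :=
        mul_le_mul_of_nonneg_left (add_le_add hsum h2) hlam.le
      have h8 := mul_le_mul_of_nonneg_left hgain hlam.le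
      have h9 : p.lam i * ((2 * e + 64 / p.rho ^ 2) * V.b v i + 2 * BB V v i)
          = e * p.lam i * (2 * V.b v i)
            + p.lam i * (BB V v i + (64 / p.rho ^ 2 * V.b v i + 1 * BB V v i)) := by ring
      rw [h9]
      linarith
    exact le_csInf hne (by rintro _ ⟨K', hK', rfl⟩; exact main K' hK')

/-- **Target_ONEhiV** (levels above `I`, thinness measured at `V`). -/
theorem target_ONEhiV : Target_ONEhiV := by
  intro c' dl hc0 hc1 hdl
  refine ⟨c' ^ 2 / 32, 64, by positivity, by norm_num, fun sm S0 hsm hS0 => ?_⟩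
  set e : ℝ := min sm 1 / 2 with he
  have he0 : 0 < e := by
    have : 0 < min sm 1 := lt_min hsm one_pos
    rw [he]; linarith
  have he1 : e ≤ 1 := by
    have : min sm 1 ≤ 1 := min_le_right _ _
    rw [he]; linarith
  have he2 : 2 * e ≤ sm := by
    have : min sm 1 ≤ sm := min_le_left _ _
    rw [he]; linarith
  set s0 : ℝ := max S0 1 with hs0
  refine ⟨max s0 ((24 * s0 ^ 2 / (e * sm)) ^ 2), fun d p hp hA => ?_⟩
  intro V W μ v I i hv hW hI hin hS hthin
  have hWn : W.n = V.n := by rw [hW.1]; exact max_eq_left (by omega)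
  have hT1 : LD3.IsT1 V W v i := ⟨hWn, fun j hj => hW.2.2 j (by omega)⟩
  have hlamI : 0 < p.lam I := Rem864.lam_pos hp I
  have hS' : 0 ≤ S μ v := by
    unfold S
    refine Multiset.sum_nonneg fun x hx => ?_
    obtain ⟨z, _, rfl⟩ := Multiset.mem_map.1 hx
    exact abs_nonneg _
  have h := onehiV_level hp (W := W) (μ := μ) (i := i) hv hT1 hin
    (fun x hx => OneCap631.N_Ts_ge hv hW hI hin hx) (OneCap631.rr_le hv hW hI hin)
    (fun h0 x hx => OneCap631.N_zero_of_rr V hin.le h0 hx) hc0 hc1 hdl he0.le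
    (R := sm * p.lam I * (1 / 2) ^ (i - I)) (by positivity)
    (fun A => by
      obtain ⟨t, h1, h2, h3⟩ := Rem864.rem_D hp hI (Sv := S μ v) (s := 1) (s0 := s0) (e := e)
        (sm := sm) (le_max_right _ _) ((le_max_left _ _).trans hA) hS'
        (hS.trans (mul_le_mul_of_nonneg_right (le_max_left _ _) hlamI.le)) zero_le_one le_rfl
        he0 he1 hsm ((le_max_right _ _).trans hA) A v
      exact ⟨t, h1, h2, by rw [one_mul] at h3; exact h3⟩) hthin
  have hb0 : 0 ≤ V.b v i := by unfold Flag.b; positivity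
  have hBB : 0 ≤ BB V v i := Finset.sum_nonneg fun j _ => by
    unfold Flag.b; positivity
  have hlam : 0 < p.lam i := Rem864.lam_pos hp i
  have h1 : p.lam i * ((2 * e + 64 / p.rho ^ 2) * V.b v i + 2 * BB V v i)
      ≤ p.lam i * ((sm + 64 / p.rho ^ 2) * V.b v i + 64 * BB V v i) := by
    refine mul_le_mul_of_nonneg_left ?_ hlam.le
    have h2 : (2 * e + 64 / p.rho ^ 2) * V.b v i ≤ (sm + 64 / p.rho ^ 2) * V.b v i :=
      mul_le_mul_of_nonneg_right (by linarith) hb0
    linarith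
  have h2 : sm * (1 / 2) ^ (i - I) * p.lam I = sm * p.lam I * (1 / 2) ^ (i - I) := by ring
  rw [h2]
  linarith

end Crest.Agent.R239.OneD525
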