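import Crest.Agent.R239.FDef
import Crest.Agent.R239.L0_942

/-! R239 / S0370, one-step line (docs 2444, 2447): from the growth of `Ut` at one grid to the literal
conclusion, with `U = Σ_{k<m} Ut (grid k)` (helper394). -/

set_option autoImplicit false
open MeasureTheory ProbabilityTheory
open scoped RealInnerProductSpace

namespace Crest.Agent.R239.One394

open Crest.Agent.R239.FD

section gen

variable {E : Type*} [NormedAddCommGroup E] [InnerProductSpace ℝ E] [FiniteDimensional ℝ E]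
  [MeasurableSpace E] [BorelSpace E]

/-- the two-sided growth statement for one grid: the level `I` fits the letter -/
def P_U3g (E : Type*) [NormedAddCommGroup E] [InnerProductSpace ℝ E] [FiniteDimensional ℝ E]
    [MeasurableSpace E] [BorelSpace E] (p : Par) (C1 eta c : ℝ) : Prop :=
  ∀ (I : ℕ) (v : E) (s : Multiset (E × E)), ‖v‖ = 1 →
    2 * S (s.map fun q => q.1 + q.2) v < S (s.map Prod.fst + s.map Prod.snd) v →
    C1 * eta * S (s.map Prod.fst + s.map Prod.snd) v ≤ p.lam I →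
    p.lam I ≤ 2 * C1 * eta * S (s.map Prod.fst + s.map Prod.snd) v →
    Ut p (s.map fun q => q.1 + q.2) + c * S (s.map Prod.fst + s.map Prod.snd) v
      ≤ Ut p (s.map Prod.fst + s.map Prod.snd)

/-- the empty flag -/
noncomputable def bot : Flag E where
  n := 0
  M := fun _ => ⊥
  anti := fun _ _ _ => le_rfl
  bot := fun _ _ => rfl

theorem J_bot (p : Par) (μ : Multiset E) : J p (bot : Flag E) μ = 0 := by
  simp [J, bot]

theorem J_le {p : Par} {C : ℝ} (h2 : P_U2 E p C) (h0 : P_J0 E p) (V : Flag E) (μ : Multiset E) :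
    J p V μ ≤ (μ.map fun z => C * Real.sqrt (Module.finrank ℝ E) * ‖z‖).sum := by
  induction μ using Multiset.induction_on with
  | empty => simpa using h0 V
  | cons z μ ih =>
    rw [Multiset.map_cons, Multiset.sum_cons]
    have := h2 V z μ
    linarith

theorem bdd {p : Par} {C : ℝ} (h2 : P_U2 E p C) (h0 : P_J0 E p) (μ : Multiset E) :
    BddAbove (Set.range fun V : Flag E => J p V μ) := by
  refine ⟨(μ.map fun z => C * Real.sqrt (Module.finrank ℝ E) * ‖z‖).sum, ?_⟩
  rintro _ ⟨V, rfl⟩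
  exact J_le h2 h0 V μ

theorem J_le_Ut {p : Par} {C : ℝ} (h2 : P_U2 E p C) (h0 : P_J0 E p) (V : Flag E)
    (μ : Multiset E) : J p V μ ≤ Ut p μ :=
  le_csSup (bdd h2 h0 μ) ⟨V, rfl⟩

theorem Ut_le {p : Par} {μ : Multiset E} {B : ℝ} (h : ∀ V : Flag E, J p V μ ≤ B) : Ut p μ ≤ B := by
  refine csSup_le ⟨_, ⟨bot, rfl⟩⟩ ?_
  rintro _ ⟨V, rfl⟩
  exact h V

theorem Ut_nonneg {p : Par} {C : ℝ} (h2 : P_U2 E p C) (h0 : P_J0 E p) (μ : Multiset E) :
    0 ≤ Ut p μ := by
  have := J_le_Ut h2 h0 (bot : Flag E) μ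
  rwa [J_bot] at this

theorem J_mono {p : Par} (h1 : P_D_mono E p) (V : Flag E) (s : Multiset (E × E)) :
    J p V (s.map fun q => q.1 + q.2) ≤ J p V (s.map Prod.fst + s.map Prod.snd) := by
  unfold J
  refine Finset.sum_le_sum fun i _ => ?_
  have := h1 V i s
  linarith

theorem Ut_mono {p : Par} {C : ℝ} (h2 : P_U2 E p C) (h0 : P_J0 E p) (h1 : P_D_mono E p)
    (s : Multiset (E × E)) :
    Ut p (s.map fun q => q.1 + q.2) ≤ Ut p (s.map Prod.fst + s.map Prod.snd) :=
  Ut_le fun V => (J_mono h1 V s).trans (J_le_Ut h2 h0 V _)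

theorem Ut_cons {p : Par} {C : ℝ} (h2 : P_U2 E p C) (h0 : P_J0 E p) (z : E) (μ : Multiset E) :
    Ut p (z ::ₘ μ) ≤ Ut p μ + C * Real.sqrt (Module.finrank ℝ E) * ‖z‖ :=
  Ut_le fun V => (h2 V z μ).trans (by linarith [J_le_Ut h2 h0 V μ])

end gen

/-- the grid with basis `2^k`, ratio `2^m` -/
noncomputable def gp (rho kap : ℝ) (m k : ℕ) : Par := ⟨rho, kap, 2 ^ m, 2 ^ k⟩

theorem gp_lam (rho kap : ℝ) (m k i : ℕ) : (gp rho kap m k).lam i = 2 ^ (k + m * i) := by
  unfold Par.lam gp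
  rw [pow_add, pow_mul]

/-- every real `≥ 1` is in a dyadic interval -/
theorem exists_dyadic {x : ℝ} (hx : 1 ≤ x) : ∃ q : ℕ, x ≤ 2 ^ q ∧ (2 : ℝ) ^ q ≤ 2 * x := by
  obtain ⟨n, h1, h2⟩ := exists_nat_pow_near hx (by norm_num : (1 : ℝ) < 2)
  exact ⟨n + 1, h2.le, by rw [pow_succ]; linarith⟩

/-- the level in one of the `m` grids -/
theorem exists_grid {m : ℕ} (hm : 0 < m) (rho kap : ℝ) {x : ℝ} (hx : 1 ≤ x) :
    ∃ k I : ℕ, k < m ∧ x ≤ (gp rho kap m k).lam I ∧ (gp rho kap m k).lam I ≤ 2 * x := by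
  obtain ⟨q, h1, h2⟩ := exists_dyadic hx
  refine ⟨q % m, q / m, Nat.mod_lt _ hm, ?_, ?_⟩ <;>
  · rw [gp_lam, Nat.mod_add_div]
    assumption

/-- the functional -/
noncomputable def UU (rho kap : ℝ) (m d : ℕ) (μ : Multiset (EuclideanSpace ℝ (Fin d))) : ℝ :=
  ∑ k ∈ Finset.range m, Ut (gp rho kap m k) μ

/-- **final step of the one-step line** -/
theorem S0370_of_U3g {rho kap C1 eta c : ℝ} {m : ℕ} (hm : 0 < m) (hC1 : 0 < C1) (heta : 0 < eta)
    (hc : 0 < c) (hU2 : Target_U2) (hok : ∀ k < m, (gp rho kap m k).Ok)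
    (hU3 : ∀ k < m, ∀ d : ℕ, P_U3g (EuclideanSpace ℝ (Fin d)) (gp rho kap m k) C1 eta c) :
    ∃ C : ℝ, ∀ (d N : ℕ) (v : Fin N → EuclideanSpace ℝ (Fin d)),
      (∀ i, ‖v i‖ ≤ 1) →
      ∃ ε : Fin N → ℤ, (∀ i, ε i = 1 ∨ ε i = -1) ∧
        ∀ k : ℕ, k ≤ N →
          ‖∑ i ∈ Finset.univ.filter (fun i : Fin N => (i : ℕ) < k), (ε i : ℝ) • v i‖
            ≤ C * Real.sqrt d := by
  choose! CC hCC0 hCC using fun (k : ℕ) (hk : k < m) => hU2 _ (hok k hk)
  refine L0.S0370_of_U (∑ k ∈ Finset.range m, CC k) c (c / (C1 * eta)) hc (UU rho kap m) ?_ ?_ ?_ ?_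
  · intro d μ
    refine Finset.sum_nonneg fun k hk => ?_
    have hk := Finset.mem_range.1 hk
    exact Ut_nonneg (hCC k hk d).1 (hCC k hk d).2.1 μ
  · intro d s
    refine Finset.sum_le_sum fun k hk => ?_
    have hk := Finset.mem_range.1 hk
    exact Ut_mono (hCC k hk d).1 (hCC k hk d).2.1 (hCC k hk d).2.2 s
  · intro d z μ
    unfold UU
    rw [Finset.sum_mul, Finset.sum_mul, ← Finset.sum_add_distrib]
    refine Finset.sum_le_sum fun k hk => ?_
    have hk := Finset.mem_range.1 hk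
    have := Ut_cons (hCC k hk d).1 (hCC k hk d).2.1 z μ
    rwa [finrank_euclideanSpace, Fintype.card_fin] at this
  · intro d v s hv
    have hSn : ∀ μ : Multiset (EuclideanSpace ℝ (Fin d)), 0 ≤ L0.S μ v := fun μ => L0.S_nonneg μ v
    have hs := hSn (L0.mrg s)
    have hs' := hSn (L0.spl s)
    have hmono : ∀ k < m, Ut (gp rho kap m k) (L0.mrg s) ≤ Ut (gp rho kap m k) (L0.spl s) :=
      fun k hk => Ut_mono (hCC k hk d).1 (hCC k hk d).2.1 (hCC k hk d).2.2 s
    have hall : UU rho kap m d (L0.mrg s) ≤ UU rho kap m d (L0.spl s) :=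
      Finset.sum_le_sum fun k hk => hmono k (Finset.mem_range.1 hk)
    have hdl : 0 ≤ c / (C1 * eta) := by positivity
    rcases le_or_gt (L0.S (L0.spl s) v) (2 * L0.S (L0.mrg s) v) with h1 | h1
    · have : c * (L0.S (L0.spl s) v - 2 * L0.S (L0.mrg s) v) ≤ 0 :=
        mul_nonpos_of_nonneg_of_nonpos hc.le (by linarith)
      linarith
    · rcases le_or_gt 1 (C1 * eta * L0.S (L0.spl s) v) with h2 | h2
      · obtain ⟨k, I, hk, hI1, hI2⟩ := exists_grid hm rho kap h2
        have h3 := hU3 k hk d I v s hv h1 hI1 (by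
          refine hI2.trans (le_of_eq ?_)
          change 2 * (C1 * eta * L0.S (L0.spl s) v) = 2 * C1 * eta * L0.S (L0.spl s) v
          ring)
        have h4 : UU rho kap m d (L0.mrg s) + c * L0.S (L0.spl s) v
            ≤ UU rho kap m d (L0.spl s) := by
          unfold UU
          rw [← Finset.add_sum_erase _ _ (Finset.mem_range.2 hk),
            ← Finset.add_sum_erase (a := k) (Finset.range m)
              (fun k => Ut (gp rho kap m k) (L0.spl s)) (Finset.mem_range.2 hk)]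
          have h5 : ∑ k ∈ (Finset.range m).erase k, Ut (gp rho kap m k) (L0.mrg s)
              ≤ ∑ k ∈ (Finset.range m).erase k, Ut (gp rho kap m k) (L0.spl s) :=
            Finset.sum_le_sum fun j hj =>
              hmono j (Finset.mem_range.1 (Finset.mem_of_mem_erase hj))
          have h3' : Ut (gp rho kap m k) (L0.mrg s) + c * L0.S (L0.spl s) v
              ≤ Ut (gp rho kap m k) (L0.spl s) := h3
          linarith
        have h6 : c * (L0.S (L0.spl s) v - 2 * L0.S (L0.mrg s) v) ≤ c * L0.S (L0.spl s) v :=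
          mul_le_mul_of_nonneg_left (by linarith) hc.le
        linarith
      · have h3 : L0.S (L0.spl s) v ≤ 1 / (C1 * eta) := by
          rw [le_div_iff₀ (by positivity)]
          linarith
        have h4 : c * (L0.S (L0.spl s) v - 2 * L0.S (L0.mrg s) v) ≤ c * (1 / (C1 * eta)) :=
          mul_le_mul_of_nonneg_left (by linarith) hc.le
        have h5 : c * (1 / (C1 * eta)) = c / (C1 * eta) := by ring
        linarith

end Crest.Agent.R239.One394
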