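import Crest.Agent.R239.OneFin_394

/-! R239 / S0370, one-step line: growth at a flag `W` in which `v` is an independent standard
coordinate of the level `I` (`v ∈ W.M I`, `v ⟂ W.M (I+1)`), from `P_GROWTH` (helper394). -/

set_option autoImplicit false
open MeasureTheory ProbabilityTheory
open scoped RealInnerProductSpace

namespace Crest.Agent.R239.One394

open Crest.Agent.R239.FD

variable {E : Type*} [NormedAddCommGroup E] [InnerProductSpace ℝ E] [FiniteDimensional ℝ E]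

section alg

variable {W : Flag E} {I : ℕ} {v : E}

theorem P_self (h1 : v ∈ W.M I) : W.P I v = v :=
  Submodule.starProjection_eq_self_iff.2 h1

theorem P_gt (h2 : v ∈ (W.M (I + 1))ᗮ) {j : ℕ} (hj : I < j) : W.P j v = 0 := by
  have h3 : v ∈ (W.M j)ᗮ := Submodule.orthogonal_le (W.anti (Nat.succ_le_of_lt hj)) h2
  exact (Submodule.starProjection_apply_eq_zero_iff _).2 h3

theorem Q_self (h1 : v ∈ W.M I) (h2 : v ∈ (W.M (I + 1))ᗮ) : W.Q I v = v := by
  change W.P I v - W.P (I + 1) v = v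
  rw [P_self h1, P_gt h2 (Nat.lt_succ_self I), sub_zero]

theorem Q_gt (h2 : v ∈ (W.M (I + 1))ᗮ) {j : ℕ} (hj : I < j) : W.Q j v = 0 := by
  change W.P j v - W.P (j + 1) v = 0
  rw [P_gt h2 hj, P_gt h2 (hj.trans (Nat.lt_succ_self j)), sub_zero]

theorem Hi_self (hI : I < W.n) (h1 : v ∈ W.M I) (h2 : v ∈ (W.M (I + 1))ᗮ) : W.Hi I v = v := by
  unfold Flag.Hi
  rw [ContinuousLinearMap.sum_apply, Finset.sum_eq_single_of_mem I (Finset.mem_Ico.2 ⟨le_rfl, hI⟩)]
  · rw [ContinuousLinearMap.smul_apply, Q_self h1 h2, Nat.sub_self, pow_zero, one_smul]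
  · intro j hj hne
    have hj' : I < j := lt_of_le_of_ne (Finset.mem_Ico.1 hj).1 (Ne.symm hne)
    rw [ContinuousLinearMap.smul_apply, Q_gt h2 hj', smul_zero]

theorem N_self (hI : I < W.n) (h1 : v ∈ W.M I) (h2 : v ∈ (W.M (I + 1))ᗮ) :
    W.N I v = ‖v‖ ^ 2 := by
  unfold Flag.N
  rw [Finset.sum_eq_single_of_mem I (Finset.mem_Ico.2 ⟨le_rfl, hI⟩)]
  · rw [Q_self h1 h2, Nat.sub_self, pow_zero, one_mul]
  · intro j hj hne
    have hj' : I < j := lt_of_le_of_ne (Finset.mem_Ico.1 hj).1 (Ne.symm hne)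
    rw [Q_gt h2 hj', norm_zero]
    ring

/-- a nonzero vector of `M I` with no component in `M (I+1)` is not zero flag -/
theorem lt_n (hv : ‖v‖ = 1) (h1 : v ∈ W.M I) : I < W.n := by
  by_contra h
  have h3 := W.bot I (not_lt.1 h)
  rw [h3, Submodule.mem_bot] at h1
  rw [h1, norm_zero] at hv
  exact one_ne_zero hv.symm

/-- `1 ≤ rr I` -/
theorem one_le_rr (hv : ‖v‖ = 1) (h1 : v ∈ W.M I) (h2 : v ∈ (W.M (I + 1))ᗮ) : 1 ≤ W.rr I := by
  have hI := lt_n hv h1
  have hk : 1 ≤ W.k I := by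
    unfold Flag.k
    have hlt : W.M (I + 1) < W.M I := by
      refine lt_of_le_of_ne (W.anti (Nat.le_succ I)) ?_
      intro he
      rw [he] at h2
      have h3 := (Submodule.mem_orthogonal _ _).1 h2 v h1
      rw [real_inner_self_eq_norm_sq, hv] at h3
      norm_num at h3
    have := Submodule.finrank_lt_finrank_of_lt hlt
    omega
  unfold Flag.rr
  have hnn : ∀ j ∈ Finset.Ico I W.n, 0 ≤ th ^ (j - I) * (W.k j : ℝ) := by
    intro j _
    have : (0 : ℝ) ≤ th := by unfold th; norm_num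
    positivity
  refine le_trans ?_ (Finset.single_le_sum hnn (Finset.mem_Ico.2 ⟨le_rfl, hI⟩))
  rw [Nat.sub_self, pow_zero, one_mul]
  exact_mod_cast hk

end alg

variable [MeasurableSpace E] [BorelSpace E]

/-- growth of `D` at the level `I` of `W` for a two-sided letter -/
theorem D_grow {p : Par} {C1 C3 C4 eta eta0 : ℝ} (hG : P_GROWTH E p C1 C3 C4 eta) (hC1 : 1 ≤ C1)
    (hC3 : 1 ≤ C3) (hC4 : 1 ≤ C4) (heta0 : 0 < eta0) (heta : 2 * eta0 ≤ eta)
    {W : Flag E} {I : ℕ} {v : E} (hv : ‖v‖ = 1) (h1 : v ∈ W.M I) (h2 : v ∈ (W.M (I + 1))ᗮ)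
    (s : Multiset (E × E))
    (hS : 2 * S (s.map fun q => q.1 + q.2) v < S (s.map Prod.fst + s.map Prod.snd) v)
    (hlo : C1 * eta0 * S (s.map Prod.fst + s.map Prod.snd) v ≤ p.lam I)
    (hhi : p.lam I ≤ 2 * C1 * eta0 * S (s.map Prod.fst + s.map Prod.snd) v) :
    D p W I (s.map fun q => q.1 + q.2) + (2 / 5) * eta0 * S (s.map Prod.fst + s.map Prod.snd) v
      ≤ D p W I (s.map Prod.fst + s.map Prod.snd) := by
  have hI := lt_n hv h1
  have hS0 : 0 ≤ S (s.map fun q => q.1 + q.2) v := by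
    unfold S
    refine Multiset.sum_nonneg fun x hx => ?_
    obtain ⟨z, _, rfl⟩ := Multiset.mem_map.1 hx
    exact abs_nonneg _
  set S' := S (s.map Prod.fst + s.map Prod.snd) v with hS'
  have hSp : 0 < S' := by linarith
  have hC1p : 0 < C1 := by linarith
  have hlam : 0 < p.lam I := lt_of_lt_of_le (by positivity) hlo
  have hth : th ^ 2 ≤ W.rr I := by
    have h3 := one_le_rr hv h1 h2
    have h4 : th ^ 2 ≤ 1 := by unfold th; norm_num
    linarith
  have key := hG W I v s (p.lam I / (C1 * S')) hv h1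
    (by rw [Hi_self hI h1 h2, hv]; linarith) (by rw [N_self hI h1 h2, hv]; linarith) hth hS
    (by positivity)
    (by
      rw [div_le_iff₀ (by positivity)]
      refine hhi.trans ?_
      nlinarith [mul_pos hC1p hSp])
    (by
      rw [← hS']
      field_simp)
  clear_value S'
  have h3 : (2 / 5) * eta0 * S' ≤ 2 / 5 * (p.lam I / C1) := by
    have h4 : eta0 * S' ≤ p.lam I / C1 := by
      rw [le_div_iff₀ hC1p]
      nlinarith
    linarith
  linarith

/-- growth of `J` at `W` -/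
theorem J_grow {p : Par} {C1 C3 C4 eta eta0 : ℝ} (hD : P_D_mono E p)
    (hG : P_GROWTH E p C1 C3 C4 eta) (hC1 : 1 ≤ C1)
    (hC3 : 1 ≤ C3) (hC4 : 1 ≤ C4) (heta0 : 0 < eta0) (heta : 2 * eta0 ≤ eta)
    {W : Flag E} {I : ℕ} {v : E} (hv : ‖v‖ = 1) (h1 : v ∈ W.M I) (h2 : v ∈ (W.M (I + 1))ᗮ)
    (s : Multiset (E × E))
    (hS : 2 * S (s.map fun q => q.1 + q.2) v < S (s.map Prod.fst + s.map Prod.snd) v)
    (hlo : C1 * eta0 * S (s.map Prod.fst + s.map Prod.snd) v ≤ p.lam I)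
    (hhi : p.lam I ≤ 2 * C1 * eta0 * S (s.map Prod.fst + s.map Prod.snd) v) :
    J p W (s.map fun q => q.1 + q.2) + (2 / 5) * eta0 * S (s.map Prod.fst + s.map Prod.snd) v
      ≤ J p W (s.map Prod.fst + s.map Prod.snd) := by
  have hI := lt_n hv h1
  have key := D_grow hG hC1 hC3 hC4 heta0 heta hv h1 h2 s hS hlo hhi
  unfold J
  rw [← Finset.add_sum_erase _ _ (Finset.mem_range.2 hI),
    ← Finset.add_sum_erase (a := I) (Finset.range W.n)
      (fun i => D p W i (s.map Prod.fst + s.map Prod.snd) - p.kap * p.lam i * W.k i)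
      (Finset.mem_range.2 hI)]
  have h5 : ∑ i ∈ (Finset.range W.n).erase I,
        (D p W i (s.map fun q => q.1 + q.2) - p.kap * p.lam i * W.k i)
      ≤ ∑ i ∈ (Finset.range W.n).erase I,
        (D p W i (s.map Prod.fst + s.map Prod.snd) - p.kap * p.lam i * W.k i) :=
    Finset.sum_le_sum fun j _ => by
      have := hD W j s
      linarith
  linarith

/-- `Ut` of the split population is at least `J` of `W` before the splitting plus the growth -/
theorem Ut_grow {p : Par} {C1 C3 C4 eta eta0 C : ℝ} (hU2 : P_U2 E p C) (hJ0 : P_J0 E p)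
    (hD : P_D_mono E p) (hG : P_GROWTH E p C1 C3 C4 eta) (hC1 : 1 ≤ C1)
    (hC3 : 1 ≤ C3) (hC4 : 1 ≤ C4) (heta0 : 0 < eta0) (heta : 2 * eta0 ≤ eta)
    {W : Flag E} {I : ℕ} {v : E} (hv : ‖v‖ = 1) (h1 : v ∈ W.M I) (h2 : v ∈ (W.M (I + 1))ᗮ)
    (s : Multiset (E × E))
    (hS : 2 * S (s.map fun q => q.1 + q.2) v < S (s.map Prod.fst + s.map Prod.snd) v)
    (hlo : C1 * eta0 * S (s.map Prod.fst + s.map Prod.snd) v ≤ p.lam I)
    (hhi : p.lam I ≤ 2 * C1 * eta0 * S (s.map Prod.fst + s.map Prod.snd) v) :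
    J p W (s.map fun q => q.1 + q.2) + (2 / 5) * eta0 * S (s.map Prod.fst + s.map Prod.snd) v
      ≤ Ut p (s.map Prod.fst + s.map Prod.snd) :=
  (J_grow hD hG hC1 hC3 hC4 heta0 heta hv h1 h2 s hS hlo hhi).trans (J_le_Ut hU2 hJ0 W _)

/-- near-maximisers exist -/
theorem exists_nearMax {p : Par} {C : ℝ} (hU2 : P_U2 E p C) (hJ0 : P_J0 E p) (μ : Multiset E)
    {e : ℝ} (he : 0 < e) : ∃ V : Flag E, Ut p μ < J p V μ + e ∧ NearMax p V μ e := by
  have h1 : Ut p μ - e < Ut p μ := by linarith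
  obtain ⟨_, ⟨V, rfl⟩, hV⟩ := exists_lt_of_lt_csSup
    (s := Set.range fun V : Flag E => J p V μ) ⟨_, ⟨bot, rfl⟩⟩ h1
  have hV' : Ut p μ - e < J p V μ := hV
  refine ⟨V, by linarith, fun V' => ?_⟩
  have := J_le_Ut hU2 hJ0 V' μ
  linarith

/-- **assembly**: the comparison of a near-maximiser `V` with some flag `W` in which `v` is an
independent coordinate of level `I` gives the two-sided growth `P_U3g` -/
theorem U3g_of_cmp {p : Par} {C1 C3 C4 eta eta0 C sm e0 : ℝ} (hU2 : P_U2 E p C) (hJ0 : P_J0 E p)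
    (hD : P_D_mono E p) (hG : P_GROWTH E p C1 C3 C4 eta) (hC1 : 1 ≤ C1)
    (hC3 : 1 ≤ C3) (hC4 : 1 ≤ C4) (heta0 : 0 < eta0) (heta : 2 * eta0 ≤ eta)
    (hsm : sm * (20 * C1) ≤ 1) (he0 : 0 < e0)
    (hcmp : ∀ (V : Flag E) (μ : Multiset E) (I : ℕ) (v : E), ‖v‖ = 1 →
      2 * C1 * eta0 * S μ v ≤ p.lam I → NearMax p V μ e0 →
      ∃ W : Flag E, v ∈ W.M I ∧ v ∈ (W.M (I + 1))ᗮ ∧ J p V μ - sm * p.lam I ≤ J p W μ) :
    P_U3g E p C1 eta0 ((3 / 10) * eta0) := by
  intro I v s hv hS hlo hhi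
  have hC1p : 0 < C1 := by linarith
  have hS0 : 0 ≤ S (s.map fun q => q.1 + q.2) v := by
    unfold S
    refine Multiset.sum_nonneg fun x hx => ?_
    obtain ⟨z, _, rfl⟩ := Multiset.mem_map.1 hx
    exact abs_nonneg _
  have hSp : 0 < S (s.map Prod.fst + s.map Prod.snd) v := by linarith
  have hlam : 0 < p.lam I := lt_of_lt_of_le (by positivity) hlo
  refine le_of_forall_pos_le_add fun e he => ?_
  obtain ⟨V, hV1, hV2⟩ := exists_nearMax hU2 hJ0 (s.map fun q => q.1 + q.2) (lt_min he he0)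
  have hV3 : NearMax p V (s.map fun q => q.1 + q.2) e0 := fun V' =>
    (hV2 V').trans (by linarith [min_le_right e e0])
  obtain ⟨W, hW1, hW2, hW3⟩ := hcmp V _ I v hv (by
    have : 2 * C1 * eta0 * S (s.map fun q => q.1 + q.2) v
        ≤ C1 * eta0 * S (s.map Prod.fst + s.map Prod.snd) v := by
      have h4 : C1 * eta0 * (2 * S (s.map fun q => q.1 + q.2) v)
          ≤ C1 * eta0 * S (s.map Prod.fst + s.map Prod.snd) v :=
        mul_le_mul_of_nonneg_left hS.le (by positivity)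
      linarith
    exact this.trans hlo) hV3
  have h5 := Ut_grow hU2 hJ0 hD hG hC1 hC3 hC4 heta0 heta hv hW1 hW2 s hS hlo hhi
  have h6 : sm * p.lam I ≤ (1 / 10) * eta0 * S (s.map Prod.fst + s.map Prod.snd) v := by
    rcases le_or_gt sm 0 with h | h
    · have h7 : sm * p.lam I ≤ 0 := mul_nonpos_of_nonpos_of_nonneg h hlam.le
      have h8 : 0 < (1 / 10) * eta0 * S (s.map Prod.fst + s.map Prod.snd) v := by positivity
      linarith
    · have h7 : sm * p.lam I ≤ sm * (2 * C1 * eta0 * S (s.map Prod.fst + s.map Prod.snd) v) :=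
        mul_le_mul_of_nonneg_left hhi h.le
      have h8 : sm * (20 * C1) * (eta0 * S (s.map Prod.fst + s.map Prod.snd) v)
          ≤ 1 * (eta0 * S (s.map Prod.fst + s.map Prod.snd) v) :=
        mul_le_mul_of_nonneg_right hsm (by positivity)
      nlinarith
  have h9 := min_le_left e e0
  linarith

end Crest.Agent.R239.One394
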