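import Crest.Agent.R239.FDef
import Crest.Agent.R239.One1_142
import Crest.Agent.R239.F5_336
import Crest.Agent.R239.PRot_711

/-! R239 (helper592), one-step line: linear algebra of the levels `i > I` of the one-step flag `W`
(`W.M j = P M_j`, `P = 1 - v vᵀ`).  `hN` : quadratic form inequality with the gain `¼ ⟪Q_i v, g⟫²`
and trace `≤ 2 BB`; `hcap` : `(1 - h) N_i(x) ≤ N^W_i(P x)`, `h = 2 b_i + BB`; `rr_le`. -/

set_option autoImplicit false
set_option linter.unusedSectionVars false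
open MeasureTheory ProbabilityTheory Finset
open scoped RealInnerProductSpace

namespace Crest.Agent.R239.OneHi592

open Crest.Agent.R239 Crest.Agent.R239.FD Crest.Agent.R239.One142

variable {E : Type*} [NormedAddCommGroup E] [InnerProductSpace ℝ E] [FiniteDimensional ℝ E]
  [MeasurableSpace E] [BorelSpace E]

/-- what is used of `IsOne` at the levels `> I` -/
structure Up (V W : Flag E) (v : E) (I : ℕ) : Prop where
  n_eq : W.n = V.n
  M_eq : ∀ j, I < j → W.M j = (V.M j).map (Ts v 1).toLinearMap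

variable {V W : Flag E} {v : E} {I : ℕ}

lemma Up.norm_P (h : Up V W v I) (hv : ‖v‖ = 1) {j : ℕ} (hj : I < j) (x : E) :
    ‖W.P j (Ts v 1 x)‖ ^ 2 = ‖V.P j x‖ ^ 2 + nn (V.M j) v x - ⟪v, x⟫ ^ 2 := by
  show ‖(W.M j).starProjection (Ts v 1 x)‖ ^ 2 = _
  simp only [h.M_eq j hj]
  rw [proj_map_Ts _ hv x]
  exact norm_proj_map _ hv x

lemma Up.mem (h : Up V W v I) {j : ℕ} (hj : I < j) {x : E} (hx : x ∈ V.M j) :
    Ts v 1 x ∈ W.M j := by
  rw [h.M_eq j hj]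
  exact Submodule.mem_map_of_mem hx

/-- geometric sum -/
lemma sum_half_le (i n : ℕ) : ∑ j ∈ Ico (i + 1) n, (1 / 2 : ℝ) ^ (j - i) ≤ 1 := by
  have key : ∀ m, ∑ j ∈ Ico (i + 1) (i + 1 + m), (1 / 2 : ℝ) ^ (j - i) = 1 - (1 / 2) ^ m := by
    intro m
    induction m with
    | zero => simp
    | succ m ih =>
      rw [← add_assoc, sum_Ico_succ_top (by omega), ih]
      have : i + 1 + m - i = m + 1 := by omega
      rw [this, pow_succ]
      ring
  rcases le_or_gt n (i + 1) with h | h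
  · rw [Ico_eq_empty (by omega), sum_empty]; norm_num
  · obtain ⟨m, rfl⟩ : ∃ m, n = i + 1 + m := ⟨n - (i + 1), by omega⟩
    rw [key]
    have : (0 : ℝ) ≤ (1 / 2) ^ m := by positivity
    linarith

lemma inner_P_eq (V : Flag E) {i : ℕ} {x : E} (hx : x ∈ V.M i) (v : E) :
    ⟪V.P i v, x⟫ = ⟪v, x⟫ := by
  rw [F5336.inner_P_comm, F5336.P_of_mem V hx]

lemma H_Q_eq (V : Flag E) {i : ℕ} (hi : i < V.n) (v : E) :
    V.H i v - V.Q i v = V.H i (V.P (i + 1) v) := by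
  have h1 : V.H i (V.P i v) = V.H i v := by
    rw [F5336.H_eq]; exact FlagAlg557.comb_P V.anti _ v
  have h2 : V.H i (V.Q i v) = V.Q i v := by
    have := FlagAlg557.comb_Q V.anti (i := i) (n := V.n) (j := i) (by simp [hi])
      (fun j => th ^ (j - i)) v
    rw [F5336.H_eq, F5336.Q_eq]
    simpa [FlagAlg557.H] using this
  have h3 : V.Q i v = V.P i v - V.P (i + 1) v := rfl
  have h4 : V.P (i + 1) v = V.P i v - V.Q i v := by rw [h3]; abel
  rw [h4, map_sub, h1, h2]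

lemma H_Q_self (V : Flag E) {i : ℕ} (hi : i < V.n) (v : E) :
    V.H i (V.Q i v) = V.Q i v := by
  have := FlagAlg557.comb_Q V.anti (i := i) (n := V.n) (j := i) (by simp [hi])
    (fun j => th ^ (j - i)) v
  rw [F5336.H_eq, F5336.Q_eq]
  simpa [FlagAlg557.H] using this

lemma norm_H_P_sq_le (V : Flag E) {i j : ℕ} (hij : i ≤ j) (hjn : j ≤ V.n) (v : E) :
    ‖V.H i (V.P j v)‖ ^ 2 ≤ (th ^ (j - i)) ^ 2 * V.b v j := by
  have h := FlagAlg557.norm_H_P_le V.anti F5336.th_pos (by norm_num [th]) hij hjn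
    (F5336.bot_n V) v
  have h1 : ‖V.H i (V.P j v)‖ ≤ th ^ (j - i) * ‖V.P j v‖ := h
  have h0 := F5336.th_pos
  calc ‖V.H i (V.P j v)‖ ^ 2 ≤ (th ^ (j - i) * ‖V.P j v‖) ^ 2 :=
        pow_le_pow_left₀ (norm_nonneg _) h1 2
    _ = _ := by rw [mul_pow]; rfl

lemma norm_H_sq_le (V : Flag E) (i : ℕ) (x : E) : ‖V.H i x‖ ^ 2 ≤ V.b x i := by
  have h := FlagAlg557.norm_H_le V.anti F5336.th_pos (by norm_num [th]) V.n i (F5336.bot_n V) x
  exact pow_le_pow_left₀ (norm_nonneg _) h 2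

lemma b_le_norm (V : Flag E) (i : ℕ) (x : E) : V.b x i ≤ ‖x‖ ^ 2 :=
  pow_le_pow_left₀ (norm_nonneg _) ((V.M i).norm_starProjection_apply_le x) 2

lemma norm_H_le_norm (V : Flag E) (i : ℕ) (x : E) : ‖V.H i x‖ ^ 2 ≤ ‖x‖ ^ 2 :=
  (norm_H_sq_le V i x).trans (b_le_norm V i x)

lemma BB_nonneg (V : Flag E) (v : E) (i : ℕ) : 0 ≤ BB V v i :=
  Finset.sum_nonneg fun j _ => mul_nonneg (by positivity) (F5336.b_nonneg V v j)

/-- young: `-2 ξ z ≤ e ξ² + z²/e` -/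
lemma young {e e' ξ z : ℝ} (he : 0 < e) (hee : e * e' = 1) :
    -(2 * ξ * z) ≤ e * ξ ^ 2 + e' * z ^ 2 := by
  have h : 0 ≤ e' * (e * ξ + z) ^ 2 := by
    have : 0 < e' := by
      by_contra hc
      nlinarith [not_lt.1 hc]
    positivity
  have h2 : e' * (e * ξ + z) ^ 2 = (e * e') * (e * ξ ^ 2 + 2 * ξ * z) + e' * z ^ 2 := by ring
  rw [h2, hee] at h
  linarith

/-- **(N)** the quadratic form inequality at the levels above `I` -/
theorem Up.form (h : Up V W v I) (hv : ‖v‖ = 1) {i : ℕ} (hI : I < i) (hi : i < V.n) :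
    ∃ (J : Finset (ℕ ⊕ (ℕ ⊕ Unit))) (u : ℕ ⊕ (ℕ ⊕ Unit) → E),
      (∀ g, ‖(W.Hi i ∘L Ts v 1 ∘L V.H i) g‖ ^ 2 + 1 / 4 * ⟪V.Q i v, g⟫ ^ 2
        ≤ ‖g‖ ^ 2 + ∑ k ∈ J, ⟪u k, g⟫ ^ 2) ∧
      ∑ k ∈ J, ‖u k‖ ^ 2 ≤ 2 * BB V v i := by
  set T := Ico (i + 1) V.n with hT
  set A : ℕ → ℝ := fun j => om (j - i) * (1 + (25 / 8 : ℝ) ^ (j - i)) with hA
  set B : ℕ → ℝ := fun j => om (j - i) * V.b v j with hB
  have hA0 : ∀ j, 0 ≤ A j := fun j => mul_nonneg (F5336.om_nonneg _) (by positivity)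
  have hB0 : ∀ j, 0 ≤ B j := fun j => mul_nonneg (F5336.om_nonneg _) (F5336.b_nonneg V v j)
  refine ⟨T.disjSum (T.disjSum {()}),
    Sum.elim (fun j => √(A j) • V.H i (V.P j v)) (Sum.elim (fun j => √(B j) • V.H i (nv (V.M j) v))
      (fun _ => √(1 / 2) • (V.H i v - V.Q i v))), ?_, ?_⟩
  · intro g
    rw [sum_disjSum, sum_disjSum]
    simp only [Sum.elim_inl, Sum.elim_inr, sum_singleton, inner_smul_left, conj_trivial, mul_pow]
    set x := V.H i g with hx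
    have hxM : x ∈ V.M i := F5336.H_mem V i g
    have e1 : ∀ y, ⟪V.H i y, g⟫ = ⟪y, x⟫ := fun y => F5336.inner_H_comm V i y g
    have hsq : ∀ j, √(A j) ^ 2 = A j := fun j => Real.sq_sqrt (hA0 j)
    have hsq' : ∀ j, √(B j) ^ 2 = B j := fun j => Real.sq_sqrt (hB0 j)
    simp only [e1, hsq, hsq', Real.sq_sqrt (show (0 : ℝ) ≤ 1 / 2 by norm_num)]
    set ξ := ⟪v, x⟫ with hξ
    have hq : ⟪V.H i v - V.Q i v, g⟫ = ξ - ⟪V.Q i v, g⟫ := by
      rw [inner_sub_left, e1]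
    rw [hq]
    set q := ⟪V.Q i v, g⟫
    have hR : ‖(W.Hi i ∘L Ts v 1 ∘L V.H i) g‖ ^ 2
        = ‖V.P i g‖ ^ 2 - ξ ^ 2 + ∑ j ∈ T, om (j - i) * (nn (V.M j) v x - ξ ^ 2) := by
      have h1 : (W.Hi i ∘L Ts v 1 ∘L V.H i) g = W.Hi i (Ts v 1 x) := rfl
      rw [h1, F5336.norm_Hi_sq W (by rw [h.n_eq]; exact hi), h.norm_P hv hI, h.n_eq]
      have h2 : ∀ j ∈ T, om (j - i) * ‖W.P j (Ts v 1 x)‖ ^ 2
          = om (j - i) * ‖V.P j x‖ ^ 2 + om (j - i) * (nn (V.M j) v x - ξ ^ 2) := by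
        intro j hj
        rw [h.norm_P hv (by have := mem_Ico.1 hj; omega)]
        ring
      rw [sum_congr rfl h2, sum_add_distrib, nn_eq_zero _ _ hxM]
      have h3 := F5336.norm_Hi_sq V hi x
      rw [hx, F5336.Hi_H V hi.le, ← hx] at h3
      linarith
    rw [hR]
    have hP : ‖V.P i g‖ ^ 2 ≤ ‖g‖ ^ 2 := b_le_norm V i g
    have hsum : ∑ j ∈ T, om (j - i) * (nn (V.M j) v x - ξ ^ 2)
        ≤ 9 / 25 * ξ ^ 2 + (∑ j ∈ T, A j * ⟪V.P j v, x⟫ ^ 2 + ∑ j ∈ T, B j * ⟪nv (V.M j) v, x⟫ ^ 2) := by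
      have h1 : ∀ j ∈ T, om (j - i) * (nn (V.M j) v x - ξ ^ 2)
          ≤ 9 / 25 * ξ ^ 2 * (1 / 2) ^ (j - i) + (A j * ⟪V.P j v, x⟫ ^ 2
            + B j * ⟪nv (V.M j) v, x⟫ ^ 2) := by
        intro j _
        have h2 := nn_sub_sq (V.M j) hv x
        have h3 : ‖(V.M j).starProjection v‖ ^ 2 = V.b v j := rfl
        have h4 : (V.M j).starProjection v = V.P j v := rfl
        rw [h3, h4, nn_eq _ hv] at h2
        rw [nn_eq _ hv, h2]
        have h5 := young (e := (8 / 25 : ℝ) ^ (j - i)) (e' := (25 / 8 : ℝ) ^ (j - i)) (ξ := ξ)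
          (z := ⟪V.P j v, x⟫) (by positivity) (by rw [← mul_pow]; norm_num)
        have h6 := mul_le_mul_of_nonneg_left h5 (F5336.om_nonneg (j - i))
        have h7 : om (j - i) * (8 / 25 : ℝ) ^ (j - i) = 9 / 25 * (1 / 2) ^ (j - i) := by
          rw [F5336.om_val, mul_comm ((25 / 16 : ℝ) ^ (j - i)), mul_assoc, ← mul_pow]
          norm_num
        have h8 : om (j - i) * ((8 / 25 : ℝ) ^ (j - i) * ξ ^ 2 + (25 / 8 : ℝ) ^ (j - i)
            * ⟪V.P j v, x⟫ ^ 2) = (om (j - i) * (8 / 25 : ℝ) ^ (j - i)) * ξ ^ 2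
              + om (j - i) * (25 / 8 : ℝ) ^ (j - i) * ⟪V.P j v, x⟫ ^ 2 := by ring
        rw [h8, h7] at h6
        simp only [hA, hB]
        nlinarith [h6]
      refine (sum_le_sum h1).trans ?_
      rw [sum_add_distrib, sum_add_distrib, ← mul_sum]
      have h9 := sum_half_le i V.n
      have h10 : 9 / 25 * ξ ^ 2 * ∑ j ∈ T, (1 / 2 : ℝ) ^ (j - i) ≤ 9 / 25 * ξ ^ 2 * 1 :=
        mul_le_mul_of_nonneg_left h9 (by positivity)
      linarith
    nlinarith [sq_nonneg (2 * ξ - q), sq_nonneg ξ]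
  · rw [sum_disjSum, sum_disjSum]
    simp only [Sum.elim_inl, Sum.elim_inr, sum_singleton, norm_smul, mul_pow, Real.norm_eq_abs,
      sq_abs]
    have hsq : ∀ j, √(A j) ^ 2 = A j := fun j => Real.sq_sqrt (hA0 j)
    have hsq' : ∀ j, √(B j) ^ 2 = B j := fun j => Real.sq_sqrt (hB0 j)
    simp only [hsq, hsq', Real.sq_sqrt (show (0 : ℝ) ≤ 1 / 2 by norm_num)]
    have h1 : ∑ j ∈ T, A j * ‖V.H i (V.P j v)‖ ^ 2 ≤ 18 / 25 * BB V v i := by
      unfold BB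
      rw [mul_sum]
      refine sum_le_sum fun j hj => ?_
      have hjj := mem_Ico.1 hj
      have h2 := norm_H_P_sq_le V (i := i) (j := j) (by omega) hjj.2.le v
      have h3 := mul_le_mul_of_nonneg_left h2 (hA0 j)
      have h4 : A j * ((th ^ (j - i)) ^ 2 * V.b v j)
          = 9 / 25 * (1 + (25 / 8 : ℝ) ^ (j - i)) * V.b v j := by
        have h5 : om (j - i) * (th ^ (j - i)) ^ 2 = 9 / 25 := by
          rw [F5336.om_val, th, ← pow_mul, mul_comm (j - i) 2, pow_mul,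
            mul_comm ((25 / 16 : ℝ) ^ (j - i)), mul_assoc, ← mul_pow]
          norm_num
        calc A j * ((th ^ (j - i)) ^ 2 * V.b v j)
            = (om (j - i) * (th ^ (j - i)) ^ 2) * (1 + (25 / 8 : ℝ) ^ (j - i)) * V.b v j := by
              simp only [hA]; ring
          _ = _ := by rw [h5]
      rw [h4] at h3
      have h6 : (1 : ℝ) ≤ (25 / 8 : ℝ) ^ (j - i) := one_le_pow₀ (by norm_num)
      have h7 := F5336.b_nonneg V v j
      nlinarith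
    have h2 : ∑ j ∈ T, B j * ‖V.H i (nv (V.M j) v)‖ ^ 2 ≤ 9 / 25 * BB V v i := by
      unfold BB
      rw [mul_sum]
      refine sum_le_sum fun j hj => ?_
      have h2 : ‖V.H i (nv (V.M j) v)‖ ^ 2 ≤ 1 :=
        (norm_H_le_norm V i _).trans (norm_nv_le _ hv)
      have h3 := mul_le_mul_of_nonneg_left h2 (hB0 j)
      have h5 : (25 / 16 : ℝ) ^ (j - i) ≤ (25 / 8 : ℝ) ^ (j - i) :=
        pow_le_pow_left₀ (by norm_num) (by norm_num) _
      have h7 := F5336.b_nonneg V v j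
      have h8 : B j = 9 / 25 * ((25 / 16 : ℝ) ^ (j - i) * V.b v j) := by
        simp only [hB, F5336.om_val]; ring
      rw [h8] at h3 ⊢
      nlinarith [mul_le_mul_of_nonneg_right h5 h7]
    have h3 : 1 / 2 * ‖V.H i v - V.Q i v‖ ^ 2 ≤ 1 / 2 * BB V v i := by
      rw [H_Q_eq V hi]
      have h4 := norm_H_P_sq_le V (i := i) (j := i + 1) (by omega) hi v
      have h5 : (th ^ (i + 1 - i)) ^ 2 = 16 / 25 := by
        rw [show i + 1 - i = 1 by omega]; norm_num [th]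
      rw [h5] at h4
      have h6 : V.b v (i + 1) ≤ BB V v i := by
        rcases Nat.lt_or_ge (i + 1) V.n with hlt | hge
        · unfold BB
          have h8 : (25 / 8 : ℝ) ^ (i + 1 - i) * V.b v (i + 1)
              ≤ ∑ j ∈ Ico (i + 1) V.n, (25 / 8 : ℝ) ^ (j - i) * V.b v j :=
            single_le_sum (f := fun j => (25 / 8 : ℝ) ^ (j - i) * V.b v j)
              (fun j _ => mul_nonneg (by positivity) (F5336.b_nonneg V v j))
              (mem_Ico.2 ⟨le_rfl, hlt⟩)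
          rw [show i + 1 - i = 1 by omega] at h8
          have h9 := F5336.b_nonneg V v (i + 1)
          linarith
        · have : V.b v (i + 1) = 0 := by
            unfold Flag.b
            rw [F5336.P_of_le V hge]; simp
          rw [this]; exact BB_nonneg V v i
      have h7 := F5336.b_nonneg V v (i + 1)
      linarith
    have h4 := BB_nonneg V v i
    linarith

/-! ### the cap gauge -/

lemma norm_sq_le_N (V : Flag E) {i : ℕ} (hi : i < V.n) {x : E} (hx : x ∈ V.M i) :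
    ‖x‖ ^ 2 ≤ V.N i x := by
  rw [PRot711.N_eq V hi, F5336.P_of_mem V hx]
  have : 0 ≤ ∑ j ∈ Ico (i + 1) V.n, omN (j - i) * ‖V.P j x‖ ^ 2 :=
    sum_nonneg fun j _ => mul_nonneg (PRot711.omN_pos _).le (sq_nonneg _)
  linarith

lemma omN_val (m : ℕ) : omN m = (5 / 4 : ℝ) ^ m * (1 / 5) := by
  unfold omN th; norm_num

/-- **(cap)** -/
theorem Up.cap (h : Up V W v I) (hv : ‖v‖ = 1) {i : ℕ} (hI : I < i) (hi : i < V.n) {x : E}
    (hx : x ∈ V.M i) :
    (1 - (2 * V.b v i + BB V v i)) * V.N i x ≤ W.N i (Ts v 1 x) := by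
  set T := Ico (i + 1) V.n with hT
  set ξ := ⟪v, x⟫ with hξ
  have hN0 := norm_sq_le_N V hi hx
  have hN1 : 0 ≤ V.N i x := (sq_nonneg _).trans hN0
  have hb0 := F5336.b_nonneg V v i
  have hξ2 : ξ ^ 2 ≤ V.b v i * V.N i x := by
    have h1 : ξ = ⟪V.P i v, x⟫ := (inner_P_eq V hx v).symm
    have h2 := abs_real_inner_le_norm (V.P i v) x
    rw [← h1] at h2
    calc ξ ^ 2 = |ξ| ^ 2 := (sq_abs _).symm
      _ ≤ (‖V.P i v‖ * ‖x‖) ^ 2 := pow_le_pow_left₀ (abs_nonneg _) h2 2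
      _ = V.b v i * ‖x‖ ^ 2 := by rw [mul_pow]; rfl
      _ ≤ _ := mul_le_mul_of_nonneg_left hN0 hb0
  have hW : W.N i (Ts v 1 x)
      = V.N i x - ξ ^ 2 + ∑ j ∈ T, omN (j - i) * (nn (V.M j) v x - ξ ^ 2) := by
    rw [PRot711.N_eq W (by rw [h.n_eq]; exact hi), h.norm_P hv hI, h.n_eq, PRot711.N_eq V hi]
    have h2 : ∀ j ∈ T, omN (j - i) * ‖W.P j (Ts v 1 x)‖ ^ 2
        = omN (j - i) * ‖V.P j x‖ ^ 2 + omN (j - i) * (nn (V.M j) v x - ξ ^ 2) := by
      intro j hj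
      rw [h.norm_P hv (by have := mem_Ico.1 hj; omega)]
      ring
    rw [sum_congr rfl h2, sum_add_distrib, nn_eq_zero _ _ hx]
    ring
  have hsum : -(1 / 5 * ξ ^ 2 + 1 / 5 * BB V v i * V.N i x)
      ≤ ∑ j ∈ T, omN (j - i) * (nn (V.M j) v x - ξ ^ 2) := by
    have h1 : ∀ j ∈ T, -(1 / 5 * ξ ^ 2 * (1 / 2) ^ (j - i)
        + 1 / 5 * V.N i x * ((25 / 8 : ℝ) ^ (j - i) * V.b v j))
          ≤ omN (j - i) * (nn (V.M j) v x - ξ ^ 2) := by
      intro j _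
      have h2 := nn_sub_sq (V.M j) hv x
      have h3 : ‖(V.M j).starProjection v‖ ^ 2 = V.b v j := rfl
      have h4 : (V.M j).starProjection v = V.P j v := rfl
      rw [h3, h4] at h2
      rw [h2]
      have h5 := young (e := (2 / 5 : ℝ) ^ (j - i)) (e' := (5 / 2 : ℝ) ^ (j - i)) (ξ := ξ)
        (z := -⟪V.P j v, x⟫) (by positivity) (by rw [← mul_pow]; norm_num)
      have h6 : ⟪V.P j v, x⟫ ^ 2 ≤ V.b v j * V.N i x := by
        have h2 := abs_real_inner_le_norm (V.P j v) x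
        calc ⟪V.P j v, x⟫ ^ 2 = |⟪V.P j v, x⟫| ^ 2 := (sq_abs _).symm
          _ ≤ (‖V.P j v‖ * ‖x‖) ^ 2 := pow_le_pow_left₀ (abs_nonneg _) h2 2
          _ = V.b v j * ‖x‖ ^ 2 := by rw [mul_pow]; rfl
          _ ≤ _ := mul_le_mul_of_nonneg_left hN0 (F5336.b_nonneg V v j)
      have h7 := nn_nonneg (V.M j) hv x
      have h8 : 0 ≤ V.b v j * nn (V.M j) v x := mul_nonneg (F5336.b_nonneg V v j) h7
      have h9 : -((2 / 5 : ℝ) ^ (j - i) * ξ ^ 2 + (5 / 2 : ℝ) ^ (j - i) * (V.b v j * V.N i x))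
          ≤ -(2 * ξ * ⟪V.P j v, x⟫) + ⟪V.P j v, x⟫ ^ 2 + V.b v j * nn (V.M j) v x := by
        have h10 := mul_le_mul_of_nonneg_left h6 (show (0:ℝ) ≤ (5 / 2 : ℝ) ^ (j - i) by positivity)
        have h11 : (-⟪V.P j v, x⟫) ^ 2 = ⟪V.P j v, x⟫ ^ 2 := by ring
        rw [h11] at h5
        nlinarith [sq_nonneg ⟪V.P j v, x⟫]
      have h12 := mul_le_mul_of_nonneg_left h9 (PRot711.omN_pos (j - i)).le
      have e1 : omN (j - i) * (2 / 5 : ℝ) ^ (j - i) = 1 / 5 * (1 / 2) ^ (j - i) := by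
        rw [omN_val, mul_comm ((5 / 4 : ℝ) ^ (j - i)), mul_assoc, ← mul_pow]; norm_num
      have e2 : omN (j - i) * (5 / 2 : ℝ) ^ (j - i) = 1 / 5 * (25 / 8) ^ (j - i) := by
        rw [omN_val, mul_comm ((5 / 4 : ℝ) ^ (j - i)), mul_assoc, ← mul_pow]; norm_num
      refine le_trans (le_of_eq ?_) h12
      have : omN (j - i) * -((2 / 5 : ℝ) ^ (j - i) * ξ ^ 2 + (5 / 2 : ℝ) ^ (j - i)
          * (V.b v j * V.N i x)) = -((omN (j - i) * (2 / 5 : ℝ) ^ (j - i)) * ξ ^ 2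
            + (omN (j - i) * (5 / 2 : ℝ) ^ (j - i)) * (V.b v j * V.N i x)) := by ring
      rw [this, e1, e2]
      ring
    refine le_trans ?_ (sum_le_sum h1)
    rw [sum_neg_distrib, sum_add_distrib, ← mul_sum, ← mul_sum]
    have h9 := sum_half_le i V.n
    have h10 : 1 / 5 * ξ ^ 2 * ∑ j ∈ T, (1 / 2 : ℝ) ^ (j - i) ≤ 1 / 5 * ξ ^ 2 * 1 :=
      mul_le_mul_of_nonneg_left h9 (by positivity)
    have h11 : ∑ j ∈ T, (25 / 8 : ℝ) ^ (j - i) * V.b v j = BB V v i := rfl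
    rw [h11]
    linarith
  rw [hW]
  have h1 := mul_nonneg (BB_nonneg V v i) hN1
  nlinarith

/-! ### the radius -/

lemma k_cast (V : Flag E) (j : ℕ) :
    (V.k j : ℝ) = (Module.finrank ℝ (V.M j) : ℝ) - Module.finrank ℝ (V.M (j + 1)) := by
  unfold Flag.k
  rw [Nat.cast_sub (Submodule.finrank_mono (V.anti (Nat.le_succ j)))]

lemma Up.k_le (h : Up V W v I) {j : ℕ} (hj : I < j) : W.k j ≤ V.k j := by
  unfold Flag.k
  have h1 : V.M (j + 1) ≤ V.M j := V.anti (Nat.le_succ j)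
  have h2 := Submodule.finrank_add_inf_finrank_orthogonal h1
  have h3 := Submodule.sup_orthogonal_inf_of_hasOrthogonalProjection h1
  have h4 : W.M j = W.M (j + 1) ⊔ ((V.M (j + 1))ᗮ ⊓ V.M j).map (Ts v 1).toLinearMap := by
    rw [h.M_eq j hj, h.M_eq (j + 1) (by omega), ← Submodule.map_sup, h3]
  have h5 := Submodule.finrank_add_le_finrank_add_finrank (W.M (j + 1))
    (((V.M (j + 1))ᗮ ⊓ V.M j).map (Ts v 1).toLinearMap)
  have h6 := Submodule.finrank_map_le (Ts v 1).toLinearMap ((V.M (j + 1))ᗮ ⊓ V.M j)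
  rw [← h4] at h5
  omega

theorem Up.rr_le (h : Up V W v I) {i : ℕ} (hI : I < i) : W.rr i ≤ V.rr i := by
  unfold Flag.rr
  rw [h.n_eq]
  refine sum_le_sum fun j hj => ?_
  have h0 := F5336.th_pos
  refine mul_le_mul_of_nonneg_left ?_ (by positivity)
  exact_mod_cast h.k_le (by have := mem_Ico.1 hj; omega)

end Crest.Agent.R239.OneHi592
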