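import Mathlib
import Crest.Agent.R239.FDef
import Crest.Agent.R239.F6b_696
import Crest.Agent.R239.AdmHalf_606
import Crest.Agent.R239.Dom_640
import Crest.Agent.R239.Ins_556b

/-! R239 / S0370, one-step line (helper502 doc 2444, helper859 doc 2447), part (b), helper816:
* `pen_abel`: price of the dimensions of the one-step flag;
* `cut_cap`: one Markov cut by the ellipsoid cap costs the factor `1 - 1/rho^2`;
* `adm_cap`: the cap is admissible;
* `lev_lo_core`: comparison of one level when only the flag grows (`V.M i ≤ W.M i`). -/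

set_option autoImplicit false
set_option linter.unusedSectionVars false
open MeasureTheory ProbabilityTheory Set
open scoped RealInnerProductSpace

namespace Crest.Agent.R239.OneLo816

open Crest.Agent.R239 (gau gau_real_apply)
open Crest.Agent.R239.FD
open Crest.Agent.R239.Ins556 (Qp Hc Qp_apply norm_sq_Hc norm_sq_Qp Hc_apply Qp_Hc)

/-- price of the dimensions (Abel) -/
theorem pen_abel {lam : ℕ → ℝ} (hlam : Monotone lam) (h0 : 0 ≤ lam 0) {f g : ℕ → ℕ}
    (hf : Antitone f) (hg : Antitone g) {I N : ℕ} (hIN : I < N) (hfN : f N = 0) (hgN : g N = 0)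
    (h1 : ∀ j, j ≤ I → g j ≤ f j + 1) (h2 : ∀ j, I < j → g j ≤ f j) :
    ∑ j ∈ Finset.range N, lam j * ((g j - g (j + 1) : ℕ) : ℝ)
      ≤ ∑ j ∈ Finset.range N, lam j * ((f j - f (j + 1) : ℕ) : ℝ) + lam I := by
  set D : ℕ → ℝ := fun j => (g j : ℝ) - f j with hD
  have hD1 : ∀ j, j ≤ I → D j ≤ 1 := by
    intro j hj
    have : (g j : ℝ) ≤ f j + 1 := by exact_mod_cast h1 j hj
    simp only [hD]; linarith
  have hD2 : ∀ j, I < j → D j ≤ 0 := by
    intro j hj
    have : (g j : ℝ) ≤ f j := by exact_mod_cast h2 j hj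
    simp only [hD]; linarith
  have key : ∀ m : ℕ, ∑ j ∈ Finset.range (m + 1), lam j * (D j - D (j + 1)) + lam m * D (m + 1)
      ≤ lam (min m I) := by
    intro m
    induction m with
    | zero =>
      simp only [zero_add, Finset.sum_range_one, Nat.zero_min]
      have := hD1 0 (Nat.zero_le _)
      nlinarith
    | succ m ih =>
      rw [Finset.sum_range_succ]
      have hm : lam m ≤ lam (m + 1) := hlam (Nat.le_succ m)
      rcases le_or_gt (m + 1) I with h | h
      · have e1 : min (m + 1) I = m + 1 := min_eq_left h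
        have e2 : min m I = m := min_eq_left (by omega)
        rw [e2] at ih
        rw [e1]
        have := hD1 (m + 1) h
        nlinarith
      · have e1 : min (m + 1) I = I := min_eq_right (by omega)
        have e2 : min m I = I := min_eq_right (by omega)
        rw [e2] at ih
        rw [e1]
        have := hD2 (m + 1) h
        nlinarith
  have hsub : ∑ j ∈ Finset.range N, lam j * ((g j - g (j + 1) : ℕ) : ℝ)
      - ∑ j ∈ Finset.range N, lam j * ((f j - f (j + 1) : ℕ) : ℝ)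
      = ∑ j ∈ Finset.range N, lam j * (D j - D (j + 1)) := by
    rw [← Finset.sum_sub_distrib]
    refine Finset.sum_congr rfl fun j _ => ?_
    rw [Nat.cast_sub (hg (Nat.le_succ j)), Nat.cast_sub (hf (Nat.le_succ j))]
    simp only [hD]; ring
  obtain ⟨m, rfl⟩ : ∃ m, N = m + 1 := ⟨N - 1, by omega⟩
  have k := key m
  have hDN : D (m + 1) = 0 := by simp [hD, hfN, hgN]
  rw [hDN, mul_zero, add_zero, min_eq_right (by omega : I ≤ m)] at k
  linarith

variable {E : Type*} [NormedAddCommGroup E] [InnerProductSpace ℝ E] [FiniteDimensional ℝ E]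
  [MeasurableSpace E] [BorelSpace E]

lemma lam_nonneg {p : Par} (hp : p.Ok) (i : ℕ) : 0 ≤ p.lam i :=
  mul_nonneg hp.tau_pos.le (pow_nonneg (by linarith [hp.A_ge]) i)

lemma lam_pos {p : Par} (hp : p.Ok) (i : ℕ) : 0 < p.lam i :=
  mul_pos hp.tau_pos (pow_pos (by linarith [hp.A_ge]) i)

lemma lam_mono {p : Par} (hp : p.Ok) : Monotone p.lam := by
  refine monotone_nat_of_le_succ fun i => ?_
  unfold Par.lam
  have h := hp.A_ge
  have h1 : 0 < p.A ^ i := pow_pos (by linarith) i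
  have h2 := hp.tau_pos
  rw [pow_succ]
  have : p.A ^ i ≤ p.A ^ i * p.A := by nlinarith
  nlinarith

/-- price of the dimensions of a flag `W` with at most one more dimension at the levels `≤ I` -/
theorem penalty {p : Par} (hp : p.Ok) (V W : Flag E) {I : ℕ} (hI : I < W.n) (hVW : V.n ≤ W.n)
    (h1 : ∀ j, j ≤ I → Module.finrank ℝ (W.M j) ≤ Module.finrank ℝ (V.M j) + 1)
    (h2 : ∀ j, I < j → Module.finrank ℝ (W.M j) ≤ Module.finrank ℝ (V.M j)) :
    ∑ i ∈ Finset.range W.n, p.kap * p.lam i * W.k i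
      ≤ ∑ i ∈ Finset.range V.n, p.kap * p.lam i * V.k i + p.kap * p.lam I := by
  have hV : ∑ i ∈ Finset.range V.n, p.kap * p.lam i * V.k i
      = ∑ i ∈ Finset.range W.n, p.kap * p.lam i * V.k i := by
    refine Finset.sum_subset (Finset.range_mono hVW) fun j _ hj => ?_
    have hj' : V.n ≤ j := by simpa using hj
    have e1 : V.M j = ⊥ := V.bot j hj'
    have : V.k j = 0 := by
      unfold Flag.k
      rw [e1]; simp
    rw [this]; simp
  rw [hV]
  have hb : ∀ U : Flag E, U.n ≤ W.n → Module.finrank ℝ (U.M W.n) = 0 := by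
    intro U hU
    rw [U.bot _ hU]; simp
  have ha : ∀ U : Flag E, Antitone fun j => Module.finrank ℝ (U.M j) :=
    fun U a b hab => Submodule.finrank_mono (U.anti hab)
  have key := pen_abel (lam := p.lam) (lam_mono hp) (lam_nonneg hp 0) (ha V) (ha W) hI (hb V hVW)
    (hb W le_rfl) h1 h2
  have hk := hp.kap_pos
  have e : ∀ U : Flag E, ∑ i ∈ Finset.range W.n, p.kap * p.lam i * U.k i
      = p.kap * ∑ j ∈ Finset.range W.n, p.lam j *
        ((Module.finrank ℝ (U.M j) - Module.finrank ℝ (U.M (j + 1)) : ℕ) : ℝ) := by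
    intro U
    rw [Finset.mul_sum]
    refine Finset.sum_congr rfl fun j _ => ?_
    unfold Flag.k
    ring
  rw [e W, e V]
  nlinarith

/-! ### the cap cut -/

lemma norm_sq_proj_eq (M : Submodule ℝ E) (x : E) :
    ‖M.starProjection x‖ ^ 2
      = ∑ k, ⟪((stdOrthonormalBasis ℝ M k : M) : E), x⟫ ^ 2 := by
  have h1 : ‖M.starProjection x‖ ^ 2 = ‖M.orthogonalProjectionOnto x‖ ^ 2 := rfl
  rw [h1, ← (stdOrthonormalBasis ℝ M).sum_sq_inner_right]
  apply Finset.sum_congr rfl
  intro k _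
  congr 1
  exact Submodule.inner_orthogonalProjectionOnto_eq_of_mem_left _ _

lemma integrable_norm_sq_proj (M : Submodule ℝ E) :
    Integrable (fun g => ‖M.starProjection g‖ ^ 2) (stdGaussian E) := by
  simp_rw [norm_sq_proj_eq]
  exact integrable_finsetSum _ fun i _ => Dom640.integrable_inner_sq _

lemma integral_norm_sq_proj (M : Submodule ℝ E) :
    ∫ g, ‖M.starProjection g‖ ^ 2 ∂(stdGaussian E) = (Module.finrank ℝ M : ℝ) := by
  simp_rw [norm_sq_proj_eq]
  rw [integral_finsetSum _ fun i _ => Dom640.integrable_inner_sq _]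
  simp_rw [Dom640.integral_inner_sq]
  have : ∀ k, ‖((stdOrthonormalBasis ℝ M k : M) : E)‖ ^ 2 = 1 := by
    intro k
    have h2 : ‖((stdOrthonormalBasis ℝ M k : M) : E)‖ = 1 :=
      (stdOrthonormalBasis ℝ M).orthonormal.1 k
    rw [h2]; norm_num
  simp [this]

lemma integrable_norm_sq_Q (V : Flag E) (j : ℕ) :
    Integrable (fun g => ‖V.Q j g‖ ^ 2) (stdGaussian E) := by
  change Integrable (fun g => ‖Qp V.M j g‖ ^ 2) (stdGaussian E)
  simp_rw [norm_sq_Qp V.anti]
  exact (integrable_norm_sq_proj _).sub (integrable_norm_sq_proj _)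

lemma integral_norm_sq_Q (V : Flag E) (j : ℕ) :
    ∫ g, ‖V.Q j g‖ ^ 2 ∂(stdGaussian E) = (V.k j : ℝ) := by
  change ∫ g, ‖Qp V.M j g‖ ^ 2 ∂(stdGaussian E) = (V.k j : ℝ)
  simp_rw [norm_sq_Qp V.anti]
  unfold Flag.k
  rw [integral_sub (integrable_norm_sq_proj _) (integrable_norm_sq_proj _),
    integral_norm_sq_proj, integral_norm_sq_proj,
    Nat.cast_sub (Submodule.finrank_mono (V.anti (Nat.le_succ j)))]

/-- square root of the gauge in `g`-coordinates -/
noncomputable def Bh (V : Flag E) (i : ℕ) : E →L[ℝ] E := Hc V.M (Real.sqrt th) V.n i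

lemma norm_sq_Bh (V : Flag E) (i : ℕ) (g : E) :
    ‖Bh V i g‖ ^ 2 = ∑ j ∈ Finset.Ico i V.n, th ^ (j - i) * ‖V.Q j g‖ ^ 2 := by
  unfold Bh
  rw [norm_sq_Hc V.anti, Real.sq_sqrt AdmHalf606.th_pos.le]
  rfl

lemma Q_H {V : Flag E} {i j : ℕ} (hj : j ∈ Finset.Ico i V.n) (g : E) :
    V.Q j (V.H i g) = th ^ (j - i) • V.Q j g := Qp_Hc V.anti th hj g

lemma N_H (V : Flag E) (i : ℕ) (g : E) : V.N i (V.H i g) = ‖Bh V i g‖ ^ 2 := by
  rw [norm_sq_Bh]
  unfold Flag.N
  refine Finset.sum_congr rfl fun j hj => ?_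
  rw [Q_H hj, norm_smul, mul_pow, Real.norm_eq_abs, sq_abs, ← mul_assoc]
  congr 1
  have h : th ≠ 0 := AdmHalf606.th_pos.ne'
  rw [inv_pow]
  have h2 : th ^ (j - i) ≠ 0 := pow_ne_zero _ h
  field_simp

lemma integral_Bh (V : Flag E) (i : ℕ) : ∫ g, ‖Bh V i g‖ ^ 2 ∂(stdGaussian E) = V.rr i := by
  simp_rw [norm_sq_Bh]
  rw [integral_finsetSum _ fun j _ => (integrable_norm_sq_Q V j).const_mul _]
  unfold Flag.rr
  refine Finset.sum_congr rfl fun j _ => ?_
  rw [integral_const_mul, integral_norm_sq_Q]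

lemma rr_nonneg (V : Flag E) (i : ℕ) : 0 ≤ V.rr i :=
  Finset.sum_nonneg fun j _ => mul_nonneg (pow_nonneg AdmHalf606.th_pos.le _) (Nat.cast_nonneg _)

/-- if `rr i = 0` then `H i = 0` -/
lemma H_eq_zero_of_rr {V : Flag E} {i : ℕ} (h : V.rr i = 0) (g : E) : V.H i g = 0 := by
  have hk : ∀ j ∈ Finset.Ico i V.n, V.k j = 0 := by
    intro j hj
    have := (Finset.sum_eq_zero_iff_of_nonneg (fun l _ =>
      mul_nonneg (pow_nonneg AdmHalf606.th_pos.le (l - i)) (Nat.cast_nonneg (V.k l)))).1 h j hj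
    rcases mul_eq_zero.1 this with h1 | h1
    · exact absurd h1 (pow_ne_zero _ AdmHalf606.th_pos.ne')
    · exact_mod_cast h1
  rw [F6b696.H_apply]
  refine Finset.sum_eq_zero fun j hj => ?_
  have hkj := hk j hj
  unfold Flag.k at hkj
  have h1 : V.M (j + 1) = V.M j :=
    Submodule.eq_of_le_of_finrank_le (V.anti (Nat.le_succ j)) (by omega)
  have : V.Q j g = 0 := by
    rw [F6b696.Q_apply]
    have e : V.P j g ∈ V.M (j + 1) := by rw [h1]; exact F6b696.P_mem V j g
    rw [← F6b696.P_P_of_le V (Nat.le_succ j) g, F6b696.P_of_mem V e, sub_self]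
  rw [this, smul_zero]

/-- **one Markov cut by the ellipsoid cap** -/
theorem cut_cap (V : Flag E) (i : ℕ) {rho : ℝ} (hrho : 1 < rho) {K : Set E} (mK : MeasurableSet K)
    (cK : Convex ℝ K) (sK : ∀ x ∈ K, -x ∈ K) :
    (1 - 1 / rho ^ 2) * (gau (V.H i)).real K ≤ (gau (V.H i)).real (K ∩ V.cap rho i) := by
  have mcap : MeasurableSet (V.cap rho i) := (AdmHalf606.cap_closed V i rho).measurableSet
  rw [gau_real_apply _ mK, gau_real_apply _ (mK.inter mcap)]
  have hr0 : (0 : ℝ) < rho ^ 2 := by positivity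
  rcases (rr_nonneg V i).eq_or_lt with h0 | h0
  · -- `H i = 0`
    have hH : ∀ g, V.H i g = 0 := H_eq_zero_of_rr h0.symm
    have e : V.H i ⁻¹' (K ∩ V.cap rho i) = V.H i ⁻¹' K := by
      ext g
      simp only [mem_preimage, mem_inter_iff, and_iff_left_iff_imp]
      intro _
      rw [hH g]
      exact ⟨(V.M i).zero_mem, by rw [AdmHalf606.N_zero]; exact mul_nonneg hr0.le (rr_nonneg V i)⟩
    rw [e]
    have h1 : 0 ≤ (stdGaussian E).real (V.H i ⁻¹' K) := measureReal_nonneg
    have h2 : 0 ≤ 1 / rho ^ 2 := by positivity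
    nlinarith
  · have hR : 0 < rho * Real.sqrt (V.rr i) := mul_pos (by linarith) (Real.sqrt_pos.2 h0)
    have hc := Dom640.cut (Dom640.pre_meas (V.H i) mK) (Dom640.pre_conv (V.H i) cK)
      (Dom640.pre_symm (V.H i) sK) (Bh V i) hR
    rw [integral_Bh, mul_pow, Real.sq_sqrt h0.le] at hc
    have e1 : V.rr i / (rho ^ 2 * V.rr i) = 1 / rho ^ 2 := by
      field_simp
    rw [e1] at hc
    refine hc.trans (measureReal_mono (fun g hg => ?_) (measure_ne_top _ _))
    refine ⟨hg.1, F6b696.H_mem V i g, ?_⟩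
    rw [N_H]
    have := hg.2
    simp only [mem_ofPred_eq] at this
    have h3 := pow_le_pow_left₀ (norm_nonneg _) this 2
    rwa [mul_pow, Real.sq_sqrt h0.le] at h3

/-- the cap is admissible -/
theorem adm_cap {p : Par} (hp : p.Ok) (V : Flag E) (i : ℕ) : Adm p V i (V.cap p.rho i) := by
  refine ⟨AdmHalf606.cap_closed V i _, AdmHalf606.cap_convex V i _,
    fun x hx => AdmHalf606.cap_neg V i _ hx, le_rfl, ?_⟩
  have hrho : (1 : ℝ) < p.rho := by linarith [hp.rho_ge]
  have h := cut_cap V i hrho (K := univ) MeasurableSet.univ convex_univ (fun _ _ => mem_univ _)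
  rw [univ_inter] at h
  have := F6b696.gau_isProb (V.H i)
  have h1 : (gau (V.H i)).real univ = 1 := by simp
  rw [h1, mul_one] at h
  refine lt_of_lt_of_le ?_ h
  have : (1 : ℝ) < p.rho ^ 2 := by nlinarith
  have : 1 / p.rho ^ 2 < 1 := (div_lt_one (by linarith)).2 this
  linarith

/-- **one level, the flag only grows**: `V.M i ≤ W.M i`. -/
theorem lev_lo_core {p : Par} (hp : p.Ok) (V W : Flag E) (i : ℕ) (μ : Multiset E)
    (hle : V.M i ≤ W.M i) {ι : Type*} (s : Finset ι) (w : ι → E)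
    (hN : ∀ g, ‖W.Hi i (V.H i g)‖ ^ 2 ≤ ‖g‖ ^ 2 + ∑ k ∈ s, ⟪w k, g⟫ ^ 2) :
    D p V i μ ≤ D p W i μ + p.lam i * ((∑ k ∈ s, ‖w k‖ ^ 2) / 2 + 2 / p.rho ^ 2) := by
  have hlam : ∀ i, 0 ≤ p.lam i := lam_nonneg hp
  have hrho : (16 : ℝ) ≤ p.rho := hp.rho_ge
  have hrho1 : (1 : ℝ) < p.rho := by linarith
  have hr2 : (256 : ℝ) ≤ p.rho ^ 2 := by nlinarith
  rw [← sub_le_iff_le_add]
  refine le_csInf ⟨_, ⟨_, adm_cap hp W i, rfl⟩⟩ ?_
  rintro _ ⟨K', hK', rfl⟩
  rw [sub_le_iff_le_add]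
  obtain ⟨hc, hv, hs, hcap, hpos⟩ := hK'
  have hadm' : Adm p W i K' := ⟨hc, hv, hs, hcap, hpos⟩
  set K : Set E := K' ∩ V.cap p.rho i with hKdef
  -- measure
  have hpre : (stdGaussian E).real (V.H i ⁻¹' K')
      ≥ Real.exp (-(∑ k ∈ s, ‖w k‖ ^ 2) / 2) * (stdGaussian E).real (W.H i ⁻¹' K') := by
    have h := Cmp142.cmp_sum_real (Dom640.pre_meas (W.H i) hc.measurableSet)
      (Dom640.pre_conv (W.H i) hv) (Dom640.pre_symm (W.H i) hs) s ((W.Hi i).comp (V.H i)) w
      (by intro g; simpa using hN g)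
    refine h.trans (le_of_eq ?_)
    congr 1
    ext g
    simp only [mem_preimage, ContinuousLinearMap.comp_apply]
    rw [F6b696.H_Hi, F6b696.P_of_mem W (hle (F6b696.H_mem V i g))]
  have hcut := cut_cap V i hrho1 hc.measurableSet hv hs
  rw [gau_real_apply _ hc.measurableSet] at hcut hpos
  have hfac : 0 < 1 - 1 / p.rho ^ 2 := by
    have : 1 / p.rho ^ 2 ≤ 1 / 256 := one_div_le_one_div_of_le (by norm_num) hr2
    linarith
  have hge : (1 - 1 / p.rho ^ 2) * (Real.exp (-(∑ k ∈ s, ‖w k‖ ^ 2) / 2)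
      * (stdGaussian E).real (W.H i ⁻¹' K')) ≤ (gau (V.H i)).real K :=
    (mul_le_mul_of_nonneg_left hpre hfac.le).trans hcut
  have hKpos : 0 < (gau (V.H i)).real K :=
    lt_of_lt_of_le (mul_pos hfac (mul_pos (Real.exp_pos _) hpos)) hge
  have hadm : Adm p V i K := by
    refine ⟨hc.inter (AdmHalf606.cap_closed V i _), hv.inter (AdmHalf606.cap_convex V i _), ?_,
      inter_subset_right, hKpos⟩
    rintro x ⟨hx1, hx2⟩
    exact ⟨hs x hx1, AdmHalf606.cap_neg V i _ hx2⟩
  refine (F6b696.D_le_val hlam hadm).trans ?_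
  unfold val
  have hEh : Eh K μ ≤ Eh K' μ := by
    unfold Eh
    refine Multiset.sum_map_le_sum_map _ _ fun z _ => ?_
    have hK'c : IsCompact K' := AdmHalf606.adm_compact hadm'
    have hKne : K.Nonempty := AdmHalf606.adm_nonempty hadm
    exact F6core696.hs_mono hK'c hKne inter_subset_left z
  have hlog : Real.log ((gau (W.H i)).real K') - ((∑ k ∈ s, ‖w k‖ ^ 2) / 2 + 2 / p.rho ^ 2)
      ≤ Real.log ((gau (V.H i)).real K) := by
    rw [gau_real_apply _ hc.measurableSet]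
    have h1 := Real.log_le_log (mul_pos hfac (mul_pos (Real.exp_pos _) hpos)) hge
    rw [Real.log_mul hfac.ne' (mul_pos (Real.exp_pos _) hpos).ne',
      Real.log_mul (Real.exp_pos _).ne' hpos.ne', Real.log_exp] at h1
    have h2 : -(2 / p.rho ^ 2) ≤ Real.log (1 - 1 / p.rho ^ 2) := by
      set e : ℝ := 1 / p.rho ^ 2 with he
      have he0 : 0 < e := by positivity
      have he1 : e ≤ 1 / 256 := one_div_le_one_div_of_le (by norm_num) hr2
      have h3 : Real.log (1 - e)⁻¹ ≤ (1 - e)⁻¹ - 1 := by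
        have := Real.log_le_sub_one_of_pos (inv_pos.2 (by linarith : (0 : ℝ) < 1 - e))
        linarith
      rw [Real.log_inv] at h3
      have h4 : (1 - e)⁻¹ - 1 ≤ 2 * e := by
        rw [inv_eq_one_div, sub_le_iff_le_add, div_le_iff₀ (by linarith)]
        nlinarith
      have h5 : 2 / p.rho ^ 2 = 2 * e := by rw [he]; ring
      rw [h5]; linarith
    linarith
  have := mul_le_mul_of_nonneg_left hlog (hlam i)
  nlinarith

end Crest.Agent.R239.OneLo816
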