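import Crest.Agent.R239.OneLit_502
import Crest.Agent.R239.OneHiA_592
import Crest.Agent.R239.OneLo_816
import Crest.Agent.R239.Lv1_303
import Crest.Agent.R239.Gain_161
import Crest.Agent.R239.RemLev_864
import Crest.Agent.R239.Lev_964

/-! R239 (helper592), one-step line: levels `i > I`, gain measured on the FINAL body at `V`.
`target_ONEhiV : FD.Target_ONEhiV`. -/

set_option autoImplicit false
set_option linter.unusedSectionVars false
open MeasureTheory ProbabilityTheory Set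
open scoped RealInnerProductSpace

namespace Crest.Agent.R239.OneHi592

open Crest.Agent.R239 Crest.Agent.R239.FD Crest.Agent.R239.Lv303

variable {E : Type*} [NormedAddCommGroup E] [InnerProductSpace ℝ E] [FiniteDimensional ℝ E]
  [MeasurableSpace E] [BorelSpace E]
variable {G : Type*} [NormedAddCommGroup G] [InnerProductSpace ℝ G] [FiniteDimensional ℝ G]
  [MeasurableSpace G] [BorelSpace G]

/-! ### One body -/

/-- stretch, compare, cut by the slab, cut by the cap -/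
theorem core {n : E} (hn : ‖n‖ = 1) {τ : ℝ} (h0 : 0 ≤ τ) (h1 : τ ≤ 1 / 4)
    (R : E →L[ℝ] E) {ι : Type*} (J : Finset ι) (u : ι → E)
    (hN : ∀ g, ‖R g‖ ^ 2 + τ * ⟪n, g⟫ ^ 2 ≤ ‖g‖ ^ 2 + ∑ k ∈ J, ⟪u k, g⟫ ^ 2)
    {B : Set E} (hB : IsClosed B) (cB : Convex ℝ B) (sB : ∀ x ∈ B, -x ∈ B)
    (a : E) (t : ℝ) (X : E →L[ℝ] G) {r h κ : ℝ} (hr : 0 < r) (hh0 : 0 ≤ h) (hκ1 : κ ≤ 1 / 16)
    (hX : ∀ g, R g ∈ B → (1 - h) * ‖X g‖ ^ 2 ≤ r ^ 2)
    (hE : ∫ x, ‖X x‖ ^ 2 ∂(stdGaussian E) ≤ κ * r ^ 2)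
    (hpos : 0 ≤ 1 - 32 * h * κ) :
    Real.exp (-(∑ k ∈ J, ‖u k‖ ^ 2)) * (stdGaussian E).real B *
        (stdGaussian E).real {g : E | |⟪Sc n (1 / √(1 - τ)) a, g⟫| ≤ t} * (1 - 32 * h * κ)
      ≤ (stdGaussian E).real
          (Sc n (1 / √(1 - τ)) ⁻¹' {y | R y ∈ B ∧ |⟪a, y⟫| ≤ t ∧ ‖X y‖ ≤ r}) := by
  set c : ℝ := 1 / √(1 - τ) with hc
  have hτ : 0 < 1 - τ := by linarith
  have hc2 : c ^ 2 * (1 - τ) = 1 := by
    rw [hc, div_pow, one_pow, Real.sq_sqrt hτ.le]; field_simp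
  have hc0 : 0 < c := by rw [hc]; positivity
  have hc1 : 1 ≤ c := by
    by_contra hcon
    have : c ^ 2 < 1 := by nlinarith [not_le.1 hcon]
    nlinarith
  have hc43 : c ^ 2 ≤ 4 / 3 := by nlinarith
  -- the composed map
  have hR' : ∀ g, ‖(R ∘L Sc n c) g‖ ^ 2 ≤ ‖g‖ ^ 2 + ∑ k ∈ J, ⟪Sc n c (u k), g⟫ ^ 2 := by
    intro g
    have h2 := hN (Sc n c g)
    rw [inner_Sc hn, norm_Sc_sq hn] at h2
    have h3 : ∀ k, ⟪u k, Sc n c g⟫ = ⟪Sc n c (u k), g⟫ := fun k => inner_Sc_comm n c (u k) g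
    simp only [h3] at h2
    have h4 : (c ^ 2 - 1) * ⟪n, g⟫ ^ 2 - τ * (c * ⟪n, g⟫) ^ 2
        = (c ^ 2 * (1 - τ) - 1) * ⟪n, g⟫ ^ 2 := by ring
    rw [hc2] at h4
    simp only [ContinuousLinearMap.coe_comp, Function.comp_apply]
    nlinarith
  have hcmp := Cmp142.cmp_sum_real hB.measurableSet cB sB J (R ∘L Sc n c)
    (fun k => Sc n c (u k)) hR'
  -- exponents
  have hexp : Real.exp (-(∑ k ∈ J, ‖u k‖ ^ 2)) ≤ Real.exp (-(∑ k ∈ J, ‖Sc n c (u k)‖ ^ 2) / 2) := by
    apply Real.exp_le_exp.2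
    have : ∑ k ∈ J, ‖Sc n c (u k)‖ ^ 2 ≤ ∑ k ∈ J, (4 / 3) * ‖u k‖ ^ 2 := by
      refine Finset.sum_le_sum fun k _ => (norm_Sc_le hn hc1 (u k)).trans ?_
      exact mul_le_mul_of_nonneg_right hc43 (sq_nonneg _)
    rw [← Finset.mul_sum] at this
    have h5 : 0 ≤ ∑ k ∈ J, ‖u k‖ ^ 2 := Finset.sum_nonneg fun k _ => sq_nonneg _
    linarith
  set A0 : Set E := (R ∘L Sc n c) ⁻¹' B with hA0
  have clA0 : IsClosed A0 := hB.preimage (R ∘L Sc n c).continuous
  have cA0 : Convex ℝ A0 := cB.linear_preimage ((R ∘L Sc n c : E →L[ℝ] E) : E →ₗ[ℝ] E)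
  have sA0 : ∀ x ∈ A0, -x ∈ A0 := by
    intro x hx
    simp only [hA0, mem_preimage, map_neg] at hx ⊢
    exact sB _ hx
  -- slab
  set S1 : Set E := {g : E | |⟪Sc n c a, g⟫| ≤ t} with hS1
  have clS1 : IsClosed S1 := isClosed_le (by fun_prop) continuous_const
  have cS1 : Convex ℝ S1 := by
    have : S1 = (fun g => ⟪Sc n c a, g⟫) ⁻¹' (Icc (-t) t) := by
      ext g; simp [hS1, abs_le]
    rw [this]
    exact (convex_Icc (-t) t).linear_preimage ((innerSL ℝ (Sc n c a) : E →L[ℝ] ℝ) : E →ₗ[ℝ] ℝ)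
  have sS1 : ∀ x ∈ S1, -x ∈ S1 := by
    intro x hx
    simp only [hS1, mem_ofPred_eq, inner_neg_right, abs_neg] at hx ⊢
    exact hx
  have hslab := Dom640.slab_real clA0.measurableSet cA0 sA0 (Sc n c a) t
  -- cap
  have hXS : ∫ x, ‖(X ∘L Sc n c) x‖ ^ 2 ∂(stdGaussian E) ≤ (2 * κ) * r ^ 2 := by
    have h6 := integral_norm_sq_comp_le X (Sc n c) (C := 4 / 3) (by
      intro w
      rw [adjoint_Sc]
      exact (norm_Sc_le hn hc1 w).trans (mul_le_mul_of_nonneg_right hc43 (sq_nonneg _)))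
    have h7 : 0 ≤ ∫ x, ‖X x‖ ^ 2 ∂(stdGaussian E) := integral_nonneg fun x => sq_nonneg _
    have h8 : ∫ x, ‖(X ∘L Sc n c) x‖ ^ 2 ∂(stdGaussian E)
        = ∫ x, ‖X (Sc n c x)‖ ^ 2 ∂(stdGaussian E) := rfl
    rw [h8]
    nlinarith
  have hcap := Lv303.cap_cut (A := A0 ∩ S1) (clA0.inter clS1) (cA0.inter cS1)
    (fun x hx => ⟨sA0 x hx.1, sS1 x hx.2⟩) (X ∘L Sc n c) (r := r) (h := h) (κ := 2 * κ) hr hh0
    (by linarith) (by
      intro g hg
      exact hX (Sc n c g) hg.1) hXS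
  have hset : Sc n c ⁻¹' {y | R y ∈ B ∧ |⟪a, y⟫| ≤ t ∧ ‖X y‖ ≤ r}
      = (A0 ∩ S1) ∩ {x | ‖(X ∘L Sc n c) x‖ ≤ r} := by
    ext x
    simp only [hA0, hS1, mem_ofPred_eq, mem_inter_iff, mem_preimage,
      ContinuousLinearMap.coe_comp, Function.comp_apply, inner_Sc_comm]
    tauto
  rw [hset]
  have e1 : Real.exp (-(∑ k ∈ J, ‖u k‖ ^ 2)) * (stdGaussian E).real B
      ≤ (stdGaussian E).real A0 :=
    (mul_le_mul_of_nonneg_right hexp measureReal_nonneg).trans hcmp
  have e2 : Real.exp (-(∑ k ∈ J, ‖u k‖ ^ 2)) * (stdGaussian E).real B *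
      (stdGaussian E).real S1 ≤ (stdGaussian E).real (A0 ∩ S1) :=
    (mul_le_mul_of_nonneg_right e1 measureReal_nonneg).trans hslab
  calc _ ≤ (stdGaussian E).real (A0 ∩ S1) * (1 - 32 * h * κ) :=
        mul_le_mul_of_nonneg_right e2 hpos
    _ = (1 - 16 * h * (2 * κ)) * (stdGaussian E).real (A0 ∩ S1) := by ring
    _ ≤ _ := hcap

lemma Sc_scl {n : E} (hn : ‖n‖ = 1) {c r : ℝ} (hcr : c * r = 1) (x : E) :
    Sc n c (Gain161.scl r n x) = x := by
  rw [Sc_apply, Gain161.inner_scl hn, Gain161.scl_apply, proj_apply]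
  have h1 : (c - 1) * (r * ⟪n, x⟫) = ⟪n, x⟫ - r * ⟪n, x⟫ := by
    linear_combination ⟪n, x⟫ * hcr
  rw [h1]
  module

/-- the stretched set is smaller, and by a factor if the body is thin -/
theorem stretch_le {n : E} (hn : ‖n‖ = 1) {τ c' : ℝ} (h0 : 0 ≤ τ) (h1 : τ ≤ 1 / 4)
    (hc : τ ≤ c' / 256) {Q : Set E} (mQ : MeasurableSet Q) (cQ : Convex ℝ Q)
    (sQ : ∀ x ∈ Q, -x ∈ Q)
    (hthin : ∫ x in Q, ⟪n, x⟫ ^ 2 ∂(stdGaussian E) ≤ (1 - c') * (stdGaussian E).real Q) :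
    (stdGaussian E).real (Sc n (1 / √(1 - τ)) ⁻¹' Q)
      ≤ Real.exp (-(τ * c' / 4)) * (stdGaussian E).real Q := by
  have hτ : 0 < 1 - τ := by linarith
  have hs : 0 < √(1 - τ) := Real.sqrt_pos.2 hτ
  have hcr : 1 / √(1 - τ) * √(1 - τ) = 1 := by field_simp
  have hpre : (Gain161.scl (√(1 - τ)) n) ⁻¹' (Sc n (1 / √(1 - τ)) ⁻¹' Q) = Q := by
    ext x
    simp only [mem_preimage, Sc_scl hn hcr]
  have h := Gain161.scale_le hn (r := √(1 - τ)) (s₁ := τ) (c := c') hs
    (Real.sq_sqrt hτ.le) h0 (by linarith) hc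
    (B := Sc n (1 / √(1 - τ)) ⁻¹' Q) ((Sc n (1 / √(1 - τ))).continuous.measurable mQ)
    (by
      intro t _
      rw [hpre]
      exact Dom640.slab_real mQ cQ sQ n t) (by rw [hpre]; exact hthin)
  rw [hpre] at h
  exact h

theorem stretch_le' {n : E} (hn : ‖n‖ = 1) {τ : ℝ} (h0 : 0 ≤ τ) (h1 : τ ≤ 1 / 4)
    {Q : Set E} (mQ : MeasurableSet Q) (cQ : Convex ℝ Q) (sQ : ∀ x ∈ Q, -x ∈ Q) :
    (stdGaussian E).real (Sc n (1 / √(1 - τ)) ⁻¹' Q) ≤ (stdGaussian E).real Q := by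
  have hτ : 0 < 1 - τ := by linarith
  have hs : 0 < √(1 - τ) := Real.sqrt_pos.2 hτ
  have hcr : 1 / √(1 - τ) * √(1 - τ) = 1 := by field_simp
  have hpre : (Gain161.scl (√(1 - τ)) n) ⁻¹' (Sc n (1 / √(1 - τ)) ⁻¹' Q) = Q := by
    ext x
    simp only [mem_preimage, Sc_scl hn hcr]
  have h := Cmp142.contraction (Gain161.scl (√(1 - τ)) n) (fun g => by
      refine abs_le_of_sq_le_sq' ?_ (norm_nonneg _) |>.2
      rw [Gain161.norm_scl_sq hn, Real.sq_sqrt hτ.le]
      nlinarith [sq_nonneg ⟪n, g⟫])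
    (K := Sc n (1 / √(1 - τ)) ⁻¹' Q) ((Sc n (1 / √(1 - τ))).continuous.measurable mQ)
    (cQ.linear_preimage ((Sc n (1 / √(1 - τ)) : E →L[ℝ] E) : E →ₗ[ℝ] E)) (by
      intro x hx
      simp only [mem_preimage, map_neg] at hx ⊢
      exact sQ _ hx)
  rw [hpre] at h
  exact ENNReal.toReal_mono (measure_ne_top _ _) h

/-! ### The slab remainder -/

/-- threshold of the ratio -/
noncomputable def A0 (sm S0 : ℝ) : ℝ :=
  max S0 (4 * S0 / (min (3 / 4 * sm) 1 * sm / (12 * S0)) ^ 2)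

theorem rem_small {sm S0 : ℝ} (hsm : 0 < sm) (hS0 : 0 < S0) {p : Par} (hp : p.Ok)
    (hA : A0 sm S0 ≤ p.A) {I i : ℕ} {Sv : ℝ} (w : E) (hIi : I < i) (hSv : 0 ≤ Sv)
    (hS : Sv ≤ S0 * p.lam I) :
      ∃ t, 0 < t ∧ 0 < (stdGaussian E).real {x | |⟪w, x⟫| ≤ t} ∧
        t * Sv - p.lam i * Real.log ((stdGaussian E).real {x | |⟪w, x⟫| ≤ t})
          ≤ 3 / 4 * sm * p.lam i * ‖w‖ ^ 2 + sm * (1 / 2) ^ (i - I) * p.lam I := by
  unfold A0 at hA
  set e : ℝ := min (3 / 4 * sm) 1 with he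
  have he0 : 0 < e := lt_min (by positivity) one_pos
  have he1 : e ≤ 1 := min_le_right _ _
  have hesm : e ≤ 3 / 4 * sm := min_le_left _ _
  set δ : ℝ := e * sm / (12 * S0) with hδ
  have hδ0 : 0 < δ := by positivity
  obtain ⟨m, rfl⟩ : ∃ m, i = I + m := ⟨i - I, by omega⟩
  have hm1 : 1 ≤ m := by omega
  have hm : I + m - I = m := by omega
  rw [hm]
  have hlI := Rem864.lam_pos hp I
  have hli := Rem864.lam_pos hp (I + m)
  have hA16 := hp.A_ge
  have hAp : 0 < p.A := by linarith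
  have hla : p.lam (I + m) = p.lam I * p.A ^ m := Rem864.lam_add p I m
  have hAm : p.A ≤ p.A ^ m := le_self_pow₀ (by linarith) (by omega)
  have hSA : S0 ≤ p.A := (le_max_left _ _).trans hA
  have hdA : 4 * S0 / δ ^ 2 ≤ p.A := (le_max_right _ _).trans hA
  have hSl : Sv ≤ p.lam (I + m) := by
    rw [hla]
    calc Sv ≤ S0 * p.lam I := hS
      _ ≤ p.A ^ m * p.lam I := mul_le_mul_of_nonneg_right (hSA.trans hAm) hlI.le
      _ = _ := by ring
  have hhalf : (0 : ℝ) < (1 / 2) ^ m := by positivity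
  obtain ⟨t, h1, h2, h3⟩ := Rem864.gau_r3 (ContinuousLinearMap.id ℝ E) w (S := Sv)
    (lam := p.lam (I + m)) (e := e) (ε := sm / 2 * (1 / 2) ^ m * p.lam I) hli hSv hSl he0 he1
    (by positivity)
  have hadj : (ContinuousLinearMap.id ℝ E).adjoint w = w := by
    have := ContinuousLinearMap.adjoint_id (𝕜 := ℝ) (E := E)
    rw [this]; rfl
  rw [gau_id] at h2 h3
  rw [hadj] at h3
  refine ⟨t, h1, h2, ?_⟩
  rw [mul_comm t Sv]
  refine h3.trans ?_
  have key : 2 / e * (Sv ^ 2 / p.lam (I + m)) * Real.log (2 * p.lam (I + m) / Sv)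
      ≤ sm / 2 * (1 / 2) ^ m * p.lam I := by
    rcases hSv.eq_or_lt with h | h
    · rw [← h]; simp; positivity
    · set x : ℝ := Sv / p.lam (I + m) with hx
      have hx0 : 0 < x := div_pos h hli
      have e1 : Sv ^ 2 / p.lam (I + m) = p.lam (I + m) * x ^ 2 := by
        rw [hx]; field_simp
      have e2 : 2 * p.lam (I + m) / Sv = 2 / x := by
        rw [hx]; field_simp
      rw [e1, e2]
      have h5 := Rem864.sq_log_le hx0
      have h8 : p.lam (I + m) * x = Sv := by rw [hx]; field_simp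
      have h6 : x ≤ δ ^ 2 * (1 / 4) ^ m := by
        have h9 : x ≤ S0 / p.A ^ m := by
          rw [hx, hla, div_le_div_iff₀ (by positivity) (by positivity)]
          calc Sv * p.A ^ m ≤ (S0 * p.lam I) * p.A ^ m :=
                mul_le_mul_of_nonneg_right hS (by positivity)
            _ = _ := by ring
        refine h9.trans ?_
        have h10 : (4 : ℝ) ^ m * S0 ≤ δ ^ 2 * p.A ^ m := by
          have h11 : 4 * S0 ≤ δ ^ 2 * p.A := by
            rw [div_le_iff₀ (by positivity)] at hdA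
            linarith
          obtain ⟨l, rfl⟩ : ∃ l, m = l + 1 := ⟨m - 1, by omega⟩
          have h12 : (4 : ℝ) ^ l ≤ p.A ^ l := pow_le_pow_left₀ (by norm_num) (by linarith) _
          calc (4 : ℝ) ^ (l + 1) * S0 = 4 ^ l * (4 * S0) := by ring
            _ ≤ p.A ^ l * (δ ^ 2 * p.A) :=
                mul_le_mul h12 h11 (by positivity) (by positivity)
            _ = _ := by ring
        rw [div_le_iff₀ (by positivity)]
        have h13 : (1 / 4 : ℝ) ^ m * 4 ^ m = 1 := by rw [← mul_pow]; norm_num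
        calc S0 = (1 / 4 : ℝ) ^ m * ((4 : ℝ) ^ m * S0) := by
              rw [← mul_assoc, h13, one_mul]
          _ ≤ (1 / 4 : ℝ) ^ m * (δ ^ 2 * p.A ^ m) :=
              mul_le_mul_of_nonneg_left h10 (by positivity)
          _ = _ := by ring
      have h7 : √x ≤ δ * (1 / 2) ^ m := by
        rw [Real.sqrt_le_left (by positivity)]
        refine h6.trans (le_of_eq ?_)
        rw [mul_pow, ← pow_mul, mul_comm m 2, pow_mul]
        norm_num
      calc 2 / e * (p.lam (I + m) * x ^ 2) * Real.log (2 / x)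
          = 2 / e * (p.lam (I + m) * (x ^ 2 * Real.log (2 / x))) := by ring
        _ ≤ 2 / e * (p.lam (I + m) * (3 * (x * √x))) := by gcongr
        _ = 6 / e * ((p.lam (I + m) * x) * √x) := by ring
        _ = 6 / e * (Sv * √x) := by rw [h8]
        _ ≤ 6 / e * ((S0 * p.lam I) * (δ * (1 / 2) ^ m)) := by gcongr
        _ = sm / 2 * (1 / 2) ^ m * p.lam I := by
            rw [hδ]; field_simp; ring
  have h20 : e * p.lam (I + m) * ‖w‖ ^ 2 ≤ 3 / 4 * sm * p.lam (I + m) * ‖w‖ ^ 2 := by gcongr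
  linarith

/-! ### One level -/

variable {V W : Flag E} {v : E} {I : ℕ}

lemma H_zero_of_rr {i : ℕ} (h : V.rr i = 0) : V.H i = 0 := by
  unfold Flag.H
  refine Finset.sum_eq_zero fun j hj => ?_
  have hth := F5336.th_pos
  have h1 : th ^ (j - i) * (V.k j : ℝ) = 0 :=
    (Finset.sum_eq_zero_iff_of_nonneg (fun l _ => by positivity)).1 h j hj
  have h2 : (V.k j : ℝ) = 0 := by
    rcases mul_eq_zero.1 h1 with h | h
    · exact absurd h (by positivity)
    · exact h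
  have h3 : V.k j = 0 := by exact_mod_cast h2
  have h4 : V.M (j + 1) ≤ V.M j := V.anti (Nat.le_succ j)
  have h5 : V.M (j + 1) = V.M j := by
    apply Submodule.eq_of_le_of_finrank_le h4
    unfold Flag.k at h3
    omega
  have h6 : V.Q j = 0 := by
    unfold Flag.Q Flag.P
    have : ∀ (A B : Submodule ℝ E), A = B → A.starProjection - B.starProjection = 0 := by
      rintro A B rfl
      exact sub_self _
    exact this _ _ h5.symm
  rw [h6, smul_zero]

/-- the block direction -/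
lemma exists_dir (V : Flag E) {i : ℕ} (hv : ‖v‖ = 1) {t0 : ℝ} (ht1 : t0 ≤ 1 / 4) :
    ∃ n : E, ‖n‖ = 1 ∧ (V.b v i - V.b v (i + 1) = 0 ∨ V.Q i n = n) ∧
      ∀ g, t0 * (V.b v i - V.b v (i + 1)) * ⟪n, g⟫ ^ 2 ≤ 1 / 4 * ⟪V.Q i v, g⟫ ^ 2 := by
  have hal : ‖V.Q i v‖ ^ 2 = V.b v i - V.b v (i + 1) := FlagAlg557.norm_Q_sq' V.anti i v
  by_cases h : V.Q i v = 0
  · refine ⟨v, hv, Or.inl ?_, fun g => ?_⟩
    · rw [← hal, h]; simp
    · rw [← hal, h]; simp
  · have hq : 0 < ‖V.Q i v‖ := norm_pos_iff.2 h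
    refine ⟨(‖V.Q i v‖)⁻¹ • V.Q i v, ?_, Or.inr ?_, fun g => ?_⟩
    · rw [norm_smul, norm_inv, norm_norm, inv_mul_cancel₀ hq.ne']
    · rw [map_smul]
      congr 1
      exact FlagAlg557.Q_Q_self V.anti i v
    · rw [← hal, inner_smul_left]
      simp only [conj_trivial]
      have e1 : t0 * ‖V.Q i v‖ ^ 2 * (‖V.Q i v‖⁻¹ * ⟪V.Q i v, g⟫) ^ 2
          = t0 * ⟪V.Q i v, g⟫ ^ 2 := by
        field_simp
      rw [e1]
      exact mul_le_mul_of_nonneg_right ht1 (sq_nonneg _)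

lemma integral_block (V : Flag E) {i : ℕ} (hi : i < V.n) {n : E} (hQ : V.Q i n = n) {K : Set E}
    (hK : MeasurableSet K) :
    ∫ g in V.H i ⁻¹' K, ⟪n, g⟫ ^ 2 ∂(stdGaussian E) = ∫ x in K, ⟪n, x⟫ ^ 2 ∂(gau (V.H i)) := by
  unfold gau
  rw [setIntegral_map hK (by fun_prop) (V.H i).continuous.aemeasurable]
  refine integral_congr_ae (Filter.Eventually.of_forall fun g => ?_)
  have h1 : ⟪n, V.H i g⟫ = ⟪n, g⟫ := by
    rw [← F5336.inner_H_comm]
    congr 1
    conv_lhs => rw [← hQ]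
    rw [H_Q_self V hi, hQ]
  simp only [h1]

set_option maxHeartbeats 2000000 in
/-- **levels `i > I`**, thinness measured at `V` (on the final body) -/
theorem lev_hiV {p : Par} (hp : p.Ok) (h : Up V W v I) (hv : ‖v‖ = 1) {μ : Multiset E} {i : ℕ}
    (hI : I < i) (hi : i < V.n) {c' dl : ℝ} (hc0 : 0 < c') (hc1 : c' < 1) (hdl : 0 < dl)
    (hthin : ThinAt p V μ i c' dl) {e r0 : ℝ} (he : 0 ≤ e)
    (hrem : ∀ w : E, ∃ t, 0 < t ∧ 0 < (stdGaussian E).real {x | |⟪w, x⟫| ≤ t} ∧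
      t * S μ v - p.lam i * Real.log ((stdGaussian E).real {x | |⟪w, x⟫| ≤ t})
        ≤ e * p.lam i * ‖w‖ ^ 2 + r0) :
    D p V i μ + p.lam i * (min (c' ^ 2 / 1024) dl * (V.b v i - V.b v (i + 1)))
      ≤ D p W i μ + p.lam i * (2 * BB V v i + 64 * (2 * V.b v i + BB V v i) / p.rho ^ 2)
        + (4 / 3 * e * p.lam i * V.b v i + r0) := by
  have hlam := Rem864.lam_pos hp i
  have hlam' : ∀ i, 0 ≤ p.lam i := fun i => (Rem864.lam_pos hp i).le
  have hrho := hp.rho_ge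
  have hρ2 : (256 : ℝ) ≤ p.rho ^ 2 := by nlinarith
  have hρp : (0 : ℝ) < p.rho ^ 2 := by linarith
  have hal : ‖V.Q i v‖ ^ 2 = V.b v i - V.b v (i + 1) := FlagAlg557.norm_Q_sq' V.anti i v
  have hb0 := F5336.b_nonneg V v i
  have hb1 := F5336.b_nonneg V v (i + 1)
  have hb2 := F5336.b_le_one V hv i
  have hBB := BB_nonneg V v i
  set al := V.b v i - V.b v (i + 1) with hal'
  have hal0 : 0 ≤ al := by rw [← hal]; positivity
  have hal1 : al ≤ 1 := by linarith
  set τ : ℝ := c' / 256 * al with hτ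
  have hτ0 : 0 ≤ τ := by positivity
  have hτc : τ ≤ c' / 256 := by rw [hτ]; nlinarith
  have hτ4 : τ ≤ 1 / 4 := by linarith
  obtain ⟨n, hn, hnQ, hng⟩ := exists_dir V (i := i) hv (t0 := c' / 256) (by linarith)
  rw [← hal', ← hτ] at hng
  rw [← hal'] at hnQ
  obtain ⟨J, u, hN, htr⟩ := h.form hv hI hi
  set R := W.Hi i ∘L Ts v 1 ∘L V.H i with hR
  have hN' : ∀ g, ‖R g‖ ^ 2 + τ * ⟪n, g⟫ ^ 2 ≤ ‖g‖ ^ 2 + ∑ k ∈ J, ⟪u k, g⟫ ^ 2 := fun g =>
    le_trans (by linarith [hng g]) (hN g)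
  set c : ℝ := 1 / √(1 - τ) with hc
  have hτ1 : 0 < 1 - τ := by linarith
  have hc2 : c ^ 2 * (1 - τ) = 1 := by
    rw [hc, div_pow, one_pow, Real.sq_sqrt hτ1.le]; field_simp
  have hcp : 0 < c := by rw [hc]; positivity
  have hc1' : 1 ≤ c := by
    by_contra hcon
    have : c ^ 2 < 1 := by nlinarith [not_le.1 hcon]
    nlinarith
  have hc43 : c ^ 2 ≤ 4 / 3 := by nlinarith
  -- the slab
  set w : E := Sc n c (V.H i v) with hw
  have hwn : ‖w‖ ^ 2 ≤ 4 / 3 * V.b v i := by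
    refine (norm_Sc_le hn hc1' (V.H i v)).trans ?_
    exact mul_le_mul hc43 (norm_H_sq_le V i v) (sq_nonneg _) (by norm_num)
  obtain ⟨t, ht, hsl, hremt⟩ := hrem w
  have hremt' : t * S μ v - p.lam i * Real.log ((stdGaussian E).real {x | |⟪w, x⟫| ≤ t})
      ≤ 4 / 3 * e * p.lam i * V.b v i + r0 := by
    refine hremt.trans ?_
    have := mul_le_mul_of_nonneg_left hwn (mul_nonneg he hlam.le)
    linarith
  -- the cap constants
  set h' : ℝ := min (2 * V.b v i + BB V v i) 1 with hh'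
  have hh0 : 0 ≤ h' := le_min (by positivity) zero_le_one
  have hh1 : h' ≤ 1 := min_le_right _ _
  have hh2 : h' ≤ 2 * V.b v i + BB V v i := min_le_left _ _
  have hκ : 1 / p.rho ^ 2 ≤ 1 / 256 := one_div_le_one_div_of_le (by norm_num) hρ2
  have hκ0 : 0 < 1 / p.rho ^ 2 := by positivity
  have hy : 32 * h' * (1 / p.rho ^ 2) ≤ 1 / 8 := by nlinarith
  have hy0 : 0 ≤ 32 * h' * (1 / p.rho ^ 2) := by positivity
  have hlogy : -(64 * (2 * V.b v i + BB V v i) / p.rho ^ 2)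
      ≤ Real.log (1 - 32 * h' * (1 / p.rho ^ 2)) := by
    have h1 := Lev964.exp_le_one_sub (x := 32 * h' * (1 / p.rho ^ 2)) hy0 (by linarith)
    have h2 := Real.log_le_log (Real.exp_pos _) h1
    rw [Real.log_exp] at h2
    refine le_trans ?_ h2
    have h3 : h' * (1 / p.rho ^ 2) ≤ (2 * V.b v i + BB V v i) * (1 / p.rho ^ 2) :=
      mul_le_mul_of_nonneg_right hh2 hκ0.le
    have h4 : 64 * (2 * V.b v i + BB V v i) / p.rho ^ 2
        = 64 * ((2 * V.b v i + BB V v i) * (1 / p.rho ^ 2)) := by ring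
    rw [h4]
    linarith
  -- the radius
  set X := Lev964.NB V i ∘L V.H i with hX
  have hXN : ∀ g, ‖X g‖ ^ 2 = V.N i (V.H i g) := fun g => Lev964.norm_NB_sq V i _
  have hXint : ∫ g, ‖X g‖ ^ 2 ∂(stdGaussian E) = V.rr i := Lev964.integral_N V i
  have hrr0 := Lev964.rr_nonneg V i
  obtain ⟨r, hr, hrE, hrset, hrX⟩ : ∃ r : ℝ, 0 < r ∧ V.rr i ≤ 1 / p.rho ^ 2 * r ^ 2 ∧
      (∀ g, ‖X g‖ ≤ r ↔ V.N i (V.H i g) ≤ p.rho ^ 2 * V.rr i) ∧
      (∀ g, (1 - h') * ‖X g‖ ^ 2 ≤ p.rho ^ 2 * V.rr i → (1 - h') * ‖X g‖ ^ 2 ≤ r ^ 2) := by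
    rcases hrr0.eq_or_lt with h0 | h0
    · have hH := H_zero_of_rr (V := V) h0.symm
      have hX0 : ∀ g, X g = 0 := by intro g; rw [hX, hH]; simp
      have hN0 : ∀ g, V.N i (V.H i g) = 0 := by
        intro g; rw [← hXN, hX0]; simp
      refine ⟨1, one_pos, by rw [← h0]; positivity, fun g => ?_, fun g _ => ?_⟩
      · rw [hX0, hN0, ← h0]; simp
      · rw [hX0]; simp
    · refine ⟨p.rho * √(V.rr i), by positivity, ?_, fun g => ?_, fun g hg => ?_⟩
      · rw [mul_pow, Real.sq_sqrt h0.le]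
        apply le_of_eq; field_simp
      · have h1 : (p.rho * √(V.rr i)) ^ 2 = p.rho ^ 2 * V.rr i := by
          rw [mul_pow, Real.sq_sqrt h0.le]
        rw [← hXN, ← h1]
        exact (pow_le_pow_iff_left₀ (norm_nonneg _) (by positivity) two_ne_zero).symm
      · rw [mul_pow, Real.sq_sqrt h0.le]; exact hg
  -- reduce to one body
  have hmain : ∀ K', Adm p W i K' →
      D p V i μ + p.lam i * (min (c' ^ 2 / 1024) dl * al)
        - (p.lam i * (2 * BB V v i + 64 * (2 * V.b v i + BB V v i) / p.rho ^ 2)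
        + (4 / 3 * e * p.lam i * V.b v i + r0)) ≤ val p W i μ K' := by
    intro K' hK'
    obtain ⟨hcl, hcv, hsy, hsub, hpos⟩ := id hK'
    have hcpt := Lev964.adm_compact hK'
    have h0K' := Lev964.adm_zero hK'
    set B : Set E := W.H i ⁻¹' K' with hB
    have hBcl : IsClosed B := hcl.preimage (W.H i).continuous
    have hBcv : Convex ℝ B := hcv.linear_preimage (W.H i).toLinearMap
    have hBsy : ∀ x ∈ B, -x ∈ B := by
      intro x hx
      simp only [hB, mem_preimage, map_neg] at hx ⊢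
      exact hsy _ hx
    have hRB : ∀ g, R g ∈ B ↔ Ts v 1 (V.H i g) ∈ K' := by
      intro g
      have h1 : W.H i (R g) = Ts v 1 (V.H i g) := by
        show W.H i (W.Hi i (Ts v 1 (V.H i g))) = _
        rw [F5336.H_Hi W (by rw [h.n_eq]; exact hi.le)]
        exact F5336.P_of_mem W (h.mem hI (F5336.H_mem V i g))
      rw [hB, mem_preimage, h1]
    have hcore := core hn hτ0 hτ4 R J u hN' hBcl hBcv hBsy (V.H i v) t X (r := r) (h := h')
      (κ := 1 / p.rho ^ 2) hr hh0 (by linarith) (by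
        intro g hg
        rw [hRB] at hg
        apply hrX
        have h1 := h.cap hv hI hi (F5336.H_mem V i g)
        have h2 : W.N i (Ts v 1 (V.H i g)) ≤ p.rho ^ 2 * W.rr i := (hsub hg).2
        have h3 : p.rho ^ 2 * W.rr i ≤ p.rho ^ 2 * V.rr i :=
          mul_le_mul_of_nonneg_left (h.rr_le hI) hρp.le
        rw [hXN]
        have hN0 : 0 ≤ V.N i (V.H i g) := by rw [← hXN]; positivity
        rcases le_total (2 * V.b v i + BB V v i) 1 with h5 | h5
        · have : h' = 2 * V.b v i + BB V v i := min_eq_left h5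
          rw [this]; linarith
        · have : h' = 1 := min_eq_right h5
          rw [this, sub_self, zero_mul]
          positivity) (by rw [hXint]; exact hrE) (by linarith)
    rw [← hc, ← hw] at hcore
    set Q : Set E := {y | R y ∈ B ∧ |⟪V.H i v, y⟫| ≤ t ∧ ‖X y‖ ≤ r} with hQ
    have hQcl : IsClosed Q := by
      have e1 : IsClosed {y : E | R y ∈ B} := hBcl.preimage R.continuous
      have e2 : IsClosed {y : E | |⟪V.H i v, y⟫| ≤ t} := isClosed_le (by fun_prop) continuous_const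
      have e3 : IsClosed {y : E | ‖X y‖ ≤ r} := isClosed_le (by fun_prop) continuous_const
      exact e1.inter (e2.inter e3)
    -- the body of `V`
    set K : Set E := {x | (x ∈ V.M i ∧ Ts v 1 x ∈ K') ∧ |⟪v, x⟫| ≤ t ∧
      V.N i x ≤ p.rho ^ 2 * V.rr i} with hK
    have hTs : Continuous (Ts v 1 : E → E) := (Ts v 1).continuous
    have eK : K = ((V.M i : Set E) ∩ (Ts v 1) ⁻¹' K') ∩
        ({x : E | |⟪v, x⟫| ≤ t} ∩ {x : E | V.N i x ≤ p.rho ^ 2 * V.rr i}) := rfl
    have hKcl : IsClosed K := by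
      rw [eK]
      exact ((V.M i).closed_of_finiteDimensional.inter (hcl.preimage hTs)).inter
        ((isClosed_le (by fun_prop) continuous_const).inter (Lev964.isClosed_N V i _))
    have e2 : {x : E | |⟪v, x⟫| ≤ t} = (innerSL ℝ v) ⁻¹' (Metric.closedBall 0 t) := by
      ext x
      simp [Real.norm_eq_abs]
    have hKcv : Convex ℝ K := by
      rw [eK]
      refine ((V.M i).convex.inter (hcv.linear_preimage (Ts v 1).toLinearMap)).inter
        (Convex.inter ?_ (Lev964.convex_N V i (mul_nonneg hρp.le hrr0)))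
      have := (convex_closedBall (0 : ℝ) t).linear_preimage
        ((innerSL ℝ v : E →L[ℝ] ℝ) : E →ₗ[ℝ] ℝ)
      rw [e2]
      exact this
    have hKsy : ∀ x ∈ K, -x ∈ K := by
      rintro x ⟨⟨h1, h2⟩, h3, h4⟩
      refine ⟨⟨(V.M i).neg_mem h1, ?_⟩, ?_, ?_⟩
      · rw [map_neg]; exact hsy _ h2
      · rwa [inner_neg_right, abs_neg]
      · rwa [Lev964.N_neg]
    have hKsub : K ⊆ V.cap p.rho i := fun x hx => ⟨hx.1.1, hx.2.2⟩
    have h0K : (0 : E) ∈ K := by
      refine ⟨⟨(V.M i).zero_mem, ?_⟩, ?_, ?_⟩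
      · rwa [map_zero]
      · simpa using ht.le
      · have h5 : V.N i (0 : E) = 0 := by rw [← Lev964.norm_NB_sq, map_zero]; simp
        rw [h5]; positivity
    have hpre : V.H i ⁻¹' K = Q := by
      ext g
      simp only [hK, hQ, mem_preimage, mem_ofPred_eq, hRB, hrset, F5336.inner_H_comm V i v g]
      have := F5336.H_mem V i g
      tauto
    have hKr : (gau (V.H i)).real K = (stdGaussian E).real Q := by
      rw [gau_real_apply _ hKcl.measurableSet, hpre]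
    have hQcv : Convex ℝ Q := by rw [← hpre]; exact hKcv.linear_preimage (V.H i).toLinearMap
    have hQsy : ∀ x ∈ Q, -x ∈ Q := by
      intro x hx
      rw [← hpre, mem_preimage] at hx ⊢
      rw [map_neg]; exact hKsy _ hx
    have hK'r : (gau (W.H i)).real K' = (stdGaussian E).real B :=
      gau_real_apply _ hcl.measurableSet
    rw [hK'r] at hpos
    have hy1 : 0 < 1 - 32 * h' * (1 / p.rho ^ 2) := by linarith
    set ex := Real.exp (-(∑ k ∈ J, ‖u k‖ ^ 2)) * (stdGaussian E).real B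
      * (stdGaussian E).real {g : E | |⟪w, g⟫| ≤ t} * (1 - 32 * h' * (1 / p.rho ^ 2)) with hex
    have hexp : 0 < ex := by positivity
    have hlogex : Real.log ((stdGaussian E).real B)
        + Real.log ((stdGaussian E).real {g : E | |⟪w, g⟫| ≤ t})
        - 2 * BB V v i - 64 * (2 * V.b v i + BB V v i) / p.rho ^ 2 ≤ Real.log ex := by
      rw [hex, Real.log_mul (by positivity) hy1.ne', Real.log_mul (by positivity) hsl.ne',
        Real.log_mul (Real.exp_ne_zero _) hpos.ne', Real.log_exp]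
      linarith
    have hle1 := stretch_le' hn hτ0 hτ4 hQcl.measurableSet hQcv hQsy
    rw [← hc] at hle1
    have hQpos : 0 < (stdGaussian E).real Q := lt_of_lt_of_le hexp (hcore.trans hle1)
    have hadm : Adm p V i K := ⟨hKcl, hKcv, hKsy, hKsub, by rw [hKr]; exact hQpos⟩
    have hEh : Eh K μ ≤ Eh K' μ + 1 * t * S μ v :=
      F6core696.Eh_pullback (B := K) hcpt ⟨0, h0K⟩ zero_le_one (fun x => Ts_apply v 1 x)
        (fun x hx => hx.1.2) (fun x hx => hx.2.1) μ
    -- value without gain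
    have hval0 : val p V i μ K ≤ val p W i μ K'
        + (p.lam i * (2 * BB V v i + 64 * (2 * V.b v i + BB V v i) / p.rho ^ 2)
        + (4 / 3 * e * p.lam i * V.b v i + r0)) := by
      have h1 : Real.log ex ≤ Real.log ((stdGaussian E).real Q) :=
        Real.log_le_log hexp (hcore.trans hle1)
      unfold val
      rw [hKr, hK'r]
      have h2 := mul_le_mul_of_nonneg_left (hlogex.trans h1) hlam.le
      linarith
    have hDle := F6b696.D_le_val (μ := μ) hlam' hadm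
    have hm0 : min (c' ^ 2 / 1024) dl * al ≤ dl := by
      have h1 : min (c' ^ 2 / 1024) dl ≤ dl := min_le_right _ _
      have h2 : 0 ≤ min (c' ^ 2 / 1024) dl := le_min (by positivity) hdl.le
      calc min (c' ^ 2 / 1024) dl * al ≤ dl * 1 := mul_le_mul h1 hal1 hal0 hdl.le
        _ = dl := mul_one _
    by_cases hopt : NearOpt p V i μ K (dl * p.lam i)
    · rcases hnQ with hz | hQn
      · -- no block component
        rw [hz, mul_zero, mul_zero]
        linarith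
      · have hth := hthin K hopt n hn hQn
        rw [hKr, ← integral_block V hi hQn hKcl.measurableSet, hpre] at hth
        have hle2 := stretch_le hn hτ0 hτ4 hτc hQcl.measurableSet hQcv hQsy hth
        rw [← hc] at hle2
        have h1 : Real.log ex ≤ -(τ * c' / 4) + Real.log ((stdGaussian E).real Q) := by
          refine (Real.log_le_log hexp (hcore.trans hle2)).trans (le_of_eq ?_)
          rw [Real.log_mul (Real.exp_ne_zero _) hQpos.ne', Real.log_exp]
        have h2 : Real.log ((stdGaussian E).real B)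
            + Real.log ((stdGaussian E).real {g : E | |⟪w, g⟫| ≤ t})
            - 2 * BB V v i - 64 * (2 * V.b v i + BB V v i) / p.rho ^ 2 + τ * c' / 4
            ≤ Real.log ((stdGaussian E).real Q) := by linarith
        have h3 := mul_le_mul_of_nonneg_left h2 hlam.le
        have h4 : min (c' ^ 2 / 1024) dl * al ≤ τ * c' / 4 := by
          have h5 : min (c' ^ 2 / 1024) dl ≤ c' ^ 2 / 1024 := min_le_left _ _
          calc min (c' ^ 2 / 1024) dl * al ≤ c' ^ 2 / 1024 * al :=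
                mul_le_mul_of_nonneg_right h5 hal0
            _ = τ * c' / 4 := by rw [hτ]; ring
        have h5 := mul_le_mul_of_nonneg_left h4 hlam.le
        have h6 : D p V i μ ≤ Eh K μ - p.lam i * Real.log ((stdGaussian E).real Q) := by
          have := hDle
          unfold val at this
          rwa [hKr] at this
        unfold val
        rw [hK'r]
        linarith
    · have h1 : D p V i μ + dl * p.lam i < val p V i μ K := by
        by_contra hcon
        exact hopt ⟨hadm, not_lt.1 hcon⟩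
      have h2 := mul_le_mul_of_nonneg_left hm0 hlam.le
      linarith
  have hD : D p V i μ + p.lam i * (min (c' ^ 2 / 1024) dl * al)
        - (p.lam i * (2 * BB V v i + 64 * (2 * V.b v i + BB V v i) / p.rho ^ 2)
        + (4 / 3 * e * p.lam i * V.b v i + r0)) ≤ D p W i μ := by
    refine le_csInf ⟨_, W.cap p.rho i, OneLo816.adm_cap hp W i, rfl⟩ ?_
    rintro _ ⟨K', hK', rfl⟩
    exact hmain K' hK'
  linarith

/-- **(HI)** of the one-step line, thinness measured at `V` -/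
theorem target_ONEhiV : Target_ONEhiV := by
  intro c' dl hc0 hc1 hdl
  refine ⟨min (c' ^ 2 / 1024) dl, 128, lt_min (by positivity) hdl, by norm_num, ?_⟩
  intro sm S0 hsm hS0
  refine ⟨A0 sm S0, ?_⟩
  intro d p hp hA V W μ v I i hv hW hI hi hS hthin
  have hn : W.n = V.n := by rw [hW.1]; omega
  have h : Up V W v I := ⟨hn, hW.2.2⟩
  have hSv : 0 ≤ S μ v := by
    unfold S
    apply Multiset.sum_nonneg
    intro a ha
    obtain ⟨z, _, rfl⟩ := Multiset.mem_map.1 ha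
    exact abs_nonneg _
  have key := lev_hiV hp h hv (μ := μ) hI hi hc0 hc1 hdl hthin (e := 3 / 4 * sm)
    (r0 := sm * (1 / 2) ^ (i - I) * p.lam I) (by positivity)
    (fun w => rem_small hsm hS0 hp hA w hI hSv hS)
  have hlam := Rem864.lam_pos hp i
  have hρ2 : (256 : ℝ) ≤ p.rho ^ 2 := by nlinarith [hp.rho_ge]
  have hρp : (0 : ℝ) < p.rho ^ 2 := by linarith
  have hBB := BB_nonneg V v i
  have hb0 := F5336.b_nonneg V v i
  have h1 : 2 * BB V v i + 64 * (2 * V.b v i + BB V v i) / p.rho ^ 2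
      ≤ 128 / p.rho ^ 2 * V.b v i + 128 * BB V v i := by
    have h2 : BB V v i / p.rho ^ 2 ≤ BB V v i := div_le_self hBB (by linarith)
    have h3 : 64 * (2 * V.b v i + BB V v i) / p.rho ^ 2
        = 128 / p.rho ^ 2 * V.b v i + 64 * (BB V v i / p.rho ^ 2) := by ring
    rw [h3]; linarith
  have h2 := mul_le_mul_of_nonneg_left h1 hlam.le
  have h3 : 4 / 3 * (3 / 4 * sm) * p.lam i * V.b v i = sm * p.lam i * V.b v i := by ring
  rw [h3] at key
  linarith

end Crest.Agent.R239.OneHi592
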