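import Crest.Agent.R239.OneLo_207
import Crest.Agent.R239.OneLit_502
import Crest.Agent.R239.One1_142

/-! R239, one-step line, block (LO): `target_ONElo : Target_ONElo` (literal of OneLit_502), helper207. -/

set_option autoImplicit false
open MeasureTheory ProbabilityTheory Set
open scoped RealInnerProductSpace

namespace Crest.Agent.R239.OneLo207

open Crest.Agent.R239.FD

variable {E : Type*} [NormedAddCommGroup E] [InnerProductSpace ℝ E] [FiniteDimensional ℝ E]
  [MeasurableSpace E] [BorelSpace E]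

omit [MeasurableSpace E] [BorelSpace E] in
lemma isOne_of {V W : Flag E} {v : E} {I : ℕ} (hv : ‖v‖ = 1) (h : FD.IsOne V W v I) :
    OneLo207.IsOne V W v I := by
  obtain ⟨hn, h1, h2⟩ := h
  refine ⟨?_, ?_, ?_, ?_, ?_⟩
  · rw [hn]; exact le_max_left _ _
  · rw [hn]; exact lt_of_lt_of_le (Nat.lt_succ_self I) (le_max_right _ _)
  · intro j hj; rw [h1 j hj]; exact le_sup_left
  · intro j hj x
    show ‖(W.M j).starProjection x‖ ^ 2 = _
    simp only [h1 j hj]
    exact One142.norm_proj_sup (V.M j) hv x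
  · intro j hj x
    show ‖(W.M j).starProjection x‖ ^ 2 = _
    simp only [h2 j hj]
    exact One142.norm_proj_map (V.M j) hv x

/-- **(LO)** with `C = 1` -/
theorem p_ONElo {p : Par} (hp : p.Ok) : P_ONElo E p 1 := by
  intro V W μ v I i eps hv hW hiI hin he he1
  have h := lev_lo hp (isOne_of hv hW) hv hiI hin he μ
  refine le_trans ?_ h
  have hlam : 0 ≤ p.lam i := by
    have h1 := hp.tau_pos
    have h2 : 0 < p.A := by linarith [hp.A_ge]
    unfold Par.lam
    positivity
  have hX := XI_nonneg V v I i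
  have e1 : (th⁻¹) ^ (2 * (I - i)) = (25 / 16 : ℝ) ^ (I - i) := by
    rw [pow_mul]; norm_num [th]
  have e2 : (1 : ℝ) ≤ (25 / 16 : ℝ) ^ (I - i) := one_le_pow₀ (by norm_num)
  have e3 : (9 / 25 + 81 / 625 / eps) * XI V v I i ≤ 1 / eps * XI V v I i := by
    refine mul_le_mul_of_nonneg_right ?_ hX
    rw [div_add_div _ _ (by norm_num) he.ne', div_le_div_iff₀ (by positivity) he]
    nlinarith
  have e4 : ∑ j ∈ Finset.Ico (I + 1) V.n, (25 / 8 : ℝ) ^ (j - i) * V.b v j = XI V v I i := rfl
  rw [e1, e4]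
  have e5 : 0 ≤ 1 / eps * XI V v I i := by positivity
  have e6 := mul_le_mul_of_nonneg_left (show ((25 / 16 : ℝ) ^ (I - i) - 1 + eps
      + (9 / 25 + 81 / 625 / eps) * XI V v I i) / 2 + 2 / p.rho ^ 2
      ≤ (25 / 16 : ℝ) ^ (I - i) - 1 + 2 / p.rho ^ 2 + eps + 1 / eps * XI V v I i by linarith) hlam
  linarith

/-- **target of block (LO)** -/
theorem target_ONElo : Target_ONElo :=
  ⟨1, one_pos, fun _ _ hp => p_ONElo hp⟩

end Crest.Agent.R239.OneLo207
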