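import Mathlib
import Crest.Agent.R239.FDef
import Crest.Agent.R239.OneLit_502
import Crest.Agent.R239.OneLo_816
import Crest.Agent.R239.One1_142
import Crest.Agent.R239.FlagAlg_557

/-! R239 / S0370, one-step line, part (b), helper816: `p_onelo : P_ONElo E p 3` (levels `i ≤ I`),
`target_onelo : Target_ONElo` and `p_onepen : P_ONEpen E p` (price of the dimensions). -/

set_option autoImplicit false
set_option linter.unusedSectionVars false
open MeasureTheory ProbabilityTheory Set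
open scoped RealInnerProductSpace

namespace Crest.Agent.R239.OneLo816

open Crest.Agent.R239 (gau gau_real_apply)
open Crest.Agent.R239.FD
open Crest.Agent.R239.One142 (nn nv nn_eq norm_nv_le nn_sub_sq norm_proj_sup norm_proj_map
  norm_proj_sq_le inner_Ts_one Ts_one_apply nn_nonneg)

/-! ### weights -/

lemma om_eq (m : ℕ) (hm : 1 ≤ m) : FlagAlg557.om th m = om m := by
  rw [FlagAlg557.om_eq AdmHalf606.th_pos m hm]
  unfold om
  rw [← inv_pow, ← pow_mul, mul_comm m 2]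

lemma om_pos (m : ℕ) : 0 < om m := by
  unfold om
  have h1 : (0 : ℝ) < th⁻¹ := inv_pos.2 AdmHalf606.th_pos
  have h2 : (0 : ℝ) < 1 - th ^ 2 := by norm_num [th]
  positivity

lemma sum_om {i I : ℕ} (h : i ≤ I) :
    ∑ j ∈ Finset.Ico (i + 1) (I + 1), om (j - i) = (th⁻¹) ^ (2 * (I - i)) - 1 := by
  induction I, h using Nat.le_induction with
  | base => simp
  | succ I hI ih =>
    rw [Finset.sum_Ico_succ_top (by omega), ih]
    have e1 : I + 1 - i = (I - i) + 1 := by omega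
    rw [e1]
    unfold om
    have hth : th ≠ 0 := AdmHalf606.th_pos.ne'
    have : (th⁻¹) ^ (2 * (I - i + 1)) = (th⁻¹) ^ (2 * (I - i)) * (th⁻¹) ^ 2 := by
      rw [← pow_add]; congr 1
    rw [this]
    field_simp
    ring

lemma om_mul_em {eps : ℝ} (m : ℕ) : om m * em eps m = eps * (1 - th ^ 2) * (1 / 2) ^ m := by
  unfold om FD.em
  have hth : th ≠ 0 := AdmHalf606.th_pos.ne'
  rw [pow_mul, div_pow, one_div, inv_pow, inv_pow, ← pow_mul]
  have h1 : (th ^ (2 * m)) ≠ 0 := pow_ne_zero _ hth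
  have h2 : ((2 : ℝ) ^ m) ≠ 0 := pow_ne_zero _ (by norm_num)
  rw [inv_pow]
  field_simp

lemma em_pos {eps : ℝ} (h : 0 < eps) (m : ℕ) : 0 < em eps m := by
  unfold FD.em
  have := AdmHalf606.th_pos
  positivity

lemma inv_em {eps : ℝ} (m : ℕ) : 1 / em eps m = (1 / eps) * (25 / 8) ^ m := by
  unfold FD.em
  have : th ^ 2 / 2 = (8 / 25 : ℝ) := by norm_num [th]
  rw [this]
  rw [one_div, mul_inv, ← inv_pow]
  norm_num

lemma om_mul_th (m : ℕ) : om m * th ^ (2 * m) = 1 - th ^ 2 := by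
  unfold om
  have hth : th ≠ 0 := AdmHalf606.th_pos.ne'
  rw [inv_pow]
  have h1 : (th ^ (2 * m)) ≠ 0 := pow_ne_zero _ hth
  field_simp

lemma om_le (m : ℕ) : om m ≤ (25 / 8) ^ m := by
  unfold om
  rw [pow_mul]
  have e : (th⁻¹) ^ 2 = (25 / 16 : ℝ) := by norm_num [th]
  rw [e]
  have h1 : (25 / 16 : ℝ) ^ m ≤ (25 / 8) ^ m := pow_le_pow_left₀ (by norm_num) (by norm_num) m
  have h2 : (0 : ℝ) ≤ (25 / 16) ^ m := by positivity
  have h3 : (1 : ℝ) - th ^ 2 ≤ 1 := by norm_num [th]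
  nlinarith

variable {E : Type*} [NormedAddCommGroup E] [InnerProductSpace ℝ E] [FiniteDimensional ℝ E]
  [MeasurableSpace E] [BorelSpace E]

/-! ### flag algebra -/

lemma Hi_eq (V : Flag E) (i : ℕ) : V.Hi i = FlagAlg557.Hi V.M th V.n i := by
  simp only [Flag.Hi, FlagAlg557.Hi, FlagAlg557.comb, inv_pow]
  rfl

/-- precision form of level `i` -/
lemma norm_Hi_sq (V : Flag E) {i : ℕ} (h : i < V.n) (x : E) :
    ‖V.Hi i x‖ ^ 2 = ‖V.P i x‖ ^ 2 + ∑ j ∈ Finset.Ico (i + 1) V.n, om (j - i) * ‖V.P j x‖ ^ 2 := by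
  rw [Hi_eq, FlagAlg557.norm_Hi_sq V.anti h (V.bot _ le_rfl)]
  congr 1
  refine Finset.sum_congr rfl fun j hj => ?_
  rw [om_eq (j - i) (by have := (Finset.mem_Ico.1 hj).1; omega)]
  rfl

lemma inner_H (V : Flag E) (i : ℕ) (x y : E) : ⟪V.H i x, y⟫ = ⟪x, V.H i y⟫ :=
  FlagAlg557.inner_comb_comm i V.n _ x y

lemma norm_H_le (V : Flag E) (i : ℕ) (x : E) : ‖V.H i x‖ ≤ ‖x‖ :=
  (FlagAlg557.norm_H_le V.anti AdmHalf606.th_pos AdmHalf606.th_lt_one.le V.n i
    (V.bot _ le_rfl) x).trans (F6b696.norm_P_le V i x)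

/-- `|H_i P_j x| ≤ th^(j-i) |P_j x|` -/
lemma norm_H_P_le (V : Flag E) {i j : ℕ} (hij : i ≤ j) (hj : j ≤ V.n) (x : E) :
    ‖V.H i (V.P j x)‖ ≤ th ^ (j - i) * ‖V.P j x‖ := by
  have h1 : V.P j (V.H i (V.P j x)) = V.H i (V.P j x) := by
    refine F6b696.P_of_mem V ?_
    have : V.H i (V.P j x) = FlagAlg557.comb V.M i V.n (fun l => th ^ (l - i)) (V.P j x) := rfl
    rw [this]
    have e : V.P j x = FlagAlg557.P V.M j x := rfl
    rw [e, FlagAlg557.comb_P_ge V.anti hij hj]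
    exact FlagAlg557.comb_mem V.anti j V.n _ x
  have h2 : V.P j (V.H i (V.P j x)) = th ^ (j - i) • V.H j (V.P j x) :=
    FlagAlg557.P_H V.anti hij hj (V.P j x)
  rw [← h1, h2, norm_smul, Real.norm_eq_abs, abs_of_pos (pow_pos AdmHalf606.th_pos _)]
  exact mul_le_mul_of_nonneg_left (norm_H_le V j _) (pow_pos AdmHalf606.th_pos _).le

/-! ### projections of the one-step flag -/

section one

variable {V W : Flag E} {v : E} {I : ℕ}

lemma isOne_P_le (h : IsOne V W v I) (hv : ‖v‖ = 1) {j : ℕ} (hj : j ≤ I) (x : E) :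
    ‖W.P j x‖ ^ 2 = ‖V.P j x‖ ^ 2 + nn (V.M j) v x := by
  show ‖(W.M j).starProjection x‖ ^ 2 = _
  simp only [h.2.1 j hj]
  exact norm_proj_sup _ hv x

lemma isOne_P_gt (h : IsOne V W v I) (hv : ‖v‖ = 1) {j : ℕ} (hj : I < j) (x : E) :
    ‖W.P j x‖ ^ 2 = ‖V.P j x‖ ^ 2 + nn (V.M j) v x - ⟪v, x⟫ ^ 2 := by
  show ‖(W.M j).starProjection x‖ ^ 2 = _
  simp only [h.2.2 j hj]
  exact norm_proj_map _ hv x

lemma isOne_le (h : IsOne V W v I) {j : ℕ} (hj : j ≤ I) : V.M j ≤ W.M j := by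
  rw [h.2.1 j hj]
  exact le_sup_left

/-- the vectors of the comparison at a level `i ≤ I` -/
noncomputable def wlo (V : Flag E) (v : E) (I i : ℕ) (eps : ℝ) (q : ℕ × ℕ) : E :=
  if q.1 ≤ I then
    (if q.2 = 0 then Real.sqrt (om (q.1 - i)) • V.H i (nv (V.M q.1) v) else 0)
  else
    (if q.2 = 0 then Real.sqrt (om (q.1 - i) * em eps (q.1 - i)) • V.H i v
     else if q.2 = 1 then
      Real.sqrt (om (q.1 - i) * (1 + 1 / em eps (q.1 - i))) • V.H i (V.P q.1 v)
     else Real.sqrt (om (q.1 - i) * V.b v q.1) • V.H i (nv (V.M q.1) v))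

lemma b_nonneg (V : Flag E) (v : E) (j : ℕ) : 0 ≤ V.b v j := sq_nonneg _

lemma inner_sqrt_sq {a : ℝ} (ha : 0 ≤ a) (V : Flag E) (i : ℕ) (y g : E) :
    ⟪Real.sqrt a • V.H i y, g⟫ ^ 2 = a * ⟪y, V.H i g⟫ ^ 2 := by
  rw [inner_smul_left, inner_H]
  simp only [conj_trivial]
  rw [mul_pow, Real.sq_sqrt ha]

lemma norm_sqrt_sq {a : ℝ} (ha : 0 ≤ a) (y : E) : ‖Real.sqrt a • y‖ ^ 2 = a * ‖y‖ ^ 2 := by
  rw [norm_smul, mul_pow, Real.norm_eq_abs, sq_abs, Real.sq_sqrt ha]

/-- pointwise form of the comparison, one index `j` -/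
lemma wlo_point (h : IsOne V W v I) (hv : ‖v‖ = 1) {i j : ℕ} {eps : ℝ} (heps : 0 < eps) (g : E) :
    om (j - i) * (‖W.P j (V.H i g)‖ ^ 2 - ‖V.P j (V.H i g)‖ ^ 2)
      ≤ ∑ k ∈ Finset.range 3, ⟪wlo V v I i eps (j, k), g⟫ ^ 2 := by
  have ho := om_pos (j - i)
  have he := em_pos heps (j - i)
  rw [Finset.sum_range_succ, Finset.sum_range_succ, Finset.sum_range_one]
  by_cases hj : j ≤ I
  · rw [isOne_P_le h hv hj]
    have e0 : wlo V v I i eps (j, 0) = Real.sqrt (om (j - i)) • V.H i (nv (V.M j) v) := by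
      simp [wlo, hj]
    rw [e0, inner_sqrt_sq ho.le, ← nn_eq _ hv]
    have h1 := sq_nonneg ⟪wlo V v I i eps (j, 1), g⟫
    have h2 := sq_nonneg ⟪wlo V v I i eps (j, 2), g⟫
    nlinarith
  · rw [isOne_P_gt h hv (by omega)]
    have e0 : wlo V v I i eps (j, 0) = Real.sqrt (om (j - i) * em eps (j - i)) • V.H i v := by
      simp [wlo, hj]
    have e1 : wlo V v I i eps (j, 1)
        = Real.sqrt (om (j - i) * (1 + 1 / em eps (j - i))) • V.H i (V.P j v) := by
      simp [wlo, hj]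
    have e2 : wlo V v I i eps (j, 2)
        = Real.sqrt (om (j - i) * V.b v j) • V.H i (nv (V.M j) v) := by
      simp [wlo, hj]
    rw [e0, e1, e2, inner_sqrt_sq (mul_pos ho he).le,
      inner_sqrt_sq (mul_pos ho (by positivity)).le, inner_sqrt_sq (mul_nonneg ho.le (b_nonneg V v j)),
      ← nn_eq _ hv]
    have key := nn_sub_sq (V.M j) hv (V.H i g)
    set x := V.H i g
    set ξ := ⟪v, x⟫
    have hze : ⟪(V.M j).starProjection v, x⟫ = ⟪V.P j v, x⟫ := rfl
    rw [hze] at key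
    set ze := ⟪V.P j v, x⟫
    have hb : ‖(V.M j).starProjection v‖ ^ 2 = V.b v j := rfl
    rw [hb] at key
    have hq : -(2 * ξ * ze) ≤ em eps (j - i) * ξ ^ 2 + 1 / em eps (j - i) * ze ^ 2 := by
      have h1 : 0 ≤ (em eps (j - i) * ξ + ze) ^ 2 / em eps (j - i) :=
        div_nonneg (sq_nonneg _) he.le
      have h2 : (em eps (j - i) * ξ + ze) ^ 2 / em eps (j - i)
          = em eps (j - i) * ξ ^ 2 + 2 * ξ * ze + 1 / em eps (j - i) * ze ^ 2 := by
        field_simp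
        ring
      linarith
    have : om (j - i) * (‖V.P j x‖ ^ 2 + nn (V.M j) v x - ξ ^ 2 - ‖V.P j x‖ ^ 2)
        = om (j - i) * (-(2 * ξ * ze) + ze ^ 2 + V.b v j * nn (V.M j) v x) := by
      rw [← key]; ring
    rw [this]
    have := mul_le_mul_of_nonneg_left hq ho.le
    nlinarith

/-- norms of the vectors, one index `j` -/
lemma wlo_norm_le (hv : ‖v‖ = 1) {i j : ℕ} (hj : j ≤ I) {eps : ℝ} :
    ∑ k ∈ Finset.range 3, ‖wlo V v I i eps (j, k)‖ ^ 2 ≤ om (j - i) := by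
  rw [Finset.sum_range_succ, Finset.sum_range_succ, Finset.sum_range_one]
  have e0 : wlo V v I i eps (j, 0) = Real.sqrt (om (j - i)) • V.H i (nv (V.M j) v) := by
    simp [wlo, hj]
  have e1 : wlo V v I i eps (j, 1) = 0 := by simp [wlo, hj]
  have e2 : wlo V v I i eps (j, 2) = 0 := by simp [wlo, hj]
  rw [e0, e1, e2, norm_sqrt_sq (om_pos _).le, norm_zero]
  have h1 : ‖V.H i (nv (V.M j) v)‖ ^ 2 ≤ 1 :=
    (pow_le_pow_left₀ (norm_nonneg _) (norm_H_le V i _) 2).trans (norm_nv_le _ hv)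
  have := om_pos (j - i)
  nlinarith

lemma wlo_norm_gt (hv : ‖v‖ = 1) {i j : ℕ} (hij : i ≤ I) (hj : I < j) {eps : ℝ} (heps : 0 < eps)
    (heps1 : eps ≤ 1) :
    ∑ k ∈ Finset.range 3, ‖wlo V v I i eps (j, k)‖ ^ 2
      ≤ eps * (1 / 2) ^ (j - i) + 3 / eps * ((25 / 8) ^ (j - i) * V.b v j) := by
  rw [Finset.sum_range_succ, Finset.sum_range_succ, Finset.sum_range_one]
  have hj' : ¬ j ≤ I := by omega
  have ho := om_pos (j - i)
  have he := em_pos heps (j - i)
  have e0 : wlo V v I i eps (j, 0) = Real.sqrt (om (j - i) * em eps (j - i)) • V.H i v := by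
    simp [wlo, hj']
  have e1 : wlo V v I i eps (j, 1)
      = Real.sqrt (om (j - i) * (1 + 1 / em eps (j - i))) • V.H i (V.P j v) := by
    simp [wlo, hj']
  have e2 : wlo V v I i eps (j, 2)
      = Real.sqrt (om (j - i) * V.b v j) • V.H i (nv (V.M j) v) := by
    simp [wlo, hj']
  rw [e0, e1, e2, norm_sqrt_sq (mul_pos ho he).le, norm_sqrt_sq (mul_pos ho (by positivity)).le,
    norm_sqrt_sq (mul_nonneg ho.le (b_nonneg V v j))]
  have hb := b_nonneg V v j
  have hpw : (1 : ℝ) ≤ (25 / 8) ^ (j - i) := one_le_pow₀ (by norm_num)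
  have hie : (1 : ℝ) ≤ 1 / eps := by rw [le_div_iff₀ heps]; linarith
  -- (1)
  have t1 : om (j - i) * em eps (j - i) * ‖V.H i v‖ ^ 2 ≤ eps * (1 / 2) ^ (j - i) := by
    have h1 : ‖V.H i v‖ ^ 2 ≤ 1 := by
      have := pow_le_pow_left₀ (norm_nonneg _) (norm_H_le V i v) 2
      rw [hv] at this; simpa using this
    have h2 := om_mul_em (eps := eps) (j - i)
    have h3 : 0 < om (j - i) * em eps (j - i) := mul_pos ho he
    have h4 : (1 : ℝ) - th ^ 2 ≤ 1 := by norm_num [th]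
    have h5 : (0 : ℝ) < (1 / 2) ^ (j - i) := by positivity
    calc om (j - i) * em eps (j - i) * ‖V.H i v‖ ^ 2 ≤ om (j - i) * em eps (j - i) := by nlinarith
      _ = eps * (1 - th ^ 2) * (1 / 2) ^ (j - i) := h2
      _ ≤ eps * 1 * (1 / 2) ^ (j - i) := by gcongr
      _ = _ := by ring
  -- (2)
  have t2 : om (j - i) * (1 + 1 / em eps (j - i)) * ‖V.H i (V.P j v)‖ ^ 2
      ≤ 2 / eps * ((25 / 8) ^ (j - i) * V.b v j) := by
    by_cases hn : j ≤ V.n
    · have h1 : ‖V.H i (V.P j v)‖ ^ 2 ≤ th ^ (2 * (j - i)) * V.b v j := by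
        have := pow_le_pow_left₀ (norm_nonneg _) (norm_H_P_le V (by omega : i ≤ j) hn v) 2
        rw [mul_pow, ← pow_mul, mul_comm (j - i) 2] at this
        exact this
      have h2 : 0 < om (j - i) * (1 + 1 / em eps (j - i)) := mul_pos ho (by positivity)
      calc om (j - i) * (1 + 1 / em eps (j - i)) * ‖V.H i (V.P j v)‖ ^ 2
          ≤ om (j - i) * (1 + 1 / em eps (j - i)) * (th ^ (2 * (j - i)) * V.b v j) :=
            mul_le_mul_of_nonneg_left h1 h2.le
        _ = (om (j - i) * th ^ (2 * (j - i))) * ((1 + 1 / em eps (j - i)) * V.b v j) := by ring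
        _ = (1 - th ^ 2) * ((1 + 1 / em eps (j - i)) * V.b v j) := by rw [om_mul_th]
        _ ≤ 1 * ((1 + 1 / em eps (j - i)) * V.b v j) := by
            have : (1 : ℝ) - th ^ 2 ≤ 1 := by norm_num [th]
            gcongr
        _ = V.b v j + (1 / eps) * (25 / 8) ^ (j - i) * V.b v j := by rw [inv_em]; ring
        _ ≤ (1 / eps) * (25 / 8) ^ (j - i) * V.b v j + (1 / eps) * (25 / 8) ^ (j - i) * V.b v j := by
            have : (1 : ℝ) ≤ (1 / eps) * (25 / 8) ^ (j - i) := by nlinarith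
            nlinarith
        _ = _ := by ring
    · have h0 : V.P j v = 0 := F6b696.P_of_n_le V (by omega) v
      rw [h0, map_zero, norm_zero]
      have : 0 ≤ 2 / eps * ((25 / 8) ^ (j - i) * V.b v j) := by positivity
      simpa using this
  -- (3)
  have t3 : om (j - i) * V.b v j * ‖V.H i (nv (V.M j) v)‖ ^ 2
      ≤ 1 / eps * ((25 / 8) ^ (j - i) * V.b v j) := by
    have h1 : ‖V.H i (nv (V.M j) v)‖ ^ 2 ≤ 1 :=
      (pow_le_pow_left₀ (norm_nonneg _) (norm_H_le V i _) 2).trans (norm_nv_le _ hv)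
    have h2 : 0 ≤ om (j - i) * V.b v j := mul_nonneg ho.le hb
    have h3 := om_le (j - i)
    calc om (j - i) * V.b v j * ‖V.H i (nv (V.M j) v)‖ ^ 2 ≤ om (j - i) * V.b v j := by nlinarith
      _ ≤ (25 / 8) ^ (j - i) * V.b v j := by gcongr
      _ ≤ 1 / eps * ((25 / 8) ^ (j - i) * V.b v j) := by
          have : 0 ≤ (25 / 8 : ℝ) ^ (j - i) * V.b v j := by positivity
          nlinarith
  have : 3 / eps * ((25 / 8) ^ (j - i) * V.b v j) = 2 / eps * ((25 / 8) ^ (j - i) * V.b v j)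
      + 1 / eps * ((25 / 8) ^ (j - i) * V.b v j) := by ring
  rw [this]
  linarith

lemma geo_half (a b : ℕ) (i : ℕ) (h : i < a) :
    ∑ j ∈ Finset.Ico a b, (1 / 2 : ℝ) ^ (j - i) ≤ 1 := by
  have h1 : ∀ m : ℕ, a ≤ m → ∑ j ∈ Finset.Ico a m, (1 / 2 : ℝ) ^ (j - i)
      ≤ 1 - (1 / 2) ^ (m - 1 - i) := by
    intro m hm
    induction m, hm using Nat.le_induction with
    | base =>
      simp only [Finset.Ico_self, Finset.sum_empty]
      have : (1 / 2 : ℝ) ^ (a - 1 - i) ≤ 1 := pow_le_one₀ (by norm_num) (by norm_num)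
      linarith
    | succ m hm ih =>
      rw [Finset.sum_Ico_succ_top hm]
      have e1 : m - i = (m - 1 - i) + 1 := by omega
      have e2 : m + 1 - 1 - i = (m - 1 - i) + 1 := by omega
      rw [e1, e2, pow_succ]
      linarith
  rcases le_or_gt a b with hab | hab
  · have := h1 b hab
    have h2 : (0 : ℝ) < (1 / 2) ^ (b - 1 - i) := by positivity
    linarith
  · rw [Finset.Ico_eq_empty (by omega)]
    simp

/-- **(LO)** -/
theorem p_onelo {p : Par} (hp : p.Ok) : P_ONElo E p 3 := by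
  intro V W μ v I i eps hv hW hiI hin heps heps1
  set m := W.n with hm
  have hm' : m = max V.n (I + 1) := hW.1
  set s : Finset (ℕ × ℕ) := Finset.Ico (i + 1) m ×ˢ Finset.range 3 with hs
  have hN : ∀ g, ‖W.Hi i (V.H i g)‖ ^ 2
      ≤ ‖g‖ ^ 2 + ∑ q ∈ s, ⟪wlo V v I i eps q, g⟫ ^ 2 := by
    intro g
    have hiW : i < W.n := by rw [← hm, hm']; omega
    have hVn : V.n ≤ m := by rw [hm']; exact le_max_left _ _
    rw [norm_Hi_sq W hiW]
    have hmem : V.H i g ∈ W.M i := isOne_le hW hiI (F6b696.H_mem V i g)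
    rw [F6b696.P_of_mem W hmem]
    have h1 := norm_Hi_sq V hin (V.H i g)
    rw [F6b696.Hi_H, F6b696.P_of_mem V (F6b696.H_mem V i g)] at h1
    have h2 : ‖V.P i g‖ ^ 2 ≤ ‖g‖ ^ 2 := pow_le_pow_left₀ (norm_nonneg _) (F6b696.norm_P_le V i g) 2
    have h3 : ∑ j ∈ Finset.Ico (i + 1) V.n, om (j - i) * ‖V.P j (V.H i g)‖ ^ 2
        = ∑ j ∈ Finset.Ico (i + 1) m, om (j - i) * ‖V.P j (V.H i g)‖ ^ 2 := by
      refine Finset.sum_subset (Finset.Ico_subset_Ico_right hVn) fun j hj hj' => ?_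
      have : V.n ≤ j := by
        by_contra hlt
        exact hj' (Finset.mem_Ico.2 ⟨(Finset.mem_Ico.1 hj).1, by omega⟩)
      rw [F6b696.P_of_n_le V this, norm_zero]
      ring
    rw [h3] at h1
    have h4 : ∑ j ∈ Finset.Ico (i + 1) m, om (j - i) * ‖W.P j (V.H i g)‖ ^ 2
        ≤ ∑ j ∈ Finset.Ico (i + 1) m, om (j - i) * ‖V.P j (V.H i g)‖ ^ 2
          + ∑ q ∈ s, ⟪wlo V v I i eps q, g⟫ ^ 2 := by
      rw [hs, Finset.sum_product, ← Finset.sum_add_distrib]
      refine Finset.sum_le_sum fun j _ => ?_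
      have := wlo_point hW hv (i := i) (j := j) heps g
      linarith
    linarith
  have core := lev_lo_core hp V W i μ (isOne_le hW hiI) s (wlo V v I i eps) hN
  have hnorm : ∑ q ∈ s, ‖wlo V v I i eps q‖ ^ 2
      ≤ (th⁻¹) ^ (2 * (I - i)) - 1 + eps
        + 3 / eps * ∑ j ∈ Finset.Ico (I + 1) V.n, (25 / 8 : ℝ) ^ (j - i) * V.b v j := by
    rw [hs, Finset.sum_product]
    have hsplit : ∑ j ∈ Finset.Ico (i + 1) m, ∑ k ∈ Finset.range 3, ‖wlo V v I i eps (j, k)‖ ^ 2
        = ∑ j ∈ Finset.Ico (i + 1) (I + 1), ∑ k ∈ Finset.range 3, ‖wlo V v I i eps (j, k)‖ ^ 2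
          + ∑ j ∈ Finset.Ico (I + 1) m, ∑ k ∈ Finset.range 3, ‖wlo V v I i eps (j, k)‖ ^ 2 := by
      rw [Finset.sum_Ico_consecutive _ (by omega) (by rw [hm']; exact le_max_right _ _)]
    rw [hsplit]
    have p1 : ∑ j ∈ Finset.Ico (i + 1) (I + 1), ∑ k ∈ Finset.range 3,
        ‖wlo V v I i eps (j, k)‖ ^ 2 ≤ (th⁻¹) ^ (2 * (I - i)) - 1 := by
      rw [← sum_om hiI]
      refine Finset.sum_le_sum fun j hj => ?_
      have := Finset.mem_Ico.1 hj
      exact wlo_norm_le hv (by omega)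
    have p2 : ∑ j ∈ Finset.Ico (I + 1) m, ∑ k ∈ Finset.range 3, ‖wlo V v I i eps (j, k)‖ ^ 2
        ≤ ∑ j ∈ Finset.Ico (I + 1) m, (eps * (1 / 2) ^ (j - i)
          + 3 / eps * ((25 / 8) ^ (j - i) * V.b v j)) := by
      refine Finset.sum_le_sum fun j hj => ?_
      have := Finset.mem_Ico.1 hj
      exact wlo_norm_gt hv hiI (by omega) heps heps1
    rw [Finset.sum_add_distrib, ← Finset.mul_sum, ← Finset.mul_sum] at p2
    have p3 := geo_half (I + 1) m i (by omega)
    have p4 : ∑ j ∈ Finset.Ico (I + 1) m, (25 / 8 : ℝ) ^ (j - i) * V.b v j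
        = ∑ j ∈ Finset.Ico (I + 1) V.n, (25 / 8 : ℝ) ^ (j - i) * V.b v j := by
      symm
      refine Finset.sum_subset (Finset.Ico_subset_Ico_right (by rw [hm']; exact le_max_left _ _))
        fun j hj hj' => ?_
      have : V.n ≤ j := by
        by_contra hlt
        exact hj' (Finset.mem_Ico.2 ⟨(Finset.mem_Ico.1 hj).1, by omega⟩)
      unfold Flag.b
      rw [F6b696.P_of_n_le V this, norm_zero]
      ring
    rw [p4] at p2
    have p5 : eps * ∑ j ∈ Finset.Ico (I + 1) m, (1 / 2 : ℝ) ^ (j - i) ≤ eps := by nlinarith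
    linarith
  have hpos : 0 ≤ ∑ q ∈ s, ‖wlo V v I i eps q‖ ^ 2 := Finset.sum_nonneg fun _ _ => sq_nonneg _
  have hlam := lam_nonneg hp i
  have hfin : p.lam i * ((∑ q ∈ s, ‖wlo V v I i eps q‖ ^ 2) / 2 + 2 / p.rho ^ 2)
      ≤ p.lam i * ((th⁻¹) ^ (2 * (I - i)) - 1 + 2 / p.rho ^ 2 + eps
        + 3 / eps * ∑ j ∈ Finset.Ico (I + 1) V.n, (25 / 8 : ℝ) ^ (j - i) * V.b v j) := by
    refine mul_le_mul_of_nonneg_left ?_ hlam
    linarith
  linarith

end one

/-- target of part (b) -/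
theorem target_onelo : Target_ONElo := ⟨3, by norm_num, fun _ _ hp => p_onelo hp⟩

/-! ### the price of the dimensions -/

/-- second Abel inequality: a dimension is saved at the levels `I < j ≤ m` -/
theorem pen_abel2 {lam : ℕ → ℝ} (hlam : Monotone lam) (h0 : 0 ≤ lam 0) {f g : ℕ → ℕ}
    (hf : Antitone f) (hg : Antitone g) {I m N : ℕ} (hIm : I < m) (hmN : m < N) (hfN : f N = 0)
    (hgN : g N = 0) (h1 : ∀ j, g j ≤ f j) (h2 : ∀ j, I < j → j ≤ m → g j + 1 ≤ f j) :
    ∑ j ∈ Finset.range N, lam j * ((g j - g (j + 1) : ℕ) : ℝ) + (lam m - lam I)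
      ≤ ∑ j ∈ Finset.range N, lam j * ((f j - f (j + 1) : ℕ) : ℝ) := by
  set D : ℕ → ℝ := fun j => (g j : ℝ) - f j with hD
  have hD1 : ∀ j, D j ≤ 0 := by
    intro j
    have : (g j : ℝ) ≤ f j := by exact_mod_cast h1 j
    simp only [hD]; linarith
  have hD2 : ∀ j, I < j → j ≤ m → D j ≤ -1 := by
    intro j hj hj'
    have : (g j : ℝ) + 1 ≤ f j := by exact_mod_cast h2 j hj hj'
    simp only [hD]; linarith
  have key : ∀ l : ℕ, ∑ j ∈ Finset.range (l + 1), lam j * (D j - D (j + 1)) + lam l * D (l + 1)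
      ≤ -(lam (max I (min l m)) - lam I) := by
    intro l
    induction l with
    | zero =>
      simp only [zero_add, Finset.sum_range_one, Nat.zero_min]
      rw [max_eq_left (Nat.zero_le I)]
      have := hD1 0
      nlinarith
    | succ l ih =>
      rw [Finset.sum_range_succ]
      have hm : lam l ≤ lam (l + 1) := hlam (Nat.le_succ l)
      rcases le_or_gt (l + 1) I with h | h
      · have e1 : max I (min (l + 1) m) = I := by omega
        have e2 : max I (min l m) = I := by omega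
        rw [e2] at ih
        rw [e1]
        have := hD1 (l + 1)
        nlinarith
      · rcases le_or_gt (l + 1) m with h' | h'
        · have e1 : max I (min (l + 1) m) = l + 1 := by omega
          have e2 : max I (min l m) = l := by omega
          rw [e2] at ih
          rw [e1]
          have := hD2 (l + 1) h h'
          nlinarith
        · have e1 : max I (min (l + 1) m) = m := by omega
          have e2 : max I (min l m) = m := by omega
          rw [e2] at ih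
          rw [e1]
          have := hD1 (l + 1)
          nlinarith
  have hsub : ∑ j ∈ Finset.range N, lam j * ((g j - g (j + 1) : ℕ) : ℝ)
      - ∑ j ∈ Finset.range N, lam j * ((f j - f (j + 1) : ℕ) : ℝ)
      = ∑ j ∈ Finset.range N, lam j * (D j - D (j + 1)) := by
    rw [← Finset.sum_sub_distrib]
    refine Finset.sum_congr rfl fun j _ => ?_
    rw [Nat.cast_sub (hg (Nat.le_succ j)), Nat.cast_sub (hf (Nat.le_succ j))]
    simp only [hD]; ring
  obtain ⟨l, rfl⟩ : ∃ l, N = l + 1 := ⟨N - 1, by omega⟩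
  have k := key l
  have hDN : D (l + 1) = 0 := by simp [hD, hfN, hgN]
  have e3 : max I (min l m) = m := by omega
  rw [hDN, mul_zero, add_zero, e3] at k
  linarith

lemma finrank_map_le' (M : Submodule ℝ E) (T : E →L[ℝ] E) :
    Module.finrank ℝ (M.map T.toLinearMap) ≤ Module.finrank ℝ M :=
  Submodule.finrank_map_le _ _

lemma finrank_sup_le (M : Submodule ℝ E) (v : E) :
    Module.finrank ℝ (M ⊔ Submodule.span ℝ {v} : Submodule ℝ E) ≤ Module.finrank ℝ M + 1 := by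
  have h1 := Submodule.finrank_add_le_finrank_add_finrank M (Submodule.span ℝ {v})
  have h2 : Module.finrank ℝ (Submodule.span ℝ {v} : Submodule ℝ E) ≤ 1 := by
    have := finrank_span_le_card (R := ℝ) ({v} : Set E)
    simpa using this
  omega

lemma finrank_map_lt {M : Submodule ℝ E} {v : E} (hv : ‖v‖ = 1) (hvM : v ∈ M) :
    Module.finrank ℝ (M.map (Ts v 1).toLinearMap) + 1 ≤ Module.finrank ℝ M := by
  have h1 : M.map (Ts v 1).toLinearMap < M := by
    refine lt_of_le_of_ne ?_ ?_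
    · rintro _ ⟨x, hx, rfl⟩
      show Ts v 1 x ∈ M
      rw [Ts_one_apply]
      exact M.sub_mem hx (M.smul_mem _ hvM)
    · intro he
      have : v ∈ M.map (Ts v 1).toLinearMap := by rw [he]; exact hvM
      obtain ⟨x, _, hx⟩ := this
      have h2 : Ts v 1 x = v := hx
      have h3 := inner_Ts_one hv x
      rw [h2, real_inner_self_eq_norm_sq, hv] at h3
      norm_num at h3
  exact Submodule.finrank_lt_finrank_of_lt h1

/-- **(PEN)** -/
theorem p_onepen {p : Par} (hp : p.Ok) : P_ONEpen E p := by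
  intro V W v I hv hW
  have hVW : V.n ≤ W.n := by rw [hW.1]; exact le_max_left _ _
  have hIW : I < W.n := by rw [hW.1]; omega
  have hV : ∑ i ∈ Finset.range V.n, p.lam i * (V.k i : ℝ)
      = ∑ i ∈ Finset.range W.n, p.lam i * (V.k i : ℝ) := by
    refine Finset.sum_subset (Finset.range_mono hVW) fun j _ hj => ?_
    have hj' : V.n ≤ j := by simpa using hj
    have : V.k j = 0 := by
      unfold Flag.k
      rw [V.bot j hj']; simp
    rw [this]; simp
  have hb : ∀ U : Flag E, U.n ≤ W.n → Module.finrank ℝ (U.M W.n) = 0 := by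
    intro U hU
    rw [U.bot _ hU]; simp
  have ha : ∀ U : Flag E, Antitone fun j => Module.finrank ℝ (U.M j) :=
    fun U a b hab => Submodule.finrank_mono (U.anti hab)
  have d1 : ∀ j, j ≤ I → Module.finrank ℝ (W.M j) ≤ Module.finrank ℝ (V.M j) + 1 := by
    intro j hj
    rw [hW.2.1 j hj]
    exact finrank_sup_le _ _
  have d2 : ∀ j, I < j → Module.finrank ℝ (W.M j) ≤ Module.finrank ℝ (V.M j) := by
    intro j hj
    rw [hW.2.2 j hj]
    exact finrank_map_le' _ _
  rw [hV]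
  refine ⟨?_, ?_⟩
  · exact pen_abel (lam := p.lam) (lam_mono hp) (lam_nonneg hp 0) (ha V) (ha W) hIW (hb V hVW)
      (hb W le_rfl) d1 d2
  · intro m hIm hvm
    have hmn : m < V.n := by
      by_contra hlt
      rw [V.bot m (by omega), Submodule.mem_bot] at hvm
      rw [hvm, norm_zero] at hv
      norm_num at hv
    have hvj : ∀ j, j ≤ m → v ∈ V.M j := fun j hj => V.anti hj hvm
    refine pen_abel2 (lam := p.lam) (lam_mono hp) (lam_nonneg hp 0) (ha V) (ha W) hIm
      (lt_of_lt_of_le hmn hVW) (hb V hVW) (hb W le_rfl) ?_ ?_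
    · intro j
      rcases le_or_gt j I with hj | hj
      · rw [hW.2.1 j hj]
        have : Submodule.span ℝ {v} ≤ V.M j := by
          rw [Submodule.span_singleton_le_iff_mem]
          exact hvj j (by omega)
        rw [sup_eq_left.2 this]
      · exact d2 j hj
    · intro j hj hj'
      show Module.finrank ℝ (W.M j) + 1 ≤ Module.finrank ℝ (V.M j)
      rw [hW.2.2 j hj]
      exact finrank_map_lt hv (hvj j hj')

end Crest.Agent.R239.OneLo816
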