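import Mathlib
import Crest.Agent.R239.FDef
import Crest.Agent.R239.F6b_696
import Crest.Agent.R239.AdmHalf_606
import Crest.Agent.R239.FlagAlg_557
import Crest.Agent.R239.InsCut_488
import Crest.Agent.R239.Cmp_142

/-! R239, one-step line (docs 2444 / 2447), block (b), second hand (helper207): the levels `i ≤ I`.
`W` is any flag with the projection formulas of `W_j = M_j + ℝ v` (`j ≤ I`), `W_j = P M_j` (`j > I`).
Main results: `meas_lo`, `lev_lo`. -/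

set_option autoImplicit false
set_option linter.unusedSectionVars false
open MeasureTheory ProbabilityTheory Set
open scoped RealInnerProductSpace

namespace Crest.Agent.R239.OneLo207

open Crest.Agent.R239 (gau gau_real_apply)
open Crest.Agent.R239.FD

variable {E : Type*} [NormedAddCommGroup E] [InnerProductSpace ℝ E] [FiniteDimensional ℝ E]
  [MeasurableSpace E] [BorelSpace E]

lemma th_pos : (0 : ℝ) < th := by norm_num [th]
lemma th_le : th ≤ (1 : ℝ) := by norm_num [th]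

/-! ### the vector `n_j` -/

/-- `⟪v - P_j v, x⟫² / (1 - b_j)` -/
noncomputable def nnf (V : Flag E) (v : E) (j : ℕ) (x : E) : ℝ :=
  ⟪v - V.P j v, x⟫ ^ 2 / (1 - V.b v j)

/-- `n_j = (v - P_j v) / √(1 - b_j)` -/
noncomputable def nv (V : Flag E) (v : E) (j : ℕ) : E := (√(1 - V.b v j))⁻¹ • (v - V.P j v)

variable {V W : Flag E} {v : E} {I : ℕ}

lemma b_nonneg (V : Flag E) (v : E) (j : ℕ) : 0 ≤ V.b v j := sq_nonneg _

lemma b_le_one (hv : ‖v‖ = 1) (j : ℕ) : V.b v j ≤ 1 := by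
  have h := F6b696.norm_P_le V j v
  rw [hv] at h
  exact pow_le_one₀ (norm_nonneg _) h

lemma b_zero {j : ℕ} (h : V.n ≤ j) : V.b v j = 0 := by
  unfold Flag.b
  rw [F6b696.P_of_n_le V h]; simp

lemma norm_sub_sq (hv : ‖v‖ = 1) (j : ℕ) : ‖v - V.P j v‖ ^ 2 = 1 - V.b v j := by
  have h1 : ⟪V.P j v, v⟫ = ‖V.P j v‖ ^ 2 := by
    unfold Flag.P
    rw [← real_inner_self_eq_norm_sq, ← Submodule.inner_starProjection_left_eq_right,
      Submodule.starProjection_eq_self_iff.2 (Submodule.starProjection_apply_mem _ _)]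
  rw [norm_sub_sq_real, hv, real_inner_comm, h1]
  unfold Flag.b
  ring

lemma nnf_eq_inner (hv : ‖v‖ = 1) (j : ℕ) (x : E) : nnf V v j x = ⟪nv V v j, x⟫ ^ 2 := by
  have h0 : 0 ≤ 1 - V.b v j := by have := b_le_one (V := V) hv j; linarith
  unfold nnf nv
  rw [real_inner_smul_left, mul_pow, inv_pow, Real.sq_sqrt h0]
  field_simp

lemma norm_nv_le (hv : ‖v‖ = 1) (j : ℕ) : ‖nv V v j‖ ^ 2 ≤ 1 := by
  have h0 : 0 ≤ 1 - V.b v j := by have := b_le_one (V := V) hv j; linarith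
  unfold nv
  rw [norm_smul, mul_pow, norm_sub_sq hv, norm_inv, inv_pow, Real.norm_eq_abs, sq_abs,
    Real.sq_sqrt h0]
  rcases h0.eq_or_lt with h | h
  · rw [← h]; simp
  · rw [inv_mul_cancel₀ h.ne']

/-- exact identity, also if `v ∈ M_j` -/
lemma nnf_eq (hv : ‖v‖ = 1) (j : ℕ) (x : E) :
    nnf V v j x = (⟪v, x⟫ - ⟪V.P j v, x⟫) ^ 2 + V.b v j * nnf V v j x := by
  unfold nnf
  rw [inner_sub_left]
  by_cases h : 1 - V.b v j = 0
  · have h1 : ‖v - V.P j v‖ ^ 2 = 0 := by rw [norm_sub_sq hv, h]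
    have h2 : v - V.P j v = 0 := by simpa using h1
    have h3 : ⟪v, x⟫ - ⟪V.P j v, x⟫ = 0 := by
      rw [← inner_sub_left, h2, inner_zero_left]
    rw [h3, h]; simp
  · field_simp
    ring

/-! ### the flag `W` -/

/-- `W` has the projections of `M_j + ℝ v` (`j ≤ I`) and `(1 - v vᵀ) M_j` (`j > I`) -/
structure IsOne (V W : Flag E) (v : E) (I : ℕ) : Prop where
  le_n : V.n ≤ W.n
  I_lt : I < W.n
  le : ∀ j, j ≤ I → V.M j ≤ W.M j
  lo : ∀ j, j ≤ I → ∀ x, ‖W.P j x‖ ^ 2 = ‖V.P j x‖ ^ 2 + nnf V v j x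
  hi : ∀ j, I < j → ∀ x, ‖W.P j x‖ ^ 2 = ‖V.P j x‖ ^ 2 + nnf V v j x - ⟪v, x⟫ ^ 2

/-- `X_i = Σ_{j > I} (25/8)^(j-i) b_j` -/
noncomputable def XI (V : Flag E) (v : E) (I i : ℕ) : ℝ :=
  ∑ j ∈ Finset.Ico (I + 1) V.n, (25 / 8 : ℝ) ^ (j - i) * V.b v j

lemma XI_nonneg (V : Flag E) (v : E) (I i : ℕ) : 0 ≤ XI V v I i :=
  Finset.sum_nonneg fun j _ => mul_nonneg (by positivity) (b_nonneg V v j)

/-- FlagAlg557's weights at our `th` -/
noncomputable def o (m : ℕ) : ℝ := FlagAlg557.om th m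

lemma o_eq {m : ℕ} (hm : 1 ≤ m) : o m = (25 / 16) ^ m * (9 / 25) := by
  unfold o
  rw [FlagAlg557.om_eq th_pos m hm]
  have : ((th ^ m)⁻¹) ^ 2 = (25 / 16 : ℝ) ^ m := by
    rw [← inv_pow, ← pow_mul, mul_comm m 2, pow_mul]
    norm_num [th]
  rw [this]
  norm_num [th]

lemma o_nonneg (m : ℕ) : 0 ≤ o m := FlagAlg557.om_nonneg th_pos th_le m

lemma norm_Hi_sq (V : Flag E) {i : ℕ} (h : i < V.n) (x : E) :
    ‖V.Hi i x‖ ^ 2 = ‖V.P i x‖ ^ 2 + ∑ j ∈ Finset.Ico (i + 1) V.n, o (j - i) * ‖V.P j x‖ ^ 2 := by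
  rw [AdmHalf606.Hi_eq]
  exact FlagAlg557.norm_Hi_sq V.anti h (V.bot _ le_rfl) x

lemma norm_Hi_sq' (V : Flag E) {i N : ℕ} (h : i < V.n) (hN : V.n ≤ N) (x : E) :
    ‖V.Hi i x‖ ^ 2 = ‖V.P i x‖ ^ 2 + ∑ j ∈ Finset.Ico (i + 1) N, o (j - i) * ‖V.P j x‖ ^ 2 := by
  rw [norm_Hi_sq V h, ← Finset.sum_Ico_consecutive _ (by omega : i + 1 ≤ V.n) hN,
    Finset.sum_eq_zero (s := Finset.Ico V.n N), add_zero]
  intro j hj
  rw [F6b696.P_of_n_le V (Finset.mem_Ico.1 hj).1]; simp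

/-- the exact difference of the precision forms on `M_i`, `i ≤ I` -/
lemma prec_diff (h : IsOne V W v I) {i : ℕ} (hiI : i ≤ I) (hin : i < V.n) {x : E}
    (hx : x ∈ V.M i) :
    ‖W.Hi i x‖ ^ 2 = ‖V.Hi i x‖ ^ 2 + ∑ j ∈ Finset.Ico (i + 1) (I + 1), o (j - i) * nnf V v j x
      + ∑ j ∈ Finset.Ico (I + 1) W.n, o (j - i) * (nnf V v j x - ⟪v, x⟫ ^ 2) := by
  have hI := h.I_lt
  rw [norm_Hi_sq W (by omega), norm_Hi_sq' V hin h.le_n, F6b696.P_of_mem W (h.le i hiI hx),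
    F6b696.P_of_mem V hx,
    ← Finset.sum_Ico_consecutive _ (by omega : i + 1 ≤ I + 1) (by omega : I + 1 ≤ W.n),
    ← Finset.sum_Ico_consecutive (fun j => o (j - i) * ‖V.P j x‖ ^ 2)
      (by omega : i + 1 ≤ I + 1) (by omega : I + 1 ≤ W.n)]
  have e1 : ∑ j ∈ Finset.Ico (i + 1) (I + 1), o (j - i) * ‖W.P j x‖ ^ 2
      = ∑ j ∈ Finset.Ico (i + 1) (I + 1), o (j - i) * ‖V.P j x‖ ^ 2
        + ∑ j ∈ Finset.Ico (i + 1) (I + 1), o (j - i) * nnf V v j x := by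
    rw [← Finset.sum_add_distrib]
    refine Finset.sum_congr rfl fun j hj => ?_
    rw [h.lo j (by have := (Finset.mem_Ico.1 hj).2; omega)]
    ring
  have e2 : ∑ j ∈ Finset.Ico (I + 1) W.n, o (j - i) * ‖W.P j x‖ ^ 2
      = ∑ j ∈ Finset.Ico (I + 1) W.n, o (j - i) * ‖V.P j x‖ ^ 2
        + ∑ j ∈ Finset.Ico (I + 1) W.n, o (j - i) * (nnf V v j x - ⟪v, x⟫ ^ 2) := by
    rw [← Finset.sum_add_distrib]
    refine Finset.sum_congr rfl fun j hj => ?_
    rw [h.hi j (by have := (Finset.mem_Ico.1 hj).1; omega)]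
    ring
  rw [e1, e2]
  ring

lemma inner_H (V : Flag E) (i : ℕ) (x y : E) : ⟪V.H i x, y⟫ = ⟪x, V.H i y⟫ :=
  FlagAlg557.inner_comb_comm (M := V.M) i V.n _ x y

lemma norm_H_le (V : Flag E) (i : ℕ) (x : E) : ‖V.H i x‖ ≤ ‖x‖ := by
  have h := FlagAlg557.norm_H_le (M := V.M) V.anti th_pos th_le V.n i (V.bot _ le_rfl) x
  exact h.trans (F6b696.norm_P_le V i x)

lemma norm_H_P_le (V : Flag E) {i j : ℕ} (hij : i ≤ j) (x : E) :
    ‖V.H i (V.P j x)‖ ≤ th ^ (j - i) * ‖V.P j x‖ := by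
  rcases le_or_gt j V.n with h | h
  · exact FlagAlg557.norm_H_P_le (M := V.M) V.anti th_pos th_le hij h (V.bot _ le_rfl) x
  · rw [F6b696.P_of_n_le V h.le]; simp

/-! ### the list of functionals -/

/-- the vector `Z' = Σ_{j > I} o_{j-i} P_j v` -/
noncomputable def Zv (V : Flag E) (v : E) (I i N : ℕ) : E :=
  ∑ j ∈ Finset.Ico (I + 1) N, o (j - i) • V.P j v

/-- weight of `n_j` -/
noncomputable def cw (V : Flag E) (v : E) (I j : ℕ) : ℝ := if j ≤ I then 1 else V.b v j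

lemma cw_nonneg (V : Flag E) (v : E) (I j : ℕ) : 0 ≤ cw V v I j := by
  unfold cw; split_ifs
  · norm_num
  · exact b_nonneg V v j

/-- the functionals of the majorant -/
noncomputable def wf (V : Flag E) (v : E) (I i N : ℕ) (e : ℝ) : ℕ ⊕ (ℕ ⊕ Bool) → E
  | .inl j => √(o (j - i) * cw V v I j) • V.H i (nv V v j)
  | .inr (.inl j) => √(o (j - i)) • V.H i (V.P j v)
  | .inr (.inr true) => √e • V.H i v
  | .inr (.inr false) => √(1 / e) • V.H i (Zv V v I i N)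

/-- the index set -/
def ix (I i N : ℕ) : Finset (ℕ ⊕ (ℕ ⊕ Bool)) :=
  (Finset.Ico (i + 1) N).disjSum ((Finset.Ico (I + 1) N).disjSum Finset.univ)

lemma inner_sqrt_smul_sq {c : ℝ} (hc : 0 ≤ c) (x y : E) : ⟪√c • x, y⟫ ^ 2 = c * ⟪x, y⟫ ^ 2 := by
  rw [real_inner_smul_left, mul_pow, Real.sq_sqrt hc]

lemma norm_sqrt_smul_sq {c : ℝ} (hc : 0 ≤ c) (x : E) : ‖√c • x‖ ^ 2 = c * ‖x‖ ^ 2 := by
  rw [norm_smul, mul_pow, Real.norm_eq_abs, sq_abs, Real.sq_sqrt hc]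

/-- the majorant in sum of squares form -/
lemma maj (hv : ‖v‖ = 1) {i : ℕ} (hiI : i ≤ I) {N : ℕ} (hIN : I < N) {e : ℝ} (he : 0 < e) (g : E) :
    ∑ j ∈ Finset.Ico (i + 1) (I + 1), o (j - i) * nnf V v j (V.H i g)
      + ∑ j ∈ Finset.Ico (I + 1) N, o (j - i) * (nnf V v j (V.H i g) - ⟪v, V.H i g⟫ ^ 2)
      ≤ ∑ k ∈ ix I i N, ⟪wf V v I i N e k, g⟫ ^ 2 := by
  set x := V.H i g with hx
  unfold ix
  rw [Finset.sum_disjSum, Finset.sum_disjSum]
  have e1 : ∑ j ∈ Finset.Ico (i + 1) N, ⟪wf V v I i N e (.inl j), g⟫ ^ 2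
      = ∑ j ∈ Finset.Ico (i + 1) (I + 1), o (j - i) * nnf V v j x
        + ∑ j ∈ Finset.Ico (I + 1) N, o (j - i) * (V.b v j * nnf V v j x) := by
    rw [← Finset.sum_Ico_consecutive _ (by omega : i + 1 ≤ I + 1) (by omega : I + 1 ≤ N)]
    congr 1
    · refine Finset.sum_congr rfl fun j hj => ?_
      have hjI : j ≤ I := by have := (Finset.mem_Ico.1 hj).2; omega
      simp only [wf]
      rw [inner_sqrt_smul_sq (mul_nonneg (o_nonneg _) (cw_nonneg V v I j)), inner_H,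
        ← nnf_eq_inner hv]
      simp only [cw, hjI, if_true, mul_one]
      rfl
    · refine Finset.sum_congr rfl fun j hj => ?_
      have hjI : ¬ j ≤ I := by have := (Finset.mem_Ico.1 hj).1; omega
      simp only [wf]
      rw [inner_sqrt_smul_sq (mul_nonneg (o_nonneg _) (cw_nonneg V v I j)), inner_H,
        ← nnf_eq_inner hv]
      simp only [cw, hjI, if_false]
      rw [mul_assoc]
  have e2 : ∑ j ∈ Finset.Ico (I + 1) N, ⟪wf V v I i N e (.inr (.inl j)), g⟫ ^ 2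
      = ∑ j ∈ Finset.Ico (I + 1) N, o (j - i) * ⟪V.P j v, x⟫ ^ 2 := by
    refine Finset.sum_congr rfl fun j _ => ?_
    simp only [wf]
    rw [inner_sqrt_smul_sq (o_nonneg _), inner_H]
  have e3 : ∑ b : Bool, ⟪wf V v I i N e (.inr (.inr b)), g⟫ ^ 2
      = e * ⟪v, x⟫ ^ 2 + 1 / e * ⟪Zv V v I i N, x⟫ ^ 2 := by
    rw [Fintype.sum_bool]
    simp only [wf]
    rw [inner_sqrt_smul_sq he.le, inner_sqrt_smul_sq (by positivity), inner_H, inner_H]
  have e4 : ⟪Zv V v I i N, x⟫ = ∑ j ∈ Finset.Ico (I + 1) N, o (j - i) * ⟪V.P j v, x⟫ := by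
    unfold Zv
    rw [sum_inner]
    refine Finset.sum_congr rfl fun j _ => ?_
    rw [real_inner_smul_left]
  have e5 : ∑ j ∈ Finset.Ico (I + 1) N, o (j - i) * (nnf V v j x - ⟪v, x⟫ ^ 2)
      = ∑ j ∈ Finset.Ico (I + 1) N, o (j - i) * (V.b v j * nnf V v j x)
        + ∑ j ∈ Finset.Ico (I + 1) N, o (j - i) * ⟪V.P j v, x⟫ ^ 2
        - 2 * ⟪v, x⟫ * ⟪Zv V v I i N, x⟫ := by
    rw [e4, Finset.mul_sum, ← Finset.sum_add_distrib, ← Finset.sum_sub_distrib]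
    refine Finset.sum_congr rfl fun j _ => ?_
    have := nnf_eq (V := V) hv j x
    linear_combination (o (j - i)) * this
  have e6 : -(2 * ⟪v, x⟫ * ⟪Zv V v I i N, x⟫)
      ≤ e * ⟪v, x⟫ ^ 2 + 1 / e * ⟪Zv V v I i N, x⟫ ^ 2 := by
    have h1 : e * ⟪v, x⟫ ^ 2 + 1 / e * ⟪Zv V v I i N, x⟫ ^ 2
        + 2 * ⟪v, x⟫ * ⟪Zv V v I i N, x⟫
        = (e * ⟪v, x⟫ + ⟪Zv V v I i N, x⟫) ^ 2 / e := by
      field_simp
      ring
    have h2 : 0 ≤ (e * ⟪v, x⟫ + ⟪Zv V v I i N, x⟫) ^ 2 / e := by positivity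
    linarith
  rw [e1, e2, e3, e5]
  linarith

/-! ### the trace -/

lemma sum_o {i : ℕ} (hiI : i ≤ I) :
    ∑ j ∈ Finset.Ico (i + 1) (I + 1), o (j - i) = (25 / 16 : ℝ) ^ (I - i) - 1 := by
  have h := FlagAlg557.sum_om th (I - i)
  have h2 : ((th ^ (I - i))⁻¹) ^ 2 = (25 / 16 : ℝ) ^ (I - i) := by
    rw [← inv_pow, ← pow_mul, mul_comm (I - i) 2, pow_mul]
    norm_num [th]
  rw [h2] at h
  rw [← h, Finset.sum_Ico_eq_sum_range, Finset.sum_Ico_eq_sum_range]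
  have e : I + 1 - (i + 1) = I - i + 1 - 1 := by omega
  rw [e]
  refine Finset.sum_congr rfl fun k _ => ?_
  have : i + 1 + k - i = 1 + k := by omega
  rw [this]
  rfl

lemma XI_eq (V : Flag E) (v : E) {I i N : ℕ} (hN : V.n ≤ N) :
    ∑ j ∈ Finset.Ico (I + 1) N, (25 / 8 : ℝ) ^ (j - i) * V.b v j ≤ XI V v I i := by
  unfold XI
  refine le_of_eq (Finset.sum_subset (Finset.Ico_subset_Ico le_rfl hN) fun j hj hj2 => ?_).symm
  rw [Finset.mem_Ico] at hj hj2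
  rw [b_zero (V := V) (by omega), mul_zero]

lemma o_le {m : ℕ} (hm : 1 ≤ m) : o m ≤ 9 / 50 * (25 / 8) ^ m := by
  rw [o_eq hm]
  have h : (25 / 16 : ℝ) ^ m ≤ 1 / 2 * (25 / 8) ^ m := by
    have : (25 / 8 : ℝ) ^ m = (25 / 16) ^ m * 2 ^ m := by
      rw [← mul_pow]; norm_num
    rw [this]
    have h2 : (2 : ℝ) ≤ 2 ^ m := by
      calc (2 : ℝ) = 2 ^ 1 := by norm_num
        _ ≤ 2 ^ m := pow_le_pow_right₀ (by norm_num) hm
    have h3 : (0 : ℝ) < (25 / 16) ^ m := by positivity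
    nlinarith
  linarith

lemma sum_half_le (I i N : ℕ) (hi : i ≤ I) :
    ∑ j ∈ Finset.Ico (I + 1) N, (1 / 2 : ℝ) ^ (j - i) ≤ 1 := by
  rcases le_or_gt N (I + 1) with h | h
  · rw [Finset.Ico_eq_empty (by omega)]; simp
  have key : ∀ n, I + 1 ≤ n → ∑ j ∈ Finset.Ico (I + 1) n, (1 / 2 : ℝ) ^ (j - i)
      ≤ 1 - (1 / 2) ^ (n - 1 - i) := by
    intro n hn
    induction n, hn using Nat.le_induction with
    | base => 
      simp only [Finset.Ico_self, Finset.sum_empty, Nat.add_sub_cancel]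
      have : (1 / 2 : ℝ) ^ (I - i) ≤ 1 := pow_le_one₀ (by norm_num) (by norm_num)
      linarith
    | succ n hn ih =>
      rw [Finset.sum_Ico_succ_top hn]
      have e : n - i = n - 1 - i + 1 := by omega
      have e2 : n + 1 - 1 - i = n - 1 - i + 1 := by omega
      rw [e2, e, pow_succ]
      linarith
  have := key N h.le
  have h2 : (0 : ℝ) ≤ (1 / 2) ^ (N - 1 - i) := by positivity
  linarith

lemma norm_HZ_sq {i : ℕ} (hiI : i ≤ I) {N : ℕ} (hN : V.n ≤ N) :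
    ‖V.H i (Zv V v I i N)‖ ^ 2 ≤ 81 / 625 * XI V v I i := by
  have h1 : ‖V.H i (Zv V v I i N)‖
      ≤ ∑ j ∈ Finset.Ico (I + 1) N, 9 / 25 * ((5 / 4 : ℝ) ^ (j - i) * ‖V.P j v‖) := by
    unfold Zv
    rw [map_sum]
    refine (norm_sum_le _ _).trans (Finset.sum_le_sum fun j hj => ?_)
    have hj' := Finset.mem_Ico.1 hj
    rw [map_smul, norm_smul, Real.norm_eq_abs, abs_of_nonneg (o_nonneg _),
      o_eq (by omega : 1 ≤ j - i)]
    have h2 := norm_H_P_le V (by omega : i ≤ j) v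
    have h3 : (25 / 16 : ℝ) ^ (j - i) * th ^ (j - i) = (5 / 4) ^ (j - i) := by
      rw [← mul_pow]; norm_num [th]
    calc (25 / 16 : ℝ) ^ (j - i) * (9 / 25) * ‖V.H i (V.P j v)‖
        ≤ (25 / 16 : ℝ) ^ (j - i) * (9 / 25) * (th ^ (j - i) * ‖V.P j v‖) := by gcongr
      _ = 9 / 25 * ((25 / 16 : ℝ) ^ (j - i) * th ^ (j - i) * ‖V.P j v‖) := by ring
      _ = _ := by rw [h3]
  have h2 : (∑ j ∈ Finset.Ico (I + 1) N, (5 / 4 : ℝ) ^ (j - i) * ‖V.P j v‖) ^ 2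
      ≤ XI V v I i := by
    have h3 : ∀ j ∈ Finset.Ico (I + 1) N, (5 / 4 : ℝ) ^ (j - i) * ‖V.P j v‖
        = √((1 / 2) ^ (j - i)) * √((25 / 8) ^ (j - i) * V.b v j) := by
      intro j _
      rw [← Real.sqrt_mul (by positivity)]
      have : (1 / 2 : ℝ) ^ (j - i) * ((25 / 8) ^ (j - i) * V.b v j)
          = ((5 / 4 : ℝ) ^ (j - i) * ‖V.P j v‖) ^ 2 := by
        rw [mul_pow, ← pow_mul, mul_comm (j - i) 2, pow_mul, ← mul_assoc, ← mul_pow]
        unfold Flag.b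
        norm_num
      rw [this, Real.sqrt_sq (by positivity)]
    rw [Finset.sum_congr rfl h3]
    have h4 := Real.sum_sqrt_mul_sqrt_le (Finset.Ico (I + 1) N)
      (f := fun j => (1 / 2 : ℝ) ^ (j - i)) (g := fun j => (25 / 8 : ℝ) ^ (j - i) * V.b v j)
      (fun j => by positivity) (fun j => mul_nonneg (by positivity) (b_nonneg V v j))
    have h5 : (∑ j ∈ Finset.Ico (I + 1) N, √((1 / 2) ^ (j - i)) * √((25 / 8) ^ (j - i) * V.b v j)) ^ 2
        ≤ (√(∑ j ∈ Finset.Ico (I + 1) N, (1 / 2 : ℝ) ^ (j - i))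
          * √(∑ j ∈ Finset.Ico (I + 1) N, (25 / 8 : ℝ) ^ (j - i) * V.b v j)) ^ 2 := by
      refine pow_le_pow_left₀ (Finset.sum_nonneg fun j _ => by positivity) h4 2
    refine h5.trans ?_
    rw [mul_pow, Real.sq_sqrt (Finset.sum_nonneg fun j _ => by positivity),
      Real.sq_sqrt (Finset.sum_nonneg fun j _ => mul_nonneg (by positivity) (b_nonneg V v j))]
    have h6 := sum_half_le I i N hiI
    have h7 := XI_eq V v (I := I) (i := i) hN
    have h8 : 0 ≤ ∑ j ∈ Finset.Ico (I + 1) N, (25 / 8 : ℝ) ^ (j - i) * V.b v j :=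
      Finset.sum_nonneg fun j _ => mul_nonneg (by positivity) (b_nonneg V v j)
    nlinarith
  have h9 : ‖V.H i (Zv V v I i N)‖ ^ 2
      ≤ (9 / 25 * ∑ j ∈ Finset.Ico (I + 1) N, (5 / 4 : ℝ) ^ (j - i) * ‖V.P j v‖) ^ 2 := by
    rw [Finset.mul_sum]
    exact pow_le_pow_left₀ (norm_nonneg _) h1 2
  rw [mul_pow] at h9
  nlinarith

/-- the trace bound -/
noncomputable def tr (V : Flag E) (v : E) (I i : ℕ) (e : ℝ) : ℝ :=
  (25 / 16 : ℝ) ^ (I - i) - 1 + e + (9 / 25 + 81 / 625 / e) * XI V v I i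

lemma trace_le (hv : ‖v‖ = 1) {i : ℕ} (hiI : i ≤ I) {N : ℕ} (hIN : I < N) (hN : V.n ≤ N) {e : ℝ}
    (he : 0 < e) : ∑ k ∈ ix I i N, ‖wf V v I i N e k‖ ^ 2 ≤ tr V v I i e := by
  unfold ix
  rw [Finset.sum_disjSum, Finset.sum_disjSum]
  have hX0 := XI_nonneg V v I i
  have e1 : ∑ j ∈ Finset.Ico (i + 1) N, ‖wf V v I i N e (.inl j)‖ ^ 2
      ≤ (25 / 16 : ℝ) ^ (I - i) - 1 + 9 / 50 * XI V v I i := by
    rw [← Finset.sum_Ico_consecutive _ (by omega : i + 1 ≤ I + 1) (by omega : I + 1 ≤ N)]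
    have hn : ∀ j, ‖V.H i (nv V v j)‖ ^ 2 ≤ 1 := fun j =>
      (pow_le_pow_left₀ (norm_nonneg _) (norm_H_le V i _) 2).trans (norm_nv_le hv j)
    have h1 : ∑ j ∈ Finset.Ico (i + 1) (I + 1), ‖wf V v I i N e (.inl j)‖ ^ 2
        ≤ (25 / 16 : ℝ) ^ (I - i) - 1 := by
      rw [← sum_o hiI]
      refine Finset.sum_le_sum fun j hj => ?_
      have hjI : j ≤ I := by have := (Finset.mem_Ico.1 hj).2; omega
      simp only [wf]
      rw [norm_sqrt_smul_sq (mul_nonneg (o_nonneg _) (cw_nonneg V v I j))]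
      simp only [cw, hjI, if_true, mul_one]
      exact mul_le_of_le_one_right (o_nonneg _) (hn j)
    have h2 : ∑ j ∈ Finset.Ico (I + 1) N, ‖wf V v I i N e (.inl j)‖ ^ 2
        ≤ 9 / 50 * XI V v I i := by
      refine le_trans ?_ (mul_le_mul_of_nonneg_left (XI_eq V v (I := I) (i := i) hN) (by norm_num))
      rw [Finset.mul_sum]
      refine Finset.sum_le_sum fun j hj => ?_
      have hj' := Finset.mem_Ico.1 hj
      have hjI : ¬ j ≤ I := by omega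
      simp only [wf]
      rw [norm_sqrt_smul_sq (mul_nonneg (o_nonneg _) (cw_nonneg V v I j))]
      simp only [cw, hjI, if_false]
      have h3 := o_le (by omega : 1 ≤ j - i)
      have h4 := b_nonneg V v j
      calc o (j - i) * V.b v j * ‖V.H i (nv V v j)‖ ^ 2 ≤ o (j - i) * V.b v j * 1 := by
            have := mul_nonneg (o_nonneg (j - i)) h4
            exact mul_le_mul_of_nonneg_left (hn j) this
        _ ≤ 9 / 50 * (25 / 8) ^ (j - i) * V.b v j := by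
            rw [mul_one]; exact mul_le_mul_of_nonneg_right h3 h4
        _ = _ := by ring
    linarith
  have e2 : ∑ j ∈ Finset.Ico (I + 1) N, ‖wf V v I i N e (.inr (.inl j))‖ ^ 2
      ≤ 9 / 50 * XI V v I i := by
    refine le_trans ?_ (mul_le_mul_of_nonneg_left (XI_eq V v (I := I) (i := i) hN) (by norm_num))
    rw [Finset.mul_sum]
    refine Finset.sum_le_sum fun j hj => ?_
    have hj' := Finset.mem_Ico.1 hj
    simp only [wf]
    rw [norm_sqrt_smul_sq (o_nonneg _)]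
    have h3 := o_le (by omega : 1 ≤ j - i)
    have h4 : ‖V.H i (V.P j v)‖ ^ 2 ≤ V.b v j :=
      pow_le_pow_left₀ (norm_nonneg _) (norm_H_le V i _) 2
    have h5 : 0 ≤ (9 / 50 : ℝ) * (25 / 8) ^ (j - i) := by positivity
    calc o (j - i) * ‖V.H i (V.P j v)‖ ^ 2 ≤ (9 / 50 * (25 / 8) ^ (j - i)) * V.b v j :=
          mul_le_mul h3 h4 (sq_nonneg _) h5
      _ = _ := by ring
  have e3 : ∑ b : Bool, ‖wf V v I i N e (.inr (.inr b))‖ ^ 2
      ≤ e + 81 / 625 / e * XI V v I i := by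
    rw [Fintype.sum_bool]
    simp only [wf]
    rw [norm_sqrt_smul_sq he.le, norm_sqrt_smul_sq (by positivity)]
    have h1 : ‖V.H i v‖ ^ 2 ≤ 1 := by
      have := norm_H_le V i v
      rw [hv] at this
      exact pow_le_one₀ (norm_nonneg _) this
    have h2 := norm_HZ_sq (V := V) (v := v) hiI hN
    have h3 : e * ‖V.H i v‖ ^ 2 ≤ e := mul_le_of_le_one_right he.le h1
    have h4 : 1 / e * ‖V.H i (Zv V v I i N)‖ ^ 2 ≤ 1 / e * (81 / 625 * XI V v I i) :=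
      mul_le_mul_of_nonneg_left h2 (by positivity)
    have h5 : 1 / e * (81 / 625 * XI V v I i) = 81 / 625 / e * XI V v I i := by
      field_simp
    linarith
  unfold tr
  have : (9 / 25 + 81 / 625 / e) * XI V v I i
      = 9 / 50 * XI V v I i + 9 / 50 * XI V v I i + 81 / 625 / e * XI V v I i := by ring
  rw [this]
  linarith

/-! ### the level measures -/

/-- **comparison of the level measures**, `i ≤ I` -/
theorem meas_lo (h : IsOne V W v I) (hv : ‖v‖ = 1) {i : ℕ} (hiI : i ≤ I) (hin : i < V.n) {e : ℝ}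
    (he : 0 < e) {K : Set E} (hK : IsClosed K) (cK : Convex ℝ K) (sK : ∀ x ∈ K, -x ∈ K) :
    Real.exp (-(tr V v I i e) / 2) * (gau (W.H i)).real K ≤ (gau (V.H i)).real K := by
  have hxW : ∀ g, V.H i g ∈ W.M i := fun g => h.le i hiI (F6b696.H_mem V i g)
  have hR : ∀ g, W.H i (W.Hi i (V.H i g)) = V.H i g := fun g => by
    rw [F6b696.H_Hi, F6b696.P_of_mem W (hxW g)]
  have hN : ∀ g, ‖((W.Hi i).comp (V.H i)) g‖ ^ 2
      ≤ ‖g‖ ^ 2 + ∑ k ∈ ix I i W.n, ⟪wf V v I i W.n e k, g⟫ ^ 2 := by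
    intro g
    rw [ContinuousLinearMap.comp_apply, prec_diff h hiI hin (F6b696.H_mem V i g), F6b696.Hi_H]
    have h1 := maj (V := V) hv hiI h.I_lt he g
    have h2 : ‖V.P i g‖ ^ 2 ≤ ‖g‖ ^ 2 := pow_le_pow_left₀ (norm_nonneg _) (F6b696.norm_P_le V i g) 2
    linarith
  have hK0c : IsClosed (W.H i ⁻¹' K) := hK.preimage (W.H i).continuous
  have hK0v : Convex ℝ (W.H i ⁻¹' K) := cK.is_linear_preimage (W.H i).toLinearMap.isLinear
  have hK0s : ∀ x ∈ W.H i ⁻¹' K, -x ∈ W.H i ⁻¹' K := by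
    intro x hx
    show W.H i (-x) ∈ K
    rw [map_neg]
    exact sK _ hx
  have hmain := Cmp142.cmp_sum_real hK0c.measurableSet hK0v hK0s (ix I i W.n)
    ((W.Hi i).comp (V.H i)) (wf V v I i W.n e) hN
  have hset : ((W.Hi i).comp (V.H i)) ⁻¹' (W.H i ⁻¹' K) = V.H i ⁻¹' K := by
    ext g
    show W.H i (W.Hi i (V.H i g)) ∈ K ↔ V.H i g ∈ K
    rw [hR]
  rw [hset] at hmain
  rw [gau_real_apply (W.H i) hK.measurableSet, gau_real_apply (V.H i) hK.measurableSet]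
  refine le_trans (mul_le_mul_of_nonneg_right (Real.exp_le_exp.2 ?_) measureReal_nonneg) hmain
  have := trace_le (V := V) hv hiI h.I_lt h.le_n he
  linarith

/-- one Markov cut by the cap of the level -/
theorem cut_cap (V : Flag E) {rho : ℝ} (hrho : 0 < rho) (i : ℕ) {K : Set E} (hK : IsClosed K)
    (cK : Convex ℝ K) (sK : ∀ x ∈ K, -x ∈ K) :
    (1 - 1 / rho ^ 2) * (gau (V.H i)).real K ≤ (gau (V.H i)).real (K ∩ V.cap rho i) := by
  have h := Ins488.cut_ell (M := V.M) V.anti (th := th) th_pos hrho V.n i cK hK.measurableSet sK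
  rw [gau_real_apply (V.H i) hK.measurableSet, gau_real_apply (V.H i)
    (hK.inter (AdmHalf606.cap_closed V i rho)).measurableSet]
  refine le_trans h (le_of_eq ?_)
  congr 1
  ext g
  have e : ∑ j ∈ Finset.Ico i V.n, th ^ (j - i) *
      ((Module.finrank ℝ ↥(V.M j) : ℝ) - (Module.finrank ℝ ↥(V.M (j + 1)) : ℝ)) = V.rr i := by
    unfold Flag.rr Flag.k
    refine Finset.sum_congr rfl fun j _ => ?_
    rw [Nat.cast_sub (Submodule.finrank_mono (V.anti (Nat.le_succ j)))]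
  constructor
  · rintro ⟨h1, h2⟩
    refine ⟨h1, F6b696.H_mem V i g, ?_⟩
    rw [e] at h2
    exact h2
  · rintro ⟨h1, -, h2⟩
    refine ⟨h1, ?_⟩
    rw [e]
    exact h2

lemma one_sub_pos {rho : ℝ} (hrho : 16 ≤ rho) : 1 / 2 ≤ 1 - 1 / rho ^ 2 := by
  have : 1 / rho ^ 2 ≤ 1 / 2 := by
    apply one_div_le_one_div_of_le (by norm_num)
    nlinarith
  linarith

lemma log_one_sub {rho : ℝ} (hrho : 16 ≤ rho) : -(2 / rho ^ 2) ≤ Real.log (1 - 1 / rho ^ 2) := by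
  have h1 := one_sub_pos hrho
  set y := 1 / rho ^ 2 with hy
  have hy0 : 0 < y := by positivity
  have h2 := Real.one_sub_inv_le_log_of_pos (by linarith : 0 < 1 - y)
  have h3 : 1 - (1 - y)⁻¹ = -(y / (1 - y)) := by
    have : 1 - y ≠ 0 := by linarith
    field_simp
    ring
  rw [h3] at h2
  have h4 : y / (1 - y) ≤ 2 * y := by
    rw [div_le_iff₀ (by linarith)]
    nlinarith
  have h5 : 2 / rho ^ 2 = 2 * y := by rw [hy]; ring
  linarith

/-- the cap is admissible -/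
theorem adm_cap {p : Par} (hp : p.Ok) (V : Flag E) (i : ℕ) : Adm p V i (V.cap p.rho i) := by
  have hrho : 0 < p.rho := by linarith [hp.rho_ge]
  refine ⟨AdmHalf606.cap_closed V i _, AdmHalf606.cap_convex V i _,
    fun x hx => AdmHalf606.cap_neg V i _ hx, subset_rfl, ?_⟩
  have h := cut_cap V hrho i (K := univ) isClosed_univ convex_univ (fun _ _ => mem_univ _)
  rw [univ_inter] at h
  have hp1 := F6b696.gau_isProb (V.H i)
  rw [probReal_univ, mul_one] at h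
  have := one_sub_pos hp.rho_ge
  linarith

lemma hs_mono {K K' : Set E} (hK : K.Nonempty) (h : K ⊆ K') (hb : IsCompact K') (z : E) :
    hs K z ≤ hs K' z := by
  unfold hs
  refine csSup_le_csSup ?_ (hK.image _) (image_mono h)
  exact (hb.image (by fun_prop)).bddAbove

lemma Eh_mono {K K' : Set E} (hK : K.Nonempty) (h : K ⊆ K') (hb : IsCompact K') (μ : Multiset E) :
    Eh K μ ≤ Eh K' μ := by
  unfold Eh
  exact Multiset.sum_map_le_sum_map _ _ fun z _ => hs_mono hK h hb z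

/-- generic step (levels where the competitor body itself is used) -/
theorem lev_of_meas {p : Par} (hp : p.Ok) {i : ℕ} {c : ℝ}
    (hm : ∀ K : Set E, IsClosed K → Convex ℝ K → (∀ x ∈ K, -x ∈ K) →
      Real.exp (-c) * (gau (W.H i)).real K ≤ (gau (V.H i)).real K) (μ : Multiset E) :
    D p V i μ - p.lam i * (c + 2 / p.rho ^ 2) ≤ D p W i μ := by
  have hrho : 0 < p.rho := by linarith [hp.rho_ge]
  have hlam : ∀ i, 0 ≤ p.lam i := fun i => by
    have h1 := hp.tau_pos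
    have h2 : 0 < p.A := by linarith [hp.A_ge]
    unfold Par.lam
    positivity
  refine le_csInf ⟨_, _, adm_cap hp W i, rfl⟩ ?_
  rintro _ ⟨K', hK', rfl⟩
  have h1 := hm K' hK'.1 hK'.2.1 hK'.2.2.1
  have h2 := cut_cap V hrho i hK'.1 hK'.2.1 hK'.2.2.1
  have h3 := one_sub_pos hp.rho_ge
  have hW := hK'.2.2.2.2
  have h4 : 0 < Real.exp (-c) * (gau (W.H i)).real K' := mul_pos (Real.exp_pos _) hW
  have h5 : 0 < (gau (V.H i)).real K' := lt_of_lt_of_le h4 h1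
  have h6 : 0 < (gau (V.H i)).real (K' ∩ V.cap p.rho i) :=
    lt_of_lt_of_le (mul_pos (by linarith) h5) h2
  have hadm : Adm p V i (K' ∩ V.cap p.rho i) := by
    refine ⟨hK'.1.inter (AdmHalf606.cap_closed V i _),
      hK'.2.1.inter (AdmHalf606.cap_convex V i _), ?_, inter_subset_right, h6⟩
    rintro x ⟨hx1, hx2⟩
    exact ⟨hK'.2.2.1 x hx1, AdmHalf606.cap_neg V i _ hx2⟩
  refine le_trans (sub_le_sub_right (F6b696.D_le_val hlam hadm) _) ?_
  unfold val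
  have h7 : Eh (K' ∩ V.cap p.rho i) μ ≤ Eh K' μ :=
    Eh_mono ⟨0, AdmHalf606.adm_zero hadm⟩ inter_subset_left (AdmHalf606.adm_compact hK') μ
  have h8 : -c + Real.log ((gau (W.H i)).real K') + -(2 / p.rho ^ 2)
      ≤ Real.log ((gau (V.H i)).real (K' ∩ V.cap p.rho i)) := by
    have h9 : Real.log (Real.exp (-c) * (gau (W.H i)).real K') ≤ Real.log ((gau (V.H i)).real K') :=
      Real.log_le_log h4 h1
    rw [Real.log_mul (Real.exp_pos _).ne' hW.ne', Real.log_exp] at h9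
    have h10 : Real.log ((1 - 1 / p.rho ^ 2) * (gau (V.H i)).real K')
        ≤ Real.log ((gau (V.H i)).real (K' ∩ V.cap p.rho i)) :=
      Real.log_le_log (mul_pos (by linarith) h5) h2
    rw [Real.log_mul (by linarith) h5.ne'] at h10
    have h11 := log_one_sub hp.rho_ge
    linarith
  have h12 := mul_le_mul_of_nonneg_left h8 (hlam i)
  nlinarith

/-- **levels `i ≤ I`** of the one-step comparison -/
theorem lev_lo {p : Par} (hp : p.Ok) (h : IsOne V W v I) (hv : ‖v‖ = 1) {i : ℕ} (hiI : i ≤ I)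
    (hin : i < V.n) {e : ℝ} (he : 0 < e) (μ : Multiset E) :
    D p V i μ - p.lam i * (((25 / 16 : ℝ) ^ (I - i) - 1 + e
      + (9 / 25 + 81 / 625 / e) * XI V v I i) / 2 + 2 / p.rho ^ 2) ≤ D p W i μ := by
  refine lev_of_meas hp (c := tr V v I i e / 2) (fun K h1 h2 h3 => ?_) μ
  have := meas_lo h hv hiI hin he h1 h2 h3
  rwa [← neg_div]

end Crest.Agent.R239.OneLo207
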