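import Mathlib
import Crest.Agent.R239.CmpE_653
import Crest.Agent.R239.OneAlg_653

/-!
R239, helper653: E-level line, LEVELS `i ≤ I` of the flag `one M I v` (LINE D of helper859).
-/

set_option autoImplicit false
set_option linter.unusedSectionVars false
set_option linter.unusedVariables false

open Finset Module MeasureTheory ProbabilityTheory
open scoped RealInnerProductSpace

namespace Crest.Agent.R239.OneLow653

open Crest.Agent.R239.FA456 Crest.Agent.R239.Soft450 Crest.Agent.R239.FB2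
open Crest.Agent.R239.OneAlg653 Crest.Agent.R239.CmpE653
open Crest.Agent.R239.FB456 (th th_pos th_nonneg th_lt_one th_le_one ci ci_pos ci_le_one H S g
  g_nonneg g_le_one g_mono hs)
open Crest.Agent.R239.FC456 (H_S S_H om om_nonneg prec norm_S_sq norm_H_le P_H P_S inner_H_left
  norm_H_P_le)

variable {E : Type*} [NormedAddCommGroup E] [InnerProductSpace ℝ E] [FiniteDimensional ℝ E]
  [MeasurableSpace E] [BorelSpace E]

variable {M : ℕ → Submodule ℝ E} {N i I : ℕ} {ρ A κ : ℝ} {v : E}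

lemma one_flag (hF : IsFlag M N) (hI : I < N) : IsFlag (one M I v) N := by
  refine ⟨one_antitone hF.1, ?_⟩
  rw [one_high hI, hF.2, Submodule.map_bot]

lemma om_eq (m : ℕ) : om m = (25 / 16 : ℝ) ^ m * (9 / 25) := by
  unfold om th
  rw [pow_mul]
  norm_num

lemma sum_om (i n : ℕ) : ∑ j ∈ Ico (i + 1) (i + 1 + n), om (j - i) = (25 / 16 : ℝ) ^ n - 1 := by
  induction n with
  | zero => simp
  | succ n ih =>
    rw [← add_assoc, sum_Ico_succ_top (by omega), ih, om_eq,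
      show i + 1 + n - i = n + 1 by omega, pow_succ]
    ring

/-- trace of the form `p` at level `i ≤ I` -/
noncomputable def trp (M : ℕ → Submodule ℝ E) (N I : ℕ) (v : E) (ε : ℝ) (i : ℕ) : ℝ :=
  ((25 / 16 : ℝ) ^ (I - i) - 1)
    + ∑ j ∈ Ico (I + 1) N, (ε * (1 / 2) ^ (j - i) + (1 + 1 / ε) * ((25 / 8) ^ (j - i) * ‖P M j v‖ ^ 2))

lemma prec_one (hM : Antitone M) (hv : ‖v‖ = 1) {e : ℕ → ℝ} (he : ∀ j, 0 < e j) (y : E) :
    prec (one M I v) N i y ≤ prec M N i y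
      + ∑ j ∈ Ico (i + 1) N, (om (j - i) * (if j ≤ I then 1 else ‖P M j v‖ ^ 2 + e j)
            * ⟪nn (M j) v, y⟫ ^ 2
        + (if j ≤ I then 0 else om (j - i) * (e j)⁻¹) * ⟪P M j v, y⟫ ^ 2) := by
  unfold FC456.prec
  rw [add_assoc, ← sum_add_distrib]
  gcongr with j hj
  have ho := om_nonneg (j - i)
  by_cases h : j ≤ I
  · simp only [if_pos h]
    have h1 : ‖P (one M I v) j y‖ ^ 2 = ‖P M j y‖ ^ 2 + ⟪nn (M j) v, y⟫ ^ 2 := by
      have h2 := norm_P_sup_sq (M j) v y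
      have h3 : P (one M I v) j = (M j ⊔ (ℝ ∙ v)).starProjection := by
        unfold P
        simp only [one_low h]
      rw [h3]
      exact h2
    rw [h1]
    apply le_of_eq
    ring
  · simp only [if_neg h]
    have h1 : ‖P (one M I v) j y‖ ^ 2
        = ‖P M j y‖ ^ 2 + ⟪nn (M j) v, y⟫ ^ 2 - ⟪v, y⟫ ^ 2 := by
      have h2 := norm_P_map_sq (M j) hv y
      have h3 : P (one M I v) j = ((M j).map (Rot203.Ts 1 v)).starProjection := by
        unfold P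
        simp only [one_high (not_le.1 h)]
      rw [h3]
      exact h2
    have h4 := quad_high (M j) hv (he j) y
    rw [h1]
    have h5 : ⟪nn (M j) v, y⟫ ^ 2 - ⟪v, y⟫ ^ 2
        ≤ (‖P M j v‖ ^ 2 + e j) * ⟪nn (M j) v, y⟫ ^ 2 + (e j)⁻¹ * ⟪P M j v, y⟫ ^ 2 := h4
    have h6 := mul_le_mul_of_nonneg_left h5 ho
    linarith

/-- one level `i ≤ I` -/
theorem D_one_low (hF : IsFlag M N) (hI : I < N) (hv : ‖v‖ = 1) (hρ : 2 ≤ ρ) (hA : 0 ≤ A)
    (hi : i ≤ I) {ε : ℝ} (hε : 0 < ε) (m : Multiset E) :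
    D ρ A M N i m ≤ D ρ A (one M I v) N i m + A ^ i * (trp M N I v ε i / 2 + 2 / ρ ^ 2) := by
  set e : ℕ → ℝ := fun j => ε * (8 / 25) ^ (j - i) with hedef
  have he : ∀ j, 0 < e j := fun j => by positivity
  set a : ℕ × Bool → ℝ := fun k => if k.2 then (if k.1 ≤ I then 0 else om (k.1 - i) * (e k.1)⁻¹)
    else om (k.1 - i) * (if k.1 ≤ I then 1 else ‖P M k.1 v‖ ^ 2 + e k.1) with hadef
  set n : ℕ × Bool → E := fun k => if k.2 then P M k.1 v else nn (M k.1) v with hndef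
  have ha : ∀ k ∈ Ico (i + 1) N ×ˢ (univ : Finset Bool), 0 ≤ a k := by
    intro k _
    simp only [hadef]
    have ho := om_nonneg (k.1 - i)
    have h1 := he k.1
    split_ifs <;> positivity
  have h := D_cmp (i := i) hF (one_flag (v := v) hF hI) hρ hA
    (by rw [one_low hi]; exact le_sup_left) (Ico (i + 1) N ×ˢ (univ : Finset Bool)) a ha n (by
      intro y _
      refine (prec_one (I := I) (i := i) (N := N) hF.1 hv he y).trans (le_of_eq ?_)
      congr 1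
      rw [sum_product]
      refine sum_congr rfl fun j _ => ?_
      rw [Fintype.sum_bool]
      simp only [hadef, hndef, if_true, Bool.false_eq_true, if_false]
      ring) m
  refine h.trans ?_
  have hAi : 0 ≤ A ^ i := pow_nonneg hA i
  gcongr
  rw [sum_product]
  unfold trp
  obtain ⟨q, rfl⟩ : ∃ q, I = i + q := ⟨I - i, by omega⟩
  have hsplit : Ico (i + 1) N = Ico (i + 1) (i + 1 + q) ∪ Ico (i + q + 1) N := by
    rw [show i + q + 1 = i + 1 + q by omega, Ico_union_Ico_eq_Ico (by omega) (by omega)]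
  have hdisj : Disjoint (Ico (i + 1) (i + 1 + q)) (Ico (i + q + 1) N) := by
    rw [show i + q + 1 = i + 1 + q by omega]
    exact Ico_disjoint_Ico_consecutive _ _ _
  rw [hsplit, sum_union hdisj, show i + q - i = q by omega, ← sum_om i q]
  have hn1 : ∀ j, ‖H M N i (P M i (nn (M j) v))‖ ^ 2 ≤ 1 := by
    intro j
    have h1 : ‖H M N i (P M i (nn (M j) v))‖ ≤ 1 :=
      (norm_H_le hF.1 _).trans ((norm_P_le i _).trans (norm_nn_le _ _))
    calc ‖H M N i (P M i (nn (M j) v))‖ ^ 2 ≤ 1 ^ 2 := by gcongr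
      _ = 1 := one_pow 2
  refine add_le_add (sum_le_sum fun j hj => ?_) (sum_le_sum fun j hj => ?_)
  · rw [mem_Ico] at hj
    rw [Fintype.sum_bool]
    have hjI : j ≤ i + q := by omega
    simp only [hadef, hndef, if_true, Bool.false_eq_true, if_false, if_pos hjI]
    have ho := om_nonneg (j - i)
    have := hn1 j
    nlinarith
  · rw [mem_Ico] at hj
    rw [Fintype.sum_bool]
    have hjI : ¬ j ≤ i + q := by omega
    simp only [hadef, hndef, if_true, Bool.false_eq_true, if_false, if_neg hjI]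
    have hPP : P M i (P M j v) = P M j v := P_P_right hF.1 (by omega) v
    rw [hPP]
    have h2 : ‖H M N i (P M j v)‖ ^ 2 ≤ (16 / 25) ^ (j - i) * ‖P M j v‖ ^ 2 := by
      have h3 := norm_H_P_le hF.1 hF.2 (i := i) (j := j) (by omega) v
      calc ‖H M N i (P M j v)‖ ^ 2 ≤ (th ^ (j - i) * ‖P M j v‖) ^ 2 := by gcongr
        _ = (16 / 25) ^ (j - i) * ‖P M j v‖ ^ 2 := by
          rw [mul_pow, ← pow_mul, mul_comm (j - i) 2, pow_mul]
          unfold th; norm_num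
    have h4 := hn1 j
    generalize hmdef : j - i = m' at *
    set b := ‖P M j v‖ ^ 2 with hb
    have hb0 : 0 ≤ b := by positivity
    rw [om_eq]
    have e1 : (25 / 16 : ℝ) ^ m' * (16 / 25) ^ m' = 1 := by
      rw [← mul_pow]; norm_num
    have e2 : (e j)⁻¹ = ε⁻¹ * (25 / 8) ^ m' := by
      simp only [hedef, hmdef]
      rw [mul_inv, ← inv_pow]; norm_num
    have e3 : (25 / 16 : ℝ) ^ m' * e j = ε * (1 / 2) ^ m' := by
      simp only [hedef, hmdef]
      rw [mul_left_comm, ← mul_pow]; norm_num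
    have p1 : (0:ℝ) < (25 / 16) ^ m' := by positivity
    have p2 : (0:ℝ) < (25 / 8) ^ m' := by positivity
    have e4 : (25 / 16 : ℝ) ^ m' ≤ (25 / 8) ^ m' := by gcongr; norm_num
    have t1 : (25 / 16 : ℝ) ^ m' * (9 / 25) * (e j)⁻¹ * ‖H M N i (P M j v)‖ ^ 2
        ≤ 1 / ε * ((25 / 8) ^ m' * b) := by
      rw [e2]
      calc (25 / 16 : ℝ) ^ m' * (9 / 25) * (ε⁻¹ * (25 / 8) ^ m') * ‖H M N i (P M j v)‖ ^ 2
          ≤ (25 / 16 : ℝ) ^ m' * 1 * (ε⁻¹ * (25 / 8) ^ m') * ((16 / 25) ^ m' * b) := by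
            gcongr
            norm_num
        _ = ((25 / 16 : ℝ) ^ m' * (16 / 25) ^ m') * (ε⁻¹ * ((25 / 8) ^ m' * b)) := by ring
        _ = _ := by rw [e1]; ring
    have t2 : (25 / 16 : ℝ) ^ m' * (9 / 25) * (b + e j) * ‖H M N i (P M i (nn (M j) v))‖ ^ 2
        ≤ ε * (1 / 2) ^ m' + (25 / 8) ^ m' * b := by
      have hej := he j
      calc (25 / 16 : ℝ) ^ m' * (9 / 25) * (b + e j) * ‖H M N i (P M i (nn (M j) v))‖ ^ 2
          ≤ (25 / 16 : ℝ) ^ m' * 1 * (b + e j) * 1 := by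
            gcongr
            norm_num
        _ = (25 / 16 : ℝ) ^ m' * e j + (25 / 16 : ℝ) ^ m' * b := by ring
        _ ≤ ε * (1 / 2) ^ m' + (25 / 8) ^ m' * b := by
            rw [e3]
            gcongr
    linarith

/-- numerical bound for one level -/
lemma level_bound (hA : 8 ≤ A) (hi : i ≤ I) {ε : ℝ} (hε : 0 < ε) :
    A ^ i * (trp M N I v ε i / 2 + 2 / ρ ^ 2)
      ≤ (1 / 2) ^ (I - i + 1) * (A ^ I * (4 / A + ε + 4 / ρ ^ 2)
        + (1 + 1 / ε) * (4 / A) * ∑ j ∈ Ico (I + 1) N, A ^ j * ‖P M j v‖ ^ 2) := by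
  have hA0 : 0 < A := by linarith
  obtain ⟨q, rfl⟩ : ∃ q, I = i + q := ⟨I - i, by omega⟩
  unfold trp
  rw [show i + q - i = q by omega]
  -- pieces
  have hAi : 0 < A ^ i := by positivity
  have h8 : (8:ℝ) ^ q ≤ A ^ q := by gcongr
  have p1 : A ^ i * (((25 / 16 : ℝ) ^ q - 1) / 2) ≤ (1 / 2) ^ (q + 1) * (A ^ (i + q) * (4 / A)) := by
    rcases Nat.eq_zero_or_pos q with h0 | h0
    · subst h0; simp; positivity
    · obtain ⟨k, rfl⟩ : ∃ k, q = k + 1 := ⟨q - 1, by omega⟩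
      have e1 : (1 / 2 : ℝ) ^ (k + 1 + 1) * (A ^ (i + (k + 1)) * (4 / A))
          = A ^ i * ((1 / 2) ^ k * A ^ k) := by
        rw [pow_add A i, pow_succ A k, pow_succ (1/2:ℝ) (k + 1), pow_succ (1/2:ℝ) k]
        field_simp
        ring
      rw [e1]
      have e2 : (4:ℝ) ^ k ≤ (1 / 2) ^ k * A ^ k := by
        rw [← mul_pow]
        gcongr
        linarith
      have e3 : (25 / 16 : ℝ) ^ k ≤ 4 ^ k := by gcongr; norm_num
      have e4 : (0:ℝ) < (25 / 16) ^ k := by positivity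
      have e5 : ((25 / 16 : ℝ) ^ (k + 1) - 1) / 2 ≤ (1 / 2) ^ k * A ^ k := by
        rw [pow_succ]
        linarith
      exact mul_le_mul_of_nonneg_left e5 hAi.le
  have p2 : A ^ i * (2 / ρ ^ 2) ≤ (1 / 2) ^ (q + 1) * (A ^ (i + q) * (4 / ρ ^ 2)) := by
    have e1 : (1 / 2 : ℝ) ^ (q + 1) * (A ^ (i + q) * (4 / ρ ^ 2))
        = A ^ i * (2 / ρ ^ 2) * ((1 / 2) ^ q * A ^ q) := by
      rw [pow_add, pow_succ]; ring
    have e2 : 1 ≤ (1 / 2 : ℝ) ^ q * A ^ q := by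
      rw [← mul_pow]
      exact one_le_pow₀ (by linarith)
    rw [e1]
    exact le_mul_of_one_le_right (by positivity) e2
  have p3 : A ^ i * ((∑ j ∈ Ico (i + q + 1) N, ε * (1 / 2 : ℝ) ^ (j - i)) / 2)
      ≤ (1 / 2) ^ (q + 1) * (A ^ (i + q) * ε) := by
    have e1 : ∑ j ∈ Ico (i + q + 1) N, ε * (1 / 2 : ℝ) ^ (j - i) ≤ ε * (1 / 2) ^ q := by
      rw [← mul_sum]
      gcongr
      have : ∀ n : ℕ, ∑ j ∈ Ico (i + q + 1) (i + q + 1 + n), (1 / 2 : ℝ) ^ (j - i)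
          = (1 / 2) ^ q - (1 / 2) ^ (q + n) := by
        intro n
        induction n with
        | zero => simp
        | succ n ih =>
          rw [← add_assoc, sum_Ico_succ_top (by omega), ih,
            show i + q + 1 + n - i = q + n + 1 by omega, ← add_assoc, pow_succ]
          ring
      rcases le_or_gt N (i + q + 1) with h | h
      · rw [Ico_eq_empty (by omega), sum_empty]; positivity
      · obtain ⟨n, rfl⟩ : ∃ n, N = i + q + 1 + n := ⟨N - (i + q + 1), by omega⟩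
        rw [this]
        have : (0:ℝ) < (1 / 2) ^ (q + n) := by positivity
        linarith
    have e2 : 1 ≤ A ^ q := one_le_pow₀ (by linarith)
    calc A ^ i * ((∑ j ∈ Ico (i + q + 1) N, ε * (1 / 2 : ℝ) ^ (j - i)) / 2)
        ≤ A ^ i * (ε * (1 / 2) ^ q / 2) := by gcongr
      _ = A ^ i * (ε * (1 / 2) ^ q / 2) * 1 := (mul_one _).symm
      _ ≤ A ^ i * (ε * (1 / 2) ^ q / 2) * A ^ q := by gcongr
      _ = _ := by rw [pow_add, pow_succ]; ring
  have p4 : A ^ i * ((∑ j ∈ Ico (i + q + 1) N,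
        (1 + 1 / ε) * ((25 / 8 : ℝ) ^ (j - i) * ‖P M j v‖ ^ 2)) / 2)
      ≤ (1 / 2) ^ (q + 1) * ((1 + 1 / ε) * (4 / A)
        * ∑ j ∈ Ico (i + q + 1) N, A ^ j * ‖P M j v‖ ^ 2) := by
    rw [← mul_sum]
    have e1 : A ^ i * (∑ j ∈ Ico (i + q + 1) N, ((25 / 8 : ℝ) ^ (j - i) * ‖P M j v‖ ^ 2))
        ≤ (1 / 2) ^ q * (4 / A) * ∑ j ∈ Ico (i + q + 1) N, A ^ j * ‖P M j v‖ ^ 2 := by
      rw [mul_sum, mul_sum]
      refine sum_le_sum fun j hj => ?_
      rw [mem_Ico] at hj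
      obtain ⟨k, rfl⟩ : ∃ k, j = i + (q + (k + 1)) := ⟨j - i - q - 1, by omega⟩
      rw [show i + (q + (k + 1)) - i = q + (k + 1) by omega]
      have e2 : (25 / 8 : ℝ) ^ q ≤ (1 / 2) ^ q * A ^ q := by
        rw [← mul_pow]
        gcongr
        linarith
      have e3 : (25 / 8 : ℝ) ^ (k + 1) ≤ 4 / A * A ^ (k + 1) := by
        have e4 : (25 / 8 : ℝ) ^ k ≤ A ^ k := by gcongr; linarith
        have e5 : 4 / A * A ^ (k + 1) = 4 * A ^ k := by rw [pow_succ]; field_simp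
        rw [e5, pow_succ]
        have : (0:ℝ) < (25 / 8) ^ k := by positivity
        nlinarith
      calc A ^ i * ((25 / 8 : ℝ) ^ (q + (k + 1)) * ‖P M (i + (q + (k + 1))) v‖ ^ 2)
          = A ^ i * ((25 / 8 : ℝ) ^ q * (25 / 8) ^ (k + 1)) * ‖P M (i + (q + (k + 1))) v‖ ^ 2 := by
            rw [pow_add]; ring
        _ ≤ A ^ i * (((1 / 2) ^ q * A ^ q) * (4 / A * A ^ (k + 1)))
              * ‖P M (i + (q + (k + 1))) v‖ ^ 2 := by gcongr
        _ = _ := by rw [pow_add A i, pow_add A q]; ring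
    have hS : 0 ≤ 1 + 1 / ε := by positivity
    calc A ^ i * ((1 + 1 / ε) * (∑ j ∈ Ico (i + q + 1) N,
          ((25 / 8 : ℝ) ^ (j - i) * ‖P M j v‖ ^ 2)) / 2)
        = (1 + 1 / ε) / 2 * (A ^ i * (∑ j ∈ Ico (i + q + 1) N,
          ((25 / 8 : ℝ) ^ (j - i) * ‖P M j v‖ ^ 2))) := by ring
      _ ≤ (1 + 1 / ε) / 2 * ((1 / 2) ^ q * (4 / A)
          * ∑ j ∈ Ico (i + q + 1) N, A ^ j * ‖P M j v‖ ^ 2) := by gcongr
      _ = _ := by rw [pow_succ]; ring
  rw [sum_add_distrib]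
  calc A ^ i * (((25 / 16 : ℝ) ^ q - 1 + (∑ j ∈ Ico (i + q + 1) N, ε * (1 / 2 : ℝ) ^ (j - i)
        + ∑ j ∈ Ico (i + q + 1) N, (1 + 1 / ε) * ((25 / 8) ^ (j - i) * ‖P M j v‖ ^ 2))) / 2
        + 2 / ρ ^ 2)
      = A ^ i * (((25 / 16 : ℝ) ^ q - 1) / 2)
        + A ^ i * ((∑ j ∈ Ico (i + q + 1) N, ε * (1 / 2 : ℝ) ^ (j - i)) / 2)
        + A ^ i * ((∑ j ∈ Ico (i + q + 1) N,
          (1 + 1 / ε) * ((25 / 8 : ℝ) ^ (j - i) * ‖P M j v‖ ^ 2)) / 2)
        + A ^ i * (2 / ρ ^ 2) := by ring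
    _ ≤ (1 / 2) ^ (q + 1) * (A ^ (i + q) * (4 / A)) + (1 / 2) ^ (q + 1) * (A ^ (i + q) * ε)
        + (1 / 2) ^ (q + 1) * ((1 + 1 / ε) * (4 / A)
        * ∑ j ∈ Ico (i + q + 1) N, A ^ j * ‖P M j v‖ ^ 2)
        + (1 / 2) ^ (q + 1) * (A ^ (i + q) * (4 / ρ ^ 2)) := by gcongr
    _ = _ := by ring

lemma half_sum (n : ℕ) : ∑ i ∈ range (n + 1), (1 / 2 : ℝ) ^ (n - i + 1) ≤ 1 := by
  have h : ∀ n : ℕ, ∑ i ∈ range (n + 1), (1 / 2 : ℝ) ^ (n - i + 1) = 1 - (1 / 2) ^ (n + 1) := by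
    intro n
    induction n with
    | zero => norm_num
    | succ n ih =>
      rw [sum_range_succ]
      have : ∑ i ∈ range (n + 1), (1 / 2 : ℝ) ^ (n + 1 - i + 1)
          = (∑ i ∈ range (n + 1), (1 / 2 : ℝ) ^ (n - i + 1)) * (1 / 2) := by
        rw [sum_mul]
        refine sum_congr rfl fun i hi => ?_
        rw [mem_range] at hi
        rw [show n + 1 - i + 1 = (n - i + 1) + 1 by omega, pow_succ]
      rw [this, ih, show n + 1 - (n + 1) + 1 = 1 by omega]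
      ring
  rw [h]
  have : (0:ℝ) < (1 / 2) ^ (n + 1) := by positivity
  linarith

/-- **LEVELS `i ≤ I`** of the flag `one M I v` -/
theorem one_low_sum (hF : IsFlag M N) (hI : I < N) (hv : ‖v‖ = 1) (hρ : 2 ≤ ρ) (hA : 8 ≤ A)
    {ε : ℝ} (hε : 0 < ε) (m : Multiset E) :
    ∑ i ∈ range (I + 1), D ρ A M N i m ≤ ∑ i ∈ range (I + 1), D ρ A (one M I v) N i m
      + A ^ I * (4 / A + ε + 4 / ρ ^ 2)
      + (1 + 1 / ε) * (4 / A) * ∑ j ∈ Ico (I + 1) N, A ^ j * ‖P M j v‖ ^ 2 := by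
  have hA0 : 0 < A := by linarith
  set B := A ^ I * (4 / A + ε + 4 / ρ ^ 2)
      + (1 + 1 / ε) * (4 / A) * ∑ j ∈ Ico (I + 1) N, A ^ j * ‖P M j v‖ ^ 2 with hB
  have hB0 : 0 ≤ B := by
    have : 0 ≤ ∑ j ∈ Ico (I + 1) N, A ^ j * ‖P M j v‖ ^ 2 := sum_nonneg fun j _ => by positivity
    positivity
  have h1 : ∑ i ∈ range (I + 1), D ρ A M N i m
      ≤ ∑ i ∈ range (I + 1), (D ρ A (one M I v) N i m + (1 / 2) ^ (I - i + 1) * B) := by
    refine sum_le_sum fun i hi => ?_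
    rw [mem_range] at hi
    have h2 := D_one_low (i := i) hF hI hv hρ hA0.le (by omega) hε m
    have h3 := level_bound (M := M) (N := N) (I := I) (i := i) (v := v) (ρ := ρ) hA (by omega) hε
    linarith
  rw [sum_add_distrib, ← sum_mul] at h1
  have h4 := half_sum I
  have h5 := mul_le_mul_of_nonneg_right h4 hB0
  linarith

end Crest.Agent.R239.OneLow653
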