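import Mathlib

/-! R239 / S0370, one-step line: the numeric end (real sequences only; helper502). -/

set_option autoImplicit false

namespace Crest.Agent.R239.OneNum502

open Finset

/-- `Σ_{i<j} q^(j-i) ≤ 2 q` -/
lemma geo {q : ℝ} (h0 : 0 ≤ q) (h1 : q ≤ 1 / 2) (j : ℕ) :
    ∑ i ∈ range j, q ^ (j - i) ≤ 2 * q := by
  induction j with
  | zero => simpa using h0
  | succ j ih =>
    have h : ∑ i ∈ range (j + 1), q ^ (j + 1 - i) = q * (∑ i ∈ range j, q ^ (j - i)) + q := by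
      rw [sum_range_succ, mul_sum]
      congr 1
      · refine sum_congr rfl fun i hi => ?_
        have := mem_range.1 hi
        rw [show j + 1 - i = (j - i) + 1 by omega, pow_succ]
        ring
      · rw [show j + 1 - j = 1 by omega, pow_one]
    rw [h]
    nlinarith

/-- `Σ_{i<m} q^(j-i) ≤ 2 q`, `m ≤ j` -/
lemma geo' {q : ℝ} (h0 : 0 ≤ q) (h1 : q ≤ 1 / 2) {m j : ℕ} (hm : m ≤ j) :
    ∑ i ∈ range m, q ^ (j - i) ≤ 2 * q := by
  refine le_trans ?_ (geo h0 h1 j)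
  exact sum_le_sum_of_subset_of_nonneg (range_mono hm) fun i _ _ => pow_nonneg h0 _

lemma half (I n : ℕ) : ∑ i ∈ Ico (I + 1) n, (1 / 2 : ℝ) ^ (i - I) ≤ 1 := by
  rcases Nat.lt_or_ge n (I + 1) with h | h
  · rw [Ico_eq_empty (by omega), sum_empty]; exact zero_le_one
  have : ∀ k : ℕ, ∑ i ∈ Ico (I + 1) (I + 1 + k), (1 / 2 : ℝ) ^ (i - I) = 1 - (1 / 2) ^ k := by
    intro k
    induction k with
    | zero => simp
    | succ k ih =>
      rw [← add_assoc, sum_Ico_succ_top (by omega), ih, show I + 1 + k - I = k + 1 by omega,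
        pow_succ]
      ring
  obtain ⟨k, rfl⟩ := Nat.exists_eq_add_of_le h
  rw [this k]
  have : (0 : ℝ) ≤ (1 / 2) ^ k := by positivity
  linarith

lemma lam_pow {tau A R : ℝ} (hA : 0 < A) {i j : ℕ} (h : i ≤ j) :
    tau * A ^ i * R ^ (j - i) = tau * A ^ j * (R / A) ^ (j - i) := by
  obtain ⟨k, rfl⟩ := Nat.exists_eq_add_of_le h
  rw [Nat.add_sub_cancel_left, pow_add, div_pow]
  field_simp

/-- the sum over `i ≤ I` of the tails -/
lemma tail_lo {tau A R : ℝ} (htau : 0 ≤ tau) (hA : 0 < A) (hR : 0 ≤ R) (hRA : R / A ≤ 1 / 2)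
    (b : ℕ → ℝ) (hb : ∀ i, 0 ≤ b i) (n I : ℕ) :
    ∑ i ∈ range (I + 1), tau * A ^ i * ∑ j ∈ Ico (I + 1) n, R ^ (j - i) * b j
      ≤ 2 * (R / A) * ∑ j ∈ Ico (I + 1) n, tau * A ^ j * b j := by
  have h : ∑ i ∈ range (I + 1), tau * A ^ i * ∑ j ∈ Ico (I + 1) n, R ^ (j - i) * b j
      = ∑ j ∈ Ico (I + 1) n, (tau * A ^ j * b j) * ∑ i ∈ range (I + 1), (R / A) ^ (j - i) := by
    simp_rw [mul_sum]
    rw [sum_comm]
    refine sum_congr rfl fun j hj => sum_congr rfl fun i hi => ?_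
    have h1 := mem_range.1 hi
    have h2 := (mem_Ico.1 hj).1
    have h3 := lam_pow (tau := tau) (R := R) hA (show i ≤ j by omega)
    calc tau * A ^ i * (R ^ (j - i) * b j) = (tau * A ^ i * R ^ (j - i)) * b j := by ring
      _ = _ := by rw [h3]; ring
  rw [h, mul_sum]
  refine sum_le_sum fun j hj => ?_
  have h1 : ∑ i ∈ range (I + 1), (R / A) ^ (j - i) ≤ 2 * (R / A) :=
    geo' (by positivity) hRA (mem_Ico.1 hj).1
  have h2 : 0 ≤ tau * A ^ j * b j := mul_nonneg (mul_nonneg htau (by positivity)) (hb j)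
  calc _ ≤ (tau * A ^ j * b j) * (2 * (R / A)) := mul_le_mul_of_nonneg_left h1 h2
    _ = _ := by ring

/-- the sum over `i > I` of the tails `BB_i` -/
lemma tail_hi {tau A R : ℝ} (htau : 0 ≤ tau) (hA : 0 < A) (hR : 0 ≤ R) (hRA : R / A ≤ 1 / 2)
    (b : ℕ → ℝ) (hb : ∀ i, 0 ≤ b i) (n I : ℕ) :
    ∑ i ∈ Ico (I + 1) n, tau * A ^ i * ∑ j ∈ Ico (i + 1) n, R ^ (j - i) * b j
      ≤ 2 * (R / A) * ∑ j ∈ Ico (I + 1) n, tau * A ^ j * b j := by
  have h : ∑ i ∈ Ico (I + 1) n, tau * A ^ i * ∑ j ∈ Ico (i + 1) n, R ^ (j - i) * b j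
      = ∑ j ∈ Ico (I + 1) n, (tau * A ^ j * b j) * ∑ i ∈ Ico (I + 1) j, (R / A) ^ (j - i) := by
    simp_rw [mul_sum]
    rw [sum_comm' (s' := fun j => Ico (I + 1) j) (t' := Ico (I + 1) n)
      (by intro x y; simp only [mem_Ico]; omega)]
    refine sum_congr rfl fun j hj => sum_congr rfl fun i hi => ?_
    have h1 := (mem_Ico.1 hi).2
    have h3 := lam_pow (tau := tau) (R := R) hA (show i ≤ j by omega)
    calc tau * A ^ i * (R ^ (j - i) * b j) = (tau * A ^ i * R ^ (j - i)) * b j := by ring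
      _ = _ := by rw [h3]; ring
  rw [h, mul_sum]
  refine sum_le_sum fun j hj => ?_
  have hq : 0 ≤ R / A := by positivity
  have h1 : ∑ i ∈ Ico (I + 1) j, (R / A) ^ (j - i) ≤ 2 * (R / A) := by
    refine le_trans ?_ (geo hq hRA j)
    refine sum_le_sum_of_subset_of_nonneg ?_ fun i _ _ => pow_nonneg hq _
    intro x hx
    exact mem_range.2 (mem_Ico.1 hx).2
  have h2 : 0 ≤ tau * A ^ j * b j := mul_nonneg (mul_nonneg htau (by positivity)) (hb j)
  calc _ ≤ (tau * A ^ j * b j) * (2 * (R / A)) := mul_le_mul_of_nonneg_left h1 h2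
    _ = _ := by ring

/-- the gain -/
lemma gain {tau A : ℝ} (hA : 0 < A) (htau : 0 ≤ tau) (b : ℕ → ℝ) (hb : ∀ i, 0 ≤ b i) (n I : ℕ)
    (hbn : ∀ i, n ≤ i → b i = 0) :
    (1 - 1 / A) * ∑ j ∈ Ico (I + 1) n, tau * A ^ j * b j
      ≤ ∑ i ∈ Ico (I + 1) n, tau * A ^ i * (b i - b (i + 1)) := by
  have h : ∑ i ∈ Ico (I + 1) n, tau * A ^ i * b (i + 1)
      ≤ (1 / A) * ∑ j ∈ Ico (I + 1) n, tau * A ^ j * b j := by
    have h1 : ∑ i ∈ Ico (I + 1) n, tau * A ^ i * b (i + 1)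
        = (1 / A) * ∑ i ∈ Ico (I + 1) n, tau * A ^ (i + 1) * b (i + 1) := by
      rw [mul_sum]
      refine sum_congr rfl fun i _ => ?_
      rw [pow_succ]
      field_simp
    rw [h1]
    refine mul_le_mul_of_nonneg_left ?_ (by positivity)
    have h2 : ∑ i ∈ Ico (I + 1) n, tau * A ^ (i + 1) * b (i + 1)
        = ∑ j ∈ Ico (I + 1 + 1) (n + 1), tau * A ^ j * b j :=
      sum_Ico_add' (fun j => tau * A ^ j * b j) (I + 1) n 1
    rw [h2]
    have h3 : ∑ j ∈ Ico (I + 1 + 1) (n + 1), tau * A ^ j * b j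
        ≤ ∑ j ∈ Ico (I + 1) (n + 1), tau * A ^ j * b j :=
      sum_le_sum_of_subset_of_nonneg (Ico_subset_Ico_left (by omega)) fun i _ _ =>
        mul_nonneg (mul_nonneg htau (by positivity)) (hb i)
    refine h3.trans ?_
    rcases Nat.lt_or_ge n (I + 1) with h | h
    · rw [Ico_eq_empty (show ¬ I + 1 < n by omega), sum_empty]
      refine sum_nonpos fun i hi => ?_
      rw [hbn i (by have := (mem_Ico.1 hi).1; omega), mul_zero]
    · rw [sum_Ico_succ_top h, hbn n le_rfl, mul_zero, add_zero]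
  simp_rw [mul_sub]
  rw [sum_sub_distrib]
  linarith

/-- `Σ_{i≤I} lam i x^(I-i)` -/
lemma head {tau A R : ℝ} (hA : 0 < A) (htau : 0 ≤ tau) (hR : 0 ≤ R) (hRA : R / A ≤ 1 / 2) (I : ℕ) :
    ∑ i ∈ range (I + 1), tau * A ^ i * R ^ (I - i) ≤ (1 + 2 * (R / A)) * (tau * A ^ I) := by
  have h : ∑ i ∈ range (I + 1), tau * A ^ i * R ^ (I - i)
      = (tau * A ^ I) * ∑ i ∈ range (I + 1), (R / A) ^ (I - i) := by
    rw [mul_sum]
    refine sum_congr rfl fun i hi => lam_pow hA (by have := mem_range.1 hi; omega)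
  rw [h, sum_range_succ, Nat.sub_self, pow_zero]
  have h1 := geo (q := R / A) (by positivity) hRA I
  have h2 : 0 ≤ tau * A ^ I := by positivity
  nlinarith

/-- **numeric end of the one-step line** -/
theorem num_end {n I : ℕ} {tau A C C' c1 sm eps rho : ℝ} (htau : 0 < tau) (hA : 16 ≤ A)
    (hC' : 0 < C') (heps : 0 < eps) (hsm : 0 ≤ sm) (hrho : 0 < rho)
    (hc : c1 * (1 / A) + sm + C / rho ^ 2 + 7 * C / A + 7 * C' / (eps * A) ≤ c1)
    (hC : 0 ≤ C) (hc1 : 0 ≤ c1)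
    (b : ℕ → ℝ) (hb : ∀ i, 0 ≤ b i) (hbn : ∀ i, n ≤ i → b i = 0) (DV DW : ℕ → ℝ)
    (hlo : ∀ i, i ≤ I → i < n → DV i - tau * A ^ i * ((25 / 16 : ℝ) ^ (I - i) - 1 + 2 / rho ^ 2
      + eps + (C' / eps) * ∑ j ∈ Ico (I + 1) n, (25 / 8 : ℝ) ^ (j - i) * b j) ≤ DW i)
    (hhi : ∀ i, I < i → i < n → DV i + tau * A ^ i * (c1 * (b i - b (i + 1)))
      - tau * A ^ i * ((sm + C / rho ^ 2) * b i
        + C * ∑ j ∈ Ico (i + 1) n, (25 / 8 : ℝ) ^ (j - i) * b j)
      - sm * (1 / 2) ^ (i - I) * (tau * A ^ I) ≤ DW i) :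
    ∑ i ∈ range n, DV i - (sm + 4 / A + (9 / 8) * (2 / rho ^ 2 + eps)) * (tau * A ^ I)
      ≤ ∑ i ∈ range n, DW i := by
  have hA0 : 0 < A := by linarith
  have hiA : 1 / A ≤ 1 / 16 := one_div_le_one_div_of_le (by norm_num) hA
  have hiA0 : 0 < 1 / A := by positivity
  set m := min (I + 1) n with hm
  have hmn : m ≤ n := min_le_right _ _
  have hmI : m ≤ I + 1 := min_le_left _ _
  have hIco : Ico m n = Ico (I + 1) n := by
    ext x; simp only [mem_Ico, hm]; omega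
  rw [← sum_range_add_sum_Ico DV hmn, ← sum_range_add_sum_Ico DW hmn, hIco]
  set Lam := ∑ j ∈ Ico (I + 1) n, tau * A ^ j * b j with hLam
  have hLam0 : 0 ≤ Lam := sum_nonneg fun j _ => mul_nonneg (by positivity) (hb j)
  have hlI : 0 < tau * A ^ I := by positivity
  -- levels ≤ I
  have h1 : ∑ i ∈ range m, DV i - (∑ i ∈ range (I + 1), tau * A ^ i * ((25 / 16 : ℝ) ^ (I - i) - 1
      + 2 / rho ^ 2 + eps + (C' / eps) * ∑ j ∈ Ico (I + 1) n, (25 / 8 : ℝ) ^ (j - i) * b j))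
      ≤ ∑ i ∈ range m, DW i := by
    have h2 : ∑ i ∈ range m, tau * A ^ i * ((25 / 16 : ℝ) ^ (I - i) - 1
        + 2 / rho ^ 2 + eps + (C' / eps) * ∑ j ∈ Ico (I + 1) n, (25 / 8 : ℝ) ^ (j - i) * b j)
        ≤ ∑ i ∈ range (I + 1), tau * A ^ i * ((25 / 16 : ℝ) ^ (I - i) - 1
        + 2 / rho ^ 2 + eps + (C' / eps) * ∑ j ∈ Ico (I + 1) n, (25 / 8 : ℝ) ^ (j - i) * b j) := by
      refine sum_le_sum_of_subset_of_nonneg (range_mono hmI) fun i _ _ => ?_
      have h3 : (1 : ℝ) ≤ (25 / 16 : ℝ) ^ (I - i) := one_le_pow₀ (by norm_num)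
      have h4 : 0 ≤ ∑ j ∈ Ico (I + 1) n, (25 / 8 : ℝ) ^ (j - i) * b j :=
        sum_nonneg fun j _ => mul_nonneg (by positivity) (hb j)
      have h5 : 0 ≤ (C' / eps) * ∑ j ∈ Ico (I + 1) n, (25 / 8 : ℝ) ^ (j - i) * b j :=
        mul_nonneg (by positivity) h4
      have h6 : 0 < 2 / rho ^ 2 := by positivity
      exact mul_nonneg (by positivity) (by linarith)
    have h3 : ∑ i ∈ range m, (DV i - tau * A ^ i * ((25 / 16 : ℝ) ^ (I - i) - 1
        + 2 / rho ^ 2 + eps + (C' / eps) * ∑ j ∈ Ico (I + 1) n, (25 / 8 : ℝ) ^ (j - i) * b j))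
        ≤ ∑ i ∈ range m, DW i := by
      refine sum_le_sum fun i hi => hlo i ?_ ?_
      · have := mem_range.1 hi; omega
      · have := mem_range.1 hi; omega
    rw [sum_sub_distrib] at h3
    linarith
  have h2 : ∑ i ∈ range (I + 1), tau * A ^ i * ((25 / 16 : ℝ) ^ (I - i) - 1
      + 2 / rho ^ 2 + eps + (C' / eps) * ∑ j ∈ Ico (I + 1) n, (25 / 8 : ℝ) ^ (j - i) * b j)
      ≤ (4 / A + (9 / 8) * (2 / rho ^ 2 + eps)) * (tau * A ^ I) + 7 * C' / (eps * A) * Lam := by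
    have e : ∑ i ∈ range (I + 1), tau * A ^ i * ((25 / 16 : ℝ) ^ (I - i) - 1
        + 2 / rho ^ 2 + eps + (C' / eps) * ∑ j ∈ Ico (I + 1) n, (25 / 8 : ℝ) ^ (j - i) * b j)
        = (∑ i ∈ range (I + 1), tau * A ^ i * (25 / 16 : ℝ) ^ (I - i)
            - ∑ i ∈ range (I + 1), tau * A ^ i * (1 : ℝ) ^ (I - i))
          + (2 / rho ^ 2 + eps) * ∑ i ∈ range (I + 1), tau * A ^ i * (1 : ℝ) ^ (I - i)
          + (C' / eps) * ∑ i ∈ range (I + 1), tau * A ^ i
              * ∑ j ∈ Ico (I + 1) n, (25 / 8 : ℝ) ^ (j - i) * b j := by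
      rw [← sum_sub_distrib, mul_sum, mul_sum, ← sum_add_distrib, ← sum_add_distrib]
      refine sum_congr rfl fun i _ => ?_
      rw [one_pow]
      ring
    rw [e]
    have a1 := head (tau := tau) (R := 25 / 16) hA0 htau.le (by norm_num)
      (by rw [div_le_iff₀ hA0]; linarith) I
    have a2 := head (tau := tau) (R := 1) hA0 htau.le (by norm_num) (by linarith) I
    have a3 := tail_lo (tau := tau) (R := 25 / 8) htau.le hA0 (by norm_num)
      (by rw [div_le_iff₀ hA0]; linarith) b hb n I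
    have a4 : tau * A ^ I ≤ ∑ i ∈ range (I + 1), tau * A ^ i * (1 : ℝ) ^ (I - i) := by
      rw [sum_range_succ, one_pow, mul_one]
      have : 0 ≤ ∑ i ∈ range I, tau * A ^ i * (1 : ℝ) ^ (I - i) :=
        sum_nonneg fun i _ => by rw [one_pow]; positivity
      linarith
    have b1 : (1 + 2 * (25 / 16 / A)) * (tau * A ^ I) ≤ (1 + 4 / A) * (tau * A ^ I) := by
      refine mul_le_mul_of_nonneg_right ?_ hlI.le
      have : (25 / 16 / A : ℝ) = (25 / 16) * (1 / A) := by ring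
      have h4 : (4 / A : ℝ) = 4 * (1 / A) := by ring
      rw [this, h4]; nlinarith
    have b2 : (1 + 2 * (1 / A)) * (tau * A ^ I) ≤ (9 / 8) * (tau * A ^ I) := by
      refine mul_le_mul_of_nonneg_right ?_ hlI.le
      linarith
    have b3 : (C' / eps) * ∑ i ∈ range (I + 1), tau * A ^ i
              * ∑ j ∈ Ico (I + 1) n, (25 / 8 : ℝ) ^ (j - i) * b j
        ≤ 7 * C' / (eps * A) * Lam := by
      have := mul_le_mul_of_nonneg_left a3 (show 0 ≤ C' / eps by positivity)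
      refine this.trans ?_
      rw [← hLam]
      have e1 : C' / eps * (2 * (25 / 8 / A) * Lam) = (25 / 4) * (C' / (eps * A) * Lam) := by
        field_simp
        ring
      have e2 : 7 * C' / (eps * A) * Lam = 7 * (C' / (eps * A) * Lam) := by ring
      rw [e1, e2]
      have : 0 ≤ C' / (eps * A) * Lam := by positivity
      linarith
    have b4 : (2 / rho ^ 2 + eps) * ∑ i ∈ range (I + 1), tau * A ^ i * (1 : ℝ) ^ (I - i)
        ≤ (2 / rho ^ 2 + eps) * ((9 / 8) * (tau * A ^ I)) :=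
      mul_le_mul_of_nonneg_left (a2.trans b2) (by positivity)
    nlinarith
  -- levels > I
  have h3 : ∑ i ∈ Ico (I + 1) n, DV i + (c1 * (1 - 1 / A) - (sm + C / rho ^ 2) - 7 * C / A) * Lam
      - sm * (tau * A ^ I) ≤ ∑ i ∈ Ico (I + 1) n, DW i := by
    have h4 : ∑ i ∈ Ico (I + 1) n, (DV i + tau * A ^ i * (c1 * (b i - b (i + 1)))
        - tau * A ^ i * ((sm + C / rho ^ 2) * b i
          + C * ∑ j ∈ Ico (i + 1) n, (25 / 8 : ℝ) ^ (j - i) * b j)
        - sm * (1 / 2) ^ (i - I) * (tau * A ^ I)) ≤ ∑ i ∈ Ico (I + 1) n, DW i :=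
      sum_le_sum fun i hi => hhi i (by have := (mem_Ico.1 hi).1; omega) (mem_Ico.1 hi).2
    have e : ∑ i ∈ Ico (I + 1) n, (DV i + tau * A ^ i * (c1 * (b i - b (i + 1)))
        - tau * A ^ i * ((sm + C / rho ^ 2) * b i
          + C * ∑ j ∈ Ico (i + 1) n, (25 / 8 : ℝ) ^ (j - i) * b j)
        - sm * (1 / 2) ^ (i - I) * (tau * A ^ I))
        = ∑ i ∈ Ico (I + 1) n, DV i + c1 * (∑ i ∈ Ico (I + 1) n, tau * A ^ i * (b i - b (i + 1)))
          - (sm + C / rho ^ 2) * (∑ i ∈ Ico (I + 1) n, tau * A ^ i * b i)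
          - C * (∑ i ∈ Ico (I + 1) n, tau * A ^ i
              * ∑ j ∈ Ico (i + 1) n, (25 / 8 : ℝ) ^ (j - i) * b j)
          - (sm * (tau * A ^ I)) * ∑ i ∈ Ico (I + 1) n, (1 / 2 : ℝ) ^ (i - I) := by
      rw [mul_sum, mul_sum, mul_sum, mul_sum, ← sum_add_distrib, ← sum_sub_distrib,
        ← sum_sub_distrib, ← sum_sub_distrib]
      refine sum_congr rfl fun i _ => ?_
      ring
    rw [e] at h4
    have g1 := gain hA0 htau.le b hb n I hbn
    have g2 := tail_hi (tau := tau) (R := 25 / 8) htau.le hA0 (by norm_num)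
      (by rw [div_le_iff₀ hA0]; linarith) b hb n I
    have g3 := half I n
    rw [← hLam] at g1 g2 h4
    have k1 := mul_le_mul_of_nonneg_left g1 hc1
    have k2 := mul_le_mul_of_nonneg_left g2 hC
    have k3 := mul_le_mul_of_nonneg_left g3 (show 0 ≤ sm * (tau * A ^ I) by positivity)
    have k4 : C * (2 * (25 / 8 / A) * Lam) ≤ 7 * C / A * Lam := by
      have e1 : C * (2 * (25 / 8 / A) * Lam) = (25 / 4) * (C * (1 / A) * Lam) := by ring
      have e2 : 7 * C / A * Lam = 7 * (C * (1 / A) * Lam) := by ring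
      rw [e1, e2]
      have : 0 ≤ C * (1 / A) * Lam := by positivity
      linarith
    nlinarith
  have h4 : 0 ≤ (c1 * (1 - 1 / A) - (sm + C / rho ^ 2) - 7 * C / A - 7 * C' / (eps * A)) * Lam :=
    mul_nonneg (by linarith) hLam0
  nlinarith

end Crest.Agent.R239.OneNum502
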