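import Crest.Agent.R239.OneG_394
import Crest.Agent.R239.One1_142
import Crest.Agent.R239.LDfin_718

/-! R239 / S0370, one-step line: `Target_U3two` (hence S0370) from `Target_U2`, `Target_GROWTH` and the
ONE comparison `Target_ONE` : `J(V) - sm lam_I ≤ J(one V v I)` (helper394). -/

set_option autoImplicit false
open MeasureTheory ProbabilityTheory
open scoped RealInnerProductSpace

namespace Crest.Agent.R239.One394

open Crest.Agent.R239.FD
open Crest.Agent.R239.One142 (one one_M_le one_M_gt mem_one)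

section

variable {E : Type*} [NormedAddCommGroup E] [InnerProductSpace ℝ E] [FiniteDimensional ℝ E]

theorem one_orth (V : Flag E) {v : E} (hv : ‖v‖ = 1) (I : ℕ) :
    v ∈ ((one V v I).M (I + 1))ᗮ := by
  rw [one_M_gt V v I (Nat.lt_succ_self I), Submodule.mem_orthogonal]
  rintro _ ⟨x, -, rfl⟩
  change ⟪Ts v 1 x, v⟫ = 0
  rw [real_inner_comm]
  exact One142.inner_Ts_one hv x

end

/-- the comparison of the one-step line, for one parameter set -/
def P_ONE (E : Type*) [NormedAddCommGroup E] [InnerProductSpace ℝ E] [FiniteDimensional ℝ E]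
    [MeasurableSpace E] [BorelSpace E] (p : Par) (q sm e0 : ℝ) : Prop :=
  ∀ (V : Flag E) (μ : Multiset E) (I : ℕ) (v : E), ‖v‖ = 1 → q * S μ v ≤ p.lam I →
    NearMax p V μ (e0 * p.tau) → J p V μ - sm * p.lam I ≤ J p (one V v I) μ

/-- the target of the one-step line: `q = 2 C1 eta0` is chosen before `kap, rho, A0, e0` -/
def Target_ONE : Prop := ∀ sm q : ℝ, 0 < sm → 0 < q → ∃ kap rho A0 e0 : ℝ, 0 < e0 ∧
  ∀ A tau : ℝ, A0 ≤ A → 0 < tau → (⟨rho, kap, A, tau⟩ : Par).Ok ∧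
    ∀ d : ℕ, P_ONE (EuclideanSpace ℝ (Fin d)) ⟨rho, kap, A, tau⟩ q sm e0

/-- **the two-sided growth from the one comparison** -/
theorem target_U3two_of (hU2 : Target_U2) (hG : Target_GROWTH) (h1 : Target_ONE) :
    LD718.Target_U3two := by
  obtain ⟨C1, hC1, hC⟩ := hG
  obtain ⟨eta, heta, -, hgr⟩ := hC 1 1
  have hC1p : 0 < C1 := by linarith
  obtain ⟨kap, rho, A0, e0, he0, h⟩ := h1 (1 / (20 * C1)) (2 * C1 * (eta / 2)) (by positivity)
    (by positivity)
  refine ⟨C1, eta / 2, 3 / 10 * (eta / 2), kap, rho, A0, hC1p, by positivity, by positivity, ?_⟩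
  intro A tau hA htau
  obtain ⟨hok, hone⟩ := h A tau hA htau
  refine ⟨hok, fun d => ?_⟩
  obtain ⟨C, -, hCd⟩ := hU2 _ hok
  obtain ⟨hu2, hj0, hmono⟩ := hCd d
  have key := U3g_of_cmp (C1 := C1) (C3 := 1) (C4 := 1) (eta := eta) (eta0 := eta / 2)
    (sm := 1 / (20 * C1)) (e0 := e0 * tau) hu2 hj0 hmono (hgr d _ hok) hC1 le_rfl le_rfl
    (by positivity) (by linarith) (by rw [one_div, inv_mul_cancel₀ (by positivity)])
    (by positivity) (fun V μ I v hv hS hN =>
      ⟨one V v I, mem_one V v I le_rfl, one_orth V hv I, hone d V μ I v hv hS hN⟩)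
  intro I v s hv hS hlo hhi
  exact key I v s hv hS hlo (hhi.trans (le_of_eq (by ring)))

/-- **S0370 from the one comparison** -/
theorem S0370_of_ONE (hU2 : Target_U2) (hG : Target_GROWTH) (h1 : Target_ONE) :
    ∃ C : ℝ, ∀ (d N : ℕ) (v : Fin N → EuclideanSpace ℝ (Fin d)),
      (∀ i, ‖v i‖ ≤ 1) →
      ∃ ε : Fin N → ℤ, (∀ i, ε i = 1 ∨ ε i = -1) ∧
        ∀ k : ℕ, k ≤ N →
          ‖∑ i ∈ Finset.univ.filter (fun i : Fin N => (i : ℕ) < k), (ε i : ℝ) • v i‖
            ≤ C * Real.sqrt d :=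
  LD718.S0370_of_two hU2 (target_U3two_of hU2 hG h1)

end Crest.Agent.R239.One394
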