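import Mathlib
import Crest.Agent.R239.OneLit_502
import Crest.Agent.R239.OneNum_502
import Crest.Agent.R239.OneW_394
import Crest.Agent.R239.OneLo_816
import Crest.Agent.R239.F2b_227

/-! R239 / S0370, ONE-STEP LINE, assembly (f) (helper502): `Target_ONE` from the literals of
`OneLit_502` (thinness measured at `V`). -/

set_option autoImplicit false
set_option linter.unusedSectionVars false
open MeasureTheory ProbabilityTheory
open scoped RealInnerProductSpace

namespace Crest.Agent.R239.OneStep502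

open Crest.Agent.R239.FD

variable {E : Type*} [NormedAddCommGroup E] [InnerProductSpace ℝ E] [FiniteDimensional ℝ E]

/-- 142's flag is a one-step flag -/
theorem isOne_one (V : Flag E) (v : E) (I : ℕ) : IsOne V (One142.one V v I) v I :=
  ⟨rfl, fun j hj => by simp [One142.one, hj], fun j hj => by
    simp [One142.one, not_le.2 hj]⟩

theorem p_oneex : P_ONEex E := fun V v I _ => ⟨One142.one V v I, isOne_one V v I⟩

lemma finrank_sup_span_le (M : Submodule ℝ E) (v : E) :
    Module.finrank ℝ (M ⊔ Submodule.span ℝ {v} : Submodule ℝ E) ≤ Module.finrank ℝ M + 1 := by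
  refine (Submodule.finrank_add_le_finrank_add_finrank M (Submodule.span ℝ {v})).trans ?_
  have : Module.finrank ℝ (Submodule.span ℝ {v}) ≤ 1 := by
    simpa using finrank_span_le_card (R := ℝ) ({v} : Set E)
  omega

variable [MeasurableSpace E] [BorelSpace E]

/-- penalty, with the factor `kap` -/
theorem pen {p : Par} (hp : p.Ok) {V W : Flag E} {v : E} {I : ℕ} (hW : IsOne V W v I) :
    ∑ i ∈ Finset.range W.n, p.kap * p.lam i * W.k i
      ≤ ∑ i ∈ Finset.range V.n, p.kap * p.lam i * V.k i + p.kap * p.lam I := by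
  obtain ⟨hn, h1, h2⟩ := hW
  refine OneLo816.penalty hp V W (by omega) (by omega) ?_ ?_
  · intro j hj
    rw [h1 j hj]
    exact finrank_sup_span_le _ _
  · intro j hj
    rw [h2 j hj]
    exact Submodule.finrank_map_le _ _

lemma b_bot (V : Flag E) (v : E) {i : ℕ} (h : V.n ≤ i) : V.b v i = 0 := by
  unfold Flag.b
  rw [F2.P_bot V h]
  simp

lemma b_nonneg (V : Flag E) (v : E) (i : ℕ) : 0 ≤ V.b v i := by
  unfold Flag.b
  positivity

/-- **the one comparison** -/
theorem J_cmp {p : Par} (hp : p.Ok) {c' dl c1 C C' sm eps S0 : ℝ} (hT : P_THIN E p c' dl)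
    (hdl : 0 < dl)
    (hlo : P_ONElo E p C') (hhi : P_ONEhiV E p c' dl c1 C sm S0) (hC' : 0 < C') (heps : 0 < eps)
    (heps1 : eps ≤ 1) (hsm : 0 ≤ sm) (hC : 0 ≤ C) (hc1 : 0 ≤ c1)
    (hc : c1 * (1 / p.A) + sm + C / p.rho ^ 2 + 7 * C / p.A + 7 * C' / (eps * p.A) ≤ c1)
    {V W : Flag E} {μ : Multiset E} {v : E} {I : ℕ} (hv : ‖v‖ = 1) (hW : IsOne V W v I)
    (hS : S μ v ≤ S0 * p.lam I) (hN : NearMax p V μ (dl * p.tau)) :
    J p V μ - (p.kap + sm + 4 / p.A + (9 / 8) * (2 / p.rho ^ 2 + eps)) * p.lam I ≤ J p W μ := by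
  have hA0 : 0 < p.A := by have := hp.A_ge; linarith
  have htau := hp.tau_pos
  have hrho : 0 < p.rho := by have := hp.rho_ge; linarith
  have key := OneNum502.num_end (n := V.n) (I := I) (tau := p.tau) (A := p.A) (C := C) (C' := C')
    (c1 := c1) (sm := sm) (eps := eps) (rho := p.rho) hp.tau_pos hp.A_ge hC' heps hsm hrho hc hC hc1
    (V.b v) (b_nonneg V v) (fun i hi => b_bot V v hi) (fun i => D p V i μ) (fun i => D p W i μ)
    (by
      intro i hi hin
      have h := hlo V W μ v I i eps hv hW hi hin heps heps1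
      have e : (th⁻¹ : ℝ) ^ (2 * (I - i)) = (25 / 16 : ℝ) ^ (I - i) := by
        rw [pow_mul]
        congr 1
        unfold th
        norm_num
      rw [e] at h
      exact h)
    (by
      intro i hi hin
      have hthin : ThinAt p V μ i c' dl := by
        refine hT V μ i (by omega) fun V' => (hN V').trans ?_
        have h1 : p.tau ≤ p.lam i := by
          unfold Par.lam
          have : (1 : ℝ) ≤ p.A ^ i := one_le_pow₀ (by have := hp.A_ge; linarith)
          nlinarith
        have := mul_le_mul_of_nonneg_left h1 hdl.le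
        linarith
      exact hhi V W μ v I i hv hW hi hin hS hthin)
  have hpen := pen hp hW
  have h1 : ∑ i ∈ Finset.range V.n, D p W i μ ≤ ∑ i ∈ Finset.range W.n, D p W i μ := by
    refine Finset.sum_le_sum_of_subset_of_nonneg (Finset.range_mono ?_) fun i _ _ =>
      F2.D_nonneg hp W i μ
    rw [hW.1]
    exact le_max_left _ _
  unfold J
  rw [Finset.sum_sub_distrib, Finset.sum_sub_distrib]
  have e1 : p.tau * p.A ^ I = p.lam I := rfl
  rw [e1] at key
  linarith

/-- **Target_ONE of 394 from the literals** -/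
theorem target_ONE_of (hTh : Target_THIN) (hLo : Target_ONElo) (hHi : Target_ONEhiV) :
    One394.Target_ONE := by
  intro sm q hsm hq
  -- constants
  set kap : ℝ := min 1 (sm / 5) with hkap
  have hkap0 : 0 < kap := lt_min one_pos (by positivity)
  have hkap1 : kap ≤ 1 := min_le_left _ _
  have hkap2 : kap ≤ sm / 5 := min_le_right _ _
  obtain ⟨c', dl, rho0, hc'0, hc'1, hdl, hthin⟩ := hTh kap hkap0 hkap1
  obtain ⟨c1, C, hc1, hC, hhi⟩ := hHi c' dl hc'0 hc'1 hdl
  obtain ⟨C', hC', hlo⟩ := hLo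
  set eps : ℝ := min 1 (sm / 10) with heps
  have heps0 : 0 < eps := lt_min one_pos (by positivity)
  have heps1 : eps ≤ 1 := min_le_left _ _
  have heps2 : eps ≤ sm / 10 := min_le_right _ _
  set sm' : ℝ := min (sm / 5) (c1 / 8) with hsm'
  have hsm'0 : 0 < sm' := lt_min (by positivity) (by positivity)
  have hsm'1 : sm' ≤ sm / 5 := min_le_left _ _
  have hsm'2 : sm' ≤ c1 / 8 := min_le_right _ _
  obtain ⟨A1, hA1⟩ := hhi sm' (1 / q) hsm'0 (by positivity)
  -- rho
  set X : ℝ := 16 / kap + 8 * C / c1 + 20 / sm + 16 with hX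
  have hX0 : 16 ≤ X := by
    have h1 : 0 < 16 / kap := by positivity
    have h2 : 0 < 8 * C / c1 := by positivity
    have h3 : 0 < 20 / sm := by positivity
    linarith
  set rho : ℝ := max rho0 X with hrho
  have hrho0 : rho0 ≤ rho := le_max_left _ _
  have hrhoX : X ≤ rho := le_max_right _ _
  have hrho16 : 16 ≤ rho := hX0.trans hrhoX
  have hrhosq : X ≤ rho ^ 2 := by nlinarith
  have hrhopos : 0 < rho := by linarith
  have hr1 : 16 ≤ kap * rho ^ 2 := by
    have h1 : 16 / kap ≤ rho ^ 2 := by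
      have h2 : 0 < 8 * C / c1 := by positivity
      have h3 : 0 < 20 / sm := by positivity
      linarith
    rwa [div_le_iff₀' hkap0] at h1
  have hr2 : C / rho ^ 2 ≤ c1 / 8 := by
    have h1 : 8 * C / c1 ≤ rho ^ 2 := by
      have h2 : 0 < 16 / kap := by positivity
      have h3 : 0 < 20 / sm := by positivity
      linarith
    rw [div_le_iff₀ (by positivity)]
    rw [div_le_iff₀ hc1] at h1
    linarith
  have hr3 : 2 / rho ^ 2 ≤ sm / 10 := by
    have h1 : 20 / sm ≤ rho ^ 2 := by
      have h2 : 0 < 16 / kap := by positivity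
      have h3 : 0 < 8 * C / c1 := by positivity
      linarith
    rw [div_le_iff₀ (by positivity)]
    rw [div_le_iff₀ hsm] at h1
    linarith
  -- A0
  set Y : ℝ := (c1 + 7 * C + 7 * C' / eps) * (8 / c1) + 20 / sm + 16 with hY
  refine ⟨kap, rho, max A1 Y, dl, hdl, ?_⟩
  intro A tau hA htau
  have hAA1 : A1 ≤ A := (le_max_left _ _).trans hA
  have hAY : Y ≤ A := (le_max_right _ _).trans hA
  have hY1 : 0 < (c1 + 7 * C + 7 * C' / eps) * (8 / c1) := by positivity
  have hY2 : 0 < 20 / sm := by positivity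
  have hA16 : 16 ≤ A := by linarith
  have hApos : 0 < A := by linarith
  have hok : (⟨rho, kap, A, tau⟩ : Par).Ok := ⟨htau, hA16, hkap0, hkap1, hrho16, hr1⟩
  refine ⟨hok, fun d V μ I v hv hS hN => ?_⟩
  have hcc : c1 * (1 / A) + 7 * C / A + 7 * C' / (eps * A) ≤ c1 / 8 := by
    have e : c1 * (1 / A) + 7 * C / A + 7 * C' / (eps * A) = (c1 + 7 * C + 7 * C' / eps) / A := by
      field_simp
    rw [e, div_le_iff₀ hApos]
    have h1 : (c1 + 7 * C + 7 * C' / eps) * (8 / c1) ≤ A := by linarith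
    rw [← mul_div_assoc, div_le_iff₀ hc1] at h1
    linarith
  have hA4 : 4 / A ≤ sm / 5 := by
    rw [div_le_iff₀ hApos]
    have h1 : 20 / sm ≤ A := by linarith
    rw [div_le_iff₀ hsm] at h1
    linarith
  have key := J_cmp (E := EuclideanSpace ℝ (Fin d)) (p := ⟨rho, kap, A, tau⟩) hok
    (c' := c') (dl := dl) (c1 := c1) (C := C) (C' := C') (sm := sm') (eps := eps) (S0 := 1 / q)
    (hthin d _ hok rfl hrho0) hdl (hlo d _ hok) (hA1 d _ hok hAA1) hC' heps0 heps1 hsm'0.le hC.le
    hc1.le (by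
      show c1 * (1 / A) + sm' + C / rho ^ 2 + 7 * C / A + 7 * C' / (eps * A) ≤ c1
      linarith)
    hv (isOne_one V v I) (by
      rw [div_mul_eq_mul_div, one_mul, le_div_iff₀ hq]
      linarith) hN
  refine le_trans ?_ key
  have hl : 0 < (⟨rho, kap, A, tau⟩ : Par).lam I := by
    unfold Par.lam
    positivity
  have h5 : (kap + sm' + 4 / A + (9 / 8) * (2 / rho ^ 2 + eps)) ≤ sm := by linarith
  have := mul_le_mul_of_nonneg_right h5 hl.le
  show J _ V μ - sm * _ ≤ J _ V μ - (kap + sm' + 4 / A + (9 / 8) * (2 / rho ^ 2 + eps)) * _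
  linarith

/-- **S0370 from the targets of the one-step line** -/
theorem S0370_of (hU2 : Target_U2) (hG : Target_GROWTH) (hTh : Target_THIN) (hLo : Target_ONElo)
    (hHi : Target_ONEhiV) :
    ∃ C : ℝ, ∀ (d N : ℕ) (v : Fin N → EuclideanSpace ℝ (Fin d)),
      (∀ i, ‖v i‖ ≤ 1) →
      ∃ ε : Fin N → ℤ, (∀ i, ε i = 1 ∨ ε i = -1) ∧
        ∀ k : ℕ, k ≤ N →
          ‖∑ i ∈ Finset.univ.filter (fun i : Fin N => (i : ℕ) < k), (ε i : ℝ) • v i‖
            ≤ C * Real.sqrt d :=
  One394.S0370_of_ONE hU2 hG (target_ONE_of hTh hLo hHi)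

end Crest.Agent.R239.OneStep502
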