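import Mathlib

set_option autoImplicit false

/-!
# R239 / block L2 (B1 growth): the one-dimensional log-concave core

`Φ t = ∫_{len y ≥ t} F y dy` is nonincreasing and log-concave on `[0,∞)`; the hazard bound
`Φ 0 - Φ (T η) ≤ 3.1/(C1 η) G` and `G ≤ ∫ Φ` give `2 η (Φ 0 - Φ (2 η)) ≤ G/(40 C1)`.
-/

namespace Crest.Agent.R239.Phi43

open Real MeasureTheory Set

/-- exponential decay beyond a half point. -/
theorem tail_of_half {Φ : ℝ → ℝ} {L : ℝ} (hL : 0 < L) (h0 : ∀ t, 0 ≤ Φ t) (hpos : 0 < Φ 0)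
    (hlc : ∀ a b θ, 0 ≤ a → 0 ≤ b → 0 ≤ θ → θ ≤ 1 →
      Φ a ^ (1 - θ) * Φ b ^ θ ≤ Φ ((1 - θ) * a + θ * b))
    (hhalf : Φ L ≤ Φ 0 / 2) {t : ℝ} (ht : L ≤ t) :
    Φ t ≤ Φ 0 * (1 / 2 : ℝ) ^ (t / L) := by
  have htpos : 0 < t := lt_of_lt_of_le hL ht
  set θ : ℝ := L / t with hθ
  have hθ0 : 0 < θ := div_pos hL htpos
  have hθ1 : θ ≤ 1 := (div_le_one htpos).2 ht
  have h1 := hlc 0 t θ le_rfl htpos.le hθ0.le hθ1
  have hpt : (1 - θ) * 0 + θ * t = L := by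
    rw [mul_zero, zero_add, hθ, div_mul_cancel₀ _ htpos.ne']
  rw [hpt] at h1
  have h2 : Φ 0 ^ (1 - θ) * Φ t ^ θ ≤ Φ 0 / 2 := h1.trans hhalf
  have hsplit : Φ 0 ^ (1 - θ) * Φ 0 ^ θ = Φ 0 := by
    rw [← Real.rpow_add hpos]; simp
  have hA : 0 < Φ 0 ^ (1 - θ) := Real.rpow_pos_of_pos hpos _
  have h3 : Φ t ^ θ ≤ Φ 0 ^ θ / 2 := by
    have : Φ 0 ^ (1 - θ) * Φ t ^ θ ≤ Φ 0 ^ (1 - θ) * (Φ 0 ^ θ / 2) := by
      calc Φ 0 ^ (1 - θ) * Φ t ^ θ ≤ Φ 0 / 2 := h2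
        _ = Φ 0 ^ (1 - θ) * (Φ 0 ^ θ / 2) := by rw [← mul_div_assoc, hsplit]
    exact le_of_mul_le_mul_left this hA
  have h4 : (Φ t ^ θ) ^ (1 / θ) ≤ (Φ 0 ^ θ / 2) ^ (1 / θ) :=
    Real.rpow_le_rpow (Real.rpow_nonneg (h0 t) _) h3 (by positivity)
  have h5 : (Φ t ^ θ) ^ (1 / θ) = Φ t := by
    rw [← Real.rpow_mul (h0 t), mul_one_div_cancel hθ0.ne', Real.rpow_one]
  have h6 : (Φ 0 ^ θ / 2) ^ (1 / θ) = Φ 0 * (1 / 2 : ℝ) ^ (t / L) := by
    rw [div_eq_mul_one_div, Real.mul_rpow (Real.rpow_nonneg hpos.le _) (by norm_num),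
      ← Real.rpow_mul hpos.le, mul_one_div_cancel hθ0.ne', Real.rpow_one]
    congr 2
    rw [hθ, one_div_div]
  rw [h5, h6] at h4
  exact h4

/-- `∫_0^∞ Φ ≤ 2 L Φ 0` if `Φ L ≤ Φ 0 / 2`. -/
theorem lintegral_le_of_half {Φ : ℝ → ℝ} {L : ℝ} (hL : 0 < L) (h0 : ∀ t, 0 ≤ Φ t)
    (hpos : 0 < Φ 0)
    (hanti : ∀ s t, 0 ≤ s → s ≤ t → Φ t ≤ Φ s)
    (hlc : ∀ a b θ, 0 ≤ a → 0 ≤ b → 0 ≤ θ → θ ≤ 1 →
      Φ a ^ (1 - θ) * Φ b ^ θ ≤ Φ ((1 - θ) * a + θ * b))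
    (hhalf : Φ L ≤ Φ 0 / 2) :
    ∫⁻ t in Ioi (0 : ℝ), ENNReal.ofReal (Φ t) ≤ ENNReal.ofReal (2 * L * Φ 0) := by
  have hsplit : Ioi (0 : ℝ) = Ioc 0 L ∪ Ioi L := (Ioc_union_Ioi_eq_Ioi hL.le).symm
  have hlog2 : (0.6931471803 : ℝ) < Real.log 2 := Real.log_two_gt_d9
  have hlog2' : 0 < Real.log 2 := by linarith
  have h1 : ∫⁻ t in Ioc (0 : ℝ) L, ENNReal.ofReal (Φ t) ≤ ENNReal.ofReal (L * Φ 0) := by
    calc ∫⁻ t in Ioc (0 : ℝ) L, ENNReal.ofReal (Φ t)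
        ≤ ∫⁻ _t in Ioc (0 : ℝ) L, ENNReal.ofReal (Φ 0) := by
          refine setLIntegral_mono' measurableSet_Ioc fun t ht => ?_
          exact ENNReal.ofReal_le_ofReal (hanti 0 t le_rfl ht.1.le)
      _ = ENNReal.ofReal (L * Φ 0) := by
          rw [setLIntegral_const, Real.volume_Ioc, sub_zero, ← ENNReal.ofReal_mul (h0 0), mul_comm]
  have h2 : ∫⁻ t in Ioi L, ENNReal.ofReal (Φ t) ≤ ENNReal.ofReal (L * Φ 0) := by
    set c : ℝ := Real.log 2 / L with hc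
    have hcpos : 0 < c := div_pos hlog2' hL
    have hint : IntegrableOn (fun t : ℝ => Φ 0 * Real.exp (-c * t)) (Ioi L) :=
      (integrableOn_exp_mul_Ioi (by linarith) L).const_mul (Φ 0)
    calc ∫⁻ t in Ioi L, ENNReal.ofReal (Φ t)
        ≤ ∫⁻ t in Ioi L, ENNReal.ofReal (Φ 0 * Real.exp (-c * t)) := by
          refine setLIntegral_mono' measurableSet_Ioi fun t ht => ?_
          refine ENNReal.ofReal_le_ofReal ?_
          refine (tail_of_half hL h0 hpos hlc hhalf (le_of_lt ht)).trans (le_of_eq ?_)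
          congr 1
          rw [one_div, Real.inv_rpow (by norm_num), ← Real.rpow_neg (by norm_num),
            Real.rpow_def_of_pos (by norm_num)]
          congr 1
          rw [hc]; field_simp
      _ = ENNReal.ofReal (∫ t in Ioi L, Φ 0 * Real.exp (-c * t)) := by
          rw [ofReal_integral_eq_lintegral_ofReal hint]
          exact Filter.Eventually.of_forall fun t => mul_nonneg (h0 0) (Real.exp_pos _).le
      _ ≤ ENNReal.ofReal (L * Φ 0) := by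
          refine ENNReal.ofReal_le_ofReal ?_
          rw [integral_const_mul, integral_exp_mul_Ioi (by linarith) L]
          have hcL : -c * L = -Real.log 2 := by rw [hc]; field_simp
          rw [hcL, Real.exp_neg, Real.exp_log (by norm_num)]
          have : -(2 : ℝ)⁻¹ / -c ≤ L := by
            rw [neg_div_neg_eq, div_le_iff₀ hcpos, hc, mul_div_cancel₀ _ hL.ne']
            linarith
          calc Φ 0 * (-(2 : ℝ)⁻¹ / -c) ≤ Φ 0 * L := mul_le_mul_of_nonneg_left this (h0 0)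
            _ = L * Φ 0 := mul_comm _ _
  rw [hsplit, lintegral_union measurableSet_Ioi (by
    rw [Set.disjoint_left]; intro x hx hx'; exact absurd hx.2 (not_le.2 hx'))]
  calc _ ≤ ENNReal.ofReal (L * Φ 0) + ENNReal.ofReal (L * Φ 0) := add_le_add h1 h2
    _ = ENNReal.ofReal (2 * L * Φ 0) := by
      rw [← ENNReal.ofReal_add (mul_nonneg hL.le (h0 0)) (mul_nonneg hL.le (h0 0))]
      congr 1; ring

/-- `-log r ≤ 2 log 2 (1 - r)` on `[1/2, 1]`. -/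
theorem neg_log_le {r : ℝ} (h1 : 1 / 2 ≤ r) (h2 : r ≤ 1) :
    -Real.log r ≤ 2 * Real.log 2 * (1 - r) := by
  have hcc : ConcaveOn ℝ (Ioi (0 : ℝ)) Real.log := strictConcaveOn_log_Ioi.concaveOn
  have hc := hcc.2 (show (1 / 2 : ℝ) ∈ Ioi (0 : ℝ) by norm_num)
    (show (1 : ℝ) ∈ Ioi (0 : ℝ) by norm_num)
    (show 0 ≤ 2 * (1 - r) by linarith) (show 0 ≤ 2 * r - 1 by linarith)
    (show 2 * (1 - r) + (2 * r - 1) = 1 by ring)
  simp only [smul_eq_mul] at hc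
  have e1 : 2 * (1 - r) * (1 / 2) + (2 * r - 1) * 1 = r := by ring
  rw [e1, Real.log_one, mul_zero, add_zero, one_div, Real.log_inv] at hc
  linarith

/-- lintegral form of the core lemma. -/
theorem phiCore_lintegral {Φ : ℝ → ℝ} {η T C1 G : ℝ}
    (h0 : ∀ t, 0 ≤ Φ t)
    (hanti : ∀ s t, 0 ≤ s → s ≤ t → Φ t ≤ Φ s)
    (hlc : ∀ a b θ, 0 ≤ a → 0 ≤ b → 0 ≤ θ → θ ≤ 1 →
      Φ a ^ (1 - θ) * Φ b ^ θ ≤ Φ ((1 - θ) * a + θ * b))
    (hη : 0 < η) (hT : 720 ≤ T) (hC : 20 * T ≤ C1) (hG : 0 < G)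
    (hint : ENNReal.ofReal G ≤ ∫⁻ t in Ioi (0 : ℝ), ENNReal.ofReal (Φ t))
    (hhaz : Φ 0 - Φ (T * η) ≤ 3.1 / (C1 * η) * G) :
    2 * η * (Φ 0 - Φ (2 * η)) ≤ G / (40 * C1) := by
  have hTpos : 0 < T := by linarith
  have hC1 : 0 < C1 := by linarith
  have hL : 0 < T * η := mul_pos hTpos hη
  have hpos : 0 < Φ 0 := by
    rcases (h0 0).lt_or_eq with h | h
    · exact h
    · exfalso
      have hz : ∀ t ∈ Ioi (0 : ℝ), ENNReal.ofReal (Φ t) = 0 := fun t ht => by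
        have : Φ t ≤ 0 := by rw [h]; exact hanti 0 t le_rfl (le_of_lt ht)
        exact ENNReal.ofReal_of_nonpos this
      have : ∫⁻ t in Ioi (0 : ℝ), ENNReal.ofReal (Φ t) = 0 := by
        rw [setLIntegral_congr_fun measurableSet_Ioi hz]; simp
      rw [this] at hint
      have := ENNReal.ofReal_pos.2 hG
      exact absurd hint (not_le.2 this)
  by_cases hcase : Φ (T * η) ≤ Φ 0 / 2
  · exfalso
    have h1 := hint.trans (lintegral_le_of_half hL h0 hpos hanti hlc hcase)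
    have h2 : G ≤ 2 * (T * η) * Φ 0 := by
      exact (ENNReal.ofReal_le_ofReal_iff (by positivity)).1 h1
    have h3 : Φ 0 / 2 ≤ 3.1 / (C1 * η) * G := by linarith
    have h4 : Φ 0 * (C1 * η) ≤ 6.2 * G := by
      have : Φ 0 / 2 * (C1 * η) ≤ 3.1 / (C1 * η) * G * (C1 * η) :=
        mul_le_mul_of_nonneg_right h3 (by positivity)
      have e : 3.1 / (C1 * η) * G * (C1 * η) = 3.1 * G := by field_simp
      rw [e] at this; linarith
    have h5 : 20 * T * η * Φ 0 ≤ Φ 0 * (C1 * η) := by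
      have := mul_le_mul_of_nonneg_right hC (mul_pos hη hpos).le
      nlinarith
    nlinarith
  · push Not at hcase
    have hLle : Φ (T * η) ≤ Φ 0 := hanti 0 _ le_rfl hL.le
    set r : ℝ := Φ (T * η) / Φ 0 with hr
    have hr1 : 1 / 2 ≤ r := by rw [hr, div_le_div_iff₀ (by norm_num) hpos]; linarith
    have hr2 : r ≤ 1 := (div_le_one hpos).2 hLle
    have hrpos : 0 < r := by linarith
    have hΦL : Φ (T * η) = Φ 0 * r := by rw [hr, mul_div_cancel₀ _ hpos.ne']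
    have hθ0 : 0 ≤ 2 / T := by positivity
    have hθ1 : 2 / T ≤ 1 := by rw [div_le_one hTpos]; linarith
    have h1 := hlc 0 (T * η) (2 / T) le_rfl hL.le hθ0 hθ1
    have hpt : (1 - 2 / T) * 0 + 2 / T * (T * η) = 2 * η := by field_simp; ring
    rw [hpt, hΦL, Real.mul_rpow hpos.le hrpos.le, ← mul_assoc, ← Real.rpow_add hpos] at h1
    have e1 : 1 - 2 / T + 2 / T = 1 := by ring
    rw [e1, Real.rpow_one] at h1
    have h2 : 1 + 2 / T * Real.log r ≤ r ^ (2 / T) := by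
      rw [Real.rpow_def_of_pos hrpos]
      have := Real.add_one_le_exp (Real.log r * (2 / T))
      linarith
    have h3 := neg_log_le hr1 hr2
    have hlog2 : Real.log 2 < 0.6931471808 := Real.log_two_lt_d9
    have h4 : Φ 0 - Φ (2 * η) ≤ Φ 0 * (2 / T * (2 * Real.log 2 * (1 - r))) := by
      have : Φ 0 * (1 - 2 / T * (2 * Real.log 2 * (1 - r))) ≤ Φ (2 * η) := by
        refine le_trans (mul_le_mul_of_nonneg_left ?_ hpos.le) h1
        refine le_trans ?_ h2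
        have := mul_le_mul_of_nonneg_left h3 hθ0
        linarith
      linarith
    have h5 : Φ 0 * (1 - r) ≤ 3.1 / (C1 * η) * G := by
      calc Φ 0 * (1 - r) = Φ 0 - Φ (T * η) := by rw [hΦL]; ring
        _ ≤ _ := hhaz
    have h6 : Φ 0 - Φ (2 * η) ≤ 4 * 0.6931471808 / T * (3.1 / (C1 * η) * G) := by
      have hnn : 0 ≤ Φ 0 * (1 - r) := mul_nonneg hpos.le (by linarith)
      calc Φ 0 - Φ (2 * η) ≤ Φ 0 * (2 / T * (2 * Real.log 2 * (1 - r))) := h4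
        _ = 4 * Real.log 2 / T * (Φ 0 * (1 - r)) := by ring
        _ ≤ 4 * 0.6931471808 / T * (Φ 0 * (1 - r)) := by
            refine mul_le_mul_of_nonneg_right ?_ hnn
            refine div_le_div_of_nonneg_right ?_ hTpos.le
            linarith
        _ ≤ _ := mul_le_mul_of_nonneg_left h5 (by positivity)
    have h7 : 2 * η * (Φ 0 - Φ (2 * η)) ≤
        2 * η * (4 * 0.6931471808 / T * (3.1 / (C1 * η) * G)) :=
      mul_le_mul_of_nonneg_left h6 (by positivity)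
    refine h7.trans ?_
    have e2 : 2 * η * (4 * 0.6931471808 / T * (3.1 / (C1 * η) * G)) =
        17.19005008384 / T * (G / C1) := by
      field_simp; norm_num
    rw [e2]
    have h8 : 17.19005008384 / T ≤ 1 / 40 := by
      rw [div_le_div_iff₀ hTpos (by norm_num)]; linarith
    calc 17.19005008384 / T * (G / C1) ≤ 1 / 40 * (G / C1) :=
          mul_le_mul_of_nonneg_right h8 (by positivity)
      _ = G / (40 * C1) := by field_simp

/-- Bochner form of the core lemma. -/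
theorem phiCore {Φ : ℝ → ℝ} {η T C1 G : ℝ}
    (h0 : ∀ t, 0 ≤ Φ t)
    (hanti : ∀ s t, 0 ≤ s → s ≤ t → Φ t ≤ Φ s)
    (hlc : ∀ a b θ, 0 ≤ a → 0 ≤ b → 0 ≤ θ → θ ≤ 1 →
      Φ a ^ (1 - θ) * Φ b ^ θ ≤ Φ ((1 - θ) * a + θ * b))
    (hη : 0 < η) (hT : 720 ≤ T) (hC : 20 * T ≤ C1) (hG : 0 < G)
    (hint : G ≤ ∫ t in Ioi (0 : ℝ), Φ t)
    (hhaz : Φ 0 - Φ (T * η) ≤ 3.1 / (C1 * η) * G) :
    2 * η * (Φ 0 - Φ (2 * η)) ≤ G / (40 * C1) := by
  refine phiCore_lintegral h0 hanti hlc hη hT hC hG ?_ hhaz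
  have hI : IntegrableOn Φ (Ioi (0 : ℝ)) := by
    by_contra hI
    rw [integral_undef hI] at hint
    linarith
  rw [← ofReal_integral_eq_lintegral_ofReal hI
    (Filter.Eventually.of_forall fun t => h0 t)]
  exact ENNReal.ofReal_le_ofReal hint

end Crest.Agent.R239.Phi43
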