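import Crest.Agent.R239.Dom_640

/-!
# R239, (RAD) of LEVU (helper147)

Cutting a symmetric convex set by a quadratic cap, flag-free:
* `rad1` : the Markov cut, `(1 - 2 e) γ(Q) ≤ γ(Q ∩ {‖Y g‖ ≤ R0})`;
* `rad2` : if `(1 - h) ‖Y g‖² ≤ R0²` on `Q`, `h ≤ 1/2`, the loss is only `exp(-16 e h)`
  (log-concavity in the radius).
-/

set_option autoImplicit false
set_option linter.unusedSectionVars false
open MeasureTheory ProbabilityTheory Set Filter Topology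
open scoped RealInnerProductSpace ENNReal NNReal Pointwise

namespace Crest.Agent.R239.Rad147

open Crest.Agent.R239 Crest.Agent.R239.Dom640

variable {E : Type*} [NormedAddCommGroup E] [InnerProductSpace ℝ E] [FiniteDimensional ℝ E]
  [MeasurableSpace E] [BorelSpace E]
variable {G : Type*} [NormedAddCommGroup G] [InnerProductSpace ℝ G] [FiniteDimensional ℝ G]

lemma Y_zero {Y : E →L[ℝ] G} (h : ∫ x, ‖Y x‖ ^ 2 ∂(stdGaussian E) ≤ 0) (x : E) : Y x = 0 := by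
  rw [integral_norm_sq] at h
  have h1 : ∀ i ∈ Finset.univ,
      ‖Y.adjoint (stdOrthonormalBasis ℝ G i)‖ ^ 2 = 0 :=
    (Finset.sum_eq_zero_iff_of_nonneg fun i _ => by positivity).1
      (le_antisymm h (Finset.sum_nonneg fun i _ => by positivity))
  have h2 : ‖Y x‖ ^ 2 = 0 := by
    rw [norm_sq_eq_sum]
    refine Finset.sum_eq_zero fun i hi => ?_
    have h3 : Y.adjoint (stdOrthonormalBasis ℝ G i) = 0 := by
      have := h1 i hi
      exact norm_eq_zero.1 (pow_eq_zero_iff (two_ne_zero) |>.1 this)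
    rw [h3, inner_zero_left]; ring
  exact norm_eq_zero.1 (pow_eq_zero_iff (two_ne_zero) |>.1 h2)

/-- Markov cut, sharp form. -/
theorem rad0 {Q : Set E} (mQ : MeasurableSet Q) (cQ : Convex ℝ Q) (sQ : ∀ x ∈ Q, -x ∈ Q)
    (Y : E →L[ℝ] G) {R0 e : ℝ} (hR : 0 ≤ R0)
    (hY : ∫ x, ‖Y x‖ ^ 2 ∂(stdGaussian E) ≤ e * R0 ^ 2) (he : 0 ≤ e) :
    (1 - e) * (stdGaussian E).real Q
      ≤ (stdGaussian E).real (Q ∩ {x | ‖Y x‖ ≤ R0}) := by
  rcases hR.eq_or_lt with h | h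
  · subst h
    have h0 : ∀ x, Y x = 0 := Y_zero (by simpa using hY)
    have e1 : Q ∩ {x | ‖Y x‖ ≤ 0} = Q := by
      ext x; simp [h0 x]
    rw [e1]
    have := measureReal_nonneg (μ := stdGaussian E) (s := Q)
    nlinarith
  · refine le_trans ?_ (cut mQ cQ sQ Y h)
    refine mul_le_mul_of_nonneg_right ?_ measureReal_nonneg
    have : (∫ x, ‖Y x‖ ^ 2 ∂(stdGaussian E)) / R0 ^ 2 ≤ e := by
      rw [div_le_iff₀ (by positivity)]; exact hY
    linarith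

/-- **(RAD i)** -/
theorem rad1 {Q : Set E} (mQ : MeasurableSet Q) (cQ : Convex ℝ Q) (sQ : ∀ x ∈ Q, -x ∈ Q)
    (Y : E →L[ℝ] G) {R0 e : ℝ} (hR : 0 ≤ R0)
    (hY : ∫ x, ‖Y x‖ ^ 2 ∂(stdGaussian E) ≤ e * R0 ^ 2) (he : 0 ≤ e) :
    (1 - 2 * e) * (stdGaussian E).real Q
      ≤ (stdGaussian E).real (Q ∩ {x | ‖Y x‖ ≤ R0}) := by
  refine le_trans ?_ (rad0 mQ cQ sQ Y hR hY he)
  have := measureReal_nonneg (μ := stdGaussian E) (s := Q)
  nlinarith

/-- **(RAD i)**, exponential form -/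
theorem rad1_exp {Q : Set E} (mQ : MeasurableSet Q) (cQ : Convex ℝ Q) (sQ : ∀ x ∈ Q, -x ∈ Q)
    (Y : E →L[ℝ] G) {R0 e : ℝ} (hR : 0 ≤ R0)
    (hY : ∫ x, ‖Y x‖ ^ 2 ∂(stdGaussian E) ≤ e * R0 ^ 2) (he : 0 ≤ e) (he1 : e ≤ 1 / 16) :
    Real.exp (-(2 * e)) * (stdGaussian E).real Q
      ≤ (stdGaussian E).real (Q ∩ {x | ‖Y x‖ ≤ R0}) := by
  refine le_trans ?_ (rad0 mQ cQ sQ Y hR hY he)
  refine mul_le_mul_of_nonneg_right ?_ measureReal_nonneg
  have h1 : 1 + 2 * e ≤ Real.exp (2 * e) := by linarith [Real.add_one_le_exp (2 * e)]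
  rw [Real.exp_neg, inv_le_comm₀ (Real.exp_pos _) (by linarith)]
  refine le_trans ?_ h1
  rw [inv_le_comm₀ (by linarith) (by linarith), ← one_div, div_le_iff₀ (by linarith)]
  nlinarith

/-- **(RAD ii)** -/
theorem rad2 {Q : Set E} (mQ : MeasurableSet Q) (cQ : Convex ℝ Q) (sQ : ∀ x ∈ Q, -x ∈ Q)
    (Y : E →L[ℝ] G) {R0 e h : ℝ} (hR : 0 ≤ R0)
    (hY : ∫ x, ‖Y x‖ ^ 2 ∂(stdGaussian E) ≤ e * R0 ^ 2) (he : 0 ≤ e) (he1 : e ≤ 1 / 16)
    (hh : 0 ≤ h) (hh1 : h ≤ 1 / 2) (hQ : ∀ x ∈ Q, (1 - h) * ‖Y x‖ ^ 2 ≤ R0 ^ 2) :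
    Real.exp (-(16 * e * h)) * (stdGaussian E).real Q
      ≤ (stdGaussian E).real (Q ∩ {x | ‖Y x‖ ≤ R0}) := by
  have hq0 := measureReal_nonneg (μ := stdGaussian E) (s := Q)
  -- trivial case `h = 0`
  rcases hh.eq_or_lt with h0 | hpos
  · subst h0
    have e1 : Q ∩ {x | ‖Y x‖ ≤ R0} = Q := by
      refine inter_eq_left.2 fun x hx => ?_
      have := hQ x hx
      exact abs_le_of_sq_le_sq' (by linarith) hR |>.2
    rw [e1]; simp
  -- on `Q` the radius is at most `(1 + h) R0`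
  have hQ1 : ∀ x ∈ Q, ‖Y x‖ ≤ (1 + h) * R0 := by
    intro x hx
    have h1 := hQ x hx
    have h2 : ‖Y x‖ ^ 2 ≤ ((1 + h) * R0) ^ 2 := by
      have h3 : 1 ≤ (1 - h) * (1 + h) ^ 2 := by nlinarith [mul_pos hpos hpos, pow_pos hpos 3]
      have h4 : (1 - h) * ‖Y x‖ ^ 2 ≤ (1 - h) * ((1 + h) * R0) ^ 2 := by
        calc (1 - h) * ‖Y x‖ ^ 2 ≤ R0 ^ 2 := h1
          _ ≤ (1 - h) * (1 + h) ^ 2 * R0 ^ 2 := le_mul_of_one_le_left (sq_nonneg _) h3
          _ = _ := by ring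
      exact le_of_mul_le_mul_left h4 (by linarith)
    exact abs_le_of_sq_le_sq' h2 (by positivity) |>.2
  set t : ℝ := h / (h + 1 / 2) with ht
  have ht0 : 0 < t := by positivity
  have ht1 : t < 1 := by rw [ht, div_lt_one (by positivity)]; linarith
  have ht2 : t ≤ 2 * h := by rw [ht, div_le_iff₀ (by positivity)]; nlinarith
  have htr : (1 - t) * (1 + h) + t * (1 / 2) = 1 := by rw [ht]; field_simp; ring
  have mB : ∀ r : ℝ, MeasurableSet {x : E | ‖Y x‖ ≤ r} := fun r =>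
    measurableSet_le Y.continuous.norm.measurable measurable_const
  -- Prekopa
  have h1 := pr_real (E := E) ht0 ht1 mQ (mQ.inter (mB (R0 / 2))) (mQ.inter (mB R0)) (by
    rintro x hx y ⟨hy, hy'⟩
    refine ⟨cQ hx hy (by linarith) ht0.le (by ring), ?_⟩
    have hy'' : ‖Y y‖ ≤ R0 / 2 := hy'
    have hx'' := hQ1 x hx
    show ‖Y ((1 - t) • x + t • y)‖ ≤ R0
    rw [map_add, map_smul, map_smul]
    calc ‖(1 - t) • Y x + t • Y y‖ ≤ ‖(1 - t) • Y x‖ + ‖t • Y y‖ := norm_add_le _ _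
      _ = (1 - t) * ‖Y x‖ + t * ‖Y y‖ := by
          rw [norm_smul, norm_smul, Real.norm_of_nonneg (by linarith), Real.norm_of_nonneg ht0.le]
      _ ≤ (1 - t) * ((1 + h) * R0) + t * (R0 / 2) := by
          gcongr
      _ = ((1 - t) * (1 + h) + t * (1 / 2)) * R0 := by ring
      _ = R0 := by rw [htr, one_mul])
  -- the cut at half the radius
  have h2 : (1 - 4 * e) * (stdGaussian E).real Q
      ≤ (stdGaussian E).real (Q ∩ {x | ‖Y x‖ ≤ R0 / 2}) :=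
    rad0 mQ cQ sQ Y (by positivity) (by nlinarith) (by positivity)
  rcases hq0.eq_or_lt with hq | hq
  · rw [← hq, mul_zero]; exact measureReal_nonneg
  refine le_trans ?_ h1
  have h3 : ((1 - 4 * e) * (stdGaussian E).real Q) ^ t
      ≤ ((stdGaussian E).real (Q ∩ {x | ‖Y x‖ ≤ R0 / 2})) ^ t :=
    Real.rpow_le_rpow (by have : 0 ≤ 1 - 4 * e := by linarith
                          positivity) h2 ht0.le
  refine le_trans ?_ (mul_le_mul_of_nonneg_left h3 (Real.rpow_nonneg hq.le _))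
  rw [Real.mul_rpow (by linarith) hq.le]
  have h4 : ((stdGaussian E).real Q) ^ (1 - t) * ((1 - 4 * e) ^ t * ((stdGaussian E).real Q) ^ t)
      = (1 - 4 * e) ^ t * (stdGaussian E).real Q := by
    have : ((stdGaussian E).real Q) ^ (1 - t) * ((stdGaussian E).real Q) ^ t
        = (stdGaussian E).real Q := by
      rw [← Real.rpow_add hq]; simp
    calc _ = (1 - 4 * e) ^ t * (((stdGaussian E).real Q) ^ (1 - t)
        * ((stdGaussian E).real Q) ^ t) := by ring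
      _ = _ := by rw [this]
  rw [h4]
  refine mul_le_mul_of_nonneg_right ?_ hq.le
  rw [Real.rpow_def_of_pos (by linarith)]
  refine Real.exp_le_exp.2 ?_
  have h5 : -(16 / 3 * e) ≤ Real.log (1 - 4 * e) := by
    refine le_trans ?_ (Real.one_sub_inv_le_log_of_pos (by linarith))
    have h6 : (1 - 4 * e)⁻¹ ≤ 1 + 16 / 3 * e := by
      rw [inv_le_comm₀ (by linarith) (by linarith), ← one_div, div_le_iff₀ (by linarith)]
      nlinarith
    linarith
  have h7 : Real.log (1 - 4 * e) * t ≥ -(16 / 3 * e) * t := mul_le_mul_of_nonneg_right h5 ht0.le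
  have h8 : 16 / 3 * e * t ≤ 16 / 3 * e * (2 * h) := by gcongr
  have h9 : 0 ≤ e * h := by positivity
  nlinarith

end Crest.Agent.R239.Rad147
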