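import Mathlib
import Crest.Agent.R239.RemG_864

/-! helper29, R239 leaf REM for `P_LEVhi` (asked by helper776): the two slab remainders for
`stdGaussian E`, with constants independent of `E`, `‖w‖² ≤ 4/3·b` resp. `‖w‖² ≤ 4/3`.
`Chi c = 7 / min 1 (3c/4)`; the lower constant is `8`. -/

set_option autoImplicit false

open MeasureTheory ProbabilityTheory Set Real
open scoped RealInnerProductSpace ENNReal NNReal InnerProduct

namespace Crest.Agent.R239.RemL29

open Crest.Agent.R239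

variable {E : Type*} [NormedAddCommGroup E] [InnerProductSpace ℝ E] [FiniteDimensional ℝ E]
  [MeasurableSpace E] [BorelSpace E]

/-- `log y ≤ 2 √y`. -/
theorem log_le_two_sqrt {y : ℝ} (hy : 0 < y) : log y ≤ 2 * √y := by
  have h1 : log y = 2 * log (√y) := by
    rw [Real.log_sqrt hy.le]; ring
  have h2 : log (√y) ≤ √y - 1 := log_le_sub_one_of_pos (Real.sqrt_pos.2 hy)
  linarith

/-- `x² log (2/x) ≤ 3 x √x` for `0 < x`. -/
theorem sq_log_le {x : ℝ} (hx : 0 < x) : x ^ 2 * log (2 / x) ≤ 3 * (x * √x) := by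
  have h1 := log_le_two_sqrt (y := 2 / x) (by positivity)
  have hsx : 0 < √x := Real.sqrt_pos.2 hx
  have h2 : √(2 / x) = √2 / √x := Real.sqrt_div (by norm_num) x
  have h3 : √2 ≤ 3 / 2 := by
    rw [Real.sqrt_le_left (by norm_num)]
    norm_num
  have h4 : 2 * √(2 / x) ≤ 3 / √x := by
    rw [h2, ← mul_div_assoc]
    apply div_le_div_of_nonneg_right _ hsx.le
    linarith
  have h5 : x ^ 2 * log (2 / x) ≤ x ^ 2 * (3 / √x) :=
    mul_le_mul_of_nonneg_left (h1.trans h4) (by positivity)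
  have h6 : x ^ 2 * (3 / √x) = 3 * (x * √x) := by
    have hxx : √x * √x = x := Real.mul_self_sqrt hx.le
    rw [mul_div_assoc', div_eq_iff hsx.ne']
    calc x ^ 2 * 3 = 3 * (x * x) := by ring
      _ = 3 * (x * (√x * √x)) := by rw [hxx]
      _ = 3 * (x * √x) * √x := by ring
  linarith

/-- `√(16^{-m}) ≤ 2^{-m}`. -/
theorem sqrt_inv_pow_le (m : ℕ) : √(((16 : ℝ) ^ m)⁻¹) ≤ (1 / 2) ^ m := by
  rw [Real.sqrt_le_left (by positivity), ← pow_mul, ← inv_pow]
  calc (16 : ℝ)⁻¹ ^ m ≤ (1 / 4 : ℝ) ^ m := by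
        apply pow_le_pow_left₀ (by positivity)
        norm_num
    _ = (1 / 2) ^ (m * 2) := by
        rw [mul_comm, pow_mul]; norm_num

/-- explicit constant of `rem_hi`. -/
noncomputable def Chi (c : ℝ) : ℝ := 7 / min 1 (3 * c / 4)

theorem Chi_pos {c : ℝ} (hc : 0 < c) : 0 < Chi c := by
  unfold Chi
  have : 0 < min 1 (3 * c / 4) := lt_min one_pos (by positivity)
  positivity

/-- slab of `stdGaussian E`, (r3). -/
theorem std_r3 (w : E) {S lam e ε : ℝ}
    (hlam : 0 < lam) (hS0 : 0 ≤ S) (hS : S ≤ lam) (he : 0 < e) (he1 : e ≤ 1) (hε : 0 < ε) :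
    ∃ t, 0 < t ∧ 0 < (stdGaussian E).real {x | |⟪w, x⟫| ≤ t} ∧
      S * t - lam * log ((stdGaussian E).real {x | |⟪w, x⟫| ≤ t}) ≤
        e * lam * ‖w‖ ^ 2 + 2 / e * (S ^ 2 / lam) * log (2 * lam / S) + ε := by
  have h := Rem864.gau_r3 (ContinuousLinearMap.id ℝ E) w hlam hS0 hS he he1 hε
  rw [gau_id, adjoint_id'] at h
  exact h

/-- **(hi)**, explicit constant, no slack, no unused hypotheses. -/
theorem rem_hi_expl {c : ℝ} (hc : 0 < c) (w : E) {b lamI lami S : ℝ} {m : ℕ}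
    (hw : ‖w‖ ^ 2 ≤ 4 / 3 * b) (hlI : 0 < lamI) (hli : 16 ^ m * lamI ≤ lami)
    (hS0 : 0 ≤ S) (hS : S ≤ lamI) :
    ∃ t, 0 < t ∧ 0 < (stdGaussian E).real {g | |⟪w, g⟫| ≤ t} ∧
      t * S - lami * log ((stdGaussian E).real {g | |⟪w, g⟫| ≤ t}) ≤
        c * lami * b + Chi c * lamI * (1 / 2) ^ m := by
  set e : ℝ := min 1 (3 * c / 4) with he_def
  have he : 0 < e := lt_min one_pos (by positivity)
  have he1 : e ≤ 1 := min_le_left _ _
  have hec : e ≤ 3 * c / 4 := min_le_right _ _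
  have h16 : (1 : ℝ) ≤ 16 ^ m := one_le_pow₀ (by norm_num)
  have hle : lamI ≤ lami := by nlinarith
  have hli0 : 0 < lami := by linarith
  have hhalf : (0 : ℝ) < (1 / 2) ^ m := by positivity
  obtain ⟨t, h1, h2, h3⟩ := std_r3 w (S := S) (lam := lami) (e := e)
    (ε := lamI * (1 / 2) ^ m) hli0 hS0 (hS.trans hle) he he1 (by positivity)
  refine ⟨t, h1, h2, ?_⟩
  rw [mul_comm t S]
  refine h3.trans ?_
  have key : S ^ 2 / lami * log (2 * lami / S) ≤ 3 * (lamI * (1 / 2) ^ m) := by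
    rcases hS0.eq_or_lt with h | h
    · rw [← h]; simp; positivity
    · set x : ℝ := S / lami with hx
      have hx0 : 0 < x := div_pos h hli0
      have e1 : S ^ 2 / lami = lami * x ^ 2 := by
        rw [hx]; field_simp
      have e2 : 2 * lami / S = 2 / x := by
        rw [hx]; field_simp
      rw [e1, e2, mul_assoc]
      have h5 := sq_log_le hx0
      have h6 : x ≤ ((16 : ℝ) ^ m)⁻¹ := by
        rw [hx, div_le_iff₀ hli0]
        have h7 : lamI ≤ ((16 : ℝ) ^ m)⁻¹ * lami := by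
          rw [inv_mul_eq_div, le_div_iff₀ (by positivity)]
          linarith
        linarith
      have h7 : √x ≤ (1 / 2) ^ m := (Real.sqrt_le_sqrt h6).trans (sqrt_inv_pow_le m)
      have h8 : lami * x ≤ lamI := by
        have : lami * x = S := by rw [hx]; field_simp
        rw [this]; exact hS
      calc lami * (x ^ 2 * log (2 / x)) ≤ lami * (3 * (x * √x)) :=
            mul_le_mul_of_nonneg_left h5 hli0.le
        _ = 3 * ((lami * x) * √x) := by ring
        _ ≤ 3 * (lamI * (1 / 2) ^ m) := by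
            apply mul_le_mul_of_nonneg_left _ (by norm_num)
            exact mul_le_mul h8 h7 (Real.sqrt_nonneg _) hlI.le
  have h9 : 2 / e * (S ^ 2 / lami) * log (2 * lami / S) ≤ 6 / e * (lamI * (1 / 2) ^ m) := by
    calc 2 / e * (S ^ 2 / lami) * log (2 * lami / S)
        = 2 / e * (S ^ 2 / lami * log (2 * lami / S)) := by ring
      _ ≤ 2 / e * (3 * (lamI * (1 / 2) ^ m)) := mul_le_mul_of_nonneg_left key (by positivity)
      _ = 6 / e * (lamI * (1 / 2) ^ m) := by ring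
  have h10 : lamI * (1 / 2) ^ m ≤ 1 / e * (lamI * (1 / 2) ^ m) := by
    have : 1 ≤ 1 / e := by rw [le_div_iff₀ he]; linarith
    have hpos : 0 < lamI * (1 / 2) ^ m := by positivity
    nlinarith
  have h11 : Chi c * lamI * (1 / 2) ^ m = 6 / e * (lamI * (1 / 2) ^ m) +
      1 / e * (lamI * (1 / 2) ^ m) := by
    unfold Chi
    rw [← he_def]
    ring
  have h12 : e * lami * ‖w‖ ^ 2 ≤ c * lami * b := by
    have hb0 : 0 ≤ 4 / 3 * b := (sq_nonneg ‖w‖).trans hw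
    have h13 : e * ‖w‖ ^ 2 ≤ c * b := by
      calc e * ‖w‖ ^ 2 ≤ e * (4 / 3 * b) := mul_le_mul_of_nonneg_left hw he.le
        _ ≤ (3 * c / 4) * (4 / 3 * b) := mul_le_mul_of_nonneg_right hec hb0
        _ = c * b := by ring
    calc e * lami * ‖w‖ ^ 2 = lami * (e * ‖w‖ ^ 2) := by ring
      _ ≤ lami * (c * b) := mul_le_mul_of_nonneg_left h13 hli0.le
      _ = c * lami * b := by ring
  linarith

/-- **(hi)**, the literal of 19505 (the constant is `Chi c`, the same for all `E`). -/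
theorem rem_hi : ∀ c : ℝ, 0 < c → ∃ C : ℝ, 0 < C ∧ ∀ (w : E) (b lamI lami S ε : ℝ) (m : ℕ),
    0 ≤ b → b ≤ 1 → ‖w‖ ^ 2 ≤ 4 / 3 * b → 0 < lamI → 1 ≤ m → 16 ^ m * lamI ≤ lami →
    0 ≤ S → S ≤ lamI → 0 < ε →
    ∃ t : ℝ, 0 < t ∧ 0 < (stdGaussian E).real {g | |⟪w, g⟫| ≤ t} ∧
      t * S - lami * log ((stdGaussian E).real {g | |⟪w, g⟫| ≤ t}) ≤
        c * lami * b + C * lamI * (1 / 2) ^ m + ε := by
  intro c hc
  refine ⟨Chi c, Chi_pos hc, ?_⟩
  intro w b lamI lami S ε m _ _ hw hlI _ hli hS0 hS hε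
  obtain ⟨t, h1, h2, h3⟩ := rem_hi_expl hc w hw hlI hli hS0 hS
  exact ⟨t, h1, h2, by linarith⟩

/-- **(lo)**, `C = 8`; only `‖w‖² ≤ 4` is used. -/
theorem rem_lo_expl (w : E) {lamI lami S : ℝ} {m : ℕ} (hw : ‖w‖ ^ 2 ≤ 4)
    (hli : 0 < lami) (hlI : 16 ^ m * lami ≤ lamI) (hS : S ≤ lamI) :
    ∃ t : ℝ, 0 < t ∧ 0 < (stdGaussian E).real {g | |⟪w, g⟫| ≤ t} ∧
      t * S - lami * log ((stdGaussian E).real {g | |⟪w, g⟫| ≤ t}) ≤
        8 * lamI * (1 / 2) ^ m := by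
  have hhalf : (0 : ℝ) < (1 / 2) ^ m := by positivity
  have h16 : (1 : ℝ) ≤ 16 ^ m := one_le_pow₀ (by norm_num)
  have hlI0 : 0 < lamI := by nlinarith
  set y : ℝ := lamI / lami with hy
  have hyl : lamI = y * lami := by rw [hy]; field_simp
  have hy16 : 16 ^ m ≤ y := by rw [hy, le_div_iff₀ hli]; exact hlI
  have hy0 : 0 < y := by linarith
  -- `1 ≤ (1/2)^m y`
  have hone : 1 ≤ (1 / 2) ^ m * y := by
    calc (1 : ℝ) ≤ (1 / 2 * 16) ^ m := one_le_pow₀ (by norm_num)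
      _ = (1 / 2) ^ m * 16 ^ m := by rw [mul_pow]
      _ ≤ (1 / 2) ^ m * y := mul_le_mul_of_nonneg_left hy16 hhalf.le
  -- `log y ≤ 2 (1/2)^m y`
  have hlog : log y ≤ 2 * ((1 / 2) ^ m * y) := by
    have h1 := log_le_two_sqrt hy0
    have h2 : √(y⁻¹) ≤ (1 / 2) ^ m :=
      (Real.sqrt_le_sqrt (inv_anti₀ (by positivity) hy16)).trans (sqrt_inv_pow_le m)
    have h3 : √y = √(y⁻¹) * y := by
      rw [Real.sqrt_inv]
      have hs : 0 < √y := Real.sqrt_pos.2 hy0
      rw [inv_mul_eq_div, eq_div_iff hs.ne', Real.mul_self_sqrt hy0.le]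
    rw [h3] at h1
    have h4 : √(y⁻¹) * y ≤ (1 / 2) ^ m * y := mul_le_mul_of_nonneg_right h2 hy0.le
    linarith
  have hn' : ‖(ContinuousLinearMap.id ℝ E).adjoint ((1 / 2 : ℝ) • w)‖ ^ 2 ≤ 1 := by
    rw [adjoint_id']
    change ‖(1 / 2 : ℝ) • w‖ ^ 2 ≤ 1
    rw [norm_smul, mul_pow]
    norm_num
    linarith
  have hset : ∀ t : ℝ, {x : E | |⟪(1 / 2 : ℝ) • w, x⟫| ≤ t} = {x : E | |⟪w, x⟫| ≤ 2 * t} := by
    intro t
    ext x
    simp only [mem_ofPred_eq, real_inner_smul_left, abs_mul]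
    rw [abs_of_pos (by norm_num : (0 : ℝ) < 1 / 2)]
    constructor <;> intro h <;> linarith
  rcases le_total (2 * S) lami with h | h
  · obtain ⟨t, h1, h2, h3⟩ := Rem864.gau_r1 (ContinuousLinearMap.id ℝ E) ((1 / 2 : ℝ) • w) hn' hli h
    rw [gau_id, hset] at h2 h3
    refine ⟨2 * t, by linarith, h2, ?_⟩
    have h4 : 2 * t * S = 2 * S * t := by ring
    rw [h4]
    refine h3.trans ?_
    rw [hyl]
    have : lami * 1 ≤ lami * ((1 / 2) ^ m * y) := mul_le_mul_of_nonneg_left hone hli.le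
    nlinarith
  · obtain ⟨t, h1, h2, h3⟩ := Rem864.gau_r2 (ContinuousLinearMap.id ℝ E) ((1 / 2 : ℝ) • w) hn' hli h
    rw [gau_id, hset] at h2 h3
    refine ⟨2 * t, by linarith, h2, ?_⟩
    have h4 : 2 * t * S = 2 * S * t := by ring
    rw [h4]
    refine h3.trans ?_
    have hpos : 0 < 2 * S := lt_of_lt_of_le hli h
    have h5 : 2 * S / lami ≤ 2 * y := by
      rw [div_le_iff₀ hli]
      calc 2 * S ≤ 2 * lamI := by linarith
        _ = 2 * y * lami := by rw [hyl]; ring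
    have h6 : log (2 * S / lami) ≤ log (2 * y) :=
      log_le_log (by positivity) h5
    rw [log_mul (by norm_num) hy0.ne'] at h6
    have h8 : log 2 ≤ 1 := by
      have := Real.log_two_lt_d9
      linarith
    have h9 : 2 + log (2 * S / lami) ≤ 5 * ((1 / 2) ^ m * y) := by
      linarith
    calc lami * (2 + log (2 * S / lami)) ≤ lami * (5 * ((1 / 2) ^ m * y)) :=
          mul_le_mul_of_nonneg_left h9 hli.le
      _ ≤ 8 * (y * lami) * (1 / 2) ^ m := by
          have : 0 ≤ lami * ((1 / 2) ^ m * y) := by positivity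
          nlinarith
      _ = 8 * lamI * (1 / 2) ^ m := by rw [← hyl]

/-- **(lo)**, the literal of 19505 with `C = 8`. -/
theorem rem_lo : ∀ (w : E) (lamI lami S : ℝ) (m : ℕ), ‖w‖ ^ 2 ≤ 4 / 3 → 0 < lami →
    16 ^ m * lami ≤ lamI → 0 ≤ S → S ≤ lamI →
    ∃ t : ℝ, 0 < t ∧ 0 < (stdGaussian E).real {g | |⟪w, g⟫| ≤ t} ∧
      t * S - lami * log ((stdGaussian E).real {g | |⟪w, g⟫| ≤ t}) ≤
        8 * lamI * (1 / 2) ^ m := by
  intro w lamI lami S m hw hli hlI _ hS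
  exact rem_lo_expl w (by linarith) hli hlI hS

end Crest.Agent.R239.RemL29
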