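import Crest.Agent.R239.Rot_203

/-! Cap identity of 583 (doc 2389, `x_j`, `x'_j`) for two nested submodules `N ≤ M` (helper203).

`Q x = P_M x - P_N x`, `α = ‖Q v‖`, `n = α⁻¹ Q v`, `xj = ⟪n,x⟫`, `a = ⟪v,x⟫ - ⟪P_M v,x⟫`,
`B = 1 - sb ‖P_M v‖²`, `x' = (B xj - sb α a)/√(B (B + sb α²))`:
`‖P_{TM} T x - P_{TN} T x‖² = ‖Q x‖² - xj² + x'²`, and
`Q x = X x + (xj - x') n` with `X` linear, `‖X x‖ = ‖P_{TM} T x - P_{TN} T x‖`. -/

set_option autoImplicit false
set_option linter.unusedSectionVars false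
open scoped RealInnerProductSpace

namespace Crest.Agent.R239.Rot203

variable {E : Type*} [NormedAddCommGroup E] [InnerProductSpace ℝ E] [FiniteDimensional ℝ E]

section basic
variable {M N : Submodule ℝ E} (hNM : N ≤ M)
include hNM

lemma norm_sq_diff_proj (x : E) :
    ‖M.starProjection x - N.starProjection x‖ ^ 2
      = ‖M.starProjection x‖ ^ 2 - ‖N.starProjection x‖ ^ 2 := by
  have hN : N.starProjection x ∈ N := Submodule.starProjection_apply_mem _ _
  have h1 : ⟪x - M.starProjection x, N.starProjection x⟫ = 0 :=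
    Submodule.starProjection_inner_eq_zero _ _ (hNM hN)
  have h2 : ⟪x - N.starProjection x, N.starProjection x⟫ = 0 :=
    Submodule.starProjection_inner_eq_zero _ _ hN
  rw [inner_sub_left] at h1 h2
  rw [real_inner_self_eq_norm_sq] at h2
  rw [norm_sub_sq_real]
  linarith

lemma inner_diff_proj (v x : E) :
    ⟪M.starProjection v - N.starProjection v, x⟫
      = ⟪M.starProjection v - N.starProjection v, M.starProjection x - N.starProjection x⟫ := by
  have hMv : M.starProjection v ∈ M := Submodule.starProjection_apply_mem _ _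
  have hNv : N.starProjection v ∈ N := Submodule.starProjection_apply_mem _ _
  have h1 : ⟪M.starProjection v - N.starProjection v, x - M.starProjection x⟫ = 0 := by
    rw [real_inner_comm]
    exact Submodule.starProjection_inner_eq_zero _ _ (M.sub_mem hMv (hNM hNv))
  have h2 : ⟪v - M.starProjection v, N.starProjection x⟫ = 0 :=
    Submodule.starProjection_inner_eq_zero _ _ (hNM (Submodule.starProjection_apply_mem _ _))
  have h3 : ⟪v - N.starProjection v, N.starProjection x⟫ = 0 :=
    Submodule.starProjection_inner_eq_zero _ _ (Submodule.starProjection_apply_mem _ _)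
  have h4 : ⟪M.starProjection v - N.starProjection v, N.starProjection x⟫ = 0 := by
    have : M.starProjection v - N.starProjection v
        = (v - N.starProjection v) - (v - M.starProjection v) := by abel
    rw [this, inner_sub_left, h2, h3, sub_zero]
  have h5 : x = (x - M.starProjection x) + (M.starProjection x - N.starProjection x)
      + N.starProjection x := by abel
  conv_lhs => rw [h5]
  rw [inner_add_right, inner_add_right, h1, h4]
  ring

end basic

section rot
variable {v : E} (hv : ‖v‖ = 1) {M N : Submodule ℝ E} (hNM : N ≤ M)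
include hv hNM

/-- The unit vector of the block component of `v` (0 if this component vanishes). -/
noncomputable def nj (v : E) (M N : Submodule ℝ E) : E :=
  ‖M.starProjection v - N.starProjection v‖⁻¹ • (M.starProjection v - N.starProjection v)

/-- `x'_j` of 583. -/
noncomputable def xp (s : ℝ) (v : E) (M N : Submodule ℝ E) (x : E) : ℝ :=
  ((1 - (2 * s - s ^ 2) * ‖M.starProjection v‖ ^ 2) * ⟪nj v M N, x⟫
    - (2 * s - s ^ 2) * ‖M.starProjection v - N.starProjection v‖
        * (⟪v, x⟫ - ⟪M.starProjection v, x⟫))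
   / √((1 - (2 * s - s ^ 2) * ‖M.starProjection v‖ ^ 2)
      * ((1 - (2 * s - s ^ 2) * ‖M.starProjection v‖ ^ 2)
          + (2 * s - s ^ 2) * ‖M.starProjection v - N.starProjection v‖ ^ 2))

omit hv in
lemma norm_sq_split (v : E) :
    ‖M.starProjection v‖ ^ 2
      = ‖N.starProjection v‖ ^ 2 + ‖M.starProjection v - N.starProjection v‖ ^ 2 := by
  rw [norm_sq_diff_proj hNM]; ring

omit hv hNM in
lemma alpha_mul_xj (v x : E) :
    ‖M.starProjection v - N.starProjection v‖ * ⟪nj v M N, x⟫
      = ⟪M.starProjection v - N.starProjection v, x⟫ := by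
  by_cases h0 : ‖M.starProjection v - N.starProjection v‖ = 0
  · rw [h0, zero_mul]
    rw [norm_eq_zero] at h0
    rw [h0, inner_zero_left]
  · rw [nj, inner_smul_left]
    simp only [map_inv₀, RCLike.conj_to_real]
    field_simp

/-- The squared norm of the rotated block component. -/
theorem norm_block_Ts_sq (s : ℝ) (x : E) (hs0 : 0 ≤ 2 * s - s ^ 2)
    (hB : 0 < 1 - (2 * s - s ^ 2) * ‖M.starProjection v‖ ^ 2) :
    ‖(M.map (Ts s v)).starProjection (Ts s v x) - (N.map (Ts s v)).starProjection (Ts s v x)‖ ^ 2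
      = ‖M.starProjection x - N.starProjection x‖ ^ 2 - ⟪nj v M N, x⟫ ^ 2
          + xp s v M N x ^ 2 := by
  have hsplit := norm_sq_split hNM v
  set sb := 2 * s - s ^ 2 with hsb
  set α := ‖M.starProjection v - N.starProjection v‖ with hα
  set B := 1 - sb * ‖M.starProjection v‖ ^ 2 with hBd
  have hα0 : 0 ≤ α := norm_nonneg _
  have hBN : 1 - sb * ‖N.starProjection v‖ ^ 2 = B + sb * α ^ 2 := by
    rw [hBd]; rw [hsplit]; ring
  have hBN0 : 0 < B + sb * α ^ 2 := by positivity
  have hmapNM : N.map (Ts s v) ≤ M.map (Ts s v) := Submodule.map_mono hNM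
  rw [norm_sq_diff_proj hmapNM, norm_sq_diff_proj hNM,
    norm_proj_Ts_sq hv M s x (by rw [← hsb, ← hBd]; exact hB.ne'),
    norm_proj_Ts_sq hv N s x (by rw [← hsb, hBN]; exact hBN0.ne')]
  rw [← hsb, ← hBd, hBN]
  have hax := alpha_mul_xj (M := M) (N := N) v x
  rw [← hα, inner_sub_left] at hax
  unfold xp
  rw [← hsb, ← hα, ← hBd]
  set xj := ⟪nj v M N, x⟫ with hxj
  set a := ⟪v, x⟫ - ⟪M.starProjection v, x⟫ with ha
  have ha' : ⟪v, x⟫ - ⟪N.starProjection v, x⟫ = a + α * xj := by rw [ha, hax]; ring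
  rw [ha', div_pow, Real.sq_sqrt (by positivity)]
  field_simp
  ring

/-- The vector form: `Q x = X x + y x • n`, `‖X x‖ = ‖rotated block component‖`. -/
theorem block_decomp (s : ℝ) (x : E) (hs0 : 0 ≤ 2 * s - s ^ 2)
    (hB : 0 < 1 - (2 * s - s ^ 2) * ‖M.starProjection v‖ ^ 2) :
    ‖(M.starProjection x - N.starProjection x)
        - (⟪nj v M N, x⟫ - xp s v M N x) • nj v M N‖
      = ‖(M.map (Ts s v)).starProjection (Ts s v x)
          - (N.map (Ts s v)).starProjection (Ts s v x)‖ := by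
  have h1 := norm_block_Ts_sq hv hNM s x hs0 hB
  by_cases h0 : M.starProjection v - N.starProjection v = 0
  · have hn : nj v M N = 0 := by rw [nj, h0, smul_zero]
    have hx : xp s v M N x = 0 := by
      rw [xp, hn, h0]; simp
    rw [hn, hx] at h1
    rw [hn, smul_zero, sub_zero]
    rw [← sq_eq_sq₀ (norm_nonneg _) (norm_nonneg _), h1]
    simp
  · have hαne : ‖M.starProjection v - N.starProjection v‖ ≠ 0 := by rwa [norm_ne_zero_iff]
    have hn1 : ‖nj v M N‖ = 1 := by
      rw [nj, norm_smul, norm_inv, norm_norm]; field_simp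
    have hin : ⟪nj v M N, M.starProjection x - N.starProjection x⟫ = ⟪nj v M N, x⟫ := by
      rw [nj, inner_smul_left, inner_smul_left, ← inner_diff_proj hNM]
    have hin' : ⟪M.starProjection x - N.starProjection x, nj v M N⟫ = ⟪nj v M N, x⟫ := by
      rw [real_inner_comm]; exact hin
    rw [← sq_eq_sq₀ (norm_nonneg _) (norm_nonneg _), h1, norm_sub_sq_real, inner_smul_right,
      hin', norm_smul, hn1, mul_one, Real.norm_eq_abs, sq_abs]
    ring

omit hv hNM in
/-- The shift functional expressed by `x'` and `a`. -/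
theorem shift_eq (s : ℝ) (x : E) (hs0 : 0 ≤ 2 * s - s ^ 2)
    (hB : 0 < 1 - (2 * s - s ^ 2) * ‖M.starProjection v‖ ^ 2) :
    ⟪nj v M N, x⟫ - xp s v M N x
      = (√(1 + (2 * s - s ^ 2) * ‖M.starProjection v - N.starProjection v‖ ^ 2
            / (1 - (2 * s - s ^ 2) * ‖M.starProjection v‖ ^ 2)) - 1) * xp s v M N x
        + (2 * s - s ^ 2) * ‖M.starProjection v - N.starProjection v‖
            / (1 - (2 * s - s ^ 2) * ‖M.starProjection v‖ ^ 2)
            * (⟪v, x⟫ - ⟪M.starProjection v, x⟫) := by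
  unfold xp
  set sb := 2 * s - s ^ 2 with hsb
  set α := ‖M.starProjection v - N.starProjection v‖ with hα
  set B := 1 - sb * ‖M.starProjection v‖ ^ 2 with hBd
  set xj := ⟪nj v M N, x⟫ with hxj
  set a := ⟪v, x⟫ - ⟪M.starProjection v, x⟫ with ha
  have hα0 : 0 ≤ α := norm_nonneg _
  have hBN0 : 0 < B + sb * α ^ 2 := by positivity
  have h1 : √(1 + sb * α ^ 2 / B) = √(B * (B + sb * α ^ 2)) / B := by
    rw [Real.sqrt_eq_iff_mul_self_eq (by positivity) (by positivity)]
    rw [div_mul_div_comm, Real.mul_self_sqrt (by positivity)]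
    field_simp
  have hsq : √(B * (B + sb * α ^ 2)) ≠ 0 := by positivity
  rw [h1]
  field_simp
  ring

omit hv hNM in
lemma norm_nj_le (v : E) (M N : Submodule ℝ E) : ‖nj v M N‖ ≤ 1 := by
  rw [nj, norm_smul, norm_inv, norm_norm]
  by_cases h0 : ‖M.starProjection v - N.starProjection v‖ = 0
  · rw [h0]; simp
  · rw [inv_mul_cancel₀ h0]

omit hv in
lemma inner_nj (v x : E) :
    ⟪nj v M N, x⟫ = ⟪nj v M N, M.starProjection x - N.starProjection x⟫ := by
  rw [nj, inner_smul_left, inner_smul_left, ← inner_diff_proj hNM]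

/-- `|x'| ≤ ‖rotated block component‖`. -/
theorem abs_xp_le (s : ℝ) (x : E) (hs0 : 0 ≤ 2 * s - s ^ 2)
    (hB : 0 < 1 - (2 * s - s ^ 2) * ‖M.starProjection v‖ ^ 2) :
    |xp s v M N x| ≤ ‖(M.map (Ts s v)).starProjection (Ts s v x)
          - (N.map (Ts s v)).starProjection (Ts s v x)‖ := by
  have h1 := norm_block_Ts_sq hv hNM s x hs0 hB
  have h2 : ⟪nj v M N, x⟫ ^ 2 ≤ ‖M.starProjection x - N.starProjection x‖ ^ 2 := by
    rw [inner_nj hNM]
    have h3 := abs_real_inner_le_norm (nj v M N) (M.starProjection x - N.starProjection x)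
    have h4 : ‖nj v M N‖ * ‖M.starProjection x - N.starProjection x‖
        ≤ ‖M.starProjection x - N.starProjection x‖ := by
      have := mul_le_mul_of_nonneg_right (norm_nj_le v M N)
        (norm_nonneg (M.starProjection x - N.starProjection x))
      linarith
    rw [← sq_abs ⟪_, _⟫]
    exact pow_le_pow_left₀ (abs_nonneg _) (h3.trans h4) 2
  apply abs_le_of_sq_le_sq _ (norm_nonneg _)
  linarith

/-- `x'` as a continuous linear functional. -/
noncomputable def xpL (s : ℝ) (v : E) (M N : Submodule ℝ E) : E →L[ℝ] ℝ :=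
  (√((1 - (2 * s - s ^ 2) * ‖M.starProjection v‖ ^ 2)
      * ((1 - (2 * s - s ^ 2) * ‖M.starProjection v‖ ^ 2)
          + (2 * s - s ^ 2) * ‖M.starProjection v - N.starProjection v‖ ^ 2)))⁻¹ •
  ((1 - (2 * s - s ^ 2) * ‖M.starProjection v‖ ^ 2) • innerSL ℝ (nj v M N)
    - ((2 * s - s ^ 2) * ‖M.starProjection v - N.starProjection v‖) •
        (innerSL ℝ v - innerSL ℝ (M.starProjection v)))

omit hv hNM in
lemma xpL_apply (s : ℝ) (v : E) (M N : Submodule ℝ E) (x : E) :
    xpL s v M N x = xp s v M N x := by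
  simp only [xpL, xp, ContinuousLinearMap.smul_apply, ContinuousLinearMap.sub_apply,
    innerSL_apply_apply, smul_eq_mul]
  rw [div_eq_inv_mul]

omit hv hNM in
lemma sqrt_factor_le {t B : ℝ} (ht : 0 ≤ t) (hB : 1 / 2 ≤ B) : √(1 + t / B) - 1 ≤ t := by
  have h1 : √(1 + t / B) ≤ 1 + t := by
    rw [Real.sqrt_le_left (by positivity)]
    have : t / B ≤ 2 * t := by
      rw [div_le_iff₀ (by linarith)]; nlinarith
    nlinarith [sq_nonneg t]
  linarith

/-- Literal (a) of 171's F7 message. -/
theorem cap_linear_algebra (s : ℝ) (hs0 : 0 ≤ 2 * s - s ^ 2) (hs1 : 2 * s - s ^ 2 ≤ 1 / 2) :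
    ∃ (n : E) (x1 : E →L[ℝ] ℝ) (c : ℝ), ‖n‖ ≤ 1 ∧
      (∀ x, |x1 x| ≤ ‖(M.map (Ts s v)).starProjection (Ts s v x)
          - (N.map (Ts s v)).starProjection (Ts s v x)‖) ∧
      0 ≤ c ∧ c ≤ (2 * s - s ^ 2) * ‖M.starProjection v - N.starProjection v‖ ^ 2 ∧
      (∀ x, ‖(M.starProjection x - N.starProjection x)
          - (c * x1 x + (2 * s - s ^ 2) * ‖M.starProjection v - N.starProjection v‖
              / (1 - (2 * s - s ^ 2) * ‖M.starProjection v‖ ^ 2)
              * (⟪v, x⟫ - ⟪M.starProjection v, x⟫)) • n‖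
        = ‖(M.map (Ts s v)).starProjection (Ts s v x)
          - (N.map (Ts s v)).starProjection (Ts s v x)‖) := by
  have hb1 : ‖M.starProjection v‖ ≤ 1 := by
    have := M.norm_starProjection_apply_le v
    rwa [hv] at this
  have hb2 : ‖M.starProjection v‖ ^ 2 ≤ 1 := by
    have := norm_nonneg (M.starProjection v); nlinarith
  have hBh : 1 / 2 ≤ 1 - (2 * s - s ^ 2) * ‖M.starProjection v‖ ^ 2 := by
    have : (2 * s - s ^ 2) * ‖M.starProjection v‖ ^ 2 ≤ 1 / 2 * 1 :=
      mul_le_mul hs1 hb2 (by positivity) (by norm_num)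
    linarith
  have hB : 0 < 1 - (2 * s - s ^ 2) * ‖M.starProjection v‖ ^ 2 := by linarith
  refine ⟨nj v M N, xpL s v M N,
    √(1 + (2 * s - s ^ 2) * ‖M.starProjection v - N.starProjection v‖ ^ 2
            / (1 - (2 * s - s ^ 2) * ‖M.starProjection v‖ ^ 2)) - 1,
    norm_nj_le v M N, ?_, ?_, ?_, ?_⟩
  · intro x; rw [xpL_apply]; exact abs_xp_le hv hNM s x hs0 hB
  · have : (1 : ℝ) ≤ √(1 + (2 * s - s ^ 2) * ‖M.starProjection v - N.starProjection v‖ ^ 2
            / (1 - (2 * s - s ^ 2) * ‖M.starProjection v‖ ^ 2)) := by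
      rw [Real.one_le_sqrt]
      have : 0 ≤ (2 * s - s ^ 2) * ‖M.starProjection v - N.starProjection v‖ ^ 2
            / (1 - (2 * s - s ^ 2) * ‖M.starProjection v‖ ^ 2) := by positivity
      linarith
    linarith
  · exact sqrt_factor_le (by positivity) hBh
  · intro x
    rw [xpL_apply, ← shift_eq s x hs0 hB]
    exact block_decomp hv hNM s x hs0 hB

end rot

end Crest.Agent.R239.Rot203
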