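import Crest.Agent.R239.Rot_427

/-!
helper427, R239 (583's proof, blocks F5 / F7): consequences of the rotation formula for two nested
subspaces `N' ≤ N` (`N = M_j`, `N' = M_{j+1}`).
-/

namespace Crest.Agent.R239.Rot427

open scoped RealInnerProductSpace

variable {E : Type*} [NormedAddCommGroup E] [InnerProductSpace ℝ E] [FiniteDimensional ℝ E]

/-- Pythagoras for nested projections. -/
theorem norm_sub_proj_sq {N N' : Submodule ℝ E} (h : N' ≤ N) (x : E) :
    ‖N.starProjection x - N'.starProjection x‖ ^ 2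
      = ‖N.starProjection x‖ ^ 2 - ‖N'.starProjection x‖ ^ 2 := by
  have h1 : ⟪N.starProjection x, N'.starProjection x⟫ = ‖N'.starProjection x‖ ^ 2 := by
    have hm : N'.starProjection x ∈ N' := Submodule.starProjection_apply_mem N' x
    have e1 := Submodule.starProjection_inner_eq_zero (K := N) x _ (h hm)
    have e2 := Submodule.starProjection_inner_eq_zero (K := N') x _ hm
    rw [inner_sub_left] at e1 e2
    rw [← real_inner_self_eq_norm_sq]
    linarith
  rw [norm_sub_sq_real, h1]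
  ring

/-- `⟪P_N v, x⟫ = ⟪v, P_N x⟫ `. -/
theorem inner_proj_comm (N : Submodule ℝ E) (v x : E) :
    ⟪N.starProjection v, x⟫ = ⟪v, N.starProjection x⟫ :=
  Submodule.inner_starProjection_left_eq_right (K := N) v x

/-- the linear functional `c` of the cap identity. -/
noncomputable def cf (sb B B' : ℝ) (v w w' x : E) : ℝ :=
  sb * (⟪w - w', x⟫ / (Real.sqrt B' * (Real.sqrt B' + Real.sqrt B))
    + ⟪v - w, x⟫ / (Real.sqrt B * Real.sqrt B'))

theorem cf_alg {sb r r' U a α2 : ℝ} (hr : 0 < r) (hr' : 0 < r') (hα : sb * α2 = r' ^ 2 - r ^ 2) :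
    -2 * (sb * (U / (r' * (r' + r)) + a / (r * r'))) * U
      + (sb * (U / (r' * (r' + r)) + a / (r * r'))) ^ 2 * α2
      = sb * a ^ 2 / r ^ 2 - sb * (U + a) ^ 2 / r' ^ 2 := by
  have hs : r' + r ≠ 0 := by positivity
  have e : (sb * (U / (r' * (r' + r)) + a / (r * r'))) ^ 2 * α2
      = sb * (U / (r' * (r' + r)) + a / (r * r')) ^ 2 * (sb * α2) := by ring
  rw [e, hα]
  field_simp
  ring

/-- **The cap identity** (F7): the image block map `P_{V^s_j} T` is isometric to
`x ↦ P_{V_j} x - c(x) u`, `u = P_{V_j} v`. -/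
theorem cap_id (s : ℝ) {v : E} (hv : ‖v‖ = 1) {N N' : Submodule ℝ E} (h : N' ≤ N)
    (hb : (2 * s - s ^ 2) * ‖N.starProjection v‖ ^ 2 < 1)
    (hb' : (2 * s - s ^ 2) * ‖N'.starProjection v‖ ^ 2 < 1) (x : E) :
    ‖(N.starProjection x - N'.starProjection x)
        - cf (2 * s - s ^ 2) (1 - (2 * s - s ^ 2) * ‖N.starProjection v‖ ^ 2)
            (1 - (2 * s - s ^ 2) * ‖N'.starProjection v‖ ^ 2) v
            (N.starProjection v) (N'.starProjection v) x
          • (N.starProjection v - N'.starProjection v)‖ ^ 2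
      = ‖(N.map (T s v)).starProjection (T s v x)
          - (N'.map (T s v)).starProjection (T s v x)‖ ^ 2 := by
  set sb : ℝ := 2 * s - s ^ 2 with hsb
  set w := N.starProjection v with hw
  set w' := N'.starProjection v with hw'
  rw [norm_sub_proj_sq (Submodule.map_mono h), rot s hv N hb, rot s hv N' hb']
  rw [norm_sub_sq_real, norm_smul, mul_pow, Real.norm_eq_abs, sq_abs, inner_smul_right,
    norm_sub_proj_sq h, norm_sub_proj_sq h]
  have hU : ⟪N.starProjection x - N'.starProjection x, w - w'⟫ = ⟪w - w', x⟫ := by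
    have e1 : ⟪N.starProjection x, w - w'⟫ = ⟪w - w', x⟫ := by
      rw [real_inner_comm]
      rw [← inner_proj_comm]
      congr 1
      rw [map_sub]
      congr 1
      · exact (Submodule.starProjection_eq_self_iff).2 (Submodule.starProjection_apply_mem N v)
      · exact (Submodule.starProjection_eq_self_iff).2
          (h (Submodule.starProjection_apply_mem N' v))
    have e2 : ⟪N'.starProjection x, w - w'⟫ = 0 := by
      rw [real_inner_comm, ← inner_proj_comm]
      rw [map_sub]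
      have h1 : N'.starProjection w = w' := by
        rw [hw, hw']
        have := Submodule.starProjection_comp_starProjection_of_le h
        have h2 := congrArg (fun f => f v) this
        simpa using h2
      have h2 : N'.starProjection w' = w' :=
        (Submodule.starProjection_eq_self_iff).2 (Submodule.starProjection_apply_mem N' v)
      rw [h1, h2, sub_self, inner_zero_left]
    rw [inner_sub_left, e1, e2, sub_zero]
  rw [hU]
  have hB : 0 < 1 - sb * ‖w‖ ^ 2 := by linarith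
  have hB' : 0 < 1 - sb * ‖w'‖ ^ 2 := by linarith
  have key := cf_alg (sb := sb) (r := Real.sqrt (1 - sb * ‖w‖ ^ 2))
    (r' := Real.sqrt (1 - sb * ‖w'‖ ^ 2)) (U := ⟪w - w', x⟫) (a := ⟪v - w, x⟫)
    (α2 := ‖w‖ ^ 2 - ‖w'‖ ^ 2) (Real.sqrt_pos.2 hB) (Real.sqrt_pos.2 hB')
    (by rw [Real.sq_sqrt hB.le, Real.sq_sqrt hB'.le]; ring)
  rw [Real.sq_sqrt hB.le, Real.sq_sqrt hB'.le] at key
  have ea : ⟪v, x⟫ - ⟪w, x⟫ = ⟪v - w, x⟫ := by rw [inner_sub_left]
  have ea' : ⟪v, x⟫ - ⟪w', x⟫ = ⟪w - w', x⟫ + ⟪v - w, x⟫ := by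
    simp only [inner_sub_left]; ring
  rw [ea, ea']
  have hcf : cf sb (1 - sb * ‖w‖ ^ 2) (1 - sb * ‖w'‖ ^ 2) v w w' x
      = sb * (⟪w - w', x⟫ / (Real.sqrt (1 - sb * ‖w'‖ ^ 2) *
          (Real.sqrt (1 - sb * ‖w'‖ ^ 2) + Real.sqrt (1 - sb * ‖w‖ ^ 2)))
        + ⟪v - w, x⟫ / (Real.sqrt (1 - sb * ‖w‖ ^ 2) * Real.sqrt (1 - sb * ‖w'‖ ^ 2))) := rfl
  rw [hcf]
  linarith [key]

omit [FiniteDimensional ℝ E] in
/-- bound of the functional `c` (for `sb b ≤ 1/2`). -/
theorem abs_cf_le {sb B B' : ℝ} (hsb : 0 ≤ sb) (hB : 1 / 2 ≤ B) (hB' : 1 / 2 ≤ B')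
    (v w w' x : E) :
    |cf sb B B' v w w' x| ≤ sb * (|⟪w - w', x⟫| + 2 * |⟪v - w, x⟫|) := by
  have h1 : (1 / 2 : ℝ) ≤ Real.sqrt B * Real.sqrt B' := by
    rw [← Real.sqrt_mul (by linarith)]
    apply Real.le_sqrt_of_sq_le
    nlinarith
  have h2 : (1 : ℝ) ≤ Real.sqrt B' * (Real.sqrt B' + Real.sqrt B) := by
    have : Real.sqrt B' * Real.sqrt B' = B' := Real.mul_self_sqrt (by linarith)
    nlinarith
  unfold cf
  rw [abs_mul, abs_of_nonneg hsb]
  refine mul_le_mul_of_nonneg_left ?_ hsb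
  refine (abs_add_le _ _).trans (add_le_add ?_ ?_)
  · rw [abs_div, abs_of_pos (by linarith : 0 < Real.sqrt B' * (Real.sqrt B' + Real.sqrt B))]
    exact div_le_self (abs_nonneg _) h2
  · rw [abs_div, abs_of_pos (by linarith : 0 < Real.sqrt B * Real.sqrt B')]
    rw [div_le_iff₀ (by linarith)]
    nlinarith [abs_nonneg ⟪v - w, x⟫]

end Crest.Agent.R239.Rot427
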