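import Crest.Agent.R239.FlagAlg_557

/-!
# R239 (helper475): rotation of a flag by `T = 1 - (1/4) v vᵀ`, level operators, block direction, caps
-/

set_option autoImplicit false
set_option linter.unusedSectionVars false

open scoped RealInnerProductSpace
open Submodule Finset

namespace Crest.Agent.R239.RotV475

open Crest.Agent.R239.ProjRot557 Crest.Agent.R239.FlagAlg557

variable {E : Type*} [NormedAddCommGroup E] [InnerProductSpace ℝ E] [FiniteDimensional ℝ E]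

/-- the contraction -/
noncomputable def T (v : E) : E →L[ℝ] E := Tr v (1 / 4)

lemma T_apply (v x : E) : T v x = x - (1 / 4 * ⟪v, x⟫) • v := Tr_apply v (1 / 4) x

/-- rotated flag -/
noncomputable def W (M : ℕ → Submodule ℝ E) (v : E) : ℕ → Submodule ℝ E :=
  fun j => (M j).map (T v : E →ₗ[ℝ] E)

lemma W_anti {M : ℕ → Submodule ℝ E} (hM : Antitone M) (v : E) : Antitone (W M v) :=
  fun _ _ h => Submodule.map_mono (hM h)

lemma W_bot {M : ℕ → Submodule ℝ E} (v : E) {n : ℕ} (hn : M n = ⊥) : W M v n = ⊥ := by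
  rw [W, hn, Submodule.map_bot]

lemma T_mem_W {M : ℕ → Submodule ℝ E} (v : E) {j : ℕ} {x : E} (hx : x ∈ M j) :
    T v x ∈ W M v j := ⟨x, hx, rfl⟩

lemma sbar_quarter : sbar (1 / 4) = 7 / 16 := by rw [sbar_eq]; norm_num

lemma finrank_W (M : ℕ → Submodule ℝ E) {v : E} (hv : ‖v‖ = 1) (j : ℕ) :
    Module.finrank ℝ (W M v j) = Module.finrank ℝ (M j) :=
  finrank_map_Tr (M j) hv (by norm_num)

variable {M : ℕ → Submodule ℝ E} {v : E} (hv : ‖v‖ = 1)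
include hv

lemma b_le_one (j : ℕ) : ‖P M j v‖ ^ 2 ≤ 1 := by
  have h : ‖P M j v‖ ≤ ‖v‖ := (M j).norm_starProjection_apply_le v
  rw [hv] at h
  have h0 := norm_nonneg (P M j v)
  nlinarith

lemma T_norm_le (x : E) : ‖T v x‖ ≤ ‖x‖ := by
  have h := norm_Tr_sq hv (1 / 4) x
  rw [sbar_quarter] at h
  have h2 : ‖T v x‖ ^ 2 ≤ ‖x‖ ^ 2 := by
    rw [T, h]; nlinarith [sq_nonneg ⟪v, x⟫]
  exact (abs_le_of_sq_le_sq' h2 (norm_nonneg _)).2

/-- C1, with `s = 1/4`. -/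
theorem norm_PW_sq (j : ℕ) (x : E) :
    ‖P (W M v) j (T v x)‖ ^ 2 = ‖P M j x‖ ^ 2 - 7 / 16 * ⟪v, x⟫ ^ 2
      + 7 / 16 * ⟪v - P M j v, x⟫ ^ 2 / (1 - 7 / 16 * ‖P M j v‖ ^ 2) := by
  have hb := b_le_one (M := M) hv j
  have h := norm_P_map_Tr_sq (M j) hv (s := 1 / 4) (by
    rw [sbar_quarter]
    change 7 / 16 * ‖P M j v‖ ^ 2 < 1
    linarith) x
  rw [sbar_quarter] at h
  rw [inner_sub_left]
  exact h

omit hv in
lemma inner_H_comm (th : ℝ) (n i : ℕ) (x y : E) : ⟪x, H M th n i y⟫ = ⟪H M th n i x, y⟫ := by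
  rw [H, inner_comb_comm]

variable (hM : Antitone M)
include hM

omit hv in
lemma inner_v_sub_P {i : ℕ} {x : E} (hx : x ∈ M i) : ⟪v - P M i v, x⟫ = 0 := by
  rw [inner_sub_left, inner_P_comm', P_of_mem hx, sub_self]

omit hv in
lemma inner_v_sub_P_succ {i : ℕ} {x : E} (hx : x ∈ M i) :
    ⟪v - P M (i + 1) v, x⟫ = ⟪Q M i v, x⟫ := by
  have h := inner_v_sub_P (v := v) hM hx
  rw [Q_apply, inner_sub_left, inner_sub_left]
  rw [inner_sub_left] at h
  linarith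

variable {th : ℝ} (hth : 0 < th) (h1 : th ≤ 1)

omit hv in
lemma H_Q_self {i n : ℕ} (h : i < n) (x : E) : H M th n i (Q M i x) = Q M i x := by
  rw [H, comb_Q hM (Finset.mem_Ico.2 ⟨le_rfl, h⟩)]
  simp

omit hv in
lemma Q_H {i j n : ℕ} (hij : i ≤ j) (hjn : j < n) (x : E) :
    Q M j (H M th n i x) = th ^ (j - i) • Q M j x := by
  rw [H, Q_comb hM (Finset.mem_Ico.2 ⟨hij, hjn⟩)]

omit hv in
lemma Q_Hi {i j n : ℕ} (hij : i ≤ j) (hjn : j < n) (x : E) :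
    Q M j (Hi M th n i x) = (th ^ (j - i))⁻¹ • Q M j x := by
  rw [Hi, Q_comb hM (Finset.mem_Ico.2 ⟨hij, hjn⟩)]

omit hM in
/-- elementary bound for one term -/
lemma term_bound {a z b e : ℝ} (hb0 : 0 ≤ b) (hb1 : b ≤ 1) (he : 0 < e) :
    - (7 / 16) * (a + z) ^ 2 + 7 / 16 * a ^ 2 / (1 - 7 / 16 * b)
      ≤ 7 / 16 * ((b + e) * a ^ 2 + z ^ 2 / e) - 7 / 16 * z ^ 2 := by
  have hB : 0 < 1 - 7 / 16 * b := by linarith
  have h2 : a ^ 2 / (1 - 7 / 16 * b) ≤ (1 + b) * a ^ 2 := by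
    rw [div_le_iff₀ hB]
    nlinarith [sq_nonneg a, mul_nonneg hb0 (sq_nonneg a), mul_nonneg (mul_nonneg hb0 (sub_nonneg.2 hb1)) (sq_nonneg a)]
  have h3 : -(2 * a * z) ≤ e * a ^ 2 + z ^ 2 / e := by
    have h4 : 0 ≤ (e * a + z) ^ 2 / e := by positivity
    have h5 : (e * a + z) ^ 2 / e = e * a ^ 2 + 2 * a * z + z ^ 2 / e := by
      field_simp
      ring
    linarith
  have h6 : 7 / 16 * a ^ 2 / (1 - 7 / 16 * b) = 7 / 16 * (a ^ 2 / (1 - 7 / 16 * b)) := by ring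
  rw [h6]
  nlinarith

/-- the comparison operator of level `i` from `M` to the rotated flag -/
noncomputable def R (M : ℕ → Submodule ℝ E) (v : E) (th : ℝ) (n i : ℕ) : E →L[ℝ] E :=
  (Hi (W M v) th n i) ∘L (T v) ∘L (H M th n i)

omit hv hM in
lemma R_apply (n i : ℕ) (g : E) : R M v th n i g = Hi (W M v) th n i (T v (H M th n i g)) := rfl

include hth in
/-- key identity of the comparison. -/
theorem HW_R {i n : ℕ} (h : i ≤ n) (hn : M n = ⊥) (g : E) :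
    H (W M v) th n i (R M v th n i g) = T v (H M th n i g) := by
  rw [R_apply, H_Hi (W_anti hM v) hth h (W_bot v hn)]
  exact P_of_mem (T_mem_W v (comb_mem hM i n _ g))

include hth h1 in
/-- precision comparison with the own-block gain. -/
theorem norm_R_sq {i n : ℕ} (h : i < n) (hn : M n = ⊥) (e : ℕ → ℝ) (he : ∀ j, 0 < e j) (g : E) :
    ‖R M v th n i g‖ ^ 2 + 7 / 16 * (1 - th ^ 2) * ⟪Q M i v, g⟫ ^ 2
      ≤ ‖g‖ ^ 2 + ∑ j ∈ Ico (i + 1) n, 7 / 16 * om th (j - i) *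
          ((‖P M j v‖ ^ 2 + e j) * ⟪H M th n i (v - P M j v), g⟫ ^ 2
            + ⟪H M th n i (P M j v), g⟫ ^ 2 / e j) := by
  set x := H M th n i g with hx
  have hxi : x ∈ M i := comb_mem hM i n _ g
  -- left side
  have hW := norm_Hi_sq (M := W M v) (th := th) (W_anti hM v) h (W_bot v hn) (T v x)
  have hMx := norm_Hi_sq (M := M) (th := th) hM h hn x
  have hPg : Hi M th n i x = P M i g := Hi_H hM hth h.le hn g
  have hPg2 : ‖P M i g‖ ^ 2 ≤ ‖g‖ ^ 2 := by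
    have h3 : ‖P M i g‖ ≤ ‖g‖ := (M i).norm_starProjection_apply_le g
    have h0 := norm_nonneg (P M i g)
    nlinarith
  rw [R_apply, ← hx, hW]
  rw [hPg] at hMx
  have hi0 : ⟪v - P M i v, x⟫ = 0 := inner_v_sub_P hM hxi
  have hPi : ‖P (W M v) i (T v x)‖ ^ 2 = ‖P M i x‖ ^ 2 - 7 / 16 * ⟪v, x⟫ ^ 2 := by
    rw [norm_PW_sq hv, hi0]; ring
  rw [hPi]
  -- terms
  have hterm : ∀ j ∈ Ico (i + 1) n, om th (j - i) * ‖P (W M v) j (T v x)‖ ^ 2
      ≤ om th (j - i) * ‖P M j x‖ ^ 2 + 7 / 16 * om th (j - i) *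
          ((‖P M j v‖ ^ 2 + e j) * ⟪H M th n i (v - P M j v), g⟫ ^ 2
            + ⟪H M th n i (P M j v), g⟫ ^ 2 / e j)
        - 7 / 16 * om th (j - i) * ⟪P M j v, x⟫ ^ 2 := by
    intro j hj
    have ho : 0 ≤ om th (j - i) := om_nonneg hth h1 _
    have e1 : ⟪H M th n i (v - P M j v), g⟫ = ⟪v - P M j v, x⟫ := by rw [hx, inner_H_comm]
    have e2 : ⟪H M th n i (P M j v), g⟫ = ⟪P M j v, x⟫ := by rw [hx, inner_H_comm]
    rw [e1, e2, norm_PW_sq hv]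
    have e3 : ⟪v, x⟫ = ⟪v - P M j v, x⟫ + ⟪P M j v, x⟫ := by rw [← inner_add_left, sub_add_cancel]
    have ht := term_bound hv (a := ⟪v - P M j v, x⟫) (z := ⟪P M j v, x⟫) (sq_nonneg ‖P M j v‖)
      (b_le_one (M := M) hv j) (he j)
    rw [e3]
    nlinarith [mul_le_mul_of_nonneg_left ht ho]
  have hsum := Finset.sum_le_sum hterm
  rw [Finset.sum_sub_distrib, Finset.sum_add_distrib] at hsum
  -- the gain
  have hgain : 7 / 16 * (1 - th ^ 2) * ⟪Q M i v, g⟫ ^ 2 ≤ 7 / 16 * ⟪v, x⟫ ^ 2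
      + ∑ j ∈ Ico (i + 1) n, 7 / 16 * om th (j - i) * ⟪P M j v, x⟫ ^ 2 := by
    have hq : ⟪Q M i v, g⟫ = ⟪v - P M (i + 1) v, x⟫ := by
      rw [inner_v_sub_P_succ hM hxi, hx, inner_H_comm, H_Q_self hM h]
    rw [hq]
    have e3 : ⟪v, x⟫ = ⟪v - P M (i + 1) v, x⟫ + ⟪P M (i + 1) v, x⟫ := by
      rw [← inner_add_left, sub_add_cancel]
    rcases Nat.eq_or_lt_of_le (Nat.succ_le_of_lt h) with hin | hin
    · have hin' : M (i + 1) = ⊥ := by
        have : i + 1 = n := hin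
        rw [this]; exact hn
      have hz : ⟪P M (i + 1) v, x⟫ = 0 := by
        rw [P_eq_zero hin', inner_zero_left]
      have hemp : Ico (i + 1) n = ∅ := by
        have : i + 1 = n := hin
        rw [this]; simp
      rw [hemp, Finset.sum_empty, e3, hz]
      nlinarith [sq_nonneg ⟪v - P M (i + 1) v, x⟫, mul_nonneg (sq_nonneg th) (sq_nonneg ⟪v - P M (i + 1) v, x⟫)]
    · have hmem : i + 1 ∈ Ico (i + 1) n := Finset.mem_Ico.2 ⟨le_rfl, hin⟩
      have hsingle : 7 / 16 * om th (i + 1 - i) * ⟪P M (i + 1) v, x⟫ ^ 2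
          ≤ ∑ j ∈ Ico (i + 1) n, 7 / 16 * om th (j - i) * ⟪P M j v, x⟫ ^ 2 :=
        Finset.single_le_sum (f := fun j => 7 / 16 * om th (j - i) * ⟪P M j v, x⟫ ^ 2)
          (fun j _ => mul_nonneg (mul_nonneg (by norm_num) (om_nonneg hth h1 _)) (sq_nonneg _)) hmem
      have ho1 : om th (i + 1 - i) = (th⁻¹) ^ 2 - 1 := by
        rw [Nat.add_sub_cancel_left, om]; simp
      rw [ho1] at hsingle
      rw [e3]
      set a := ⟪v - P M (i + 1) v, x⟫
      set z := ⟪P M (i + 1) v, x⟫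
      have hsq : 0 ≤ (th * a + th⁻¹ * z) ^ 2 := sq_nonneg _
      have hexp : (th * a + th⁻¹ * z) ^ 2 = th ^ 2 * a ^ 2 + 2 * a * z + (th⁻¹) ^ 2 * z ^ 2 := by
        have h2 : th * th⁻¹ = 1 := mul_inv_cancel₀ hth.ne'
        linear_combination 2 * a * z * h2
      nlinarith
  nlinarith

include hth in
/-- the own-block direction of the rotated flag -/
theorem exists_dir {i n : ℕ} (h : i < n) (hq : Q M i v ≠ 0) :
    ∃ n' : E, ‖n'‖ = 1 ∧ n' ∈ W M v i ∧ (∀ y ∈ W M v (i + 1), ⟪n', y⟫ = 0) ∧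
      ∀ g, ‖Q M i v‖ ^ 2 * ⟪n', R M v th n i g⟫ ^ 2 ≤ ⟪Q M i v, g⟫ ^ 2 := by
  set q := Q M i v with hqd
  set u : E := q + (1 / 3 * ⟪v, q⟫) • v with hu
  have hinv : ∀ x, ⟪u, T v x⟫ = ⟪q, x⟫ := by
    intro x
    rw [hu, T_apply, inner_add_left, inner_sub_right, inner_sub_right, inner_smul_left,
      inner_smul_right, inner_smul_left, inner_smul_right, real_inner_self_eq_norm_sq, hv,
      real_inner_comm q v]
    simp only [conj_trivial]
    ring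
  set n2 : E := P (W M v) i u with hn2
  have hWa := W_anti hM v
  have hn2mem : n2 ∈ W M v i := P_mem i u
  have hn2T : ∀ x ∈ M i, ⟪n2, T v x⟫ = ⟪q, x⟫ := by
    intro x hx
    rw [hn2, inner_P_comm', P_of_mem (T_mem_W v hx), hinv]
  have hperp : ∀ y ∈ W M v (i + 1), ⟪n2, y⟫ = 0 := by
    rintro y ⟨x, hx, rfl⟩
    have hxi : x ∈ M i := hM (Nat.le_succ i) hx
    have := hn2T x hxi
    change ⟪n2, T v x⟫ = 0
    rw [this, hqd, inner_Q_comm]
    have : Q M i x = 0 := by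
      rw [Q_apply, P_of_mem hxi, P_of_mem hx, sub_self]
    rw [this, inner_zero_right]
  have hqpos : 0 < ‖q‖ := norm_pos_iff.2 hq
  have hqi : q ∈ M i := Q_mem hM i v
  have hn2norm : ‖q‖ ≤ ‖n2‖ := by
    have h3 := hn2T q hqi
    rw [real_inner_self_eq_norm_sq] at h3
    have h4 : ⟪n2, T v q⟫ ≤ ‖n2‖ * ‖T v q‖ := real_inner_le_norm _ _
    have h5 := T_norm_le hv q
    have h6 := norm_nonneg n2
    nlinarith
  have hn2pos : 0 < ‖n2‖ := lt_of_lt_of_le hqpos hn2norm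
  refine ⟨‖n2‖⁻¹ • n2, ?_, (W M v i).smul_mem _ hn2mem, ?_, ?_⟩
  · rw [norm_smul, norm_inv, norm_norm, inv_mul_cancel₀ hn2pos.ne']
  · intro y hy
    rw [inner_smul_left, hperp y hy, mul_zero]
  · intro g
    have hQn2 : Q (W M v) i n2 = n2 := by
      rw [Q_apply, P_of_mem hn2mem]
      have : P (W M v) (i + 1) n2 = 0 := by
        refine (W M v (i + 1)).starProjection_apply_eq_zero_iff.2 ?_
        rw [Submodule.mem_orthogonal']
        exact hperp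
      rw [this, sub_zero]
    have hRg : ⟪n2, R M v th n i g⟫ = ⟪q, g⟫ := by
      have e1 : Hi (W M v) th n i n2 = n2 := by
        conv_lhs => rw [← hQn2]
        rw [Hi, comb_Q hWa (Finset.mem_Ico.2 ⟨le_rfl, h⟩), hQn2]
        simp
      have e2 : H M th n i g ∈ M i := comb_mem hM i n _ g
      rw [R_apply, Hi, ← inner_comb_comm, ← Hi, e1, hn2T _ e2,
        inner_H_comm, hqd, H_Q_self hM h]
    rw [inner_smul_left, hRg]
    simp only [conj_trivial]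
    rw [mul_pow]
    have h7 : ‖q‖ ^ 2 * (‖n2‖⁻¹) ^ 2 ≤ 1 := by
      rw [← mul_pow]
      have h8 : ‖q‖ * ‖n2‖⁻¹ ≤ 1 := by
        rw [← div_eq_mul_inv, div_le_one hn2pos]; exact hn2norm
      have h9 : 0 ≤ ‖q‖ * ‖n2‖⁻¹ := by positivity
      nlinarith
    nlinarith [sq_nonneg ⟪q, g⟫, mul_le_mul_of_nonneg_right h7 (sq_nonneg ⟪q, g⟫)]

end Crest.Agent.R239.RotV475
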