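import Mathlib

/-!
helper427, R239 (583's proof, block L6): the rotation formula C1.

`T s v x = x - s ⟪v,x⟫ v`.  For a unit vector `v`, `sb = 2 s - s^2`, a subspace `N`,
`b = ‖P_N v‖²`, `1 - sb b > 0`:

`‖P_{T N} (T x)‖² = ‖P_N x‖² - sb ξ² + sb (ξ - ζ)² / (1 - sb b)`, `ξ = ⟪v,x⟫`, `ζ = ⟪P_N v, x⟫`.
-/

namespace Crest.Agent.R239.Rot427

open scoped RealInnerProductSpace

variable {E : Type*} [NormedAddCommGroup E] [InnerProductSpace ℝ E]

/-- the contraction along `v`. -/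
noncomputable def T (s : ℝ) (v : E) : E →ₗ[ℝ] E :=
  LinearMap.id - s • ((innerₛₗ ℝ v).smulRight v)

theorem T_apply (s : ℝ) (v x : E) : T s v x = x - (s * ⟪v, x⟫) • v := by
  simp [T, smul_smul]

theorem inner_T_T (s : ℝ) {v : E} (hv : ‖v‖ = 1) (x y : E) :
    ⟪T s v x, T s v y⟫ = ⟪x, y⟫ - (2 * s - s ^ 2) * ⟪v, x⟫ * ⟪v, y⟫ := by
  rw [T_apply, T_apply]
  simp only [inner_sub_left, inner_sub_right, inner_smul_left, inner_smul_right,
    real_inner_self_eq_norm_sq, hv]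
  have h1 : ⟪x, v⟫ = ⟪v, x⟫ := real_inner_comm _ _
  simp only [h1, RCLike.conj_to_real]
  ring

theorem norm_T_sq (s : ℝ) {v : E} (hv : ‖v‖ = 1) (x : E) :
    ‖T s v x‖ ^ 2 = ‖x‖ ^ 2 - (2 * s - s ^ 2) * ⟪v, x⟫ ^ 2 := by
  rw [← real_inner_self_eq_norm_sq, inner_T_T s hv, real_inner_self_eq_norm_sq]
  ring

variable [FiniteDimensional ℝ E]

/-- The rotation formula. -/
theorem rot (s : ℝ) {v : E} (hv : ‖v‖ = 1) (N : Submodule ℝ E)
    (hb : (2 * s - s ^ 2) * ‖N.starProjection v‖ ^ 2 < 1) (x : E) :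
    ‖(N.map (T s v)).starProjection (T s v x)‖ ^ 2
      = ‖N.starProjection x‖ ^ 2 - (2 * s - s ^ 2) * ⟪v, x⟫ ^ 2
        + (2 * s - s ^ 2) * (⟪v, x⟫ - ⟪N.starProjection v, x⟫) ^ 2
          / (1 - (2 * s - s ^ 2) * ‖N.starProjection v‖ ^ 2) := by
  set sb : ℝ := 2 * s - s ^ 2 with hsb
  set w : E := N.starProjection v with hw
  set b : ℝ := ‖w‖ ^ 2 with hbdef
  have hB : (1 - sb * b) ≠ 0 := by linarith
  have hwN : w ∈ N := Submodule.starProjection_apply_mem N v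
  set p : E := N.starProjection x with hp
  have hpN : p ∈ N := Submodule.starProjection_apply_mem N x
  set ξ : ℝ := ⟪v, x⟫ with hξ
  set ζ : ℝ := ⟪w, x⟫ with hζ
  -- u = p - sb ξ w,  u' = u + c w
  have hvy : ∀ y ∈ N, ⟪v, y⟫ = ⟪w, y⟫ := by
    intro y hy
    have h := Submodule.starProjection_inner_eq_zero (K := N) v y hy
    rw [inner_sub_left] at h
    linarith
  have hxy : ∀ y ∈ N, ⟪x, y⟫ = ⟪p, y⟫ := by
    intro y hy
    have h := Submodule.starProjection_inner_eq_zero (K := N) x y hy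
    rw [inner_sub_left] at h
    linarith
  have hwp : ⟪w, p⟫ = ζ :=
    calc ⟪w, p⟫ = ⟪p, w⟫ := real_inner_comm _ _
      _ = ⟪x, w⟫ := (hxy w hwN).symm
      _ = ⟪w, x⟫ := real_inner_comm _ _
  have hww : ⟪w, w⟫ = b := real_inner_self_eq_norm_sq w
  set c : ℝ := sb / (1 - sb * b) * (ζ - sb * ξ * b) with hc
  set u' : E := p + (c - sb * ξ) • w with hu'
  have hu'N : u' ∈ N := N.add_mem hpN (N.smul_mem _ hwN)
  have hwu' : ⟪w, u'⟫ = ζ + (c - sb * ξ) * b := by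
    rw [hu', inner_add_right, inner_smul_right, hwp, hww]
  have hortho : ∀ z ∈ N.map (T s v), ⟪T s v x - T s v u', z⟫ = 0 := by
    intro z hz
    obtain ⟨y, hy, rfl⟩ := (Submodule.mem_map).1 hz
    rw [inner_sub_left, inner_T_T s hv, inner_T_T s hv, hvy y hy, hvy u' hu'N, hwu', hxy y hy,
      hu', inner_add_left, inner_smul_left]
    simp only [RCLike.conj_to_real]
    have key : (c - sb * ξ) + sb * ξ - sb * (ζ + (c - sb * ξ) * b) = 0 := by
      rw [hc]; field_simp; ring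
    have : ⟪p, y⟫ - sb * ⟪v, x⟫ * ⟪w, y⟫ -
        (⟪p, y⟫ + (c - sb * ξ) * ⟪w, y⟫ - sb * (ζ + (c - sb * ξ) * b) * ⟪w, y⟫)
        = -((c - sb * ξ) + sb * ξ - sb * (ζ + (c - sb * ξ) * b)) * ⟪w, y⟫ := by
      rw [← hξ]; ring
    rw [this, key]; ring
  have hproj : (N.map (T s v)).starProjection (T s v x) = T s v u' :=
    Submodule.eq_starProjection_of_mem_of_inner_eq_zero (Submodule.mem_map_of_mem hu'N) hortho
  rw [hproj, norm_T_sq s hv, hvy u' hu'N, hwu', hu',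
    ← real_inner_self_eq_norm_sq, inner_add_add_self]
  simp only [inner_smul_left, inner_smul_right, RCLike.conj_to_real]
  rw [hww, hwp, real_inner_comm w p, hwp, real_inner_self_eq_norm_sq]
  rw [← hsb, hc]
  field_simp
  ring

end Crest.Agent.R239.Rot427
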