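import Mathlib
import Crest.Agent.R239.FDef
import Crest.Agent.R239.Gau6

/-! R239 / S0370, SOFT LINE (helper777's doc 2451, helper894's (R1)): the flag is replaced by a profile
of positive operators.  Level `i` has covariance `G i = (B i)^8`, level map `c i = (B i)^4`, price
`kap * lam i * tr (B i ^ 4)`, cap gauge `B i ^ 2`.  Everything is inverse free. -/

set_option autoImplicit false
open MeasureTheory ProbabilityTheory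
open scoped RealInnerProductSpace

namespace Crest.Agent.R239.SF

open Crest.Agent.R239 (gau)
open Crest.Agent.R239.FD (hs Eh S Par Ts)

variable {E : Type*} [NormedAddCommGroup E] [InnerProductSpace ℝ E] [FiniteDimensional ℝ E]
  [MeasurableSpace E] [BorelSpace E]

/-- weights `th^(-2m)` -/
noncomputable def om (m : ℕ) : ℝ := (25 / 16) ^ m

/-- trace -/
noncomputable def tr (T : E →L[ℝ] E) : ℝ := LinearMap.trace ℝ E (T : E →ₗ[ℝ] E)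

/-- the cap with root `β` (polar form of `<x, β^(-2) x> ≤ rho^2 tr β^2`) -/
def cap (rho : ℝ) (β : E →L[ℝ] E) : Set E :=
  {x | ∀ z, ⟪x, z⟫ ^ 2 ≤ rho ^ 2 * tr (β ^ 2) * ‖β z‖ ^ 2}

/-- admissible bodies of a level with root `β` -/
def Adm (rho : ℝ) (β : E →L[ℝ] E) (K : Set E) : Prop :=
  IsClosed K ∧ Convex ℝ K ∧ (∀ x ∈ K, -x ∈ K) ∧ K ⊆ cap rho β ∧ 0 < (gau (β ^ 4)).real K

/-- value of a body -/
noncomputable def val (lam : ℝ) (β : E →L[ℝ] E) (μ : Multiset E) (K : Set E) : ℝ :=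
  Eh K μ - lam * Real.log ((gau (β ^ 4)).real K)

/-- value of a level -/
noncomputable def D (rho lam : ℝ) (β : E →L[ℝ] E) (μ : Multiset E) : ℝ :=
  sInf (val lam β μ '' {K | Adm rho β K})

/-- `β` positive contraction -/
def PC (β : E →L[ℝ] E) : Prop := β.IsPositive ∧ ∀ x, ‖β x‖ ≤ ‖x‖

/-- a profile -/
structure Prof (E : Type*) [NormedAddCommGroup E] [InnerProductSpace ℝ E]
    [FiniteDimensional ℝ E] where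
  n : ℕ
  B : ℕ → E →L[ℝ] E
  pos : ∀ i, (B i).IsPositive
  van : ∀ i, n ≤ i → B i = 0
  adm : ∀ i x, ‖(B i ^ 4) x‖ ^ 2
    + ∑ j ∈ Finset.Ico (i + 1) n, om (j - i) * ‖(B j ^ 4) ((B i ^ 4) x)‖ ^ 2 ≤ ‖x‖ ^ 2

noncomputable def J (p : Par) (V : Prof E) (μ : Multiset E) : ℝ :=
  ∑ i ∈ Finset.range V.n, (D p.rho (p.lam i) (V.B i) μ - p.kap * p.lam i * tr (V.B i ^ 4))

noncomputable def Ut (p : Par) (μ : Multiset E) : ℝ := sSup (Set.range fun V : Prof E => J p V μ)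

/-- the quadratic form `Q_i` -/
noncomputable def Prof.Q (V : Prof E) (i : ℕ) (x : E) : ℝ :=
  ‖x‖ ^ 2 + ∑ j ∈ Finset.Ico (i + 1) V.n, om (j - i) * ‖(V.B j ^ 4) x‖ ^ 2

def mrg (s : Multiset (E × E)) : Multiset E := s.map fun q => q.1 + q.2
def spl (s : Multiset (E × E)) : Multiset E := s.map Prod.fst + s.map Prod.snd

/-! ## one-level statements -/

section
variable (E)

/-- empty population -/
def P_U0 : Prop := ∀ (rho lam : ℝ) (β : E →L[ℝ] E), 2 ≤ rho → 0 ≤ lam → PC β →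
  D rho lam β 0 ≤ lam * (2 / rho ^ 2) * tr (β ^ 4)

/-- monotone under splitting -/
def P_U1 : Prop := ∀ (rho lam : ℝ) (β : E →L[ℝ] E) (s : Multiset (E × E)), 2 ≤ rho → 0 ≤ lam →
  PC β → D rho lam β (mrg s) ≤ D rho lam β (spl s)

/-- one more vector -/
def P_U2 : Prop := ∀ (rho lam : ℝ) (β : E →L[ℝ] E) (z : E) (μ : Multiset E), 2 ≤ rho → 0 ≤ lam →
  PC β → D rho lam β (z ::ₘ μ) ≤ D rho lam β μ + rho * Real.sqrt (tr (β ^ 2)) * ‖β z‖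

/-- larger covariance (insertion at the level `I`): Anderson and one cut -/
def P_ANTI : Prop := ∀ (rho lam : ℝ) (β β' : E →L[ℝ] E) (μ : Multiset E), 2 ≤ rho → 0 ≤ lam →
  PC β → PC β' → (∀ x, ‖(β ^ 4) x‖ ≤ ‖(β' ^ 4) x‖) →
  D rho lam β μ ≤ D rho lam β' μ + lam * (2 / rho ^ 2)

/-- smaller covariance `G' = c (1 + c r c)^(-1) c` (insertion, levels below `I`), no cut -/
def P_DEC : Prop := ∀ (rho lam : ℝ) (β β' r Z R : E →L[ℝ] E) (μ : Multiset E), 2 ≤ rho → 0 ≤ lam →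
  PC β → PC β' → r.IsPositive → (∀ x, ‖R x‖ ^ 2 = ‖x‖ ^ 2 + ⟪r ((β ^ 4) x), (β ^ 4) x⟫) →
  Z ∘L R = β ^ 4 → (∀ t, ‖Z.adjoint t‖ = ‖(β' ^ 4) t‖) →
  D rho lam β μ ≤ D rho lam β' μ + lam * (tr (β ^ 4 * r * β ^ 4) / 2)

/-- the move `T = 1 - v v^T / 2` at one level, `G' = T c (1 + c r c)^(-1) c T` -/
def P_LT (C0 : ℝ) : Prop := ∀ (rho lam t : ℝ) (β β' r Z R : E →L[ℝ] E) (v : E) (μ : Multiset E),
  C0 ≤ rho → 0 ≤ lam → 0 < t → ‖v‖ = 1 →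
  PC β → PC β' → r.IsPositive → (∀ x, ‖R x‖ ^ 2 = ‖x‖ ^ 2 + ⟪r ((β ^ 4) x), (β ^ 4) x⟫) →
  Z ∘L R = Ts v (1 / 2) ∘L β ^ 4 → (∀ t, ‖Z.adjoint t‖ = ‖(β' ^ 4) t‖) →
  D rho lam β μ ≤ D rho lam β' μ
    + lam * (tr (β ^ 4 * r * β ^ 4) / 2 + C0 / rho ^ 2 * ‖(β ^ 2) v‖ ^ 2)
    + t / 2 * S μ v - lam * Real.log ((stdGaussian E).real {g | |⟪(β ^ 4) v, g⟫| ≤ t})

/-- growth at one level -/
def P_GR (C1 C3 eta : ℝ) : Prop := ∀ (rho lam eta' : ℝ) (β : E →L[ℝ] E) (v w : E)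
  (s : Multiset (E × E)), 16 ≤ rho → PC β → ‖v‖ = 1 → (β ^ 4) w = v → ‖w‖ ^ 2 ≤ C3 →
  2 * S (mrg s) v < S (spl s) v → 0 < eta' → eta' ≤ eta → C1 * eta' * S (spl s) v = lam →
  D rho lam β (mrg s) + 2 / 5 * (lam / C1) ≤ D rho lam β (spl s)

/-! ## operator statements -/

/-- square roots -/
def O_root : Prop := ∀ T : E →L[ℝ] E, T.IsPositive → ∃ A : E →L[ℝ] E, A.IsPositive ∧ A ^ 2 = T

/-- monotonicity of the square root -/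
def O_mono : Prop := ∀ A B : E →L[ℝ] E, A.IsPositive → B.IsPositive → (∀ x, ‖A x‖ ≤ ‖B x‖) →
  ∀ x, ⟪A x, x⟫ ≤ ⟪B x, x⟫

/-- polar decomposition -/
def O_polar : Prop := ∀ A B : E →L[ℝ] E, (∀ x, ‖A x‖ = ‖B x‖) →
  ∃ U : E ≃ₗᵢ[ℝ] E, ∀ x, A x = U (B x)

/-- halving of norms -/
def O_half : Prop := ∀ (A B : E →L[ℝ] E) (m : ℝ), A.IsPositive → B.IsPositive → 0 ≤ m →
  (∀ x, ‖(A ^ 2) ((B ^ 2) x)‖ ≤ m ^ 2 * ‖x‖) → ∀ x, ‖A (B x)‖ ≤ m * ‖x‖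

/-- traces after the move `T` -/
def O_trT : Prop := ∀ (β β' : E →L[ℝ] E) (v : E), PC β → β'.IsPositive → ‖v‖ = 1 →
  (∀ x, ‖(β' ^ 4) x‖ ≤ ‖(β ^ 4) (Ts v (1 / 2) x)‖) →
  tr (β' ^ 2) ≤ tr (β ^ 2) ∧ tr (β' ^ 4) ≤ tr (β ^ 4) - 3 / 8 * ‖(β ^ 2) v‖ ^ 2

/-- trace after a rank one update of the covariance -/
def O_trI : Prop := ∀ (β β' : E →L[ℝ] E) (z : E), β.IsPositive → β'.IsPositive →
  (∀ x, ‖(β' ^ 4) x‖ ^ 2 = ‖(β ^ 4) x‖ ^ 2 + ⟪z, x⟫ ^ 2) → tr (β' ^ 4) ≤ tr (β ^ 4) + ‖z‖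

/-! ## profile statements -/

/-- (U2) for profiles: Cotlar-Stein -/
def P_CS (C2 : ℝ) : Prop := ∀ (V : Prof E) (z : E),
  ∑ i ∈ Finset.range V.n, ‖V.B i z‖ ^ 2 ≤ C2 * ‖z‖ ^ 2

/-- the moved profile -/
def P_MOVE : Prop := ∀ (V : Prof E) (v : E) (e : ℕ → ℝ), ‖v‖ = 1 → (∀ m, 0 < e m) →
  ∃ (V' : Prof E) (r Z R : ℕ → E →L[ℝ] E), V'.n = V.n ∧ ∀ i, (r i).IsPositive ∧
    (∀ x, ‖R i x‖ ^ 2 = ‖x‖ ^ 2 + ⟪r i ((V.B i ^ 4) x), (V.B i ^ 4) x⟫) ∧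
    Z i ∘L R i = Ts v (1 / 2) ∘L V.B i ^ 4 ∧ (∀ t, ‖(Z i).adjoint t‖ = ‖(V'.B i ^ 4) t‖) ∧
    (∀ x, ‖(V'.B i ^ 4) x‖ ≤ ‖(V.B i ^ 4) (Ts v (1 / 2) x)‖) ∧
    tr (V.B i ^ 4 * r i * V.B i ^ 4) ≤ ∑ j ∈ Finset.Ico (i + 1) V.n,
      (om (j - i) * e (j - i) * ‖(V.B i ^ 4) v‖ ^ 2
        + (1 / e (j - i) + om (j - i)) * ‖(V.B j ^ 4) v‖ ^ 2)

/-- T1 -/
def P_T1 (p : Par) (C8 dl : ℝ) : Prop := ∀ (V : Prof E) (μ : Multiset E) (I : ℕ) (v : E),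
  ‖v‖ = 1 → S μ v ≤ p.lam I → (∀ V' : Prof E, J p V' μ ≤ J p V μ + dl * p.tau) →
  ∑ i ∈ Finset.range V.n, p.lam i * ‖(V.B i ^ 4) v‖ ^ 2 ≤ C8 * p.lam I

/-- insertion -/
def P_INS (p : Par) : Prop := ∀ (V : Prof E) (μ : Multiset E) (v : E) (I : ℕ), ‖v‖ = 1 →
  ∃ V' : Prof E, (∃ w : E, (V'.B I ^ 4) w = v ∧ ‖w‖ ^ 2 = V.Q I v) ∧
    J p V μ - p.lam I * (p.kap + 2 / p.rho ^ 2 + 1 / p.A) ≤ J p V' μ

end

/-! ## targets -/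

def T_op : Prop := ∀ d : ℕ, O_root (EuclideanSpace ℝ (Fin d)) ∧ O_mono (EuclideanSpace ℝ (Fin d)) ∧
  O_polar (EuclideanSpace ℝ (Fin d)) ∧ O_half (EuclideanSpace ℝ (Fin d)) ∧
  O_trT (EuclideanSpace ℝ (Fin d)) ∧ O_trI (EuclideanSpace ℝ (Fin d))

def T_LT : Prop := ∃ C0 : ℝ, 2 ≤ C0 ∧ ∀ d : ℕ, P_LT (EuclideanSpace ℝ (Fin d)) C0

def T_GR : Prop := ∃ C1 : ℝ, 1 ≤ C1 ∧ ∀ C3 : ℝ, ∃ eta : ℝ, 0 < eta ∧ eta ≤ 1 ∧ ∀ d : ℕ,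
  P_GR (EuclideanSpace ℝ (Fin d)) C1 C3 eta

def T_T1 : Prop := ∀ kap : ℝ, 0 < kap → kap ≤ 1 → ∃ C8 dl rho0 A0 : ℝ, 0 < C8 ∧ 0 < dl ∧
  ∀ (d : ℕ) (p : Par), p.Ok → p.kap = kap → rho0 ≤ p.rho → A0 ≤ p.A →
    P_T1 (EuclideanSpace ℝ (Fin d)) p C8 dl

def T_INS : Prop := ∀ (d : ℕ) (p : Par), p.Ok → P_INS (EuclideanSpace ℝ (Fin d)) p

end Crest.Agent.R239.SF
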