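import Mathlib
import Crest.Agent.R239.SDef_404
import Crest.Agent.R239.Dom_640

/-! Soft line of R239: basic facts on traces and powers of positive operators (helper404). -/

set_option autoImplicit false
set_option linter.unusedSectionVars false
open MeasureTheory ProbabilityTheory
open scoped RealInnerProductSpace

namespace Crest.Agent.R239.SF

open Crest.Agent.R239 (gau)

variable {E : Type*} [NormedAddCommGroup E] [InnerProductSpace ℝ E] [FiniteDimensional ℝ E]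

section tr

theorem tr_add (A B : E →L[ℝ] E) : tr (A + B) = tr A + tr B := by
  unfold tr
  rw [ContinuousLinearMap.toLinearMap_add, map_add]

theorem tr_sub (A B : E →L[ℝ] E) : tr (A - B) = tr A - tr B := by
  unfold tr
  rw [ContinuousLinearMap.toLinearMap_sub, map_sub]

theorem tr_smul (a : ℝ) (A : E →L[ℝ] E) : tr (a • A) = a * tr A := by
  unfold tr
  rw [ContinuousLinearMap.toLinearMap_smul, map_smul, smul_eq_mul]

theorem tr_zero : tr (0 : E →L[ℝ] E) = 0 := by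
  unfold tr
  rw [ContinuousLinearMap.toLinearMap_zero, map_zero]

theorem tr_sum {ι : Type*} (s : Finset ι) (A : ι → E →L[ℝ] E) :
    tr (∑ i ∈ s, A i) = ∑ i ∈ s, tr (A i) := by
  classical
  induction s using Finset.induction_on with
  | empty => simp [tr_zero]
  | insert a s ha ih => rw [Finset.sum_insert ha, tr_add, ih, Finset.sum_insert ha]

theorem tr_mul_comm (A B : E →L[ℝ] E) : tr (A * B) = tr (B * A) := by
  unfold tr
  exact LinearMap.trace_mul_comm ℝ (A : E →ₗ[ℝ] E) (B : E →ₗ[ℝ] E)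

/-- trace in an orthonormal basis -/
theorem tr_eq_sum {ι : Type*} [Fintype ι] (b : OrthonormalBasis ι ℝ E) (T : E →L[ℝ] E) :
    tr T = ∑ i, ⟪b i, T (b i)⟫ := by
  classical
  unfold tr
  rw [LinearMap.trace_eq_sum_inner (T : E →ₗ[ℝ] E) b]
  rfl

theorem tr_mono {A B : E →L[ℝ] E} (h : ∀ x, ⟪A x, x⟫ ≤ ⟪B x, x⟫) : tr A ≤ tr B := by
  rw [tr_eq_sum (stdOrthonormalBasis ℝ E), tr_eq_sum (stdOrthonormalBasis ℝ E)]
  refine Finset.sum_le_sum fun i _ => ?_
  rw [real_inner_comm, real_inner_comm (B _)]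
  exact h _

theorem tr_nonneg {A : E →L[ℝ] E} (h : A.IsPositive) : 0 ≤ tr A := by
  rw [tr_eq_sum (stdOrthonormalBasis ℝ E)]
  refine Finset.sum_nonneg fun i _ => ?_
  exact h.inner_nonneg_right _

/-- the rank one operator `x ↦ ⟪a,x⟫ b` -/
noncomputable def rk (a b : E) : E →L[ℝ] E := (innerSL ℝ a).smulRight b

theorem rk_apply (a b x : E) : rk a b x = ⟪a, x⟫ • b := by simp [rk]

theorem tr_rk (a b : E) : tr (rk a b) = ⟪a, b⟫ := by
  rw [tr_eq_sum (stdOrthonormalBasis ℝ E)]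
  simp only [rk_apply, inner_smul_right]
  rw [← (stdOrthonormalBasis ℝ E).sum_inner_mul_inner a b]

theorem tr_conj (U : E ≃ₗᵢ[ℝ] E) (T : E →L[ℝ] E) :
    tr ((U : E →L[ℝ] E) ∘L T ∘L (U.symm : E →L[ℝ] E)) = tr T := by
  have h : (U : E →L[ℝ] E) ∘L T ∘L (U.symm : E →L[ℝ] E)
      = (U : E →L[ℝ] E) * (T * (U.symm : E →L[ℝ] E)) := rfl
  rw [h, tr_mul_comm]
  congr 1
  ext x
  simp

end tr

section pos

variable {A B : E →L[ℝ] E}

theorem sym (h : A.IsPositive) (x y : E) : ⟪A x, y⟫ = ⟪x, A y⟫ := h.1 x y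

theorem adj (h : A.IsPositive) : A.adjoint = A := h.isSelfAdjoint.adjoint_eq

theorem symP (h : A.IsPositive) (k : ℕ) (x y : E) : ⟪(A ^ k) x, y⟫ = ⟪x, (A ^ k) y⟫ := by
  induction k generalizing x y with
  | zero => simp
  | succ k ih =>
    rw [pow_succ]
    change ⟪(A ^ k) (A x), y⟫ = _
    rw [ih, sym h, ← pow_succ]
    change _ = ⟪x, (A ^ k * A) y⟫
    rw [← pow_succ, pow_succ']
    rfl

theorem inner_even (h : A.IsPositive) (k : ℕ) (x : E) : ⟪(A ^ (2 * k)) x, x⟫ = ‖(A ^ k) x‖ ^ 2 := by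
  rw [two_mul, pow_add]
  change ⟪(A ^ k) ((A ^ k) x), x⟫ = _
  rw [symP h, real_inner_self_eq_norm_sq]

theorem inner_odd (h : A.IsPositive) (k : ℕ) (x : E) : 0 ≤ ⟪(A ^ (2 * k + 1)) x, x⟫ := by
  have e : (A ^ (2 * k + 1)) x = (A ^ k) (A ((A ^ k) x)) := by
    rw [two_mul, add_assoc, pow_add, pow_succ']
    rfl
  rw [e, symP h]
  exact h.inner_nonneg_left _

theorem posP (h : A.IsPositive) (k : ℕ) : (A ^ k).IsPositive := by
  refine ⟨fun x y => symP h k x y, fun x => ?_⟩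
  rw [ContinuousLinearMap.reApplyInnerSelf_apply]
  rcases Nat.even_or_odd' k with ⟨m, rfl | rfl⟩
  · rw [inner_even h]
    exact sq_nonneg _
  · exact inner_odd h m x

theorem powP_le (h : ∀ x, ‖A x‖ ≤ ‖x‖) (k : ℕ) (x : E) : ‖(A ^ k) x‖ ≤ ‖x‖ := by
  induction k generalizing x with
  | zero => simp
  | succ k ih =>
    rw [pow_succ]
    change ‖(A ^ k) (A x)‖ ≤ _
    exact (ih _).trans (h x)

/-- spectral theorem -/
theorem spec (h : A.IsPositive) : ∃ (b : OrthonormalBasis (Fin (Module.finrank ℝ E)) ℝ E)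
    (t : Fin (Module.finrank ℝ E) → ℝ), (∀ i, 0 ≤ t i) ∧ ∀ i, A (b i) = t i • b i := by
  have hS : (A : E →ₗ[ℝ] E).IsSymmetric := h.1
  refine ⟨hS.eigenvectorBasis rfl, hS.eigenvalues rfl, fun i => ?_, fun i =>
    hS.apply_eigenvectorBasis rfl i⟩
  have h1 : A (hS.eigenvectorBasis rfl i) = hS.eigenvalues rfl i • hS.eigenvectorBasis rfl i :=
    hS.apply_eigenvectorBasis rfl i
  have h2 := h.inner_nonneg_left (hS.eigenvectorBasis rfl i)
  rw [h1, inner_smul_left, real_inner_self_eq_norm_sq, (hS.eigenvectorBasis rfl).norm_eq_one] at h2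
  simpa using h2

theorem spec_pow {b : OrthonormalBasis (Fin (Module.finrank ℝ E)) ℝ E}
    {t : Fin (Module.finrank ℝ E) → ℝ} (h : ∀ i, A (b i) = t i • b i) (k : ℕ)
    (i : Fin (Module.finrank ℝ E)) : (A ^ k) (b i) = t i ^ k • b i := by
  induction k with
  | zero => simp
  | succ k ih =>
    rw [pow_succ']
    change A ((A ^ k) (b i)) = _
    rw [ih, map_smul, h, smul_smul, pow_succ]

theorem tr_pow {b : OrthonormalBasis (Fin (Module.finrank ℝ E)) ℝ E}
    {t : Fin (Module.finrank ℝ E) → ℝ} (h : ∀ i, A (b i) = t i • b i) (k : ℕ) :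
    tr (A ^ k) = ∑ i, t i ^ k := by
  rw [tr_eq_sum b]
  refine Finset.sum_congr rfl fun i _ => ?_
  rw [spec_pow h, inner_smul_right, real_inner_self_eq_norm_sq, b.norm_eq_one]
  simp

/-- `tr β^6 ≤ tr β^4 tr β^2` -/
theorem tr6_le (h : A.IsPositive) : tr (A ^ 6) ≤ tr (A ^ 4) * tr (A ^ 2) := by
  obtain ⟨b, t, ht, hb⟩ := spec h
  rw [tr_pow hb, tr_pow hb, tr_pow hb, Finset.sum_mul]
  refine Finset.sum_le_sum fun i _ => ?_
  have h1 : t i ^ 2 ≤ ∑ j, t j ^ 2 :=
    Finset.single_le_sum (f := fun j => t j ^ 2) (fun j _ => by positivity) (Finset.mem_univ i)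
  calc t i ^ 6 = t i ^ 4 * t i ^ 2 := by ring
    _ ≤ _ := mul_le_mul_of_nonneg_left h1 (by have := ht i; positivity)

theorem tr_pow_le (h : PC A) {k m : ℕ} (hkm : k ≤ m) : tr (A ^ m) ≤ tr (A ^ k) := by
  obtain ⟨b, t, ht, hb⟩ := spec h.1
  rw [tr_pow hb, tr_pow hb]
  refine Finset.sum_le_sum fun i _ => ?_
  have h1 : t i ≤ 1 := by
    have := h.2 (b i)
    rw [hb, norm_smul, b.norm_eq_one, Real.norm_of_nonneg (ht i)] at this
    simpa using this
  exact pow_le_pow_of_le_one (ht i) h1 hkm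

theorem tr_le_dim (h : PC A) (k : ℕ) : tr (A ^ k) ≤ Module.finrank ℝ E := by
  have := tr_pow_le h (Nat.zero_le k)
  refine this.trans ?_
  rw [pow_zero, tr_eq_sum (stdOrthonormalBasis ℝ E)]
  simp

end pos

section gauss

variable [MeasurableSpace E] [BorelSpace E]

/-- trace as a Gaussian mean -/
theorem integral_eq_tr (A : E →L[ℝ] E) :
    ∫ g, ‖A g‖ ^ 2 ∂(stdGaussian E) = tr (A.adjoint * A) := by
  rw [Dom640.integral_norm_sq, tr_mul_comm, tr_eq_sum (stdOrthonormalBasis ℝ E)]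
  refine Finset.sum_congr rfl fun i _ => ?_
  change _ = ⟪_, A (A.adjoint _)⟫
  rw [← ContinuousLinearMap.adjoint_inner_left, real_inner_self_eq_norm_sq]

/-- trace of an even power as a Gaussian mean -/
theorem integral_pow {A : E →L[ℝ] E} (h : A.IsPositive) (k : ℕ) :
    ∫ g, ‖(A ^ k) g‖ ^ 2 ∂(stdGaussian E) = tr (A ^ (2 * k)) := by
  rw [integral_eq_tr, adj (posP h k), ← pow_add, two_mul]

end gauss

end Crest.Agent.R239.SF
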