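import Mathlib
import Crest.Agent.R239.SB_404

/-! Soft line of R239: operator statements `O_root`, `O_mono`, `O_polar`, `O_half` (helper404). -/

set_option autoImplicit false
set_option linter.unusedSectionVars false
open MeasureTheory ProbabilityTheory
open scoped RealInnerProductSpace

namespace Crest.Agent.R239.SF

variable {E : Type*} [NormedAddCommGroup E] [InnerProductSpace ℝ E] [FiniteDimensional ℝ E]

theorem clm_ext {ι : Type*} [Fintype ι] (b : OrthonormalBasis ι ℝ E) {A B : E →L[ℝ] E}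
    (h : ∀ i, A (b i) = B (b i)) : A = B := by
  have h1 : (A : E →ₗ[ℝ] E) = (B : E →ₗ[ℝ] E) := by
    refine b.toBasis.ext fun i => ?_
    simpa using h i
  ext x
  exact LinearMap.congr_fun h1 x

/-- functional calculus in an orthonormal basis -/
noncomputable def fn {ι : Type*} [Fintype ι] (b : OrthonormalBasis ι ℝ E) (f : ι → ℝ) :
    E →L[ℝ] E := ∑ i, f i • rk (b i) (b i)

theorem fn_apply {ι : Type*} [Fintype ι] (b : OrthonormalBasis ι ℝ E) (f : ι → ℝ) (i : ι) :
    fn b f (b i) = f i • b i := by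
  classical
  unfold fn
  rw [_root_.sum_apply, Finset.sum_eq_single i]
  · simp [rk_apply, b.norm_eq_one]
  · intro j _ hj
    simp [rk_apply, b.inner_eq_zero hj]
  · simp

theorem fn_pos {ι : Type*} [Fintype ι] (b : OrthonormalBasis ι ℝ E) {f : ι → ℝ}
    (hf : ∀ i, 0 ≤ f i) : (fn b f).IsPositive := by
  have e : ∀ x, fn b f x = ∑ i, (f i * ⟪b i, x⟫) • b i := by
    intro x
    unfold fn
    rw [_root_.sum_apply]
    refine Finset.sum_congr rfl fun i _ => ?_
    simp [rk_apply, smul_smul]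
  refine ⟨fun x y => ?_, fun x => ?_⟩
  · change ⟪fn b f x, y⟫ = ⟪x, fn b f y⟫
    rw [e, e, sum_inner, inner_sum]
    refine Finset.sum_congr rfl fun i _ => ?_
    rw [real_inner_smul_left, real_inner_smul_right, real_inner_comm (b i) x]
    ring
  · rw [ContinuousLinearMap.reApplyInnerSelf_apply]
    change 0 ≤ ⟪fn b f x, x⟫
    rw [e, sum_inner]
    refine Finset.sum_nonneg fun i _ => ?_
    rw [real_inner_smul_left]
    have := hf i
    have h2 : f i * ⟪b i, x⟫ * ⟪b i, x⟫ = f i * ⟪b i, x⟫ ^ 2 := by ring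
    rw [h2]
    positivity

/-- roots of every order -/
theorem exists_root_pow {T : E →L[ℝ] E} (hT : T.IsPositive) {k : ℕ} (hk : k ≠ 0) :
    ∃ A : E →L[ℝ] E, A.IsPositive ∧ A ^ k = T := by
  obtain ⟨b, t, ht, hb⟩ := spec hT
  refine ⟨fn b fun i => t i ^ (1 / (k : ℝ)), fn_pos b fun i => Real.rpow_nonneg (ht i) _, ?_⟩
  refine clm_ext b fun i => ?_
  rw [spec_pow (fn_apply b _) k i, hb]
  congr 1
  rw [← Real.rpow_natCast, ← Real.rpow_mul (ht i)]
  field_simp
  simp

theorem o_root : O_root E := fun _ hT => exists_root_pow hT two_ne_zero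

/-- the square root is monotone -/
theorem o_mono : O_mono E := by
  intro A B hA hB h
  have hD : ((B - A : E →L[ℝ] E) : E →ₗ[ℝ] E).IsSymmetric := by
    intro x y
    change ⟪B x - A x, y⟫ = ⟪x, B y - A y⟫
    rw [inner_sub_left, inner_sub_right, sym hA, sym hB]
  set b := hD.eigenvectorBasis (rfl : Module.finrank ℝ E = Module.finrank ℝ E)
  set t := hD.eigenvalues (rfl : Module.finrank ℝ E = Module.finrank ℝ E)
  have hb : ∀ i, (B - A) (b i) = t i • b i := fun i => hD.apply_eigenvectorBasis rfl i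
  have hb' : ∀ i, B (b i) = A (b i) + t i • b i := by
    intro i
    rw [← hb i]
    simp
  have ht : ∀ i, 0 ≤ t i := by
    intro i
    by_contra hneg
    push Not at hneg
    have h1 := h (b i)
    have h2 : ‖B (b i)‖ ^ 2 - ‖A (b i)‖ ^ 2 = t i * (⟪A (b i), b i⟫ + ⟪B (b i), b i⟫) := by
      have e1 : ‖B (b i)‖ ^ 2 = ⟪B (b i), A (b i) + t i • b i⟫ := by
        rw [← hb' i, real_inner_self_eq_norm_sq]
      have e2 : ‖A (b i)‖ ^ 2 = ⟪A (b i), B (b i) - t i • b i⟫ := by
        rw [hb' i, add_sub_cancel_right, real_inner_self_eq_norm_sq]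
      rw [e1, e2, inner_add_right, inner_sub_right, real_inner_smul_right, real_inner_smul_right,
        real_inner_comm (B (b i)) (A (b i))]
      ring
    have h3 : 0 ≤ ‖B (b i)‖ ^ 2 - ‖A (b i)‖ ^ 2 := by
      have := pow_le_pow_left₀ (norm_nonneg _) h1 2
      linarith
    have h4 := hA.inner_nonneg_left (b i)
    have h5 := hB.inner_nonneg_left (b i)
    have h6 : ⟪A (b i), b i⟫ + ⟪B (b i), b i⟫ = 0 := by
      by_contra h7
      have h8 : 0 < ⟪A (b i), b i⟫ + ⟪B (b i), b i⟫ := lt_of_le_of_ne (by linarith) (Ne.symm h7)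
      have := mul_neg_of_neg_of_pos hneg h8
      linarith
    have h9 : ⟪(B - A) (b i), b i⟫ = t i := by
      rw [hb, real_inner_smul_left, real_inner_self_eq_norm_sq, b.norm_eq_one]
      ring
    have h10 : ⟪(B - A) (b i), b i⟫ = ⟪B (b i), b i⟫ - ⟪A (b i), b i⟫ := by
      change ⟪B (b i) - A (b i), b i⟫ = _
      rw [inner_sub_left]
    have : t i = 0 := by rw [← h9, h10]; linarith
    linarith
  intro x
  have hx : ⟪B x, x⟫ - ⟪A x, x⟫ = ∑ i, t i * ⟪b i, x⟫ ^ 2 := by
    rw [← inner_sub_left]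
    change ⟪(B - A) x, x⟫ = _
    rw [← b.sum_inner_mul_inner]
    refine Finset.sum_congr rfl fun i _ => ?_
    have : ⟪(B - A) x, b i⟫ = t i * ⟪b i, x⟫ := by
      have := hD x (b i)
      change ⟪(B - A) x, b i⟫ = ⟪x, (B - A) (b i)⟫ at this
      rw [this, hb, real_inner_smul_right, real_inner_comm]
    rw [this]
    ring
  have : 0 ≤ ∑ i, t i * ⟪b i, x⟫ ^ 2 := Finset.sum_nonneg fun i _ =>
    mul_nonneg (ht i) (sq_nonneg _)
  linarith

/-- polar decomposition -/
theorem o_polar : O_polar E := by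
  intro A B h
  -- the isometry `range B → E`, `B x ↦ A x`
  have hker : ∀ x, B x = 0 → A x = 0 := by
    intro x hx
    have := h x
    rw [hx, norm_zero] at this
    exact norm_eq_zero.1 this
  obtain ⟨L0, hL0⟩ : ∃ L0 : LinearMap.range (B : E →ₗ[ℝ] E) →ₗ[ℝ] E,
      ∀ x, L0 ⟨B x, LinearMap.mem_range_self (B : E →ₗ[ℝ] E) x⟩ = A x := by
    have hk : LinearMap.ker (B : E →ₗ[ℝ] E) ≤ LinearMap.ker (A : E →ₗ[ℝ] E) := by
      intro x hx
      exact hker x hx
    let q := (LinearMap.ker (B : E →ₗ[ℝ] E)).liftQ (A : E →ₗ[ℝ] E) hk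
    refine ⟨q ∘ₗ (LinearMap.quotKerEquivRange (B : E →ₗ[ℝ] E)).symm.toLinearMap, fun x => ?_⟩
    change q ((LinearMap.quotKerEquivRange (B : E →ₗ[ℝ] E)).symm _) = _
    have e : (LinearMap.quotKerEquivRange (B : E →ₗ[ℝ] E)).symm
        ⟨B x, LinearMap.mem_range_self (B : E →ₗ[ℝ] E) x⟩
        = Submodule.Quotient.mk x := by
      rw [LinearEquiv.symm_apply_eq]
      rfl
    rw [e]
    rfl
  let L : LinearMap.range (B : E →ₗ[ℝ] E) →ₗᵢ[ℝ] E :=
    { toLinearMap := L0
      norm_map' := by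
        rintro ⟨y, x, rfl⟩
        have := hL0 x
        change ‖L0 ⟨B x, _⟩‖ = ‖B x‖
        rw [this, h] }
  let U := L.extend.toLinearIsometryEquiv rfl
  refine ⟨U, fun x => ?_⟩
  have h1 : U (B x) = L ⟨B x, LinearMap.mem_range_self (B : E →ₗ[ℝ] E) x⟩ := by
    change L.extend (B x) = _
    exact L.extend_apply ⟨B x, LinearMap.mem_range_self (B : E →ₗ[ℝ] E) x⟩
  rw [h1]
  exact (hL0 x).symm

/-- halving of norms -/
theorem o_half : O_half E := by
  intro A B m hA hB hm h x
  -- the operator `B A^2 B`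
  have hT : (B * A ^ 2 * B).IsPositive := by
    refine ⟨fun x y => ?_, fun x => ?_⟩
    · change ⟪B ((A ^ 2) (B x)), y⟫ = ⟪x, B ((A ^ 2) (B y))⟫
      rw [sym hB, symP hA, ← sym hB]
    · rw [ContinuousLinearMap.reApplyInnerSelf_apply]
      change 0 ≤ ⟪B ((A ^ 2) (B x)), x⟫
      rw [sym hB]
      exact (posP hA 2).inner_nonneg_left _
  obtain ⟨b, t, ht, hb⟩ := spec hT
  have ht2 : ∀ i, t i ≤ m ^ 2 := by
    intro i
    by_cases hz : B (b i) = 0
    · have h1 := hb i
      change B ((A ^ 2) (B (b i))) = _ at h1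
      rw [hz, map_zero, map_zero] at h1
      have h2 : t i = 0 := by
        have h3 : ‖t i • b i‖ = 0 := by rw [← h1, norm_zero]
        rw [norm_smul, b.norm_eq_one, mul_one, norm_eq_zero] at h3
        exact h3
      rw [h2]
      positivity
    · -- adjoint bound
      have hadj : ∀ y, ‖(B ^ 2) ((A ^ 2) y)‖ ≤ m ^ 2 * ‖y‖ := by
        intro y
        set z := (B ^ 2) ((A ^ 2) y) with hz'
        have h1 : ‖z‖ ^ 2 = ⟪y, (A ^ 2) ((B ^ 2) z)⟫ := by
          rw [← real_inner_self_eq_norm_sq, hz', symP hB, symP hA]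
        have h2 : ‖z‖ ^ 2 ≤ ‖y‖ * (m ^ 2 * ‖z‖) := by
          rw [h1]
          exact (real_inner_le_norm _ _).trans
            (mul_le_mul_of_nonneg_left (h z) (norm_nonneg _))
        rcases (norm_nonneg z).eq_or_lt with h3 | h3
        · rw [← h3]
          positivity
        · have : ‖z‖ * ‖z‖ ≤ (m ^ 2 * ‖y‖) * ‖z‖ := by nlinarith
          exact le_of_mul_le_mul_right this h3
      have h1 := hadj (B (b i))
      have h2 : (B ^ 2) ((A ^ 2) (B (b i))) = t i • B (b i) := by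
        have h3 := hb i
        change B ((A ^ 2) (B (b i))) = _ at h3
        rw [pow_two]
        change B (B ((A ^ 2) (B (b i)))) = _
        rw [h3, map_smul]
      rw [h2, norm_smul, Real.norm_of_nonneg (ht i)] at h1
      exact le_of_mul_le_mul_right h1 (norm_pos_iff.2 hz)
  have h1 : ‖A (B x)‖ ^ 2 = ∑ i, t i * ⟪b i, x⟫ ^ 2 := by
    have e : ‖A (B x)‖ ^ 2 = ⟪(B * A ^ 2 * B) x, x⟫ := by
      change _ = ⟪B ((A ^ 2) (B x)), x⟫
      rw [sym hB]
      have := inner_even hA 1 (B x)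
      rw [mul_one, pow_one] at this
      rw [this]
    rw [e, ← b.sum_inner_mul_inner]
    refine Finset.sum_congr rfl fun i _ => ?_
    rw [sym hT, hb, real_inner_smul_right, real_inner_comm]
    ring
  have h2 : ‖A (B x)‖ ^ 2 ≤ (m * ‖x‖) ^ 2 := by
    rw [h1, mul_pow, ← b.sum_sq_norm_inner_right x, Finset.mul_sum]
    refine Finset.sum_le_sum fun i _ => ?_
    rw [Real.norm_eq_abs, sq_abs]
    exact mul_le_mul_of_nonneg_right (ht2 i) (sq_nonneg _)
  exact le_of_sq_le_sq h2 (by positivity)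

end Crest.Agent.R239.SF
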