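import Mathlib
import Crest.Agent.R239.SO1_404

/-! Soft line of R239: trace inequalities `O_trT`, `O_trI`, `tr6_T` (helper404). -/

set_option autoImplicit false
set_option linter.unusedSectionVars false
open MeasureTheory ProbabilityTheory
open scoped RealInnerProductSpace

namespace Crest.Agent.R239.SF

open Crest.Agent.R239.FD (Ts Ts_apply)

variable {E : Type*} [NormedAddCommGroup E] [InnerProductSpace ℝ E] [FiniteDimensional ℝ E]

section T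

variable {v : E}

theorem T_sym (v x y : E) (s : ℝ) : ⟪Ts v s x, y⟫ = ⟪x, Ts v s y⟫ := by
  rw [Ts_apply, Ts_apply, inner_sub_left, inner_sub_right, real_inner_smul_left,
    real_inner_smul_right, real_inner_comm v x]
  ring

theorem T_norm_sq (hv : ‖v‖ = 1) (x : E) :
    ‖Ts v (1 / 2) x‖ ^ 2 = ‖x‖ ^ 2 - 3 / 4 * ⟪v, x⟫ ^ 2 := by
  rw [Ts_apply, ← real_inner_self_eq_norm_sq, inner_sub_left, inner_sub_right, inner_sub_right,
    real_inner_smul_left, real_inner_smul_right, real_inner_smul_left, real_inner_smul_right,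
    real_inner_self_eq_norm_sq, real_inner_self_eq_norm_sq, hv, real_inner_comm v x]
  ring

theorem T_norm_le (hv : ‖v‖ = 1) (x : E) : ‖Ts v (1 / 2) x‖ ≤ ‖x‖ := by
  refine le_of_sq_le_sq ?_ (norm_nonneg _)
  rw [T_norm_sq hv]
  nlinarith [sq_nonneg ⟪v, x⟫]

theorem T_sq (hv : ‖v‖ = 1) (x : E) :
    Ts v (1 / 2) (Ts v (1 / 2) x) = x - (3 / 4 * ⟪v, x⟫) • v := by
  rw [Ts_apply, Ts_apply, inner_sub_right, real_inner_smul_right, real_inner_self_eq_norm_sq, hv,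
    sub_sub, ← add_smul]
  congr 2
  ring

theorem T_adj (v : E) (s : ℝ) : (Ts v s).adjoint = Ts v s := by
  refine (ContinuousLinearMap.eq_adjoint_iff _ _).2 ?_ |>.symm
  intro x y
  exact T_sym v x y s

end T

theorem U_inner (U : E ≃ₗᵢ[ℝ] E) (x y : E) : ⟪U x, y⟫ = ⟪x, U.symm y⟫ := by
  have := U.symm.inner_map_map (U x) y
  rw [U.symm_apply_apply] at this
  exact this.symm

/-- conjugation of a positive operator -/
theorem conj_pos (U : E ≃ₗᵢ[ℝ] E) {T : E →L[ℝ] E} (hT : T.IsPositive) :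
    ((U : E →L[ℝ] E) ∘L T ∘L (U.symm : E →L[ℝ] E)).IsPositive := by
  refine ⟨fun x y => ?_, fun x => ?_⟩
  · change ⟪U (T (U.symm x)), y⟫ = ⟪x, U (T (U.symm y))⟫
    rw [U_inner, sym hT, real_inner_comm (T (U.symm y)) (U.symm x), ← U_inner, real_inner_comm]
  · rw [ContinuousLinearMap.reApplyInnerSelf_apply]
    change 0 ≤ ⟪U (T (U.symm x)), x⟫
    rw [U_inner]
    exact hT.inner_nonneg_left _

theorem o_trT : O_trT E := by
  intro β β' v hβ hβ' hv h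
  set c : E →L[ℝ] E := β ^ 4 with hc
  have pc : c.IsPositive := posP hβ.1 4
  -- the root of `T c c T`
  have hH : (Ts v (1 / 2) * (c ^ 2) * Ts v (1 / 2)).IsPositive := by
    refine ⟨fun x y => ?_, fun x => ?_⟩
    · change ⟪Ts v (1 / 2) ((c ^ 2) (Ts v (1 / 2) x)), y⟫
        = ⟪x, Ts v (1 / 2) ((c ^ 2) (Ts v (1 / 2) y))⟫
      rw [T_sym, symP pc, T_sym]
    · rw [ContinuousLinearMap.reApplyInnerSelf_apply]
      change 0 ≤ ⟪Ts v (1 / 2) ((c ^ 2) (Ts v (1 / 2) x)), x⟫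
      rw [T_sym]
      exact (posP pc 2).inner_nonneg_left _
  obtain ⟨b, pb, hb⟩ := exists_root_pow hH (k := 4) (by norm_num)
  have hb2 : ∀ x, ‖(b ^ 2) x‖ = ‖c (Ts v (1 / 2) x)‖ := by
    intro x
    have h1 : ‖(b ^ 2) x‖ ^ 2 = ‖c (Ts v (1 / 2) x)‖ ^ 2 := by
      rw [← inner_even pb 2 x, hb]
      change ⟪Ts v (1 / 2) ((c ^ 2) (Ts v (1 / 2) x)), x⟫ = _
      rw [T_sym]
      have := inner_even pc 1 (Ts v (1 / 2) x)
      rw [mul_one, pow_one] at this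
      exact this
    have := congrArg Real.sqrt h1
    rwa [Real.sqrt_sq (norm_nonneg _), Real.sqrt_sq (norm_nonneg _)] at this
  obtain ⟨U, hU⟩ := o_polar (c ∘L Ts v (1 / 2)) (b ^ 2) (fun x => (hb2 x).symm)
  have hU' : ∀ x, c (Ts v (1 / 2) x) = U ((b ^ 2) x) := hU
  -- `D = U b^2 U⁻¹`, `d = U b U⁻¹`
  set d : E →L[ℝ] E := (U : E →L[ℝ] E) ∘L b ∘L (U.symm : E →L[ℝ] E) with hd
  have pd : d.IsPositive := conj_pos U pb
  have hd2 : d ^ 2 = (U : E →L[ℝ] E) ∘L (b ^ 2) ∘L (U.symm : E →L[ℝ] E) := by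
    ext x
    rw [pow_two, pow_two]
    change U (b (U.symm (U (b (U.symm x))))) = U (b (b (U.symm x)))
    rw [U.symm_apply_apply]
  -- adjoint relation `T c = b^2 U⁻¹`
  have hadj : ∀ x, Ts v (1 / 2) (c x) = (b ^ 2) (U.symm x) := by
    intro x
    refine ext_inner_right ℝ fun y => ?_
    rw [T_sym, sym pc, hU', symP pb]
    have := U_inner U ((b ^ 2) y) x
    rw [real_inner_comm, this, real_inner_comm]
  have hdn : ∀ x, ‖(d ^ 2) x‖ = ‖Ts v (1 / 2) (c x)‖ := by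
    intro x
    rw [hd2, hadj]
    change ‖U ((b ^ 2) (U.symm x))‖ = _
    rw [U.norm_map]
  have htr : tr (b ^ 2) = tr (d ^ 2) := by rw [hd2, tr_conj]
  have htr1 : tr b = tr d := by rw [hd, tr_conj]
  have m1 : ∀ x, ⟪(β' ^ 4) x, x⟫ ≤ ⟪(b ^ 2) x, x⟫ := by
    refine o_mono _ _ (posP hβ' 4) (posP pb 2) fun x => ?_
    rw [hb2]
    exact h x
  have m2 : ∀ x, ⟪(β' ^ 2) x, x⟫ ≤ ⟪b x, x⟫ := by
    refine o_mono _ _ (posP hβ' 2) pb fun x => ?_
    refine le_of_sq_le_sq ?_ (norm_nonneg _)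
    have h1 := m1 x
    rw [inner_even hβ' 2 x] at h1
    have h2 := inner_even pb 1 x
    rw [mul_one, pow_one] at h2
    rw [h2] at h1
    exact h1
  have m3 : ∀ x, ⟪(d ^ 2) x, x⟫ ≤ ⟪c x, x⟫ := by
    refine o_mono _ _ (posP pd 2) pc fun x => ?_
    rw [hdn]
    exact T_norm_le hv _
  have m4 : ∀ x, ⟪d x, x⟫ ≤ ⟪(β ^ 2) x, x⟫ := by
    refine o_mono _ _ pd (posP hβ.1 2) fun x => ?_
    refine le_of_sq_le_sq ?_ (norm_nonneg _)
    have h1 := m3 x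
    have h2 := inner_even pd 1 x
    rw [mul_one, pow_one] at h2
    rw [h2, hc, inner_even hβ.1 2 x] at h1
    exact h1
  refine ⟨(tr_mono m2).trans (htr1.le.trans (tr_mono m4)), (tr_mono m1).trans (htr.le.trans ?_)⟩
  -- trace of `D`
  obtain ⟨e, t, ht, he⟩ := spec pc
  have h1 : tr (d ^ 2) ≤ ∑ k, t k * (1 - 3 / 8 * ⟪v, e k⟫ ^ 2) := by
    rw [tr_eq_sum e]
    refine Finset.sum_le_sum fun k _ => ?_
    have h2 : ⟪e k, (d ^ 2) (e k)⟫ ≤ ‖(d ^ 2) (e k)‖ := by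
      have := real_inner_le_norm (e k) ((d ^ 2) (e k))
      rwa [e.norm_eq_one, one_mul] at this
    refine h2.trans ?_
    rw [hdn, he, map_smul, norm_smul, Real.norm_of_nonneg (ht k)]
    refine mul_le_mul_of_nonneg_left ?_ (ht k)
    have h3 := T_norm_sq hv (e k)
    rw [e.norm_eq_one] at h3
    have h4 : ⟪v, e k⟫ ^ 2 ≤ 1 := by
      have := abs_real_inner_le_norm v (e k)
      rw [hv, e.norm_eq_one] at this
      rw [← sq_abs]
      nlinarith [abs_nonneg ⟪v, e k⟫]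
    refine le_of_sq_le_sq ?_ (by nlinarith)
    rw [h3]
    nlinarith [sq_nonneg (⟪v, e k⟫ ^ 2)]
  refine h1.trans (le_of_eq ?_)
  have h5 : tr c = ∑ k, t k := by
    rw [tr_eq_sum e]
    refine Finset.sum_congr rfl fun k _ => ?_
    rw [he, inner_smul_right, real_inner_self_eq_norm_sq, e.norm_eq_one]
    ring
  have h6 : ‖(β ^ 2) v‖ ^ 2 = ∑ k, t k * ⟪v, e k⟫ ^ 2 := by
    rw [← inner_even hβ.1 2 v]
    change ⟪c v, v⟫ = _
    rw [← e.sum_inner_mul_inner (c v) v]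
    refine Finset.sum_congr rfl fun k _ => ?_
    rw [sym pc, he, inner_smul_right, real_inner_comm (e k) v]
    ring
  rw [h5, h6, Finset.mul_sum, ← Finset.sum_sub_distrib]
  refine Finset.sum_congr rfl fun k _ => ?_
  ring

theorem o_trI : O_trI E := by
  intro β β' z hβ hβ' h
  set c : E →L[ℝ] E := β ^ 4 with hc
  set c' : E →L[ℝ] E := β' ^ 4 with hc'
  have pc : c.IsPositive := posP hβ 4
  have pc' : c'.IsPositive := posP hβ' 4
  obtain ⟨e, t, ht, he⟩ := spec pc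
  obtain ⟨f, τ, hτ, hf⟩ := spec pc'
  set P : E →L[ℝ] E := fn f fun k => (τ k)⁻¹ with hP
  have hPf : ∀ k, P (f k) = (τ k)⁻¹ • f k := fun k => fn_apply f _ k
  have pP : P.IsPositive := fn_pos f fun k => inv_nonneg.2 (hτ k)
  -- `c' P` is a contraction
  have hcP : ∀ x, ‖c' (P x)‖ ≤ ‖x‖ := by
    intro x
    refine le_of_sq_le_sq ?_ (norm_nonneg _)
    rw [← f.sum_sq_norm_inner_right (c' (P x)), ← f.sum_sq_norm_inner_right x]
    refine Finset.sum_le_sum fun k _ => ?_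
    have h1 : ⟪f k, c' (P x)⟫ = (τ k * (τ k)⁻¹) * ⟪f k, x⟫ := by
      rw [← sym pc', hf, real_inner_smul_left, ← sym pP, hPf, real_inner_smul_left]
      ring
    rw [h1, norm_mul, mul_pow]
    have h2 : ‖τ k * (τ k)⁻¹‖ ^ 2 ≤ 1 := by
      by_cases h3 : τ k = 0
      · rw [h3]; simp
      · rw [mul_inv_cancel₀ h3]; simp
    nlinarith [sq_nonneg ‖⟪f k, x⟫‖]
  have hcP' : ∀ x, ‖c (P x)‖ ≤ ‖x‖ := by
    intro x
    refine le_trans ?_ (hcP x)
    refine le_of_sq_le_sq ?_ (norm_nonneg _)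
    rw [h (P x)]
    nlinarith [sq_nonneg ⟪z, P x⟫]
  have hz : ⟪z, P z⟫ ≤ ‖z‖ := by
    refine le_trans ?_ (hcP z)
    refine le_of_sq_le_sq ?_ (norm_nonneg _)
    rw [h (P z)]
    nlinarith [sq_nonneg ‖c (P z)‖]
  have h1 : tr c' = ∑ k, (τ k)⁻¹ * (‖c (f k)‖ ^ 2 + ⟪z, f k⟫ ^ 2) := by
    rw [tr_eq_sum f]
    refine Finset.sum_congr rfl fun k _ => ?_
    rw [← h (f k), hf, inner_smul_right, real_inner_self_eq_norm_sq, norm_smul, f.norm_eq_one,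
      Real.norm_of_nonneg (hτ k)]
    by_cases h3 : τ k = 0
    · rw [h3]; simp
    · field_simp
  have h2 : ∑ k, (τ k)⁻¹ * ‖c (f k)‖ ^ 2 = tr (c * P * c) := by
    have e1 : tr (c * P * c) = tr (c * (c * P)) := tr_mul_comm _ _
    rw [e1, tr_eq_sum f]
    refine Finset.sum_congr rfl fun k _ => ?_
    change _ = ⟪f k, c (c (P (f k)))⟫
    rw [hPf, map_smul, map_smul, inner_smul_right, ← sym pc, real_inner_self_eq_norm_sq]
  have h3 : ∑ k, (τ k)⁻¹ * ⟪z, f k⟫ ^ 2 = ⟪z, P z⟫ := by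
    rw [← f.sum_inner_mul_inner z (P z)]
    refine Finset.sum_congr rfl fun k _ => ?_
    rw [← sym pP, hPf, real_inner_smul_left, real_inner_comm z (f k)]
    ring
  have h4 : tr (c * P * c) ≤ tr c := by
    rw [tr_eq_sum e, tr_eq_sum e]
    refine Finset.sum_le_sum fun k _ => ?_
    change ⟪e k, c (P (c (e k)))⟫ ≤ _
    rw [he, map_smul, map_smul, inner_smul_right, inner_smul_right, real_inner_self_eq_norm_sq,
      e.norm_eq_one]
    refine mul_le_mul_of_nonneg_left ?_ (ht k)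
    have := (real_inner_le_norm (e k) (c (P (e k)))).trans
      (mul_le_mul_of_nonneg_left (hcP' (e k)) (norm_nonneg _))
    rw [e.norm_eq_one] at this
    linarith
  rw [h1]
  simp only [mul_add]
  rw [Finset.sum_add_distrib, h2, h3]
  linarith

/-- trace of a product of positive operators, one given as a square -/
theorem tr_mul_nonneg {P A : E →L[ℝ] E} (hP : ∀ x, 0 ≤ ⟪P x, x⟫) : 0 ≤ tr (P * (A * A.adjoint)) := by
  have e1 : tr (P * (A * A.adjoint)) = tr (A.adjoint * (P * A)) := by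
    rw [← mul_assoc, tr_mul_comm]
  rw [e1, tr_eq_sum (stdOrthonormalBasis ℝ E)]
  refine Finset.sum_nonneg fun i _ => ?_
  change 0 ≤ ⟪_, A.adjoint (P (A _))⟫
  rw [ContinuousLinearMap.adjoint_inner_right, real_inner_comm]
  exact hP _

/-- `TcT ≤ c_H`, `TbT ≤ b_H` -/
theorem TcT_le {β γ : E →L[ℝ] E} {v : E} (hβ : β.IsPositive) (hγ : γ.IsPositive) (hv : ‖v‖ = 1)
    (h : ∀ x, ‖(γ ^ 4) x‖ = ‖(β ^ 4) (Ts v (1 / 2) x)‖) :
    (∀ x, ⟪(β ^ 4) (Ts v (1 / 2) x), Ts v (1 / 2) x⟫ ≤ ⟪(γ ^ 4) x, x⟫) ∧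
    (∀ x, ⟪(β ^ 2) (Ts v (1 / 2) x), Ts v (1 / 2) x⟫ ≤ ⟪(γ ^ 2) x, x⟫) := by
  have pT : ∀ k : ℕ, (Ts v (1 / 2) * β ^ k * Ts v (1 / 2)).IsPositive := by
    intro k
    refine ⟨fun x y => ?_, fun x => ?_⟩
    · change ⟪Ts v (1 / 2) ((β ^ k) (Ts v (1 / 2) x)), y⟫
        = ⟪x, Ts v (1 / 2) ((β ^ k) (Ts v (1 / 2) y))⟫
      rw [T_sym, symP hβ, T_sym]
    · rw [ContinuousLinearMap.reApplyInnerSelf_apply]
      change 0 ≤ ⟪Ts v (1 / 2) ((β ^ k) (Ts v (1 / 2) x)), x⟫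
      rw [T_sym]
      exact (posP hβ k).inner_nonneg_left _
  have m1 : ∀ x, ⟪(Ts v (1 / 2) * β ^ 4 * Ts v (1 / 2)) x, x⟫ ≤ ⟪(γ ^ 4) x, x⟫ := by
    refine o_mono _ _ (pT 4) (posP hγ 4) fun x => ?_
    rw [h]
    exact T_norm_le hv _
  have m1' : ∀ x, ⟪(β ^ 4) (Ts v (1 / 2) x), Ts v (1 / 2) x⟫ ≤ ⟪(γ ^ 4) x, x⟫ := by
    intro x
    have := m1 x
    change ⟪Ts v (1 / 2) ((β ^ 4) (Ts v (1 / 2) x)), x⟫ ≤ _ at this
    rwa [T_sym] at this
  refine ⟨m1', ?_⟩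
  have m2 : ∀ x, ⟪(Ts v (1 / 2) * β ^ 2 * Ts v (1 / 2)) x, x⟫ ≤ ⟪(γ ^ 2) x, x⟫ := by
    refine o_mono _ _ (pT 2) (posP hγ 2) fun x => ?_
    refine le_of_sq_le_sq ?_ (norm_nonneg _)
    have h1 := m1' x
    rw [inner_even hβ 2, inner_even hγ 2] at h1
    refine le_trans ?_ h1
    exact pow_le_pow_left₀ (norm_nonneg _) (T_norm_le hv _) 2
  intro x
  have := m2 x
  change ⟪Ts v (1 / 2) ((β ^ 2) (Ts v (1 / 2) x)), x⟫ ≤ _ at this
  rwa [T_sym] at this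

/-- (M4) -/
theorem tr6_T {β γ : E →L[ℝ] E} {v : E} (hβ : β.IsPositive) (hγ : γ.IsPositive) (hv : ‖v‖ = 1)
    (h : ∀ x, ‖(γ ^ 4) x‖ = ‖(β ^ 4) (Ts v (1 / 2) x)‖) :
    tr (β ^ 6) - 3 / 2 * ‖(β ^ 3) v‖ ^ 2 ≤ tr (γ ^ 6) := by
  obtain ⟨m4, m2⟩ := TcT_le hβ hγ hv h
  set T : E →L[ℝ] E := Ts v (1 / 2) with hT
  have a1 : 0 ≤ tr ((γ ^ 2 - T * β ^ 2 * T) * (γ ^ 2 * (γ ^ 2).adjoint)) := by
    refine tr_mul_nonneg fun x => ?_
    change 0 ≤ ⟪(γ ^ 2) x - T ((β ^ 2) (T x)), x⟫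
    rw [inner_sub_left, hT, T_sym]
    have := m2 x
    linarith
  have a2 : 0 ≤ tr ((γ ^ 4 - T * β ^ 4 * T) * ((T * β) * (T * β).adjoint)) := by
    refine tr_mul_nonneg fun x => ?_
    change 0 ≤ ⟪(γ ^ 4) x - T ((β ^ 4) (T x)), x⟫
    rw [inner_sub_left, hT, T_sym]
    have := m4 x
    linarith
  have e1 : (T * β).adjoint = β * T := by
    have : (T * β).adjoint = β.adjoint * T.adjoint := ContinuousLinearMap.adjoint_comp T β
    rw [this, adj hβ, hT, T_adj]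
  rw [adj (posP hγ 2), sub_mul, tr_sub] at a1
  rw [e1, sub_mul, tr_sub] at a2
  have e2 : γ ^ 2 * (γ ^ 2 * γ ^ 2) = γ ^ 6 := by rw [← pow_add, ← pow_add]
  have e3 : tr (T * β ^ 2 * T * (γ ^ 2 * γ ^ 2)) = tr (γ ^ 4 * (T * β * (β * T))) := by
    rw [tr_mul_comm, ← pow_add, pow_two β]
    simp only [mul_assoc]
  rw [e2, e3] at a1
  -- expansion
  have hT2 : T * T = 1 - (3 / 4 : ℝ) • rk v v := by
    ext x
    change T (T x) = x - (3 / 4 : ℝ) • rk v v x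
    rw [hT, T_sq hv, rk_apply, smul_smul]
  have e4 : tr (T * β ^ 4 * T * (T * β * (β * T))) = tr (β ^ 4 * (T * T) * β ^ 2 * (T * T)) := by
    have : T * β ^ 4 * T * (T * β * (β * T)) = T * (β ^ 4 * (T * T) * β ^ 2 * T) := by
      rw [pow_two β]
      simp only [mul_assoc]
    rw [this, tr_mul_comm]
    simp only [mul_assoc]
  have e5 : ∀ A : E →L[ℝ] E, tr (A * rk v v) = ⟪v, A v⟫ := by
    intro A
    have : A * rk v v = rk v (A v) := by
      ext x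
      change A (rk v v x) = rk v (A v) x
      rw [rk_apply, rk_apply, map_smul]
    rw [this, tr_rk]
  have e6 : tr (β ^ 4 * rk v v * β ^ 2) = ‖(β ^ 3) v‖ ^ 2 := by
    rw [tr_mul_comm, ← mul_assoc, ← pow_add, e5, real_inner_comm]
    exact inner_even hβ 3 v
  have e7 : tr (β ^ 4 * β ^ 2 * rk v v) = ‖(β ^ 3) v‖ ^ 2 := by
    rw [← pow_add, e5, real_inner_comm]
    exact inner_even hβ 3 v
  have e8 : 0 ≤ tr (β ^ 4 * rk v v * β ^ 2 * rk v v) := by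
    rw [e5]
    change 0 ≤ ⟪v, (β ^ 4) (rk v v ((β ^ 2) v))⟫
    rw [rk_apply, map_smul, inner_smul_right]
    refine mul_nonneg ?_ ?_
    · rw [real_inner_comm]
      exact (posP hβ 2).inner_nonneg_left _
    · rw [real_inner_comm]
      exact (posP hβ 4).inner_nonneg_left _
  have e9 : β ^ 4 * (T * T) * β ^ 2 * (T * T) = β ^ 6 - (3 / 4 : ℝ) • (β ^ 4 * rk v v * β ^ 2)
      - (3 / 4 : ℝ) • (β ^ 4 * β ^ 2 * rk v v)
      + (9 / 16 : ℝ) • (β ^ 4 * rk v v * β ^ 2 * rk v v) := by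
    rw [hT2]
    have : β ^ 6 = β ^ 4 * β ^ 2 := by rw [← pow_add]
    rw [this]
    simp only [mul_sub, sub_mul, mul_one, smul_mul_assoc, mul_smul_comm, smul_sub, smul_smul]
    norm_num
    abel
  rw [e4, e9, tr_add, tr_sub, tr_sub, tr_smul, tr_smul, tr_smul, e6, e7] at a2
  nlinarith

end Crest.Agent.R239.SF
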