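import Mathlib
import Crest.Agent.R239.SO2_404
import Crest.Agent.R239.CmpR_174
import Crest.Agent.R239.CmpF_371

/-! Soft line of R239: one level, `P_U0 P_U1 P_U2 P_ANTI P_DEC` (helper404). -/

set_option autoImplicit false
set_option linter.unusedSectionVars false
open MeasureTheory ProbabilityTheory
open scoped RealInnerProductSpace

namespace Crest.Agent.R239.SF

open Crest.Agent.R239 (gau gau_real_apply gau_ext)
open Crest.Agent.R239.FD (hs Eh S Ts Ts_apply)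

variable {E : Type*} [NormedAddCommGroup E] [InnerProductSpace ℝ E] [FiniteDimensional ℝ E]

/-! ### support functions -/

section hs

variable {K K' : Set E} {z : E} {a : ℝ}

theorem hs_le (hK : K.Nonempty) (h : ∀ x ∈ K, ⟪x, z⟫ ≤ a) : hs K z ≤ a := by
  unfold hs
  refine csSup_le (hK.image _) ?_
  rintro _ ⟨x, hx, rfl⟩
  exact h x hx

theorem le_hs (h : ∀ x ∈ K, ⟪x, z⟫ ≤ a) {x : E} (hx : x ∈ K) : ⟪x, z⟫ ≤ hs K z := by
  unfold hs
  refine le_csSup ⟨a, ?_⟩ ⟨x, hx, rfl⟩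
  rintro _ ⟨y, hy, rfl⟩
  exact h y hy

theorem hs_mono (hK : K.Nonempty) (h : ∀ x ∈ K', ⟪x, z⟫ ≤ a) (hKK : K ⊆ K') :
    hs K z ≤ hs K' z := hs_le hK fun _ hx => le_hs h (hKK hx)

theorem hs_nonneg (h : ∀ x ∈ K, ⟪x, z⟫ ≤ a) (h0 : (0 : E) ∈ K) : 0 ≤ hs K z := by
  have := le_hs h h0
  rwa [inner_zero_left] at this

theorem Eh_cons (K : Set E) (z : E) (μ : Multiset E) : Eh K (z ::ₘ μ) = hs K z + Eh K μ := by
  simp [Eh]

theorem Eh_add (K : Set E) (μ μ' : Multiset E) : Eh K (μ + μ') = Eh K μ + Eh K μ' := by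
  simp [Eh]

theorem Eh_zero (K : Set E) : Eh K 0 = 0 := by simp [Eh]

theorem Eh_le {K K' : Set E} (h : ∀ z, hs K z ≤ hs K' z) (μ : Multiset E) : Eh K μ ≤ Eh K' μ :=
  Multiset.sum_map_le_sum_map _ _ fun z _ => h z

end hs

/-! ### the cap -/

theorem T0_of_tr {β : E →L[ℝ] E} (hβ : β.IsPositive) (h : tr (β ^ 2) = 0) : β = 0 := by
  obtain ⟨b, t, ht, hb⟩ := spec hβ
  rw [tr_pow hb] at h
  have h1 := (Finset.sum_eq_zero_iff_of_nonneg fun i _ => sq_nonneg (t i)).1 h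
  refine clm_ext b fun i => ?_
  have h2 : t i = 0 := by
    have := h1 i (Finset.mem_univ i)
    exact pow_eq_zero_iff two_ne_zero |>.1 this
  rw [hb, h2]
  simp

theorem tr2_nonneg {β : E →L[ℝ] E} (hβ : β.IsPositive) (k : ℕ) : 0 ≤ tr (β ^ k) :=
  tr_nonneg (posP hβ k)

section cap

variable {rho : ℝ} {β β' : E →L[ℝ] E}

theorem cap_closed (rho : ℝ) (β : E →L[ℝ] E) : IsClosed (cap rho β) := by
  have : cap rho β = ⋂ z, {x | ⟪x, z⟫ ^ 2 ≤ rho ^ 2 * tr (β ^ 2) * ‖β z‖ ^ 2} := by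
    ext x
    simp [cap]
  rw [this]
  exact isClosed_iInter fun z => isClosed_le (by fun_prop) continuous_const

theorem cap_convex (rho : ℝ) (β : E →L[ℝ] E) : Convex ℝ (cap rho β) := by
  intro x hx y hy a b ha hb hab z
  have h1 := hx z
  have h2 := hy z
  rw [inner_add_left, real_inner_smul_left, real_inner_smul_left]
  have e : b = 1 - a := by linarith
  subst e
  nlinarith [mul_nonneg ha hb, sq_nonneg (⟪x, z⟫ - ⟪y, z⟫),
    mul_nonneg (mul_nonneg ha hb) (sq_nonneg (⟪x, z⟫ - ⟪y, z⟫)),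
    mul_le_mul_of_nonneg_left h1 ha, mul_le_mul_of_nonneg_left h2 hb]

theorem cap_symm (rho : ℝ) (β : E →L[ℝ] E) : ∀ x ∈ cap rho β, -x ∈ cap rho β := by
  intro x hx z
  rw [inner_neg_left, neg_sq]
  exact hx z

theorem cap_inner (hβ : β.IsPositive) (h0 : 0 ≤ rho) {x : E} (hx : x ∈ cap rho β) (z : E) :
    ⟪x, z⟫ ≤ rho * Real.sqrt (tr (β ^ 2)) * ‖β z‖ := by
  have h1 := hx z
  have h2 := tr2_nonneg hβ 2
  refine le_of_sq_le_sq ?_ (by positivity)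
  rw [mul_pow, mul_pow, Real.sq_sqrt h2]
  exact h1

theorem cap_mono (hβ : β.IsPositive) (hβ' : β'.IsPositive)
    (h : ∀ z, ‖β' z‖ ≤ ‖β z‖) : cap rho β' ⊆ cap rho β := by
  intro x hx z
  refine (hx z).trans ?_
  have h1 : tr (β' ^ 2) ≤ tr (β ^ 2) := by
    refine tr_mono fun x => ?_
    have e1 := inner_even hβ' 1 x
    have e2 := inner_even hβ 1 x
    rw [mul_one, pow_one] at e1 e2
    rw [e1, e2]
    exact pow_le_pow_left₀ (norm_nonneg _) (h x) 2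
  have h2 := tr2_nonneg hβ' 2
  have h3 := pow_le_pow_left₀ (norm_nonneg _) (h z) 2
  have h4 : 0 ≤ rho ^ 2 * tr (β ^ 2) := mul_nonneg (sq_nonneg _) (tr2_nonneg hβ 2)
  exact mul_le_mul (mul_le_mul_of_nonneg_left h1 (sq_nonneg _)) h3 (sq_nonneg _) h4

/-- in the noise space the cap contains an ellipsoid -/
theorem cap_of_g (hβ : β.IsPositive) {g : E} (hg : ‖(β ^ 3) g‖ ^ 2 ≤ rho ^ 2 * tr (β ^ 2)) :
    (β ^ 4) g ∈ cap rho β := by
  intro z
  have e : ⟪(β ^ 4) g, z⟫ = ⟪(β ^ 3) g, β z⟫ := by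
    rw [pow_succ']
    change ⟪β ((β ^ 3) g), z⟫ = _
    rw [sym hβ]
  rw [e]
  have h1 := abs_real_inner_le_norm ((β ^ 3) g) (β z)
  have h2 : ⟪(β ^ 3) g, β z⟫ ^ 2 ≤ (‖(β ^ 3) g‖ * ‖β z‖) ^ 2 := by
    rw [← sq_abs]
    exact pow_le_pow_left₀ (abs_nonneg _) h1 2
  rw [mul_pow] at h2
  exact h2.trans (mul_le_mul_of_nonneg_right hg (sq_nonneg _))

end cap

section gauss

variable [MeasurableSpace E] [BorelSpace E]

/-- cutting a symmetric convex set of the noise space by the ellipsoid -/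
theorem cut_g {β : E →L[ℝ] E} (hβ : β.IsPositive) {rho a : ℝ} (hr : 0 < rho) (ha0 : 0 ≤ a)
    (ha : tr (β ^ 6) ≤ a * tr (β ^ 2)) {Q : Set E} (mQ : MeasurableSet Q) (cQ : Convex ℝ Q)
    (sQ : ∀ x ∈ Q, -x ∈ Q) :
    (1 - a / rho ^ 2) * (stdGaussian E).real Q
      ≤ (stdGaussian E).real (Q ∩ {g | ‖(β ^ 3) g‖ ^ 2 ≤ rho ^ 2 * tr (β ^ 2)}) := by
  rcases (tr2_nonneg hβ 2).eq_or_lt with h0 | h0
  · have hz := T0_of_tr hβ h0.symm
    have e : Q ∩ {g | ‖(β ^ 3) g‖ ^ 2 ≤ rho ^ 2 * tr (β ^ 2)} = Q := by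
      refine Set.inter_eq_left.2 fun g _ => ?_
      change ‖(β ^ 3) g‖ ^ 2 ≤ rho ^ 2 * tr (β ^ 2)
      rw [← h0, hz]
      simp
    rw [e]
    have : 0 ≤ a / rho ^ 2 := by positivity
    nlinarith [measureReal_nonneg (μ := stdGaussian E) (s := Q)]
  · have hR : 0 < rho * Real.sqrt (tr (β ^ 2)) := mul_pos hr (Real.sqrt_pos.2 h0)
    have h1 := Dom640.cut mQ cQ sQ (β ^ 3) hR
    rw [integral_pow hβ 3, mul_pow, Real.sq_sqrt h0.le] at h1
    have e : {x : E | ‖(β ^ 3) x‖ ≤ rho * Real.sqrt (tr (β ^ 2))}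
        = {g | ‖(β ^ 3) g‖ ^ 2 ≤ rho ^ 2 * tr (β ^ 2)} := by
      ext g
      constructor
      · intro hg
        have := pow_le_pow_left₀ (norm_nonneg _) (show ‖(β ^ 3) g‖ ≤ _ from hg) 2
        rwa [mul_pow, Real.sq_sqrt h0.le] at this
      · intro hg
        refine le_of_sq_le_sq ?_ hR.le
        rw [mul_pow, Real.sq_sqrt h0.le]
        exact hg
    rw [e] at h1
    refine le_trans ?_ h1
    refine mul_le_mul_of_nonneg_right ?_ measureReal_nonneg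
    have h2 : tr (β ^ (2 * 3)) / (rho ^ 2 * tr (β ^ 2)) ≤ a / rho ^ 2 := by
      rw [div_le_div_iff₀ (by positivity) (by positivity)]
      have : tr (β ^ (2 * 3)) ≤ a * tr (β ^ 2) := ha
      nlinarith [mul_le_mul_of_nonneg_right this (sq_nonneg rho)]
    linarith

theorem tr6_le_one {β : E →L[ℝ] E} (hβ : PC β) : tr (β ^ 6) ≤ 1 * tr (β ^ 2) := by
  rw [one_mul]
  exact tr_pow_le hβ (by norm_num)

theorem gau_cap_ge {β : E →L[ℝ] E} (hβ : β.IsPositive) {rho a : ℝ} (hr : 0 < rho) (ha0 : 0 ≤ a)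
    (ha : tr (β ^ 6) ≤ a * tr (β ^ 2)) : 1 - a / rho ^ 2 ≤ (gau (β ^ 4)).real (cap rho β) := by
  have h1 := cut_g hβ hr ha0 ha MeasurableSet.univ convex_univ (fun _ _ => Set.mem_univ _)
  rw [probReal_univ, mul_one] at h1
  refine h1.trans ?_
  rw [gau_real_apply _ (cap_closed rho β).measurableSet]
  exact measureReal_mono fun g hg => cap_of_g hβ hg.2

instance (A : E →L[ℝ] E) : IsProbabilityMeasure (gau A) := by
  unfold Crest.Agent.R239.gau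
  exact Measure.isProbabilityMeasure_map A.continuous.measurable.aemeasurable

/-! ### admissible bodies -/

theorem Adm.nonempty {rho : ℝ} {β : E →L[ℝ] E} {K : Set E} (h : Adm rho β K) : K.Nonempty := by
  by_contra h1
  rw [Set.not_nonempty_iff_eq_empty] at h1
  have := h.2.2.2.2
  rw [h1, measureReal_empty] at this
  exact lt_irrefl _ this

theorem Adm.zero_mem {rho : ℝ} {β : E →L[ℝ] E} {K : Set E} (h : Adm rho β K) : (0 : E) ∈ K := by
  obtain ⟨x, hx⟩ := h.nonempty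
  have h1 := h.2.1 hx (h.2.2.1 x hx) (by norm_num : (0 : ℝ) ≤ 1 / 2) (by norm_num : (0 : ℝ) ≤ 1 / 2)
    (by norm_num)
  simpa using h1

theorem Adm.inner_le {rho : ℝ} {β : E →L[ℝ] E} {K : Set E} (h : Adm rho β K) (hr : 0 ≤ rho)
    (hβ : β.IsPositive) (z : E) : ∀ x ∈ K, ⟪x, z⟫ ≤ rho * Real.sqrt (tr (β ^ 2)) * ‖β z‖ :=
  fun _ hx => cap_inner hβ hr (h.2.2.2.1 hx) z

theorem Adm.Eh_nonneg {rho : ℝ} {β : E →L[ℝ] E} {K : Set E} (h : Adm rho β K) (hr : 0 ≤ rho)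
    (hβ : β.IsPositive) (μ : Multiset E) : 0 ≤ Eh K μ := by
  refine Multiset.sum_nonneg fun a ha => ?_
  obtain ⟨z, _, rfl⟩ := Multiset.mem_map.1 ha
  exact hs_nonneg (h.inner_le hr hβ z) h.zero_mem

theorem val_nonneg {rho lam : ℝ} {β : E →L[ℝ] E} {K : Set E} (h : Adm rho β K) (hr : 0 ≤ rho)
    (hl : 0 ≤ lam) (hβ : β.IsPositive) (μ : Multiset E) : 0 ≤ val lam β μ K := by
  unfold val
  have h1 := h.Eh_nonneg hr hβ μ
  have h2 : Real.log ((gau (β ^ 4)).real K) ≤ 0 :=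
    Real.log_nonpos measureReal_nonneg measureReal_le_one
  nlinarith

theorem D_bdd {rho lam : ℝ} {β : E →L[ℝ] E} (hr : 0 ≤ rho) (hl : 0 ≤ lam) (hβ : β.IsPositive)
    (μ : Multiset E) : BddBelow (val lam β μ '' {K | Adm rho β K}) := by
  refine ⟨0, ?_⟩
  rintro _ ⟨K, hK, rfl⟩
  exact val_nonneg hK hr hl hβ μ

theorem D_le {rho lam : ℝ} {β : E →L[ℝ] E} (hr : 0 ≤ rho) (hl : 0 ≤ lam) (hβ : β.IsPositive)
    (μ : Multiset E) {K : Set E} (hK : Adm rho β K) : D rho lam β μ ≤ val lam β μ K :=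
  csInf_le (D_bdd hr hl hβ μ) ⟨K, hK, rfl⟩

theorem adm_cap {rho : ℝ} {β : E →L[ℝ] E} (hr : 2 ≤ rho) (hβ : PC β) :
    Adm rho β (cap rho β) := by
  refine ⟨cap_closed _ _, cap_convex _ _, cap_symm _ _, subset_rfl, ?_⟩
  have h1 := gau_cap_ge hβ.1 (by linarith : 0 < rho) zero_le_one (tr6_le_one hβ)
  have h2 : 1 / rho ^ 2 ≤ 1 / 4 := by
    apply one_div_le_one_div_of_le (by norm_num)
    nlinarith
  linarith

theorem D_nonempty {rho lam : ℝ} {β : E →L[ℝ] E} (hr : 2 ≤ rho) (hβ : PC β)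
    (μ : Multiset E) : (val lam β μ '' {K | Adm rho β K}).Nonempty :=
  ⟨_, cap rho β, adm_cap hr hβ, rfl⟩

theorem D_nonneg {rho lam : ℝ} {β : E →L[ℝ] E} (hr : 0 ≤ rho) (hl : 0 ≤ lam) (hβ : β.IsPositive)
    (μ : Multiset E) : 0 ≤ D rho lam β μ := by
  unfold D
  refine Real.sInf_nonneg ?_
  rintro _ ⟨K, hK, rfl⟩
  exact val_nonneg hK hr hl hβ μ

theorem le_D {rho lam a : ℝ} {β : E →L[ℝ] E} (hr : 2 ≤ rho) (hβ : PC β)
    {μ : Multiset E} (h : ∀ K, Adm rho β K → a ≤ val lam β μ K) : a ≤ D rho lam β μ := by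
  refine le_csInf (D_nonempty hr hβ μ) ?_
  rintro _ ⟨K, hK, rfl⟩
  exact h K hK

theorem log_one_sub {x : ℝ} (h0 : 0 ≤ x) (h1 : x ≤ 1 / 2) : -(2 * x) ≤ Real.log (1 - x) := by
  have h2 := Real.one_sub_inv_le_log_of_pos (x := 1 - x) (by linarith)
  refine le_trans ?_ h2
  have h3 : (1 - x)⁻¹ ≤ 1 + 2 * x := by
    rw [inv_le_comm₀ (by linarith) (by linarith), inv_le_comm₀ (by linarith) (by linarith)]
    rw [inv_le_iff_one_le_mul₀ (by linarith)]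
    nlinarith
  linarith

theorem p_U0 : P_U0 E := by
  intro rho lam β hr hl hβ
  have h1 := adm_cap hr hβ
  refine (D_le (by linarith) hl hβ.1 0 h1).trans ?_
  unfold val
  rw [Eh_zero, zero_sub]
  set a := min 1 (tr (β ^ 4)) with ha
  have ha0 : 0 ≤ a := le_min zero_le_one (tr2_nonneg hβ.1 4)
  have ha1 : a ≤ 1 := min_le_left _ _
  have ha4 : a ≤ tr (β ^ 4) := min_le_right _ _
  have h2 : tr (β ^ 6) ≤ a * tr (β ^ 2) := by
    have := tr2_nonneg hβ.1 2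
    rcases min_choice (1 : ℝ) (tr (β ^ 4)) with h | h
    · rw [ha, h]; exact tr6_le_one hβ
    · rw [ha, h]; exact tr6_le hβ.1
  have h3 := gau_cap_ge hβ.1 (by linarith : 0 < rho) ha0 h2
  have h4 : a / rho ^ 2 ≤ 1 / 4 := by
    rw [div_le_iff₀ (by positivity)]
    nlinarith
  have h5 : 0 ≤ a / rho ^ 2 := by positivity
  have h6 := log_one_sub h5 (by linarith)
  have h7 : Real.log (1 - a / rho ^ 2) ≤ Real.log ((gau (β ^ 4)).real (cap rho β)) :=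
    Real.log_le_log (by linarith) h3
  have h8 : a / rho ^ 2 ≤ tr (β ^ 4) / rho ^ 2 := by gcongr
  have h9 : -Real.log ((gau (β ^ 4)).real (cap rho β)) ≤ 2 / rho ^ 2 * tr (β ^ 4) := by
    have : 2 / rho ^ 2 * tr (β ^ 4) = 2 * (tr (β ^ 4) / rho ^ 2) := by ring
    rw [this]
    linarith
  nlinarith

theorem Eh_split {rho : ℝ} {β : E →L[ℝ] E} {K : Set E} (h : Adm rho β K) (hr : 0 ≤ rho)
    (hβ : β.IsPositive) (s : Multiset (E × E)) : Eh K (mrg s) ≤ Eh K (spl s) := by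
  unfold mrg spl
  rw [Eh_add]
  unfold Eh
  rw [Multiset.map_map, Multiset.map_map, Multiset.map_map, ← Multiset.sum_map_add]
  refine Multiset.sum_map_le_sum_map _ _ fun q _ => ?_
  change hs K (q.1 + q.2) ≤ hs K q.1 + hs K q.2
  refine hs_le h.nonempty fun x hx => ?_
  rw [inner_add_right]
  exact add_le_add (le_hs (h.inner_le hr hβ _) hx) (le_hs (h.inner_le hr hβ _) hx)

theorem p_U1 : P_U1 E := by
  intro rho lam β s hr hl hβ
  refine le_D hr hβ fun K hK => ?_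
  refine (D_le (by linarith) hl hβ.1 _ hK).trans ?_
  unfold val
  have := Eh_split hK (by linarith) hβ.1 s
  linarith

theorem p_U2 : P_U2 E := by
  intro rho lam β z μ hr hl hβ
  rw [← sub_le_iff_le_add]
  refine le_D hr hβ fun K hK => ?_
  have h1 := D_le (by linarith) hl hβ.1 (z ::ₘ μ) hK
  unfold val at *
  rw [Eh_cons] at h1
  have h2 : hs K z ≤ rho * Real.sqrt (tr (β ^ 2)) * ‖β z‖ :=
    hs_le hK.nonempty (hK.inner_le (by linarith) hβ.1 z)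
  linarith

/-- restriction of an admissible body -/
theorem val_cut {rho lam a : ℝ} {β β' : E →L[ℝ] E} (hr : 2 ≤ rho) (hl : 0 ≤ lam)
    (_hβ : β.IsPositive) (hβ' : β'.IsPositive) {K K' : Set E} (μ : Multiset E) (hK : Adm rho β K)
    (hK' : Adm rho β' K') (hKK : K ⊆ K')
    (h : Real.exp (-a) * (gau (β' ^ 4)).real K' ≤ (gau (β ^ 4)).real K) :
    val lam β μ K ≤ val lam β' μ K' + lam * a := by
  unfold val
  have h1 : Eh K μ ≤ Eh K' μ := Eh_le (fun z => hs_mono hK.nonempty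
    (hK'.inner_le (by linarith) hβ' z) hKK) μ
  have h2 := Real.log_le_log (mul_pos (Real.exp_pos _) hK'.2.2.2.2) h
  rw [Real.log_mul (Real.exp_pos _).ne' hK'.2.2.2.2.ne', Real.log_exp] at h2
  nlinarith

theorem adjP {β : E →L[ℝ] E} (h : β.IsPositive) (k : ℕ) (x : E) : (β ^ k).adjoint x = (β ^ k) x := by
  rw [adj (posP h k)]

theorem p_ANTI : P_ANTI E := by
  intro rho lam β β' μ hr hl hβ hβ' h
  have hr0 : 0 < rho := by linarith
  rw [← sub_le_iff_le_add]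
  refine le_D hr hβ' fun K' hK' => ?_
  rw [sub_le_iff_le_add]
  have m1 : (gau (β' ^ 4)).real K' ≤ (gau (β ^ 4)).real K' := by
    have := CmpR174.gau_mono_sym (S := β ^ 4) (C := β' ^ 4)
      (fun t => by rw [adjP hβ.1, adjP hβ'.1]; exact h t) hK'.1.measurableSet hK'.2.1 hK'.2.2.1
    exact ENNReal.toReal_mono (measure_ne_top _ _) this
  have m2 : (1 - 1 / rho ^ 2) * (gau (β ^ 4)).real K'
      ≤ (gau (β ^ 4)).real (K' ∩ cap rho β) := by
    rw [gau_real_apply _ hK'.1.measurableSet,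
      gau_real_apply _ (hK'.1.measurableSet.inter (cap_closed rho β).measurableSet)]
    refine (cut_g hβ.1 hr0 zero_le_one (tr6_le_one hβ) (Dom640.pre_meas _ hK'.1.measurableSet)
      (Dom640.pre_conv _ hK'.2.1) (Dom640.pre_symm _ hK'.2.2.1)).trans ?_
    exact measureReal_mono fun g hg => ⟨hg.1, cap_of_g hβ.1 hg.2⟩
  have h2 : 1 / rho ^ 2 ≤ 1 / 4 := by
    apply one_div_le_one_div_of_le (by norm_num)
    nlinarith
  have h3 : 0 < 1 / rho ^ 2 := by positivity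
  have h4 : Real.exp (-(2 / rho ^ 2)) ≤ 1 - 1 / rho ^ 2 := by
    have h5 := log_one_sub h3.le (by linarith)
    rw [← Real.exp_log (by linarith : 0 < 1 - 1 / rho ^ 2)]
    refine Real.exp_le_exp.2 ?_
    have : 2 / rho ^ 2 = 2 * (1 / rho ^ 2) := by ring
    rw [this]
    exact h5
  have h6 : Real.exp (-(2 / rho ^ 2)) * (gau (β' ^ 4)).real K'
      ≤ (gau (β ^ 4)).real (K' ∩ cap rho β) := by
    refine le_trans ?_ m2
    exact mul_le_mul h4 m1 measureReal_nonneg (by linarith)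
  have hA : Adm rho β (K' ∩ cap rho β) := by
    refine ⟨hK'.1.inter (cap_closed _ _), hK'.2.1.inter (cap_convex _ _), fun x hx =>
      ⟨hK'.2.2.1 x hx.1, cap_symm _ _ x hx.2⟩, Set.inter_subset_right, ?_⟩
    exact lt_of_lt_of_le (mul_pos (Real.exp_pos _) hK'.2.2.2.2) h6
  refine (D_le hr0.le hl hβ.1 μ hA).trans ?_
  exact val_cut hr hl hβ.1 hβ'.1 μ hA hK' Set.inter_subset_left h6

/-- `Z R = C`, `|R x| ≥ |x|` ⟹ `|Z† t| ≤ |C† t|` -/
theorem adj_le {Z R C : E →L[ℝ] E} (hR : ∀ x, ‖x‖ ≤ ‖R x‖) (h : Z ∘L R = C) (t : E) :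
    ‖Z.adjoint t‖ ≤ ‖C.adjoint t‖ := by
  have hinj : Function.Injective (R : E →ₗ[ℝ] E) := by
    rw [← LinearMap.ker_eq_bot, LinearMap.ker_eq_bot']
    intro x hx
    have h1 := hR x
    have h2 : R x = 0 := hx
    rw [h2, norm_zero] at h1
    exact norm_le_zero_iff.1 h1
  have hsur : Function.Surjective (R : E →ₗ[ℝ] E) := LinearMap.injective_iff_surjective.1 hinj
  obtain ⟨x, hx⟩ := hsur (Z.adjoint t)
  have hx' : R x = Z.adjoint t := hx
  have h1 : ‖Z.adjoint t‖ ^ 2 = ⟪x, C.adjoint t⟫ := by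
    rw [ContinuousLinearMap.adjoint_inner_right, ← h]
    change _ = ⟪Z (R x), t⟫
    rw [← ContinuousLinearMap.adjoint_inner_right, ← hx', real_inner_self_eq_norm_sq]
  have h2 : ‖Z.adjoint t‖ ^ 2 ≤ ‖Z.adjoint t‖ * ‖C.adjoint t‖ := by
    rw [h1]
    refine (real_inner_le_norm _ _).trans (mul_le_mul_of_nonneg_right ?_ (norm_nonneg _))
    rw [← hx']
    exact hR x
  rcases (norm_nonneg (Z.adjoint t)).eq_or_lt with h3 | h3
  · rw [← h3]; positivity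
  · rw [pow_two] at h2
    exact le_of_mul_le_mul_left h2 h3

/-- Gaussian mean of a positive form -/
theorem integral_form {A : E →L[ℝ] E} (h : A.IsPositive) :
    ∫ g, ⟪A g, g⟫ ∂(stdGaussian E) = tr A := by
  obtain ⟨B, hB, hBA⟩ := exists_root_pow h two_ne_zero
  have e : ∀ g, ⟪A g, g⟫ = ‖(B ^ 1) g‖ ^ 2 := by
    intro g
    rw [← hBA, ← inner_even hB 1 g]
  simp only [e]
  rw [integral_pow hB 1, ← hBA]

/-- monotone chain of roots -/
theorem root_chain {β β' : E →L[ℝ] E} (hβ : β.IsPositive) (hβ' : β'.IsPositive)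
    (h : ∀ x, ‖(β' ^ 4) x‖ ≤ ‖(β ^ 4) x‖) :
    (∀ x, ‖(β' ^ 2) x‖ ≤ ‖(β ^ 2) x‖) ∧ ∀ x, ‖β' x‖ ≤ ‖β x‖ := by
  have h1 := o_mono _ _ (posP hβ' 4) (posP hβ 4) h
  have h2 : ∀ x, ‖(β' ^ 2) x‖ ≤ ‖(β ^ 2) x‖ := by
    intro x
    refine le_of_sq_le_sq ?_ (norm_nonneg _)
    rw [← inner_even hβ' 2, ← inner_even hβ 2]
    exact h1 x
  refine ⟨h2, fun x => ?_⟩
  have h3 := o_mono _ _ (posP hβ' 2) (posP hβ 2) h2 x
  have e1 := inner_even hβ' 1 x
  have e2 := inner_even hβ 1 x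
  rw [mul_one, pow_one] at e1 e2
  rw [e1, e2] at h3
  exact le_of_sq_le_sq h3 (norm_nonneg _)

/-- comparison of the Gaussian measures in the `Z R = C` situation -/
theorem gau_ZR {β β' r Z R C : E →L[ℝ] E} (hβ : β.IsPositive) (hβ' : β'.IsPositive)
    (hr : r.IsPositive) (hR : ∀ x, ‖R x‖ ^ 2 = ‖x‖ ^ 2 + ⟪r ((β ^ 4) x), (β ^ 4) x⟫)
    (hZR : Z ∘L R = C) (hZ : ∀ t, ‖Z.adjoint t‖ = ‖(β' ^ 4) t‖) {K : Set E} (hK : IsClosed K)
    (cK : Convex ℝ K) (sK : ∀ x ∈ K, -x ∈ K) :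
    Real.exp (-(tr (β ^ 4 * r * β ^ 4) / 2)) * (gau (β' ^ 4)).real K ≤ (gau C).real K := by
  have hp : (β ^ 4 * r * β ^ 4).IsPositive := by
    refine ⟨fun x y => ?_, fun x => ?_⟩
    · change ⟪(β ^ 4) (r ((β ^ 4) x)), y⟫ = ⟪x, (β ^ 4) (r ((β ^ 4) y))⟫
      rw [symP hβ, sym hr, symP hβ]
    · rw [ContinuousLinearMap.reApplyInnerSelf_apply]
      change 0 ≤ ⟪(β ^ 4) (r ((β ^ 4) x)), x⟫
      rw [symP hβ]
      exact hr.inner_nonneg_left _
  have e1 : gau (β' ^ 4) = gau Z := gau_ext fun t => by rw [adjP hβ', hZ]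
  have h1 := CmpF371.p_cmp R (β ^ 4 * r * β ^ 4) hp (fun g => by
    rw [hR]
    change _ ≤ ‖g‖ ^ 2 + ⟪(β ^ 4) (r ((β ^ 4) g)), g⟫
    rw [symP hβ]) (Z ⁻¹' K) (hK.preimage Z.continuous) (Dom640.pre_conv _ cK)
    (Dom640.pre_symm _ sK)
  rw [integral_form hp] at h1
  rw [e1, gau_real_apply _ hK.measurableSet, gau_real_apply _ hK.measurableSet, ← hZR]
  rw [neg_div] at h1
  exact h1

theorem p_DEC : P_DEC E := by
  intro rho lam β β' r Z R μ hr hl hβ hβ' hrp hR hZR hZ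
  have hr0 : 0 < rho := by linarith
  have hRn : ∀ x, ‖x‖ ≤ ‖R x‖ := by
    intro x
    refine le_of_sq_le_sq ?_ (norm_nonneg _)
    rw [hR]
    have := hrp.inner_nonneg_left ((β ^ 4) x)
    linarith
  have h4 : ∀ x, ‖(β' ^ 4) x‖ ≤ ‖(β ^ 4) x‖ := by
    intro x
    rw [← hZ, ← adjP hβ.1 4]
    exact adj_le hRn hZR x
  obtain ⟨_, h1⟩ := root_chain hβ.1 hβ'.1 h4
  have hcap : cap rho β' ⊆ cap rho β := cap_mono hβ.1 hβ'.1 h1
  rw [← sub_le_iff_le_add]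
  refine le_D hr hβ' fun K' hK' => ?_
  rw [sub_le_iff_le_add]
  have hg := gau_ZR hβ.1 hβ'.1 hrp hR hZR hZ hK'.1 hK'.2.1 hK'.2.2.1
  have hA : Adm rho β K' := ⟨hK'.1, hK'.2.1, hK'.2.2.1, hK'.2.2.2.1.trans hcap,
    lt_of_lt_of_le (mul_pos (Real.exp_pos _) hK'.2.2.2.2) hg⟩
  refine (D_le hr0.le hl hβ.1 μ hA).trans ?_
  exact val_cut hr hl hβ.1 hβ'.1 μ hA hK' subset_rfl hg

end gauss

end Crest.Agent.R239.SF
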