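import Crest.Agent.R239.Sq_911
import Crest.Agent.R239.Dom_640

/-! `P_SHIFT` of `FDef` (helper911): quadratic shift lemma for the standard Gaussian. -/

set_option autoImplicit false
set_option linter.unusedSectionVars false

open MeasureTheory ProbabilityTheory Set
open scoped RealInnerProductSpace ENNReal NNReal

namespace Crest.Agent.R239.ShiftF911

open Crest.Agent.R239 Crest.Agent.R239.Sq911

variable {E : Type*} [NormedAddCommGroup E] [InnerProductSpace ℝ E] [FiniteDimensional ℝ E]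
  [MeasurableSpace E] [BorelSpace E]

lemma exp_le (x : ℝ) (hx : 0 < x) : Real.exp (-x) ≤ 2 / x ^ 2 := by
  rw [Real.exp_neg, inv_eq_one_div, div_le_div_iff₀ (Real.exp_pos _) (by positivity)]
  nlinarith [Real.quadratic_le_exp_of_nonneg hx.le]

/-- fourth moment tail of a linear functional -/
lemma tail4 (a : E) (ha : a ≠ 0) {r : ℝ} (hr : 0 < r) :
    (stdGaussian E).real {x | r < |⟪a, x⟫|} ≤ 48 * (‖a‖ / r) ^ 4 := by
  have hn : 0 < ‖a‖ := norm_pos_iff.2 ha
  set n : E := ‖a‖⁻¹ • a with hnn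
  have hn1 : ‖n‖ = 1 := by
    rw [hnn, norm_smul, norm_inv, norm_norm, inv_mul_cancel₀ hn.ne']
  have hmap : (stdGaussian E).map (fun x => ⟪n, x⟫) = stdGaussian ℝ := by
    have h := gau_map_inner (ContinuousLinearMap.id ℝ E) n
    rw [gau_id] at h
    rw [h, stdGaussian_real]
    congr 1
    simp [ContinuousLinearMap.adjoint_id, hn1]
    ext
    simp [hn1]
  have hm : Measurable fun x : E => ⟪n, x⟫ := by fun_prop
  have h1 : (stdGaussian E).real {x | r < |⟪a, x⟫|} ≤ (stdGaussian ℝ).real {t | r / ‖a‖ ≤ ‖t‖} := by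
    rw [← hmap, map_measureReal_apply hm (measurableSet_le measurable_const measurable_norm)]
    refine measureReal_mono ?_
    intro x hx
    simp only [mem_ofPred_eq, mem_preimage, hnn, inner_smul_left, Real.norm_eq_abs] at hx ⊢
    simp only [conj_trivial, abs_mul, abs_inv, abs_norm]
    rw [div_le_iff₀ hn]
    field_simp
    exact hx.le
  refine h1.trans ((norm_tail' (by positivity)).trans ?_)
  have h2 := exp_le ((r / ‖a‖) ^ 2 / 4) (by positivity)
  have h3 : (2 : ℝ) ^ ((Module.finrank ℝ ℝ : ℝ) / 2) ≤ 3 / 2 := by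
    rw [Module.finrank_self, Nat.cast_one, ← Real.sqrt_eq_rpow]
    rw [Real.sqrt_le_left (by norm_num)]
    norm_num
  have h4 : 2 / ((r / ‖a‖) ^ 2 / 4) ^ 2 = 32 * (‖a‖ / r) ^ 4 := by
    field_simp
    norm_num
  rw [h4] at h2
  calc _ ≤ 3 / 2 * (32 * (‖a‖ / r) ^ 4) :=
        mul_le_mul h3 h2 (Real.exp_pos _).le (by norm_num)
    _ = _ := by ring

lemma pls_std : PLs (stdGaussian E) := by
  intro A B C t hA hB hC ht0 ht1 h
  exact Dom640.pr_real ht0 ht1 hA hB hC h

theorem p_shift (X : E →L[ℝ] E) (a : E) (R : ℝ) (Q : Set E) (hR : 0 < R) (hQc : IsClosed Q)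
    (cQ : Convex ℝ Q) (sQ : ∀ x ∈ Q, -x ∈ Q) (hXR : ∀ x ∈ Q, ‖X x‖ ≤ R)
    (hhalf : (stdGaussian E).real Q ≤ 2 * (stdGaussian E).real (Q ∩ {x | ‖X x‖ ≤ R / 2})) :
    (stdGaussian E).real (Q ∩ {x | R ^ 2 < ‖X x‖ ^ 2 + ⟪a, x⟫ ^ 2})
      ≤ 144000 * (‖a‖ ^ 2 / R ^ 2) * (stdGaussian E).real Q := by
  have hmQ : MeasurableSet Q := hQc.measurableSet
  by_cases ha : a = 0
  · have he : Q ∩ {x | R ^ 2 < ‖X x‖ ^ 2 + ⟪a, x⟫ ^ 2} = ∅ := by
      ext x
      simp only [mem_inter_iff, mem_ofPred_eq, mem_empty_iff_false, iff_false, not_and, not_lt, ha,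
        inner_zero_left]
      intro hx
      have := pow_le_pow_left₀ (norm_nonneg _) (hXR x hx) 2
      linarith
    rw [he]
    simp [ha]
  have hn : 0 < ‖a‖ := norm_pos_iff.2 ha
  have D : Dat (stdGaussian E) Q (fun x => ‖X x‖) R :=
    { pl := pls_std
      neg := by
        intro A hA
        rw [← map_measureReal_apply measurable_neg hA, Dom640.map_neg_std]
      Qm := hmQ
      Qc := cQ
      Qs := sQ
      Qfin := measure_ne_top _ _
      rm := by fun_prop
      rc := by
        intro p q t ht0 ht1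
        simp only [map_add, map_smul]
        refine (norm_add_le _ _).trans ?_
        rw [norm_smul, norm_smul, Real.norm_of_nonneg ht0, Real.norm_of_nonneg (by linarith)]
      r0 := fun x => norm_nonneg _
      rs := fun x => by simp
      rR := hXR
      R0 := hR
      half := hhalf }
  have key := shift_sq D (innerSL ℝ a).toLinearMap (by
      show Measurable fun x => ⟪a, x⟫
      fun_prop) (s := 6 * ‖a‖) (by positivity) (by
      intro w hw
      have h1 : Q ∩ {x | w ≤ |(innerSL ℝ a).toLinearMap x|} ⊆ Q ∩ {x | w / 2 < |⟪a, x⟫|} := by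
        rintro x ⟨hx, h2⟩
        refine ⟨hx, ?_⟩
        simp only [mem_ofPred_eq] at h2 ⊢
        have h3 : (innerSL ℝ a).toLinearMap x = ⟪a, x⟫ := rfl
        rw [h3] at h2
        linarith
      refine (measureReal_mono h1).trans ((Dom640.dom_tail_real hmQ cQ sQ a (w / 2)).trans ?_)
      rw [mul_comm]
      refine mul_le_mul_of_nonneg_right ?_ measureReal_nonneg
      refine (tail4 a ha (by positivity)).trans ?_
      have h5 : 48 * (‖a‖ / (w / 2)) ^ 4 = 768 * (‖a‖ / w) ^ 4 := by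
        rw [show ‖a‖ / (w / 2) = 2 * (‖a‖ / w) by field_simp]; ring
      have h6 : (6 * ‖a‖ / w) ^ 4 = 1296 * (‖a‖ / w) ^ 4 := by
        rw [mul_div_assoc]; ring
      rw [h5, h6]
      have : 0 ≤ (‖a‖ / w) ^ 4 := by positivity
      linarith)
  refine key.trans (le_of_eq ?_)
  ring

end Crest.Agent.R239.ShiftF911
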