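import Mathlib
import Crest.Agent.Lib.PrekopaLeindler

/-!
# R239, block L5 (helper147): the SHIFT LEMMA B4 of doc 2388

`shift_core` : finite symmetric log-concave measure `ν` on a real vector space `F`,
`X : F → E` linear with `‖X‖ ≤ R` `ν`-a.e., `ν univ ≤ 2 ν {‖X‖ ≤ R/2}`, `y` linear functional
with `∫ y² dν ≤ σ² ν univ`, `‖e‖ ≤ 1`.  Then `ν {‖X + y e‖ > R} ≤ 700 (σ/R) ν univ`.
-/

set_option autoImplicit false
set_option linter.unusedSectionVars false
open MeasureTheory Set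
open scoped ENNReal NNReal Pointwise

namespace Crest.Agent.R239.Shift147

open Crest.Agent.Lib.PrekopaLeindler

/-- log-concavity of a measure (set form of Prékopa–Leindler) -/
def PLset {F : Type*} [AddCommGroup F] [Module ℝ F] [MeasurableSpace F] (ν : Measure F) : Prop :=
  ∀ t : ℝ, 0 < t → t < 1 → ∀ A B C : Set F, MeasurableSet A → MeasurableSet B → MeasurableSet C →
    (∀ a ∈ A, ∀ b ∈ B, (1 - t) • a + t • b ∈ C) → ν A ^ (1 - t) * ν B ^ t ≤ ν C

/-- symmetric measure -/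
def Sym {F : Type*} [AddCommGroup F] [MeasurableSpace F] (ν : Measure F) : Prop :=
  ∀ A : Set F, MeasurableSet A → ν (-A) = ν A

section core

variable {F : Type*} [AddCommGroup F] [Module ℝ F] [MeasurableSpace F]

lemma PLset.real {ν : Measure F} [IsFiniteMeasure ν] (h : PLset ν) {t : ℝ} (ht0 : 0 < t)
    (ht1 : t < 1) {A B C : Set F} (hA : MeasurableSet A) (hB : MeasurableSet B)
    (hC : MeasurableSet C) (H : ∀ a ∈ A, ∀ b ∈ B, (1 - t) • a + t • b ∈ C) :
    ν.real A ^ (1 - t) * ν.real B ^ t ≤ ν.real C := by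
  have := h t ht0 ht1 A B C hA hB hC H
  have h2 := ENNReal.toReal_mono (measure_ne_top ν C) this
  rwa [ENNReal.toReal_mul, ← ENNReal.toReal_rpow, ← ENNReal.toReal_rpow] at h2

lemma Sym.real {ν : Measure F} (h : Sym ν) {A : Set F} (hA : MeasurableSet A) :
    ν.real (-A) = ν.real A := by
  simp only [Measure.real, h A hA]

variable {ν : Measure F} [IsFiniteMeasure ν] {y : F →ₗ[ℝ] ℝ}

/-- the mass of a strip decreases away from the origin -/
lemma strip_mono (hν : PLset ν) (hs : Sym ν) (hy : Measurable y) {a b h : ℝ} (ha : 0 ≤ a)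
    (hab : a ≤ b) (hh : 0 < h) :
    ν.real {x | b ≤ y x ∧ y x < b + h} ≤ ν.real {x | a ≤ y x ∧ y x < a + h} := by
  rcases eq_or_lt_of_le hab with rfl | hab
  · exact le_rfl
  set A : Set F := {x | b ≤ y x ∧ y x < b + h} with hA
  have hAm : MeasurableSet A :=
    (measurableSet_le measurable_const hy).inter (measurableSet_lt hy measurable_const)
  have hBm : MeasurableSet (-A) := by
    have : -A = {x | b ≤ -(y x) ∧ -(y x) < b + h} := by
      ext x; simp [hA]
    rw [this]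
    exact (measurableSet_le measurable_const hy.neg).inter (measurableSet_lt hy.neg measurable_const)
  have hCm : MeasurableSet {x | a ≤ y x ∧ y x < a + h} :=
    (measurableSet_le measurable_const hy).inter (measurableSet_lt hy measurable_const)
  set t : ℝ := (b - a) / (2 * b + h) with ht
  have hd : 0 < 2 * b + h := by linarith
  have ht0 : 0 < t := div_pos (by linarith) hd
  have ht1 : t < 1 := by rw [ht, div_lt_one hd]; linarith
  have htm : t * (2 * b + h) = b - a := div_mul_cancel₀ _ hd.ne'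
  have key := hν.real ht0 ht1 hAm hBm hCm (by
    intro u hu v hv
    have hv' : b ≤ -(y v) ∧ -(y v) < b + h := by simpa [hA] using hv
    have hu' : b ≤ y u ∧ y u < b + h := hu
    have e : y ((1 - t) • u + t • v) = (1 - t) * y u + t * y v := by simp
    show a ≤ y ((1 - t) • u + t • v) ∧ y ((1 - t) • u + t • v) < a + h
    rw [e]
    constructor
    · nlinarith [mul_nonneg (by linarith : (0:ℝ) ≤ 1 - t) (sub_nonneg.2 hu'.1),
        mul_nonneg ht0.le (by linarith [hv'.2] : (0:ℝ) ≤ b + h + y v)]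
    · nlinarith [mul_pos (by linarith : (0:ℝ) < 1 - t) (sub_pos.2 hu'.2),
        mul_nonneg ht0.le (by linarith [hv'.1] : (0:ℝ) ≤ -(y v) - b)])
  rw [hs.real hAm] at key
  calc ν.real A = ν.real A ^ ((1 - t) + t) := by rw [sub_add_cancel, Real.rpow_one]
    _ = ν.real A ^ (1 - t) * ν.real A ^ t := by
        rcases eq_or_lt_of_le (measureReal_nonneg (μ := ν) (s := A)) with h0 | h0
        · rw [← h0, sub_add_cancel, Real.rpow_one, Real.zero_rpow ht0.ne']; simp
        · rw [Real.rpow_add h0]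
    _ ≤ _ := key

/-- tail function -/
def tl (ν : Measure F) (y : F →ₗ[ℝ] ℝ) (u : ℝ) : ℝ := ν.real {x | u ≤ y x}

lemma tl_anti {u v : ℝ} (h : u ≤ v) : tl ν y v ≤ tl ν y u :=
  measureReal_mono (fun _ hx => le_trans h hx)

lemma tl_nonneg (u : ℝ) : 0 ≤ tl ν y u := measureReal_nonneg

lemma tl_split (hy : Measurable y) {a h : ℝ} (hh : 0 ≤ h) :
    tl ν y a = ν.real {x | a ≤ y x ∧ y x < a + h} + tl ν y (a + h) := by
  unfold tl
  rw [← measureReal_union]
  · congr 1
    ext x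
    simp only [mem_setOf_eq, mem_union]
    constructor
    · intro hx
      by_cases h1 : y x < a + h
      · exact Or.inl ⟨hx, h1⟩
      · exact Or.inr (not_lt.1 h1)
    · rintro (hx | hx)
      · exact hx.1
      · linarith
  · rw [Set.disjoint_left]
    intro x hx hx'
    exact absurd hx' (not_le.2 hx.2)
  · exact measurableSet_le measurable_const hy

lemma tl_iter (hν : PLset ν) (hs : Sym ν) (hy : Measurable y) {u h : ℝ} (hh : 0 < h) (n : ℕ)
    (hn : n * h ≤ u) :
    n * ν.real {x | u ≤ y x ∧ y x < u + h} + tl ν y u ≤ tl ν y (u - n * h) := by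
  induction n with
  | zero => simp
  | succ k ih =>
    push_cast at hn ⊢
    have h1 := ih (by nlinarith)
    have h2 := tl_split (ν := ν) (y := y) hy (a := u - (k + 1) * h) hh.le
    have h3 := strip_mono hν hs hy (a := u - (k + 1) * h) (b := u) (h := h) (by linarith)
      (by nlinarith [Nat.cast_nonneg (α := ℝ) k]) hh
    have h4 : u - (k + 1) * h + h = u - k * h := by ring
    rw [h4] at h2 h3
    linarith

/-- Step B: short strips have small mass. -/
lemma strip_le (hν : PLset ν) (hs : Sym ν) (hy : Measurable y) {u δ : ℝ} (hu : 0 < u)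
    (hδ : 0 < δ) (hδ1 : δ ≤ 1 / 8) :
    ν.real {x | u ≤ y x ∧ y x < u + 4 * δ * u} ≤ 16 * δ * tl ν y (u / 2) := by
  set n : ℕ := ⌊1 / (8 * δ)⌋₊ with hn
  have h8 : (1:ℝ) ≤ 1 / (8 * δ) := by rw [le_div_iff₀ (by positivity)]; linarith
  have hn1 : (n:ℝ) ≤ 1 / (8 * δ) := Nat.floor_le (by positivity)
  have hn2 : 1 / (16 * δ) ≤ (n:ℝ) := by
    have h1 : 1 ≤ n := Nat.one_le_floor_iff _ |>.2 h8 |> fun h => h
    have h2 : 1 / (8 * δ) < n + 1 := Nat.lt_floor_add_one _
    have h1' : (1:ℝ) ≤ n := by exact_mod_cast h1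
    have e : 1 / (16 * δ) = (1 / (8 * δ)) / 2 := by field_simp; ring
    rw [e]; linarith
  have hnh : (n:ℝ) * (4 * δ * u) ≤ u / 2 := by
    calc (n:ℝ) * (4 * δ * u) ≤ 1 / (8 * δ) * (4 * δ * u) := by gcongr
      _ = u / 2 := by field_simp; ring
  have h1 := tl_iter hν hs hy (u := u) (h := 4 * δ * u) (by positivity) n (by linarith)
  have h2 : tl ν y (u - n * (4 * δ * u)) ≤ tl ν y (u / 2) := tl_anti (by linarith)
  have h3 := tl_nonneg (ν := ν) (y := y) u
  have h4 : (n:ℝ) * ν.real {x | u ≤ y x ∧ y x < u + 4 * δ * u} ≤ tl ν y (u / 2) := by linarith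
  have h5 : 1 / (16 * δ) * ν.real {x | u ≤ y x ∧ y x < u + 4 * δ * u} ≤ tl ν y (u / 2) :=
    le_trans (by gcongr) h4
  have h6 : ν.real {x | u ≤ y x ∧ y x < u + 4 * δ * u}
      = 16 * δ * (1 / (16 * δ) * ν.real {x | u ≤ y x ∧ y x < u + 4 * δ * u}) := by
    field_simp
  rw [h6]
  gcongr

/-- Step A: for `δ ≤ 1/8`, the mass of `{y ≥ u, ‖X‖ > R (1-δ)}` is at most `19 δ` times a tail. -/
lemma layer_le {E : Type*} [NormedAddCommGroup E] [NormedSpace ℝ E] (hν : PLset ν) (hs : Sym ν) (hy : Measurable y) {X : F →ₗ[ℝ] E}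
    (hXm : Measurable fun x => ‖X x‖) {R : ℝ} (hXR : ν.real {x | R < ‖X x‖} = 0)
    (hhalf : ν.real univ ≤ 2 * ν.real {x | ‖X x‖ ≤ R / 2}) {u δ : ℝ} (hu : 0 ≤ u) (hδ : 0 < δ)
    (hδ1 : δ ≤ 1 / 8) :
    ν.real {x | u ≤ y x ∧ R * (1 - δ) < ‖X x‖} ≤ 19 * δ * tl ν y (u / 2) := by
  set M := ν.real univ with hM
  have hM0 : 0 ≤ M := measureReal_nonneg
  -- quarter mass
  have hym : ∀ c : ℝ, MeasurableSet {x : F | c ≤ y x} := fun c =>
    measurableSet_le measurable_const hy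
  have hXle : ∀ c : ℝ, MeasurableSet {x : F | ‖X x‖ ≤ c} := fun c =>
    measurableSet_le hXm measurable_const
  have hq : M ≤ 4 * ν.real {x | 0 ≤ y x ∧ ‖X x‖ ≤ R / 2} := by
    have hneg : ν.real {x | y x ≤ 0 ∧ ‖X x‖ ≤ R / 2} = ν.real {x | 0 ≤ y x ∧ ‖X x‖ ≤ R / 2} := by
      have hm : MeasurableSet {x : F | 0 ≤ y x ∧ ‖X x‖ ≤ R / 2} := (hym 0).inter (hXle (R / 2))
      rw [← hs.real hm]
      congr 1
      ext x
      simp
    have hun : ν.real {x | ‖X x‖ ≤ R / 2} ≤ ν.real {x | 0 ≤ y x ∧ ‖X x‖ ≤ R / 2}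
        + ν.real {x | y x ≤ 0 ∧ ‖X x‖ ≤ R / 2} := by
      refine le_trans (measureReal_mono ?_) (measureReal_union_le _ _)
      intro x hx
      rcases le_total 0 (y x) with h | h
      · exact Or.inl ⟨h, hx⟩
      · exact Or.inr ⟨h, hx⟩
    linarith
  set u' : ℝ := u / (1 - 2 * δ) with hu'
  have h12 : (0:ℝ) < 1 - 2 * δ := by linarith
  have hu'0 : 0 ≤ u' := div_nonneg hu h12.le
  have huu' : (1 - 2 * δ) * u' = u := by rw [hu']; field_simp
  -- log-concavity
  have hA : MeasurableSet {x : F | u' ≤ y x ∧ ‖X x‖ ≤ R} := (hym u').inter (hXle R)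
  have hB : MeasurableSet {x : F | 0 ≤ y x ∧ ‖X x‖ ≤ R / 2} := (hym 0).inter (hXle (R / 2))
  have hC : MeasurableSet {x : F | u ≤ y x ∧ ‖X x‖ ≤ R * (1 - δ)} :=
    (hym u).inter (hXle (R * (1 - δ)))
  have key := hν.real (t := 2 * δ) (by linarith) (by linarith) hA hB hC (by
    rintro a ⟨ha1, ha2⟩ b ⟨hb1, hb2⟩
    have hb1' : (0:ℝ) ≤ y b := hb1
    have ha1' : u' ≤ y a := ha1
    have ha2' : ‖X a‖ ≤ R := ha2
    have hb2' : ‖X b‖ ≤ R / 2 := hb2
    refine ⟨?_, ?_⟩
    · show u ≤ y ((1 - 2 * δ) • a + (2 * δ) • b)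
      have e : y ((1 - 2 * δ) • a + (2 * δ) • b) = (1 - 2 * δ) * y a + (2 * δ) * y b := by simp
      rw [e, ← huu']
      have := mul_le_mul_of_nonneg_left ha1' h12.le
      have := mul_nonneg (by linarith : (0:ℝ) ≤ 2 * δ) hb1'
      linarith
    · show ‖X ((1 - 2 * δ) • a + (2 * δ) • b)‖ ≤ R * (1 - δ)
      have e : X ((1 - 2 * δ) • a + (2 * δ) • b) = (1 - 2 * δ) • X a + (2 * δ) • X b := by simp
      rw [e]
      calc ‖(1 - 2 * δ) • X a + (2 * δ) • X b‖ ≤ (1 - 2 * δ) * ‖X a‖ + (2 * δ) * ‖X b‖ := by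
            refine (norm_add_le _ _).trans ?_
            rw [norm_smul, norm_smul, Real.norm_of_nonneg h12.le,
              Real.norm_of_nonneg (by linarith : (0:ℝ) ≤ 2 * δ)]
        _ ≤ (1 - 2 * δ) * R + (2 * δ) * (R / 2) := by gcongr
        _ = R * (1 - δ) := by ring)
  -- the first set has the full tail mass
  have htail : tl ν y u' ≤ ν.real {x | u' ≤ y x ∧ ‖X x‖ ≤ R} := by
    have : tl ν y u' ≤ ν.real {x | u' ≤ y x ∧ ‖X x‖ ≤ R} + ν.real {x | R < ‖X x‖} := by
      refine le_trans (measureReal_mono ?_) (measureReal_union_le _ _)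
      intro x hx
      by_cases h : ‖X x‖ ≤ R
      · exact Or.inl ⟨hx, h⟩
      · exact Or.inr (not_le.1 h)
    linarith
  have hN : (1 - 3 * δ) * tl ν y u' ≤ ν.real {x | u ≤ y x ∧ ‖X x‖ ≤ R * (1 - δ)} := by
    rcases eq_or_lt_of_le (tl_nonneg (ν := ν) (y := y) u') with h0 | h0
    · rw [← h0, mul_zero]; exact measureReal_nonneg
    have hMpos : 0 < M := lt_of_lt_of_le h0 (measureReal_mono (subset_univ _))
    have h1 : tl ν y u' ^ (1 - 2 * δ) * (M / 4) ^ (2 * δ)
        ≤ ν.real {x | u ≤ y x ∧ ‖X x‖ ≤ R * (1 - δ)} := by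
      refine le_trans ?_ key
      gcongr
      · linarith
    have h2 : tl ν y u' ≤ M := measureReal_mono (subset_univ _)
    have h3 : tl ν y u' * (1 / 4) ^ (2 * δ) ≤ tl ν y u' ^ (1 - 2 * δ) * (M / 4) ^ (2 * δ) := by
      have e1 : (M / 4) ^ (2 * δ) = M ^ (2 * δ) * (1 / 4) ^ (2 * δ) := by
        rw [← Real.mul_rpow hM0 (by norm_num)]; congr 1; ring
      rw [e1, ← mul_assoc]
      gcongr
      calc tl ν y u' = tl ν y u' ^ (1 - 2 * δ) * tl ν y u' ^ (2 * δ) := by
            rw [← Real.rpow_add h0]; simp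
        _ ≤ _ := by gcongr
    have h4 : (1 - 3 * δ) ≤ (1 / 4 : ℝ) ^ (2 * δ) := by
      have hl : Real.log (1 / 4) ≥ -(3 / 2) := by
        have h := Real.log_two_lt_d9
        have : Real.log (1 / 4) = -(2 * Real.log 2) := by
          rw [one_div, Real.log_inv, show (4:ℝ) = 2 ^ 2 by norm_num, Real.log_pow]; push_cast; ring
        rw [this]; linarith
      rw [Real.rpow_def_of_pos (by norm_num)]
      calc 1 - 3 * δ ≤ 1 + Real.log (1 / 4) * (2 * δ) := by nlinarith
        _ ≤ _ := by linarith [Real.add_one_le_exp (Real.log (1 / 4) * (2 * δ))]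
    calc (1 - 3 * δ) * tl ν y u' ≤ (1 / 4 : ℝ) ^ (2 * δ) * tl ν y u' := by gcongr
      _ = tl ν y u' * (1 / 4) ^ (2 * δ) := by ring
      _ ≤ _ := h3.trans h1
  -- complement
  have hcompl : ν.real {x | u ≤ y x ∧ R * (1 - δ) < ‖X x‖}
      + ν.real {x | u ≤ y x ∧ ‖X x‖ ≤ R * (1 - δ)} = tl ν y u := by
    unfold tl
    rw [← measureReal_union]
    · congr 1
      ext x
      simp only [mem_setOf_eq, mem_union]
      constructor
      · rintro (h | h)
        · exact h.1
        · exact h.1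
      · intro h
        rcases le_or_gt ‖X x‖ (R * (1 - δ)) with h' | h'
        · exact Or.inr ⟨h, h'⟩
        · exact Or.inl ⟨h, h'⟩
    · rw [Set.disjoint_left]
      intro x hx hx'
      exact absurd hx'.2 (not_le.2 hx.2)
    · exact hC
  -- tail comparison
  have hu'le : u' ≤ u + 4 * δ * u := by
    rw [hu', div_le_iff₀ h12]
    nlinarith [mul_nonneg hu hδ.le, mul_nonneg (mul_nonneg hu hδ.le) (by linarith : (0:ℝ) ≤ 1 / 8 - δ)]
  have hstrip : tl ν y u ≤ 16 * δ * tl ν y (u / 2) + tl ν y u' := by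
    rcases eq_or_lt_of_le hu with h0 | h0
    · have : u' = u := by rw [hu', ← h0]; simp
      rw [this]
      have := tl_nonneg (ν := ν) (y := y) (u / 2)
      nlinarith [mul_nonneg hδ.le this]
    · have h1 := tl_split (ν := ν) (y := y) hy (a := u) (h := 4 * δ * u) (by positivity)
      have h2 := strip_le hν hs hy h0 hδ hδ1
      have h3 : tl ν y (u + 4 * δ * u) ≤ tl ν y u' := tl_anti hu'le
      linarith
  have hu'2 : tl ν y u' ≤ tl ν y (u / 2) := tl_anti (by
    have : u ≤ u' := by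
      rw [hu', le_div_iff₀ h12]; nlinarith [mul_nonneg hu hδ.le]
    linarith)
  nlinarith [mul_nonneg hδ.le (sub_nonneg.2 hu'2)]

/-- **B4, core form.** -/
theorem shift_core {E : Type*} [NormedAddCommGroup E] [NormedSpace ℝ E] (hν : PLset ν)
    (hs : Sym ν) (hy : Measurable y) {X : F →ₗ[ℝ] E} {e : E}
    (hXm : Measurable fun x => ‖X x‖) (hXem : Measurable fun x => ‖X x + y x • e‖)
    (he : ‖e‖ ≤ 1) {R σ : ℝ} (hR : 0 < R) (hσ : 0 < σ) (hXR : ν.real {x | R < ‖X x‖} = 0)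
    (hhalf : ν.real univ ≤ 2 * ν.real {x | ‖X x‖ ≤ R / 2})
    (hcheb : ∀ u : ℝ, 0 < u → tl ν y u ≤ σ ^ 2 / u ^ 2 * ν.real univ) :
    ν.real {x | R < ‖X x + y x • e‖} ≤ 700 * (σ / R) * ν.real univ := by
  set M := ν.real univ with hM
  have hM0 : 0 ≤ M := measureReal_nonneg
  have hym : ∀ c : ℝ, MeasurableSet {x : F | c ≤ y x} := fun c =>
    measurableSet_le measurable_const hy
  -- the k-th layer
  have hlayer : ∀ k : ℕ, ν.real {x | 2 ^ k * σ ≤ y x ∧ R - 2 ^ (k + 1) * σ < ‖X x‖}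
      ≤ 152 * (σ / R) * M * (1 / 2) ^ k := by
    intro k
    have h2k : (0:ℝ) < 2 ^ k := by positivity
    have hu : (0:ℝ) < 2 ^ k * σ := by positivity
    have e2 : ((1:ℝ) / 2) ^ k = 1 / 2 ^ k := by rw [one_div, inv_pow, one_div]
    by_cases hd : 2 * (2 ^ k * σ) / R ≤ 1 / 8
    · have h1 := layer_le hν hs hy hXm hXR hhalf hu.le (δ := 2 * (2 ^ k * σ) / R)
        (by positivity) hd
      have e1 : R * (1 - 2 * (2 ^ k * σ) / R) = R - 2 ^ (k + 1) * σ := by
        field_simp; ring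
      rw [e1] at h1
      have h2 := hcheb (2 ^ k * σ / 2) (by positivity)
      calc ν.real {x | 2 ^ k * σ ≤ y x ∧ R - 2 ^ (k + 1) * σ < ‖X x‖}
          ≤ 19 * (2 * (2 ^ k * σ) / R) * tl ν y (2 ^ k * σ / 2) := h1
        _ ≤ 19 * (2 * (2 ^ k * σ) / R) * (σ ^ 2 / (2 ^ k * σ / 2) ^ 2 * M) := by gcongr
        _ = 152 * (σ / R) * M * (1 / 2) ^ k := by
            rw [e2]; field_simp; ring
    · have h1 : ν.real {x | 2 ^ k * σ ≤ y x ∧ R - 2 ^ (k + 1) * σ < ‖X x‖} ≤ tl ν y (2 ^ k * σ) :=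
        measureReal_mono (fun x hx => hx.1)
      have h2 := hcheb (2 ^ k * σ) hu
      have h3 : 1 / 8 < 2 * (2 ^ k * σ) / R := not_le.1 hd
      have h4 : R < 16 * (2 ^ k * σ) := by
        rw [lt_div_iff₀ hR] at h3; linarith
      refine h1.trans (h2.trans ?_)
      have h5 : σ ^ 2 / (2 ^ k * σ) ^ 2 = (1 / 2 ^ k) * (1 / 2 ^ k) := by field_simp
      rw [h5, e2]
      have h6 : 1 / 2 ^ k ≤ 16 * (σ / R) := by
        rw [div_le_iff₀ h2k, mul_assoc, mul_comm (σ / R), ← mul_assoc, ← mul_div_assoc,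
          le_div_iff₀ hR]
        linarith
      have h7 : (0:ℝ) ≤ σ / R := by positivity
      calc (1:ℝ) / 2 ^ k * (1 / 2 ^ k) * M ≤ (16 * (σ / R)) * (1 / 2 ^ k) * M := by gcongr
        _ = 16 * (σ / R) * M * (1 / 2 ^ k) := by ring
        _ ≤ 152 * (σ / R) * M * (1 / 2 ^ k) := by
            have : 0 ≤ (σ / R) * M * (1 / 2 ^ k) := by positivity
            nlinarith
  -- the first layer
  have hfirst : ν.real {x | 0 ≤ y x ∧ R - σ < ‖X x‖} ≤ 19 * (σ / R) * M := by
    by_cases hd : σ / R ≤ 1 / 8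
    · have h1 := layer_le hν hs hy hXm hXR hhalf (le_refl (0:ℝ)) (δ := σ / R)
        (by positivity) hd
      have e1 : R * (1 - σ / R) = R - σ := by field_simp
      rw [e1] at h1
      refine h1.trans ?_
      have : tl ν y (0 / 2) ≤ M := measureReal_mono (subset_univ _)
      gcongr
    · have h3 : 1 / 8 < σ / R := not_le.1 hd
      have : ν.real {x | 0 ≤ y x ∧ R - σ < ‖X x‖} ≤ M := measureReal_mono (subset_univ _)
      nlinarith
  -- half of the bad set
  set S : Set F := {x | R < ‖X x + y x • e‖} with hS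
  have hSm : MeasurableSet S := measurableSet_lt measurable_const hXem
  have hSy : MeasurableSet (S ∩ {x | 0 ≤ y x}) := hSm.inter (hym 0)
  have hhalfS : ν.real S ≤ 2 * ν.real (S ∩ {x | 0 ≤ y x}) := by
    have h1 : ν.real (-(S ∩ {x | 0 ≤ y x})) = ν.real (S ∩ {x | 0 ≤ y x}) := hs.real hSy
    have h2 : S ⊆ (S ∩ {x | 0 ≤ y x}) ∪ (-(S ∩ {x | 0 ≤ y x})) := by
      intro x hx
      rcases le_total 0 (y x) with h | h
      · exact Or.inl ⟨hx, h⟩
      · right
        have hx' : R < ‖X x + y x • e‖ := hx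
        refine ⟨?_, ?_⟩
        · show R < ‖X (-x) + y (-x) • e‖
          have : X (-x) + y (-x) • e = -(X x + y x • e) := by
            rw [map_neg, map_neg, neg_smul, neg_add]
          rw [this, norm_neg]; exact hx'
        · show 0 ≤ y (-x)
          rw [map_neg]; linarith
    have h3 := (measureReal_mono (μ := ν) h2).trans (measureReal_union_le _ _)
    linarith
  -- covering
  have hcov : S ∩ {x | 0 ≤ y x} ⊆ {x | 0 ≤ y x ∧ R - σ < ‖X x‖} ∪
      ⋃ k : ℕ, {x | 2 ^ k * σ ≤ y x ∧ R - 2 ^ (k + 1) * σ < ‖X x‖} := by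
    rintro x ⟨hx1, hx2⟩
    have hx1' : R < ‖X x + y x • e‖ := hx1
    have hx2' : 0 ≤ y x := hx2
    have hn : ‖X x + y x • e‖ ≤ ‖X x‖ + y x := by
      refine (norm_add_le _ _).trans ?_
      rw [norm_smul, Real.norm_of_nonneg hx2']
      nlinarith [norm_nonneg e]
    by_cases h : y x < σ
    · left
      exact ⟨hx2', by linarith⟩
    · right
      have h' : 1 ≤ y x / σ := by rw [le_div_iff₀ hσ]; linarith [not_lt.1 h]
      obtain ⟨k, hk1, hk2⟩ := exists_nat_pow_near h' (by norm_num : (1:ℝ) < 2)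
      rw [mem_iUnion]
      refine ⟨k, ?_, ?_⟩
      · rw [le_div_iff₀ hσ] at hk1; exact hk1
      · rw [div_lt_iff₀ hσ] at hk2; linarith
  have hsum : ν.real (⋃ k : ℕ, {x | 2 ^ k * σ ≤ y x ∧ R - 2 ^ (k + 1) * σ < ‖X x‖})
      ≤ 152 * (σ / R) * M * 2 := by
    have hgeo : Summable fun k : ℕ => 152 * (σ / R) * M * (1 / 2 : ℝ) ^ k :=
      (summable_geometric_of_lt_one (by norm_num) (by norm_num)).mul_left _
    have hs1 : Summable fun k : ℕ =>
        ν.real {x | 2 ^ k * σ ≤ y x ∧ R - 2 ^ (k + 1) * σ < ‖X x‖} :=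
      Summable.of_nonneg_of_le (fun _ => measureReal_nonneg) hlayer hgeo
    have h1 : ν (⋃ k : ℕ, {x | 2 ^ k * σ ≤ y x ∧ R - 2 ^ (k + 1) * σ < ‖X x‖})
        ≤ ∑' k : ℕ, ν {x | 2 ^ k * σ ≤ y x ∧ R - 2 ^ (k + 1) * σ < ‖X x‖} := measure_iUnion_le _
    have h2 : (∑' k : ℕ, ν {x | 2 ^ k * σ ≤ y x ∧ R - 2 ^ (k + 1) * σ < ‖X x‖})
        ≤ ENNReal.ofReal (152 * (σ / R) * M * 2) := by
      calc (∑' k : ℕ, ν {x | 2 ^ k * σ ≤ y x ∧ R - 2 ^ (k + 1) * σ < ‖X x‖})
          = ∑' k : ℕ, ENNReal.ofReal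
            (ν.real {x | 2 ^ k * σ ≤ y x ∧ R - 2 ^ (k + 1) * σ < ‖X x‖}) := by
            congr 1; ext k; rw [Measure.real, ENNReal.ofReal_toReal (measure_ne_top _ _)]
        _ = ENNReal.ofReal (∑' k : ℕ,
            ν.real {x | 2 ^ k * σ ≤ y x ∧ R - 2 ^ (k + 1) * σ < ‖X x‖}) :=
            (ENNReal.ofReal_tsum_of_nonneg (fun _ => measureReal_nonneg) hs1).symm
        _ ≤ ENNReal.ofReal (∑' k : ℕ, 152 * (σ / R) * M * (1 / 2 : ℝ) ^ k) :=
            ENNReal.ofReal_le_ofReal (hs1.tsum_le_tsum hlayer hgeo)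
        _ = _ := by rw [tsum_mul_left, tsum_geometric_two]
    have h3 := ENNReal.toReal_mono ENNReal.ofReal_ne_top (h1.trans h2)
    rwa [ENNReal.toReal_ofReal (by positivity)] at h3
  have h1 := (measureReal_mono (μ := ν) hcov).trans (measureReal_union_le _ _)
  have h7 : (0:ℝ) ≤ (σ / R) * M := by positivity
  nlinarith

end core

/-! ### measures with a log-concave even density, restricted to a symmetric convex set -/

section density

variable {F : Type*} [NormedAddCommGroup F] [InnerProductSpace ℝ F] [FiniteDimensional ℝ F]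
  [MeasurableSpace F] [BorelSpace F]

theorem PL_fd : PL F (volume : Measure F) := by
  refine PL.of_measurePreserving (fun x => (stdOrthonormalBasis ℝ F).repr.symm x)
    (LinearIsometryEquiv.measurePreserving (stdOrthonormalBasis ℝ F).repr.symm) ?_
    (PL_euclidean (Module.finrank ℝ F))
  intro a b x y
  simp

theorem PLset_withDensity {W : F → ℝ≥0∞} (hW : Measurable W)
    (hLC : ∀ t : ℝ, 0 < t → t < 1 → ∀ x y : F, W x ^ (1 - t) * W y ^ t ≤ W ((1 - t) • x + t • y)) :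
    PLset (volume.withDensity W) := by
  intro t ht0 ht1 A B C hA hB hC H
  rw [withDensity_apply _ hA, withDensity_apply _ hB, withDensity_apply _ hC,
    ← lintegral_indicator hA, ← lintegral_indicator hB, ← lintegral_indicator hC]
  refine PL_fd t ht0 ht1 _ _ _ (hW.indicator hA) (hW.indicator hB) (hW.indicator hC) ?_
  intro x y
  by_cases hx : x ∈ A
  · by_cases hy : y ∈ B
    · rw [indicator_of_mem hx, indicator_of_mem hy, indicator_of_mem (H x hx y hy)]
      exact hLC t ht0 ht1 x y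
    · rw [indicator_of_notMem hy, ENNReal.zero_rpow_of_pos ht0, mul_zero]; exact bot_le
  · rw [indicator_of_notMem hx, ENNReal.zero_rpow_of_pos (by linarith), zero_mul]; exact bot_le

theorem PLset.restrict {ν : Measure F} (h : PLset ν) {Q : Set F} (hQ : Convex ℝ Q)
    (hQm : MeasurableSet Q) : PLset (ν.restrict Q) := by
  intro t ht0 ht1 A B C hA hB hC H
  rw [Measure.restrict_apply hA, Measure.restrict_apply hB, Measure.restrict_apply hC]
  refine h t ht0 ht1 _ _ _ (hA.inter hQm) (hB.inter hQm) (hC.inter hQm) ?_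
  rintro a ⟨ha, ha'⟩ b ⟨hb, hb'⟩
  exact ⟨H a ha b hb, hQ ha' hb' (by linarith) ht0.le (by ring)⟩

theorem Sym_withDensity {W : F → ℝ≥0∞} (hW : ∀ x, W (-x) = W x) (hm : Measurable W) :
    Sym (volume.withDensity W) := by
  intro A hA
  rw [withDensity_apply _ hA.neg, withDensity_apply _ hA, ← lintegral_indicator hA.neg,
    ← lintegral_indicator hA,
    ← (Measure.measurePreserving_neg (volume : Measure F)).lintegral_comp (hm.indicator hA.neg)]
  congr 1
  ext x
  by_cases hx : x ∈ A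
  · rw [indicator_of_mem hx, indicator_of_mem (by simpa using hx), hW]
  · rw [indicator_of_notMem hx, indicator_of_notMem (by simpa using hx)]

theorem Sym.restrict {ν : Measure F} (h : Sym ν) {Q : Set F} (hQ : ∀ x ∈ Q, -x ∈ Q)
    (hQm : MeasurableSet Q) : Sym (ν.restrict Q) := by
  intro A hA
  have hQn : -Q = Q := by
    ext x
    constructor
    · intro hx; simpa using hQ _ hx
    · intro hx; exact hQ _ hx
  rw [Measure.restrict_apply hA.neg, Measure.restrict_apply hA]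
  have : -A ∩ Q = -(A ∩ Q) := by
    rw [Set.inter_neg, hQn]
  rw [this, h _ (hA.inter hQm)]

end density

end Crest.Agent.R239.Shift147
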