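import Mathlib
import Crest.Agent.R239.Shift_147

/-!
# R239, block F7 (helper686): QUADRATIC SHIFT LEMMA

`shiftQ_core` : finite symmetric log-concave measure `ν` on a real vector space `F`,
`X : F → E` linear with `‖X‖ ≤ R` `ν`-a.e., `ν univ ≤ 2 ν {‖X‖ ≤ R/2}`, `y` linear functional with
`ν {y ≥ u} ≤ (σ/u)^4 ν univ`.  Then `ν {‖X‖² + y² > R²} ≤ 3300 (σ²/R²) ν univ`.
-/

set_option autoImplicit false
set_option linter.unusedSectionVars false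
open MeasureTheory Set
open scoped ENNReal NNReal Pointwise

namespace Crest.Agent.R239.ShiftQ686

open Crest.Agent.R239.Shift147

variable {F : Type*} [AddCommGroup F] [Module ℝ F] [MeasurableSpace F]
variable {ν : Measure F} [IsFiniteMeasure ν] {y : F →ₗ[ℝ] ℝ}

theorem shiftQ_core {E : Type*} [NormedAddCommGroup E] [NormedSpace ℝ E] (hν : PLset ν)
    (hs : Sym ν) (hy : Measurable y) {X : F →ₗ[ℝ] E}
    (hXm : Measurable fun x => ‖X x‖) {R σ : ℝ} (hR : 0 < R) (hσ : 0 < σ)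
    (hXR : ν.real {x | R < ‖X x‖} = 0)
    (hhalf : ν.real univ ≤ 2 * ν.real {x | ‖X x‖ ≤ R / 2})
    (hcheb : ∀ u : ℝ, 0 < u → tl ν y u ≤ σ ^ 4 / u ^ 4 * ν.real univ) :
    ν.real {x | R ^ 2 < ‖X x‖ ^ 2 + y x ^ 2} ≤ 3300 * (σ ^ 2 / R ^ 2) * ν.real univ := by
  set M := ν.real univ with hM
  have hM0 : 0 ≤ M := measureReal_nonneg
  have hR2 : (0:ℝ) < R ^ 2 := by positivity
  have hym : ∀ c : ℝ, MeasurableSet {x : F | c ≤ y x} := fun c =>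
    measurableSet_le measurable_const hy
  -- the elementary geometric fact
  have hgeom : ∀ (c a : ℝ), 0 ≤ c → c ≤ R ^ 2 → R ^ 2 < a ^ 2 + c → 0 ≤ a → R * (1 - c / R ^ 2) < a := by
    intro c a hc hcR h ha
    have h1 : 0 ≤ 1 - c / R ^ 2 := by
      rw [sub_nonneg, div_le_one hR2]; exact hcR
    have h1' : 1 - c / R ^ 2 ≤ 1 := by
      have : 0 ≤ c / R ^ 2 := by positivity
      linarith
    have h2 : (R * (1 - c / R ^ 2)) ^ 2 < a ^ 2 := by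
      have e : (R * (1 - c / R ^ 2)) ^ 2 = R ^ 2 * (1 - c / R ^ 2) * (1 - c / R ^ 2) := by ring
      have e2 : R ^ 2 * (1 - c / R ^ 2) = R ^ 2 - c := by field_simp
      rw [e, e2]
      have h3 : 0 ≤ R ^ 2 - c := by linarith
      nlinarith [mul_le_mul_of_nonneg_left h1' h3]
    exact lt_of_pow_lt_pow_left₀ 2 ha h2
  -- the k-th layer
  have hlayer : ∀ k : ℕ, ν.real {x | 2 ^ k * σ ≤ y x ∧ R ^ 2 < ‖X x‖ ^ 2 + (2 ^ (k + 1) * σ) ^ 2}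
      ≤ 1216 * (σ ^ 2 / R ^ 2) * M * (1 / 4) ^ k := by
    intro k
    have h2k : (0:ℝ) < 2 ^ k := by positivity
    have hu : (0:ℝ) < 2 ^ k * σ := by positivity
    have e2 : ((1:ℝ) / 4) ^ k = 1 / (2 ^ k * 2 ^ k) := by
      rw [← mul_pow, one_div, inv_pow, one_div]; norm_num
    by_cases hd : (2 ^ (k + 1) * σ) ^ 2 / R ^ 2 ≤ 1 / 8
    · have h1 := layer_le hν hs hy hXm hXR hhalf hu.le (δ := (2 ^ (k + 1) * σ) ^ 2 / R ^ 2)
        (by positivity) hd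
      have hsub : {x | 2 ^ k * σ ≤ y x ∧ R ^ 2 < ‖X x‖ ^ 2 + (2 ^ (k + 1) * σ) ^ 2}
          ⊆ {x | 2 ^ k * σ ≤ y x ∧ R * (1 - (2 ^ (k + 1) * σ) ^ 2 / R ^ 2) < ‖X x‖} := by
        rintro x ⟨hx1, hx2⟩
        refine ⟨hx1, hgeom _ _ (by positivity) ?_ hx2 (norm_nonneg _)⟩
        rw [div_le_iff₀ hR2] at hd
        linarith
      have h2 := hcheb (2 ^ k * σ / 2) (by positivity)
      calc ν.real {x | 2 ^ k * σ ≤ y x ∧ R ^ 2 < ‖X x‖ ^ 2 + (2 ^ (k + 1) * σ) ^ 2}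
          ≤ 19 * ((2 ^ (k + 1) * σ) ^ 2 / R ^ 2) * tl ν y (2 ^ k * σ / 2) :=
            (measureReal_mono hsub).trans h1
        _ ≤ 19 * ((2 ^ (k + 1) * σ) ^ 2 / R ^ 2) * (σ ^ 4 / (2 ^ k * σ / 2) ^ 4 * M) := by gcongr
        _ = 1216 * (σ ^ 2 / R ^ 2) * M * (1 / 4) ^ k := by
            rw [e2, pow_succ]; field_simp; ring
    · have h1 : ν.real {x | 2 ^ k * σ ≤ y x ∧ R ^ 2 < ‖X x‖ ^ 2 + (2 ^ (k + 1) * σ) ^ 2}
          ≤ tl ν y (2 ^ k * σ) :=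
        measureReal_mono (fun x hx => hx.1)
      have h2 := hcheb (2 ^ k * σ) hu
      have h3 : 1 / 8 < (2 ^ (k + 1) * σ) ^ 2 / R ^ 2 := not_le.1 hd
      have h4 : R ^ 2 < 32 * (2 ^ k * σ) ^ 2 := by
        rw [lt_div_iff₀ hR2] at h3
        have : (2 ^ (k + 1) * σ) ^ 2 = 4 * (2 ^ k * σ) ^ 2 := by rw [pow_succ]; ring
        rw [this] at h3
        linarith
      refine h1.trans (h2.trans ?_)
      rw [e2]
      have h5 : σ ^ 4 / (2 ^ k * σ) ^ 4 = (1 / (2 ^ k * 2 ^ k)) * (1 / (2 ^ k * 2 ^ k)) := by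
        field_simp
      rw [h5]
      have h6 : 1 / (2 ^ k * 2 ^ k) ≤ 32 * (σ ^ 2 / R ^ 2) := by
        rw [div_le_iff₀ (by positivity), ← mul_div_assoc, div_mul_eq_mul_div, le_div_iff₀ hR2]
        have : 32 * (2 ^ k * σ) ^ 2 = 32 * σ ^ 2 * (2 ^ k * 2 ^ k) := by ring
        linarith
      have h7 : (0:ℝ) ≤ σ ^ 2 / R ^ 2 := by positivity
      calc (1:ℝ) / (2 ^ k * 2 ^ k) * (1 / (2 ^ k * 2 ^ k)) * M
          ≤ (32 * (σ ^ 2 / R ^ 2)) * (1 / (2 ^ k * 2 ^ k)) * M := by gcongr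
        _ = 32 * ((σ ^ 2 / R ^ 2) * M * (1 / (2 ^ k * 2 ^ k))) := by ring
        _ ≤ 1216 * ((σ ^ 2 / R ^ 2) * M * (1 / (2 ^ k * 2 ^ k))) := by
            have : 0 ≤ (σ ^ 2 / R ^ 2) * M * (1 / (2 ^ k * 2 ^ k)) := by positivity
            nlinarith
        _ = _ := by ring
  -- the first layer
  have hfirst : ν.real {x | 0 ≤ y x ∧ R ^ 2 < ‖X x‖ ^ 2 + σ ^ 2} ≤ 19 * (σ ^ 2 / R ^ 2) * M := by
    by_cases hd : σ ^ 2 / R ^ 2 ≤ 1 / 8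
    · have h1 := layer_le hν hs hy hXm hXR hhalf (le_refl (0:ℝ)) (δ := σ ^ 2 / R ^ 2)
        (by positivity) hd
      have hsub : {x | 0 ≤ y x ∧ R ^ 2 < ‖X x‖ ^ 2 + σ ^ 2}
          ⊆ {x | 0 ≤ y x ∧ R * (1 - σ ^ 2 / R ^ 2) < ‖X x‖} := by
        rintro x ⟨hx1, hx2⟩
        refine ⟨hx1, hgeom _ _ (by positivity) ?_ hx2 (norm_nonneg _)⟩
        rw [div_le_iff₀ hR2] at hd
        linarith
      refine (measureReal_mono hsub).trans (h1.trans ?_)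
      have : tl ν y (0 / 2) ≤ M := measureReal_mono (subset_univ _)
      gcongr
    · have h3 : 1 / 8 < σ ^ 2 / R ^ 2 := not_le.1 hd
      have : ν.real {x | 0 ≤ y x ∧ R ^ 2 < ‖X x‖ ^ 2 + σ ^ 2} ≤ M :=
        measureReal_mono (subset_univ _)
      nlinarith
  -- half of the bad set
  set S : Set F := {x | R ^ 2 < ‖X x‖ ^ 2 + y x ^ 2} with hS
  have hSm : MeasurableSet S := measurableSet_lt measurable_const
    ((hXm.pow_const 2).add (hy.pow_const 2))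
  have hSy : MeasurableSet (S ∩ {x | 0 ≤ y x}) := hSm.inter (hym 0)
  have hhalfS : ν.real S ≤ 2 * ν.real (S ∩ {x | 0 ≤ y x}) := by
    have h1 : ν.real (-(S ∩ {x | 0 ≤ y x})) = ν.real (S ∩ {x | 0 ≤ y x}) := hs.real hSy
    have h2 : S ⊆ (S ∩ {x | 0 ≤ y x}) ∪ (-(S ∩ {x | 0 ≤ y x})) := by
      intro x hx
      rcases le_total 0 (y x) with h | h
      · exact Or.inl ⟨hx, h⟩
      · right
        have hx' : R ^ 2 < ‖X x‖ ^ 2 + y x ^ 2 := hx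
        refine ⟨?_, ?_⟩
        · show R ^ 2 < ‖X (-x)‖ ^ 2 + y (-x) ^ 2
          rw [map_neg, map_neg, norm_neg, neg_sq]; exact hx'
        · show 0 ≤ y (-x)
          rw [map_neg]; linarith
    have h3 := (measureReal_mono (μ := ν) h2).trans (measureReal_union_le _ _)
    linarith
  -- covering
  have hcov : S ∩ {x | 0 ≤ y x} ⊆ {x | 0 ≤ y x ∧ R ^ 2 < ‖X x‖ ^ 2 + σ ^ 2} ∪
      ⋃ k : ℕ, {x | 2 ^ k * σ ≤ y x ∧ R ^ 2 < ‖X x‖ ^ 2 + (2 ^ (k + 1) * σ) ^ 2} := by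
    rintro x ⟨hx1, hx2⟩
    have hx1' : R ^ 2 < ‖X x‖ ^ 2 + y x ^ 2 := hx1
    have hx2' : 0 ≤ y x := hx2
    by_cases h : y x < σ
    · left
      refine ⟨hx2', lt_of_lt_of_le hx1' ?_⟩
      have := pow_le_pow_left₀ hx2' h.le 2
      linarith
    · right
      have h' : 1 ≤ y x / σ := by rw [le_div_iff₀ hσ]; linarith [not_lt.1 h]
      obtain ⟨k, hk1, hk2⟩ := exists_nat_pow_near h' (by norm_num : (1:ℝ) < 2)
      rw [mem_iUnion]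
      refine ⟨k, ?_, ?_⟩
      · rw [le_div_iff₀ hσ] at hk1; exact hk1
      · rw [div_lt_iff₀ hσ] at hk2
        have := pow_le_pow_left₀ hx2' hk2.le 2
        linarith
  have hsum : ν.real (⋃ k : ℕ, {x | 2 ^ k * σ ≤ y x ∧ R ^ 2 < ‖X x‖ ^ 2 + (2 ^ (k + 1) * σ) ^ 2})
      ≤ 1216 * (σ ^ 2 / R ^ 2) * M * (4 / 3) := by
    have hgeo : Summable fun k : ℕ => 1216 * (σ ^ 2 / R ^ 2) * M * (1 / 4 : ℝ) ^ k :=
      (summable_geometric_of_lt_one (by norm_num) (by norm_num)).mul_left _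
    have hs1 : Summable fun k : ℕ =>
        ν.real {x | 2 ^ k * σ ≤ y x ∧ R ^ 2 < ‖X x‖ ^ 2 + (2 ^ (k + 1) * σ) ^ 2} :=
      Summable.of_nonneg_of_le (fun _ => measureReal_nonneg) hlayer hgeo
    have h1 : ν (⋃ k : ℕ, {x | 2 ^ k * σ ≤ y x ∧ R ^ 2 < ‖X x‖ ^ 2 + (2 ^ (k + 1) * σ) ^ 2})
        ≤ ∑' k : ℕ, ν {x | 2 ^ k * σ ≤ y x ∧ R ^ 2 < ‖X x‖ ^ 2 + (2 ^ (k + 1) * σ) ^ 2} :=
      measure_iUnion_le _
    have h2 : (∑' k : ℕ, ν {x | 2 ^ k * σ ≤ y x ∧ R ^ 2 < ‖X x‖ ^ 2 + (2 ^ (k + 1) * σ) ^ 2})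
        ≤ ENNReal.ofReal (1216 * (σ ^ 2 / R ^ 2) * M * (4 / 3)) := by
      calc (∑' k : ℕ, ν {x | 2 ^ k * σ ≤ y x ∧ R ^ 2 < ‖X x‖ ^ 2 + (2 ^ (k + 1) * σ) ^ 2})
          = ∑' k : ℕ, ENNReal.ofReal
            (ν.real {x | 2 ^ k * σ ≤ y x ∧ R ^ 2 < ‖X x‖ ^ 2 + (2 ^ (k + 1) * σ) ^ 2}) := by
            congr 1; ext k; rw [Measure.real, ENNReal.ofReal_toReal (measure_ne_top _ _)]
        _ = ENNReal.ofReal (∑' k : ℕ,
            ν.real {x | 2 ^ k * σ ≤ y x ∧ R ^ 2 < ‖X x‖ ^ 2 + (2 ^ (k + 1) * σ) ^ 2}) :=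
            (ENNReal.ofReal_tsum_of_nonneg (fun _ => measureReal_nonneg) hs1).symm
        _ ≤ ENNReal.ofReal (∑' k : ℕ, 1216 * (σ ^ 2 / R ^ 2) * M * (1 / 4 : ℝ) ^ k) :=
            ENNReal.ofReal_le_ofReal (hs1.tsum_le_tsum hlayer hgeo)
        _ = _ := by
            rw [tsum_mul_left, tsum_geometric_of_lt_one (by norm_num) (by norm_num)]
            norm_num
    have h3 := ENNReal.toReal_mono ENNReal.ofReal_ne_top (h1.trans h2)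
    rwa [ENNReal.toReal_ofReal (by positivity)] at h3
  have h1 := (measureReal_mono (μ := ν) hcov).trans (measureReal_union_le _ _)
  have h7 : (0:ℝ) ≤ (σ ^ 2 / R ^ 2) * M := by positivity
  nlinarith

end Crest.Agent.R239.ShiftQ686
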