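import Mathlib
import Crest.Agent.R239.FDef
import Crest.Agent.R239.LineGauss
import Crest.Agent.R239.RemG_864
import Crest.Agent.R239.ShiftQ_686

/-!
# R239 (helper686): quadratic shift lemma for the standard Gaussian, from `P_SL`

`shift_gen`.
-/

set_option autoImplicit false
set_option linter.unusedSectionVars false
open MeasureTheory Set ProbabilityTheory
open scoped ENNReal NNReal Pointwise RealInnerProductSpace

namespace Crest.Agent.R239.ShiftG686

open Crest.Agent.R239.Shift147 Crest.Agent.R239.FD Crest.Agent.R239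
open Crest.Agent.Lib.PrekopaLeindler

variable {E : Type*} [NormedAddCommGroup E] [InnerProductSpace ℝ E] [FiniteDimensional ℝ E]
  [MeasurableSpace E] [BorelSpace E]

theorem PLset_of_PL {F : Type*} [AddCommGroup F] [Module ℝ F] [MeasurableSpace F] {μ : Measure F}
    (h : PL F μ) : PLset μ := by
  intro t ht0 ht1 A B C hA hB hC H
  rw [← lintegral_indicator_one hA, ← lintegral_indicator_one hB, ← lintegral_indicator_one hC]
  refine h t ht0 ht1 _ _ _ (measurable_one.indicator hA) (measurable_one.indicator hB)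
    (measurable_one.indicator hC) ?_
  intro x y
  by_cases hx : x ∈ A
  · by_cases hy : y ∈ B
    · rw [indicator_of_mem hx, indicator_of_mem hy, indicator_of_mem (H x hx y hy)]
      simp
    · rw [indicator_of_notMem hy, ENNReal.zero_rpow_of_pos ht0, mul_zero]; exact bot_le
  · rw [indicator_of_notMem hx, ENNReal.zero_rpow_of_pos (by linarith), zero_mul]; exact bot_le

theorem PLset_std : PLset (stdGaussian E) := PLset_of_PL PL_std

theorem Sym_std : Sym (stdGaussian E) := by
  intro A hA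
  have h : gau (-(ContinuousLinearMap.id ℝ E)) = gau (ContinuousLinearMap.id ℝ E) := by
    apply gau_ext
    intro t
    simp
  rw [gau_id] at h
  have h2 : (stdGaussian E) (-A) = gau (-(ContinuousLinearMap.id ℝ E)) A := by
    rw [gau_apply _ hA]
    rfl
  rw [h2, h]

/-- Gaussian domination for tails from the Sidak inequality. -/
theorem tail_of_SL (hSL : P_SL E) {Q : Set E} (hQm : MeasurableSet Q) (hQc : Convex ℝ Q)
    (hQs : ∀ x ∈ Q, -x ∈ Q) {a : E} (ha : a ≠ 0) {u : ℝ} (hu : 0 < u) :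
    (stdGaussian E).real (Q ∩ {x | u ≤ ⟪a, x⟫}) ≤ (4 * ‖a‖) ^ 4 / u ^ 4 * (stdGaussian E).real Q := by
  have ha' : 0 < ‖a‖ := norm_pos_iff.2 ha
  have hm : MeasurableSet {x : E | |⟪a, x⟫| ≤ u / 2} :=
    measurableSet_le (by fun_prop) (by fun_prop)
  have h1 := hSL a (u / 2) Q hQm hQc hQs
  have h2 : (stdGaussian E).real (Q ∩ {x | u ≤ ⟪a, x⟫})
      + (stdGaussian E).real (Q ∩ {x | |⟪a, x⟫| ≤ u / 2}) ≤ (stdGaussian E).real Q := by
    rw [← measureReal_union]
    · exact measureReal_mono (by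
        rintro x (hx | hx)
        · exact hx.1
        · exact hx.1)
    · rw [Set.disjoint_left]
      rintro x ⟨_, hx⟩ ⟨_, hx'⟩
      have hx1 : u ≤ ⟪a, x⟫ := hx
      have hx2 : |⟪a, x⟫| ≤ u / 2 := hx'
      have := le_abs_self (⟪a, x⟫ : ℝ)
      linarith
    · exact hQm.inter hm
  have h3 : 1 - (stdGaussian E).real {x | |⟪a, x⟫| ≤ u / 2}
      ≤ 2 * Real.exp (-((u / 2) ^ 2 / (2 * ‖a‖ ^ 2))) := by
    have := Crest.Agent.R239.Rem864.gau_h1 (ContinuousLinearMap.id ℝ E) a (b := ‖a‖ ^ 2) (by positivity)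
      (by simp) (u / 2) (by positivity)
    rwa [gau_id] at this
  have h4 : Real.exp (-((u / 2) ^ 2 / (2 * ‖a‖ ^ 2))) ≤ 128 * ‖a‖ ^ 4 / u ^ 4 := by
    set z := (u / 2) ^ 2 / (2 * ‖a‖ ^ 2) with hz
    have hz0 : 0 < z := by positivity
    have h5 := Real.quadratic_le_exp_of_nonneg hz0.le
    have h6 : z ^ 2 / 2 ≤ Real.exp z := by linarith
    rw [Real.exp_neg]
    have h7 : (Real.exp z)⁻¹ ≤ (z ^ 2 / 2)⁻¹ := by
      apply inv_anti₀ (by positivity) h6
    refine h7.trans (le_of_eq ?_)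
    rw [hz]
    field_simp
    ring
  have hQ0 : 0 ≤ (stdGaussian E).real Q := measureReal_nonneg
  have h8 : (stdGaussian E).real (Q ∩ {x | u ≤ ⟪a, x⟫})
      ≤ (stdGaussian E).real Q * (1 - (stdGaussian E).real {x | |⟪a, x⟫| ≤ u / 2}) := by
    linarith
  calc (stdGaussian E).real (Q ∩ {x | u ≤ ⟪a, x⟫})
      ≤ (stdGaussian E).real Q * (2 * (128 * ‖a‖ ^ 4 / u ^ 4)) :=
        h8.trans (mul_le_mul_of_nonneg_left (h3.trans (by linarith)) hQ0)
    _ = (4 * ‖a‖) ^ 4 / u ^ 4 * (stdGaussian E).real Q := by ring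

/-- `P_SHIFT` with a rectangular target. -/
theorem shift_gen (hSL : P_SL E) {E' : Type*} [NormedAddCommGroup E'] [InnerProductSpace ℝ E']
    (X : E →L[ℝ] E') (a : E) (R : ℝ) (Q : Set E) (hR : 0 < R) (hQ : IsClosed Q)
    (hQc : Convex ℝ Q) (hQs : ∀ x ∈ Q, -x ∈ Q) (hXR : ∀ x ∈ Q, ‖X x‖ ≤ R)
    (hhalf : (stdGaussian E).real Q ≤ 2 * (stdGaussian E).real (Q ∩ {x | ‖X x‖ ≤ R / 2})) :
    (stdGaussian E).real (Q ∩ {x | R ^ 2 < ‖X x‖ ^ 2 + ⟪a, x⟫ ^ 2})
      ≤ 52800 * (‖a‖ ^ 2 / R ^ 2) * (stdGaussian E).real Q := by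
  rcases eq_or_ne a 0 with rfl | ha
  · have : Q ∩ {x | R ^ 2 < ‖X x‖ ^ 2 + ⟪(0 : E), x⟫ ^ 2} = ∅ := by
      ext x
      simp only [mem_inter_iff, mem_empty_iff_false, iff_false, not_and]
      intro hx hx'
      have h1 : R ^ 2 < ‖X x‖ ^ 2 + ⟪(0 : E), x⟫ ^ 2 := hx'
      rw [inner_zero_left] at h1
      have h2 := pow_le_pow_left₀ (norm_nonneg _) (hXR x hx) 2
      linarith
    rw [this]
    simp
  have ha' : 0 < ‖a‖ := norm_pos_iff.2 ha
  have hQm := hQ.measurableSet
  set ν : Measure E := (stdGaussian E).restrict Q with hν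
  have hPL : PLset ν := by
    intro t ht0 ht1 A B C hA hB hC H
    rw [hν, Measure.restrict_apply hA, Measure.restrict_apply hB, Measure.restrict_apply hC]
    refine PLset_std t ht0 ht1 _ _ _ (hA.inter hQm) (hB.inter hQm) (hC.inter hQm) ?_
    rintro x ⟨hx, hx'⟩ y ⟨hy, hy'⟩
    exact ⟨H x hx y hy, hQc hx' hy' (by linarith) ht0.le (by ring)⟩
  have hSy : Sym ν := Sym_std.restrict hQs hQm
  have happ : ∀ {A : Set E}, MeasurableSet A → ν.real A = (stdGaussian E).real (Q ∩ A) := by
    intro A hA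
    rw [hν, measureReal_restrict_apply hA, inter_comm]
  set y : E →ₗ[ℝ] ℝ := (innerSL ℝ a : E →L[ℝ] ℝ).toLinearMap with hy
  have hyx : ∀ x, y x = ⟪a, x⟫ := fun x => rfl
  have hym : Measurable y := by
    have : (fun x => y x) = fun x : E => ⟪a, x⟫ := rfl
    show Measurable (fun x => y x)
    rw [this]; fun_prop
  have hXm : Measurable fun x => ‖(X.toLinearMap) x‖ := by
    have : (fun x => ‖(X.toLinearMap) x‖) = fun x : E => ‖X x‖ := rfl
    rw [this]
    exact (X.continuous.norm).measurable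
  have hmX : ∀ c : ℝ, MeasurableSet {x : E | ‖X x‖ ≤ c} := fun c =>
    measurableSet_le (X.continuous.norm).measurable measurable_const
  have hu : ν.real univ = (stdGaussian E).real Q := by
    rw [happ MeasurableSet.univ, inter_univ]
  have key := Crest.Agent.R239.ShiftQ686.shiftQ_core (ν := ν) (y := y) hPL hSy hym
    (X := X.toLinearMap) hXm (R := R) (σ := 4 * ‖a‖) hR (by positivity)
    (by
      have hm : MeasurableSet {x : E | R < ‖(X.toLinearMap) x‖} :=
        measurableSet_lt measurable_const hXm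
      rw [happ hm]
      have : Q ∩ {x : E | R < ‖(X.toLinearMap) x‖} = ∅ := by
        ext x
        simp only [mem_inter_iff, mem_empty_iff_false, iff_false, not_and]
        intro hx hx'
        exact absurd (hXR x hx) (not_le.2 hx')
      rw [this]; simp)
    (by
      rw [hu, happ (A := {x : E | ‖(X.toLinearMap) x‖ ≤ R / 2}) (hmX (R / 2))]
      exact hhalf)
    (by
      intro u hu0
      rw [hu]
      unfold tl
      have hm : MeasurableSet {x : E | u ≤ y x} := measurableSet_le measurable_const hym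
      rw [happ hm]
      exact tail_of_SL hSL hQm hQc hQs ha hu0)
  rw [hu] at key
  have hm : MeasurableSet {x : E | R ^ 2 < ‖(X.toLinearMap) x‖ ^ 2 + y x ^ 2} :=
    measurableSet_lt measurable_const ((hXm.pow_const 2).add (hym.pow_const 2))
  rw [happ hm] at key
  refine key.trans (le_of_eq ?_)
  ring

end Crest.Agent.R239.ShiftG686
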