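import Crest.Agent.R239.Shift_147

/-!
# R239, block G7 (helper147): variants of the shift lemma

* `shift_add`   : `ν {R < ‖X‖ + |y|} ≤ 700 (σ/R) ν univ`
* `shift_quad`  : `ν {R² < ‖X‖² + y²} ≤ 500 (σ²/R²) ν univ`,  `∫ y² dν ≤ σ² ν univ`
* `shift_quad2` : two functionals.
-/

set_option autoImplicit false
set_option linter.unusedSectionVars false
open MeasureTheory Set
open scoped ENNReal NNReal Pointwise

namespace Crest.Agent.R239.Shift147

section variants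

variable {F : Type*} [AddCommGroup F] [Module ℝ F] [MeasurableSpace F]
variable {ν : Measure F} [IsFiniteMeasure ν] {y : F →ₗ[ℝ] ℝ}
variable {E : Type*} [NormedAddCommGroup E] [NormedSpace ℝ E]

lemma measurable_abs_comp {f : F → ℝ} (hf : Measurable f) : Measurable fun x => |f x| :=
  continuous_abs.measurable.comp hf

/-- **B4, sum form** (383). -/
theorem shift_add (hν : PLset ν) (hs : Sym ν) (hy : Measurable y) {X : F →ₗ[ℝ] E}
    (hXm : Measurable fun x => ‖X x‖) {R σ : ℝ} (hR : 0 < R) (hσ : 0 < σ) (hXR : ν.real {x | R < ‖X x‖} = 0)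
    (hhalf : ν.real univ ≤ 2 * ν.real {x | ‖X x‖ ≤ R / 2})
    (hcheb : ∀ u : ℝ, 0 < u → tl ν y u ≤ σ ^ 2 / u ^ 2 * ν.real univ) :
    ν.real {x | R < ‖X x‖ + |y x|} ≤ 700 * (σ / R) * ν.real univ := by
  set M := ν.real univ with hM
  have hM0 : 0 ≤ M := measureReal_nonneg
  have hym : ∀ c : ℝ, MeasurableSet {x : F | c ≤ y x} := fun c =>
    measurableSet_le measurable_const hy
  -- the k-th layer
  have hlayer : ∀ k : ℕ, ν.real {x | 2 ^ k * σ ≤ y x ∧ R - 2 ^ (k + 1) * σ < ‖X x‖}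
      ≤ 152 * (σ / R) * M * (1 / 2) ^ k := by
    intro k
    have h2k : (0:ℝ) < 2 ^ k := by positivity
    have hu : (0:ℝ) < 2 ^ k * σ := by positivity
    have e2 : ((1:ℝ) / 2) ^ k = 1 / 2 ^ k := by rw [one_div, inv_pow, one_div]
    by_cases hd : 2 * (2 ^ k * σ) / R ≤ 1 / 8
    · have h1 := layer_le hν hs hy hXm hXR hhalf hu.le (δ := 2 * (2 ^ k * σ) / R)
        (by positivity) hd
      have e1 : R * (1 - 2 * (2 ^ k * σ) / R) = R - 2 ^ (k + 1) * σ := by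
        field_simp; ring
      rw [e1] at h1
      have h2 := hcheb (2 ^ k * σ / 2) (by positivity)
      calc ν.real {x | 2 ^ k * σ ≤ y x ∧ R - 2 ^ (k + 1) * σ < ‖X x‖}
          ≤ 19 * (2 * (2 ^ k * σ) / R) * tl ν y (2 ^ k * σ / 2) := h1
        _ ≤ 19 * (2 * (2 ^ k * σ) / R) * (σ ^ 2 / (2 ^ k * σ / 2) ^ 2 * M) := by gcongr
        _ = 152 * (σ / R) * M * (1 / 2) ^ k := by
            rw [e2]; field_simp; ring
    · have h1 : ν.real {x | 2 ^ k * σ ≤ y x ∧ R - 2 ^ (k + 1) * σ < ‖X x‖} ≤ tl ν y (2 ^ k * σ) :=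
        measureReal_mono (fun x hx => hx.1)
      have h2 := hcheb (2 ^ k * σ) hu
      have h3 : 1 / 8 < 2 * (2 ^ k * σ) / R := not_le.1 hd
      have h4 : R < 16 * (2 ^ k * σ) := by
        rw [lt_div_iff₀ hR] at h3; linarith
      refine h1.trans (h2.trans ?_)
      have h5 : σ ^ 2 / (2 ^ k * σ) ^ 2 = (1 / 2 ^ k) * (1 / 2 ^ k) := by field_simp
      rw [h5, e2]
      have h6 : 1 / 2 ^ k ≤ 16 * (σ / R) := by
        rw [div_le_iff₀ h2k, mul_assoc, mul_comm (σ / R), ← mul_assoc, ← mul_div_assoc,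
          le_div_iff₀ hR]
        linarith
      have h7 : (0:ℝ) ≤ σ / R := by positivity
      calc (1:ℝ) / 2 ^ k * (1 / 2 ^ k) * M ≤ (16 * (σ / R)) * (1 / 2 ^ k) * M := by gcongr
        _ = 16 * (σ / R) * M * (1 / 2 ^ k) := by ring
        _ ≤ 152 * (σ / R) * M * (1 / 2 ^ k) := by
            have : 0 ≤ (σ / R) * M * (1 / 2 ^ k) := by positivity
            nlinarith
  -- the first layer
  have hfirst : ν.real {x | 0 ≤ y x ∧ R - σ < ‖X x‖} ≤ 19 * (σ / R) * M := by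
    by_cases hd : σ / R ≤ 1 / 8
    · have h1 := layer_le hν hs hy hXm hXR hhalf (le_refl (0:ℝ)) (δ := σ / R)
        (by positivity) hd
      have e1 : R * (1 - σ / R) = R - σ := by field_simp
      rw [e1] at h1
      refine h1.trans ?_
      have : tl ν y (0 / 2) ≤ M := measureReal_mono (subset_univ _)
      gcongr
    · have h3 : 1 / 8 < σ / R := not_le.1 hd
      have : ν.real {x | 0 ≤ y x ∧ R - σ < ‖X x‖} ≤ M := measureReal_mono (subset_univ _)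
      nlinarith
  -- half of the bad set
  set S : Set F := {x | R < ‖X x‖ + |y x|} with hS
  have hSm : MeasurableSet S := measurableSet_lt measurable_const (hXm.add (measurable_abs_comp hy))
  have hSy : MeasurableSet (S ∩ {x | 0 ≤ y x}) := hSm.inter (hym 0)
  have hhalfS : ν.real S ≤ 2 * ν.real (S ∩ {x | 0 ≤ y x}) := by
    have h1 : ν.real (-(S ∩ {x | 0 ≤ y x})) = ν.real (S ∩ {x | 0 ≤ y x}) := hs.real hSy
    have h2 : S ⊆ (S ∩ {x | 0 ≤ y x}) ∪ (-(S ∩ {x | 0 ≤ y x})) := by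
      intro x hx
      rcases le_total 0 (y x) with h | h
      · exact Or.inl ⟨hx, h⟩
      · right
        have hx' : R < ‖X x‖ + |y x| := hx
        refine ⟨?_, ?_⟩
        · show R < ‖X (-x)‖ + |y (-x)|
          rw [map_neg, map_neg, norm_neg, abs_neg]; exact hx'
        · show 0 ≤ y (-x)
          rw [map_neg]; linarith
    have h3 := (measureReal_mono (μ := ν) h2).trans (measureReal_union_le _ _)
    linarith
  -- covering
  have hcov : S ∩ {x | 0 ≤ y x} ⊆ {x | 0 ≤ y x ∧ R - σ < ‖X x‖} ∪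
      ⋃ k : ℕ, {x | 2 ^ k * σ ≤ y x ∧ R - 2 ^ (k + 1) * σ < ‖X x‖} := by
    rintro x ⟨hx1, hx2⟩
    have hx1' : R < ‖X x‖ + |y x| := hx1
    have hx2' : 0 ≤ y x := hx2
    rw [abs_of_nonneg hx2'] at hx1'
    by_cases h : y x < σ
    · left
      exact ⟨hx2', by linarith⟩
    · right
      have h' : 1 ≤ y x / σ := by rw [le_div_iff₀ hσ]; linarith [not_lt.1 h]
      obtain ⟨k, hk1, hk2⟩ := exists_nat_pow_near h' (by norm_num : (1:ℝ) < 2)
      rw [mem_iUnion]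
      refine ⟨k, ?_, ?_⟩
      · rw [le_div_iff₀ hσ] at hk1; exact hk1
      · rw [div_lt_iff₀ hσ] at hk2; linarith
  have hsum : ν.real (⋃ k : ℕ, {x | 2 ^ k * σ ≤ y x ∧ R - 2 ^ (k + 1) * σ < ‖X x‖})
      ≤ 152 * (σ / R) * M * 2 := by
    have hgeo : Summable fun k : ℕ => 152 * (σ / R) * M * (1 / 2 : ℝ) ^ k :=
      (summable_geometric_of_lt_one (by norm_num) (by norm_num)).mul_left _
    have hs1 : Summable fun k : ℕ =>
        ν.real {x | 2 ^ k * σ ≤ y x ∧ R - 2 ^ (k + 1) * σ < ‖X x‖} :=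
      Summable.of_nonneg_of_le (fun _ => measureReal_nonneg) hlayer hgeo
    have h1 : ν (⋃ k : ℕ, {x | 2 ^ k * σ ≤ y x ∧ R - 2 ^ (k + 1) * σ < ‖X x‖})
        ≤ ∑' k : ℕ, ν {x | 2 ^ k * σ ≤ y x ∧ R - 2 ^ (k + 1) * σ < ‖X x‖} := measure_iUnion_le _
    have h2 : (∑' k : ℕ, ν {x | 2 ^ k * σ ≤ y x ∧ R - 2 ^ (k + 1) * σ < ‖X x‖})
        ≤ ENNReal.ofReal (152 * (σ / R) * M * 2) := by
      calc (∑' k : ℕ, ν {x | 2 ^ k * σ ≤ y x ∧ R - 2 ^ (k + 1) * σ < ‖X x‖})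
          = ∑' k : ℕ, ENNReal.ofReal
            (ν.real {x | 2 ^ k * σ ≤ y x ∧ R - 2 ^ (k + 1) * σ < ‖X x‖}) := by
            congr 1; ext k; rw [Measure.real, ENNReal.ofReal_toReal (measure_ne_top _ _)]
        _ = ENNReal.ofReal (∑' k : ℕ,
            ν.real {x | 2 ^ k * σ ≤ y x ∧ R - 2 ^ (k + 1) * σ < ‖X x‖}) :=
            (ENNReal.ofReal_tsum_of_nonneg (fun _ => measureReal_nonneg) hs1).symm
        _ ≤ ENNReal.ofReal (∑' k : ℕ, 152 * (σ / R) * M * (1 / 2 : ℝ) ^ k) :=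
            ENNReal.ofReal_le_ofReal (hs1.tsum_le_tsum hlayer hgeo)
        _ = _ := by rw [tsum_mul_left, tsum_geometric_two]
    have h3 := ENNReal.toReal_mono ENNReal.ofReal_ne_top (h1.trans h2)
    rwa [ENNReal.toReal_ofReal (by positivity)] at h3
  have h1 := (measureReal_mono (μ := ν) hcov).trans (measureReal_union_le _ _)
  have h7 : (0:ℝ) ≤ (σ / R) * M := by positivity
  nlinarith

/-- pointwise dyadic sum -/
lemma dyadic_sum_le {s t : ℝ} (hs : 0 < s) (n : ℕ) :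
    ∑ k ∈ Finset.range n, (if 2 ^ k * s / 2 ≤ t then (4:ℝ) ^ k * s ^ 2 else 0) ≤ 16 / 3 * t ^ 2 := by
  induction n with
  | zero => simp; positivity
  | succ n ih =>
    rw [Finset.sum_range_succ]
    split_ifs with h
    · have h1 : ∑ k ∈ Finset.range n, (if 2 ^ k * s / 2 ≤ t then (4:ℝ) ^ k * s ^ 2 else 0)
          ≤ ∑ k ∈ Finset.range n, (4:ℝ) ^ k * s ^ 2 := by
        refine Finset.sum_le_sum fun k _ => ?_
        split_ifs
        · exact le_rfl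
        · positivity
      rw [← Finset.sum_mul, geom_sum_eq (by norm_num)] at h1
      have h2 : (4:ℝ) ^ n * s ^ 2 ≤ 4 * t ^ 2 := by
        have : (4:ℝ) ^ n * s ^ 2 = 4 * (2 ^ n * s / 2) ^ 2 := by
          rw [show (4:ℝ) = 2 ^ 2 by norm_num, ← pow_mul]; ring
        rw [this]
        have h0 : 0 ≤ 2 ^ n * s / 2 := by positivity
        gcongr
      have h3 : 0 ≤ s ^ 2 := by positivity
      nlinarith
    · simpa using ih

lemma tl_eq_integral (hy : Measurable y) (u : ℝ) :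
    tl ν y u = ∫ x, (if u ≤ y x then (1:ℝ) else 0) ∂ν := by
  have : (fun x => if u ≤ y x then (1:ℝ) else 0) = {x | u ≤ y x}.indicator (fun _ => (1:ℝ)) := by
    ext x; simp [indicator]
  rw [this, integral_indicator (measurableSet_le measurable_const hy)]
  simp [tl]

lemma tail_sum_le (hy : Measurable y) {s : ℝ} (hs : 0 < s)
    (hint : Integrable (fun x => (y x) ^ 2) ν) (n : ℕ) :
    ∑ k ∈ Finset.range n, (4:ℝ) ^ k * s ^ 2 * tl ν y (2 ^ k * s / 2)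
      ≤ 16 / 3 * ∫ x, (y x) ^ 2 ∂ν := by
  have h1 : ∑ k ∈ Finset.range n, (4:ℝ) ^ k * s ^ 2 * tl ν y (2 ^ k * s / 2)
      = ∫ x, ∑ k ∈ Finset.range n, (if 2 ^ k * s / 2 ≤ y x then (4:ℝ) ^ k * s ^ 2 else 0) ∂ν := by
    rw [integral_finset_sum]
    · refine Finset.sum_congr rfl fun k _ => ?_
      rw [tl_eq_integral hy, ← integral_const_mul]
      congr 1
      ext x
      split_ifs <;> simp
    · intro k _
      have hm : Measurable fun x => (if 2 ^ k * s / 2 ≤ y x then (4:ℝ) ^ k * s ^ 2 else 0) :=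
        Measurable.ite (measurableSet_le measurable_const hy) measurable_const measurable_const
      refine Integrable.of_bound hm.aestronglyMeasurable ((4:ℝ) ^ k * s ^ 2) ?_
      filter_upwards with x
      split_ifs
      · rw [Real.norm_of_nonneg (by positivity)]
      · simp; positivity
  rw [h1, ← integral_const_mul]
  refine integral_mono_of_nonneg ?_ (hint.const_mul _) ?_
  · filter_upwards with x
    refine Finset.sum_nonneg fun k _ => ?_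
    split_ifs
    · positivity
    · exact le_rfl
  · filter_upwards with x
    rcases le_or_gt 0 (y x) with h | h
    · exact dyadic_sum_le hs n
    · have : ∑ k ∈ Finset.range n, (if 2 ^ k * s / 2 ≤ y x then (4:ℝ) ^ k * s ^ 2 else 0) = 0 := by
        refine Finset.sum_eq_zero fun k _ => ?_
        rw [if_neg]
        have : 0 < 2 ^ k * s / 2 := by positivity
        linarith
      simp only [this]
      positivity

/-- **B4-quad**. -/
theorem shift_quad (hν : PLset ν) (hs : Sym ν) (hy : Measurable y) {X : F →ₗ[ℝ] E}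
    (hXm : Measurable fun x => ‖X x‖) {R σ : ℝ} (hR : 0 < R) (hσ : 0 < σ)
    (hXR : ν.real {x | R < ‖X x‖} = 0)
    (hhalf : ν.real univ ≤ 2 * ν.real {x | ‖X x‖ ≤ R / 2})
    (hint : Integrable (fun x => (y x) ^ 2) ν)
    (hvar : ∫ x, (y x) ^ 2 ∂ν ≤ σ ^ 2 * ν.real univ) :
    ν.real {x | R ^ 2 < ‖X x‖ ^ 2 + (y x) ^ 2} ≤ 900 * (σ ^ 2 / R ^ 2) * ν.real univ := by
  set M := ν.real univ with hM
  have hM0 : 0 ≤ M := measureReal_nonneg
  have hym : ∀ c : ℝ, MeasurableSet {x : F | c ≤ y x} := fun c =>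
    measurableSet_le measurable_const hy
  -- generic layer
  have hgen : ∀ u a : ℝ, 0 ≤ u → 0 < a →
      ν.real {x | u ≤ y x ∧ R ^ 2 < ‖X x‖ ^ 2 + a ^ 2} ≤ 19 * (a ^ 2 / R ^ 2) * tl ν y (u / 2) := by
    intro u a hu ha
    by_cases hd : a ^ 2 / R ^ 2 ≤ 1 / 8
    · have h1 := layer_le hν hs hy hXm hXR hhalf hu (δ := a ^ 2 / R ^ 2) (by positivity) hd
      refine le_trans (measureReal_mono ?_) h1
      rintro x ⟨hx1, hx2⟩
      refine ⟨hx1, ?_⟩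
      by_contra hcon
      have hcon' : ‖X x‖ ≤ R * (1 - a ^ 2 / R ^ 2) := not_lt.1 hcon
      have h3 : R ^ 2 * (a ^ 2 / R ^ 2) = a ^ 2 := by field_simp
      have h0 : 0 < a ^ 2 / R ^ 2 := by positivity
      have h4 : ‖X x‖ ^ 2 ≤ (R * (1 - a ^ 2 / R ^ 2)) ^ 2 := by
        have := norm_nonneg (X x)
        gcongr
      have h5 : (R * (1 - a ^ 2 / R ^ 2)) ^ 2 ≤ R ^ 2 - a ^ 2 := by
        have e : (R * (1 - a ^ 2 / R ^ 2)) ^ 2
            = R ^ 2 - a ^ 2 - a ^ 2 * (1 - a ^ 2 / R ^ 2) := by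
          have : (R * (1 - a ^ 2 / R ^ 2)) ^ 2 = R ^ 2 - 2 * (R ^ 2 * (a ^ 2 / R ^ 2))
              + (R ^ 2 * (a ^ 2 / R ^ 2)) * (a ^ 2 / R ^ 2) := by ring
          rw [this, h3]; ring
        rw [e]
        have : 0 ≤ a ^ 2 * (1 - a ^ 2 / R ^ 2) := by
          apply mul_nonneg (by positivity); linarith
        linarith
      have hx2' : R ^ 2 < ‖X x‖ ^ 2 + a ^ 2 := hx2
      linarith
    · have h1 : ν.real {x | u ≤ y x ∧ R ^ 2 < ‖X x‖ ^ 2 + a ^ 2} ≤ tl ν y (u / 2) := by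
        refine measureReal_mono fun x hx => ?_
        have : u ≤ y x := hx.1
        show u / 2 ≤ y x
        linarith
      have h3 : 1 / 8 < a ^ 2 / R ^ 2 := not_le.1 hd
      have := tl_nonneg (ν := ν) (y := y) (u / 2)
      nlinarith
  set S : Set F := {x | R ^ 2 < ‖X x‖ ^ 2 + (y x) ^ 2} with hS
  have hSm : MeasurableSet S := measurableSet_lt measurable_const
    ((hXm.pow_const 2).add (hy.pow_const 2))
  have hSy : MeasurableSet (S ∩ {x | 0 ≤ y x}) := hSm.inter (hym 0)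
  have hhalfS : ν.real S ≤ 2 * ν.real (S ∩ {x | 0 ≤ y x}) := by
    have h1 : ν.real (-(S ∩ {x | 0 ≤ y x})) = ν.real (S ∩ {x | 0 ≤ y x}) := hs.real hSy
    have h2 : S ⊆ (S ∩ {x | 0 ≤ y x}) ∪ (-(S ∩ {x | 0 ≤ y x})) := by
      intro x hx
      rcases le_total 0 (y x) with h | h
      · exact Or.inl ⟨hx, h⟩
      · right
        have hx' : R ^ 2 < ‖X x‖ ^ 2 + (y x) ^ 2 := hx
        refine ⟨?_, ?_⟩
        · show R ^ 2 < ‖X (-x)‖ ^ 2 + (y (-x)) ^ 2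
          rw [map_neg, map_neg, norm_neg, neg_sq]; exact hx'
        · show 0 ≤ y (-x)
          rw [map_neg]; linarith
    have h3 := (measureReal_mono (μ := ν) h2).trans (measureReal_union_le _ _)
    linarith
  have hcov : S ∩ {x | 0 ≤ y x} ⊆ {x | 0 ≤ y x ∧ R ^ 2 < ‖X x‖ ^ 2 + σ ^ 2} ∪
      ⋃ k : ℕ, {x | 2 ^ k * σ ≤ y x ∧ R ^ 2 < ‖X x‖ ^ 2 + (2 ^ (k + 1) * σ) ^ 2} := by
    rintro x ⟨hx1, hx2⟩
    have hx1' : R ^ 2 < ‖X x‖ ^ 2 + (y x) ^ 2 := hx1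
    have hx2' : 0 ≤ y x := hx2
    by_cases h : y x < σ
    · left
      refine ⟨hx2', ?_⟩
      have : (y x) ^ 2 ≤ σ ^ 2 := by gcongr
      linarith
    · right
      have h' : 1 ≤ y x / σ := by rw [le_div_iff₀ hσ]; linarith [not_lt.1 h]
      obtain ⟨k, hk1, hk2⟩ := exists_nat_pow_near h' (by norm_num : (1:ℝ) < 2)
      rw [mem_iUnion]
      refine ⟨k, ?_, ?_⟩
      · rw [le_div_iff₀ hσ] at hk1; exact hk1
      · rw [div_lt_iff₀ hσ] at hk2
        have : (y x) ^ 2 ≤ (2 ^ (k + 1) * σ) ^ 2 := by gcongr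
        linarith
  have hfirst : ν.real {x | 0 ≤ y x ∧ R ^ 2 < ‖X x‖ ^ 2 + σ ^ 2} ≤ 19 * (σ ^ 2 / R ^ 2) * M := by
    refine (hgen 0 σ le_rfl hσ).trans ?_
    have : tl ν y (0 / 2) ≤ M := measureReal_mono (subset_univ _)
    gcongr
  have hsum : ν.real (⋃ k : ℕ, {x | 2 ^ k * σ ≤ y x ∧ R ^ 2 < ‖X x‖ ^ 2 + (2 ^ (k + 1) * σ) ^ 2})
      ≤ 76 / R ^ 2 * (16 / 3 * (σ ^ 2 * M)) := by
    have hpart : ∀ n : ℕ, ∑ k ∈ Finset.range n,
        ν.real {x | 2 ^ k * σ ≤ y x ∧ R ^ 2 < ‖X x‖ ^ 2 + (2 ^ (k + 1) * σ) ^ 2}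
        ≤ 76 / R ^ 2 * (16 / 3 * (σ ^ 2 * M)) := by
      intro n
      calc ∑ k ∈ Finset.range n,
          ν.real {x | 2 ^ k * σ ≤ y x ∧ R ^ 2 < ‖X x‖ ^ 2 + (2 ^ (k + 1) * σ) ^ 2}
          ≤ ∑ k ∈ Finset.range n, 76 / R ^ 2 * ((4:ℝ) ^ k * σ ^ 2 * tl ν y (2 ^ k * σ / 2)) := by
            refine Finset.sum_le_sum fun k _ => ?_
            refine (hgen (2 ^ k * σ) (2 ^ (k + 1) * σ) (by positivity) (by positivity)).trans ?_
            have e : (2 ^ (k + 1) * σ) ^ 2 = 4 * ((4:ℝ) ^ k * σ ^ 2) := by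
              rw [show (4:ℝ) = 2 ^ 2 by norm_num, ← pow_mul]; ring
            rw [e]
            apply le_of_eq
            ring
        _ = 76 / R ^ 2 * ∑ k ∈ Finset.range n, (4:ℝ) ^ k * σ ^ 2 * tl ν y (2 ^ k * σ / 2) := by
            rw [Finset.mul_sum]
        _ ≤ 76 / R ^ 2 * (16 / 3 * ∫ x, (y x) ^ 2 ∂ν) := by
            have := tail_sum_le hy hσ hint n
            gcongr
        _ ≤ _ := by gcongr
    have h1 : ν (⋃ k : ℕ, {x | 2 ^ k * σ ≤ y x ∧ R ^ 2 < ‖X x‖ ^ 2 + (2 ^ (k + 1) * σ) ^ 2})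
        ≤ ENNReal.ofReal (76 / R ^ 2 * (16 / 3 * (σ ^ 2 * M))) := by
      refine (measure_iUnion_le _).trans ?_
      refine ENNReal.tsum_le_of_sum_range_le fun n => ?_
      have e : ∑ k ∈ Finset.range n,
          ν {x | 2 ^ k * σ ≤ y x ∧ R ^ 2 < ‖X x‖ ^ 2 + (2 ^ (k + 1) * σ) ^ 2}
          = ENNReal.ofReal (∑ k ∈ Finset.range n,
            ν.real {x | 2 ^ k * σ ≤ y x ∧ R ^ 2 < ‖X x‖ ^ 2 + (2 ^ (k + 1) * σ) ^ 2}) := by
        rw [ENNReal.ofReal_sum_of_nonneg (fun _ _ => measureReal_nonneg)]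
        refine Finset.sum_congr rfl fun k _ => ?_
        rw [Measure.real, ENNReal.ofReal_toReal (measure_ne_top _ _)]
      rw [e]
      exact ENNReal.ofReal_le_ofReal (hpart n)
    have h3 := ENNReal.toReal_mono ENNReal.ofReal_ne_top h1
    rwa [ENNReal.toReal_ofReal (by positivity)] at h3
  have h1 := (measureReal_mono (μ := ν) hcov).trans (measureReal_union_le _ _)
  have h7 : (0:ℝ) ≤ (σ ^ 2 / R ^ 2) * M := by positivity
  have h8 : 76 / R ^ 2 * (16 / 3 * (σ ^ 2 * M)) = (1216 / 3) * ((σ ^ 2 / R ^ 2) * M) := by ring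
  rw [h8] at hsum
  nlinarith

/-- **B4-quad with two functionals**. -/
theorem shift_quad2 {y₁ y₂ : F →ₗ[ℝ] ℝ} (hν : PLset ν) (hs : Sym ν) (hy₁ : Measurable y₁)
    (hy₂ : Measurable y₂) {X : F →ₗ[ℝ] E}
    (hXm : Measurable fun x => ‖X x‖) {R σ₁ σ₂ : ℝ} (hR : 0 < R) (hσ₁ : 0 < σ₁) (hσ₂ : 0 < σ₂)
    (hXR : ν.real {x | R < ‖X x‖} = 0)
    (hhalf : ν.real univ ≤ 2 * ν.real {x | ‖X x‖ ≤ R / 2})
    (hint₁ : Integrable (fun x => (y₁ x) ^ 2) ν) (hint₂ : Integrable (fun x => (y₂ x) ^ 2) ν)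
    (hvar₁ : ∫ x, (y₁ x) ^ 2 ∂ν ≤ σ₁ ^ 2 * ν.real univ)
    (hvar₂ : ∫ x, (y₂ x) ^ 2 ∂ν ≤ σ₂ ^ 2 * ν.real univ) :
    ν.real {x | R ^ 2 < ‖X x‖ ^ 2 + (y₁ x) ^ 2 + (y₂ x) ^ 2}
      ≤ 1800 * ((σ₁ ^ 2 + σ₂ ^ 2) / R ^ 2) * ν.real univ := by
  have aux : ∀ (z : F →ₗ[ℝ] ℝ) (s : ℝ), Measurable z → 0 < s → Integrable (fun x => (z x) ^ 2) ν →
      ∫ x, (z x) ^ 2 ∂ν ≤ s ^ 2 * ν.real univ →
      ν.real {x | R ^ 2 < ‖X x‖ ^ 2 + 2 * (z x) ^ 2} ≤ 1800 * (s ^ 2 / R ^ 2) * ν.real univ := by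
    intro z s hz hs0 hi hv
    have hsq : Real.sqrt 2 ^ 2 = 2 := Real.sq_sqrt (by norm_num)
    have e : ∀ x, ((Real.sqrt 2 • z) x) ^ 2 = 2 * (z x) ^ 2 := by
      intro x
      rw [LinearMap.smul_apply, smul_eq_mul, mul_pow, hsq]
    have h := shift_quad (y := Real.sqrt 2 • z) (σ := Real.sqrt 2 * s) hν hs
      (by exact hz.const_mul (Real.sqrt 2)) hXm hR (by positivity) hXR hhalf
      (by simp_rw [e]; exact hi.const_mul 2)
      (by simp_rw [e]; rw [integral_const_mul, mul_pow, hsq]; linarith)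
    simp_rw [e] at h
    refine h.trans (le_of_eq ?_)
    rw [mul_pow, hsq]; ring
  have hsub : {x | R ^ 2 < ‖X x‖ ^ 2 + (y₁ x) ^ 2 + (y₂ x) ^ 2}
      ⊆ {x | R ^ 2 < ‖X x‖ ^ 2 + 2 * (y₁ x) ^ 2} ∪ {x | R ^ 2 < ‖X x‖ ^ 2 + 2 * (y₂ x) ^ 2} := by
    intro x hx
    have hx' : R ^ 2 < ‖X x‖ ^ 2 + (y₁ x) ^ 2 + (y₂ x) ^ 2 := hx
    rcases le_total ((y₁ x) ^ 2) ((y₂ x) ^ 2) with h | h
    · right; show R ^ 2 < ‖X x‖ ^ 2 + 2 * (y₂ x) ^ 2; linarith
    · left; show R ^ 2 < ‖X x‖ ^ 2 + 2 * (y₁ x) ^ 2; linarith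
  have h := (measureReal_mono (μ := ν) hsub).trans (measureReal_union_le _ _)
  have h1 := aux y₁ σ₁ hy₁ hσ₁ hint₁ hvar₁
  have h2 := aux y₂ σ₂ hy₂ hσ₂ hint₂ hvar₂
  calc _ ≤ _ := h
    _ ≤ 1800 * (σ₁ ^ 2 / R ^ 2) * ν.real univ + 1800 * (σ₂ ^ 2 / R ^ 2) * ν.real univ := by
        linarith
    _ = _ := by ring

end variants

end Crest.Agent.R239.Shift147
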