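import Crest.Agent.R239.Shift_147b
import Crest.Agent.R239.Gau1
import Crest.Agent.R239.LineGauss

/-!
# R239, block G7 (helper147): the shift lemma for `gau A` restricted to a symmetric convex set
-/

set_option autoImplicit false
set_option linter.unusedSectionVars false
open MeasureTheory ProbabilityTheory Set
open scoped RealInnerProductSpace ENNReal NNReal Pointwise

namespace Crest.Agent.R239.Shift147

open Crest.Agent.Lib.PrekopaLeindler Crest.Agent.R239

theorem PLset_of_PL {F : Type*} [AddCommGroup F] [Module ℝ F] [MeasurableSpace F] {ν : Measure F}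
    (h : PL F ν) : PLset ν := by
  intro t ht0 ht1 A B C hA hB hC H
  have := h t ht0 ht1 (A.indicator 1) (B.indicator 1) (C.indicator 1)
    (measurable_one.indicator hA) (measurable_one.indicator hB) (measurable_one.indicator hC) (by
      intro x y
      by_cases hx : x ∈ A
      · by_cases hy : y ∈ B
        · rw [indicator_of_mem hx, indicator_of_mem hy, indicator_of_mem (H x hx y hy)]
          simp
        · rw [indicator_of_notMem hy, ENNReal.zero_rpow_of_pos ht0, mul_zero]; exact bot_le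
      · rw [indicator_of_notMem hx, ENNReal.zero_rpow_of_pos (by linarith), zero_mul]
        exact bot_le)
  rwa [lintegral_indicator_one hA, lintegral_indicator_one hB, lintegral_indicator_one hC] at this

section gau

variable {E : Type*} [NormedAddCommGroup E] [InnerProductSpace ℝ E] [FiniteDimensional ℝ E]
  [MeasurableSpace E] [BorelSpace E]
variable {F : Type*} [NormedAddCommGroup F] [InnerProductSpace ℝ F] [FiniteDimensional ℝ F]
  [MeasurableSpace F] [BorelSpace F]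

theorem PLset_std : PLset (stdGaussian E) := PLset_of_PL PL_std

theorem PLset_gau (A : F →L[ℝ] E) : PLset (gau A) := by
  intro t ht0 ht1 S T U hS hT hU H
  rw [gau_apply A hS, gau_apply A hT, gau_apply A hU]
  refine PLset_std t ht0 ht1 _ _ _ (A.continuous.measurable hS) (A.continuous.measurable hT)
    (A.continuous.measurable hU) ?_
  intro a ha b hb
  show A ((1 - t) • a + t • b) ∈ U
  rw [map_add, map_smul, map_smul]
  exact H _ ha _ hb

theorem Sym_gau (A : F →L[ℝ] E) : Sym (gau A) := by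
  intro S hS
  have h : gau (-A) = gau A := gau_ext (fun t => by simp)
  rw [gau_apply A hS.neg, ← h, gau_apply (-A) hS]
  congr 1

theorem Sym_std : Sym (stdGaussian E) := by
  rw [← gau_id]; exact Sym_gau _

lemma integrable_sq_gau (A : F →L[ℝ] E) (y : E →L[ℝ] ℝ) :
    Integrable (fun x => (y x) ^ 2) (gau A) := by
  unfold gau
  rw [integrable_map_measure (by fun_prop) A.continuous.aemeasurable]
  have h := (IsGaussian.memLp_dual (stdGaussian F) (y ∘L A) 2 (by simp)).integrable_sq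
  exact h

variable {E' : Type*} [NormedAddCommGroup E'] [NormedSpace ℝ E']

lemma aux_zero {ν : Measure E} {Q : Set E} {X : E →L[ℝ] E'} {R : ℝ}
    (hXR : ∀ x ∈ Q, ‖X x‖ ≤ R) : (ν.restrict Q).real {x | R < ‖X x‖} = 0 := by
  have hm : MeasurableSet {x : E | R < ‖X x‖} :=
    measurableSet_lt measurable_const X.continuous.norm.measurable
  rw [measureReal_restrict_apply hm]
  have : {x | R < ‖X x‖} ∩ Q = ∅ := by
    ext x
    simp only [mem_inter_iff, mem_empty_iff_false, iff_false, not_and]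
    intro h hx
    exact absurd h (not_lt.2 (hXR x hx))
  rw [this]; simp

lemma limit_aux {a b c : ℝ} (hc : 0 ≤ c) (h : ∀ ε > 0, a ≤ b + ε * c) : a ≤ b := by
  refine le_of_forall_pos_le_add fun δ hδ => ?_
  have h1 := h (δ / (c + 1)) (by positivity)
  have h2 : δ / (c + 1) * c ≤ δ := by
    rw [div_mul_eq_mul_div, div_le_iff₀ (by linarith)]
    nlinarith
  linarith

/-- **B4-quad for Gaussians, one functional.** -/
theorem gau_shift_quad (A : F →L[ℝ] E) {Q : Set E} (hQ : Convex ℝ Q) (hQs : ∀ x ∈ Q, -x ∈ Q)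
    (hQm : MeasurableSet Q) (X : E →L[ℝ] E') (y : E →L[ℝ] ℝ) {R v : ℝ} (hR : 0 < R) (hv0 : 0 ≤ v)
    (hXR : ∀ x ∈ Q, ‖X x‖ ≤ R)
    (hhalf : (gau A).real Q ≤ 2 * (gau A).real (Q ∩ {x | ‖X x‖ ≤ R / 2}))
    (hv : ∫ x in Q, (y x) ^ 2 ∂(gau A) ≤ v * (gau A).real Q) :
    (gau A).real (Q ∩ {x | R ^ 2 < ‖X x‖ ^ 2 + (y x) ^ 2}) ≤ 900 * (v / R ^ 2) * (gau A).real Q := by
  have hM0 : 0 ≤ (gau A).real Q := measureReal_nonneg
  refine limit_aux (c := 900 / R ^ 2 * (gau A).real Q) (by positivity) fun ε hε => ?_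
  have hXle : MeasurableSet {x : E | ‖X x‖ ≤ R / 2} :=
    measurableSet_le X.continuous.norm.measurable measurable_const
  have hbad : MeasurableSet {x : E | R ^ 2 < ‖X x‖ ^ 2 + (y x) ^ 2} :=
    measurableSet_lt measurable_const
      ((X.continuous.norm.pow 2).add (y.continuous.pow 2)).measurable
  have h := shift_quad (ν := (gau A).restrict Q) (y := (y : E →ₗ[ℝ] ℝ)) (X := (X : E →ₗ[ℝ] E'))
    (R := R) (σ := Real.sqrt (v + ε)) ((PLset_gau A).restrict hQ hQm) ((Sym_gau A).restrict hQs hQm)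
    y.continuous.measurable X.continuous.norm.measurable hR (Real.sqrt_pos.2 (by linarith))
    (aux_zero hXR)
    (by
      rw [measureReal_restrict_apply MeasurableSet.univ, univ_inter]
      have hr : ((gau A).restrict Q).real {x | ‖X x‖ ≤ R / 2}
          = (gau A).real (Q ∩ {x | ‖X x‖ ≤ R / 2}) := by
        rw [measureReal_restrict_apply hXle, inter_comm]
      exact hhalf.trans_eq (by rw [← hr]; rfl))
    (integrable_sq_gau A y).integrableOn
    (by
      rw [measureReal_restrict_apply MeasurableSet.univ, univ_inter,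
        Real.sq_sqrt (by linarith)]
      refine hv.trans ?_
      gcongr
      linarith)
  rw [measureReal_restrict_apply MeasurableSet.univ, univ_inter, Real.sq_sqrt (by linarith)] at h
  have h' : (gau A).real (Q ∩ {x | R ^ 2 < ‖X x‖ ^ 2 + (y x) ^ 2})
      ≤ 900 * ((v + ε) / R ^ 2) * (gau A).real Q := by
    refine le_trans (le_of_eq ?_) h
    rw [inter_comm]
    exact (measureReal_restrict_apply hbad).symm
  refine h'.trans (le_of_eq ?_)
  ring

/-- **B4-quad for Gaussians, two functionals.** -/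
theorem gau_shift_quad2 (A : F →L[ℝ] E) {Q : Set E} (hQ : Convex ℝ Q) (hQs : ∀ x ∈ Q, -x ∈ Q)
    (hQm : MeasurableSet Q) (X : E →L[ℝ] E') (y₁ y₂ : E →L[ℝ] ℝ) {R v₁ v₂ : ℝ} (hR : 0 < R)
    (hv₁0 : 0 ≤ v₁) (hv₂0 : 0 ≤ v₂) (hXR : ∀ x ∈ Q, ‖X x‖ ≤ R)
    (hhalf : (gau A).real Q ≤ 2 * (gau A).real (Q ∩ {x | ‖X x‖ ≤ R / 2}))
    (hv₁ : ∫ x in Q, (y₁ x) ^ 2 ∂(gau A) ≤ v₁ * (gau A).real Q)
    (hv₂ : ∫ x in Q, (y₂ x) ^ 2 ∂(gau A) ≤ v₂ * (gau A).real Q) :
    (gau A).real (Q ∩ {x | R ^ 2 < ‖X x‖ ^ 2 + (y₁ x) ^ 2 + (y₂ x) ^ 2})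
      ≤ 1800 * ((v₁ + v₂) / R ^ 2) * (gau A).real Q := by
  have aux : ∀ (z : E →L[ℝ] ℝ) (v : ℝ), 0 ≤ v →
      ∫ x in Q, (z x) ^ 2 ∂(gau A) ≤ v * (gau A).real Q →
      (gau A).real (Q ∩ {x | R ^ 2 < ‖X x‖ ^ 2 + 2 * (z x) ^ 2})
        ≤ 1800 * (v / R ^ 2) * (gau A).real Q := by
    intro z v hv0 hv
    have hsq : Real.sqrt 2 ^ 2 = 2 := Real.sq_sqrt (by norm_num)
    have e : ∀ x, ((Real.sqrt 2 • z) x) ^ 2 = 2 * (z x) ^ 2 := by
      intro x
      rw [ContinuousLinearMap.smul_apply, smul_eq_mul, mul_pow, hsq]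
    have h := gau_shift_quad A hQ hQs hQm X (Real.sqrt 2 • z) (v := 2 * v) hR (by linarith) hXR hhalf
      (by simp_rw [e]; rw [integral_const_mul]; linarith)
    simp_rw [e] at h
    refine h.trans (le_of_eq ?_)
    ring
  have hsub : Q ∩ {x | R ^ 2 < ‖X x‖ ^ 2 + (y₁ x) ^ 2 + (y₂ x) ^ 2}
      ⊆ (Q ∩ {x | R ^ 2 < ‖X x‖ ^ 2 + 2 * (y₁ x) ^ 2}) ∪
        (Q ∩ {x | R ^ 2 < ‖X x‖ ^ 2 + 2 * (y₂ x) ^ 2}) := by
    rintro x ⟨hxQ, hx⟩
    have hx' : R ^ 2 < ‖X x‖ ^ 2 + (y₁ x) ^ 2 + (y₂ x) ^ 2 := hx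
    rcases le_total ((y₁ x) ^ 2) ((y₂ x) ^ 2) with h | h
    · right; refine ⟨hxQ, ?_⟩; show R ^ 2 < ‖X x‖ ^ 2 + 2 * (y₂ x) ^ 2; linarith
    · left; refine ⟨hxQ, ?_⟩; show R ^ 2 < ‖X x‖ ^ 2 + 2 * (y₁ x) ^ 2; linarith
  have h := (measureReal_mono (μ := gau A) hsub).trans (measureReal_union_le _ _)
  have h1 := aux y₁ v₁ hv₁0 hv₁
  have h2 := aux y₂ v₂ hv₂0 hv₂
  calc _ ≤ _ := h
    _ ≤ 1800 * (v₁ / R ^ 2) * (gau A).real Q + 1800 * (v₂ / R ^ 2) * (gau A).real Q := by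
        linarith
    _ = _ := by ring

end gau

end Crest.Agent.R239.Shift147
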