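import Mathlib

/-!
# Quadratic shift lemma (B4-quad)

`ν` a measure with the set form of Prekopa–Leindler, `Q` convex symmetric, `r` an even convex
function `≥ 0` with `r ≤ R` on `Q` and `r ≤ R/2` on half of `Q`, `y` linear with fourth moment
tails `≤ (s/u)^4`.  Then `r^2 + y^2 > R^2` only on a fraction `≤ 4000 (s/R)^2` of `Q`.
-/

set_option autoImplicit false
set_option linter.unusedSectionVars false

open MeasureTheory Set

namespace Crest.Agent.R239.Sq911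

/-- Set form of Prekopa–Leindler. -/
def PLs {E : Type*} [AddCommGroup E] [Module ℝ E] [MeasurableSpace E] (ν : Measure E) : Prop :=
  ∀ (A B C : Set E) (t : ℝ), MeasurableSet A → MeasurableSet B → MeasurableSet C → 0 < t → t < 1 →
    (∀ a ∈ A, ∀ b ∈ B, (1 - t) • a + t • b ∈ C) → ν.real A ^ (1 - t) * ν.real B ^ t ≤ ν.real C

section

variable {E : Type*} [AddCommGroup E] [Module ℝ E] [MeasurableSpace E] [MeasurableNeg E]
  {ν : Measure E}

/-- Data of the shift lemma. -/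
structure Dat (ν : Measure E) (Q : Set E) (r : E → ℝ) (R : ℝ) : Prop where
  pl : PLs ν
  neg : ∀ A, MeasurableSet A → ν.real ((fun x => -x) ⁻¹' A) = ν.real A
  Qm : MeasurableSet Q
  Qc : Convex ℝ Q
  Qs : ∀ x ∈ Q, -x ∈ Q
  Qfin : ν Q ≠ ⊤
  rm : Measurable r
  rc : ∀ a b t, 0 ≤ t → t ≤ 1 → r ((1 - t) • a + t • b) ≤ (1 - t) * r a + t * r b
  r0 : ∀ x, 0 ≤ r x
  rs : ∀ x, r (-x) = r x
  rR : ∀ x ∈ Q, r x ≤ R
  R0 : 0 < R
  half : ν.real Q ≤ 2 * ν.real (Q ∩ {x | r x ≤ R / 2})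

variable {Q : Set E} {r : E → ℝ} {R : ℝ}

lemma comb_mem (D : Dat ν Q r R) {a b : E} (ha : a ∈ Q) (hb : b ∈ Q) {t : ℝ} (ht0 : 0 ≤ t)
    (ht1 : t ≤ 1) : (1 - t) • a + t • b ∈ Q :=
  D.Qc ha hb (by linarith) ht0 (by ring)

lemma fin_sub (D : Dat ν Q r R) (A : Set E) : ν (Q ∩ A) ≠ ⊤ :=
  ne_top_of_le_ne_top D.Qfin (measure_mono inter_subset_left)

lemma mono' (D : Dat ν Q r R) {A B : Set E} (h : Q ∩ A ⊆ Q ∩ B) :
    ν.real (Q ∩ A) ≤ ν.real (Q ∩ B) :=
  measureReal_mono h (fin_sub D B)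

lemma refl' (D : Dat ν Q r R) (A : Set E) (hA : MeasurableSet A) :
    ν.real (Q ∩ (fun x => -x) ⁻¹' A) = ν.real (Q ∩ A) := by
  rw [← D.neg (Q ∩ A) (D.Qm.inter hA)]
  congr 1
  ext x
  simp only [mem_inter_iff, mem_preimage]
  constructor
  · rintro ⟨h1, h2⟩
    exact ⟨D.Qs x h1, h2⟩
  · rintro ⟨h1, h2⟩
    refine ⟨?_, h2⟩
    have := D.Qs _ h1
    rwa [neg_neg] at this

/-- Interval masses are decreasing. -/
lemma interval_anti (D : Dat ν Q r R) (y : E →ₗ[ℝ] ℝ) (ym : Measurable y) {a b h : ℝ}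
    (ha : 0 ≤ a) (hab : a ≤ b) (hh : 0 < h) :
    ν.real (Q ∩ {x | b ≤ y x ∧ y x < b + h}) ≤ ν.real (Q ∩ {x | a ≤ y x ∧ y x < a + h}) := by
  rcases eq_or_lt_of_le hab with rfl | hlt
  · exact le_rfl
  have hden : 0 < 2 * b + h := by linarith
  set t : ℝ := (b - a) / (2 * b + h) with ht
  have ht0 : 0 < t := div_pos (by linarith) hden
  have ht1 : t < 1 := by
    rw [ht, div_lt_one hden]; linarith
  have hte : t * (2 * b + h) = b - a := div_mul_cancel₀ _ hden.ne'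
  have m1 : MeasurableSet {x : E | b ≤ y x ∧ y x < b + h} :=
    (measurableSet_le measurable_const ym).inter (measurableSet_lt ym measurable_const)
  have m2 : MeasurableSet {x : E | a ≤ y x ∧ y x < a + h} :=
    (measurableSet_le measurable_const ym).inter (measurableSet_lt ym measurable_const)
  have hs := refl' D _ m1
  have key := D.pl (Q ∩ {x | b ≤ y x ∧ y x < b + h})
    (Q ∩ (fun x => -x) ⁻¹' {x | b ≤ y x ∧ y x < b + h}) (Q ∩ {x | a ≤ y x ∧ y x < a + h}) t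
    (D.Qm.inter m1) (D.Qm.inter (measurable_neg m1)) (D.Qm.inter m2) ht0 ht1
    (by
      rintro p ⟨hp, hp1, hp2⟩ q ⟨hq, hq1, hq2⟩
      refine ⟨comb_mem D hp hq ht0.le ht1.le, ?_⟩
      simp only [map_neg] at hq1 hq2
      simp only [mem_ofPred_eq, map_add, map_smul, smul_eq_mul]
      have e1 : (1 - t) * b - t * (b + h) = a := by nlinarith
      constructor
      · nlinarith
      · nlinarith)
  rw [hs, ← Real.rpow_add_of_nonneg measureReal_nonneg (by linarith) ht0.le] at key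
  simpa using key

/-- A short interval above `u` has small mass compared with `{y ≥ u/2}`. -/
lemma interval_small (D : Dat ν Q r R) (y : E →ₗ[ℝ] ℝ) (ym : Measurable y) {u δ : ℝ}
    (hu : 0 < u) (hδ : 0 < δ) (hδ1 : δ ≤ 1 / 16) :
    ν.real (Q ∩ {x | u ≤ y x ∧ y x < u + 4 * δ * u}) ≤ 16 * δ * ν.real (Q ∩ {x | u / 2 ≤ y x}) := by
  set h : ℝ := 4 * δ * u with hh
  have hh0 : 0 < h := by positivity
  set m : ℝ := ν.real (Q ∩ {x | u ≤ y x ∧ y x < u + h}) with hm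
  have hm0 : 0 ≤ m := measureReal_nonneg
  have hI : ∀ c d : ℝ, MeasurableSet {x : E | c ≤ y x ∧ y x < d} := fun c d =>
    (measurableSet_le measurable_const ym).inter (measurableSet_lt ym measurable_const)
  have ind : ∀ k : ℕ, (k : ℝ) * h ≤ u / 2 →
      (k : ℝ) * m ≤ ν.real (Q ∩ {x | u / 2 ≤ y x ∧ y x < u / 2 + k * h}) := by
    intro k
    induction k with
    | zero =>
      intro _
      simp only [Nat.cast_zero, zero_mul]
      exact measureReal_nonneg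
    | succ k ih =>
      intro hk
      push_cast at hk ⊢
      have hk' : (k : ℝ) * h ≤ u / 2 := by nlinarith
      have h1 := ih hk'
      have h2 : m ≤ ν.real (Q ∩ {x | u / 2 + k * h ≤ y x ∧ y x < (u / 2 + k * h) + h}) := by
        apply interval_anti D y ym (by positivity) (by linarith) hh0
      have h3 : Q ∩ {x | u / 2 ≤ y x ∧ y x < u / 2 + (k + 1) * h}
          = (Q ∩ {x | u / 2 ≤ y x ∧ y x < u / 2 + k * h}) ∪
            (Q ∩ {x | u / 2 + k * h ≤ y x ∧ y x < (u / 2 + k * h) + h}) := by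
        ext x
        simp only [mem_inter_iff, mem_ofPred_eq, mem_union]
        have hkh : 0 ≤ (k : ℝ) * h := by positivity
        constructor
        · rintro ⟨hq, ha, hb⟩
          by_cases hc : y x < u / 2 + k * h
          · exact Or.inl ⟨hq, ha, hc⟩
          · exact Or.inr ⟨hq, by linarith, by nlinarith⟩
        · rintro (⟨hq, ha, hb⟩ | ⟨hq, ha, hb⟩)
          · exact ⟨hq, ha, by nlinarith⟩
          · exact ⟨hq, by linarith, by nlinarith⟩
      rw [h3, measureReal_union (by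
        rw [Set.disjoint_left]
        rintro x ⟨_, _, h5⟩ ⟨_, h6, _⟩
        linarith) (D.Qm.inter (hI _ _)) (fin_sub D _) (fin_sub D _)]
      nlinarith
  set k : ℕ := ⌊1 / (8 * δ)⌋₊ with hk
  have hx : 1 ≤ 1 / (8 * δ) := by
    rw [le_div_iff₀ (by positivity)]; linarith
  have hk1 : (k : ℝ) ≤ 1 / (8 * δ) := Nat.floor_le (by positivity)
  have hk2 : 1 / (8 * δ) < k + 1 := Nat.lt_floor_add_one _
  have hk3 : (1 : ℝ) ≤ k := by
    have : 1 ≤ k := Nat.le_floor (by simpa using hx)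
    exact_mod_cast this
  have hkh : (k : ℝ) * h ≤ u / 2 := by
    have : (k : ℝ) * (8 * δ) ≤ 1 := by
      rwa [le_div_iff₀ (by positivity)] at hk1
    rw [hh]; nlinarith
  have h1 := ind k hkh
  have h2 : ν.real (Q ∩ {x | u / 2 ≤ y x ∧ y x < u / 2 + k * h}) ≤
      ν.real (Q ∩ {x | u / 2 ≤ y x}) :=
    mono' D (by rintro x ⟨hq, ha, _⟩; exact ⟨hq, ha⟩)
  have hk4 : 1 ≤ 16 * δ * k := by
    have h5 : 1 < (k + 1) * (8 * δ) := by
      rwa [div_lt_iff₀ (by positivity)] at hk2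
    nlinarith
  calc m ≤ 16 * δ * k * m := by nlinarith
    _ = 16 * δ * (k * m) := by ring
    _ ≤ 16 * δ * ν.real (Q ∩ {x | u / 2 ≤ y x}) := by
        apply mul_le_mul_of_nonneg_left (h1.trans h2) (by positivity)

lemma pow_low {δ : ℝ} (hδ : 0 ≤ δ) : 1 - 3 * δ ≤ (4 : ℝ) ^ (-(2 * δ)) := by
  have h1 : Real.log 4 < 1.5 := by
    have : Real.log 4 = 2 * Real.log 2 := by
      rw [show (4 : ℝ) = 2 ^ 2 by norm_num, Real.log_pow]; norm_num
    rw [this]
    have := Real.log_two_lt_d9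
    linarith
  rw [Real.rpow_def_of_pos (by norm_num)]
  have h2 := Real.add_one_le_exp (Real.log 4 * -(2 * δ))
  nlinarith

/-- Main step. -/
lemma step (D : Dat ν Q r R) (y : E →ₗ[ℝ] ℝ) (ym : Measurable y) {u δ : ℝ}
    (hu : 0 < u) (hδ : 0 < δ) (hδ1 : δ ≤ 1 / 16) :
    ν.real (Q ∩ {x | u ≤ y x ∧ R * (1 - δ) < r x}) ≤ 19 * δ * ν.real (Q ∩ {x | u / 2 ≤ y x}) := by
  set G := ν.real Q with hG
  have hG0 : 0 ≤ G := measureReal_nonneg
  set g : ℝ → ℝ := fun w => ν.real (Q ∩ {x | w ≤ y x}) with hg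
  have hge : ∀ w, g w ≤ G := fun w => measureReal_mono inter_subset_left D.Qfin
  have hg0 : ∀ w, 0 ≤ g w := fun w => measureReal_nonneg
  have hganti : ∀ {a b : ℝ}, a ≤ b → g b ≤ g a := fun {a b} hab =>
    mono' D (by rintro x ⟨hq, h1⟩; exact ⟨hq, hab.trans h1⟩)
  have mg : ∀ w, MeasurableSet {x : E | w ≤ y x} := fun w => measurableSet_le measurable_const ym
  have mr : ∀ w, MeasurableSet {x : E | r x ≤ w} := fun w => measurableSet_le D.rm measurable_const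
  -- quarter mass
  have hq : G / 4 ≤ ν.real (Q ∩ {x | 0 ≤ y x ∧ r x ≤ R / 2}) := by
    have hs := refl' D {x | 0 ≤ y x ∧ r x ≤ R / 2} ((mg 0).inter (mr _))
    have hsub : Q ∩ {x | r x ≤ R / 2} ⊆ (Q ∩ {x | 0 ≤ y x ∧ r x ≤ R / 2}) ∪
        (Q ∩ (fun x => -x) ⁻¹' {x | 0 ≤ y x ∧ r x ≤ R / 2}) := by
      rintro x ⟨hx, hr⟩
      rcases le_total 0 (y x) with h0 | h0
      · exact Or.inl ⟨hx, h0, hr⟩
      · refine Or.inr ⟨hx, ?_, ?_⟩
        · simp only [map_neg]; linarith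
        · simpa [D.rs] using hr
    have h1 : ν.real (Q ∩ {x | r x ≤ R / 2}) ≤ _ := measureReal_mono hsub
      (by
        rw [← inter_union_distrib_left]
        exact fin_sub D _)
    have h2 := measureReal_union_le (μ := ν) (Q ∩ {x | 0 ≤ y x ∧ r x ≤ R / 2})
      (Q ∩ (fun x => -x) ⁻¹' {x | 0 ≤ y x ∧ r x ≤ R / 2})
    have h3 := D.half
    rw [hs] at h2
    linarith
  -- PL
  have hw : 0 < 1 - 2 * δ := by linarith
  set u' : ℝ := u / (1 - 2 * δ) with hu'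
  have hu'e : (1 - 2 * δ) * u' = u := by rw [hu']; field_simp
  have key := D.pl (Q ∩ {x | u' ≤ y x}) (Q ∩ {x | 0 ≤ y x ∧ r x ≤ R / 2})
    (Q ∩ {x | u ≤ y x ∧ r x ≤ R * (1 - δ)}) (2 * δ) (D.Qm.inter (mg _))
    (D.Qm.inter ((mg _).inter (mr _))) (D.Qm.inter ((mg _).inter (mr _))) (by linarith)
    (by linarith)
    (by
      rintro p ⟨hp, hp1⟩ q ⟨hq', hq1, hq2⟩
      refine ⟨comb_mem D hp hq' (by linarith) (by linarith), ?_, ?_⟩
      · simp only [mem_ofPred_eq] at hp1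
        simp only [map_add, map_smul, smul_eq_mul]
        nlinarith
      · refine (D.rc p q (2 * δ) (by linarith) (by linarith)).trans ?_
        have := D.rR p hp
        nlinarith [D.R0])
  have hlow : (1 - 3 * δ) * g u' ≤ ν.real (Q ∩ {x | u ≤ y x ∧ r x ≤ R * (1 - δ)}) := by
    rcases eq_or_lt_of_le (hg0 u') with h0 | hpos
    · rw [← h0, mul_zero]; exact measureReal_nonneg
    have hGpos : 0 < G := lt_of_lt_of_le hpos (hge u')
    refine le_trans ?_ key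
    have h4 : (4 : ℝ) ^ (-(2 * δ)) * g u' ≤ g u' ^ (1 - 2 * δ) *
        ν.real (Q ∩ {x | 0 ≤ y x ∧ r x ≤ R / 2}) ^ (2 * δ) := by
      have h5 : (g u' / 4) ^ (2 * δ) ≤ ν.real (Q ∩ {x | 0 ≤ y x ∧ r x ≤ R / 2}) ^ (2 * δ) :=
        Real.rpow_le_rpow (by positivity) (by linarith [hge u']) (by linarith)
      have h6 : g u' ^ (1 - 2 * δ) * (g u' / 4) ^ (2 * δ) = (4 : ℝ) ^ (-(2 * δ)) * g u' := by
        rw [Real.div_rpow hpos.le (by norm_num), Real.rpow_neg (by norm_num), div_eq_mul_inv,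
          ← mul_assoc, ← Real.rpow_add hpos]
        rw [show 1 - 2 * δ + 2 * δ = 1 by ring, Real.rpow_one]
        ring
      rw [← h6]
      exact mul_le_mul_of_nonneg_left h5 (Real.rpow_nonneg hpos.le _)
    refine le_trans ?_ h4
    exact mul_le_mul_of_nonneg_right (pow_low hδ.le) hpos.le
  -- split g u
  have hsplit : g u ≤ ν.real (Q ∩ {x | u ≤ y x ∧ y x < u + 4 * δ * u}) + g u' := by
    have hsub : Q ∩ {x | u ≤ y x} ⊆ (Q ∩ {x | u ≤ y x ∧ y x < u + 4 * δ * u}) ∪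
        (Q ∩ {x | u' ≤ y x}) := by
      rintro x ⟨hx, hy⟩
      by_cases hc : y x < u + 4 * δ * u
      · exact Or.inl ⟨hx, hy, hc⟩
      · refine Or.inr ⟨hx, ?_⟩
        have h7 : u' ≤ u + 4 * δ * u := by
          rw [hu', div_le_iff₀ hw]
          nlinarith [mul_nonneg (mul_nonneg hu.le hδ.le) (by linarith : (0 : ℝ) ≤ 1 - 4 * δ)]
        simp only [mem_ofPred_eq]
        linarith
    exact (measureReal_mono hsub (by
      rw [← inter_union_distrib_left]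
      exact fin_sub D _)).trans (measureReal_union_le _ _)
  have hint := interval_small D y ym hu hδ hδ1
  have mB : MeasurableSet {x : E | u ≤ y x ∧ R * (1 - δ) < r x} :=
    (mg _).inter (measurableSet_lt measurable_const D.rm)
  have hdis : Disjoint (Q ∩ {x | u ≤ y x ∧ r x ≤ R * (1 - δ)})
      (Q ∩ {x | u ≤ y x ∧ R * (1 - δ) < r x}) := by
    rw [Set.disjoint_left]
    rintro x ⟨_, _, h5⟩ ⟨_, _, h6⟩
    linarith
  have htot : g u = ν.real (Q ∩ {x | u ≤ y x ∧ r x ≤ R * (1 - δ)}) +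
      ν.real (Q ∩ {x | u ≤ y x ∧ R * (1 - δ) < r x}) := by
    rw [← measureReal_union hdis (D.Qm.inter mB) (fin_sub D _) (fin_sub D _)]
    show ν.real (Q ∩ {x | u ≤ y x}) = _
    congr 1
    ext x
    simp only [mem_inter_iff, mem_ofPred_eq, mem_union]
    constructor
    · rintro ⟨h1, h2⟩
      rcases le_or_gt (r x) (R * (1 - δ)) with h3 | h3
      · exact Or.inl ⟨h1, h2, h3⟩
      · exact Or.inr ⟨h1, h2, h3⟩
    · rintro (⟨h1, h2, _⟩ | ⟨h1, h2, _⟩) <;> exact ⟨h1, h2⟩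
  have hgu' : g u' ≤ g (u / 2) := hganti (by
    have : u ≤ u' := by
      rw [hu', le_div_iff₀ hw]
      nlinarith
    linarith)
  have hfin : ν.real (Q ∩ {x | u ≤ y x ∧ R * (1 - δ) < r x}) ≤
      16 * δ * g (u / 2) + 3 * δ * g u' := by
    have : g (u / 2) = ν.real (Q ∩ {x | u / 2 ≤ y x}) := rfl
    rw [this]
    nlinarith
  calc _ ≤ 16 * δ * g (u / 2) + 3 * δ * g u' := hfin
    _ ≤ 16 * δ * g (u / 2) + 3 * δ * g (u / 2) := by nlinarith
    _ = 19 * δ * g (u / 2) := by ring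

/-- The case without `y`. -/
lemma step0 (D : Dat ν Q r R) {δ : ℝ} (hδ : 0 < δ) (hδ1 : δ ≤ 1 / 4) :
    ν.real (Q ∩ {x | R * (1 - δ) < r x}) ≤ 3 * δ * ν.real Q := by
  set G := ν.real Q with hG
  have hG0 : 0 ≤ G := measureReal_nonneg
  have mr : ∀ w, MeasurableSet {x : E | r x ≤ w} := fun w => measurableSet_le D.rm measurable_const
  have key := D.pl Q (Q ∩ {x | r x ≤ R / 2})
    (Q ∩ {x | r x ≤ R * (1 - δ)}) (2 * δ) D.Qm (D.Qm.inter (mr _)) (D.Qm.inter (mr _))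
    (by linarith) (by linarith)
    (by
      rintro p hp q ⟨hq', hq2⟩
      refine ⟨comb_mem D hp hq' (by linarith) (by linarith), ?_⟩
      refine (D.rc p q (2 * δ) (by linarith) (by linarith)).trans ?_
      have := D.rR p hp
      simp only [mem_ofPred_eq] at hq2
      nlinarith [D.R0])
  have hlow : (1 - 3 * δ) * G ≤ ν.real (Q ∩ {x | r x ≤ R * (1 - δ)}) := by
    rcases eq_or_lt_of_le hG0 with h0 | hpos
    · rw [← h0, mul_zero]; exact measureReal_nonneg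
    refine le_trans ?_ key
    have h4 : (4 : ℝ) ^ (-(2 * δ)) * G ≤ G ^ (1 - 2 * δ) *
        ν.real (Q ∩ {x | r x ≤ R / 2}) ^ (2 * δ) := by
      have h5 : (G / 4) ^ (2 * δ) ≤ ν.real (Q ∩ {x | r x ≤ R / 2}) ^ (2 * δ) :=
        Real.rpow_le_rpow (by positivity) (by linarith [D.half]) (by linarith)
      have h6 : G ^ (1 - 2 * δ) * (G / 4) ^ (2 * δ) = (4 : ℝ) ^ (-(2 * δ)) * G := by
        rw [Real.div_rpow hpos.le (by norm_num), Real.rpow_neg (by norm_num), div_eq_mul_inv,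
          ← mul_assoc, ← Real.rpow_add hpos]
        rw [show 1 - 2 * δ + 2 * δ = 1 by ring, Real.rpow_one]
        ring
      rw [← h6]
      exact mul_le_mul_of_nonneg_left h5 (Real.rpow_nonneg hpos.le _)
    refine le_trans ?_ h4
    exact mul_le_mul_of_nonneg_right (pow_low hδ.le) hpos.le
  have mB : MeasurableSet {x : E | R * (1 - δ) < r x} :=
    measurableSet_lt measurable_const D.rm
  have hdis : Disjoint (Q ∩ {x | r x ≤ R * (1 - δ)}) (Q ∩ {x | R * (1 - δ) < r x}) := by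
    rw [Set.disjoint_left]
    rintro x ⟨_, h5⟩ ⟨_, h6⟩
    simp only [mem_ofPred_eq] at h5 h6
    linarith
  have htot : G = ν.real (Q ∩ {x | r x ≤ R * (1 - δ)}) +
      ν.real (Q ∩ {x | R * (1 - δ) < r x}) := by
    rw [← measureReal_union hdis (D.Qm.inter mB) (fin_sub D _) (fin_sub D _)]
    show ν.real Q = _
    congr 1
    ext x
    simp only [mem_inter_iff, mem_ofPred_eq, mem_union]
    constructor
    · intro h1
      rcases le_or_gt (r x) (R * (1 - δ)) with h3 | h3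
      · exact Or.inl ⟨h1, h3⟩
      · exact Or.inr ⟨h1, h3⟩
    · rintro (⟨h1, _⟩ | ⟨h1, _⟩) <;> exact h1
  nlinarith

/-- One dyadic shell. -/
lemma shell (D : Dat ν Q r R) (y : E →ₗ[ℝ] ℝ) (ym : Measurable y) {s u : ℝ} (hs : 0 < s)
    (hu : 0 < u) (huR : 8 * u ≤ R)
    (hy4 : ∀ w, 0 < w → ν.real (Q ∩ {x | w ≤ |y x|}) ≤ (s / w) ^ 4 * ν.real Q) :
    ν.real (Q ∩ {x | R ^ 2 < r x ^ 2 + y x ^ 2 ∧ u ≤ |y x| ∧ |y x| < 2 * u}) ≤
      2432 * (s / R) ^ 2 * (s / u) ^ 2 * ν.real Q := by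
  have hR0 := D.R0
  set δ : ℝ := 4 * u ^ 2 / R ^ 2 with hδ
  have hδ0 : 0 < δ := by positivity
  have hδ1 : δ ≤ 1 / 16 := by
    rw [hδ, div_le_iff₀ (by positivity)]
    nlinarith
  have hδe : δ * R ^ 2 = 4 * u ^ 2 := by
    rw [hδ]; field_simp
  have a1 := step D y ym hu hδ0 hδ1
  have a2 := step D (-y) ym.neg hu hδ0 hδ1
  have b1 : ν.real (Q ∩ {x | u / 2 ≤ y x}) ≤ (s / (u / 2)) ^ 4 * ν.real Q :=
    (mono' D (by
      rintro x ⟨hx, h1⟩
      refine ⟨hx, ?_⟩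
      simp only [mem_ofPred_eq] at h1 ⊢
      exact h1.trans (le_abs_self _))).trans (hy4 _ (by linarith))
  have b2 : ν.real (Q ∩ {x | u / 2 ≤ (-y) x}) ≤ (s / (u / 2)) ^ 4 * ν.real Q :=
    (mono' D (by
      rintro x ⟨hx, h1⟩
      refine ⟨hx, ?_⟩
      simp only [mem_ofPred_eq, LinearMap.neg_apply] at h1 ⊢
      exact h1.trans (neg_le_abs _))).trans (hy4 _ (by linarith))
  have hsub : Q ∩ {x | R ^ 2 < r x ^ 2 + y x ^ 2 ∧ u ≤ |y x| ∧ |y x| < 2 * u} ⊆
      (Q ∩ {x | u ≤ y x ∧ R * (1 - δ) < r x}) ∪ (Q ∩ {x | u ≤ (-y) x ∧ R * (1 - δ) < r x}) := by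
    rintro x ⟨hx, h1, h2, h3⟩
    have hr : R * (1 - δ) < r x := by
      have h4 : y x ^ 2 < (2 * u) ^ 2 := by
        rw [← sq_abs (y x)]
        exact pow_lt_pow_left₀ h3 (abs_nonneg _) (by norm_num)
      by_contra hcon
      push Not at hcon
      have h5 : r x ^ 2 ≤ (R * (1 - δ)) ^ 2 := pow_le_pow_left₀ (D.r0 x) hcon 2
      nlinarith
    rcases le_total 0 (y x) with h0 | h0
    · left
      rw [abs_of_nonneg h0] at h2
      exact ⟨hx, h2, hr⟩
    · right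
      rw [abs_of_nonpos h0] at h2
      exact ⟨hx, h2, hr⟩
  have h1 : ν.real (Q ∩ {x | R ^ 2 < r x ^ 2 + y x ^ 2 ∧ u ≤ |y x| ∧ |y x| < 2 * u}) ≤
      19 * δ * ((s / (u / 2)) ^ 4 * ν.real Q) + 19 * δ * ((s / (u / 2)) ^ 4 * ν.real Q) := by
    refine (measureReal_mono hsub (by
      rw [← inter_union_distrib_left]
      exact fin_sub D _)).trans ((measureReal_union_le _ _).trans ?_)
    refine add_le_add (a1.trans ?_) (a2.trans ?_)
    · exact mul_le_mul_of_nonneg_left b1 (by positivity)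
    · exact mul_le_mul_of_nonneg_left b2 (by positivity)
  refine h1.trans (le_of_eq ?_)
  rw [hδ]
  field_simp
  ring

/-- **Quadratic shift lemma.** -/
theorem shift_sq (D : Dat ν Q r R) (y : E →ₗ[ℝ] ℝ) (ym : Measurable y) {s : ℝ} (hs : 0 < s)
    (hy4 : ∀ w, 0 < w → ν.real (Q ∩ {x | w ≤ |y x|}) ≤ (s / w) ^ 4 * ν.real Q) :
    ν.real (Q ∩ {x | R ^ 2 < r x ^ 2 + y x ^ 2}) ≤ 4000 * (s / R) ^ 2 * ν.real Q := by
  have hR0 := D.R0
  set G := ν.real Q with hG
  have hG0 : 0 ≤ G := measureReal_nonneg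
  by_cases hbig : R < 8 * s
  · have h1 : (1 : ℝ) / 64 ≤ (s / R) ^ 2 := by
      rw [div_pow, le_div_iff₀ (by positivity)]
      nlinarith
    have h2 : ν.real (Q ∩ {x | R ^ 2 < r x ^ 2 + y x ^ 2}) ≤ G :=
      measureReal_mono inter_subset_left D.Qfin
    nlinarith
  push Not at hbig
  obtain ⟨n, hn1, hn2⟩ := exists_nat_pow_near (x := R / (4 * s)) (y := (2 : ℝ))
    (by rw [le_div_iff₀ (by positivity)]; linarith) (by norm_num)
  have hn1' : 2 ^ n * s ≤ R / 4 := by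
    rw [le_div_iff₀ (by positivity)] at hn1; linarith
  have hn2' : R / 8 < 2 ^ n * s := by
    rw [div_lt_iff₀ (by positivity), pow_succ] at hn2; linarith
  have base : ν.real (Q ∩ {x | R ^ 2 < r x ^ 2 + y x ^ 2 ∧ |y x| < s}) ≤ 3 * (s / R) ^ 2 * G := by
    have hδ0 : 0 < (s / R) ^ 2 := by positivity
    have hδ1 : (s / R) ^ 2 ≤ 1 / 4 := by
      rw [div_pow, div_le_iff₀ (by positivity)]
      nlinarith
    refine le_trans (mono' D ?_) (step0 D hδ0 hδ1)
    rintro x ⟨hx, h1, h3⟩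
    refine ⟨hx, ?_⟩
    have h4 : y x ^ 2 < s ^ 2 := by
      rw [← sq_abs (y x)]
      exact pow_lt_pow_left₀ h3 (abs_nonneg _) (by norm_num)
    show R * (1 - (s / R) ^ 2) < r x
    by_contra hcon
    push Not at hcon
    have h5 : r x ^ 2 ≤ (R * (1 - (s / R) ^ 2)) ^ 2 := pow_le_pow_left₀ (D.r0 x) hcon 2
    have h6 : (s / R) ^ 2 * R ^ 2 = s ^ 2 := by field_simp
    nlinarith
  have ind : ∀ k : ℕ, k ≤ n →
      ν.real (Q ∩ {x | R ^ 2 < r x ^ 2 + y x ^ 2 ∧ |y x| < 2 ^ k * s}) ≤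
        3 * (s / R) ^ 2 * G + 2432 * (s / R) ^ 2 * (4 / 3 * (1 - (1 / 4) ^ k)) * G := by
    intro k
    induction k with
    | zero =>
      intro _
      simpa using base
    | succ k ih =>
      intro hk
      have h1 := ih (by omega)
      have hpk : 2 ^ (k + 1) * s ≤ R / 4 := by
        refine le_trans ?_ hn1'
        have : (2 : ℝ) ^ (k + 1) ≤ 2 ^ n := pow_le_pow_right₀ (by norm_num) hk
        nlinarith
      have h2 := shell D y ym hs (u := 2 ^ k * s) (by positivity)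
        (by rw [pow_succ] at hpk; linarith) hy4
      have h3 : (s / (2 ^ k * s)) ^ 2 = (1 / 4) ^ k := by
        rw [div_mul_cancel_right₀ hs.ne', ← inv_pow, ← pow_mul, mul_comm k 2, pow_mul]
        norm_num
      rw [h3] at h2
      have hsub : Q ∩ {x | R ^ 2 < r x ^ 2 + y x ^ 2 ∧ |y x| < 2 ^ (k + 1) * s} ⊆
          (Q ∩ {x | R ^ 2 < r x ^ 2 + y x ^ 2 ∧ |y x| < 2 ^ k * s}) ∪
          (Q ∩ {x | R ^ 2 < r x ^ 2 + y x ^ 2 ∧ 2 ^ k * s ≤ |y x| ∧ |y x| < 2 * (2 ^ k * s)}) := by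
        rintro x ⟨hx, h4, h5⟩
        rcases lt_or_ge (|y x|) (2 ^ k * s) with h6 | h6
        · exact Or.inl ⟨hx, h4, h6⟩
        · refine Or.inr ⟨hx, h4, h6, ?_⟩
          rw [pow_succ] at h5
          linarith
      refine (measureReal_mono hsub (by
        rw [← inter_union_distrib_left]
        exact fin_sub D _)).trans ((measureReal_union_le _ _).trans ?_)
      refine (add_le_add h1 h2).trans (le_of_eq ?_)
      rw [pow_succ]
      ring
  have hlast : ν.real (Q ∩ {x | 2 ^ n * s ≤ |y x|}) ≤ 64 * (s / R) ^ 2 * G := by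
    refine (hy4 _ (by positivity)).trans ?_
    have h1 : (s / (2 ^ n * s)) ^ 4 ≤ 64 * (s / R) ^ 2 := by
      have h2 : s / (2 ^ n * s) ≤ 8 * s / R := by
        rw [div_le_div_iff₀ (by positivity) hR0]
        nlinarith
      have h3 : 8 * s / R ≤ 1 := by
        rw [div_le_one hR0]; linarith
      have h4 : 0 ≤ s / (2 ^ n * s) := by positivity
      have h5 : (s / (2 ^ n * s)) ^ 4 ≤ (8 * s / R) ^ 4 := pow_le_pow_left₀ h4 h2 4
      have h6 : (8 * s / R) ^ 4 ≤ (8 * s / R) ^ 2 := by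
        have h7 : 0 ≤ 8 * s / R := by positivity
        exact pow_le_pow_of_le_one h7 h3 (by norm_num)
      refine (h5.trans h6).trans (le_of_eq ?_)
      ring
    exact mul_le_mul_of_nonneg_right h1 hG0
  have hsub : Q ∩ {x | R ^ 2 < r x ^ 2 + y x ^ 2} ⊆
      (Q ∩ {x | R ^ 2 < r x ^ 2 + y x ^ 2 ∧ |y x| < 2 ^ n * s}) ∪
      (Q ∩ {x | 2 ^ n * s ≤ |y x|}) := by
    rintro x ⟨hx, h4⟩
    rcases lt_or_ge (|y x|) (2 ^ n * s) with h6 | h6
    · exact Or.inl ⟨hx, h4, h6⟩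
    · exact Or.inr ⟨hx, h6⟩
  have h1 := (measureReal_mono hsub (by
    rw [← inter_union_distrib_left]
    exact fin_sub D _)).trans (measureReal_union_le _ _)
  have h2 := ind n le_rfl
  have h3 : (0 : ℝ) ≤ (1 / 4) ^ n := by positivity
  have h4 : 0 ≤ (s / R) ^ 2 * G := by positivity
  nlinarith

end

end Crest.Agent.R239.Sq911
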