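import Crest.Agent.R239.Cmp_142

/-! R239 (helper475): comparison with a rank-one gain in a thin direction. -/

set_option autoImplicit false
set_option linter.unusedSectionVars false
open MeasureTheory ProbabilityTheory Set Filter Topology
open scoped RealInnerProductSpace ENNReal NNReal

namespace Crest.Agent.R239.Stretch475

open Crest.Agent.R239 Crest.Agent.R239.Cmp142

variable {E : Type*} [NormedAddCommGroup E] [InnerProductSpace ℝ E] [FiniteDimensional ℝ E]
  [MeasurableSpace E] [BorelSpace E]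

lemma integrable_inner_sq (a : E) : Integrable (fun x : E => ⟪a, x⟫ ^ 2) (stdGaussian E) := by
  have h : MemLp (fun x : E => ⟪a, x⟫) 2 (stdGaussian E) := by
    have := (IsGaussian.memLp_dual (stdGaussian E) (innerSL ℝ a) 2 (by simp))
    simpa using this
  exact h.integrable_sq

/-- gain of a stretch in a thin direction. -/
theorem stretch_gain {K : Set E} (mK : MeasurableSet K) {n' : E} (hn : ‖n'‖ = 1) {τ c : ℝ}
    (hτ0 : 0 ≤ τ) (hτ1 : τ ≤ 1) (hc0 : 0 < c) (hc1 : c ≤ 1)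
    (thin : ∫ x in K, ⟪n', x⟫ ^ 2 ∂(stdGaussian E) ≤ (1 - c) * (stdGaussian E).real K) :
    ∃ C : E →L[ℝ] E, (∀ x, ‖C x‖ ^ 2 + (c * τ) * ⟪n', C x⟫ ^ 2 = ‖x‖ ^ 2) ∧
      Real.exp (c ^ 2 * τ / 4) * (stdGaussian E).real K ≤ (stdGaussian E).real (C ⁻¹' K) := by
  set l : ℝ := c * τ with hl
  have hl0 : 0 ≤ l := by positivity
  have hl1 : l ≤ 1 := by nlinarith
  obtain ⟨C, h1, -, h3⟩ := exists_tilt (E := E) (√l • n')
  have hw : ‖√l • n'‖ ^ 2 = l := by
    rw [norm_smul, hn, mul_one, Real.norm_eq_abs, abs_of_nonneg (Real.sqrt_nonneg _),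
      Real.sq_sqrt hl0]
  have hin : ∀ x : E, ⟪√l • n', x⟫ ^ 2 = l * ⟪n', x⟫ ^ 2 := by
    intro x
    rw [inner_smul_left]
    simp only [conj_trivial]
    rw [mul_pow, Real.sq_sqrt hl0]
  refine ⟨C, fun x => ?_, ?_⟩
  · rw [← hin]; exact h1 x
  -- change of variables
  have h4 := h3 (K.indicator 1) (measurable_one.indicator mK)
  rw [hw] at h4
  have h5 : ∫⁻ x, K.indicator 1 (C x) ∂(stdGaussian E) = stdGaussian E (C ⁻¹' K) := by
    have : (fun x => K.indicator (1 : E → ℝ≥0∞) (C x)) = (C ⁻¹' K).indicator 1 := by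
      ext x
      by_cases hx : C x ∈ K
      · rw [indicator_of_mem hx, indicator_of_mem (show x ∈ C ⁻¹' K from hx)]; rfl
      · rw [indicator_of_notMem hx, indicator_of_notMem (show x ∉ C ⁻¹' K from hx)]
    rw [this, lintegral_indicator_one (C.continuous.measurable mK)]
  rw [h5] at h4
  have h6 : ∫⁻ x, K.indicator 1 x * ENNReal.ofReal (Real.exp (-⟪√l • n', x⟫ ^ 2 / 2))
        ∂(stdGaussian E)
      = ∫⁻ x in K, ENNReal.ofReal (Real.exp (-(l * ⟪n', x⟫ ^ 2) / 2)) ∂(stdGaussian E) := by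
    rw [← lintegral_indicator mK]
    refine lintegral_congr fun x => ?_
    by_cases hx : x ∈ K
    · simp only [indicator_of_mem hx, Pi.one_apply, one_mul, hin]
    · simp only [indicator_of_notMem hx, zero_mul]
  rw [h6] at h4
  -- real form
  have hint : IntegrableOn (fun x : E => ⟪n', x⟫ ^ 2) K (stdGaussian E) :=
    (integrable_inner_sq n').integrableOn
  have hexpint : IntegrableOn (fun x : E => Real.exp (-(l * ⟪n', x⟫ ^ 2) / 2)) K
      (stdGaussian E) := by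
    refine Integrable.integrableOn ?_
    refine (integrable_const (1 : ℝ)).mono' (by fun_prop) (Filter.Eventually.of_forall fun x => ?_)
    rw [Real.norm_of_nonneg (Real.exp_pos _).le]
    exact Real.exp_le_one_iff.2 (by nlinarith [mul_nonneg hl0 (sq_nonneg ⟪n', x⟫)])
  set m : ℝ := l * (1 - c) / 2 with hm
  have hpt : ∀ x : E, Real.exp (-m) * (1 + m - l * ⟪n', x⟫ ^ 2 / 2)
      ≤ Real.exp (-(l * ⟪n', x⟫ ^ 2) / 2) := by
    intro x
    have e1 : Real.exp (-(l * ⟪n', x⟫ ^ 2) / 2)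
        = Real.exp (-m) * Real.exp (m - l * ⟪n', x⟫ ^ 2 / 2) := by
      rw [← Real.exp_add]; congr 1; ring
    rw [e1]
    refine mul_le_mul_of_nonneg_left ?_ (Real.exp_pos _).le
    have := Real.add_one_le_exp (m - l * ⟪n', x⟫ ^ 2 / 2)
    linarith
  have hJ : Real.exp (-m) * (stdGaussian E).real K
      ≤ ∫ x in K, Real.exp (-(l * ⟪n', x⟫ ^ 2) / 2) ∂(stdGaussian E) := by
    have h7 : ∫ x in K, Real.exp (-m) * (1 + m - l * ⟪n', x⟫ ^ 2 / 2) ∂(stdGaussian E)
        ≤ ∫ x in K, Real.exp (-(l * ⟪n', x⟫ ^ 2) / 2) ∂(stdGaussian E) := by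
      refine integral_mono ?_ hexpint hpt
      refine Integrable.const_mul ?_ _
      refine Integrable.sub (integrable_const _) ?_
      exact (hint.const_mul l).div_const 2
    have h8 : ∫ x in K, Real.exp (-m) * (1 + m - l * ⟪n', x⟫ ^ 2 / 2) ∂(stdGaussian E)
        = Real.exp (-m) * ((1 + m) * (stdGaussian E).real K
            - l / 2 * ∫ x in K, ⟪n', x⟫ ^ 2 ∂(stdGaussian E)) := by
      rw [integral_const_mul, integral_sub (integrable_const _)
        ((hint.const_mul l).div_const 2)]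
      congr 1
      rw [integral_const, integral_div, integral_const_mul]
      simp only [measureReal_restrict_apply_univ, smul_eq_mul]
      ring
    rw [h8] at h7
    refine le_trans ?_ h7
    refine mul_le_mul_of_nonneg_left ?_ (Real.exp_pos _).le
    have h9 : l / 2 * ∫ x in K, ⟪n', x⟫ ^ 2 ∂(stdGaussian E)
        ≤ l / 2 * ((1 - c) * (stdGaussian E).real K) :=
      mul_le_mul_of_nonneg_left thin (by positivity)
    have h10 : l / 2 * ((1 - c) * (stdGaussian E).real K) = m * (stdGaussian E).real K := by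
      rw [hm]; ring
    linarith
  have h11 : ∫ x in K, Real.exp (-(l * ⟪n', x⟫ ^ 2) / 2) ∂(stdGaussian E)
      = (√(1 + l))⁻¹ * (stdGaussian E).real (C ⁻¹' K) := by
    rw [integral_eq_lintegral_of_nonneg_ae (Filter.Eventually.of_forall fun x => (Real.exp_pos _).le)
      (by fun_prop), h4, ENNReal.toReal_mul, ENNReal.toReal_ofReal (by positivity)]
    rfl
  rw [h11] at hJ
  have hs : 0 < √(1 + l) := Real.sqrt_pos.2 (by linarith)
  have h12 : √(1 + l) * Real.exp (-m) * (stdGaussian E).real K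
      ≤ (stdGaussian E).real (C ⁻¹' K) := by
    have := mul_le_mul_of_nonneg_left hJ hs.le
    rw [← mul_assoc, ← mul_assoc, mul_inv_cancel₀ hs.ne', one_mul] at this
    exact this
  refine le_trans ?_ h12
  refine mul_le_mul_of_nonneg_right ?_ measureReal_nonneg
  -- exp(c²τ/4) ≤ √(1+l) exp(-m)
  have h13 : Real.exp (l / 2 - l ^ 2 / 4) ≤ √(1 + l) := by
    have h14 : l - l ^ 2 / 2 ≤ Real.log (1 + l) := by
      have hlog : 2 * l / (l + 2) ≤ Real.log (1 + l) := by
        have := Real.le_log_one_add_of_nonneg hl0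
        exact this
      refine le_trans ?_ hlog
      rw [le_div_iff₀ (by linarith)]
      nlinarith [mul_nonneg hl0 (sq_nonneg l)]
    have h15 : √(1 + l) = Real.exp (Real.log (1 + l) / 2) := by
      rw [Real.sqrt_eq_rpow, Real.rpow_def_of_pos (by linarith)]
      congr 1; ring
    rw [h15]
    exact Real.exp_le_exp.2 (by linarith)
  calc Real.exp (c ^ 2 * τ / 4) ≤ Real.exp (l / 2 - l ^ 2 / 4 - m) := by
        refine Real.exp_le_exp.2 ?_
        rw [hm, hl]
        nlinarith [mul_nonneg (sq_nonneg c) (mul_nonneg hτ0 (sub_nonneg.2 hτ1))]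
    _ = Real.exp (l / 2 - l ^ 2 / 4) * Real.exp (-m) := by rw [← Real.exp_add]; congr 1
    _ ≤ _ := mul_le_mul_of_nonneg_right h13 (Real.exp_pos _).le

/-- (CMP) with a rank-one gain. -/
theorem cmp_stretch {ι : Type*} {K : Set E} (mK : MeasurableSet K) (cK : Convex ℝ K)
    (sK : ∀ x ∈ K, -x ∈ K) (s : Finset ι) (R : E →L[ℝ] E) (w : ι → E) {n' : E} (hn : ‖n'‖ = 1)
    {τ c : ℝ} (hτ0 : 0 ≤ τ) (hτ1 : τ ≤ 1) (hc0 : 0 < c) (hc1 : c ≤ 1)
    (thin : ∫ x in K, ⟪n', x⟫ ^ 2 ∂(stdGaussian E) ≤ (1 - c) * (stdGaussian E).real K)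
    (h : ∀ g, ‖R g‖ ^ 2 + τ * ⟪n', R g⟫ ^ 2 ≤ ‖g‖ ^ 2 + ∑ k ∈ s, ⟪w k, g⟫ ^ 2) :
    Real.exp (c ^ 2 * τ / 4 - (∑ k ∈ s, ‖w k‖ ^ 2) / 2) * (stdGaussian E).real K
      ≤ (stdGaussian E).real (R ⁻¹' K) := by
  obtain ⟨C, hC, hg⟩ := stretch_gain mK hn hτ0 hτ1 hc0 hc1 thin
  have hinj : Function.Injective (C : E →ₗ[ℝ] E) := by
    rw [← LinearMap.ker_eq_bot, LinearMap.ker_eq_bot']
    intro x hx
    have h2 := hC x
    have hx' : C x = 0 := hx
    rw [hx'] at h2
    simp only [norm_zero, inner_zero_right] at h2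
    have : ‖x‖ = 0 := by nlinarith [norm_nonneg x]
    exact norm_eq_zero.1 this
  let Ce : E ≃ₗ[ℝ] E := LinearEquiv.ofInjectiveEndo (C : E →ₗ[ℝ] E) hinj
  have hCe : ∀ x, Ce x = C x := fun x => rfl
  let D : E →L[ℝ] E := LinearMap.toContinuousLinearMap (Ce.symm : E →ₗ[ℝ] E)
  have hD : ∀ y, C (D y) = y := by
    intro y
    change Ce (Ce.symm y) = y
    exact Ce.apply_symm_apply y
  have hDn : ∀ y, ‖D y‖ ^ 2 = ‖y‖ ^ 2 + (c * τ) * ⟪n', y⟫ ^ 2 := by
    intro y
    rw [← hC (D y), hD]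
  have h2 := cmp_sum_real (K := C ⁻¹' K) (C.continuous.measurable mK) (cK.linear_preimage (C : E →ₗ[ℝ] E))
    (fun x hx => by
      change C (-x) ∈ K
      rw [map_neg]; exact sK _ hx) s (D ∘L R) w (by
      intro g
      change ‖D (R g)‖ ^ 2 ≤ _
      rw [hDn]
      have := h g
      nlinarith [mul_nonneg (mul_nonneg hτ0 (sub_nonneg.2 hc1)) (sq_nonneg ⟪n', R g⟫)])
  have h3 : (D ∘L R) ⁻¹' (C ⁻¹' K) = R ⁻¹' K := by
    ext g
    change C (D (R g)) ∈ K ↔ R g ∈ K
    rw [hD]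
  rw [h3] at h2
  refine le_trans ?_ h2
  calc Real.exp (c ^ 2 * τ / 4 - (∑ k ∈ s, ‖w k‖ ^ 2) / 2) * (stdGaussian E).real K
      = Real.exp (-(∑ k ∈ s, ‖w k‖ ^ 2) / 2) * (Real.exp (c ^ 2 * τ / 4) * (stdGaussian E).real K) := by
        rw [← mul_assoc, ← Real.exp_add]; congr 2; ring
    _ ≤ _ := mul_le_mul_of_nonneg_left hg (Real.exp_pos _).le

end Crest.Agent.R239.Stretch475
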