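import Mathlib

/-! R239 (S0370), proof of helper583 (docs 2387-2390): the arithmetic of T1 (tilt estimate) and
LB (lower bound) in abstract form: sequences of reals only.  helper864 -/

set_option autoImplicit false

namespace Crest.Agent.R239.Ar864

open Finset

/-! ### geometric kernels -/

lemma geo_aux {r : ℝ} (h0 : 0 ≤ r) (h1 : r ≤ 1 / 2) (n : ℕ) :
    ∑ k ∈ range n, r ^ (k + 1) ≤ 2 * r * (1 - r ^ n) := by
  induction n with
  | zero => simp
  | succ n ih =>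
    rw [sum_range_succ]
    have : 0 ≤ r ^ (n + 1) := by positivity
    have e : r ^ (n + 1) = r * r ^ n := by ring
    nlinarith [pow_nonneg h0 n, mul_nonneg this (by linarith : (0 : ℝ) ≤ 1 - 2 * r)]

lemma row_sum {r : ℝ} (h0 : 0 ≤ r) (h1 : r ≤ 1 / 2) (i N : ℕ) :
    ∑ j ∈ Ico (i + 1) (N + 1), r ^ (j - i) ≤ 2 * r := by
  rw [Finset.sum_Ico_eq_sum_range]
  have e : ∀ k ∈ range (N + 1 - (i + 1)), r ^ (i + 1 + k - i) = r ^ (k + 1) := by
    intro k _
    congr 1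
    omega
  rw [sum_congr rfl e]
  refine (geo_aux h0 h1 _).trans ?_
  have : 0 ≤ r ^ (N + 1 - (i + 1)) := by positivity
  nlinarith

lemma col_sum {r : ℝ} (h0 : 0 ≤ r) (h1 : r ≤ 1 / 2) (j : ℕ) :
    ∑ i ∈ range j, r ^ (j - i) ≤ 2 * r := by
  induction j with
  | zero => simpa using h0
  | succ j ih =>
    rw [sum_range_succ]
    have e : ∀ i ∈ range j, r ^ (j + 1 - i) = r * r ^ (j - i) := by
      intro i hi
      rw [mem_range] at hi
      rw [← pow_succ']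
      congr 1
      omega
    rw [sum_congr rfl e, ← mul_sum]
    have : j + 1 - j = 1 := by omega
    rw [this, pow_one]
    nlinarith

/-- swapping the two sums over `i < j ≤ N` -/
lemma swap_sum (f : ℕ → ℕ → ℝ) (N : ℕ) :
    ∑ i ∈ range (N + 1), ∑ j ∈ Ico (i + 1) (N + 1), f i j
      = ∑ j ∈ range (N + 1), ∑ i ∈ range j, f i j := by
  rw [Finset.sum_sigma', Finset.sum_sigma']
  refine Finset.sum_bij' (fun p _ => ⟨p.2, p.1⟩) (fun p _ => ⟨p.2, p.1⟩) ?_ ?_ ?_ ?_ ?_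
  all_goals
    rintro ⟨a, b⟩ h
    simp only [mem_sigma, mem_range, mem_Ico] at h ⊢
    try omega

/-- Schur test for the kernel `r ^ (j - i)`, `i < j`. -/
lemma cross_sum {r : ℝ} (h0 : 0 ≤ r) (h1 : r ≤ 1 / 2) (X : ℕ → ℝ) (N : ℕ) :
    ∑ i ∈ range (N + 1), ∑ j ∈ Ico (i + 1) (N + 1), r ^ (j - i) * (X i * X j)
      ≤ 2 * r * ∑ i ∈ range (N + 1), X i ^ 2 := by
  have step : ∑ i ∈ range (N + 1), ∑ j ∈ Ico (i + 1) (N + 1), r ^ (j - i) * (X i * X j)
      ≤ ∑ i ∈ range (N + 1), ∑ j ∈ Ico (i + 1) (N + 1), r ^ (j - i) * (X i ^ 2 / 2)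
        + ∑ i ∈ range (N + 1), ∑ j ∈ Ico (i + 1) (N + 1), r ^ (j - i) * (X j ^ 2 / 2) := by
    rw [← sum_add_distrib]
    refine sum_le_sum fun i _ => ?_
    rw [← sum_add_distrib]
    refine sum_le_sum fun j _ => ?_
    rw [← mul_add]
    refine mul_le_mul_of_nonneg_left ?_ (by positivity)
    nlinarith [sq_nonneg (X i - X j)]
  refine step.trans ?_
  have a1 : ∑ i ∈ range (N + 1), ∑ j ∈ Ico (i + 1) (N + 1), r ^ (j - i) * (X i ^ 2 / 2)
      ≤ ∑ i ∈ range (N + 1), (2 * r) * (X i ^ 2 / 2) := by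
    refine sum_le_sum fun i _ => ?_
    rw [← sum_mul]
    exact mul_le_mul_of_nonneg_right (row_sum h0 h1 i N) (by positivity)
  have a2 : ∑ i ∈ range (N + 1), ∑ j ∈ Ico (i + 1) (N + 1), r ^ (j - i) * (X j ^ 2 / 2)
      ≤ ∑ j ∈ range (N + 1), (2 * r) * (X j ^ 2 / 2) := by
    rw [swap_sum (fun i j => r ^ (j - i) * (X j ^ 2 / 2))]
    refine sum_le_sum fun j _ => ?_
    rw [← sum_mul]
    exact mul_le_mul_of_nonneg_right (col_sum h0 h1 j) (by positivity)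
  refine (add_le_add a1 a2).trans (le_of_eq ?_)
  rw [← sum_add_distrib, mul_sum]
  refine sum_congr rfl fun i _ => ?_
  ring

/-- one sided version -/
lemma one_sum {r : ℝ} (h0 : 0 ≤ r) (h1 : r ≤ 1 / 2) (Y : ℕ → ℝ) (hY : ∀ i, 0 ≤ Y i) (N : ℕ) :
    ∑ i ∈ range (N + 1), ∑ j ∈ Ico (i + 1) (N + 1), r ^ (j - i) * Y j
      ≤ 2 * r * ∑ i ∈ range (N + 1), Y i := by
  rw [swap_sum (fun i j => r ^ (j - i) * Y j), mul_sum]
  refine sum_le_sum fun j _ => ?_
  rw [← sum_mul]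
  exact mul_le_mul_of_nonneg_right (col_sum h0 h1 j) (hY j)

end Crest.Agent.R239.Ar864
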