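import Mathlib
import Crest.Agent.R239.ThinLev_236
import Crest.Agent.R239.Fl_597
import Crest.Agent.R239.Dem2_853
import Crest.Agent.R239.Ben2_949

/-!
# R239 / helper236 : `target_THIN : Target_THIN`
(F4a of 853, benefit lemma of 949, level step `thin_level`)
-/

set_option autoImplicit false
set_option linter.unusedSectionVars false

open MeasureTheory ProbabilityTheory Set
open scoped RealInnerProductSpace

namespace Crest.Agent.R239.TThin236

open Crest.Agent.R239 Crest.Agent.R239.FD Crest.Agent.R239.ThinLev236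
open Crest.Agent.R239.Dem853 (demF demM demF_M_self demF_M_ne mem_of_Q mem_cutSub blkP_dem_self
  blkP_apply rk1_apply demF_Q_gt demF_k_gt kd_dem_self)

variable {E : Type*} [NormedAddCommGroup E] [InnerProductSpace ℝ E] [FiniteDimensional ℝ E]
  [MeasurableSpace E] [BorelSpace E]

section

variable {V : Flag E} {i : ℕ} {w : E}

lemma demF_H_self (hw : ‖w‖ = 1) (hQ : V.Q i w = w) (h : w ∈ (V.M (i + 1))ᗮ) (x : E) :
    (demF V i w h).H i x = V.H i (x - ⟪w, x⟫ • w) := by
  have h1 : (demF V i w h).H i = V.H i - Dem853.rk1 w :=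
    Dem853.Hm_dem_self th (n := V.n) (M := V.M) (lt_n hw hQ) (mem_of_Q hQ).1 hw
  rw [h1, map_sub, map_smul, H_self hw hQ]
  rfl

lemma demF_cap_self (hw : ‖w‖ = 1) (hQ : V.Q i w = w) (h : w ∈ (V.M (i + 1))ᗮ) (rho : ℝ) :
    (demF V i w h).cap rho i ⊆ V.cap rho i := by
  rintro x ⟨hx1, hx2⟩
  have hin := lt_n hw hQ
  rw [demF_M_self, mem_cutSub] at hx1
  refine ⟨hx1.1, ?_⟩
  have hN : (demF V i w h).N i x = V.N i x := by
    unfold Flag.N
    refine Finset.sum_congr rfl fun j hj => ?_
    rw [Finset.mem_Ico] at hj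
    rcases eq_or_lt_of_le hj.1 with h1 | h1
    · subst h1
      have h2 : (demF V i w h).Q i x = V.Q i x := by
        have h3 : (demF V i w h).Q i = V.Q i - Dem853.rk1 w :=
          blkP_dem_self (M := V.M) (mem_of_Q hQ).1 hw
        rw [h3, sub_apply, rk1_apply, hx1.2, zero_smul, sub_zero]
      rw [h2]
    · rw [demF_Q_gt V h h1]
  have hr : (demF V i w h).rr i ≤ V.rr i := by
    unfold Flag.rr
    refine Finset.sum_le_sum fun j hj => ?_
    rw [Finset.mem_Ico] at hj
    refine mul_le_mul_of_nonneg_left ?_ (pow_nonneg (by norm_num [th]) _)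
    rcases eq_or_lt_of_le hj.1 with h1 | h1
    · subst h1
      have h2 := kd_dem_self V.anti (mem_of_Q hQ).1 h hw
      have h3 : ((demF V i w h).k i : ℝ) + 1 = V.k i := by exact_mod_cast h2
      linarith
    · rw [demF_k_gt V h h1]
  rw [← hN]
  refine hx2.trans ?_
  exact mul_le_mul_of_nonneg_left hr (sq_nonneg _)

end

/-- Strong form: any flag `V` which is not thin at level `i` can be improved (all `i`, also `0`). -/
theorem thin_or_improve {p : Par} (hp : p.Ok) {c' : ℝ} (hB : P_BEN E (p.kap / 8) c')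
    (V : Flag E) (μ : Multiset E) (i : ℕ) :
    ThinAt p V μ i c' (p.kap / 16) ∨ ∃ W : Flag E, J p V μ + p.kap / 2 * p.lam i ≤ J p W μ := by
  by_cases hT : ThinAt p V μ i c' (p.kap / 16)
  · exact Or.inl hT
  right
  unfold ThinAt at hT
  push Not at hT
  obtain ⟨K, hK, w, hw, hQ, hcon⟩ := hT
  have h := (mem_of_Q hQ).2
  have hl := ThinLev236.lam_pos hp i
  have hk := hp.kap_pos
  obtain ⟨K', hK', hv'⟩ := Fl597.exists_near hp (demF V i w h) i μ
    (e := p.kap / 16 * p.lam i) (by positivity)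
  refine ⟨demF V i w h, ?_⟩
  have hgap : ¬ (p.kap / 16 * p.lam i + p.kap / 16 * p.lam i + 2 * (p.kap / 8) * p.lam i
      < D p V i μ - D p (demF V i w h) i μ) := fun h1 =>
    absurd (thin_level hp hB hw hQ (demF_H_self hw hQ h) (demF_cap_self hw hQ h p.rho) hK
      ⟨hK', hv'⟩ h1) (not_le.2 hcon)
  have h1 := Dem853.dem_gain V h hp μ (mem_of_Q hQ).1 hw
  push Not at hgap
  nlinarith

/-- F4 for an arbitrary flag with `J` near the supremum, constants uniform in the space. -/
theorem thin_of_nearMax {p : Par} (hp : p.Ok) {c' : ℝ} (hB : P_BEN E (p.kap / 8) c')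
    {V : Flag E} {μ : Multiset E} {i : ℕ} {e0 : ℝ} (he : e0 < p.kap / 2 * p.lam i)
    (hN : NearMax p V μ e0) : ThinAt p V μ i c' (p.kap / 16) := by
  rcases thin_or_improve hp hB V μ i with h | ⟨W, hW⟩
  · exact h
  · exfalso
    have h1 := hN W
    linarith

/-- **Target_THIN** -/
theorem target_THIN : Target_THIN := by
  intro kap hk hk1
  obtain ⟨c', hc0, hc1, hb⟩ := Ben949.target_BEN (kap / 8) (by positivity)
  refine ⟨c', kap / 16, 0, hc0, hc1, by positivity, ?_⟩
  rintro d p hp rfl - V μ i - hN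
  have hl := ThinLev236.lam_pos hp i
  exact thin_of_nearMax hp (hb d) (by nlinarith [mul_pos hk hl]) hN

end Crest.Agent.R239.TThin236
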