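import Mathlib
import Crest.Agent.R239.LevB2_732
import Crest.Agent.R239.TThin2_236
import Crest.Agent.R239.Ben2_949

/-! R239 (583's proof), helper732: `target_T1 : Target_T1`, hypothesis-free
(gain at `V^s`, covariance form; demotion = 236 / 853, benefit = 949, assembly = 350). -/

set_option autoImplicit false

namespace Crest.Agent.R239.T1732

open Crest.Agent.R239 Crest.Agent.R239.FD

theorem target_DOT : T1B350.Target_DOT := by
  intro kap hk0 hk1
  obtain ⟨c', hc0, hc1, hB⟩ := Ben949.target_BEN (kap / 8) (by positivity)
  refine ⟨c', kap / 16, 0, hc0, hc1, by positivity, fun d p hp hk _ W μ i _ => ?_⟩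
  have h := TThin236.thin_or_improve hp (c' := c') (by rw [hk]; exact hB d) W μ i
  rwa [hk] at h ⊢

/-- **T1, hypothesis-free** -/
theorem target_T1 : Target_T1 := T1B350.target_T1B target_DOT LevB732.target_LEVB

end Crest.Agent.R239.T1732
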