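import Mathlib
import Crest.Agent.R239.FDef

/-! R239 / S0370, block F9: `Target_T1` from `Target_THIN` and `Target_LEV` (second typist). -/

set_option autoImplicit false
open MeasureTheory ProbabilityTheory
open scoped RealInnerProductSpace

namespace Crest.Agent.R239.T1b

open Crest.Agent.R239 (gau)
open Crest.Agent.R239.FD

variable {E : Type*} [NormedAddCommGroup E] [InnerProductSpace ℝ E]

lemma Ts_inj (v : E) (s : ℝ) (hv : ‖v‖ = 1) (hs : s < 1) : Function.Injective (Ts v s) := by
  intro x y h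
  rw [Ts_apply, Ts_apply] at h
  have h1 : (1 - s) * ⟪v, x⟫ = (1 - s) * ⟪v, y⟫ := by
    have := congrArg (fun z => ⟪v, z⟫) h
    simp only [inner_sub_right, inner_smul_right, real_inner_self_eq_norm_sq, hv] at this
    linarith
  have h2 : ⟪v, x⟫ = ⟪v, y⟫ := by
    have : (1 - s) ≠ 0 := by linarith
    exact mul_left_cancel₀ this h1
  rw [h2] at h
  exact sub_left_injective h

lemma rot_k (V : Flag E) (v : E) (s : ℝ) (hv : ‖v‖ = 1) (hs : s < 1) (i : ℕ) :
    (V.rot v s).k i = V.k i := by
  have key : ∀ W : Submodule ℝ E,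
      Module.finrank ℝ (W.map (Ts v s).toLinearMap) = Module.finrank ℝ W := by
    intro W
    exact (LinearEquiv.finrank_eq
      (Submodule.equivMapOfInjective (Ts v s).toLinearMap (Ts_inj v s hv hs) W)).symm
  have e1 : Module.finrank ℝ ((V.rot v s).M i) = Module.finrank ℝ (V.M i) := key (V.M i)
  have e2 : Module.finrank ℝ ((V.rot v s).M (i + 1)) = Module.finrank ℝ (V.M (i + 1)) :=
    key (V.M (i + 1))
  unfold Flag.k
  rw [e1, e2]

variable [FiniteDimensional ℝ E]

lemma b_le_one (V : Flag E) (v : E) (hv : ‖v‖ = 1) (i : ℕ) : V.b v i ≤ 1 := by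
  have h : ‖V.P i v‖ ≤ 1 := by
    have := (V.M i).norm_starProjection_apply_le v
    simpa [Flag.P, hv] using this
  have h0 : 0 ≤ ‖V.P i v‖ := norm_nonneg _
  unfold Flag.b
  nlinarith

lemma b_nonneg (V : Flag E) (v : E) (i : ℕ) : 0 ≤ V.b v i := sq_nonneg _

variable [MeasurableSpace E] [BorelSpace E]

/-- sum of `D` over the levels does not increase by more than `e0` under the rotation -/
lemma sum_D_rot (p : Par) (V : Flag E) (μ : Multiset E) (v : E) (s e0 : ℝ) (hv : ‖v‖ = 1)
    (hs : s < 1) (hN : NearMax p V μ e0) :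
    ∑ i ∈ Finset.range V.n, D p (V.rot v s) i μ ≤ ∑ i ∈ Finset.range V.n, D p V i μ + e0 := by
  have h := hN (V.rot v s)
  unfold J at h
  have hn : (V.rot v s).n = V.n := rfl
  rw [hn] at h
  simp only [rot_k V v s hv hs, Finset.sum_sub_distrib] at h
  linarith

/-- geometric sums: one level -/
lemma geo_below (A : ℝ) (hA : 16 ≤ A) (tau : ℝ) (ht : 0 < tau) (j : ℕ) :
    ∑ i ∈ Finset.range j, tau * A ^ i * (25 / 8 : ℝ) ^ (j - i) ≤ (25 / 4 / A) * (tau * A ^ j) := by
  induction j with
  | zero => simp; positivity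
  | succ j ih =>
    rw [Finset.sum_range_succ]
    have e1 : ∑ i ∈ Finset.range j, tau * A ^ i * (25 / 8 : ℝ) ^ (j + 1 - i)
        = (25 / 8) * ∑ i ∈ Finset.range j, tau * A ^ i * (25 / 8 : ℝ) ^ (j - i) := by
      rw [Finset.mul_sum]
      refine Finset.sum_congr rfl fun i hi => ?_
      have hi' : i < j := Finset.mem_range.1 hi
      have : j + 1 - i = (j - i) + 1 := by omega
      rw [this, pow_succ]; ring
    rw [e1]
    have e2 : j + 1 - j = 1 := by omega
    rw [e2, pow_one]
    have hA0 : (0 : ℝ) < A := by linarith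
    have hp : 0 < tau * A ^ j := by positivity
    have e3 : (25 / 4 / A) * (tau * A ^ (j + 1)) = (25 / 4) * (tau * A ^ j) := by
      rw [pow_succ]; field_simp
    rw [e3]
    have e4 : (25 / 4 / A) ≤ 25 / 64 := by
      rw [div_le_iff₀ hA0]; linarith
    have : (25 / 4 / A) * (tau * A ^ j) ≤ 25 / 64 * (tau * A ^ j) :=
      mul_le_mul_of_nonneg_right e4 hp.le
    nlinarith

/-- the double sum over all levels -/
lemma sum_BB (p : Par) (hp : p.Ok) (V : Flag E) (v : E) :
    ∑ i ∈ Finset.range V.n, p.lam i * BB V v i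
      ≤ (25 / 4 / p.A) * ∑ j ∈ Finset.range V.n, p.lam j * V.b v j := by
  have e : ∑ i ∈ Finset.range V.n, p.lam i * BB V v i
      = ∑ j ∈ Finset.range V.n, V.b v j *
          ∑ i ∈ Finset.range j, p.tau * p.A ^ i * (25 / 8 : ℝ) ^ (j - i) := by
    simp only [BB, Finset.mul_sum]
    rw [Finset.sum_sigma', Finset.sum_sigma']
    refine Finset.sum_bij' (fun x _ => ⟨x.2, x.1⟩) (fun x _ => ⟨x.2, x.1⟩) ?_ ?_ ?_ ?_ ?_
    · rintro ⟨i, j⟩ h
      simp only [Finset.mem_sigma, Finset.mem_range, Finset.mem_Ico] at h ⊢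
      omega
    · rintro ⟨j, i⟩ h
      simp only [Finset.mem_sigma, Finset.mem_range, Finset.mem_Ico] at h ⊢
      omega
    · rintro ⟨i, j⟩ _; rfl
    · rintro ⟨j, i⟩ _; rfl
    · rintro ⟨i, j⟩ _
      simp only [Par.lam]; ring
  rw [e, Finset.mul_sum]
  refine Finset.sum_le_sum fun j _ => ?_
  have h1 := geo_below p.A hp.A_ge p.tau hp.tau_pos j
  have h2 := mul_le_mul_of_nonneg_left h1 (b_nonneg V v j)
  refine h2.trans (le_of_eq ?_)
  simp only [Par.lam]; ring

lemma sum_lam_le (p : Par) (hp : p.Ok) (I : ℕ) :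
    ∑ i ∈ Finset.range (I + 1), p.lam i ≤ 2 * p.lam I := by
  have hA := hp.A_ge
  have ht := hp.tau_pos
  induction I with
  | zero => simp [Par.lam]; linarith
  | succ I ih =>
    rw [Finset.sum_range_succ]
    have hpos : 0 < p.tau * p.A ^ I := by positivity
    have e : p.lam (I + 1) = p.A * p.lam I := by simp only [Par.lam, pow_succ]; ring
    have hl : 0 < p.lam I := by simpa [Par.lam] using hpos
    have h16 : 16 * p.lam I ≤ p.lam (I + 1) := by rw [e]; nlinarith
    linarith

lemma half_le (n I : ℕ) :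
    ∑ i ∈ Finset.Ico (I + 1) n, (1 / 2 : ℝ) ^ (i - I) ≤ 1 := by
  have h : ∀ m : ℕ, ∑ i ∈ Finset.range m, (1 / 2 : ℝ) ^ (i + 1) ≤ 1 - (1 / 2 : ℝ) ^ m := by
    intro m
    induction m with
    | zero => simp
    | succ m ih => rw [Finset.sum_range_succ]; have := pow_succ (1 / 2 : ℝ) m; nlinarith
  rw [Finset.sum_Ico_eq_sum_range]
  have e : ∑ k ∈ Finset.range (n - (I + 1)), (1 / 2 : ℝ) ^ (I + 1 + k - I)
      = ∑ k ∈ Finset.range (n - (I + 1)), (1 / 2 : ℝ) ^ (k + 1) := by
    refine Finset.sum_congr rfl fun k _ => ?_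
    congr 1; omega
  rw [e]
  have := h (n - (I + 1))
  have hp : (0 : ℝ) ≤ (1 / 2 : ℝ) ^ (n - (I + 1)) := by positivity
  linarith

lemma half_le' (I : ℕ) :
    ∑ i ∈ Finset.range (I + 1), (1 / 2 : ℝ) ^ (I - i) ≤ 2 := by
  induction I with
  | zero => simp
  | succ I ih =>
    rw [Finset.sum_range_succ]
    have e : ∑ i ∈ Finset.range (I + 1), (1 / 2 : ℝ) ^ (I + 1 - i)
        = (1 / 2) * ∑ i ∈ Finset.range (I + 1), (1 / 2 : ℝ) ^ (I - i) := by
      rw [Finset.mul_sum]
      refine Finset.sum_congr rfl fun i hi => ?_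
      have : i < I + 1 := Finset.mem_range.1 hi
      have h2 : I + 1 - i = (I - i) + 1 := by omega
      rw [h2, pow_succ]; ring
    rw [e]
    have : I + 1 - (I + 1) = 0 := by omega
    rw [this, pow_zero]
    linarith

/-- **F9**: the tilt estimate for near-maximisers, constants -/
theorem p_T1 (p : Par) (hp : p.Ok) (s c' dl c9 C9 : ℝ) (hs : s < 1) (h9 : 0 < c9)
    (hC9 : 0 < C9) (hdl : 0 < dl) (hA : 25 * C9 / (2 * c9) ≤ p.A)
    (hT : P_THIN E p c' dl) (hhi : P_LEVhi E p s c' dl c9 C9) (hlo : P_LEVlo E p s C9) :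
    P_T1 E p (2 * (dl + 3 * C9 + c9) / c9) dl := by
  intro V μ I v hv hS hN
  have hA16 := hp.A_ge
  have htau := hp.tau_pos
  have hA0 : (0 : ℝ) < p.A := by linarith
  have hA1 : (1 : ℝ) ≤ p.A := by linarith
  have hlam : ∀ i, 0 < p.lam i := fun i => by
    have : 0 < p.tau * p.A ^ i := by positivity
    simpa [Par.lam] using this
  have hlamtau : ∀ i, p.tau ≤ p.lam i := fun i => by
    have : 1 ≤ p.A ^ i := one_le_pow₀ hA1
    have : p.tau * 1 ≤ p.tau * p.A ^ i := mul_le_mul_of_nonneg_left this htau.le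
    simpa [Par.lam] using this
  set X : ℝ := ∑ i ∈ Finset.Ico (I + 1) V.n, p.lam i * V.b v i with hX
  have hX0 : 0 ≤ X := Finset.sum_nonneg fun i _ => mul_nonneg (hlam i).le (b_nonneg V v i)
  -- per level inequality, uniform
  have hlev : ∀ i ∈ Finset.range V.n,
      D p V i μ + (if I < i then p.lam i * (c9 * V.b v i) else 0) - C9 * (p.lam i * BB V v i)
        - C9 * p.lam I * (if I < i then (1 / 2 : ℝ) ^ (i - I) else (1 / 2 : ℝ) ^ (I - i))
        ≤ D p (V.rot v s) i μ := by
    intro i hi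
    have hin : i < V.n := Finset.mem_range.1 hi
    by_cases hI : I < i
    · have hthin : ThinAt p V μ i c' dl := by
        refine hT V μ i (by omega) ?_
        intro V'
        have h1 := hN V'
        have h2 : dl * p.tau ≤ dl * p.lam i := mul_le_mul_of_nonneg_left (hlamtau i) hdl.le
        linarith
      have := hhi V μ v I i hv hS hI hin hthin
      simp only [hI, if_true]
      linarith
    · have := hlo V μ v I i hv hS (by omega) hin
      simp only [hI, if_false]
      linarith
  have hsum := Finset.sum_le_sum hlev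
  have hD := sum_D_rot p V μ v s (dl * p.tau) hv hs hN
  simp only [Finset.sum_sub_distrib, Finset.sum_add_distrib] at hsum
  -- the gain
  have hgain : ∑ i ∈ Finset.range V.n, (if I < i then p.lam i * (c9 * V.b v i) else 0) = c9 * X := by
    rw [← Finset.sum_filter, hX, Finset.mul_sum]
    have : (Finset.range V.n).filter (fun i => I < i) = Finset.Ico (I + 1) V.n := by
      ext i; simp only [Finset.mem_filter, Finset.mem_range, Finset.mem_Ico]; omega
    rw [this]
    exact Finset.sum_congr rfl fun i _ => by ring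
  -- the geometric loss
  have hgeo : ∑ i ∈ Finset.range V.n,
      (if I < i then (1 / 2 : ℝ) ^ (i - I) else (1 / 2 : ℝ) ^ (I - i)) ≤ 3 := by
    rw [← Finset.sum_filter_add_sum_filter_not (Finset.range V.n) (fun i => I < i)]
    have h1 : ∑ i ∈ (Finset.range V.n).filter (fun i => I < i),
        (if I < i then (1 / 2 : ℝ) ^ (i - I) else (1 / 2 : ℝ) ^ (I - i)) ≤ 1 := by
      have e : (Finset.range V.n).filter (fun i => I < i) = Finset.Ico (I + 1) V.n := by
        ext i; simp only [Finset.mem_filter, Finset.mem_range, Finset.mem_Ico]; omega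
      rw [e]
      refine le_trans (le_of_eq (Finset.sum_congr rfl fun i hi => ?_)) (half_le V.n I)
      have : I < i := by have := (Finset.mem_Ico.1 hi).1; omega
      simp [this]
    have h2 : ∑ i ∈ (Finset.range V.n).filter (fun i => ¬ I < i),
        (if I < i then (1 / 2 : ℝ) ^ (i - I) else (1 / 2 : ℝ) ^ (I - i)) ≤ 2 := by
      refine le_trans ?_ (half_le' I)
      have hsub : (Finset.range V.n).filter (fun i => ¬ I < i) ⊆ Finset.range (I + 1) := by
        intro i hi
        simp only [Finset.mem_filter, Finset.mem_range] at hi ⊢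
        omega
      refine le_trans (le_of_eq (Finset.sum_congr rfl (g := fun i => (1 / 2 : ℝ) ^ (I - i))
        fun i hi => ?_)) (Finset.sum_le_sum_of_subset_of_nonneg hsub fun i _ _ => by positivity)
      have : ¬ I < i := (Finset.mem_filter.1 hi).2
      simp [this]
    linarith
  -- the BB loss
  have hBB := sum_BB p hp V v
  have hall : ∑ j ∈ Finset.range V.n, p.lam j * V.b v j ≤ 2 * p.lam I + X := by
    rw [← Finset.sum_filter_add_sum_filter_not (Finset.range V.n) (fun i => I < i)]
    have h1 : ∑ i ∈ (Finset.range V.n).filter (fun i => I < i), p.lam i * V.b v i = X := by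
      have e : (Finset.range V.n).filter (fun i => I < i) = Finset.Ico (I + 1) V.n := by
        ext i; simp only [Finset.mem_filter, Finset.mem_range, Finset.mem_Ico]; omega
      rw [e]
    have h2 : ∑ i ∈ (Finset.range V.n).filter (fun i => ¬ I < i), p.lam i * V.b v i
        ≤ 2 * p.lam I := by
      refine le_trans ?_ (sum_lam_le p hp I)
      have hsub : (Finset.range V.n).filter (fun i => ¬ I < i) ⊆ Finset.range (I + 1) := by
        intro i hi
        simp only [Finset.mem_filter, Finset.mem_range] at hi ⊢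
        omega
      refine le_trans (Finset.sum_le_sum (g := fun i => p.lam i) fun i hi => ?_)
        (Finset.sum_le_sum_of_subset_of_nonneg hsub fun i _ _ => (hlam i).le)
      have := mul_le_mul_of_nonneg_left (b_le_one V v hv i) (hlam i).le
      linarith
    linarith
  rw [hgain] at hsum
  rw [← Finset.mul_sum, ← Finset.mul_sum] at hsum
  set G := ∑ i ∈ Finset.range V.n,
      (if I < i then (1 / 2 : ℝ) ^ (i - I) else (1 / 2 : ℝ) ^ (I - i)) with hG
  set BS := ∑ i ∈ Finset.range V.n, p.lam i * BB V v i with hBS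
  have hq : C9 * (25 / 4 / p.A) ≤ c9 / 2 := by
    rw [div_le_iff₀ (by positivity)] at hA
    rw [← mul_div_assoc, div_le_iff₀ hA0]
    nlinarith
  have hq0 : 0 ≤ 25 / 4 / p.A := by positivity
  have hlI := hlam I
  have hBS' : C9 * BS ≤ (c9 / 2) * (2 * p.lam I + X) := by
    have h1 : BS ≤ (25 / 4 / p.A) * (2 * p.lam I + X) :=
      hBB.trans (mul_le_mul_of_nonneg_left hall hq0)
    have h2 : C9 * BS ≤ C9 * ((25 / 4 / p.A) * (2 * p.lam I + X)) :=
      mul_le_mul_of_nonneg_left h1 hC9.le
    have h3 : C9 * (25 / 4 / p.A) * (2 * p.lam I + X) ≤ (c9 / 2) * (2 * p.lam I + X) :=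
      mul_le_mul_of_nonneg_right hq (by linarith)
    linarith
  have hG' : C9 * p.lam I * G ≤ C9 * p.lam I * 3 :=
    mul_le_mul_of_nonneg_left hgeo (mul_nonneg hC9.le hlI.le)
  have hdt : dl * p.tau ≤ dl * p.lam I := mul_le_mul_of_nonneg_left (hlamtau I) hdl.le
  have hfin : c9 * X ≤ dl * p.lam I + (c9 / 2) * (2 * p.lam I + X) + C9 * p.lam I * 3 := by
    linarith
  have : (c9 / 2) * X ≤ (dl + 3 * C9 + c9) * p.lam I := by nlinarith
  rw [div_mul_eq_mul_div, le_div_iff₀ h9]
  nlinarith

/-- **F9**: `Target_T1` from the thinness of near-maximisers and the one-level comparison -/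
theorem target_T1 (hT : Target_THIN) (hL : Target_LEV) : Target_T1 := by
  intro kap hk hk1
  obtain ⟨c', dl, rho1, hc', hc1, hdl, h1⟩ := hT kap hk hk1
  obtain ⟨s, c9, C9, rho2, hs0, hs1, h9, hC9, h2⟩ := hL c' dl hc' hc1 hdl
  refine ⟨2 * (dl + 3 * C9 + c9) / c9, dl, max rho1 rho2, 25 * C9 / (2 * c9), by positivity, hdl, ?_⟩
  intro d p hp hpk hrho hA
  have t := h1 d p hp hpk (le_trans (le_max_left _ _) hrho)
  obtain ⟨u1, u2⟩ := h2 d p hp (le_trans (le_max_right _ _) hrho)
  exact p_T1 p hp s c' dl c9 C9 hs1 h9 hC9 hdl hA t u1 u2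

end Crest.Agent.R239.T1b
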