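import Crest.Agent.R239.Tilt_371
import Crest.Agent.R239.Cmp_142

/-! Tilt + Anderson (helper805): comparison of two level measures with an indefinite form `q`.

`R : E ≃L E` with `‖R g‖² = ‖g‖² - q g`, `⟪t, L g⟫² ≤ ‖C† t‖² (‖g‖² - q g)` give
`gau C K * ∫ e^{q/2} dγ ≤ ∫_{L⁻¹ K} e^{q/2} dγ` for `K` closed convex symmetric.
`q ≤ 0` is CMP, `q` of any sign is the comparison used with the mixture lemma. -/

set_option autoImplicit false
set_option linter.unusedSectionVars false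
open MeasureTheory ProbabilityTheory Set Filter Topology Metric
open scoped RealInnerProductSpace ENNReal NNReal InnerProduct

namespace Crest.Agent.R239.TA805

open Crest.Agent.R239 Crest.Agent.R239.Cmp142

variable {E : Type*} [NormedAddCommGroup E] [InnerProductSpace ℝ E] [FiniteDimensional ℝ E]
  [MeasurableSpace E] [BorelSpace E]
variable {F : Type*} [NormedAddCommGroup F] [InnerProductSpace ℝ F] [FiniteDimensional ℝ F]
  [MeasurableSpace F] [BorelSpace F]
variable {G : Type*} [NormedAddCommGroup G] [InnerProductSpace ℝ G] [FiniteDimensional ℝ G]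
  [MeasurableSpace G] [BorelSpace G]

/-- Covariance monotonicity on symmetric convex sets (no lower bound on the mass). -/
theorem gau_mono_symm {S : F →L[ℝ] E} {C : G →L[ℝ] E} (h : ∀ t, ‖S.adjoint t‖ ≤ ‖C.adjoint t‖)
    {K : Set E} (mK : MeasurableSet K) (cK : Convex ℝ K) (sK : ∀ x ∈ K, -x ∈ K) :
    (gau C).real K ≤ (gau S).real K := by
  obtain ⟨D, hD⟩ := exists_complement S C h
  have hD' : ∀ t, ‖D.adjoint t‖ ^ 2 + ‖S.adjoint t‖ ^ 2 = ‖C.adjoint t‖ ^ 2 := fun t => by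
    rw [← hD t]; ring
  have h1 := gau_mix hD' mK
  have h2 : gau C K ≤ gau S K := by
    rw [h1]
    calc ∫⁻ x, gau S {z | D x + z ∈ K} ∂(stdGaussian E)
        ≤ ∫⁻ _x, gau S K ∂(stdGaussian E) := by
          apply lintegral_mono
          intro x
          have mz : MeasurableSet {z : E | D x + z ∈ K} :=
            (by fun_prop : Measurable fun z : E => D x + z) mK
          show gau S {z | D x + z ∈ K} ≤ _
          rw [gau_apply S mz, gau_apply S mK]
          exact anderson S mK cK sK (D x)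
      _ = gau S K := by simp
  exact ENNReal.toReal_mono (measure_ne_top _ _) h2

/-- `exists_root` for a positive definite perturbation of the identity. -/
theorem exists_equiv (S : E →L[ℝ] E) (hs : ∀ x y, ⟪S x, y⟫ = ⟪x, S y⟫)
    (hp : ∀ x, x ≠ 0 → ⟪S x, x⟫ < ‖x‖ ^ 2) :
    ∃ R : E ≃L[ℝ] E, ∀ x, ‖R x‖ ^ 2 = ‖x‖ ^ 2 - ⟪S x, x⟫ := by
  obtain ⟨D, hD⟩ := exists_root (ContinuousLinearMap.id ℝ E - S) (by
    intro x y
    simp only [sub_apply, ContinuousLinearMap.id_apply, inner_sub_left, inner_sub_right, hs]) (by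
    intro x
    simp only [sub_apply, ContinuousLinearMap.id_apply, inner_sub_left,
      real_inner_self_eq_norm_sq]
    by_cases hx : x = 0
    · subst hx; simp
    · linarith [hp x hx])
  have hD' : ∀ t, ‖D.adjoint t‖ ^ 2 = ‖t‖ ^ 2 - ⟪S t, t⟫ := by
    intro t
    rw [hD t]
    simp only [sub_apply, ContinuousLinearMap.id_apply, inner_sub_left,
      real_inner_self_eq_norm_sq]
  have hinj : Function.Injective (D.adjoint : E →ₗ[ℝ] E) := by
    rw [injective_iff_map_eq_zero]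
    intro x hx
    by_contra hne
    have h1 := hp x hne
    have h2 := hD' x
    have h3 : D.adjoint x = 0 := hx
    rw [h3, norm_zero] at h2
    linarith [h2]
  refine ⟨(LinearEquiv.ofInjectiveEndo (D.adjoint : E →ₗ[ℝ] E) hinj).toContinuousLinearEquiv,
    fun x => ?_⟩
  rw [← hD' x]
  rfl

/-- **(TA)** -/
theorem tilt_anderson {L : E →L[ℝ] F} {C : G →L[ℝ] F} (R : E ≃L[ℝ] E) (q : E → ℝ)
    (hq : ∀ x, ‖R x‖ ^ 2 = ‖x‖ ^ 2 - q x)
    (hL : ∀ t g, ⟪t, L g⟫ ^ 2 ≤ ‖C.adjoint t‖ ^ 2 * (‖g‖ ^ 2 - q g))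
    {K : Set F} (mK : MeasurableSet K) (cK : Convex ℝ K) (sK : ∀ x ∈ K, -x ∈ K) :
    (gau C).real K * ∫ x, Real.exp (q x / 2) ∂(stdGaussian E) ≤
      ∫ x in L ⁻¹' K, Real.exp (q x / 2) ∂(stdGaussian E) := by
  set A : E →L[ℝ] F := L ∘L (R.symm : E →L[ℝ] E) with hA
  have hadj : ∀ t, ‖A.adjoint t‖ ≤ ‖C.adjoint t‖ := by
    intro t
    by_cases h0 : ‖A.adjoint t‖ = 0
    · rw [h0]; exact norm_nonneg _
    have hpos : 0 < ‖A.adjoint t‖ := lt_of_le_of_ne (norm_nonneg _) (Ne.symm h0)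
    set g : E := R.symm (A.adjoint t) with hg
    have h1 := hL t g
    have h2 : ⟪t, L g⟫ = ‖A.adjoint t‖ ^ 2 := by
      rw [← real_inner_self_eq_norm_sq, ContinuousLinearMap.adjoint_inner_left, hg]
      rfl
    have h3 : ‖g‖ ^ 2 - q g = ‖A.adjoint t‖ ^ 2 := by
      rw [← hq g, hg]
      simp
    rw [h2, h3] at h1
    have h4 : ‖A.adjoint t‖ ^ 2 ≤ ‖C.adjoint t‖ ^ 2 := by
      have h5 : 0 < ‖A.adjoint t‖ ^ 2 := by positivity
      nlinarith
    exact (sq_le_sq₀ (norm_nonneg _) (norm_nonneg _)).1 h4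
  have h1 := gau_mono_symm hadj mK cK sK
  have hB : MeasurableSet (A ⁻¹' K) := A.continuous.measurable mK
  have h2 := Tilt371.tilt_real_mul R q hq hB
  have h3 : R ⁻¹' (A ⁻¹' K) = L ⁻¹' K := by
    ext x
    simp [hA]
  rw [h3] at h2
  rw [h2]
  have hint := Tilt371.integrable_tilt R q hq
  have hpos : 0 < ∫ x, Real.exp (q x / 2) ∂(stdGaussian E) := integral_exp_pos hint
  have h4 : (gau A).real K = (stdGaussian E).real (A ⁻¹' K) := gau_real_apply A mK
  rw [← h4]
  exact mul_le_mul_of_nonneg_right h1 hpos.le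

/-- Jensen for the normalising constant. -/
theorem exp_mean_le (R : E ≃L[ℝ] E) (q : E → ℝ) (hq : ∀ x, ‖R x‖ ^ 2 = ‖x‖ ^ 2 - q x)
    (hqi : Integrable q (stdGaussian E)) :
    Real.exp ((∫ x, q x ∂(stdGaussian E)) / 2) ≤ ∫ x, Real.exp (q x / 2) ∂(stdGaussian E) := by
  have h := ConvexOn.map_integral_le (μ := stdGaussian E) (f := fun x => q x / 2) (g := Real.exp)
    (s := univ) convexOn_exp Real.continuous_exp.continuousOn isClosed_univ (by simp)
    (hqi.div_const 2) (Tilt371.integrable_tilt R q hq)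
  rwa [integral_div] at h

end Crest.Agent.R239.TA805
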