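import Crest.Agent.R239.Gau6
import Crest.Agent.R239.L0_942

/-!
R239 (S0370), TRACK B (helper674): definitions of the multi-level Gaussian flag potential,
everything in "g-space": one standard Gaussian on `E`, level `i` sees the population through the
self-adjoint operator `H i = ∑ θ^l Q (i+l)`.
-/

set_option autoImplicit false

open MeasureTheory ProbabilityTheory
open scoped RealInnerProductSpace

namespace Crest.Agent.R239.TB

/-- the ratio of two consecutive scales -/
noncomputable def th : ℝ := 4 / 5

lemma th_pos : 0 < th := by norm_num [th]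
lemma th_lt : th < 1 := by norm_num [th]
lemma th_le : th ≤ 1 := th_lt.le
lemma th_ne : th ≠ 0 := th_pos.ne'

/-- parameters: grid ratio `A`, cap radius `rho`, penalty `kap` -/
structure Par where
  A : ℝ
  rho : ℝ
  kap : ℝ
  hA : 16 ≤ A
  hrho : 8 ≤ rho
  hkap : 0 < kap
  hrk : 8 ≤ kap * rho ^ 2

namespace Par
variable (p : Par)
/-- the price of level `i` -/
noncomputable def lam (i : ℕ) : ℝ := p.A ^ i
/-- increment of the price -/
noncomputable def dlam (i : ℕ) : ℝ := if i = 0 then 1 else p.A ^ i - p.A ^ (i - 1)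
end Par

variable {E : Type*} [NormedAddCommGroup E] [InnerProductSpace ℝ E] [FiniteDimensional ℝ E]

/-- a flag: nested subspaces, eventually trivial -/
structure Flag (E : Type*) [NormedAddCommGroup E] [InnerProductSpace ℝ E]
    [FiniteDimensional ℝ E] where
  n : ℕ
  M : ℕ → Submodule ℝ E
  anti : Antitone M
  bot : ∀ j, n ≤ j → M j = ⊥

namespace Flag
variable (V : Flag E)

/-- orthogonal projection on `M j` -/
noncomputable def P (j : ℕ) : E →L[ℝ] E := (V.M j).starProjection

/-- orthogonal projection on the block `j` -/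
noncomputable def Q (j : ℕ) : E →L[ℝ] E := V.P j - V.P (j + 1)

/-- `H i = ∑_{l} θ^l Q (i+l)` -/
noncomputable def H (i : ℕ) : E →L[ℝ] E := ∑ l ∈ Finset.range V.n, th ^ l • V.Q (i + l)

/-- dimension of `M j` -/
noncomputable def m (j : ℕ) : ℝ := (Module.finrank ℝ (V.M j) : ℝ)

/-- `w j = ∑_l θ^(2l) k (j+l) = E ‖H j g‖²` -/
noncomputable def w (j : ℕ) : ℝ :=
  ∑ l ∈ Finset.range V.n, th ^ (2 * l) * (V.m (j + l) - V.m (j + l + 1))

/-- radius of the cap `j` -/
noncomputable def r (j : ℕ) : ℝ := Real.sqrt (1 + V.w j)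

end Flag

variable [MeasurableSpace E] [BorelSpace E]

/-- the standard Gaussian measure as a real set function -/
noncomputable def gm (K : Set E) : ℝ := (stdGaussian E).real K

/-- support function -/
noncomputable def hs (K : Set E) (y : E) : ℝ := sSup ((fun g => ⟪g, y⟫) '' K)

/-- admissible bodies of level `i` -/
structure Adm (p : Par) (V : Flag E) (i : ℕ) (K : Set E) : Prop where
  closed : IsClosed K
  conv : Convex ℝ K
  symm : ∀ g ∈ K, -g ∈ K
  cap : ∀ g ∈ K, ∀ j, i ≤ j → ‖V.H j g‖ ≤ p.rho * V.r j
  pos : 0 < gm K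

/-- the value of a body at level `i` -/
noncomputable def val (p : Par) (mu : Multiset E) (V : Flag E) (i : ℕ) (K : Set E) : ℝ :=
  (mu.map fun z => hs K (V.H i z)).sum - p.lam i * Real.log (gm K)

/-- the level functional -/
noncomputable def D (p : Par) (mu : Multiset E) (V : Flag E) (i : ℕ) : ℝ :=
  sInf {x | ∃ K, Adm p V i K ∧ x = val p mu V i K}

/-- the potential of a flag -/
noncomputable def J (p : Par) (mu : Multiset E) (V : Flag E) : ℝ :=
  ∑ i ∈ Finset.range V.n, (D p mu V i - p.kap * (p.dlam i * V.m i))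

/-- the functional -/
noncomputable def U (p : Par) (mu : Multiset E) : ℝ := sSup (Set.range fun V => J p mu V)

end Crest.Agent.R239.TB
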