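import Crest.Agent.R239.TB0_674
import Crest.Agent.R239.SoftA_450

/-!
R239 (S0370), TRACK B (helper674): calculus of flags.
-/

set_option autoImplicit false
set_option linter.unusedSectionVars false

open MeasureTheory ProbabilityTheory
open scoped RealInnerProductSpace

namespace Crest.Agent.R239.TB

variable {E : Type*} [NormedAddCommGroup E] [InnerProductSpace ℝ E] [FiniteDimensional ℝ E]

namespace Flag
variable (V : Flag E)

lemma P_of_ge {j : ℕ} (h : V.n ≤ j) : V.P j = 0 := by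
  ext x
  simp [P, V.bot j h]

lemma Q_of_ge {j : ℕ} (h : V.n ≤ j) : V.Q j = 0 := by
  rw [Q, V.P_of_ge h, V.P_of_ge (h.trans (Nat.le_succ j)), sub_zero]

lemma P_P_of_le {i j : ℕ} (h : i ≤ j) (x : E) : V.P j (V.P i x) = V.P j x :=
  Soft450.star_star_of_le (V.anti h) x

lemma P_P_of_le' {i j : ℕ} (h : i ≤ j) (x : E) : V.P i (V.P j x) = V.P j x :=
  Soft450.star_star_of_le' (V.anti h) x

lemma P_symm (j : ℕ) (x y : E) : ⟪V.P j x, y⟫ = ⟪x, V.P j y⟫ :=
  Submodule.inner_starProjection_left_eq_right _ _ _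

lemma P_mem (j : ℕ) (x : E) : V.P j x ∈ V.M j := Submodule.starProjection_apply_mem _ _

lemma P_eq_self {j : ℕ} {x : E} (h : x ∈ V.M j) : V.P j x = x :=
  Submodule.starProjection_eq_self_iff.2 h

lemma norm_P_le (j : ℕ) (x : E) : ‖V.P j x‖ ≤ ‖x‖ := Submodule.norm_starProjection_apply_le _ _

lemma norm_P_sq (j : ℕ) (x : E) : ‖V.P j x‖ ^ 2 = ⟪x, V.P j x⟫ :=
  Soft450.norm_star_sq (V.M j) x

lemma norm_P_anti {i j : ℕ} (h : i ≤ j) (x : E) : ‖V.P j x‖ ≤ ‖V.P i x‖ := by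
  rw [← V.P_P_of_le h x]; exact V.norm_P_le _ _

lemma Q_symm (j : ℕ) (x y : E) : ⟪V.Q j x, y⟫ = ⟪x, V.Q j y⟫ := by
  simp [Q, inner_sub_left, inner_sub_right, V.P_symm]

lemma Q_apply (j : ℕ) (x : E) : V.Q j x = V.P j x - V.P (j + 1) x := rfl

/-- `H` as a longer sum -/
lemma H_eq {N : ℕ} (hN : V.n ≤ N) (i : ℕ) : V.H i = ∑ l ∈ Finset.range N, th ^ l • V.Q (i + l) := by
  rw [H]
  refine Finset.sum_subset (Finset.range_mono hN) fun l _ hl => ?_
  rw [Finset.mem_range, not_lt] at hl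
  rw [V.Q_of_ge (hl.trans (Nat.le_add_left _ _)), smul_zero]

lemma H_succ (i : ℕ) : V.H i = V.Q i + th • V.H (i + 1) := by
  rw [V.H_eq (Nat.le_succ V.n) i, Finset.sum_range_succ', H, Finset.smul_sum, add_comm]
  congr 1
  · simp
  · refine Finset.sum_congr rfl fun l _ => ?_
    rw [smul_smul, pow_succ', show i + (l + 1) = i + 1 + l by ring]

lemma H_of_ge {i : ℕ} (h : V.n ≤ i) : V.H i = 0 := by
  rw [H]
  refine Finset.sum_eq_zero fun l _ => ?_
  rw [V.Q_of_ge (h.trans (Nat.le_add_right _ _)), smul_zero]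

/-- downward induction along the levels -/
lemma induct {motive : ℕ → Prop} (h0 : ∀ i, V.n ≤ i → motive i)
    (h1 : ∀ i, motive (i + 1) → motive i) (i : ℕ) : motive i := by
  by_cases hi : V.n ≤ i
  · exact h0 i hi
  · obtain ⟨k, hk⟩ := Nat.exists_eq_add_of_le (le_of_not_ge hi)
    have : ∀ k i, V.n = i + k → motive i := by
      intro k
      induction k with
      | zero => intro i hi; exact h0 i (by omega)
      | succ k ih => intro i hi; exact h1 i (ih (i + 1) (by omega))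
    exact this k i hk

lemma H_symm (i : ℕ) (x y : E) : ⟪V.H i x, y⟫ = ⟪x, V.H i y⟫ := by
  simp only [H, ContinuousLinearMap.sum_apply, ContinuousLinearMap.smul_apply, sum_inner, inner_sum,
    real_inner_smul_left, real_inner_smul_right, V.Q_symm]

lemma P_Q_of_lt {i j : ℕ} (h : i < j) (x : E) : V.P j (V.Q i x) = 0 := by
  rw [V.Q_apply, map_sub, V.P_P_of_le h.le, V.P_P_of_le (Nat.succ_le_of_lt h), sub_self]

lemma P_Q_of_le {i j : ℕ} (h : i ≤ j) (x : E) : V.P i (V.Q j x) = V.Q j x := by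
  rw [V.Q_apply, map_sub, V.P_P_of_le' h, V.P_P_of_le' (h.trans (Nat.le_succ j))]

lemma Q_P_of_lt {i j : ℕ} (h : i < j) (x : E) : V.Q i (V.P j x) = 0 := by
  rw [V.Q_apply, V.P_P_of_le' h.le, V.P_P_of_le' (Nat.succ_le_of_lt h), sub_self]

lemma Q_P_of_le {i j : ℕ} (h : i ≤ j) (x : E) : V.Q j (V.P i x) = V.Q j x := by
  rw [V.Q_apply, V.P_P_of_le h, V.P_P_of_le (h.trans (Nat.le_succ j)), V.Q_apply]

lemma P_H_self (i : ℕ) (x : E) : V.P i (V.H i x) = V.H i x := by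
  simp only [H, ContinuousLinearMap.sum_apply, ContinuousLinearMap.smul_apply, map_sum, map_smul]
  exact Finset.sum_congr rfl fun l _ => by rw [V.P_Q_of_le (Nat.le_add_right _ _)]

lemma H_P_self (i : ℕ) (x : E) : V.H i (V.P i x) = V.H i x := by
  simp only [H, ContinuousLinearMap.sum_apply, ContinuousLinearMap.smul_apply]
  exact Finset.sum_congr rfl fun l _ => by rw [V.Q_P_of_le (Nat.le_add_right _ _)]

/-- `P (i+k) ∘ H i = θ^k H (i+k)` -/
lemma P_H (i k : ℕ) (x : E) : V.P (i + k) (V.H i x) = th ^ k • V.H (i + k) x := by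
  induction k generalizing i with
  | zero => simp [V.P_H_self]
  | succ k ih =>
    rw [V.H_succ i, ContinuousLinearMap.add_apply, map_add, V.P_Q_of_lt (by omega), zero_add,
      ContinuousLinearMap.smul_apply, map_smul, show i + (k + 1) = i + 1 + k by ring, ih (i + 1),
      smul_smul, pow_succ']

lemma H_P (i k : ℕ) (x : E) : V.H i (V.P (i + k) x) = th ^ k • V.H (i + k) x := by
  induction k generalizing i with
  | zero => simp [V.H_P_self]
  | succ k ih =>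
    rw [V.H_succ i, ContinuousLinearMap.add_apply, V.Q_P_of_lt (by omega), zero_add,
      ContinuousLinearMap.smul_apply, show i + (k + 1) = i + 1 + k by ring, ih (i + 1),
      smul_smul, pow_succ']

lemma H_mem (i : ℕ) (x : E) : V.H i x ∈ V.M i := by
  rw [← V.P_H_self i x]; exact V.P_mem _ _

/-- `‖Q j x‖² = ‖P j x‖² - ‖P (j+1) x‖²` -/
lemma norm_Q_sq (j : ℕ) (x : E) : ‖V.Q j x‖ ^ 2 = ‖V.P j x‖ ^ 2 - ‖V.P (j + 1) x‖ ^ 2 :=
  Soft450.norm_star_sub_sq (V.anti (Nat.le_succ j)) x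

lemma inner_Q_P {i j : ℕ} (h : i < j) (x y : E) : ⟪V.Q i x, V.P j y⟫ = 0 := by
  rw [V.Q_symm, V.Q_P_of_lt h, inner_zero_right]

lemma inner_Q_H {i j : ℕ} (h : i < j) (x y : E) : ⟪V.Q i x, V.H j y⟫ = 0 := by
  rw [← V.P_H_self j y, V.inner_Q_P h]

lemma norm_H_sq_succ (i : ℕ) (x : E) :
    ‖V.H i x‖ ^ 2 = ‖V.Q i x‖ ^ 2 + th ^ 2 * ‖V.H (i + 1) x‖ ^ 2 := by
  rw [V.H_succ i, ContinuousLinearMap.add_apply, ContinuousLinearMap.smul_apply,
    norm_add_sq_real, real_inner_smul_right, V.inner_Q_H (Nat.lt_succ_self i), norm_smul, mul_pow,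
    Real.norm_eq_abs, sq_abs]
  ring

lemma norm_H_le_P (i : ℕ) (x : E) : ‖V.H i x‖ ≤ ‖V.P i x‖ := by
  refine V.induct (motive := fun i => ‖V.H i x‖ ≤ ‖V.P i x‖) ?_ ?_ i
  · intro i hi; simp [V.H_of_ge hi]
  · intro i ih
    have h1 := V.norm_H_sq_succ i x
    have h2 := V.norm_Q_sq i x
    have h3 : th ^ 2 * ‖V.H (i + 1) x‖ ^ 2 ≤ ‖V.P (i + 1) x‖ ^ 2 := by
      have : ‖V.H (i + 1) x‖ ^ 2 ≤ ‖V.P (i + 1) x‖ ^ 2 := by gcongr
      have h4 : th ^ 2 ≤ 1 := by norm_num [th]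
      nlinarith [sq_nonneg ‖V.H (i + 1) x‖]
    exact abs_le_of_sq_le_sq' (by linarith) (norm_nonneg _) |>.2

lemma norm_H_le (i : ℕ) (x : E) : ‖V.H i x‖ ≤ ‖x‖ := (V.norm_H_le_P i x).trans (V.norm_P_le i x)

/-- the inverse of `H i` on `M i`, the identity on the orthogonal complement, with `N` terms -/
noncomputable def HinvN (i N : ℕ) : E →L[ℝ] E :=
  ContinuousLinearMap.id ℝ E
    + ∑ l ∈ Finset.range N, ((1 - th) * (th⁻¹) ^ (l + 1)) • V.P (i + l + 1)

noncomputable def Hinv (i : ℕ) : E →L[ℝ] E := V.HinvN i V.n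

/-- precision increments -/
noncomputable def om (m : ℕ) : ℝ := (1 - th ^ 2) * (th⁻¹) ^ (2 * m)

lemma HinvN_succ (i N : ℕ) (x : E) :
    V.HinvN i (N + 1) x = V.HinvN i N x + ((1 - th) * (th⁻¹) ^ (N + 1)) • V.P (i + N + 1) x := by
  simp [HinvN, Finset.sum_range_succ, add_assoc]

lemma HinvN_zero (i : ℕ) (x : E) : V.HinvN i 0 x = x := by simp [HinvN]

lemma P_HinvN (i N : ℕ) {j : ℕ} (hj : i + N ≤ j) (x : E) :
    V.P j (V.HinvN i N x) = ((th⁻¹) ^ N) • V.P j x := by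
  induction N with
  | zero => simp [HinvN_zero]
  | succ N ih =>
    rw [V.HinvN_succ, map_add, ih (by omega), map_smul, V.P_P_of_le (by omega), ← add_smul]
    congr 1
    have h5 : (th⁻¹) ^ N = th * (th⁻¹) ^ (N + 1) := by
      rw [pow_succ', ← mul_assoc, mul_inv_cancel₀ th_ne, one_mul]
    rw [h5]
    ring

theorem norm_HinvN_sq (i N : ℕ) (x : E) :
    ‖V.HinvN i N x‖ ^ 2 = ‖x‖ ^ 2 + ∑ l ∈ Finset.range N, om (l + 1) * ‖V.P (i + l + 1) x‖ ^ 2 := by
  induction N with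
  | zero => simp [HinvN_zero]
  | succ N ih =>
    rw [V.HinvN_succ, norm_add_sq_real, ih, Finset.sum_range_succ, real_inner_smul_right,
      norm_smul, mul_pow, Real.norm_eq_abs, sq_abs]
    have h1 : ⟪V.HinvN i N x, V.P (i + N + 1) x⟫ = (th⁻¹) ^ N * ‖V.P (i + N + 1) x‖ ^ 2 := by
      rw [V.norm_P_sq]
      have h2 : ⟪V.HinvN i N x, V.P (i + N + 1) x⟫ = ⟪V.P (i + N + 1) (V.HinvN i N x), x⟫ :=
        (V.P_symm _ _ _).symm
      rw [h2, V.P_HinvN i N (by omega), real_inner_smul_left, real_inner_comm]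
    rw [h1]
    have h3 : om (N + 1) = 2 * (((1 - th) * (th⁻¹) ^ (N + 1)) * (th⁻¹) ^ N)
        + ((1 - th) * (th⁻¹) ^ (N + 1)) ^ 2 := by
      have h5 : (th⁻¹) ^ N = th * (th⁻¹) ^ (N + 1) := by
        rw [pow_succ', ← mul_assoc, mul_inv_cancel₀ th_ne, one_mul]
      rw [h5, om, pow_mul']
      ring
    rw [h3]
    ring

theorem norm_Hinv_sq (i : ℕ) (x : E) :
    ‖V.Hinv i x‖ ^ 2
      = ‖x‖ ^ 2 + ∑ l ∈ Finset.range V.n, om (l + 1) * ‖V.P (i + l + 1) x‖ ^ 2 :=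
  V.norm_HinvN_sq i V.n x

/-- telescope -/
lemma sum_H (i N : ℕ) (x : E) :
    V.H i x + (1 - th) • ∑ l ∈ Finset.range N, V.H (i + l + 1) x
      = V.P i x - V.P (i + N) x + V.H (i + N) x := by
  induction N with
  | zero => simp
  | succ N ih =>
    rw [Finset.sum_range_succ, smul_add, ← add_assoc, ih]
    have h1 : V.H (i + N) x = V.Q (i + N) x + th • V.H (i + N + 1) x := by
      conv_lhs => rw [V.H_succ (i + N)]
      rfl
    rw [h1, V.Q_apply, sub_smul, one_smul, show i + (N + 1) = i + N + 1 by ring]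
    abel

theorem H_Hinv (i : ℕ) (x : E) : V.H i (V.Hinv i x) = V.P i x := by
  have h := V.sum_H i V.n x
  rw [V.P_of_ge (Nat.le_add_left _ _), V.H_of_ge (Nat.le_add_left _ _)] at h
  simp only [ContinuousLinearMap.zero_apply, sub_zero, add_zero] at h
  rw [← h, Hinv, HinvN]
  simp only [ContinuousLinearMap.add_apply, ContinuousLinearMap.id_apply,
    ContinuousLinearMap.sum_apply, ContinuousLinearMap.smul_apply, map_add, map_sum, map_smul,
    Finset.smul_sum]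
  congr 1
  refine Finset.sum_congr rfl fun l _ => ?_
  rw [add_assoc, V.H_P, smul_smul]
  congr 1
  rw [mul_assoc, ← mul_pow, inv_mul_cancel₀ th_ne, one_pow, mul_one]

theorem Hinv_H (i : ℕ) (x : E) : V.Hinv i (V.H i x) = V.P i x := by
  have h := V.sum_H i V.n x
  rw [V.P_of_ge (Nat.le_add_left _ _), V.H_of_ge (Nat.le_add_left _ _)] at h
  simp only [ContinuousLinearMap.zero_apply, sub_zero, add_zero] at h
  rw [← h, Hinv, HinvN]
  simp only [ContinuousLinearMap.add_apply, ContinuousLinearMap.id_apply,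
    ContinuousLinearMap.sum_apply, ContinuousLinearMap.smul_apply, Finset.smul_sum]
  congr 1
  refine Finset.sum_congr rfl fun l _ => ?_
  rw [add_assoc, V.P_H, smul_smul]
  congr 1
  rw [mul_assoc, ← mul_pow, inv_mul_cancel₀ th_ne, one_pow, mul_one]

/-- `H (i+k) ∘ Hinv i = θ^(-k) P (i+k)` -/
theorem H_Hinv_add (i k : ℕ) (x : E) :
    V.H (i + k) (V.Hinv i x) = (th⁻¹) ^ k • V.P (i + k) x := by
  have h := V.P_H i k (V.Hinv i x)
  rw [V.H_Hinv, V.P_P_of_le (Nat.le_add_right _ _)] at h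
  rw [h, smul_smul, ← mul_pow, inv_mul_cancel₀ th_ne, one_pow, one_smul]

end Flag

end Crest.Agent.R239.TB
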