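import Crest.Agent.R239.TB1_674
import Crest.Agent.R239.Rot_203

/-!
R239 (S0370), TRACK B (helper674): the literals of the blocks.
-/

set_option autoImplicit false
set_option linter.unusedSectionVars false

open MeasureTheory ProbabilityTheory
open scoped RealInnerProductSpace
open Crest.Agent.R239.L0 (S mrg spl)

namespace Crest.Agent.R239.TB

variable {E : Type*} [NormedAddCommGroup E] [InnerProductSpace ℝ E] [FiniteDimensional ℝ E]

/-- the tilted flag `T_s V` -/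
noncomputable def Flag.rot (V : Flag E) (s : ℝ) (v : E) : Flag E where
  n := V.n
  M j := (V.M j).map (Rot203.Ts s v)
  anti := fun _ _ h => Submodule.map_mono (V.anti h)
  bot := fun j h => by rw [V.bot j h, Submodule.map_bot]

/-- the demoted flag: `w` leaves `M i` (and stays in `M (i-1)`) -/
noncomputable def Flag.dem (V : Flag E) (i : ℕ) (w : E)
    (hw : ∀ y ∈ V.M (i + 1), ⟪y, w⟫ = (0 : ℝ)) : Flag E where
  n := V.n
  M j := if j = i then V.M i ⊓ (ℝ ∙ w)ᗮ else V.M j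
  anti := by
    intro a b h
    show (if b = i then V.M i ⊓ (ℝ ∙ w)ᗮ else V.M b) ≤ (if a = i then V.M i ⊓ (ℝ ∙ w)ᗮ else V.M a)
    split_ifs with h1 h2 h2
    · exact le_rfl
    · exact inf_le_left.trans (V.anti (by omega))
    · refine le_inf (V.anti (by omega)) fun y hy => ?_
      rw [Submodule.mem_orthogonal_singleton_iff_inner_left]
      exact hw y (V.anti (show i + 1 ≤ b by omega) hy)
    · exact V.anti h
  bot := by
    intro j h
    show (if j = i then V.M i ⊓ (ℝ ∙ w)ᗮ else V.M j) = ⊥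
    split_ifs with h1
    · subst h1; rw [V.bot j h, bot_inf_eq]
    · exact V.bot j h

/-- the flag with `v` inserted in all `M j`, `j ≤ I` -/
noncomputable def Flag.ins (V : Flag E) (I : ℕ) (v : E) : Flag E where
  n := max V.n (I + 1)
  M j := if j ≤ I then V.M j ⊔ (ℝ ∙ v) else V.M j
  anti := by
    intro a b h
    show (if b ≤ I then V.M b ⊔ (ℝ ∙ v) else V.M b) ≤ (if a ≤ I then V.M a ⊔ (ℝ ∙ v) else V.M a)
    split_ifs with h1 h2 h2
    · exact sup_le_sup_right (V.anti h) _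
    · omega
    · exact (V.anti h).trans le_sup_left
    · exact V.anti h
  bot := by
    intro j h
    show (if j ≤ I then V.M j ⊔ (ℝ ∙ v) else V.M j) = ⊥
    rw [if_neg (by have := le_max_right V.n (I + 1); omega)]
    exact V.bot j (le_trans (le_max_left _ _) h)

variable [MeasurableSpace E] [BorelSpace E]

/-- conditional expectation `E[f | K]` -/
noncomputable def Ex (K : Set E) (f : E → ℝ) : ℝ := (∫ g in K, f g ∂stdGaussian E) / gm K

/-- sum of the tilts above level `i` -/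
noncomputable def BB (V : Flag E) (v : E) (i : ℕ) : ℝ :=
  ∑ l ∈ Finset.range V.n, (25 / 8 : ℝ) ^ (l + 1) * ‖V.P (i + l + 1) v‖ ^ 2

/-- the rank one gain -/
noncomputable def gain (V : Flag E) (v : E) (s : ℝ) (i : ℕ) (K : Set E) : ℝ :=
  let u := (V.rot s v).H i v
  let c := (2 * s - s ^ 2) / (1 - s) ^ 2
  (1 / 2) * c * (‖u‖ ^ 2 - Ex K fun g => ⟪u, g⟫ ^ 2) - (1 / 4) * c ^ 2 * ‖u‖ ^ 4

variable (E)

/-- block S (soft layer) -/
structure SoftB : Prop where
  D_nonneg : ∀ (p : Par) (mu : Multiset E) (V : Flag E) (i : ℕ), 0 ≤ D p mu V i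
  D_le : ∀ (p : Par) (mu : Multiset E) (V : Flag E) (i : ℕ) (K : Set E), Adm p V i K →
    D p mu V i ≤ val p mu V i K
  D_near : ∀ (p : Par) (mu : Multiset E) (V : Flag E) (i : ℕ) (e : ℝ), 0 < e →
    ∃ K, Adm p V i K ∧ val p mu V i K ≤ D p mu V i + e
  D_zero : ∀ (p : Par) (mu : Multiset E) (V : Flag E) (i : ℕ), V.n ≤ i → D p mu V i = 0
  D_mono : ∀ (p : Par) (s : Multiset (E × E)) (V : Flag E) (i : ℕ),
    D p (mrg s) V i ≤ D p (spl s) V i
  J_le : ∀ (p : Par) (mu : Multiset E) (V : Flag E), J p mu V ≤ U p mu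
  J_near : ∀ (p : Par) (mu : Multiset E) (e : ℝ), 0 < e → ∃ V : Flag E, U p mu ≤ J p mu V + e
  U_nonneg : ∀ (p : Par) (mu : Multiset E), 0 ≤ U p mu
  U_cons : ∀ (p : Par) (z : E) (mu : Multiset E),
    U p (z ::ₘ mu) ≤ U p mu + 20 * p.rho * Real.sqrt (Module.finrank ℝ E) * ‖z‖

/-- block I (insertion) -/
def InsB : Prop := ∀ (p : Par) (mu : Multiset E) (V : Flag E) (I : ℕ) (v : E), ‖v‖ = 1 →
  J p mu V - p.lam I * (p.kap + 8 / p.rho ^ 2 + 2 / (p.A * th ^ 2)) ≤ J p mu (V.ins I v)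

/-- block G (growth) with constants `C1`, `eta0` -/
def GroB (C1 eta0 : ℝ) : Prop := ∀ (p : Par) (W : Flag E) (I : ℕ) (v : E) (s : Multiset (E × E))
  (eta : ℝ), ‖v‖ = 1 → v ∈ W.M I → ‖W.Hinv I v‖ ^ 2 ≤ 3 →
  ∑ l ∈ Finset.range W.n, (th⁻¹) ^ l * ‖W.P (I + l) v‖ ≤ 4 →
  0 < eta → eta ≤ eta0 → C1 * eta * S (spl s) v = p.lam I → 2 * S (mrg s) v ≤ S (spl s) v →
  D p (mrg s) W I + (2 / 5) * (p.lam I / C1) ≤ D p (spl s) W I

/-- block D (demotion + thinness) with constants -/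
def ThinB (kap c dl rho0 A0 : ℝ) : Prop := ∀ (p : Par) (mu : Multiset E) (W : Flag E) (i : ℕ)
  (w : E) (K : Set E), p.kap = kap → rho0 ≤ p.rho → A0 ≤ p.A → 1 ≤ i →
  U p mu ≤ J p mu W + dl * p.lam i → w ∈ W.M i → (∀ y ∈ W.M (i + 1), ⟪y, w⟫ = (0 : ℝ)) → ‖w‖ = 1 →
  Adm p W i K → val p mu W i K ≤ D p mu W i + dl * p.lam i →
  Ex K (fun g => ⟪w, g⟫ ^ 2) ≤ 1 - c

/-- block L (comparison of one level under a tilt) with constants `C6`, `rho0` -/
def LevB (C6 rho0 : ℝ) : Prop := ∀ (p : Par) (mu : Multiset E) (V : Flag E) (v : E) (s : ℝ) (i : ℕ)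
  (K : Set E) (t ep G : ℝ), rho0 ≤ p.rho → ‖v‖ = 1 → 0 < s → s ≤ 1 / 8 → 0 < ep → ep ≤ 1 →
  Adm p (V.rot s v) i K → 0 < t → (G ≤ 0 ∨ G ≤ gain V v s i K) →
  D p mu V i ≤ val p mu (V.rot s v) i K - p.lam i * G
    + p.lam i * (s * C6 * ((ep + 1 / p.rho) * ‖V.P i v‖ ^ 2 + (1 / ep + 1) * BB V v i))
    + s * t * S mu v - p.lam i * Real.log (gm {g | |⟪V.H i v, g⟫| ≤ t})

end Crest.Agent.R239.TB
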