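import Crest.Agent.R239.TB2_674

/-!
R239 (S0370), TRACK B (helper674): the tilted flag.
-/

set_option autoImplicit false
set_option linter.unusedSectionVars false

open MeasureTheory ProbabilityTheory
open scoped RealInnerProductSpace
open Crest.Agent.R239.L0 (S mrg spl)

namespace Crest.Agent.R239.TB

variable {E : Type*} [NormedAddCommGroup E] [InnerProductSpace ℝ E] [FiniteDimensional ℝ E]

open Rot203 (Ts)

lemma Ts_inj {v : E} (hv : ‖v‖ = 1) {s : ℝ} (hs : s ≠ 1) : Function.Injective (Ts s v) := by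
  rw [← LinearMap.ker_eq_bot, LinearMap.ker_eq_bot']
  intro x hx
  rw [Rot203.Ts_apply] at hx
  have h1 : x = (s * ⟪v, x⟫) • v := by rw [sub_eq_zero] at hx; exact hx
  have h2 : ⟪v, x⟫ = s * ⟪v, x⟫ := by
    conv_lhs => rw [h1]
    rw [real_inner_smul_right, real_inner_self_eq_norm_sq, hv]; ring
  have h3 : (1 - s) * ⟪v, x⟫ = 0 := by linarith
  rcases mul_eq_zero.1 h3 with h4 | h4
  · exact absurd (by linarith) hs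
  · rw [h1, h4]; simp

namespace Flag
variable (V : Flag E)

lemma P_apply (j : ℕ) (x : E) : V.P j x = (V.M j).starProjection x := rfl

@[simp] lemma rot_n (s : ℝ) (v : E) : (V.rot s v).n = V.n := rfl

lemma rot_M (s : ℝ) (v : E) (j : ℕ) : (V.rot s v).M j = (V.M j).map (Ts s v) := rfl

lemma rot_m {v : E} (hv : ‖v‖ = 1) {s : ℝ} (hs : s ≠ 1) (j : ℕ) : (V.rot s v).m j = V.m j := by
  rw [m, m, rot_M]
  congr 1
  exact (Submodule.equivMapOfInjective (Ts s v) (Ts_inj hv hs) (V.M j)).finrank_eq.symm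

lemma rot_w {v : E} (hv : ‖v‖ = 1) {s : ℝ} (hs : s ≠ 1) (j : ℕ) : (V.rot s v).w j = V.w j := by
  rw [w, w]
  refine Finset.sum_congr rfl fun l _ => ?_
  rw [V.rot_m hv hs, V.rot_m hv hs]

lemma rot_r {v : E} (hv : ‖v‖ = 1) {s : ℝ} (hs : s ≠ 1) (j : ℕ) : (V.rot s v).r j = V.r j := by
  rw [r, r, V.rot_w hv hs]

lemma norm_P_v_sq_le {v : E} (hv : ‖v‖ = 1) (j : ℕ) : ‖V.P j v‖ ^ 2 ≤ 1 := by
  have h1 := V.norm_P_le j v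
  rw [hv] at h1
  nlinarith [norm_nonneg (V.P j v)]

lemma sb_pos {s : ℝ} (h0 : 0 < s) (h1 : s ≤ 1 / 8) {b : ℝ} (hb0 : 0 ≤ b) (hb : b ≤ 1) :
    3 / 4 ≤ 1 - (2 * s - s ^ 2) * b := by
  have h2 : (2 * s - s ^ 2) ≤ 1 / 4 := by nlinarith
  have h3 : 0 ≤ 2 * s - s ^ 2 := by nlinarith
  nlinarith [mul_le_mul h2 hb hb0 (by norm_num)]

/-- `‖P^s_j T x‖²` -/
lemma norm_rot_P_Ts_sq {v : E} (hv : ‖v‖ = 1) {s : ℝ} (h0 : 0 < s) (h1 : s ≤ 1 / 8) (j : ℕ)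
    (x : E) :
    ‖(V.rot s v).P j (Ts s v x)‖ ^ 2 = ‖V.P j x‖ ^ 2 - (2 * s - s ^ 2) * ⟪v, x⟫ ^ 2
      + (2 * s - s ^ 2) * (⟪v, x⟫ - ⟪V.P j v, x⟫) ^ 2 / (1 - (2 * s - s ^ 2) * ‖V.P j v‖ ^ 2) := by
  have hb := sb_pos h0 h1 (sq_nonneg ‖V.P j v‖) (V.norm_P_v_sq_le hv j)
  have := Rot203.norm_proj_Ts_sq hv (V.M j) s x
    (by show 1 - (2 * s - s ^ 2) * ‖V.P j v‖ ^ 2 ≠ 0; linarith)
  exact this

/-- `‖P^s_j v‖²` -/
lemma norm_rot_P_v_sq {v : E} (hv : ‖v‖ = 1) {s : ℝ} (h0 : 0 < s) (h1 : s ≤ 1 / 8) (j : ℕ) :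
    ‖(V.rot s v).P j v‖ ^ 2 = ‖V.P j v‖ ^ 2 * (1 - (2 * s - s ^ 2))
      / (1 - (2 * s - s ^ 2) * ‖V.P j v‖ ^ 2) := by
  have hb := sb_pos h0 h1 (sq_nonneg ‖V.P j v‖) (V.norm_P_v_sq_le hv j)
  have h2 := V.norm_rot_P_Ts_sq hv h0 h1 j v
  have h3 : Ts s v v = (1 - s) • v := by
    rw [Rot203.Ts_apply, real_inner_self_eq_norm_sq, hv, sub_smul, one_smul]; simp
  have h4 : ⟪V.P j v, v⟫ = ‖V.P j v‖ ^ 2 := by rw [V.norm_P_sq, real_inner_comm]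
  rw [h3, map_smul, norm_smul, mul_pow, Real.norm_eq_abs, sq_abs, real_inner_self_eq_norm_sq, hv,
    h4] at h2
  have h5 : (0 : ℝ) < (1 - s) ^ 2 := by
    have : 0 < 1 - s := by linarith
    positivity
  set b := ‖V.P j v‖ ^ 2
  set sb := 2 * s - s ^ 2 with hsb
  have h7 : (1 - sb * b) ≠ 0 := by linarith
  have h8 : (1 - s) ^ 2 = 1 - sb := by rw [hsb]; ring
  have h9 : b - sb * (1 ^ 2) ^ 2 + sb * (1 ^ 2 - b) ^ 2 / (1 - sb * b)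
      = b * (1 - sb) ^ 2 / (1 - sb * b) := by
    rw [eq_div_iff h7, add_mul, div_mul_cancel₀ _ h7]
    ring
  rw [h9, h8] at h2
  rw [h8] at h5
  have h10 : ‖(V.rot s v).P j v‖ ^ 2 = (1 - sb) * ‖(V.rot s v).P j v‖ ^ 2 / (1 - sb) := by
    rw [mul_div_cancel_left₀ _ h5.ne']
  rw [h10, h2, div_div, div_eq_div_iff (mul_ne_zero h7 h5.ne') h7]
  ring

lemma norm_rot_P_v_sq_le {v : E} (hv : ‖v‖ = 1) {s : ℝ} (h0 : 0 < s) (h1 : s ≤ 1 / 8) (j : ℕ) :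
    ‖(V.rot s v).P j v‖ ^ 2 ≤ ‖V.P j v‖ ^ 2 := by
  rw [V.norm_rot_P_v_sq hv h0 h1]
  have hb := sb_pos h0 h1 (sq_nonneg ‖V.P j v‖) (V.norm_P_v_sq_le hv j)
  have hb1 := V.norm_P_v_sq_le hv j
  have hb0 := sq_nonneg ‖V.P j v‖
  set b := ‖V.P j v‖ ^ 2
  rw [div_le_iff₀ (by linarith)]
  have h2 : 0 ≤ 2 * s - s ^ 2 := by nlinarith
  nlinarith [mul_nonneg (mul_nonneg hb0 h2) (sub_nonneg.2 hb1)]

lemma le_norm_rot_P_v_sq {v : E} (hv : ‖v‖ = 1) {s : ℝ} (h0 : 0 < s) (h1 : s ≤ 1 / 8) (j : ℕ) :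
    3 / 4 * ‖V.P j v‖ ^ 2 ≤ ‖(V.rot s v).P j v‖ ^ 2 := by
  rw [V.norm_rot_P_v_sq hv h0 h1]
  have hb := sb_pos h0 h1 (sq_nonneg ‖V.P j v‖) (V.norm_P_v_sq_le hv j)
  have hb1 := V.norm_P_v_sq_le hv j
  have hb0 := sq_nonneg ‖V.P j v‖
  set b := ‖V.P j v‖ ^ 2
  rw [le_div_iff₀ (by linarith)]
  have h2 : 0 ≤ 2 * s - s ^ 2 := by nlinarith
  have h3 : 2 * s - s ^ 2 ≤ 1 / 4 := by nlinarith
  nlinarith [mul_nonneg hb0 h2, mul_nonneg (mul_nonneg hb0 h2) hb0]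

end Flag

end Crest.Agent.R239.TB
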