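import Crest.Agent.R239.TB3_674

/-!
R239 (S0370), TRACK B (helper674): the tilt estimate T1 from the block literals.
-/

set_option autoImplicit false
set_option linter.unusedSectionVars false

open MeasureTheory ProbabilityTheory
open scoped RealInnerProductSpace
open Crest.Agent.R239.L0 (S mrg spl)

namespace Crest.Agent.R239.TB

section Sums

/-- `∑_{i<n} a^{-|i-I|} ≤ 2` for `a ≥ 4` -/
lemma sum_dist_le {a : ℝ} (ha : 4 ≤ a) (n I : ℕ) :
    ∑ i ∈ Finset.range n, (a⁻¹) ^ ((I - i) + (i - I)) ≤ 2 := by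
  have ha0 : (0 : ℝ) < a := by linarith
  have hx0 : (0 : ℝ) ≤ a⁻¹ := (inv_pos.2 ha0).le
  have hx : a⁻¹ ≤ 1 / 4 := by
    rw [inv_le_comm₀ ha0 (by norm_num)]; norm_num; exact ha
  have geo : ∀ k : ℕ, ∑ i ∈ Finset.range k, (a⁻¹) ^ i ≤ 4 / 3 := by
    intro k
    rw [geom_sum_eq (by linarith)]
    rw [div_le_iff_of_neg (by linarith)]
    have : 0 ≤ (a⁻¹) ^ k := pow_nonneg hx0 k
    nlinarith
  have h1 : ∀ n, ∑ i ∈ Finset.range n, (a⁻¹) ^ ((I - i) + (i - I))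
      ≤ ∑ i ∈ Finset.range (I + 1), (a⁻¹) ^ (I - i) + ∑ k ∈ Finset.range n, (a⁻¹) ^ (k + 1) := by
    intro n
    have h2 : ∑ i ∈ Finset.range n, (a⁻¹) ^ ((I - i) + (i - I))
        ≤ ∑ i ∈ Finset.range (I + 1 + n), (a⁻¹) ^ ((I - i) + (i - I)) :=
      Finset.sum_le_sum_of_subset_of_nonneg (Finset.range_mono (by omega))
        fun _ _ _ => pow_nonneg hx0 _
    refine h2.trans ?_
    rw [Finset.sum_range_add]
    refine add_le_add (le_of_eq ?_) (le_of_eq ?_)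
    · refine Finset.sum_congr rfl fun i hi => ?_
      rw [Finset.mem_range] at hi
      rw [show i - I = 0 by omega, add_zero]
    · refine Finset.sum_congr rfl fun k _ => ?_
      rw [show I - (I + 1 + k) = 0 by omega, zero_add, show I + 1 + k - I = k + 1 by omega]
  refine (h1 n).trans ?_
  have h3 : ∑ i ∈ Finset.range (I + 1), (a⁻¹) ^ (I - i) ≤ 4 / 3 := by
    rw [← Finset.sum_range_reflect]
    refine (le_of_eq ?_).trans (geo (I + 1))
    refine Finset.sum_congr rfl fun i hi => ?_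
    rw [Finset.mem_range] at hi
    congr 1; omega
  have h4 : ∑ k ∈ Finset.range n, (a⁻¹) ^ (k + 1) ≤ 1 / 3 := by
    have : ∑ k ∈ Finset.range n, (a⁻¹) ^ (k + 1) = a⁻¹ * ∑ k ∈ Finset.range n, (a⁻¹) ^ k := by
      rw [Finset.mul_sum]; exact Finset.sum_congr rfl fun k _ => pow_succ' _ _
    rw [this]
    have h5 := geo n
    have h6 : 0 ≤ ∑ k ∈ Finset.range n, (a⁻¹) ^ k := Finset.sum_nonneg fun _ _ => pow_nonneg hx0 _
    nlinarith
  linarith

/-- `∑_{l<n} x^(l+1) ≤ 2x` for `0 ≤ x ≤ 1/2` -/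
lemma sum_pow_succ_le {x : ℝ} (h0 : 0 ≤ x) (h1 : x ≤ 1 / 2) (n : ℕ) :
    ∑ l ∈ Finset.range n, x ^ (l + 1) ≤ 2 * x := by
  have e : ∑ k ∈ Finset.range n, x ^ (k + 1) = x * ∑ k ∈ Finset.range n, x ^ k := by
    rw [Finset.mul_sum]; exact Finset.sum_congr rfl fun k _ => pow_succ' _ _
  have geo : ∑ i ∈ Finset.range n, x ^ i ≤ 2 := by
    rw [geom_sum_eq (by linarith)]
    rw [div_le_iff_of_neg (by linarith)]
    have : 0 ≤ x ^ n := pow_nonneg h0 n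
    nlinarith
  rw [e]; nlinarith

/-- exchange of the sums: `∑_i λ_i ∑_l c^(l+1) b_(i+l+1) ≤ (2c/A) ∑_j λ_j b_j` -/
lemma sum_BB_le {A c : ℝ} (hA : 0 < A) (hc : 0 ≤ c) (hcA : c / A ≤ 1 / 2) (n : ℕ) (b : ℕ → ℝ)
    (hb0 : ∀ j, 0 ≤ b j) (hbn : ∀ j, n ≤ j → b j = 0) :
    ∑ i ∈ Finset.range n, A ^ i * ∑ l ∈ Finset.range n, c ^ (l + 1) * b (i + l + 1)
      ≤ 2 * (c / A) * ∑ j ∈ Finset.range n, A ^ j * b j := by
  have h1 : ∀ l, ∑ i ∈ Finset.range n, A ^ (i + l + 1) * b (i + l + 1)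
      ≤ ∑ j ∈ Finset.range n, A ^ j * b j := by
    intro l
    have h2 : ∑ i ∈ Finset.range n, A ^ (i + l + 1) * b (i + l + 1)
        ≤ ∑ j ∈ Finset.range (l + 1 + n), A ^ j * b j := by
      rw [Finset.sum_range_add]
      have : 0 ≤ ∑ x ∈ Finset.range (l + 1), A ^ x * b x :=
        Finset.sum_nonneg fun j _ => mul_nonneg (pow_nonneg hA.le _) (hb0 j)
      refine le_add_of_nonneg_of_le this (le_of_eq ?_)
      exact Finset.sum_congr rfl fun i _ => by rw [show l + 1 + i = i + l + 1 by ring]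
    refine h2.trans (le_of_eq ?_)
    symm
    refine Finset.sum_subset (Finset.range_mono (by omega)) fun j _ hj => ?_
    rw [Finset.mem_range, not_lt] at hj
    rw [hbn j hj, mul_zero]
  calc ∑ i ∈ Finset.range n, A ^ i * ∑ l ∈ Finset.range n, c ^ (l + 1) * b (i + l + 1)
      = ∑ l ∈ Finset.range n, (c / A) ^ (l + 1)
          * ∑ i ∈ Finset.range n, A ^ (i + l + 1) * b (i + l + 1) := by
        simp_rw [Finset.mul_sum]
        rw [Finset.sum_comm]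
        refine Finset.sum_congr rfl fun l _ => Finset.sum_congr rfl fun i _ => ?_
        rw [div_pow, show i + l + 1 = i + (l + 1) by ring, pow_add A i (l + 1)]
        field_simp
    _ ≤ ∑ l ∈ Finset.range n, (c / A) ^ (l + 1) * ∑ j ∈ Finset.range n, A ^ j * b j :=
        Finset.sum_le_sum fun l _ => mul_le_mul_of_nonneg_left (h1 l) (by positivity)
    _ = (∑ l ∈ Finset.range n, (c / A) ^ (l + 1)) * ∑ j ∈ Finset.range n, A ^ j * b j := by
        rw [Finset.sum_mul]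
    _ ≤ 2 * (c / A) * ∑ j ∈ Finset.range n, A ^ j * b j :=
        mul_le_mul_of_nonneg_right (sum_pow_succ_le (by positivity) hcA n)
          (Finset.sum_nonneg fun j _ => mul_nonneg (pow_nonneg hA.le _) (hb0 j))

end Sums

/-- lower levels: `s t S - λ log p ≤ 6 λ_I a^{-(I-i)}` -/
lemma rem_low {a : ℝ} (ha : 4 ≤ a) {i I : ℕ} (hi : i ≤ I) {s S pr : ℝ} (hs0 : 0 ≤ s) (hs : s ≤ 1)
    (hS0 : 0 ≤ S) (hS : S ≤ (a ^ 2) ^ I)
    (hp : ((a ^ 2)⁻¹) ^ (I - i) / 8 ≤ pr) :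
    s * ((a ^ 2)⁻¹) ^ (I - i) * S - (a ^ 2) ^ i * Real.log pr
      ≤ 6 * ((a ^ 2) ^ I * (a⁻¹) ^ (I - i)) := by
  have ha0 : (0 : ℝ) < a := by linarith
  obtain ⟨m, rfl⟩ := Nat.exists_eq_add_of_le hi
  rw [show i + m - i = m by omega] at *
  have e1 : (a ^ 2) ^ (i + m) * (a⁻¹) ^ m = (a ^ 2) ^ i * a ^ m := by
    rw [pow_add, mul_assoc]
    congr 1
    rw [← pow_mul, mul_comm 2 m, pow_mul, inv_pow, sq]
    field_simp
  have e2 : ((a ^ 2)⁻¹) ^ m * (a ^ 2) ^ (i + m) = (a ^ 2) ^ i := by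
    rw [pow_add, inv_pow]; field_simp
  rw [e1]
  have hl0 : 0 < (a ^ 2) ^ i := by positivity
  have ham : 1 ≤ a ^ m := one_le_pow₀ (by linarith)
  have h1 : s * ((a ^ 2)⁻¹) ^ m * S ≤ (a ^ 2) ^ i := by
    calc s * ((a ^ 2)⁻¹) ^ m * S ≤ 1 * ((a ^ 2)⁻¹) ^ m * (a ^ 2) ^ (i + m) := by gcongr
      _ = (a ^ 2) ^ i := by rw [one_mul, e2]
  have h2 : -Real.log pr ≤ 3 + 2 * a ^ m := by
    have h3 : Real.log (((a ^ 2)⁻¹) ^ m / 8) ≤ Real.log pr := Real.log_le_log (by positivity) hp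
    have h4 : Real.log (((a ^ 2)⁻¹) ^ m / 8) = - (2 * Real.log (a ^ m)) - Real.log 8 := by
      rw [Real.log_div (by positivity) (by norm_num), inv_pow, Real.log_inv, ← pow_mul,
        mul_comm 2 m, pow_mul, Real.log_pow]
      norm_num
    have h5 : Real.log (a ^ m) ≤ a ^ m := (Real.log_le_sub_one_of_pos (by positivity)).trans (by linarith)
    have h6 : Real.log 8 ≤ 3 := by
      have : Real.log 8 = 3 * Real.log 2 := by
        rw [show (8 : ℝ) = 2 ^ 3 by norm_num, Real.log_pow]; norm_num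
      have h7 := Real.log_two_lt_d9
      linarith
    linarith
  nlinarith [mul_le_mul_of_nonneg_left h2 hl0.le, mul_le_mul_of_nonneg_left ham hl0.le]

/-- `e^{-L} ≤ 24/L⁴` -/
lemma exp_neg_le {L : ℝ} (hL : 0 < L) : Real.exp (-L) ≤ 24 / L ^ 4 := by
  have h := Real.pow_div_factorial_le_exp L hL.le 4
  rw [show ((Nat.factorial 4 : ℕ) : ℝ) = 24 by norm_num [Nat.factorial]] at h
  rw [Real.exp_neg, ← one_div, div_le_div_iff₀ (Real.exp_pos _) (by positivity)]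
  rw [div_le_iff₀ (by norm_num)] at h
  linarith

lemma neg_log_le {x : ℝ} (h0 : 0 ≤ x) (h1 : x ≤ 1 / 2) {pr : ℝ} (hp : 1 - x ≤ pr) :
    -Real.log pr ≤ 2 * x := by
  have h2 : Real.log (1 - x) ≤ Real.log pr := Real.log_le_log (by linarith) hp
  have h3 : Real.log ((1 - x)⁻¹) ≤ (1 - x)⁻¹ - 1 := Real.log_le_sub_one_of_pos (by
    apply inv_pos.2; linarith)
  rw [Real.log_inv] at h3
  have h4 : (1 - x)⁻¹ - 1 ≤ 2 * x := by
    have h5 : (0 : ℝ) < 1 - x := by linarith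
    rw [sub_le_iff_le_add, inv_le_iff_one_le_mul₀ h5]
    nlinarith
  linarith

/-- upper levels -/
lemma rem_high {a : ℝ} (ha : 4 ≤ a) {I m : ℕ} (hm : 1 ≤ m) {s S pr b e : ℝ} (hs0 : 0 ≤ s)
    (hs : s ≤ 1) (hS0 : 0 ≤ S) (hS : S ≤ (a ^ 2) ^ I) (he : 0 < e) (he1 : e ≤ 1) (hb : 0 ≤ b)
    (hp : 1 - pr ≤ 2 * Real.exp (-(2 * a ^ m * (b + ((a ^ 2)⁻¹) ^ (2 * m))) /
      (2 * (b + ((a ^ 2)⁻¹) ^ (2 * m))))) :
    s * Real.sqrt (2 * a ^ m * (b + ((a ^ 2)⁻¹) ^ (2 * m))) * S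
        - (a ^ 2) ^ (I + m) * Real.log pr
      ≤ s * e * ((a ^ 2) ^ (I + m) * b) + (98 + 1 / e) * ((a ^ 2) ^ I * (a⁻¹) ^ m) := by
  have ha0 : (0 : ℝ) < a := by linarith
  set lI := (a ^ 2) ^ I with hlI
  have hlI0 : 0 < lI := by positivity
  set mu := ((a ^ 2)⁻¹) ^ (2 * m) with hmu
  have hmu0 : 0 < mu := by positivity
  set L := a ^ m with hL
  have hL0 : 0 < L := by positivity
  have hL1 : 4 ≤ L := by
    calc (4 : ℝ) ≤ a := ha
      _ = a ^ 1 := (pow_one a).symm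
      _ ≤ a ^ m := pow_le_pow_right₀ (by linarith) hm
  have e1 : (a ^ 2) ^ (I + m) = lI * L ^ 2 := by
    rw [pow_add, ← hlI, hL, ← pow_mul, ← pow_mul, mul_comm 2 m]
  have e2 : mu = (L ^ 4)⁻¹ := by
    rw [hmu, hL, inv_pow, ← pow_mul, ← pow_mul]
    congr 2; ring
  have e3 : (a⁻¹) ^ m = L⁻¹ := by rw [inv_pow]
  rw [e1, e3]
  have h1 : 1 - pr ≤ 48 / L ^ 4 := by
    have h2 : -(2 * L * (b + mu)) / (2 * (b + mu)) = -L := by
      have : 0 < b + mu := by linarith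
      field_simp
    rw [h2] at hp
    have := exp_neg_le hL0
    calc 1 - pr ≤ 2 * Real.exp (-L) := hp
      _ ≤ 2 * (24 / L ^ 4) := by linarith
      _ = 48 / L ^ 4 := by ring
  have hL4 : (256 : ℝ) ≤ L ^ 4 := by
    calc (256 : ℝ) = 4 ^ 4 := by norm_num
      _ ≤ L ^ 4 := by gcongr
  have h3 : -Real.log pr ≤ 2 * (48 / L ^ 4) := by
    refine neg_log_le (by positivity) ?_ (by linarith)
    rw [div_le_iff₀ (by positivity)]; linarith
  have h4 : lI * L ^ 2 * (-Real.log pr) ≤ 96 * (lI * L⁻¹) := by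
    calc lI * L ^ 2 * (-Real.log pr) ≤ lI * L ^ 2 * (2 * (48 / L ^ 4)) := by gcongr
      _ = 96 * (lI * (L⁻¹ * L⁻¹)) := by field_simp; norm_num
      _ ≤ 96 * (lI * (L⁻¹ * 1)) := by
          have : L⁻¹ ≤ 1 := inv_le_one_of_one_le₀ (by linarith)
          gcongr
      _ = 96 * (lI * L⁻¹) := by ring
  have h5 : Real.sqrt (2 * L * (b + mu)) * S
      ≤ e * (lI * L ^ 2 * (b + mu)) + (1 / e) * (lI * L⁻¹) := by
    have hx : 0 ≤ e * (lI * L ^ 2 * (b + mu)) := by positivity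
    have hy : 0 ≤ (1 / e) * (lI * L⁻¹) := by positivity
    have h6 : Real.sqrt (2 * L * (b + mu)) * lI
        = Real.sqrt (2 * ((e * (lI * L ^ 2 * (b + mu))) * ((1 / e) * (lI * L⁻¹)))) := by
      rw [← Real.sqrt_sq hlI0.le, ← Real.sqrt_mul' _ (by positivity)]
      congr 1
      rw [Real.sqrt_sq hlI0.le]
      field_simp
    have h7 : Real.sqrt (2 * ((e * (lI * L ^ 2 * (b + mu))) * ((1 / e) * (lI * L⁻¹))))
        ≤ e * (lI * L ^ 2 * (b + mu)) + (1 / e) * (lI * L⁻¹) := by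
      rw [Real.sqrt_le_left (by positivity)]
      nlinarith [sq_nonneg (e * (lI * L ^ 2 * (b + mu)) - (1 / e) * (lI * L⁻¹)),
        sq_nonneg (e * (lI * L ^ 2 * (b + mu))), sq_nonneg ((1 / e) * (lI * L⁻¹))]
    calc Real.sqrt (2 * L * (b + mu)) * S ≤ Real.sqrt (2 * L * (b + mu)) * lI := by gcongr
      _ ≤ _ := by rw [h6]; exact h7
  have h8 : e * (lI * L ^ 2 * (b + mu)) ≤ e * (lI * L ^ 2 * b) + lI * L⁻¹ := by
    have : e * (lI * L ^ 2 * mu) ≤ lI * L⁻¹ := by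
      rw [e2]
      calc e * (lI * L ^ 2 * (L ^ 4)⁻¹) ≤ 1 * (lI * L ^ 2 * (L ^ 4)⁻¹) := by gcongr
        _ = lI * (L⁻¹ * L⁻¹) := by field_simp
        _ ≤ lI * (L⁻¹ * 1) := by
            have : L⁻¹ ≤ 1 := inv_le_one_of_one_le₀ (by linarith)
            gcongr
        _ = lI * L⁻¹ := by ring
    nlinarith
  have h9 : s * Real.sqrt (2 * L * (b + mu)) * S
      ≤ s * e * (lI * L ^ 2 * b) + (1 + 1 / e) * (lI * L⁻¹) := by
    have hz : 0 ≤ (1 + 1 / e) * (lI * L⁻¹) := by positivity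
    calc s * Real.sqrt (2 * L * (b + mu)) * S = s * (Real.sqrt (2 * L * (b + mu)) * S) := by ring
      _ ≤ s * (e * (lI * L ^ 2 * b) + (1 + 1 / e) * (lI * L⁻¹)) := by
          refine mul_le_mul_of_nonneg_left ?_ hs0
          linarith
      _ ≤ s * (e * (lI * L ^ 2 * b)) + 1 * ((1 + 1 / e) * (lI * L⁻¹)) := by
          rw [mul_add]
          gcongr
      _ = _ := by ring
  have h10 : 0 < lI * L⁻¹ := by positivity
  linarith

end Crest.Agent.R239.TB
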