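import Crest.Agent.R239.TB4_674

/-!
R239 (S0370), TRACK B (helper674): the rank one gain for a thin body and the tilt estimate T1.
-/

set_option autoImplicit false
set_option linter.unusedSectionVars false

open MeasureTheory ProbabilityTheory
open scoped RealInnerProductSpace
open Crest.Agent.R239.L0 (S mrg spl)

namespace Crest.Agent.R239.TB

variable {E : Type*} [NormedAddCommGroup E] [InnerProductSpace ℝ E] [FiniteDimensional ℝ E]
variable [MeasurableSpace E] [BorelSpace E]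

lemma integrable_inner_sq (x : E) : Integrable (fun g : E => ⟪x, g⟫ ^ 2) (stdGaussian E) := by
  have h : MemLp (fun g : E => (innerSL ℝ x : E →L[ℝ] ℝ) g) 2 (stdGaussian E) :=
    IsGaussian.memLp_dual (stdGaussian E) (innerSL ℝ x) 2 (by norm_num)
  simpa using h.integrable_sq

/-- the defect of the conditional covariance -/
noncomputable def Dl (K : Set E) (x : E) : ℝ := ‖x‖ ^ 2 - Ex K fun g => ⟪x, g⟫ ^ 2

lemma Ex_par (K : Set E) (x y : E) :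
    Ex K (fun g => ⟪x + y, g⟫ ^ 2) + Ex K (fun g => ⟪x - y, g⟫ ^ 2)
      = 2 * Ex K (fun g => ⟪x, g⟫ ^ 2) + 2 * Ex K (fun g => ⟪y, g⟫ ^ 2) := by
  have h1 : (∫ g in K, ⟪x + y, g⟫ ^ 2 ∂stdGaussian E) + ∫ g in K, ⟪x - y, g⟫ ^ 2 ∂stdGaussian E
      = 2 * (∫ g in K, ⟪x, g⟫ ^ 2 ∂stdGaussian E) + 2 * ∫ g in K, ⟪y, g⟫ ^ 2 ∂stdGaussian E := by
    rw [← integral_add (integrable_inner_sq _).integrableOn (integrable_inner_sq _).integrableOn,
      ← integral_const_mul, ← integral_const_mul,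
      ← integral_add ((integrable_inner_sq _).integrableOn.const_mul _)
        ((integrable_inner_sq _).integrableOn.const_mul _)]
    refine integral_congr_ae (Filter.Eventually.of_forall fun g => ?_)
    simp only [inner_add_left, inner_sub_left]
    ring
  unfold Ex
  rw [← add_div, h1]
  ring

lemma Dl_par (K : Set E) (x y : E) : Dl K (x + y) + Dl K (x - y) = 2 * Dl K x + 2 * Dl K y := by
  have h1 := Ex_par K x y
  have h2 := parallelogram_law_with_norm ℝ x y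
  unfold Dl
  nlinarith

lemma Dl_add_ge {K : Set E} (hdom : ∀ x : E, 0 ≤ Dl K x) (x y : E) :
    1 / 2 * Dl K x - Dl K y ≤ Dl K (x + y) := by
  have h := Dl_par K (x + y) y
  have h1 := hdom (x + y + y)
  rw [add_sub_cancel_right] at h
  linarith

lemma Ex_smul (K : Set E) (c : ℝ) (x : E) :
    Ex K (fun g => ⟪c • x, g⟫ ^ 2) = c ^ 2 * Ex K (fun g => ⟪x, g⟫ ^ 2) := by
  unfold Ex
  rw [← mul_div_assoc, ← integral_const_mul]
  congr 1
  refine integral_congr_ae (Filter.Eventually.of_forall fun g => ?_)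
  simp only [real_inner_smul_left]
  ring

lemma Ex_nonneg (K : Set E) (x : E) : 0 ≤ Ex K (fun g => ⟪x, g⟫ ^ 2) :=
  div_nonneg (integral_nonneg fun _ => sq_nonneg _) measureReal_nonneg

set_option maxHeartbeats 1000000 in
/-- thinness in the own direction gives a gain `≥ s (c/4 b_i - 2 b_(i+1))` -/
lemma gain_ge (V : Flag E) {v : E} (hv : ‖v‖ = 1) {s c : ℝ} (h0 : 0 < s) (hc0 : 0 < c)
    (hc1 : c ≤ 1) (hs : s ≤ c / 20) (i : ℕ) {K : Set E} (hdom : ∀ x : E, 0 ≤ Dl K x)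
    (hthin : ∀ w : E, w ∈ (V.rot s v).M i → (∀ y ∈ (V.rot s v).M (i + 1), ⟪y, w⟫ = (0 : ℝ)) →
      ‖w‖ = 1 → Ex K (fun g => ⟪w, g⟫ ^ 2) ≤ 1 - c) :
    s * (c / 4 * ‖V.P i v‖ ^ 2 - 2 * ‖V.P (i + 1) v‖ ^ 2) ≤ gain V v s i K := by
  have h1 : s ≤ 1 / 8 := by linarith
  set Vs := V.rot s v with hVs
  set q := Vs.Q i v with hq
  set h := Vs.H (i + 1) v with hh
  set b := ‖V.P i v‖ ^ 2 with hb
  set b' := ‖V.P (i + 1) v‖ ^ 2 with hb'
  have hqD : c * ‖q‖ ^ 2 ≤ Dl K q := by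
    by_cases hq0 : q = 0
    · rw [hq0]; simp [Dl, Ex]
    · have hn : 0 < ‖q‖ := norm_pos_iff.2 hq0
      have hw : ‖‖q‖⁻¹ • q‖ = 1 := by
        rw [norm_smul, norm_inv, norm_norm, inv_mul_cancel₀ hn.ne']
      have hqm : q ∈ Vs.M i := by
        rw [hq, Vs.Q_apply]
        exact Submodule.sub_mem _ (Vs.P_mem _ _) (Vs.anti (Nat.le_succ i) (Vs.P_mem _ _))
      have hqo : ∀ y ∈ Vs.M (i + 1), ⟪y, q⟫ = (0 : ℝ) := by
        intro y hy
        rw [← Vs.P_eq_self hy, real_inner_comm, hq, Vs.inner_Q_P (Nat.lt_succ_self i)]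
      have := hthin (‖q‖⁻¹ • q) (Submodule.smul_mem _ _ hqm)
        (fun y hy => by rw [real_inner_smul_right, hqo y hy, mul_zero]) hw
      rw [Ex_smul] at this
      have h3 : Ex K (fun g => ⟪q, g⟫ ^ 2) ≤ ‖q‖ ^ 2 * (1 - c) := by
        have h4 : Ex K (fun g => ⟪q, g⟫ ^ 2)
            = ‖q‖ ^ 2 * ((‖q‖⁻¹) ^ 2 * Ex K (fun g => ⟪q, g⟫ ^ 2)) := by
          rw [← mul_assoc, ← mul_pow, mul_inv_cancel₀ hn.ne', one_pow, one_mul]
        rw [h4]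
        exact mul_le_mul_of_nonneg_left this (sq_nonneg _)
      unfold Dl
      linarith
  have hu : Vs.H i v = q + th • h := by
    conv_lhs => rw [Vs.H_succ i]
    rfl
  have hPs := V.norm_rot_P_v_sq_le hv h0 h1 i
  have hPs' := V.norm_rot_P_v_sq_le hv h0 h1 (i + 1)
  have hPs2 := V.le_norm_rot_P_v_sq hv h0 h1 i
  rw [← hVs] at hPs hPs' hPs2
  rw [← hb] at hPs hPs2
  rw [← hb'] at hPs'
  have hqn : ‖q‖ ^ 2 = ‖Vs.P i v‖ ^ 2 - ‖Vs.P (i + 1) v‖ ^ 2 := Vs.norm_Q_sq i v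
  have hDh : Dl K (th • h) ≤ b' := by
    have e1 : ‖h‖ ^ 2 ≤ ‖Vs.P (i + 1) v‖ ^ 2 := by
      have := Vs.norm_H_le_P (i + 1) v
      gcongr
    have e2 : ‖th • h‖ ^ 2 ≤ ‖h‖ ^ 2 := by
      rw [norm_smul, mul_pow, Real.norm_eq_abs, sq_abs]
      have : th ^ 2 ≤ 1 := by norm_num [th]
      nlinarith [sq_nonneg ‖h‖]
    have e3 := Ex_nonneg K (th • h)
    unfold Dl
    linarith
  have hDu : 1 / 2 * c * ‖q‖ ^ 2 - b' ≤ Dl K (Vs.H i v) := by
    rw [hu]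
    have := Dl_add_ge hdom q (th • h)
    linarith
  have hDu2 : 3 / 8 * c * b - 3 / 2 * b' ≤ Dl K (Vs.H i v) := by
    have hb'0 : 0 ≤ b' := sq_nonneg _
    have e1 : 3 / 4 * b - b' ≤ ‖q‖ ^ 2 := by linarith
    have e2 : c * (3 / 4 * b - b') ≤ c * ‖q‖ ^ 2 := mul_le_mul_of_nonneg_left e1 hc0.le
    nlinarith
  have hb1 : b ≤ 1 := V.norm_P_v_sq_le hv i
  have hb0 : 0 ≤ b := sq_nonneg _
  have hu4 : ‖Vs.H i v‖ ^ 4 ≤ b := by
    have e1 : ‖Vs.H i v‖ ^ 2 ≤ b := by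
      have := Vs.norm_H_le_P i v
      calc ‖Vs.H i v‖ ^ 2 ≤ ‖Vs.P i v‖ ^ 2 := by gcongr
        _ ≤ b := hPs
    calc ‖Vs.H i v‖ ^ 4 = (‖Vs.H i v‖ ^ 2) ^ 2 := by ring
      _ ≤ b ^ 2 := by gcongr
      _ ≤ b := by nlinarith
  set cc := (2 * s - s ^ 2) / (1 - s) ^ 2 with hcc
  have h1s : 0 < (1 - s) ^ 2 := by
    have : 0 < 1 - s := by linarith
    positivity
  have hcc1 : 15 / 8 * s ≤ cc := by
    rw [hcc, le_div_iff₀ h1s]
    have : (1 - s) ^ 2 ≤ 1 := by nlinarith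
    nlinarith [mul_le_mul_of_nonneg_left this h0.le]
  have hcc2 : cc ≤ 128 / 49 * s := by
    rw [hcc, div_le_iff₀ h1s]
    have : 49 / 64 ≤ (1 - s) ^ 2 := by nlinarith
    nlinarith [mul_le_mul_of_nonneg_left this h0.le]
  have hcc0 : 0 ≤ cc := by linarith [mul_pos (show (0:ℝ) < 15 / 8 by norm_num) h0]
  have hg : gain V v s i K = 1 / 2 * cc * Dl K (Vs.H i v) - 1 / 4 * cc ^ 2 * ‖Vs.H i v‖ ^ 4 := rfl
  rw [hg]
  have hb'0 : 0 ≤ b' := sq_nonneg _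
  have f1 : 1 / 2 * cc * (3 / 8 * c * b - 3 / 2 * b') ≤ 1 / 2 * cc * Dl K (Vs.H i v) :=
    mul_le_mul_of_nonneg_left hDu2 (by positivity)
  have f2 : 1 / 4 * cc ^ 2 * ‖Vs.H i v‖ ^ 4 ≤ 1 / 4 * (128 / 49 * s) ^ 2 * b := by gcongr
  have f3 : 15 / 8 * s * (c * b) ≤ cc * (c * b) := mul_le_mul_of_nonneg_right hcc1 (by positivity)
  have f4 : cc * b' ≤ 128 / 49 * s * b' := mul_le_mul_of_nonneg_right hcc2 hb'0
  have f5 : s * (s * b) ≤ s * (c / 20 * b) := by gcongr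
  nlinarith [mul_nonneg h0.le hb'0, mul_nonneg h0.le (mul_nonneg hc0.le hb0)]

end Crest.Agent.R239.TB
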