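import Crest.Agent.R239.TB5_674

/-!
R239 (S0370), TRACK B (helper674): the tilt estimate T1 from the block literals.
-/

set_option autoImplicit false
set_option linter.unusedSectionVars false

open MeasureTheory ProbabilityTheory
open scoped RealInnerProductSpace
open Crest.Agent.R239.L0 (S mrg spl)

namespace Crest.Agent.R239.TB

variable {E : Type*} [NormedAddCommGroup E] [InnerProductSpace ℝ E] [FiniteDimensional ℝ E]
variable [MeasurableSpace E] [BorelSpace E]

/-- tails of slabs -/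
def SlabB (E : Type*) [NormedAddCommGroup E] [InnerProductSpace ℝ E] [FiniteDimensional ℝ E]
    [MeasurableSpace E] [BorelSpace E] : Prop :=
  (∀ (w : E) (t b : ℝ), ‖w‖ ^ 2 ≤ b → 0 < b → 0 ≤ t →
      1 - gm {g : E | |⟪w, g⟫| ≤ t} ≤ 2 * Real.exp (-t ^ 2 / (2 * b))) ∧
  (∀ (w : E) (t : ℝ), ‖w‖ ≤ 1 → 0 ≤ t → t ≤ 1 → t / 8 ≤ gm {g : E | |⟪w, g⟫| ≤ t})

/-- conditional variances -/
def DomB (E : Type*) [NormedAddCommGroup E] [InnerProductSpace ℝ E] [FiniteDimensional ℝ E]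
    [MeasurableSpace E] [BorelSpace E] : Prop :=
  ∀ K : Set E, IsClosed K → Convex ℝ K → (∀ g ∈ K, -g ∈ K) → 0 < gm K →
    ∀ x : E, Ex K (fun g => ⟪x, g⟫ ^ 2) ≤ ‖x‖ ^ 2

/-- the remainder of one level -/
lemma rem_level (hSl : SlabB E) {a : ℝ} (ha : 4 ≤ a) (V : Flag E) {v : E} (hv : ‖v‖ = 1)
    {s Sv e : ℝ} (hs0 : 0 ≤ s) (hs1 : s ≤ 1) (I i : ℕ) (hS0 : 0 ≤ Sv) (hS : Sv ≤ (a ^ 2) ^ I)
    (he : 0 < e) (he1 : e ≤ 1) :
    ∃ t : ℝ, 0 < t ∧ s * t * Sv - (a ^ 2) ^ i * Real.log (gm {g | |⟪V.H i v, g⟫| ≤ t})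
      ≤ (if I < i then s * e * ((a ^ 2) ^ i * ‖V.P i v‖ ^ 2) else 0)
        + (98 + 1 / e) * ((a ^ 2) ^ I * (a⁻¹) ^ ((I - i) + (i - I))) := by
  have ha0 : (0 : ℝ) < a := by linarith
  have h1e : 0 < 1 / e := by positivity
  by_cases hi : I < i
  · obtain ⟨m, rfl⟩ : ∃ m, i = I + m := ⟨i - I, by omega⟩
    have hm : 1 ≤ m := by omega
    rw [if_pos hi, show (I - (I + m)) + (I + m - I) = m by omega]
    set b := ‖V.P (I + m) v‖ ^ 2 with hb
    have hb0 : 0 ≤ b := sq_nonneg _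
    have hmu : 0 < ((a ^ 2)⁻¹) ^ (2 * m) := by positivity
    have hpos : 0 < 2 * a ^ m * (b + ((a ^ 2)⁻¹) ^ (2 * m)) := by positivity
    refine ⟨Real.sqrt (2 * a ^ m * (b + ((a ^ 2)⁻¹) ^ (2 * m))), Real.sqrt_pos.2 hpos, ?_⟩
    refine rem_high ha hm hs0 hs1 hS0 hS he he1 hb0 ?_
    have := hSl.1 (V.H (I + m) v) (Real.sqrt (2 * a ^ m * (b + ((a ^ 2)⁻¹) ^ (2 * m))))
      (b + ((a ^ 2)⁻¹) ^ (2 * m))
      (by
        have h1 := V.norm_H_le_P (I + m) v
        have h2 : ‖V.H (I + m) v‖ ^ 2 ≤ b := by rw [hb]; gcongr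
        linarith) (by linarith) (Real.sqrt_nonneg _)
    rw [Real.sq_sqrt hpos.le] at this
    exact this
  · rw [if_neg hi, zero_add, show (I - i) + (i - I) = I - i by omega]
    have hiI : i ≤ I := by omega
    have ht0 : (0 : ℝ) < ((a ^ 2)⁻¹) ^ (I - i) := by positivity
    refine ⟨((a ^ 2)⁻¹) ^ (I - i), ht0, ?_⟩
    have hp := hSl.2 (V.H i v) (((a ^ 2)⁻¹) ^ (I - i))
      (by have := V.norm_H_le i v; rwa [hv] at this) ht0.le
      (pow_le_one₀ (by positivity) (inv_le_one_of_one_le₀ (by nlinarith)))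
    refine (rem_low ha hiI hs0 hs1 hS0 hS hp).trans ?_
    have h2 : 0 ≤ (a ^ 2) ^ I * (a⁻¹) ^ (I - i) := by positivity
    exact mul_le_mul_of_nonneg_right (by linarith) h2

/-- geometric bound for the lower levels -/
lemma sum_pow_le {A : ℝ} (hA : 2 ≤ A) (I : ℕ) : ∑ i ∈ Finset.range (I + 1), A ^ i ≤ 2 * A ^ I := by
  induction I with
  | zero => norm_num
  | succ I ih =>
    rw [Finset.sum_range_succ]
    have : 0 < A ^ I := by positivity
    rw [pow_succ]
    nlinarith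

variable {C6 rho0 kap c dl rho1 A1 : ℝ}

/-- SUM: the comparison of `J V` and `J (T_s V)` -/
lemma sum_level (hSB : SoftB E) (hL : LevB E C6 rho0) (hSl : SlabB E) (p : Par)
    (hr : rho0 ≤ p.rho) {a : ℝ} (ha : 4 ≤ a) (haA : p.A = a ^ 2) (mu : Multiset E) (V : Flag E)
    {v : E} (hv : ‖v‖ = 1) (I : ℕ) (hS : S mu v ≤ p.lam I) {s : ℝ} (hs0 : 0 < s) (hs1 : s ≤ 1 / 8)
    {ep e : ℝ} (hep : 0 < ep) (hep1 : ep ≤ 1) (he : 0 < e) (he1 : e ≤ 1) (hC6 : 0 ≤ C6)
    {q : ℝ} (hq : C6 * (ep + 1 / p.rho) + C6 * (1 / ep + 1) * (25 / 4 / p.A) + e ≤ q)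
    (K : ℕ → Set E) (hK : ∀ i, Adm p (V.rot s v) i (K i)) {sl : ℝ}
    (hKv : ∀ i, val p mu (V.rot s v) i (K i) ≤ D p mu (V.rot s v) i + sl / (V.n + 1)) (hsl : 0 ≤ sl)
    (G : ℕ → ℝ) (hG : ∀ i, G i ≤ 0 ∨ G i ≤ gain V v s i (K i)) :
    J p mu V + ∑ i ∈ Finset.range V.n, p.lam i * G i
      ≤ J p mu (V.rot s v) + sl + (98 + 1 / e) * (2 * p.lam I)
        + s * q * (∑ i ∈ Finset.Ico (I + 1) V.n, p.lam i * ‖V.P i v‖ ^ 2 + 2 * p.lam I) := by
  have ha0 : (0 : ℝ) < a := by linarith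
  have hlam : ∀ i, p.lam i = (a ^ 2) ^ i := fun i => by rw [Par.lam, haA]
  have hlam0 : ∀ i, 0 < p.lam i := fun i => by rw [hlam]; positivity
  set b : ℕ → ℝ := fun i => ‖V.P i v‖ ^ 2 with hb
  have hb0 : ∀ i, 0 ≤ b i := fun i => sq_nonneg _
  have hb1 : ∀ i, b i ≤ 1 := fun i => V.norm_P_v_sq_le hv i
  have hbn : ∀ i, V.n ≤ i → b i = 0 := fun i hi => by simp [hb, V.P_of_ge hi]
  have hrho : (8 : ℝ) ≤ p.rho := p.hrho
  have hS0 : 0 ≤ S mu v := L0.S_nonneg mu v
  -- the level inequality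
  have hlev : ∀ i, D p mu V i + p.lam i * G i ≤ D p mu (V.rot s v) i + sl / (V.n + 1)
      + p.lam i * (s * C6 * ((ep + 1 / p.rho) * b i + (1 / ep + 1) * BB V v i))
      + ((if I < i then s * e * (p.lam i * b i) else 0)
        + (98 + 1 / e) * (p.lam I * (a⁻¹) ^ ((I - i) + (i - I)))) := by
    intro i
    obtain ⟨t, ht, hrem⟩ := rem_level hSl ha V hv hs0.le (by linarith : s ≤ 1) I i hS0
      (by rw [← hlam]; exact hS) he he1
    have h1 := hL p mu V v s i (K i) t ep (G i) hr hv hs0 hs1 hep hep1 (hK i) ht (hG i)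
    have h2 := hKv i
    rw [← hlam i, ← hlam I] at hrem
    linarith
  have hsum := Finset.sum_le_sum fun i (_ : i ∈ Finset.range V.n) => hlev i
  simp only [Finset.sum_add_distrib] at hsum
  -- the pieces
  have hJV : J p mu V = ∑ i ∈ Finset.range V.n, D p mu V i
      - ∑ i ∈ Finset.range V.n, p.kap * (p.dlam i * V.m i) := by
    rw [J, Finset.sum_sub_distrib]
  have hJs : J p mu (V.rot s v) = ∑ i ∈ Finset.range V.n, D p mu (V.rot s v) i
      - ∑ i ∈ Finset.range V.n, p.kap * (p.dlam i * V.m i) := by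
    rw [J, Finset.sum_sub_distrib, V.rot_n]
    congr 1
    exact Finset.sum_congr rfl fun i _ => by rw [V.rot_m hv (by linarith)]
  have hc1 : ∑ _i ∈ Finset.range V.n, sl / (V.n + 1) ≤ sl := by
    rw [Finset.sum_const, Finset.card_range, nsmul_eq_mul]
    have : (0 : ℝ) < (V.n : ℝ) + 1 := by positivity
    rw [mul_div_assoc', div_le_iff₀ this]
    nlinarith
  set X := ∑ i ∈ Finset.Ico (I + 1) V.n, p.lam i * b i with hX
  set Y := ∑ i ∈ Finset.range V.n, p.lam i * b i with hY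
  have hX0 : 0 ≤ X := Finset.sum_nonneg fun i _ => mul_nonneg (hlam0 i).le (hb0 i)
  have hYX : Y ≤ X + 2 * p.lam I := by
    have h1 : Y ≤ ∑ i ∈ Finset.range (I + 1), p.lam i * b i + X := by
      by_cases hn : I + 1 ≤ V.n
      · rw [hY, hX, Finset.sum_range_add_sum_Ico _ hn]
      · have : Y ≤ ∑ i ∈ Finset.range (I + 1), p.lam i * b i :=
          Finset.sum_le_sum_of_subset_of_nonneg (Finset.range_mono (by omega))
            fun i _ _ => mul_nonneg (hlam0 i).le (hb0 i)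
        linarith
    have h2 : ∑ i ∈ Finset.range (I + 1), p.lam i * b i ≤ 2 * p.lam I := by
      calc ∑ i ∈ Finset.range (I + 1), p.lam i * b i ≤ ∑ i ∈ Finset.range (I + 1), p.A ^ i := by
            refine Finset.sum_le_sum fun i _ => ?_
            calc p.lam i * b i ≤ p.lam i * 1 := mul_le_mul_of_nonneg_left (hb1 i) (hlam0 i).le
              _ = p.A ^ i := by rw [mul_one, Par.lam]
        _ ≤ 2 * p.A ^ I := sum_pow_le (by linarith [p.hA]) I
        _ = 2 * p.lam I := rfl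
    linarith
  have hY0 : 0 ≤ Y := Finset.sum_nonneg fun i _ => mul_nonneg (hlam0 i).le (hb0 i)
  have hZ : ∑ i ∈ Finset.range V.n, p.lam i * BB V v i ≤ 25 / 4 / p.A * Y := by
    have hA0 : 0 < p.A := by linarith [p.hA]
    have h1 := sum_BB_le (A := p.A) (c := 25 / 8) hA0 (by norm_num)
      (by rw [div_le_iff₀ hA0]; linarith [p.hA]) V.n b hb0 hbn
    calc ∑ i ∈ Finset.range V.n, p.lam i * BB V v i
        = ∑ i ∈ Finset.range V.n, p.A ^ i
            * ∑ l ∈ Finset.range V.n, (25 / 8 : ℝ) ^ (l + 1) * b (i + l + 1) := rfl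
      _ ≤ 2 * (25 / 8 / p.A) * ∑ j ∈ Finset.range V.n, p.A ^ j * b j := h1
      _ = 25 / 4 / p.A * Y := by rw [hY]; simp only [Par.lam]; ring
  have hc2 : ∑ i ∈ Finset.range V.n,
      p.lam i * (s * C6 * ((ep + 1 / p.rho) * b i + (1 / ep + 1) * BB V v i))
      ≤ s * (C6 * (ep + 1 / p.rho) + C6 * (1 / ep + 1) * (25 / 4 / p.A)) * Y := by
    have e1 : ∑ i ∈ Finset.range V.n,
        p.lam i * (s * C6 * ((ep + 1 / p.rho) * b i + (1 / ep + 1) * BB V v i))
        = s * C6 * (ep + 1 / p.rho) * Y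
          + s * C6 * (1 / ep + 1) * ∑ i ∈ Finset.range V.n, p.lam i * BB V v i := by
      rw [hY, Finset.mul_sum, Finset.mul_sum, ← Finset.sum_add_distrib]
      exact Finset.sum_congr rfl fun i _ => by ring
    rw [e1]
    have e2 : s * C6 * (1 / ep + 1) * ∑ i ∈ Finset.range V.n, p.lam i * BB V v i
        ≤ s * C6 * (1 / ep + 1) * (25 / 4 / p.A * Y) :=
      mul_le_mul_of_nonneg_left hZ (by positivity)
    nlinarith
  have hc3 : ∑ i ∈ Finset.range V.n, (if I < i then s * e * (p.lam i * b i) else 0)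
      ≤ s * e * X := by
    rw [hX, Finset.mul_sum, ← Finset.sum_filter]
    refine le_of_eq (Finset.sum_congr ?_ fun _ _ => rfl)
    ext i
    simp only [Finset.mem_filter, Finset.mem_range, Finset.mem_Ico]
    omega
  have hc4 : ∑ i ∈ Finset.range V.n, (98 + 1 / e) * (p.lam I * (a⁻¹) ^ ((I - i) + (i - I)))
      ≤ (98 + 1 / e) * (2 * p.lam I) := by
    rw [← Finset.mul_sum, ← Finset.mul_sum]
    have h1 := sum_dist_le ha V.n I
    have h2 : 0 ≤ 98 + 1 / e := by positivity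
    have h3 := mul_le_mul_of_nonneg_left h1 (hlam0 I).le
    have h4 := mul_le_mul_of_nonneg_left h3 h2
    linarith
  have hfin : s * (C6 * (ep + 1 / p.rho) + C6 * (1 / ep + 1) * (25 / 4 / p.A)) * Y + s * e * X
      ≤ s * q * (X + 2 * p.lam I) := by
    have hA0 : 0 < p.A := by linarith [p.hA]
    have h1 : 0 ≤ C6 * (ep + 1 / p.rho) + C6 * (1 / ep + 1) * (25 / 4 / p.A) := by positivity
    have h2 : s * (C6 * (ep + 1 / p.rho) + C6 * (1 / ep + 1) * (25 / 4 / p.A)) * Y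
        ≤ s * (C6 * (ep + 1 / p.rho) + C6 * (1 / ep + 1) * (25 / 4 / p.A)) * (X + 2 * p.lam I) :=
      mul_le_mul_of_nonneg_left hYX (by positivity)
    have h3 : s * e * X ≤ s * e * (X + 2 * p.lam I) := by
      have := hlam0 I
      exact mul_le_mul_of_nonneg_left (by linarith) (by positivity)
    have h4 : s * (C6 * (ep + 1 / p.rho) + C6 * (1 / ep + 1) * (25 / 4 / p.A) + e)
        * (X + 2 * p.lam I) ≤ s * q * (X + 2 * p.lam I) := by
      have := hlam0 I
      have h5 : 0 ≤ X + 2 * p.lam I := by linarith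
      exact mul_le_mul_of_nonneg_right (mul_le_mul_of_nonneg_left hq hs0.le) h5
    nlinarith
  rw [hJV, hJs]
  linarith

set_option maxHeartbeats 2000000 in
/-- **T1** -/
theorem T1_of (hSB : SoftB E) (hL : LevB E C6 rho0) (hT : ThinB E kap c dl rho1 A1)
    (hSl : SlabB E) (hD : DomB E) (hc0 : 0 < c) (hc1 : c ≤ 1) (hdl : 0 < dl) (hC6 : 1 ≤ C6) :
    ∃ C8 rho2 A2 : ℝ, 0 < C8 ∧ ∀ p : Par, p.kap = kap → rho2 ≤ p.rho → A2 ≤ p.A →
      ∀ (mu : Multiset E) (V : Flag E) (v : E) (I : ℕ), ‖v‖ = 1 → S mu v ≤ p.lam I →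
        U p mu ≤ J p mu V + p.lam I →
        ∑ i ∈ Finset.Ico (I + 1) V.n, p.lam i * ‖V.P i v‖ ^ 2 ≤ C8 * p.lam I := by
  -- constants
  set e : ℝ := c / 128 with he
  set C10 : ℝ := 1 + 2 * (98 + 1 / e) with hC10
  set C9 : ℝ := 32 * (C10 + 2) / c with hC9
  set ep : ℝ := c / (128 * C6) with hep
  have he0 : 0 < e := by positivity
  have he1 : e ≤ 1 := by rw [he]; linarith
  have hep0 : 0 < ep := by positivity
  have hep1 : ep ≤ 1 := by
    rw [hep, div_le_one (by positivity)]; linarith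
  have hC10p : 0 < C10 := by positivity
  have hC9p : 0 < C9 := by positivity
  refine ⟨20 * C9 / c, max (max rho0 rho1) (128 * C6 / c),
    max (max (max A1 (1 / dl)) (max ((C10 + C9 + 2) / dl) (16 / c)))
      (C6 * (1 / ep + 1) * (25 / 4) * (128 / c)), by positivity, ?_⟩
  intro p hk hr hA mu V v I hv hS hU
  have hr0 : rho0 ≤ p.rho := (le_max_left _ _).trans ((le_max_left _ _).trans hr)
  have hr1 : rho1 ≤ p.rho := (le_max_right _ _).trans ((le_max_left _ _).trans hr)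
  have hr2 : 128 * C6 / c ≤ p.rho := (le_max_right _ _).trans hr
  have hA1 : A1 ≤ p.A :=
    (le_max_left _ _).trans ((le_max_left _ _).trans ((le_max_left _ _).trans hA))
  have hA2 : 1 / dl ≤ p.A :=
    (le_max_right _ _).trans ((le_max_left _ _).trans ((le_max_left _ _).trans hA))
  have hA3 : (C10 + C9 + 2) / dl ≤ p.A :=
    (le_max_left _ _).trans ((le_max_right _ _).trans ((le_max_left _ _).trans hA))
  have hA4 : 16 / c ≤ p.A :=
    (le_max_right _ _).trans ((le_max_right _ _).trans ((le_max_left _ _).trans hA))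
  have hA5 : C6 * (1 / ep + 1) * (25 / 4) * (128 / c) ≤ p.A := (le_max_right _ _).trans hA
  clear hr hA
  have hA16 : (16 : ℝ) ≤ p.A := p.hA
  have hA0 : 0 < p.A := by linarith
  have hrp : 0 < p.rho := by linarith [p.hrho]
  have hlam0 : ∀ i, 0 < p.lam i := fun i => by rw [Par.lam]; positivity
  by_contra hcon
  rw [not_le] at hcon
  set X := ∑ i ∈ Finset.Ico (I + 1) V.n, p.lam i * ‖V.P i v‖ ^ 2 with hX
  have hX0 : 0 < X := lt_trans (mul_pos (by positivity) (hlam0 I)) hcon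
  set s : ℝ := C9 * p.lam I / X with hs
  have hs0 : 0 < s := div_pos (mul_pos hC9p (hlam0 I)) hX0
  have hsX : s * X = C9 * p.lam I := by rw [hs]; field_simp
  have hsc : s ≤ c / 20 := by
    rw [hs, div_le_iff₀ hX0]
    have : C9 * p.lam I = c / 20 * (20 * C9 / c * p.lam I) := by field_simp
    rw [this]
    exact mul_le_mul_of_nonneg_left hcon.le (by positivity)
  have hs1 : s ≤ 1 / 8 := by linarith
  set a := Real.sqrt p.A with ha
  have ha2 : p.A = a ^ 2 := (Real.sq_sqrt hA0.le).symm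
  have ha4 : 4 ≤ a := by
    rw [ha]; apply Real.le_sqrt_of_sq_le; linarith
  set q : ℝ := c / 32 with hq
  have hqle : C6 * (ep + 1 / p.rho) + C6 * (1 / ep + 1) * (25 / 4 / p.A) + e ≤ q := by
    have h1 : C6 * ep = c / 128 := by rw [hep]; field_simp
    have h2 : C6 * (1 / p.rho) ≤ c / 128 := by
      rw [mul_one_div, div_le_iff₀ hrp]
      rw [div_le_iff₀ hc0] at hr2
      linarith
    have h3 : C6 * (1 / ep + 1) * (25 / 4 / p.A) ≤ c / 128 := by
      have h4 : C6 * (1 / ep + 1) * (25 / 4 / p.A) = C6 * (1 / ep + 1) * (25 / 4) / p.A := by ring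
      rw [h4, div_le_iff₀ hA0]
      have h5 : C6 * (1 / ep + 1) * (25 / 4) * (128 / c) * (c / 128) ≤ p.A * (c / 128) :=
        mul_le_mul_of_nonneg_right hA5 (by positivity)
      have h6 : C6 * (1 / ep + 1) * (25 / 4) * (128 / c) * (c / 128)
          = C6 * (1 / ep + 1) * (25 / 4) := by field_simp
      linarith
    rw [hq, he, mul_add]
    linarith
  -- the bodies
  have hsln : (0 : ℝ) < p.lam I / ((V.n : ℝ) + 1) := div_pos (hlam0 I) (by positivity)
  choose K hK hKv using fun i : ℕ =>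
    hSB.D_near p mu (V.rot s v) i (p.lam I / ((V.n : ℝ) + 1)) hsln
  have hsum := fun (G : ℕ → ℝ) (hG : ∀ i, G i ≤ 0 ∨ G i ≤ gain V v s i (K i)) =>
    sum_level hSB hL hSl p hr0 ha4 ha2 mu V hv I hS hs0 hs1 hep0 hep1 he0 he1 (by linarith) hqle
      K hK hKv (hlam0 I).le G hG
  -- common estimate of the right side
  have hR : p.lam I + (98 + 1 / e) * (2 * p.lam I) + s * q * (X + 2 * p.lam I)
      ≤ (C10 + q * (C9 + 1)) * p.lam I := by
    have h1 : s * q * (X + 2 * p.lam I) = q * (s * X) + q * (2 * s) * p.lam I := by ring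
    have h2 : q * (2 * s) * p.lam I ≤ q * 1 * p.lam I := by
      have : 2 * s ≤ 1 := by linarith
      have hq0 : 0 ≤ q := by positivity
      have := mul_le_mul_of_nonneg_left this hq0
      exact mul_le_mul_of_nonneg_right this (hlam0 I).le
    rw [h1, hsX, hC10]
    nlinarith
  -- step 1
  have step1 : U p mu ≤ J p mu (V.rot s v) + (C10 + C9 + 2) * p.lam I := by
    have h := hsum (fun _ => 0) fun _ => Or.inl le_rfl
    simp only [mul_zero, Finset.sum_const_zero, add_zero] at h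
    have h3 : q * (C9 + 1) ≤ C9 + 1 := by
      have : q ≤ 1 := by rw [hq]; linarith
      nlinarith
    have h4 : (C10 + q * (C9 + 1)) * p.lam I ≤ (C10 + (C9 + 1)) * p.lam I :=
      mul_le_mul_of_nonneg_right (by linarith) (hlam0 I).le
    nlinarith
  -- step 2
  set G : ℕ → ℝ := fun i => if I < i then s * (c / 4 * ‖V.P i v‖ ^ 2 - 2 * ‖V.P (i + 1) v‖ ^ 2)
    else 0 with hGdef
  have hlamA : ∀ i, I < i → p.A * p.lam I ≤ p.lam i := by
    intro i hi
    rw [Par.lam, Par.lam, ← pow_succ']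
    exact pow_le_pow_right₀ (by linarith) hi
  have hG : ∀ i, G i ≤ 0 ∨ G i ≤ gain V v s i (K i) := by
    intro i
    by_cases hi : I < i
    · right
      rw [hGdef]
      simp only [if_pos hi]
      have hdom : ∀ x : E, 0 ≤ Dl (K i) x := fun x => by
        have := hD (K i) (hK i).closed (hK i).conv (hK i).symm (hK i).pos x
        unfold Dl; linarith
      refine gain_ge V hv hs0 hc0 hc1 hsc i hdom fun w hw hwo hw1 => ?_
      refine hT p mu (V.rot s v) i w (K i) hk hr1 hA1 (by omega) ?_ hw hwo hw1 (hK i) ?_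
      · refine step1.trans ?_
        have h1 : (C10 + C9 + 2) * p.lam I ≤ dl * (p.A * p.lam I) := by
          rw [div_le_iff₀ hdl] at hA3
          nlinarith [mul_le_mul_of_nonneg_right hA3 (hlam0 I).le]
        have h2 := mul_le_mul_of_nonneg_left (hlamA i hi) hdl.le
        linarith
      · refine (hKv i).trans ?_
        have h1 : p.lam I / ((V.n : ℝ) + 1) ≤ p.lam I :=
          div_le_self (hlam0 I).le (by linarith [Nat.cast_nonneg (α := ℝ) V.n])
        have h2 : p.lam I ≤ dl * (p.A * p.lam I) := by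
          rw [div_le_iff₀ hdl] at hA2
          nlinarith [mul_le_mul_of_nonneg_right hA2 (hlam0 I).le]
        have h3 := mul_le_mul_of_nonneg_left (hlamA i hi) hdl.le
        linarith
    · left
      rw [hGdef]
      simp [hi]
  have h := hsum G hG
  have hGsum : s * (c / 4 - 2 / p.A) * X ≤ ∑ i ∈ Finset.range V.n, p.lam i * G i := by
    have h1 : ∑ i ∈ Finset.range V.n, p.lam i * G i
        = ∑ i ∈ Finset.Ico (I + 1) V.n,
          p.lam i * (s * (c / 4 * ‖V.P i v‖ ^ 2 - 2 * ‖V.P (i + 1) v‖ ^ 2)) := by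
      have : ∀ i, p.lam i * G i = if I < i then
          p.lam i * (s * (c / 4 * ‖V.P i v‖ ^ 2 - 2 * ‖V.P (i + 1) v‖ ^ 2)) else 0 := by
        intro i
        rw [hGdef]
        by_cases hi : I < i <;> simp [hi]
      simp only [this]
      rw [← Finset.sum_filter]
      refine Finset.sum_congr ?_ fun _ _ => rfl
      ext i
      simp only [Finset.mem_filter, Finset.mem_range, Finset.mem_Ico]
      omega
    have h2 : ∑ i ∈ Finset.Ico (I + 1) V.n,
          p.lam i * (s * (c / 4 * ‖V.P i v‖ ^ 2 - 2 * ‖V.P (i + 1) v‖ ^ 2))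
        = s * (c / 4) * X
          - 2 * s * ∑ i ∈ Finset.Ico (I + 1) V.n, p.lam i * ‖V.P (i + 1) v‖ ^ 2 := by
      rw [hX, Finset.mul_sum, Finset.mul_sum, ← Finset.sum_sub_distrib]
      exact Finset.sum_congr rfl fun i _ => by ring
    have h3 : ∑ i ∈ Finset.Ico (I + 1) V.n, p.lam i * ‖V.P (i + 1) v‖ ^ 2 ≤ X / p.A := by
      rw [le_div_iff₀ hA0, Finset.sum_mul]
      have h4 : ∑ i ∈ Finset.Ico (I + 1) V.n, p.lam i * ‖V.P (i + 1) v‖ ^ 2 * p.A
          = ∑ i ∈ Finset.Ico (I + 1 + 1) (V.n + 1), p.lam i * ‖V.P i v‖ ^ 2 := by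
        rw [← Finset.sum_Ico_add' (fun i => p.lam i * ‖V.P i v‖ ^ 2) (I + 1) V.n 1]
        refine Finset.sum_congr rfl fun i _ => ?_
        simp only [Par.lam, pow_succ]
        ring
      rw [h4]
      have h5 : ∀ i ∈ Finset.Ico (I + 1 + 1) (V.n + 1), i ∉ Finset.Ico (I + 1) V.n →
          p.lam i * ‖V.P i v‖ ^ 2 = 0 := by
        intro i hi hi'
        rw [Finset.mem_Ico] at hi hi'
        have : V.n ≤ i := by omega
        simp [V.P_of_ge this]
      calc ∑ i ∈ Finset.Ico (I + 1 + 1) (V.n + 1), p.lam i * ‖V.P i v‖ ^ 2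
          = ∑ i ∈ (Finset.Ico (I + 1 + 1) (V.n + 1)).filter (· ∈ Finset.Ico (I + 1) V.n),
              p.lam i * ‖V.P i v‖ ^ 2 := by
            symm
            refine Finset.sum_filter_of_ne fun i hi hne => ?_
            by_contra hcc
            exact hne (h5 i hi hcc)
        _ ≤ X := by
            refine Finset.sum_le_sum_of_subset_of_nonneg ?_
              fun i _ _ => mul_nonneg (hlam0 i).le (sq_nonneg _)
            intro i hi
            exact (Finset.mem_filter.1 hi).2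
    rw [h1, h2]
    have h6 : 2 * s * ∑ i ∈ Finset.Ico (I + 1) V.n, p.lam i * ‖V.P (i + 1) v‖ ^ 2
        ≤ 2 * s * (X / p.A) := mul_le_mul_of_nonneg_left h3 (by positivity)
    have h7 : s * (c / 4 - 2 / p.A) * X = s * (c / 4) * X - 2 * s * (X / p.A) := by ring
    linarith
  have hJU := hSB.J_le p mu (V.rot s v)
  have h8 : s * (c / 4 - 2 / p.A) * X ≤ (1 + C10 + q * (C9 + 1)) * p.lam I := by
    nlinarith
  have h9 : c / 8 ≤ c / 4 - 2 / p.A := by
    have : 2 / p.A ≤ c / 8 := by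
      rw [div_le_iff₀ hA0]
      rw [div_le_iff₀ hc0] at hA4
      linarith
    linarith
  have h10 : c / 8 * (C9 * p.lam I) ≤ s * (c / 4 - 2 / p.A) * X := by
    have : s * (c / 4 - 2 / p.A) * X = (c / 4 - 2 / p.A) * (s * X) := by ring
    rw [this, hsX]
    exact mul_le_mul_of_nonneg_right h9 (by have := hlam0 I; positivity)
  have h11 : c / 8 * C9 ≤ 1 + C10 + q * (C9 + 1) := by
    have h12 := h10.trans h8
    have : (c / 8 * C9) * p.lam I ≤ (1 + C10 + q * (C9 + 1)) * p.lam I := by linarith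
    exact le_of_mul_le_mul_right this (hlam0 I)
  have h13 : c * C9 = 32 * (C10 + 2) := by rw [hC9]; field_simp
  have h14 : q * (C9 + 1) = (c * C9) / 32 + c / 32 := by rw [hq]; ring
  rw [h14] at h11
  have h15 : c / 8 * C9 = (c * C9) / 8 := by ring
  rw [h15, h13] at h11
  linarith

end Crest.Agent.R239.TB
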