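import Crest.Agent.R239.TB2_674
import Crest.Agent.R239.Mom_764

/-!
R239 (S0370), TRACK B, block L (helper117), part 1: linear algebra of the tilt `V ↦ T_s V`.
-/

set_option autoImplicit false
set_option linter.unusedSectionVars false

open MeasureTheory ProbabilityTheory
open scoped RealInnerProductSpace

namespace Crest.Agent.R239.TB

variable {E : Type*} [NormedAddCommGroup E] [InnerProductSpace ℝ E] [FiniteDimensional ℝ E]

namespace Lb117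

/-- the tilt as a continuous linear map -/
noncomputable def Tc (s : ℝ) (v : E) : E →L[ℝ] E := LinearMap.toContinuousLinearMap (Rot203.Ts s v)

lemma Tc_apply (s : ℝ) (v x : E) : Tc s v x = x - (s * ⟪v, x⟫) • v := by
  simp [Tc]

lemma Tc_eq (s : ℝ) (v x : E) : Tc s v x = Rot203.Ts s v x := rfl

/-- the comparison map `R = Hinv^s ∘ T ∘ H` -/
noncomputable def Rm (V : Flag E) (s : ℝ) (v : E) (i : ℕ) : E →L[ℝ] E :=
  (V.rot s v).Hinv i ∘L Tc s v ∘L V.H i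

lemma Rm_apply (V : Flag E) (s : ℝ) (v : E) (i : ℕ) (g : E) :
    Rm V s v i g = (V.rot s v).Hinv i (Tc s v (V.H i g)) := rfl

lemma rot_n (V : Flag E) (s : ℝ) (v : E) : (V.rot s v).n = V.n := rfl

lemma rot_P (V : Flag E) (s : ℝ) (v : E) (j : ℕ) :
    (V.rot s v).P j = ((V.M j).map (Rot203.Ts s v)).starProjection := rfl

lemma rot_mem (V : Flag E) (s : ℝ) (v : E) {j : ℕ} {x : E} (hx : x ∈ V.M j) :
    Tc s v x ∈ (V.rot s v).M j := Submodule.mem_map_of_mem hx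

lemma H_rot_Rm (V : Flag E) (s : ℝ) (v : E) (i k : ℕ) (g : E) :
    (V.rot s v).H (i + k) (Rm V s v i g)
      = (th⁻¹) ^ k • (V.rot s v).P (i + k) (Tc s v (V.H i g)) := by
  rw [Rm_apply, Flag.H_Hinv_add]

lemma H_rot_Rm_zero (V : Flag E) (s : ℝ) (v : E) (i : ℕ) (g : E) :
    (V.rot s v).H i (Rm V s v i g) = Tc s v (V.H i g) := by
  have h := H_rot_Rm V s v i 0 g
  simp only [add_zero, pow_zero, one_smul] at h
  rw [h]
  exact (V.rot s v).P_eq_self (rot_mem V s v (V.H_mem i g))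

variable {v : E} (hv : ‖v‖ = 1)
include hv

lemma norm_P_v_le (V : Flag E) (j : ℕ) : ‖V.P j v‖ ^ 2 ≤ 1 := by
  have := V.norm_P_le j v
  rw [hv] at this
  nlinarith [norm_nonneg (V.P j v)]

lemma inner_v_self : ⟪v, v⟫ = (1 : ℝ) := by rw [real_inner_self_eq_norm_sq, hv]; norm_num

/-- `⟪H^s v, R g⟫ = (1-s) ⟪v, H g⟫` -/
lemma inner_u_Rm (V : Flag E) (s : ℝ) (i : ℕ) (g : E) :
    ⟪(V.rot s v).H i v, Rm V s v i g⟫ = (1 - s) * ⟪v, V.H i g⟫ := by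
  rw [Flag.H_symm, H_rot_Rm_zero, Tc_apply, inner_sub_right, inner_smul_right, inner_v_self hv]
  ring

/-- exact formula for `‖R g‖²` -/
lemma norm_Rm_sq (V : Flag E) {s : ℝ} (hs0 : 0 < s) (hs : s ≤ 1 / 8) (i : ℕ) (g : E) :
    ‖Rm V s v i g‖ ^ 2 = ‖V.P i g‖ ^ 2 - (2 * s - s ^ 2) * ⟪v, V.H i g⟫ ^ 2
      - (2 * s - s ^ 2) * ∑ l ∈ Finset.range V.n, Flag.om (l + 1) *
        (⟪v, V.H i g⟫ ^ 2 - (⟪v, V.H i g⟫ - ⟪V.P (i + l + 1) v, V.H i g⟫) ^ 2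
          / (1 - (2 * s - s ^ 2) * ‖V.P (i + l + 1) v‖ ^ 2)) := by
  have h1 : ‖V.P i g‖ ^ 2 = ‖V.H i g‖ ^ 2
      + ∑ l ∈ Finset.range V.n, Flag.om (l + 1) * ‖V.P (i + l + 1) (V.H i g)‖ ^ 2 := by
    rw [← V.norm_Hinv_sq i (V.H i g), V.Hinv_H]
  rw [Rm_apply, Flag.norm_Hinv_sq, h1, rot_n, Tc_eq, Rot203.norm_Ts_sq hv, Finset.mul_sum]
  have h2 : ∀ l ∈ Finset.range V.n,
      Flag.om (l + 1) * ‖(V.rot s v).P (i + l + 1) (Rot203.Ts s v (V.H i g))‖ ^ 2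
      = Flag.om (l + 1) * ‖V.P (i + l + 1) (V.H i g)‖ ^ 2
        - (2 * s - s ^ 2) * (Flag.om (l + 1) *
        (⟪v, V.H i g⟫ ^ 2 - (⟪v, V.H i g⟫ - ⟪V.P (i + l + 1) v, V.H i g⟫) ^ 2
          / (1 - (2 * s - s ^ 2) * ‖V.P (i + l + 1) v‖ ^ 2))) := by
    intro l _
    have hb : 1 - (2 * s - s ^ 2) * ‖(V.M (i + l + 1)).starProjection v‖ ^ 2 ≠ 0 := by
      have h3 := norm_P_v_le hv V (i + l + 1)
      have h3' : ‖(V.M (i + l + 1)).starProjection v‖ ^ 2 ≤ 1 := h3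
      have h4 : 0 ≤ ‖(V.M (i + l + 1)).starProjection v‖ ^ 2 := by positivity
      nlinarith
    rw [rot_P, Rot203.norm_proj_Ts_sq hv _ _ _ hb]
    show _ = Flag.om (l + 1) * ‖(V.M (i + l + 1)).starProjection (V.H i g)‖ ^ 2
        - (2 * s - s ^ 2) * (Flag.om (l + 1) *
        (⟪v, V.H i g⟫ ^ 2 - (⟪v, V.H i g⟫ - ⟪(V.M (i + l + 1)).starProjection v, V.H i g⟫) ^ 2
          / (1 - (2 * s - s ^ 2) * ‖(V.M (i + l + 1)).starProjection v‖ ^ 2)))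
    ring
  rw [Finset.sum_congr rfl h2, Finset.sum_sub_distrib]
  ring

/-- pointwise inequality behind the majorant -/
lemma point_ineq {sb a z b e : ℝ} (hsb0 : 0 ≤ sb) (hb0 : 0 ≤ b) (hsb : sb * b ≤ 1 / 2)
    (he : 0 < e) :
    -((a + z) ^ 2 - a ^ 2 / (1 - sb * b)) ≤ (e + 2 * sb * b) * a ^ 2 + z ^ 2 / e := by
  have hB : 0 < 1 - sb * b := by linarith
  have h1 : a ^ 2 / (1 - sb * b) ≤ (1 + 2 * (sb * b)) * a ^ 2 := by
    rw [div_le_iff₀ hB]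
    have h2 : 0 ≤ sb * b := mul_nonneg hsb0 hb0
    have h3 : 1 ≤ (1 + 2 * (sb * b)) * (1 - sb * b) := by nlinarith
    nlinarith [sq_nonneg a]
  have h4 : -(2 * a * z) ≤ e * a ^ 2 + z ^ 2 / e := by
    have h5 : 0 ≤ (e * a + z) ^ 2 / e := by positivity
    have h6 : (e * a + z) ^ 2 / e = e * a ^ 2 + 2 * a * z + z ^ 2 / e := by
      field_simp
      ring
    linarith
  nlinarith [sq_nonneg z]

omit hv in
lemma om_eq (m : ℕ) : Flag.om m = 9 / 25 * (25 / 16) ^ m := by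
  rw [Flag.om, pow_mul]
  norm_num [th]

omit hv in
lemma om_pos (m : ℕ) : 0 < Flag.om m := by rw [om_eq]; positivity

/-- weights of the majorant -/
noncomputable def ee (ep : ℝ) (m : ℕ) : ℝ := ep * (8 / 25) ^ m

/-- vectors of the majorant -/
noncomputable def wa (V : Flag E) (s : ℝ) (v : E) (ep : ℝ) (i l : ℕ) : E :=
  √((2 * s - s ^ 2) * Flag.om (l + 1)
    * (ee ep (l + 1) + 2 * (2 * s - s ^ 2) * ‖V.P (i + l + 1) v‖ ^ 2))
    • V.H i (v - V.P (i + l + 1) v)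

noncomputable def wz (V : Flag E) (s : ℝ) (v : E) (ep : ℝ) (i l : ℕ) : E :=
  √((2 * s - s ^ 2) * Flag.om (l + 1) / ee ep (l + 1)) • V.H i (V.P (i + l + 1) v)

theorem main_ineq (V : Flag E) {s : ℝ} (hs0 : 0 < s) (hs : s ≤ 1 / 8) {ep : ℝ} (hep : 0 < ep)
    (i : ℕ) (g : E) :
    ‖Rm V s v i g‖ ^ 2
        + (2 * s - s ^ 2) / (1 - s) ^ 2 * ⟪(V.rot s v).H i v, Rm V s v i g⟫ ^ 2
      ≤ ‖g‖ ^ 2 + (∑ l ∈ Finset.range V.n, ⟪wa V s v ep i l, g⟫ ^ 2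
          + ∑ l ∈ Finset.range V.n, ⟪wz V s v ep i l, g⟫ ^ 2) := by
  have hs1 : (1 - s) ≠ 0 := by linarith
  have hsb0 : 0 < 2 * s - s ^ 2 := by nlinarith
  have hsb1 : 2 * s - s ^ 2 ≤ 1 / 4 := by nlinarith
  rw [inner_u_Rm hv, norm_Rm_sq hv V hs0 hs, ← Finset.sum_add_distrib]
  have h1 : (2 * s - s ^ 2) / (1 - s) ^ 2 * ((1 - s) * ⟪v, V.H i g⟫) ^ 2
      = (2 * s - s ^ 2) * ⟪v, V.H i g⟫ ^ 2 := by
    field_simp
  rw [h1]
  have h2 : ‖V.P i g‖ ^ 2 ≤ ‖g‖ ^ 2 := by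
    have := V.norm_P_le i g
    gcongr
  have h3 : ∀ l ∈ Finset.range V.n, -((2 * s - s ^ 2) * (Flag.om (l + 1) *
        (⟪v, V.H i g⟫ ^ 2 - (⟪v, V.H i g⟫ - ⟪V.P (i + l + 1) v, V.H i g⟫) ^ 2
          / (1 - (2 * s - s ^ 2) * ‖V.P (i + l + 1) v‖ ^ 2))))
      ≤ ⟪wa V s v ep i l, g⟫ ^ 2 + ⟪wz V s v ep i l, g⟫ ^ 2 := by
    intro l _
    set j := i + l + 1 with hj
    set sb := 2 * s - s ^ 2 with hsb
    have hb1 := norm_P_v_le hv V j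
    have hb0 : 0 ≤ ‖V.P j v‖ ^ 2 := by positivity
    have he : 0 < ee ep (l + 1) := by rw [ee]; positivity
    have hom := om_pos (l + 1)
    have e1 : ⟪wa V s v ep i l, g⟫ ^ 2
        = sb * Flag.om (l + 1) * (ee ep (l + 1) + 2 * sb * ‖V.P j v‖ ^ 2)
          * (⟪v, V.H i g⟫ - ⟪V.P j v, V.H i g⟫) ^ 2 := by
      rw [wa, inner_smul_left, ← hsb, ← hj, V.H_symm, inner_sub_left]
      simp only [conj_trivial]
      rw [mul_pow, Real.sq_sqrt (by positivity)]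
    have e2 : ⟪wz V s v ep i l, g⟫ ^ 2
        = sb * Flag.om (l + 1) / ee ep (l + 1) * ⟪V.P j v, V.H i g⟫ ^ 2 := by
      rw [wz, inner_smul_left, ← hsb, ← hj, V.H_symm]
      simp only [conj_trivial]
      rw [mul_pow, Real.sq_sqrt (by positivity)]
    have h4 := point_ineq hv (sb := sb) (a := ⟪v, V.H i g⟫ - ⟪V.P j v, V.H i g⟫)
      (z := ⟪V.P j v, V.H i g⟫) (b := ‖V.P j v‖ ^ 2) (e := ee ep (l + 1)) hsb0.le hb0
      (by nlinarith) he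
    have h5 := mul_le_mul_of_nonneg_left h4 (mul_pos hsb0 hom).le
    rw [e1, e2]
    have h6 : (⟪v, V.H i g⟫ - ⟪V.P j v, V.H i g⟫ + ⟪V.P j v, V.H i g⟫) = ⟪v, V.H i g⟫ := by ring
    rw [h6] at h5
    calc _ = sb * Flag.om (l + 1) * -(⟪v, V.H i g⟫ ^ 2
          - (⟪v, V.H i g⟫ - ⟪V.P j v, V.H i g⟫) ^ 2 / (1 - sb * ‖V.P j v‖ ^ 2)) := by ring
      _ ≤ _ := h5
      _ = _ := by ring
  have h4 := Finset.sum_le_sum h3
  rw [Finset.sum_neg_distrib, ← Finset.mul_sum] at h4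
  linarith

omit hv in
lemma norm_H_sub_le (V : Flag E) (i k : ℕ) (x : E) :
    ‖V.H i (x - V.P (i + k) x)‖ ≤ ‖V.P i x‖ := by
  refine (V.norm_H_le_P _ _).trans ?_
  rw [map_sub, V.P_P_of_le' (Nat.le_add_right i k), ← V.P_P_of_le (Nat.le_add_right i k) x]
  have h : ‖V.P i x - V.P (i + k) (V.P i x)‖ ^ 2
      = ‖V.P i x‖ ^ 2 - ‖V.P (i + k) (V.P i x)‖ ^ 2 := by
    rw [norm_sub_sq_real, V.norm_P_sq (i + k)]
    ring
  have h2 : 0 ≤ ‖V.P (i + k) (V.P i x)‖ ^ 2 := by positivity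
  exact abs_le_of_sq_le_sq' (by linarith) (norm_nonneg _) |>.2

omit hv in
lemma norm_H_P_le (V : Flag E) (i k : ℕ) (x : E) :
    ‖V.H i (V.P (i + k) x)‖ ≤ th ^ k * ‖V.P (i + k) x‖ := by
  rw [V.H_P, norm_smul, Real.norm_eq_abs, abs_of_pos (pow_pos th_pos k)]
  exact mul_le_mul_of_nonneg_left (V.norm_H_le_P _ _) (pow_pos th_pos k).le

theorem trace_le (V : Flag E) {s : ℝ} (hs0 : 0 < s) (hs : s ≤ 1 / 8) {ep : ℝ} (hep : 0 < ep)
    (i : ℕ) :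
    ∑ l ∈ Finset.range V.n, ‖wa V s v ep i l‖ ^ 2 + ∑ l ∈ Finset.range V.n, ‖wz V s v ep i l‖ ^ 2
      ≤ (2 * s - s ^ 2) * (ep * ‖V.P i v‖ ^ 2 + (1 / ep + 1) * BB V v i) := by
  have hsb0 : 0 < 2 * s - s ^ 2 := by nlinarith
  have hsb1 : 2 * s - s ^ 2 ≤ 1 / 4 := by nlinarith
  set sb := 2 * s - s ^ 2 with hsb
  rw [← Finset.sum_add_distrib]
  have h1 : ∀ l ∈ Finset.range V.n, ‖wa V s v ep i l‖ ^ 2 + ‖wz V s v ep i l‖ ^ 2
      ≤ sb * (ep * ‖V.P i v‖ ^ 2 * (1 / 2) ^ (l + 1)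
        + (1 / ep + 1) * ((25 / 8) ^ (l + 1) * ‖V.P (i + l + 1) v‖ ^ 2)) := by
    intro l _
    have hbi1 := norm_P_v_le hv V i
    have hbi0 : 0 ≤ ‖V.P i v‖ ^ 2 := by positivity
    have hb0 : 0 ≤ ‖V.P (i + l + 1) v‖ ^ 2 := by positivity
    have he : 0 < ee ep (l + 1) := by rw [ee]; positivity
    have hom := om_pos (l + 1)
    have hH1 : ‖V.H i (v - V.P (i + l + 1) v)‖ ^ 2 ≤ ‖V.P i v‖ ^ 2 := by
      have := norm_H_sub_le V i (l + 1) v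
      rw [← add_assoc] at this
      gcongr
    have hH2 : ‖V.H i (V.P (i + l + 1) v)‖ ^ 2
        ≤ (16 / 25) ^ (l + 1) * ‖V.P (i + l + 1) v‖ ^ 2 := by
      have := norm_H_P_le V i (l + 1) v
      rw [← add_assoc] at this
      calc ‖V.H i (V.P (i + l + 1) v)‖ ^ 2 ≤ (th ^ (l + 1) * ‖V.P (i + l + 1) v‖) ^ 2 := by gcongr
        _ = _ := by
          rw [mul_pow, ← pow_mul, mul_comm (l + 1) 2, pow_mul]
          norm_num [th]
    have e1 : ‖wa V s v ep i l‖ ^ 2 = sb * Flag.om (l + 1)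
        * (ee ep (l + 1) + 2 * sb * ‖V.P (i + l + 1) v‖ ^ 2)
          * ‖V.H i (v - V.P (i + l + 1) v)‖ ^ 2 := by
      rw [wa, norm_smul, ← hsb, mul_pow, Real.norm_eq_abs, sq_abs, Real.sq_sqrt (by positivity)]
    have e2 : ‖wz V s v ep i l‖ ^ 2 = sb * Flag.om (l + 1) / ee ep (l + 1)
          * ‖V.H i (V.P (i + l + 1) v)‖ ^ 2 := by
      rw [wz, norm_smul, ← hsb, mul_pow, Real.norm_eq_abs, sq_abs, Real.sq_sqrt (by positivity)]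
    have p1 : (25 / 16 : ℝ) ^ (l + 1) * (8 / 25) ^ (l + 1) = (1 / 2) ^ (l + 1) := by
      rw [← mul_pow]; norm_num
    have p2 : (25 / 16 : ℝ) ^ (l + 1) ≤ (25 / 8) ^ (l + 1) := by gcongr; norm_num
    have p3 : (25 / 16 : ℝ) ^ (l + 1) / (8 / 25) ^ (l + 1) * (16 / 25) ^ (l + 1)
        = (25 / 8) ^ (l + 1) := by
      rw [← div_pow, ← mul_pow]; norm_num
    have f1 : ‖wa V s v ep i l‖ ^ 2 ≤ sb * (ep * ‖V.P i v‖ ^ 2 * (1 / 2) ^ (l + 1))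
        + sb * (1 / 2 * ((25 / 8) ^ (l + 1) * ‖V.P (i + l + 1) v‖ ^ 2)) := by
      rw [e1]
      calc _ ≤ sb * Flag.om (l + 1) * (ee ep (l + 1) + 2 * sb * ‖V.P (i + l + 1) v‖ ^ 2)
          * ‖V.P i v‖ ^ 2 := by gcongr
        _ = 9 / 25 * (sb * (ep * ‖V.P i v‖ ^ 2 * ((25 / 16 : ℝ) ^ (l + 1) * (8 / 25) ^ (l + 1))))
            + 9 / 25 * (2 * sb) * ‖V.P i v‖ ^ 2
              * (sb * ((25 / 16 : ℝ) ^ (l + 1) * ‖V.P (i + l + 1) v‖ ^ 2)) := by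
            rw [om_eq, ee]; ring
        _ ≤ _ := by
            rw [p1]
            have q1 : 9 / 25 * (2 * sb) * ‖V.P i v‖ ^ 2 ≤ 1 / 2 := by nlinarith
            have q2 : 0 ≤ sb * ((25 / 16 : ℝ) ^ (l + 1) * ‖V.P (i + l + 1) v‖ ^ 2) := by positivity
            have q3 : sb * ((25 / 16 : ℝ) ^ (l + 1) * ‖V.P (i + l + 1) v‖ ^ 2)
                ≤ sb * ((25 / 8 : ℝ) ^ (l + 1) * ‖V.P (i + l + 1) v‖ ^ 2) := by gcongr
            have q4 : 0 ≤ sb * (ep * ‖V.P i v‖ ^ 2 * (1 / 2) ^ (l + 1)) := by positivity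
            have q5 := mul_le_mul_of_nonneg_right q1 q2
            nlinarith
    have f2 : ‖wz V s v ep i l‖ ^ 2
        ≤ sb * (1 / ep * ((25 / 8) ^ (l + 1) * ‖V.P (i + l + 1) v‖ ^ 2)) := by
      rw [e2]
      calc _ ≤ sb * Flag.om (l + 1) / ee ep (l + 1)
            * ((16 / 25) ^ (l + 1) * ‖V.P (i + l + 1) v‖ ^ 2) := by gcongr
        _ = 9 / 25 * (sb * (1 / ep * (((25 / 16 : ℝ) ^ (l + 1) / (8 / 25) ^ (l + 1)
              * (16 / 25) ^ (l + 1)) * ‖V.P (i + l + 1) v‖ ^ 2))) := by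
            rw [om_eq, ee]; field_simp
        _ ≤ _ := by
            rw [p3]
            have q4 : 0 ≤ sb * (1 / ep * ((25 / 8) ^ (l + 1) * ‖V.P (i + l + 1) v‖ ^ 2)) := by
              positivity
            linarith
    have f3 : 0 ≤ sb * (1 / 2 * ((25 / 8) ^ (l + 1) * ‖V.P (i + l + 1) v‖ ^ 2)) := by positivity
    nlinarith
  refine (Finset.sum_le_sum h1).trans ?_
  rw [← Finset.mul_sum, Finset.sum_add_distrib, ← Finset.mul_sum, ← Finset.mul_sum]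
  have h2 : ∑ l ∈ Finset.range V.n, (1 / 2 : ℝ) ^ (l + 1) ≤ 1 := by
    have : ∀ n : ℕ, ∑ l ∈ Finset.range n, (1 / 2 : ℝ) ^ (l + 1) = 1 - (1 / 2) ^ n := by
      intro n
      induction n with
      | zero => simp
      | succ n ih => rw [Finset.sum_range_succ, ih]; ring
    rw [this]
    have : (0 : ℝ) ≤ (1 / 2) ^ V.n := by positivity
    linarith
  have h3 : 0 ≤ ep * ‖V.P i v‖ ^ 2 := by positivity
  rw [BB]
  refine mul_le_mul_of_nonneg_left (add_le_add ?_ le_rfl) hsb0.le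
  calc _ ≤ ep * ‖V.P i v‖ ^ 2 * 1 := mul_le_mul_of_nonneg_left h2 h3
    _ = _ := mul_one _

/-! ### the caps -/

/-- the linear functional of the cap identity -/
noncomputable def Yv (V : Flag E) (s : ℝ) (v : E) (i k : ℕ) : E :=
  ((th⁻¹) ^ k * (2 * s - s ^ 2)) •
    ((1 / √(1 - (2 * s - s ^ 2) * ‖V.P (i + k) v‖ ^ 2)) • V.H i (v - V.P (i + k) v)
      + (1 / (1 + √(1 - (2 * s - s ^ 2) * ‖V.P (i + k) v‖ ^ 2))) • V.H i (V.P (i + k) v))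

theorem cap_iso (V : Flag E) {s : ℝ} (hs0 : 0 < s) (hs : s ≤ 1 / 8) (i k : ℕ) (g : E) :
    ‖V.H (i + k) g - ⟪Yv V s v i k, g⟫ • V.P (i + k) v‖
      = ‖(V.rot s v).H (i + k) (Rm V s v i g)‖ := by
  have hsb0 : 0 < 2 * s - s ^ 2 := by nlinarith
  have hsb1 : 2 * s - s ^ 2 ≤ 1 / 4 := by nlinarith
  have hb1 := norm_P_v_le hv V (i + k)
  have hb0 : 0 ≤ ‖V.P (i + k) v‖ ^ 2 := by positivity
  have hB : 0 < 1 - (2 * s - s ^ 2) * ‖V.P (i + k) v‖ ^ 2 := by nlinarith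
  rw [H_rot_Rm]
  have hth : V.H (i + k) g = (th⁻¹) ^ k • V.P (i + k) (V.H i g) := by
    rw [V.P_H, smul_smul, ← mul_pow, inv_mul_cancel₀ th_ne, one_pow, one_smul]
  set r := √(1 - (2 * s - s ^ 2) * ‖V.P (i + k) v‖ ^ 2) with hr
  have hr0 : 0 < r := Real.sqrt_pos.2 hB
  have hr2 : r ^ 2 = 1 - (2 * s - s ^ 2) * ‖V.P (i + k) v‖ ^ 2 := Real.sq_sqrt hB.le
  have hY : ⟪Yv V s v i k, g⟫ = (th⁻¹) ^ k * ((2 * s - s ^ 2)
      * ((⟪v, V.H i g⟫ - ⟪V.P (i + k) v, V.H i g⟫) / r + ⟪V.P (i + k) v, V.H i g⟫ / (1 + r))) := by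
    rw [Yv, ← hr, inner_smul_left, inner_add_left, inner_smul_left, inner_smul_left, V.H_symm,
      V.H_symm, inner_sub_left]
    simp only [conj_trivial]
    ring
  rw [hth, hY, mul_smul, ← smul_sub, norm_smul, norm_smul]
  congr 1
  have hnn : 0 ≤ ‖(V.rot s v).P (i + k) (Tc s v (V.H i g))‖ := norm_nonneg _
  rw [← abs_of_nonneg (norm_nonneg (V.P (i + k) (V.H i g) - _)), ← abs_of_nonneg hnn,
    ← sq_eq_sq_iff_abs_eq_abs]
  have hb : 1 - (2 * s - s ^ 2) * ‖(V.M (i + k)).starProjection v‖ ^ 2 ≠ 0 := hB.ne'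
  have h2 := Rot203.norm_proj_Ts_sq hv (V.M (i + k)) s (V.H i g) hb
  have h3 : ‖(V.rot s v).P (i + k) (Tc s v (V.H i g))‖ ^ 2
      = ‖V.P (i + k) (V.H i g)‖ ^ 2 - (2 * s - s ^ 2) * ⟪v, V.H i g⟫ ^ 2
        + (2 * s - s ^ 2) * (⟪v, V.H i g⟫ - ⟪V.P (i + k) v, V.H i g⟫) ^ 2
          / (1 - (2 * s - s ^ 2) * ‖V.P (i + k) v‖ ^ 2) := h2
  rw [h3, norm_sub_sq_real, norm_smul, mul_pow, Real.norm_eq_abs, sq_abs, real_inner_smul_right]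
  have h4 : ⟪V.P (i + k) (V.H i g), V.P (i + k) v⟫ = ⟪V.P (i + k) v, V.H i g⟫ := by
    rw [V.P_symm, V.P_P_of_le le_rfl, real_inner_comm]
  rw [h4, ← hr2]
  set z := ⟪V.P (i + k) v, V.H i g⟫
  set x := ⟪v, V.H i g⟫
  have hb2 : ‖V.P (i + k) v‖ ^ 2 = (1 - r ^ 2) / (2 * s - s ^ 2) := by
    rw [eq_div_iff hsb0.ne', hr2]; ring
  rw [hb2]
  have hsb' : (2 * s - s ^ 2) ≠ 0 := hsb0.ne'
  have h1r : (1 + r) ≠ 0 := by positivity
  generalize 2 * s - s ^ 2 = sb at hsb'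
  field_simp
  ring

theorem norm_Yv_le (V : Flag E) {s : ℝ} (hs0 : 0 < s) (hs : s ≤ 1 / 8) (i k : ℕ) :
    ‖Yv V s v i k‖ ≤ 2 * ((th⁻¹) ^ k * (2 * s - s ^ 2) * ‖V.P i v‖) := by
  have hsb0 : 0 < 2 * s - s ^ 2 := by nlinarith
  have hsb1 : 2 * s - s ^ 2 ≤ 1 / 4 := by nlinarith
  have hb1 := norm_P_v_le hv V (i + k)
  have hb0 : 0 ≤ ‖V.P (i + k) v‖ ^ 2 := by positivity
  set r := √(1 - (2 * s - s ^ 2) * ‖V.P (i + k) v‖ ^ 2) with hr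
  have hr1 : 3 / 4 ≤ r := by
    rw [hr]
    apply Real.le_sqrt_of_sq_le
    nlinarith
  have ht : 0 < (th⁻¹) ^ k := pow_pos (inv_pos.2 th_pos) k
  rw [Yv, ← hr, norm_smul, Real.norm_eq_abs, abs_of_pos (by positivity)]
  have h1 : ‖(1 / r) • V.H i (v - V.P (i + k) v)
      + (1 / (1 + r)) • V.H i (V.P (i + k) v)‖ ≤ 2 * ‖V.P i v‖ := by
    refine (norm_add_le _ _).trans ?_
    rw [norm_smul, norm_smul, Real.norm_eq_abs, Real.norm_eq_abs, abs_of_pos (by positivity),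
      abs_of_pos (by positivity)]
    have h2 : ‖V.H i (V.P (i + k) v)‖ ≤ ‖V.P i v‖ := by
      refine (norm_H_P_le V i k v).trans ?_
      have h3 : th ^ k ≤ 1 := pow_le_one₀ th_pos.le th_le
      have h4 := V.norm_P_anti (Nat.le_add_right i k) v
      nlinarith [norm_nonneg (V.P (i + k) v)]
    have h3 := norm_H_sub_le V i k v
    have h4 : 1 / r ≤ 4 / 3 := by
      rw [div_le_div_iff₀ (by positivity) (by norm_num)]; linarith
    have h5 : 1 / (1 + r) ≤ 2 / 3 := by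
      rw [div_le_div_iff₀ (by positivity) (by norm_num)]; linarith
    calc _ ≤ 4 / 3 * ‖V.P i v‖ + 2 / 3 * ‖V.P i v‖ := by gcongr
      _ = _ := by ring
  calc _ ≤ (th⁻¹) ^ k * (2 * s - s ^ 2) * (2 * ‖V.P i v‖) := by gcongr
    _ = _ := by ring

end Lb117

end Crest.Agent.R239.TB
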