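import Crest.Agent.R239.TBLa_117
import Crest.Agent.R239.CmpR_174
import Crest.Agent.R239.Dom_640
import Crest.Agent.R239.Shift_147c

/-!
R239 (S0370), TRACK B, block L (helper117), part 2: the cap cuts and the Gaussian comparison.
-/

set_option autoImplicit false
set_option linter.unusedSectionVars false

open MeasureTheory ProbabilityTheory Set
open scoped RealInnerProductSpace

namespace Crest.Agent.R239.TB

variable {E : Type*} [NormedAddCommGroup E] [InnerProductSpace ℝ E] [FiniteDimensional ℝ E]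

namespace Lb117

/-! ### the weighted dimension -/

lemma m_of_ge (V : Flag E) {j : ℕ} (h : V.n ≤ j) : V.m j = 0 := by
  rw [Flag.m, V.bot j h]; simp

lemma w_eq (V : Flag E) {N : ℕ} (hN : V.n ≤ N) (j : ℕ) :
    V.w j = ∑ l ∈ Finset.range N, th ^ (2 * l) * (V.m (j + l) - V.m (j + l + 1)) := by
  rw [Flag.w]
  refine Finset.sum_subset (Finset.range_mono hN) fun l _ hl => ?_
  rw [Finset.mem_range, not_lt] at hl
  rw [m_of_ge V (by omega), m_of_ge V (by omega)]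
  simp

lemma w_succ (V : Flag E) (j : ℕ) :
    V.w j = (V.m j - V.m (j + 1)) + th ^ 2 * V.w (j + 1) := by
  rw [w_eq V (Nat.le_succ V.n) j, Finset.sum_range_succ', Flag.w, Finset.mul_sum, add_comm]
  congr 1
  · simp
  · refine Finset.sum_congr rfl fun l _ => ?_
    rw [show j + (l + 1) = j + 1 + l by ring, show 2 * (l + 1) = 2 * l + 2 by ring, pow_add]
    ring

lemma w_of_ge (V : Flag E) {j : ℕ} (h : V.n ≤ j) : V.w j = 0 := by
  rw [Flag.w]
  refine Finset.sum_eq_zero fun l _ => ?_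
  rw [m_of_ge V (by omega), m_of_ge V (by omega)]
  simp

lemma m_anti (V : Flag E) (j : ℕ) : V.m (j + 1) ≤ V.m j := by
  rw [Flag.m, Flag.m]
  exact_mod_cast Submodule.finrank_mono (V.anti (Nat.le_succ j))

lemma w_nonneg (V : Flag E) (j : ℕ) : 0 ≤ V.w j := by
  rw [Flag.w]
  refine Finset.sum_nonneg fun l _ => ?_
  have := m_anti V (j + l)
  have h2 : (0 : ℝ) < th ^ (2 * l) := pow_pos th_pos _
  have h3 : 0 ≤ V.m (j + l) - V.m (j + l + 1) := by linarith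
  positivity

lemma one_le_r (V : Flag E) (j : ℕ) : 1 ≤ V.r j := by
  rw [Flag.r]
  have := w_nonneg V j
  apply Real.le_sqrt_of_sq_le
  linarith

lemma r_sq (V : Flag E) (j : ℕ) : V.r j ^ 2 = 1 + V.w j := by
  rw [Flag.r, Real.sq_sqrt]
  have := w_nonneg V j
  linarith

variable [MeasurableSpace E] [BorelSpace E]

lemma integral_Q (V : Flag E) (j : ℕ) :
    ∫ g, ‖V.Q j g‖ ^ 2 ∂(stdGaussian E) = V.m j - V.m (j + 1) := by
  simp only [V.norm_Q_sq]
  rw [integral_sub (Dom640.integrable_norm_sq (V.P j)) (Dom640.integrable_norm_sq (V.P (j + 1)))]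
  have h1 : ∀ j, ∫ g, ‖V.P j g‖ ^ 2 ∂(stdGaussian E) = V.m j := fun j =>
    Mom764.integral_norm_sq_starProjection (V.M j)
  rw [h1, h1]

theorem integral_H (V : Flag E) (j : ℕ) :
    ∫ g, ‖V.H j g‖ ^ 2 ∂(stdGaussian E) = V.w j := by
  refine V.induct (motive := fun j => ∫ g, ‖V.H j g‖ ^ 2 ∂(stdGaussian E) = V.w j) ?_ ?_ j
  · intro j hj
    simp [V.H_of_ge hj, w_of_ge V hj]
  · intro j ih
    simp only [V.norm_H_sq_succ j]
    rw [integral_add (Dom640.integrable_norm_sq (V.Q j))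
      ((Dom640.integrable_norm_sq (V.H (j + 1))).const_mul _), integral_const_mul, ih, integral_Q,
      w_succ V j]

/-! ### one cap -/

open Shift147

theorem one_cap {Q : Set E} (cQ : IsClosed Q) (hQ : Convex ℝ Q) (sQ : ∀ x ∈ Q, -x ∈ Q)
    (A X : E →L[ℝ] E) (Y q : E) {R ρ : ℝ} (hρ : 8 ≤ ρ) (hR : ρ ≤ R)
    (hA : ∀ g, X g = A g - ⟪Y, g⟫ • q) (hX : ∀ g ∈ Q, ‖X g‖ ≤ R)
    (hint : ∫ g, ‖A g‖ ^ 2 ∂(stdGaussian E) ≤ R ^ 2 / ρ ^ 2) :
    (stdGaussian E).real (Q ∩ {g | R < ‖A g‖})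
      ≤ min (1 / ρ ^ 2) (700 * (‖Y‖ * ‖q‖) / ρ) * (stdGaussian E).real Q := by
  have hR0 : 0 < R := by linarith
  have hρ0 : 0 < ρ := by linarith
  have mQ := cQ.measurableSet
  set γ := stdGaussian E with hγ
  have hγQ : 0 ≤ γ.real Q := measureReal_nonneg
  have mA : MeasurableSet {g : E | ‖A g‖ ≤ R} :=
    measurableSet_le A.continuous.norm.measurable measurable_const
  -- the trivial cut
  have htriv : γ.real (Q ∩ {g | R < ‖A g‖}) ≤ 1 / ρ ^ 2 * γ.real Q := by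
    have h1 := Dom640.cut mQ hQ sQ A hR0
    have h2 : γ.real (Q ∩ {g | R < ‖A g‖}) = γ.real Q - γ.real (Q ∩ {g | ‖A g‖ ≤ R}) := by
      have h3 := measureReal_inter_add_diff (μ := γ) (s := Q) mA
      have h4 : Q \ {g | ‖A g‖ ≤ R} = Q ∩ {g | R < ‖A g‖} := by
        ext x; simp [not_le]
      rw [h4] at h3
      linarith
    have h5 : (∫ x, ‖A x‖ ^ 2 ∂γ) / R ^ 2 ≤ 1 / ρ ^ 2 := by
      rw [div_le_iff₀ (by positivity)]
      calc _ ≤ R ^ 2 / ρ ^ 2 := hint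
        _ = _ := by ring
    have h6 : (∫ x, ‖A x‖ ^ 2 ∂γ) / R ^ 2 * γ.real Q ≤ 1 / ρ ^ 2 * γ.real Q := by gcongr
    rw [h2]
    have h7 : (1 - (∫ x, ‖A x‖ ^ 2 ∂γ) / R ^ 2) * γ.real Q ≤ γ.real (Q ∩ {g | ‖A g‖ ≤ R}) := h1
    nlinarith
  rw [min_mul_of_nonneg _ _ hγQ]
  refine le_min htriv ?_
  set κ := ‖Y‖ * ‖q‖ with hκ
  have hκ0 : 0 ≤ κ := by positivity
  rcases eq_or_lt_of_le hκ0 with hz | hpos
  · -- no shift at all
    have h1 : Q ∩ {g | R < ‖A g‖} = ∅ := by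
      ext g
      simp only [mem_inter_iff, mem_setOf_eq, mem_empty_iff_false, iff_false, not_and, not_lt]
      intro hg
      have h2 := hX g hg
      rw [hA] at h2
      have h3 : ‖⟪Y, g⟫ • q‖ ≤ 0 := by
        rw [norm_smul]
        calc ‖⟪Y, g⟫‖ * ‖q‖ ≤ (‖Y‖ * ‖g‖) * ‖q‖ := by
              gcongr
              exact norm_inner_le_norm _ _
          _ = κ * ‖g‖ := by rw [hκ]; ring
          _ = 0 := by rw [← hz]; ring
      have h4 : ⟪Y, g⟫ • q = 0 := norm_le_zero_iff.1 h3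
      rwa [h4, sub_zero] at h2
    rw [h1]
    simp only [measureReal_empty]
    positivity
  by_cases hbig : 1 < κ
  · refine htriv.trans (mul_le_mul_of_nonneg_right ?_ hγQ)
    rw [div_le_div_iff₀ (by positivity) hρ0]
    nlinarith
  push Not at hbig
  -- the shift lemma
  have hf : IsFiniteMeasure (γ.restrict Q) := inferInstance
  let yl : E →L[ℝ] ℝ := ‖q‖ • (innerSL ℝ Y : E →L[ℝ] ℝ)
  have hyl : ∀ g, yl g = ‖q‖ * ⟪Y, g⟫ := fun g => by simp [yl]
  have huniv : (γ.restrict Q).real univ = γ.real Q := by simp [Measure.real]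
  have hvar : ∫ g in Q, (yl g) ^ 2 ∂γ ≤ κ ^ 2 * γ.real Q := by
    have h1 := Dom640.dom_sq mQ hQ sQ Y
    calc ∫ g in Q, (yl g) ^ 2 ∂γ = ‖q‖ ^ 2 * ∫ g in Q, ⟪Y, g⟫ ^ 2 ∂γ := by
          rw [← integral_const_mul]
          congr 1
          ext g
          rw [hyl]; ring
      _ ≤ ‖q‖ ^ 2 * (γ.real Q * ‖Y‖ ^ 2) := by gcongr
      _ = _ := by rw [hκ]; ring
  have hyint : Integrable (fun g => (yl g) ^ 2) (γ.restrict Q) := by
    have h1 := (Dom640.integrable_inner_sq Y).const_mul (‖q‖ ^ 2)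
    refine (h1.congr (Filter.Eventually.of_forall fun g => ?_)).restrict
    show ‖q‖ ^ 2 * ⟪Y, g⟫ ^ 2 = (yl g) ^ 2
    rw [hyl]; ring
  have hcheb : ∀ u : ℝ, 0 < u → tl (γ.restrict Q) yl.toLinearMap u
      ≤ κ ^ 2 / u ^ 2 * (γ.restrict Q).real univ := by
    intro u hu
    have h1 := mul_meas_ge_le_integral_of_nonneg
      (Filter.Eventually.of_forall fun g => sq_nonneg (yl g)) hyint (u ^ 2)
    have h2 : tl (γ.restrict Q) yl.toLinearMap u
        ≤ (γ.restrict Q).real {g | u ^ 2 ≤ (yl g) ^ 2} := by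
      refine measureReal_mono ?_
      intro g hg
      have hg' : u ≤ yl g := hg
      show u ^ 2 ≤ (yl g) ^ 2
      gcongr
    rw [huniv]
    have h3 : u ^ 2 * (γ.restrict Q).real {g | u ^ 2 ≤ (yl g) ^ 2} ≤ κ ^ 2 * γ.real Q :=
      le_trans h1 hvar
    calc _ ≤ (γ.restrict Q).real {g | u ^ 2 ≤ (yl g) ^ 2} := h2
      _ ≤ κ ^ 2 / u ^ 2 * γ.real Q := by
          rw [div_mul_eq_mul_div, le_div_iff₀ (by positivity)]
          linarith
  have hhalf : (γ.restrict Q).real univ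
      ≤ 2 * (γ.restrict Q).real {g | ‖X.toLinearMap g‖ ≤ R / 2} := by
    have mX : MeasurableSet {g : E | ‖X.toLinearMap g‖ ≤ R / 2} :=
      measurableSet_le X.continuous.norm.measurable measurable_const
    rw [huniv, measureReal_restrict_apply mX, inter_comm]
    have h1 := Dom640.cut mQ hQ sQ X (r := R / 2) (by positivity)
    have h2 : ∫ g, ‖X g‖ ^ 2 ∂γ ≤ 2 * (R ^ 2 / ρ ^ 2) + 2 * κ ^ 2 := by
      have h3 : ∫ g, ‖X g‖ ^ 2 ∂γ
          ≤ ∫ g, (2 * ‖A g‖ ^ 2 + 2 * ‖q‖ ^ 2 * ⟪Y, g⟫ ^ 2) ∂γ := by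
        refine integral_mono (Dom640.integrable_norm_sq X)
          (((Dom640.integrable_norm_sq A).const_mul _).add
            ((Dom640.integrable_inner_sq Y).const_mul _)) fun g => ?_
        show ‖X g‖ ^ 2 ≤ 2 * ‖A g‖ ^ 2 + 2 * ‖q‖ ^ 2 * ⟪Y, g⟫ ^ 2
        rw [hA]
        have h4 := norm_sub_le (A g) (⟪Y, g⟫ • q)
        have h5 : ‖⟪Y, g⟫ • q‖ ^ 2 = ‖q‖ ^ 2 * ⟪Y, g⟫ ^ 2 := by
          rw [norm_smul, mul_pow, Real.norm_eq_abs, sq_abs]; ring
        have h6 : ‖A g - ⟪Y, g⟫ • q‖ ^ 2 ≤ (‖A g‖ + ‖⟪Y, g⟫ • q‖) ^ 2 := by gcongr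
        nlinarith [sq_nonneg (‖A g‖ - ‖⟪Y, g⟫ • q‖)]
      rw [integral_add ((Dom640.integrable_norm_sq A).const_mul _)
        ((Dom640.integrable_inner_sq Y).const_mul _), integral_const_mul, integral_const_mul,
        Dom640.integral_inner_sq] at h3
      calc _ ≤ _ := h3
        _ ≤ 2 * (R ^ 2 / ρ ^ 2) + 2 * ‖q‖ ^ 2 * ‖Y‖ ^ 2 := by gcongr
        _ = _ := by rw [hκ]; ring
    have h7 : (∫ g, ‖X g‖ ^ 2 ∂γ) / (R / 2) ^ 2 ≤ 1 / 2 := by
      rw [div_le_iff₀ (by positivity)]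
      have h8 : R ^ 2 / ρ ^ 2 ≤ R ^ 2 / 64 := by
        gcongr
        nlinarith
      have h9 : κ ^ 2 ≤ 1 := by nlinarith
      nlinarith
    have h10 : (1 - (∫ g, ‖X g‖ ^ 2 ∂γ) / (R / 2) ^ 2) * γ.real Q
        ≤ γ.real (Q ∩ {g | ‖X.toLinearMap g‖ ≤ R / 2}) := h1
    nlinarith
  have hmain := shift_add (PLset.restrict PLset_std hQ mQ) (Sym.restrict Sym_std sQ mQ)
    (y := yl.toLinearMap) yl.continuous.measurable (X := X.toLinearMap)
    X.continuous.norm.measurable hR0 hpos (aux_zero hX) hhalf hcheb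
  rw [huniv] at hmain
  have mS : MeasurableSet {x : E | R < ‖X.toLinearMap x‖ + |yl.toLinearMap x|} :=
    measurableSet_lt measurable_const
      ((X.continuous.norm.add yl.continuous.abs).measurable)
  rw [measureReal_restrict_apply mS] at hmain
  have hsub : Q ∩ {g | R < ‖A g‖} ⊆ {x | R < ‖X.toLinearMap x‖ + |yl.toLinearMap x|} ∩ Q := by
    intro g hg
    refine ⟨?_, hg.1⟩
    have h1 : R < ‖A g‖ := hg.2
    show R < ‖X g‖ + |yl g|
    have h2 : A g = X g + ⟪Y, g⟫ • q := by rw [hA]; abel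
    have h3 : ‖A g‖ ≤ ‖X g‖ + ‖⟪Y, g⟫ • q‖ := by
      rw [h2]; exact norm_add_le _ _
    have h4 : ‖⟪Y, g⟫ • q‖ = |yl g| := by
      rw [hyl, norm_smul, abs_mul, abs_of_nonneg (norm_nonneg q), Real.norm_eq_abs]; ring
    rw [h4] at h3
    linarith
  calc _ ≤ γ.real ({x | R < ‖X.toLinearMap x‖ + |yl.toLinearMap x|} ∩ Q) :=
        measureReal_mono hsub
    _ ≤ 700 * (κ / R) * γ.real Q := hmain
    _ ≤ 700 * κ / ρ * γ.real Q := by
        have : κ / R ≤ κ / ρ := by gcongr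
        calc _ ≤ 700 * (κ / ρ) * γ.real Q := by gcongr
          _ = _ := by ring

/-! ### all caps -/

lemma exp_le_one_sub {c : ℝ} (h0 : 0 ≤ c) (h1 : c ≤ 1 / 2) : Real.exp (-(2 * c)) ≤ 1 - c := by
  have h2 := Real.add_one_le_exp (2 * c)
  have h3 : Real.exp (-(2 * c)) ≤ 1 / (1 + 2 * c) := by
    rw [Real.exp_neg, ← one_div]
    apply one_div_le_one_div_of_le (by linarith)
    linarith
  refine h3.trans ?_
  rw [div_le_iff₀ (by linarith)]
  nlinarith

theorem all_caps (A X : ℕ → E →L[ℝ] E) (Y q : ℕ → E) (R : ℕ → ℝ) {ρ : ℝ} (hρ : 8 ≤ ρ)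
    (hR : ∀ k, ρ ≤ R k) (hA : ∀ k g, X k g = A k g - ⟪Y k, g⟫ • q k)
    (hint : ∀ k, ∫ g, ‖A k g‖ ^ 2 ∂(stdGaussian E) ≤ R k ^ 2 / ρ ^ 2)
    {Q : Set E} (cQ : IsClosed Q) (hQ : Convex ℝ Q) (sQ : ∀ x ∈ Q, -x ∈ Q)
    (hX : ∀ k, ∀ g ∈ Q, ‖X k g‖ ≤ R k) (N : ℕ) :
    ∃ Q' : Set E, Q' ⊆ Q ∧ IsClosed Q' ∧ Convex ℝ Q' ∧ (∀ x ∈ Q', -x ∈ Q') ∧
      (∀ k < N, ∀ g ∈ Q', ‖A k g‖ ≤ R k) ∧
      Real.exp (-(2 * ∑ k ∈ Finset.range N, 700 * (‖Y k‖ * ‖q k‖) / ρ)) * (stdGaussian E).real Q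
        ≤ (stdGaussian E).real Q' := by
  induction N with
  | zero => exact ⟨Q, subset_rfl, cQ, hQ, sQ, by simp, by simp⟩
  | succ N ih =>
    obtain ⟨Q', h1, h2, h3, h4, h5, h6⟩ := ih
    have hρ0 : 0 < ρ := by linarith
    have hcl : IsClosed {g : E | ‖A N g‖ ≤ R N} := isClosed_le (A N).continuous.norm continuous_const
    have hcv : Convex ℝ {g : E | ‖A N g‖ ≤ R N} := by
      have : {g : E | ‖A N g‖ ≤ R N} = (A N).toLinearMap ⁻¹' (Metric.closedBall 0 (R N)) := by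
        ext g; simp
      rw [this]
      exact (convex_closedBall 0 (R N)).linear_preimage (A N).toLinearMap
    refine ⟨Q' ∩ {g | ‖A N g‖ ≤ R N}, inter_subset_left.trans h1, h2.inter hcl, h3.inter hcv, ?_,
      ?_, ?_⟩
    · rintro x ⟨hx, hx'⟩
      refine ⟨h4 x hx, ?_⟩
      show ‖A N (-x)‖ ≤ R N
      rw [map_neg, norm_neg]; exact hx'
    · intro k hk g hg
      rcases Nat.lt_succ_iff_lt_or_eq.1 hk with hk | rfl
      · exact h5 k hk g hg.1
      · exact hg.2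
    · have h7 := one_cap h2 h3 h4 (A N) (X N) (Y N) (q N) hρ (hR N) (hA N)
        (fun g hg => hX N g (h1 hg)) (hint N)
      set c := min (1 / ρ ^ 2) (700 * (‖Y N‖ * ‖q N‖) / ρ) with hc
      have hc0 : 0 ≤ c := le_min (by positivity) (by positivity)
      have hc1 : c ≤ 1 / 2 := by
        refine (min_le_left _ _).trans ?_
        rw [div_le_div_iff₀ (by positivity) (by norm_num)]
        nlinarith
      have hc2 : c ≤ 700 * (‖Y N‖ * ‖q N‖) / ρ := min_le_right _ _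
      have mA : MeasurableSet {g : E | ‖A N g‖ ≤ R N} := hcl.measurableSet
      have h8 : (stdGaussian E).real (Q' ∩ {g | ‖A N g‖ ≤ R N})
          = (stdGaussian E).real Q' - (stdGaussian E).real (Q' ∩ {g | R N < ‖A N g‖}) := by
        have h3 := measureReal_inter_add_diff (μ := stdGaussian E) (s := Q') mA
        have h4 : Q' \ {g | ‖A N g‖ ≤ R N} = Q' ∩ {g | R N < ‖A N g‖} := by
          ext x; simp [not_le]
        rw [h4] at h3
        linarith
      have h9 : (1 - c) * (stdGaussian E).real Q'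
          ≤ (stdGaussian E).real (Q' ∩ {g | ‖A N g‖ ≤ R N}) := by
        rw [h8]; linarith
      have h10 := exp_le_one_sub hc0 hc1
      have h11 : 0 ≤ (stdGaussian E).real Q := measureReal_nonneg
      rw [Finset.sum_range_succ, mul_add, neg_add, Real.exp_add]
      calc _ ≤ Real.exp (-(2 * c)) * (Real.exp (-(2 * ∑ k ∈ Finset.range N,
              700 * (‖Y k‖ * ‖q k‖) / ρ)) * (stdGaussian E).real Q) := by
            have : Real.exp (-(2 * (700 * (‖Y N‖ * ‖q N‖) / ρ))) ≤ Real.exp (-(2 * c)) := by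
              apply Real.exp_le_exp.2; linarith
            calc _ = Real.exp (-(2 * (700 * (‖Y N‖ * ‖q N‖) / ρ)))
                * (Real.exp (-(2 * ∑ k ∈ Finset.range N,
                  700 * (‖Y k‖ * ‖q k‖) / ρ)) * (stdGaussian E).real Q) := by ring
              _ ≤ _ := by gcongr
        _ ≤ (1 - c) * (stdGaussian E).real Q' :=
            mul_le_mul h10 h6 (by positivity) (by linarith)
        _ ≤ _ := h9

end Lb117

end Crest.Agent.R239.TB
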