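import Crest.Agent.R239.TBLb_117

/-!
R239 (S0370), TRACK B, block L (helper117), part 3: assembly of `LevB`.
-/

set_option autoImplicit false
set_option linter.unusedSectionVars false

open MeasureTheory ProbabilityTheory Set
open scoped RealInnerProductSpace
open Crest.Agent.R239.L0 (S mrg spl)

namespace Crest.Agent.R239.TB

variable {E : Type*} [NormedAddCommGroup E] [InnerProductSpace ℝ E] [FiniteDimensional ℝ E]
  [MeasurableSpace E] [BorelSpace E]

namespace Lb117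

/-! ### full support -/

theorem std_openPos : (stdGaussian E).IsOpenPosMeasure := by
  have h1 : (gaussianReal 0 1).IsOpenPosMeasure :=
    (gaussianReal_absolutelyContinuous' 0 one_ne_zero).isOpenPosMeasure
  have h2 : (Measure.pi (fun _ : Fin (Module.finrank ℝ E) => gaussianReal 0 1)).IsOpenPosMeasure :=
    inferInstance
  unfold stdGaussian
  refine Continuous.isOpenPosMeasure_map (by fun_prop) ?_
  intro y
  refine ⟨fun i => (stdOrthonormalBasis ℝ E).repr y i, ?_⟩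
  exact (stdOrthonormalBasis ℝ E).sum_repr y

lemma slab_pos (w : E) {t : ℝ} (ht : 0 < t) : 0 < gm {g : E | |⟪w, g⟫| ≤ t} := by
  have := std_openPos (E := E)
  have h1 : IsOpen {g : E | |⟪w, g⟫| < t} :=
    isOpen_lt (by fun_prop) continuous_const
  have h2 : ({g : E | |⟪w, g⟫| < t}).Nonempty := ⟨0, by simpa using ht⟩
  have h3 : 0 < (stdGaussian E).real {g : E | |⟪w, g⟫| < t} :=
    ENNReal.toReal_pos (h1.measure_pos _ h2).ne' (measure_ne_top _ _)
  refine h3.trans_le (measureReal_mono ?_)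
  intro g hg
  have hg' : |⟪w, g⟫| < t := hg
  exact hg'.le

/-! ### the radii are the same for the tilted flag -/

lemma Ts_inj {v : E} (hv : ‖v‖ = 1) {s : ℝ} (hs0 : 0 < s) (hs : s ≤ 1 / 8) :
    Function.Injective (Rot203.Ts s v) := by
  intro x y hxy
  have h1 : Rot203.Ts s v (x - y) = 0 := by rw [map_sub, hxy, sub_self]
  have h2 := Rot203.norm_Ts_sq hv s (x - y)
  rw [h1, norm_zero] at h2
  have h3 : ⟪v, x - y⟫ ^ 2 ≤ ‖x - y‖ ^ 2 := by
    have h4 := abs_real_inner_le_norm v (x - y)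
    rw [hv, one_mul] at h4
    calc ⟪v, x - y⟫ ^ 2 = |⟪v, x - y⟫| ^ 2 := (sq_abs _).symm
      _ ≤ _ := by gcongr
  have h5 : ‖x - y‖ ^ 2 ≤ 0 := by nlinarith [sq_nonneg ⟪v, x - y⟫]
  have h6 : ‖x - y‖ = 0 := by
    have := norm_nonneg (x - y)
    nlinarith
  exact sub_eq_zero.1 (norm_eq_zero.1 h6)

lemma rot_m {v : E} (hv : ‖v‖ = 1) {s : ℝ} (hs0 : 0 < s) (hs : s ≤ 1 / 8) (V : Flag E) (j : ℕ) :
    (V.rot s v).m j = V.m j := by
  show (Module.finrank ℝ ((V.M j).map (Rot203.Ts s v)) : ℝ) = (Module.finrank ℝ (V.M j) : ℝ)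
  have h := (Submodule.equivMapOfInjective (Rot203.Ts s v) (Ts_inj hv hs0 hs) (V.M j)).finrank_eq
  rw [h]

lemma rot_r {v : E} (hv : ‖v‖ = 1) {s : ℝ} (hs0 : 0 < s) (hs : s ≤ 1 / 8) (V : Flag E) (j : ℕ) :
    (V.rot s v).r j = V.r j := by
  rw [Flag.r, Flag.r, Flag.w, Flag.w, rot_n]
  congr 2
  refine Finset.sum_congr rfl fun l _ => ?_
  rw [rot_m hv hs0 hs, rot_m hv hs0 hs]

/-! ### basic facts on admissible bodies -/

lemma zero_mem {p : Par} {V : Flag E} {i : ℕ} {K : Set E} (hK : Adm p V i K) : (0 : E) ∈ K := by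
  have hne : K.Nonempty := by
    by_contra h
    rw [not_nonempty_iff_eq_empty] at h
    have := hK.pos
    rw [h, gm] at this
    simp at this
  obtain ⟨x, hx⟩ := hne
  have h := hK.conv hx (hK.symm x hx) (a := 1 / 2) (b := 1 / 2) (by norm_num) (by norm_num)
    (by norm_num)
  simpa using h

lemma bdd {p : Par} {V : Flag E} {i : ℕ} {K : Set E} (hK : Adm p V i K) (z : E) :
    BddAbove ((fun g => ⟪g, V.H i z⟫) '' K) := by
  refine ⟨p.rho * V.r i * ‖z‖, ?_⟩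
  rintro _ ⟨g, hg, rfl⟩
  show ⟪g, V.H i z⟫ ≤ _
  rw [← V.H_symm]
  refine (real_inner_le_norm _ _).trans ?_
  have := hK.cap g hg i le_rfl
  gcongr

lemma hs_nonneg {p : Par} {V : Flag E} {i : ℕ} {K : Set E} (hK : Adm p V i K) (z : E) :
    0 ≤ hs K (V.H i z) := by
  refine le_csSup (bdd hK z) ⟨0, zero_mem hK, ?_⟩
  simp

lemma gm_le_one (K : Set E) : gm K ≤ 1 := measureReal_le_one

lemma lam_pos (p : Par) (i : ℕ) : 0 < p.lam i := by
  have := p.hA
  rw [Par.lam]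
  positivity

lemma val_nonneg {p : Par} {V : Flag E} {i : ℕ} {K : Set E} (hK : Adm p V i K)
    (mu : Multiset E) : 0 ≤ val p mu V i K := by
  have h1 : 0 ≤ (mu.map fun z => hs K (V.H i z)).sum :=
    Multiset.sum_nonneg (by
      intro x hx
      obtain ⟨z, _, rfl⟩ := Multiset.mem_map.1 hx
      exact hs_nonneg hK z)
  have h2 : Real.log (gm K) ≤ 0 := Real.log_nonpos hK.pos.le (gm_le_one K)
  have h3 := lam_pos p i
  rw [val]
  nlinarith

lemma D_le {p : Par} {V : Flag E} {i : ℕ} {K : Set E} (hK : Adm p V i K) (mu : Multiset E) :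
    D p mu V i ≤ val p mu V i K := by
  refine csInf_le ⟨0, ?_⟩ ⟨K, hK, rfl⟩
  rintro _ ⟨K', hK', rfl⟩
  exact val_nonneg hK' mu

/-! ### the Gaussian comparison -/

theorem cmp_plain {v : E} (hv : ‖v‖ = 1) (V : Flag E) {s : ℝ} (hs0 : 0 < s) (hs : s ≤ 1 / 8)
    {ep : ℝ} (hep : 0 < ep) (i : ℕ) {K : Set E} (cK : IsClosed K) (hK : Convex ℝ K)
    (sK : ∀ x ∈ K, -x ∈ K) {G : ℝ} (hG : G ≤ 0 ∨ (G ≤ gain V v s i K ∧ 0 < gm K)) :
    Real.exp (G - (2 * s - s ^ 2) * (ep * ‖V.P i v‖ ^ 2 + (1 / ep + 1) * BB V v i) / 2) * gm K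
      ≤ gm (Rm V s v i ⁻¹' K) := by
  have htr := trace_le hv V hs0 hs hep i
  have hmain := main_ineq hv V hs0 hs hep i
  have hsum1 : ∀ g, ∑ k ∈ (Finset.range V.n).disjSum (Finset.range V.n),
      ⟪(Sum.elim (wa V s v ep i) (wz V s v ep i) : ℕ ⊕ ℕ → E) k, g⟫ ^ 2
      = ∑ l ∈ Finset.range V.n, ⟪wa V s v ep i l, g⟫ ^ 2
          + ∑ l ∈ Finset.range V.n, ⟪wz V s v ep i l, g⟫ ^ 2 := by
    intro g
    rw [Finset.sum_disjSum]
    rfl
  have hsum2 : ∑ k ∈ (Finset.range V.n).disjSum (Finset.range V.n),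
      ‖(Sum.elim (wa V s v ep i) (wz V s v ep i) : ℕ ⊕ ℕ → E) k‖ ^ 2
      = ∑ l ∈ Finset.range V.n, ‖wa V s v ep i l‖ ^ 2
          + ∑ l ∈ Finset.range V.n, ‖wz V s v ep i l‖ ^ 2 := by
    rw [Finset.sum_disjSum]
    rfl
  have mK := cK.measurableSet
  have hgm0 : 0 ≤ gm K := measureReal_nonneg
  have hsb0 : 0 < 2 * s - s ^ 2 := by nlinarith
  have hc0 : 0 ≤ (2 * s - s ^ 2) / (1 - s) ^ 2 := by positivity
  -- the plain comparison
  have hpl : ∀ G : ℝ, G ≤ 0 → Real.exp (G - (2 * s - s ^ 2)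
      * (ep * ‖V.P i v‖ ^ 2 + (1 / ep + 1) * BB V v i) / 2) * gm K ≤ gm (Rm V s v i ⁻¹' K) := by
    intro G hG
    have h1 := CmpR174.cmp ((Finset.range V.n).disjSum (Finset.range V.n))
      (Sum.elim (wa V s v ep i) (wz V s v ep i)) (Rm V s v i) (fun g => by
        rw [hsum1]
        have := hmain g
        have h2 : 0 ≤ (2 * s - s ^ 2) / (1 - s) ^ 2
          * ⟪(V.rot s v).H i v, Rm V s v i g⟫ ^ 2 := by positivity
        linarith) mK hK sK
    rw [hsum2] at h1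
    refine le_trans ?_ h1
    show _ ≤ Real.exp _ * gm K
    refine mul_le_mul_of_nonneg_right (Real.exp_le_exp.2 ?_) hgm0
    linarith
  rcases hG with hG | ⟨hG, hKp⟩
  · exact hpl G hG
  by_cases hu : (V.rot s v).H i v = 0
  · refine hpl G (hG.trans ?_)
    rw [gain]
    simp [hu, Ex]
  set u := (V.rot s v).H i v with hudef
  have hun : 0 < ‖u‖ := norm_pos_iff.2 hu
  set c := (2 * s - s ^ 2) / (1 - s) ^ 2 with hc
  set n : E := (‖u‖⁻¹) • u with hn
  have hn1 : ‖n‖ = 1 := by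
    rw [hn, norm_smul, norm_inv, norm_norm, inv_mul_cancel₀ hun.ne']
  have hnu : ∀ x : E, ⟪n, x⟫ ^ 2 = ⟪u, x⟫ ^ 2 / ‖u‖ ^ 2 := by
    intro x
    rw [hn, inner_smul_left]
    simp only [conj_trivial]
    field_simp
  have hint : ∫ x in K, ⟪n, x⟫ ^ 2 ∂(stdGaussian E)
      ≤ (Ex K (fun g => ⟪u, g⟫ ^ 2) / ‖u‖ ^ 2) * (stdGaussian E).real K := by
    simp only [hnu]
    rw [integral_div, Ex]
    have h2 : (stdGaussian E).real K = gm K := rfl
    rw [h2]
    apply le_of_eq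
    field_simp
  have h1 := CmpR174.cmp1 ((Finset.range V.n).disjSum (Finset.range V.n))
      (Sum.elim (wa V s v ep i) (wz V s v ep i)) (Rm V s v i) hn1 (τ := c * ‖u‖ ^ 2)
      (by positivity) (fun g => by
        rw [hsum1, hnu]
        have := hmain g
        have h2 : c * ‖u‖ ^ 2 * (⟪u, Rm V s v i g⟫ ^ 2 / ‖u‖ ^ 2) = c * ⟪u, Rm V s v i g⟫ ^ 2 := by
          field_simp
        rw [h2]
        exact this) mK hK sK hint
  rw [hsum2] at h1
  refine le_trans ?_ h1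
  show _ ≤ Real.exp _ * gm K
  refine mul_le_mul_of_nonneg_right (Real.exp_le_exp.2 ?_) hgm0
  have h3 : gain V v s i K = c * ‖u‖ ^ 2 / 2 - (c * ‖u‖ ^ 2) ^ 2 / 4
      - c * ‖u‖ ^ 2 * (Ex K (fun g => ⟪u, g⟫ ^ 2) / ‖u‖ ^ 2) / 2 := by
    rw [gain]
    rw [← hudef, ← hc]
    field_simp
    ring
  linarith

/-! ### the sum of the cap costs -/

lemma cap_cost {v : E} (hv : ‖v‖ = 1) (V : Flag E) {s : ℝ} (hs0 : 0 < s) (hs : s ≤ 1 / 8)
    (i k : ℕ) :
    ‖Yv V s v i k‖ * ‖V.P (i + k) v‖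
      ≤ (2 * s - s ^ 2) * ((1 / 2) ^ k * ‖V.P i v‖ ^ 2 + (25 / 8) ^ k * ‖V.P (i + k) v‖ ^ 2) := by
  have h1 := norm_Yv_le hv V hs0 hs i k
  have hsb0 : 0 < 2 * s - s ^ 2 := by nlinarith
  have h2 : 0 ≤ ‖V.P (i + k) v‖ := norm_nonneg _
  have h3 : 0 ≤ ‖V.P i v‖ := norm_nonneg _
  set a := ‖V.P i v‖
  set b := ‖V.P (i + k) v‖
  have hth : (th⁻¹) ^ k = (5 / 4 : ℝ) ^ k := by norm_num [th]
  rw [hth] at h1
  have h4 : 2 * ((5 / 4 : ℝ) ^ k * (a * b)) ≤ (1 / 2) ^ k * a ^ 2 + (25 / 8) ^ k * b ^ 2 := by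
    have e1 : ((1 / 2 : ℝ) ^ k) = ((√(1 / 2)) ^ k) ^ 2 := by
      rw [← pow_mul, mul_comm, pow_mul, Real.sq_sqrt (by norm_num)]
    have e2 : ((25 / 8 : ℝ) ^ k) = ((√(25 / 8)) ^ k) ^ 2 := by
      rw [← pow_mul, mul_comm, pow_mul, Real.sq_sqrt (by norm_num)]
    have e3 : (5 / 4 : ℝ) ^ k = (√(1 / 2)) ^ k * (√(25 / 8)) ^ k := by
      rw [← mul_pow, ← Real.sqrt_mul (by norm_num)]
      congr 1
      rw [show (1 / 2 * (25 / 8) : ℝ) = (5 / 4) ^ 2 by norm_num, Real.sqrt_sq (by norm_num)]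
    rw [e1, e2, e3]
    nlinarith [sq_nonneg ((√(1 / 2)) ^ k * a - (√(25 / 8)) ^ k * b)]
  calc ‖Yv V s v i k‖ * b ≤ 2 * ((5 / 4) ^ k * (2 * s - s ^ 2) * a) * b := by gcongr
    _ = (2 * s - s ^ 2) * (2 * ((5 / 4 : ℝ) ^ k * (a * b))) := by ring
    _ ≤ _ := by gcongr

lemma cap_sum {v : E} (hv : ‖v‖ = 1) (V : Flag E) {s : ℝ} (hs0 : 0 < s) (hs : s ≤ 1 / 8)
    (i : ℕ) :
    ∑ k ∈ Finset.range (V.n + 1), ‖Yv V s v i k‖ * ‖V.P (i + k) v‖
      ≤ (2 * s - s ^ 2) * (3 * ‖V.P i v‖ ^ 2 + BB V v i) := by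
  have hsb0 : 0 < 2 * s - s ^ 2 := by nlinarith
  refine (Finset.sum_le_sum fun k _ => cap_cost hv V hs0 hs i k).trans ?_
  rw [← Finset.mul_sum]
  refine mul_le_mul_of_nonneg_left ?_ hsb0.le
  rw [Finset.sum_range_succ', Finset.sum_add_distrib, ← Finset.sum_mul, BB]
  have h2 : ∑ l ∈ Finset.range V.n, (1 / 2 : ℝ) ^ (l + 1) ≤ 1 := by
    have : ∀ n : ℕ, ∑ l ∈ Finset.range n, (1 / 2 : ℝ) ^ (l + 1) = 1 - (1 / 2) ^ n := by
      intro n
      induction n with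
      | zero => simp
      | succ n ih => rw [Finset.sum_range_succ, ih]; ring
    rw [this]
    have : (0 : ℝ) ≤ (1 / 2) ^ V.n := by positivity
    linarith
  have h3 : 0 ≤ ‖V.P i v‖ ^ 2 := by positivity
  have h4 := mul_le_mul_of_nonneg_right h2 h3
  simp only [pow_zero, one_mul, add_zero]
  have h5 : ∀ l : ℕ, V.P (i + (l + 1)) = V.P (i + l + 1) := fun l => by rw [add_assoc]
  simp only [h5]
  linarith

lemma BB_nonneg (V : Flag E) (v : E) (i : ℕ) : 0 ≤ BB V v i := by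
  rw [BB]; positivity

end Lb117

open Lb117

theorem levB : LevB E 8401 8 := by
  intro p mu V v s i K t ep G hrho hv hs0 hs8 hep hep1 hK ht hG
  have hsb0 : 0 < 2 * s - s ^ 2 := by nlinarith
  have hsb2 : 2 * s - s ^ 2 ≤ 2 * s := by nlinarith
  have hrho0 : 0 < p.rho := by linarith
  -- the body before the caps
  set w := V.H i v with hw
  set Q0 : Set E := (Rm V s v i ⁻¹' K) ∩ {g : E | |⟪w, g⟫| ≤ t} with hQ0
  have cR : IsClosed (Rm V s v i ⁻¹' K) := hK.closed.preimage (Rm V s v i).continuous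
  have vR : Convex ℝ (Rm V s v i ⁻¹' K) := hK.conv.linear_preimage (Rm V s v i).toLinearMap
  have sR : ∀ x ∈ Rm V s v i ⁻¹' K, -x ∈ Rm V s v i ⁻¹' K := by
    intro x hx
    show Rm V s v i (-x) ∈ K
    rw [map_neg]
    exact hK.symm _ hx
  have cS : IsClosed {g : E | |⟪w, g⟫| ≤ t} := isClosed_le (by fun_prop) continuous_const
  have vS : Convex ℝ {g : E | |⟪w, g⟫| ≤ t} := by
    have : {g : E | |⟪w, g⟫| ≤ t} = (innerSL ℝ w).toLinearMap ⁻¹' (Metric.closedBall (0 : ℝ) t) := by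
      ext g
      simp
    rw [this]
    exact (convex_closedBall 0 t).linear_preimage _
  have cQ0 : IsClosed Q0 := cR.inter cS
  have vQ0 : Convex ℝ Q0 := vR.inter vS
  have sQ0 : ∀ x ∈ Q0, -x ∈ Q0 := by
    rintro x ⟨hx, hx'⟩
    refine ⟨sR x hx, ?_⟩
    show |⟪w, -x⟫| ≤ t
    rw [inner_neg_right, abs_neg]
    exact hx'
  -- the caps
  obtain ⟨Q', hsub, cQ', vQ', sQ', hcap, hmeas⟩ := all_caps (fun k => V.H (i + k))
    (fun k => V.H (i + k) - (innerSL ℝ (Yv V s v i k)).smulRight (V.P (i + k) v))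
    (fun k => Yv V s v i k) (fun k => V.P (i + k) v) (fun k => p.rho * V.r (i + k)) hrho
    (fun k => by have := one_le_r V (i + k); nlinarith)
    (fun k g => by simp)
    (fun k => by
      rw [integral_H, mul_pow, r_sq]
      have h1 : p.rho ^ 2 * (1 + V.w (i + k)) / p.rho ^ 2 = 1 + V.w (i + k) := by field_simp
      rw [h1]
      linarith)
    cQ0 vQ0 sQ0
    (fun k g hg => by
      have h1 : (V.H (i + k) - (innerSL ℝ (Yv V s v i k)).smulRight (V.P (i + k) v)) g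
          = V.H (i + k) g - ⟪Yv V s v i k, g⟫ • V.P (i + k) v := by simp
      rw [h1, cap_iso hv V hs0 hs8, ← rot_r hv hs0 hs8 V (i + k)]
      exact hK.cap _ hg.1 (i + k) (Nat.le_add_right _ _))
    (V.n + 1)
  -- positivity and the measure
  have hslab := slab_pos w ht
  have hR := cmp_plain hv V hs0 hs8 hep i hK.closed hK.conv hK.symm (G := G)
    (hG.imp id fun h => ⟨h, hK.pos⟩)
  set tr := (2 * s - s ^ 2) * (ep * ‖V.P i v‖ ^ 2 + (1 / ep + 1) * BB V v i) / 2 with htr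
  set c1 := 2 * ∑ k ∈ Finset.range (V.n + 1),
    700 * (‖Yv V s v i k‖ * ‖V.P (i + k) v‖) / p.rho with hc1
  have h1 : gm (Rm V s v i ⁻¹' K) * gm {g : E | |⟪w, g⟫| ≤ t} ≤ gm Q0 :=
    Dom640.slab_real cR.measurableSet vR sR w t
  have h2 : Real.exp (-c1) * gm Q0 ≤ gm Q' := hmeas
  have hlow : Real.exp (-c1) * (Real.exp (G - tr) * gm K * gm {g : E | |⟪w, g⟫| ≤ t}) ≤ gm Q' := by
    refine le_trans ?_ h2
    refine mul_le_mul_of_nonneg_left (le_trans ?_ h1) (Real.exp_pos _).le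
    exact mul_le_mul_of_nonneg_right hR hslab.le
  have hlow0 : 0 < Real.exp (-c1) * (Real.exp (G - tr) * gm K * gm {g : E | |⟪w, g⟫| ≤ t}) := by
    have := hK.pos
    positivity
  have hAdm : Adm p V i Q' := by
    refine ⟨cQ', vQ', sQ', ?_, hlow0.trans_le hlow⟩
    intro g hg j hj
    obtain ⟨k, rfl⟩ := Nat.exists_eq_add_of_le hj
    by_cases hk : k < V.n + 1
    · exact hcap k hk g hg
    · rw [V.H_of_ge (by omega)]
      have := one_le_r V (i + k)
      simp only [ContinuousLinearMap.zero_apply, norm_zero]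
      positivity
  have hlog : -c1 + (G - tr) + Real.log (gm K) + Real.log (gm {g : E | |⟪w, g⟫| ≤ t})
      ≤ Real.log (gm Q') := by
    have h3 := Real.log_le_log hlow0 hlow
    rw [Real.log_mul (Real.exp_pos _).ne' (by have := hK.pos; positivity),
      Real.log_mul (by have := hK.pos; positivity) hslab.ne',
      Real.log_mul (Real.exp_pos _).ne' hK.pos.ne', Real.log_exp, Real.log_exp] at h3
    linarith
  -- the costs
  have hcost : c1 + tr ≤ s * 8401 * ((ep + 1 / p.rho) * ‖V.P i v‖ ^ 2 + (1 / ep + 1) * BB V v i) := by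
    have hb0 : 0 ≤ ‖V.P i v‖ ^ 2 := by positivity
    have hB0 := BB_nonneg V v i
    have h3 := cap_sum hv V hs0 hs8 i
    have h4 : c1 = 1400 * (1 / p.rho) * ∑ k ∈ Finset.range (V.n + 1),
        ‖Yv V s v i k‖ * ‖V.P (i + k) v‖ := by
      rw [hc1, Finset.mul_sum, Finset.mul_sum]
      refine Finset.sum_congr rfl fun k _ => ?_
      ring
    have hr1 : 0 < 1 / p.rho := by positivity
    have hr2 : 1 / p.rho ≤ 1 / 8 := by
      apply one_div_le_one_div_of_le (by norm_num) hrho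
    have hie : 0 < 1 / ep := by positivity
    have h5 : c1 ≤ 1400 * (1 / p.rho) * (2 * s * (3 * ‖V.P i v‖ ^ 2 + BB V v i)) := by
      rw [h4]
      refine mul_le_mul_of_nonneg_left (h3.trans ?_) (by positivity)
      exact mul_le_mul_of_nonneg_right hsb2 (by positivity)
    have h6 : tr ≤ s * (ep * ‖V.P i v‖ ^ 2 + (1 / ep + 1) * BB V v i) := by
      rw [htr]
      have h7 : 0 ≤ ep * ‖V.P i v‖ ^ 2 + (1 / ep + 1) * BB V v i := by positivity
      nlinarith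
    have h8 : 1400 * (1 / p.rho) * (2 * s * (3 * ‖V.P i v‖ ^ 2 + BB V v i))
        ≤ s * (8400 * (1 / p.rho) * ‖V.P i v‖ ^ 2) + s * (350 * BB V v i) := by
      have h9 : (1 / p.rho) * (s * BB V v i) ≤ 1 / 8 * (s * BB V v i) := by
        refine mul_le_mul_of_nonneg_right hr2 (by positivity)
      nlinarith
    have h10 : 0 ≤ s * (ep * ‖V.P i v‖ ^ 2) := by positivity
    have h11 : 0 ≤ s * ((1 / p.rho) * ‖V.P i v‖ ^ 2) := by positivity
    have h12 : 0 ≤ s * (1 / ep * BB V v i) := by positivity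
    have h13 : 0 ≤ s * BB V v i := by positivity
    nlinarith
  -- the support functions
  have hsup : (mu.map fun z => hs Q' (V.H i z)).sum
      ≤ (mu.map fun z => hs K ((V.rot s v).H i z)).sum + s * t * S mu v := by
    have h3 : s * t * S mu v = (mu.map fun z => s * t * |⟪v, z⟫|).sum := by
      rw [Multiset.sum_map_mul_left]
      rfl
    rw [h3, ← Multiset.sum_map_add]
    refine Multiset.sum_map_le_sum_map _ _ fun z _ => ?_
    refine csSup_le ⟨_, 0, zero_mem hAdm, rfl⟩ ?_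
    rintro _ ⟨g, hg, rfl⟩
    show ⟪g, V.H i z⟫ ≤ _
    have hg0 := hsub hg
    rw [← V.H_symm]
    have e1 : V.H i g = Tc s v (V.H i g) + (s * ⟪v, V.H i g⟫) • v := by
      rw [Tc_apply]; abel
    rw [e1, inner_add_left, inner_smul_left, ← H_rot_Rm_zero]
    simp only [conj_trivial]
    have e2 : ⟪(V.rot s v).H i (Rm V s v i g), z⟫ ≤ hs K ((V.rot s v).H i z) := by
      rw [Flag.H_symm]
      exact le_csSup (bdd hK z) ⟨Rm V s v i g, hg0.1, rfl⟩
    have e3 : |⟪v, V.H i g⟫| ≤ t := by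
      have : |⟪w, g⟫| ≤ t := hg0.2
      rwa [hw, V.H_symm] at this
    have e4 : s * ⟪v, V.H i g⟫ * ⟪v, z⟫ ≤ s * t * |⟪v, z⟫| := by
      have h5 : ⟪v, V.H i g⟫ * ⟪v, z⟫ ≤ t * |⟪v, z⟫| := by
        refine (le_abs_self _).trans ?_
        rw [abs_mul]
        gcongr
      nlinarith
    linarith
  -- conclusion
  refine (D_le hAdm mu).trans ?_
  have hlam := lam_pos p i
  rw [val, val]
  have h20 := mul_le_mul_of_nonneg_left hlog hlam.le
  have h21 := mul_le_mul_of_nonneg_left hcost hlam.le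
  linarith

end Crest.Agent.R239.TB
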