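import Crest.Agent.R239.Ins_556f
import Crest.Agent.R239.InsF_488

/-! R239 / S0370, block F3: END FILE, `target_ins : Target_INS` (helper556, helper488). -/

set_option autoImplicit false
open MeasureTheory ProbabilityTheory

namespace Crest.Agent.R239.Ins556

open Crest.Agent.R239.FD

/-- **insertion, any Euclidean space** -/
theorem p_ins_all (E : Type*) [NormedAddCommGroup E] [InnerProductSpace ℝ E]
    [FiniteDimensional ℝ E] [MeasurableSpace E] [BorelSpace E] {p : Par} (hp : p.Ok) : P_INS E p :=
  p_ins hp fun V V' v I hM μ i hi => Ins488.lev_ins hp V V' v I hM μ hi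

/-- **block F3** -/
theorem target_ins : Target_INS := fun d p hp => p_ins_all (EuclideanSpace ℝ (Fin d)) hp

end Crest.Agent.R239.Ins556
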