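import Crest.Agent.R239.FB_76
import Crest.Agent.R239.DemLin_853

/-! R239 (helper76): demotion of a block direction, `dem_or_thin`, `Target_THIN` from `Target_BEN`. -/

set_option autoImplicit false
set_option linter.unusedSectionVars false
open MeasureTheory ProbabilityTheory Set
open scoped RealInnerProductSpace

namespace Crest.Agent.R239.Th76

open Crest.Agent.R239 Crest.Agent.R239.FD Crest.Agent.R239.FB76 Crest.Agent.R239.Dem853

variable {E : Type*} [NormedAddCommGroup E] [InnerProductSpace ℝ E] [FiniteDimensional ℝ E]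

/-- the demoted flag -/
noncomputable def dem (V : Flag E) (i : ℕ) (w : E) (hw : w ∈ (V.M (i + 1))ᗮ) : Flag E where
  n := V.n
  M := demM V.M i w
  anti := demM_anti V.anti hw
  bot := fun l h => by
    have := demM_le V.M i w l
    rw [V.bot l h] at this
    exact le_bot_iff.1 this

section lin

variable {V : Flag E} {i : ℕ} {w : E} (hw : w ∈ (V.M (i + 1))ᗮ)

lemma dem_n : (dem V i w hw).n = V.n := rfl
lemma dem_M_ne {l : ℕ} (h : l ≠ i) : (dem V i w hw).M l = V.M l := demM_ne V.M w h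
lemma dem_M_self : (dem V i w hw).M i = cutSub (V.M i) w := demM_self V.M i w

lemma dem_Q_ne {l : ℕ} (h : l ≠ i) (h' : l + 1 ≠ i) : (dem V i w hw).Q l = V.Q l :=
  blkP_dem_ne V.M w h h'

lemma dem_Q_self (hwi : w ∈ V.M i) (hn : ‖w‖ = 1) : (dem V i w hw).Q i = V.Q i - rk1 w :=
  blkP_dem_self hwi hn

lemma dem_Q_pred {l : ℕ} (hl : l + 1 = i) (hwi : w ∈ V.M i) (hn : ‖w‖ = 1) :
    (dem V i w hw).Q l = V.Q l + rk1 w := blkP_dem_pred hl hwi hn

lemma dem_k_ne {l : ℕ} (h : l ≠ i) (h' : l + 1 ≠ i) : (dem V i w hw).k l = V.k l :=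
  kd_dem_ne V.M w h h'

lemma dem_k_self (hwi : w ∈ V.M i) (hn : ‖w‖ = 1) : (dem V i w hw).k i + 1 = V.k i :=
  kd_dem_self V.anti hwi hw hn

lemma dem_k_pred {l : ℕ} (hl : l + 1 = i) (hwi : w ∈ V.M i) (hn : ‖w‖ = 1) :
    (dem V i w hw).k l = V.k l + 1 := kd_dem_pred V.anti hl hwi hw hn

lemma dem_H_gt {l : ℕ} (h : i < l) : (dem V i w hw).H l = V.H l := Hm_dem_gt th V.n V.M w h

lemma dem_H_self (hin : i < V.n) (hwi : w ∈ V.M i) (hn : ‖w‖ = 1) :
    (dem V i w hw).H i = V.H i - rk1 w := Hm_dem_self th hin hwi hn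

lemma dem_H_lt {l : ℕ} (hin : i < V.n) (h : l < i) (hwi : w ∈ V.M i) (hn : ‖w‖ = 1) :
    (dem V i w hw).H l = V.H l + (th ^ (i - 1 - l) - th ^ (i - l)) • rk1 w :=
  Hm_dem_lt th hin h hwi hn

lemma dem_N_gt {l : ℕ} (h : i < l) : (dem V i w hw).N l = V.N l := by
  funext x
  unfold Flag.N
  rw [dem_n]
  refine Finset.sum_congr rfl fun j hj => ?_
  rw [Finset.mem_Ico] at hj
  rw [dem_Q_ne hw (by omega) (by omega)]

lemma dem_rr_gt {l : ℕ} (h : i < l) : (dem V i w hw).rr l = V.rr l := by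
  unfold Flag.rr
  rw [dem_n]
  refine Finset.sum_congr rfl fun j hj => ?_
  rw [Finset.mem_Ico] at hj
  rw [dem_k_ne hw (by omega) (by omega)]

lemma dem_cap_gt (rho : ℝ) {l : ℕ} (h : i < l) : (dem V i w hw).cap rho l = V.cap rho l := by
  unfold Flag.cap
  rw [dem_N_gt hw h, dem_rr_gt hw h, dem_M_ne hw (by omega : l ≠ i)]

lemma dem_N_self {x : E} (hwi : w ∈ V.M i) (hn : ‖w‖ = 1) (hx : ⟪w, x⟫ = 0) :
    (dem V i w hw).N i x = V.N i x := by
  unfold Flag.N
  rw [dem_n]
  refine Finset.sum_congr rfl fun j hj => ?_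
  rw [Finset.mem_Ico] at hj
  by_cases h : j = i
  · subst h
    rw [dem_Q_self hw hwi hn]
    simp [hx]
  · rw [dem_Q_ne hw h (by omega)]

lemma dem_rr_self (hwi : w ∈ V.M i) (hn : ‖w‖ = 1) :
    (dem V i w hw).rr i ≤ V.rr i := by
  unfold Flag.rr
  rw [dem_n]
  refine Finset.sum_le_sum fun j hj => ?_
  rw [Finset.mem_Ico] at hj
  refine mul_le_mul_of_nonneg_left ?_ (pow_nonneg th_pos.le _)
  by_cases h : j = i
  · subst h
    have := dem_k_self hw hwi hn
    exact_mod_cast (by omega)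
  · rw [dem_k_ne hw h (by omega)]

lemma dem_cap_self (rho : ℝ) (hwi : w ∈ V.M i) (hn : ‖w‖ = 1) :
    (dem V i w hw).cap rho i ⊆ V.cap rho i := by
  intro x hx
  obtain ⟨h1, h2⟩ := hx
  rw [dem_M_self, mem_cutSub] at h1
  refine ⟨h1.1, ?_⟩
  rw [dem_N_self hw hwi hn h1.2] at h2
  exact h2.trans (mul_le_mul_of_nonneg_left (dem_rr_self hw hwi hn) (sq_nonneg _))

lemma H_w {j l : ℕ} (hlj : l ≤ j) (hjn : j < V.n) (hQ : V.Q j w = w) :
    V.H l w = th ^ (j - l) • w := by
  rw [H_eq, Mom764.H_apply, Finset.sum_eq_single_of_mem j (Finset.mem_Ico.2 ⟨hlj, hjn⟩)]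
  · rw [← Q_eq, hQ]
  · intro m _ hm
    have : Mom764.Q V.M m w = 0 := by
      rw [← hQ, Q_eq]
      exact Mom764.Q_Q_ne V.anti hm w
    rw [this, smul_zero]

lemma inner_H (l : ℕ) (x y : E) : ⟪V.H l x, y⟫ = ⟪x, V.H l y⟫ := Mom764.inner_H_left _ _ _ _ _

lemma adj_H (l : ℕ) : (V.H l).adjoint = V.H l := Mom764.adjoint_H _ _ _

end lin

section meas

variable [MeasurableSpace E] [BorelSpace E] {p : Par} {V : Flag E} {i : ℕ} {w : E}
  (hw : w ∈ (V.M (i + 1))ᗮ)

lemma dem_D_gt {l : ℕ} (h : i < l) (μ : Multiset E) : D p (dem V i w hw) l μ = D p V l μ := by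
  unfold D val Adm
  rw [dem_H_gt hw h, dem_cap_gt hw _ h]

lemma log_cut {rho : ℝ} (hr : 16 ≤ rho) : -(2 / rho ^ 2) ≤ Real.log (1 - 1 / rho ^ 2) := by
  have h0 : 0 < 1 / rho ^ 2 := by positivity
  have h1 : 1 / rho ^ 2 ≤ 1 / 2 := by
    rw [div_le_div_iff₀ (by positivity) (by norm_num)]
    nlinarith
  have h2 : 0 < 1 - 1 / rho ^ 2 := by linarith
  have h3 := Real.one_sub_inv_le_log_of_pos h2
  refine le_trans ?_ h3
  have h5 : 2 / rho ^ 2 = 2 * (1 / rho ^ 2) := by ring
  rw [h5]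
  generalize 1 / rho ^ 2 = x at *
  have h4 : 1 - (1 - x)⁻¹ = -x / (1 - x) := by
    field_simp
    ring
  rw [h4, le_div_iff₀ h2]
  nlinarith

lemma dem_D_lt (hp : p.Ok) (hin : i < V.n) (hn : ‖w‖ = 1) (hQ : V.Q i w = w)
    (hwi : w ∈ V.M i) {l : ℕ} (h : l < i) (μ : Multiset E) :
    D p V l μ - p.lam l * (2 / p.rho ^ 2) ≤ D p (dem V i w hw) l μ := by
  refine le_D hp _ _ _ fun K' hK' => ?_
  have hr := hp.rho_ge
  have mK := hK'.1.measurableSet
  set K := K' ∩ V.cap p.rho l with hKdef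
  -- Anderson
  have hA : (gau ((dem V i w hw).H l)).real K' ≤ (gau (V.H l)).real K' := by
    refine ENNReal.toReal_mono (measure_ne_top _ _) ?_
    refine AnSym853.gau_mono_symm (fun t => ?_) hK'.1 hK'.2.1 hK'.2.2.1
    rw [adj_H, show ((dem V i w hw).H l).adjoint = (dem V i w hw).H l from Mom764.adjoint_H _ _ _,
      dem_H_lt hw hin h hwi hn]
    set c := th ^ (i - 1 - l) - th ^ (i - l) with hc
    have hc0 : 0 ≤ c := by
      rw [hc, sub_nonneg]
      exact pow_le_pow_of_le_one th_pos.le th_lt.le (by omega)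
    have e1 : (V.H l + c • rk1 w) t = V.H l t + (c * ⟪w, t⟫) • w := by
      simp [smul_smul]
    rw [e1, ← sq_le_sq₀ (norm_nonneg _) (norm_nonneg _), norm_add_sq_real]
    have e2 : ⟪V.H l t, w⟫ = th ^ (i - l) * ⟪w, t⟫ := by
      rw [inner_H, H_w h.le hin hQ, real_inner_smul_right, real_inner_comm]
    rw [real_inner_smul_right, e2]
    have h3 : 0 ≤ th ^ (i - l) := pow_nonneg th_pos.le _
    have h4 : 0 ≤ c * (th ^ (i - l) * (⟪w, t⟫ * ⟪w, t⟫)) :=
      mul_nonneg hc0 (mul_nonneg h3 (mul_self_nonneg _))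
    nlinarith [sq_nonneg ‖(c * ⟪w, t⟫) • w‖]
  have hcut := cut_N V l (by linarith : (0:ℝ) < p.rho) mK hK'.2.1 hK'.2.2.1
  have hpos' := hK'.2.2.2.2
  have h1 : 0 < 1 - 1 / p.rho ^ 2 := by
    rw [sub_pos, div_lt_one (by positivity)]
    nlinarith
  have hpos1 : 0 < (1 - 1 / p.rho ^ 2) * (gau ((dem V i w hw).H l)).real K' := mul_pos h1 hpos'
  have hge : (1 - 1 / p.rho ^ 2) * (gau ((dem V i w hw).H l)).real K' ≤ (gau (V.H l)).real K :=
    (mul_le_mul_of_nonneg_left hA h1.le).trans hcut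
  have hadm : Adm p V l K := by
    refine ⟨hK'.1.inter (cap_closed V _ l), hK'.2.1.inter (cap_convex V _ l), ?_,
      inter_subset_right, lt_of_lt_of_le hpos1 hge⟩
    intro x hx
    exact ⟨hK'.2.2.1 x hx.1, cap_symm V _ l x hx.2⟩
  have hD := D_le hp μ hadm
  have hE : Eh K μ ≤ Eh K' μ := Eh_le fun z =>
    hs_mono (Adm.bdd hK') (Adm.nonempty hadm) inter_subset_left z
  have hlog : Real.log ((gau ((dem V i w hw).H l)).real K') - 2 / p.rho ^ 2
      ≤ Real.log ((gau (V.H l)).real K) := by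
    have h2 := Real.log_le_log hpos1 hge
    rw [Real.log_mul h1.ne' hpos'.ne'] at h2
    have := log_cut hr
    linarith
  unfold val at hD ⊢
  have hl := Par.Ok.lam_pos hp l
  nlinarith

/-- level `i`: a fat near-optimal body gives a good competitor -/
lemma dem_D_self (hp : p.Ok) {dl' c' : ℝ} (hB : P_BEN E dl' c') (hin : i < V.n) (hn : ‖w‖ = 1)
    (hQ : V.Q i w = w) (hwi : w ∈ V.M i) (μ : Multiset E) {K : Set E} {sl : ℝ}
    (hK : NearOpt p V i μ K sl)
    (hfat : (1 - c') * (gau (V.H i)).real K < ∫ x in K, ⟪w, x⟫ ^ 2 ∂(gau (V.H i))) :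
    D p V i μ - (sl + 2 * p.lam i * dl') ≤ D p (dem V i w hw) i μ := by
  refine le_D hp _ _ _ fun K' hK' => ?_
  obtain ⟨aK, vK⟩ := hK
  set V' := dem V i w hw with hV'
  have hHw : V.H i w = w := by
    have := H_w (l := i) le_rfl hin hQ
    simpa using this
  set C := half K K' with hC
  have cC : IsCompact C := half_compact (Adm.compact aK) (Adm.compact hK')
  have e0 : ∀ x, V'.H i x = V.H i x - ⟪w, x⟫ • w := by
    intro x
    rw [hV', dem_H_self hw hin hwi hn]
    simp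
  have mC := cC.isClosed
  have key := hB w hn (V.H i ⁻¹' K) (V'.H i ⁻¹' K') (V.H i ⁻¹' C)
    (aK.1.preimage (V.H i).continuous) (Dom640.pre_conv _ aK.2.1) (Dom640.pre_symm _ aK.2.2.1)
    (hK'.1.preimage (V'.H i).continuous) (Dom640.pre_conv _ hK'.2.1) (Dom640.pre_symm _ hK'.2.2.1)
    (mC.preimage (V.H i).continuous) ?_ ?_
  rotate_left
  · intro x
    simp only [mem_preimage]
    have : V'.H i (x - ⟪w, x⟫ • w) = V'.H i x := by
      rw [map_sub, map_smul, e0 w, hHw, real_inner_self_eq_norm_sq, hn]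
      simp
    rw [this]
  · intro x hx y hy hwy
    simp only [mem_preimage] at hx hy ⊢
    rw [map_add, map_smul, map_smul]
    have : V'.H i y = V.H i y := by rw [e0, hwy]; simp
    rw [← this]
    exact mem_half hx hy
  rw [← gau_real_apply _ aK.1.measurableSet, ← gau_real_apply _ hK'.1.measurableSet,
    ← gau_real_apply _ mC.measurableSet] at key
  have e3 : ∫ g in V.H i ⁻¹' K, ⟪w, g⟫ ^ 2 ∂(stdGaussian E) = ∫ x in K, ⟪w, x⟫ ^ 2 ∂(gau (V.H i)) := by
    unfold gau
    rw [setIntegral_map aK.1.measurableSet (by fun_prop) (V.H i).continuous.aemeasurable]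
    refine integral_congr_ae (Filter.Eventually.of_forall fun g => ?_)
    show ⟪w, g⟫ ^ 2 = ⟪w, V.H i g⟫ ^ 2
    rw [← inner_H, hHw]
  rw [e3] at key
  have key2 := key.resolve_left (not_le.2 hfat)
  have hpK := aK.2.2.2.2
  have hpK' := hK'.2.2.2.2
  have hpos1 : 0 < Real.exp (-dl') * Real.sqrt ((gau (V.H i)).real K * (gau (V'.H i)).real K') :=
    mul_pos (Real.exp_pos _) (Real.sqrt_pos.2 (mul_pos hpK hpK'))
  have hadm : Adm p V i C := by
    refine ⟨mC, half_convex aK.2.1 hK'.2.1, half_symm aK.2.2.1 hK'.2.2.1,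
      half_sub (cap_convex V _ i) aK.2.2.2.1 ?_, lt_of_lt_of_le hpos1 key2⟩
    exact hK'.2.2.2.1.trans (dem_cap_self hw _ hwi hn)
  have hlog : -dl' + 1 / 2 * (Real.log ((gau (V.H i)).real K) + Real.log ((gau (V'.H i)).real K'))
      ≤ Real.log ((gau (V.H i)).real C) := by
    have h2 := Real.log_le_log hpos1 key2
    rw [Real.log_mul (Real.exp_pos _).ne' (Real.sqrt_pos.2 (mul_pos hpK hpK')).ne', Real.log_exp,
      Real.log_sqrt (mul_pos hpK hpK').le, Real.log_mul hpK.ne' hpK'.ne'] at h2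
    linarith
  have hD := D_le hp μ hadm
  have hE := Eh_half (Adm.bdd aK) (Adm.bdd hK') (Adm.nonempty aK) (Adm.nonempty hK') μ
  unfold val at hD vK ⊢
  have hl := Par.Ok.lam_pos hp i
  nlinarith

lemma sum_lam_lt (hp : p.Ok) (i : ℕ) :
    ∑ l ∈ Finset.range i, p.lam l ≤ p.lam i / 15 := by
  induction i with
  | zero =>
    simp only [Finset.range_zero, Finset.sum_empty]
    have := Par.Ok.lam_pos hp 0
    positivity
  | succ i ih =>
    rw [Finset.sum_range_succ]
    have h1 : p.lam (i + 1) = p.A * p.lam i := by unfold Par.lam; ring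
    have h2 := Par.Ok.lam_pos hp i
    have h3 := hp.A_ge
    rw [h1]
    nlinarith

/-- **demote or thin** for any flag -/
theorem dem_or_thin (hp : p.Ok) {c' : ℝ} (hB : P_BEN E (p.kap / 10) c') (V : Flag E)
    (μ : Multiset E) (i : ℕ) (hi : 1 ≤ i) :
    ThinAt p V μ i c' (p.kap / 10) ∨ ∃ W : Flag E, J p V μ + p.kap / 2 * p.lam i ≤ J p W μ := by
  by_cases hT : ThinAt p V μ i c' (p.kap / 10)
  · exact Or.inl hT
  right
  unfold ThinAt at hT
  push Not at hT
  obtain ⟨K, hK, w, hn, hQ, hfat⟩ := hT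
  have hin : i < V.n := by
    by_contra h
    have : V.Q i w = 0 := by
      show V.P i w - V.P (i + 1) w = 0
      have h1 : V.P i w = 0 := M_bot V (not_lt.1 h) (Submodule.starProjection_apply_mem _ w)
      have h2 : V.P (i + 1) w = 0 :=
        M_bot V ((not_lt.1 h).trans (Nat.le_succ i)) (Submodule.starProjection_apply_mem _ w)
      rw [h1, h2, sub_zero]
    rw [this] at hQ
    rw [← hQ] at hn
    simp at hn
  have hwi : w ∈ V.M i := by
    rw [← hQ, Q_eq, ← Mom764.P_Q V.anti le_rfl]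
    exact Submodule.starProjection_apply_mem _ _
  have hw : w ∈ (V.M (i + 1))ᗮ := by
    rw [← Submodule.starProjection_apply_eq_zero_iff]
    rw [← hQ, Q_eq]
    exact Mom764.P_Q_zero V.anti (Nat.lt_succ_self i) w
  refine ⟨dem V i w hw, ?_⟩
  have hlt := fun l (h : l < i) => dem_D_lt hw hp hin hn hQ hwi h μ
  have hself := dem_D_self hw hp hB hin hn hQ hwi μ hK hfat
  have hgt := fun l (h : i < l) => dem_D_gt (p := p) hw h μ
  -- sum over levels
  obtain ⟨m, rfl⟩ : ∃ m, i = m + 1 := ⟨i - 1, by omega⟩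
  set W := dem V (m + 1) w hw with hW
  have hterm : ∀ l ∈ Finset.range V.n,
      (D p V l μ - p.kap * p.lam l * V.k l)
        + ((if l = m + 1 then p.kap * p.lam (m + 1)
              - (p.kap / 10 * p.lam (m + 1) + 2 * p.lam (m + 1) * (p.kap / 10)) else 0)
          - (if l = m then p.kap * p.lam m else 0)
          - (if l < m + 1 then p.lam l * (2 / p.rho ^ 2) else 0))
        ≤ D p W l μ - p.kap * p.lam l * W.k l := by
    intro l _
    rcases lt_trichotomy l (m + 1) with h | h | h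
    · rw [if_neg h.ne, if_pos h]
      have h1 := hlt l h
      by_cases hm : l = m
      · subst hm
        rw [if_pos rfl, dem_k_pred hw rfl hwi hn]
        push_cast
        linarith
      · rw [if_neg hm, dem_k_ne hw h.ne (by omega)]
        linarith
    · subst h
      rw [if_pos rfl, if_neg (by omega), if_neg (lt_irrefl _)]
      have h2 : (V.k (m + 1) : ℝ) = W.k (m + 1) + 1 := by
        rw [← dem_k_self hw hwi hn]; push_cast; rfl
      rw [h2]
      linarith
    · rw [if_neg h.ne', if_neg (by omega), if_neg (by omega), hgt l h,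
        dem_k_ne hw h.ne' (by omega)]
      linarith
  have hsum := Finset.sum_le_sum hterm
  rw [Finset.sum_add_distrib] at hsum
  have hg : ∑ l ∈ Finset.range V.n, ((if l = m + 1 then p.kap * p.lam (m + 1)
              - (p.kap / 10 * p.lam (m + 1) + 2 * p.lam (m + 1) * (p.kap / 10)) else 0)
          - (if l = m then p.kap * p.lam m else 0)
          - (if l < m + 1 then p.lam l * (2 / p.rho ^ 2) else 0))
      = (p.kap * p.lam (m + 1)
              - (p.kap / 10 * p.lam (m + 1) + 2 * p.lam (m + 1) * (p.kap / 10)))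
        - p.kap * p.lam m
        - ∑ l ∈ Finset.range V.n, (if l < m + 1 then p.lam l * (2 / p.rho ^ 2) else 0) := by
    rw [Finset.sum_sub_distrib, Finset.sum_sub_distrib, Finset.sum_ite_eq',
      Finset.sum_ite_eq', if_pos (Finset.mem_range.2 hin), if_pos (Finset.mem_range.2 (by omega))]
  rw [hg] at hsum
  have hs2 : ∑ l ∈ Finset.range V.n, (if l < m + 1 then p.lam l * (2 / p.rho ^ 2) else 0)
      = (∑ l ∈ Finset.range (m + 1), p.lam l) * (2 / p.rho ^ 2) := by
    rw [← Finset.sum_filter, Finset.sum_mul]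
    refine Finset.sum_congr ?_ fun _ _ => rfl
    ext l
    simp only [Finset.mem_filter, Finset.mem_range]
    omega
  rw [hs2] at hsum
  have hs3 := sum_lam_lt hp (m + 1)
  have hl := Par.Ok.lam_pos hp (m + 1)
  have hl0 := Par.Ok.lam_pos hp m
  have hA := hp.A_ge
  have hrel : p.lam (m + 1) = p.A * p.lam m := by unfold Par.lam; ring
  have hk := hp.kap_pos
  have hkr := hp.kap_rho
  have hr := hp.rho_ge
  have hrr : 2 / p.rho ^ 2 ≤ p.kap / 8 := by
    rw [div_le_div_iff₀ (by positivity) (by norm_num)]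
    linarith
  have h5 : (∑ l ∈ Finset.range (m + 1), p.lam l) * (2 / p.rho ^ 2)
      ≤ p.lam (m + 1) / 15 * (p.kap / 8) :=
    mul_le_mul hs3 hrr (by positivity) (by positivity)
  have h6 : p.kap * p.lam m ≤ p.kap * p.lam (m + 1) / 16 := by
    rw [hrel]
    have : p.lam m * 16 ≤ p.A * p.lam m := by nlinarith
    nlinarith
  have h7 : 0 < p.kap * p.lam (m + 1) := mul_pos hk hl
  show J p V μ + p.kap / 2 * p.lam (m + 1) ≤ J p W μ
  have hJ : J p W μ = ∑ l ∈ Finset.range V.n, (D p W l μ - p.kap * p.lam l * W.k l) := rfl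
  have hJ' : J p V μ = ∑ l ∈ Finset.range V.n, (D p V l μ - p.kap * p.lam l * V.k l) := rfl
  rw [hJ, hJ']
  nlinarith

theorem p_thin (hp : p.Ok) {c' : ℝ} (hB : P_BEN E (p.kap / 10) c') :
    P_THIN E p c' (p.kap / 10) := by
  intro V μ i hi hN
  rcases dem_or_thin hp hB V μ i hi with h | ⟨W, hW⟩
  · exact h
  · exfalso
    have h1 := hN W
    have h2 := mul_pos hp.kap_pos (Par.Ok.lam_pos hp i)
    linarith

end meas

theorem target_thin (hB : Target_BEN) : Target_THIN := by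
  intro kap hk _
  obtain ⟨c', h0, h1, hc⟩ := hB (kap / 10) (by positivity)
  refine ⟨c', kap / 10, 0, h0, h1, by positivity, fun d p hp hpk _ => ?_⟩
  have := hc d
  rw [← hpk] at this ⊢
  exact p_thin hp this

end Crest.Agent.R239.Th76
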