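import Crest.Agent.R239.AdmHalf_606
import Crest.Agent.R239.DemLin_853
import Crest.Agent.R239.AnSym_853
import Crest.Agent.R239.Dom_640
import Crest.Agent.R239.Ben2_949
import Crest.Agent.R239.Mom_764

/-!
R239 (S0370), block F4 (second hand, helper450), part A: soft facts over `FDef`:
mean of the gauge `N_i`, cutting by the cap, `D` as an infimum, near-optimal bodies.
-/

set_option autoImplicit false
set_option linter.unusedSectionVars false
open MeasureTheory ProbabilityTheory Set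
open scoped RealInnerProductSpace

namespace Crest.Agent.R239.Thin450

open Crest.Agent.R239 Crest.Agent.R239.FD Crest.Agent.R239.AdmHalf606

variable {E : Type*} [NormedAddCommGroup E] [InnerProductSpace ℝ E] [FiniteDimensional ℝ E]
  [MeasurableSpace E] [BorelSpace E]

/-! ### the gauge -/

/-- linear map with `‖BN x‖² = N_i x` -/
noncomputable def BN (V : Flag E) (i : ℕ) : E →L[ℝ] E :=
  FlagAlg557.comb V.M i V.n fun j => √((th⁻¹) ^ (j - i))

lemma norm_BN_sq (V : Flag E) (i : ℕ) (x : E) : ‖BN V i x‖ ^ 2 = V.N i x := by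
  unfold BN
  rw [FlagAlg557.norm_comb_sq V.anti]
  unfold Flag.N
  refine Finset.sum_congr rfl fun j _ => ?_
  have h : (0 : ℝ) ≤ (th⁻¹) ^ (j - i) := pow_nonneg (inv_nonneg.2 th_pos.le) _
  rw [Real.sq_sqrt h]
  rfl

lemma integrable_Q_sq (V : Flag E) (j : ℕ) :
    Integrable (fun g => ‖V.Q j g‖ ^ 2) (stdGaussian E) := Mom764.integrable_norm_sq (V.Q j)

lemma integral_Q_sq (V : Flag E) (j : ℕ) :
    ∫ g, ‖V.Q j g‖ ^ 2 ∂(stdGaussian E) = V.k j := by
  have h1 : (fun g => ‖V.Q j g‖ ^ 2) = fun g : E =>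
      ‖(V.M j).starProjection g‖ ^ 2 - ‖(V.M (j + 1)).starProjection g‖ ^ 2 := by
    funext g
    exact Mom764.norm_Q_sq V.anti j g
  rw [h1, integral_sub (Mom764.integrable_norm_sq _) (Mom764.integrable_norm_sq _),
    Mom764.integral_norm_sq_starProjection, Mom764.integral_norm_sq_starProjection]
  unfold Flag.k
  rw [Nat.cast_sub (Submodule.finrank_mono (V.anti (Nat.le_succ j)))]

lemma N_H (V : Flag E) (i : ℕ) (g : E) :
    V.N i (V.H i g) = ∑ j ∈ Finset.Ico i V.n, th ^ (j - i) * ‖V.Q j g‖ ^ 2 := by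
  unfold Flag.N
  refine Finset.sum_congr rfl fun j hj => ?_
  have h := Mom764.Q_H V.anti (θ := th) (n := V.n) (Finset.mem_Ico.1 hj).1
    (Finset.mem_Ico.1 hj).2 g
  have h' : V.Q j (V.H i g) = th ^ (j - i) • V.Q j g := h
  rw [h', norm_smul, mul_pow, Real.norm_eq_abs, sq_abs]
  have hth : (th : ℝ) ≠ 0 := th_pos.ne'
  have : (th⁻¹) ^ (j - i) * (th ^ (j - i)) ^ 2 = th ^ (j - i) := by
    rw [inv_pow]; field_simp
  rw [← mul_assoc, this]

lemma integral_N_H (V : Flag E) (i : ℕ) :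
    ∫ g, V.N i (V.H i g) ∂(stdGaussian E) = V.rr i := by
  simp only [N_H]
  rw [integral_finsetSum _ fun j _ => (integrable_Q_sq V j).const_mul _]
  unfold Flag.rr
  refine Finset.sum_congr rfl fun j _ => ?_
  rw [integral_const_mul, integral_Q_sq]

lemma integral_BN (V : Flag E) (i : ℕ) :
    ∫ x, ‖BN V i x‖ ^ 2 ∂(gau (V.H i)) = V.rr i := by
  rw [Mom764.integral_gau _ (by fun_prop)]
  simp only [norm_BN_sq]
  exact integral_N_H V i

lemma rr_nonneg (V : Flag E) (i : ℕ) : 0 ≤ V.rr i :=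
  Finset.sum_nonneg fun j _ => mul_nonneg (pow_nonneg th_pos.le _) (Nat.cast_nonneg _)

lemma H_eq_zero_of_rr (V : Flag E) (i : ℕ) (h : V.rr i = 0) (g : E) : V.H i g = 0 := by
  by_cases hin : i ≤ V.n
  · have h1 : ∀ j ∈ Finset.Ico i V.n, (V.k j : ℝ) = 0 := by
      intro j hj
      have h2 := (Finset.sum_eq_zero_iff_of_nonneg (fun _ _ => mul_nonneg
        (pow_nonneg th_pos.le _) (Nat.cast_nonneg _))).1 h j hj
      exact (mul_eq_zero.1 h2).resolve_left (pow_ne_zero _ th_pos.ne')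
    have h3 := Soft450.sum_bdim V.anti hin
    have h4 : ∑ j ∈ Finset.Ico i V.n, (Soft450.bdim V.M j : ℝ) = 0 :=
      Finset.sum_eq_zero fun j hj => h1 j hj
    rw [h4, V.bot V.n le_rfl, finrank_bot] at h3
    have h5 : Module.finrank ℝ (V.M i) = 0 := by
      have : (Module.finrank ℝ (V.M i) : ℝ) = 0 := by
        push_cast at h3; linarith
      exact_mod_cast this
    have h6 : V.M i = ⊥ := Submodule.finrank_eq_zero.1 h5
    have h7 := AdmHalf606.H_mem V i g
    rw [h6] at h7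
    exact (Submodule.mem_bot ℝ).1 h7
  · have h7 := AdmHalf606.H_mem V i g
    rw [V.bot i (by omega)] at h7
    exact (Submodule.mem_bot ℝ).1 h7

/-- cutting by the cap costs at most a factor `1 - 1/rho²` -/
theorem cut_cap (V : Flag E) (i : ℕ) {rho : ℝ} (hrho : 0 < rho) {K : Set E} (hK : IsClosed K)
    (cK : Convex ℝ K) (sK : ∀ x ∈ K, -x ∈ K) :
    (1 - 1 / rho ^ 2) * (gau (V.H i)).real K ≤ (gau (V.H i)).real (K ∩ V.cap rho i) := by
  have hcap : MeasurableSet (V.cap rho i) := (cap_closed V i rho).measurableSet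
  rcases (rr_nonneg V i).eq_or_lt with h0 | hpos
  · have h1 : (gau (V.H i)).real (K ∩ V.cap rho i) = (gau (V.H i)).real K := by
      rw [gau_real_apply _ (hK.measurableSet.inter hcap), gau_real_apply _ hK.measurableSet]
      congr 1
      ext g
      simp only [mem_preimage, mem_inter_iff]
      refine ⟨fun h => h.1, fun h => ⟨h, ?_⟩⟩
      rw [H_eq_zero_of_rr V i h0.symm g]
      refine ⟨(V.M i).zero_mem, ?_⟩
      rw [N_zero, ← h0]; simp
    rw [h1]
    have h2 : 0 ≤ 1 / rho ^ 2 := by positivity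
    have h3 : 0 ≤ (gau (V.H i)).real K := measureReal_nonneg
    nlinarith
  · have hr : 0 < rho * √(V.rr i) := mul_pos hrho (Real.sqrt_pos.2 hpos)
    have h := Dom640.gau_cut (V.H i) hK.measurableSet cK sK (BN V i) hr
    rw [integral_BN, mul_pow, Real.sq_sqrt hpos.le] at h
    have h1 : V.rr i / (rho ^ 2 * V.rr i) = 1 / rho ^ 2 := by
      field_simp
    rw [h1] at h
    refine h.trans ?_
    have mB : MeasurableSet {x : E | ‖BN V i x‖ ≤ rho * √(V.rr i)} :=
      measurableSet_le (BN V i).continuous.norm.measurable measurable_const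
    rw [gau_real_apply _ (hK.measurableSet.inter mB), gau_real_apply _ (hK.measurableSet.inter hcap)]
    refine measureReal_mono ?_ (measure_ne_top _ _)
    rintro g ⟨hg1, hg2⟩
    refine ⟨hg1, AdmHalf606.H_mem V i g, ?_⟩
    rw [← norm_BN_sq]
    have h3 : ‖BN V i (V.H i g)‖ ^ 2 ≤ (rho * √(V.rr i)) ^ 2 := by
      have hg3 : ‖BN V i (V.H i g)‖ ≤ rho * √(V.rr i) := hg2
      gcongr
    rwa [mul_pow, Real.sq_sqrt hpos.le] at h3

lemma cap_pos (V : Flag E) (i : ℕ) {rho : ℝ} (hrho : 1 < rho) :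
    0 < (gau (V.H i)).real (V.cap rho i) := by
  have h := cut_cap V i (by linarith : 0 < rho) (isClosed_univ (X := E)) convex_univ
    (fun x _ => mem_univ _)
  rw [univ_inter] at h
  have h1 : (gau (V.H i)).real (univ : Set E) = 1 := by simp
  rw [h1, mul_one] at h
  have h2 : 1 / rho ^ 2 < 1 := by
    rw [div_lt_one (by positivity)]; nlinarith
  linarith

lemma adm_cap (p : Par) (hp : p.Ok) (V : Flag E) (i : ℕ) : Adm p V i (V.cap p.rho i) :=
  ⟨cap_closed V i _, cap_convex V i _, fun _ hx => cap_neg V i _ hx, Subset.rfl,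
    cap_pos V i (by have := hp.rho_ge; linarith)⟩

/-! ### `D` as an infimum -/

lemma lam_pos {p : Par} (hp : p.Ok) (i : ℕ) : 0 < p.lam i := by
  have h1 := hp.tau_pos
  have h2 := hp.A_ge
  unfold Par.lam
  positivity

lemma lam_succ (p : Par) (i : ℕ) : p.lam (i + 1) = p.A * p.lam i := by
  unfold Par.lam; ring

lemma hs_nonneg {p : Par} {V : Flag E} {i : ℕ} {K : Set E} (h : Adm p V i K) (z : E) :
    0 ≤ hs K z := by
  have h1 := F6core696.le_hs (adm_compact h) (adm_zero h) z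
  rw [inner_zero_left] at h1
  exact h1

lemma Eh_nonneg {p : Par} {V : Flag E} {i : ℕ} {K : Set E} (h : Adm p V i K) (μ : Multiset E) :
    0 ≤ Eh K μ := by
  unfold Eh
  refine Multiset.sum_nonneg fun x hx => ?_
  obtain ⟨z, _, rfl⟩ := Multiset.mem_map.1 hx
  exact hs_nonneg h z

lemma log_gau_nonpos (A : E →L[ℝ] E) (K : Set E) : Real.log ((gau A).real K) ≤ 0 :=
  Real.log_nonpos measureReal_nonneg measureReal_le_one

lemma val_nonneg {p : Par} (hp : p.Ok) {V : Flag E} {i : ℕ} {K : Set E} (h : Adm p V i K)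
    (μ : Multiset E) : 0 ≤ val p V i μ K := by
  unfold val
  have h1 := Eh_nonneg h μ
  have h2 := log_gau_nonpos (V.H i) K
  have h3 := (lam_pos hp i).le
  nlinarith

lemma bdd {p : Par} (hp : p.Ok) (V : Flag E) (i : ℕ) (μ : Multiset E) :
    BddBelow (val p V i μ '' {K | Adm p V i K}) :=
  ⟨0, by rintro _ ⟨K, hK, rfl⟩; exact val_nonneg hp hK μ⟩

lemma D_le {p : Par} (hp : p.Ok) {V : Flag E} {i : ℕ} {K : Set E} (h : Adm p V i K)
    (μ : Multiset E) : D p V i μ ≤ val p V i μ K := csInf_le (bdd hp V i μ) ⟨K, h, rfl⟩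

lemma exists_near {p : Par} (hp : p.Ok) (V : Flag E) (i : ℕ) (μ : Multiset E) {e : ℝ}
    (he : 0 < e) : ∃ K, Adm p V i K ∧ val p V i μ K < D p V i μ + e := by
  obtain ⟨_, ⟨K, hK, rfl⟩, h⟩ := exists_lt_of_csInf_lt
    (⟨_, V.cap p.rho i, adm_cap p hp V i, rfl⟩ : (val p V i μ '' {K | Adm p V i K}).Nonempty)
    (by have : D p V i μ < D p V i μ + e := by linarith
        exact this)
  exact ⟨K, hK, h⟩

lemma D_nonneg {p : Par} (hp : p.Ok) (V : Flag E) (i : ℕ) (μ : Multiset E) : 0 ≤ D p V i μ := by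
  refine le_csInf ⟨_, V.cap p.rho i, adm_cap p hp V i, rfl⟩ ?_
  rintro _ ⟨K, hK, rfl⟩
  exact val_nonneg hp hK μ

/-- comparison of two levels: every admissible body of `W` gives one of `V` with loss `c` -/
lemma D_le_of {p : Par} (hp : p.Ok) {V W : Flag E} {i j : ℕ} {μ ν : Multiset E} {c : ℝ}
    (h : ∀ K', Adm p W j K' → ∃ K, Adm p V i K ∧ val p V i μ K ≤ val p W j ν K' + c) :
    D p V i μ ≤ D p W j ν + c := by
  refine le_of_forall_pos_le_add fun e he => ?_
  obtain ⟨K', hK', h1⟩ := exists_near hp W j ν he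
  obtain ⟨K, hK, h2⟩ := h K' hK'
  have := D_le hp hK μ
  linarith

lemma Eh_mono {p : Par} {W : Flag E} {j : ℕ} {K K' : Set E} (h' : Adm p W j K')
    (hne : K.Nonempty) (hsub : K ⊆ K') (μ : Multiset E) : Eh K μ ≤ Eh K' μ := by
  unfold Eh
  exact Multiset.sum_map_le_sum_map _ _ fun z _ =>
    F6core696.hs_mono (adm_compact h') hne hsub z

end Crest.Agent.R239.Thin450
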