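import Crest.Agent.R239.ThinA_450

/-!
R239 (S0370), block F4 (second hand, helper450), part B: the demoted flag and
`dem_or_thin`, `P_THIN`, `Target_THIN`.
-/

set_option autoImplicit false
set_option linter.unusedSectionVars false
open MeasureTheory ProbabilityTheory Set
open scoped RealInnerProductSpace

namespace Crest.Agent.R239.Thin450

open Crest.Agent.R239 Crest.Agent.R239.FD Crest.Agent.R239.AdmHalf606

variable {E : Type*} [NormedAddCommGroup E] [InnerProductSpace ℝ E] [FiniteDimensional ℝ E]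
  [MeasurableSpace E] [BorelSpace E]

/-! ### block vectors -/

section blockvec

variable {V : Flag E} {i : ℕ} {w : E}

lemma mem_of_Q (hw : V.Q i w = w) : w ∈ V.M i := by
  rw [← hw]
  exact FlagAlg557.Q_mem (M := V.M) V.anti i w

lemma mem_orth_of_Q (hw : V.Q i w = w) : w ∈ (V.M (i + 1))ᗮ := by
  have h1 : (V.M (i + 1)).starProjection w = 0 := by
    have := FlagAlg557.P_Q_of_lt (M := V.M) V.anti (Nat.lt_succ_self i) w
    have h2 : FlagAlg557.Q V.M i w = w := hw
    rw [h2] at this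
    exact this
  exact (Submodule.starProjection_apply_eq_zero_iff _).1 h1

lemma lt_of_Q (hw1 : ‖w‖ = 1) (hw : V.Q i w = w) : i < V.n := by
  by_contra h
  have h1 := mem_of_Q hw
  rw [V.bot i (by omega)] at h1
  have h2 : w = 0 := (Submodule.mem_bot ℝ).1 h1
  rw [h2, norm_zero] at hw1
  exact zero_ne_one hw1

/-- `H_l w = th^(i-l) w` for `l ≤ i` -/
lemma H_w (hw1 : ‖w‖ = 1) (hw : V.Q i w = w) {l : ℕ} (hl : l ≤ i) :
    V.H l w = th ^ (i - l) • w := by
  have hin := lt_of_Q hw1 hw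
  have h := FlagAlg557.comb_Q (M := V.M) V.anti (i := l) (n := V.n) (j := i)
    (Finset.mem_Ico.2 ⟨hl, hin⟩) (fun j => th ^ (j - l)) w
  have h2 : FlagAlg557.Q V.M i w = w := hw
  rw [h2] at h
  exact h

lemma inner_H_left (V : Flag E) (l : ℕ) (x y : E) : ⟪V.H l x, y⟫ = ⟪x, V.H l y⟫ :=
  Mom764.inner_H_left th V.n l x y

lemma inner_w_H (hw1 : ‖w‖ = 1) (hw : V.Q i w = w) {l : ℕ} (hl : l ≤ i) (x : E) :
    ⟪w, V.H l x⟫ = th ^ (i - l) * ⟪w, x⟫ := by
  rw [← inner_H_left, H_w hw1 hw hl, real_inner_smul_left]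

end blockvec

/-! ### the demoted flag -/

/-- `M i` is replaced by `M i ⊖ w` -/
noncomputable def dem (V : Flag E) (i : ℕ) (w : E) (hw1 : ‖w‖ = 1) (hw : V.Q i w = w) : Flag E where
  n := V.n
  M := Dem853.demM V.M i w
  anti := Dem853.demM_anti V.anti (mem_orth_of_Q hw)
  bot := fun j hj => by
    rw [Dem853.demM_ne _ _ (by have := lt_of_Q hw1 hw; omega), V.bot j hj]

section dem

variable (V : Flag E) (i : ℕ) (w : E) (hw1 : ‖w‖ = 1) (hw : V.Q i w = w)

lemma dem_M_ne {j : ℕ} (h : j ≠ i) : (dem V i w hw1 hw).M j = V.M j := Dem853.demM_ne _ _ h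

lemma mem_dem_M {x : E} : x ∈ (dem V i w hw1 hw).M i ↔ x ∈ V.M i ∧ ⟪w, x⟫ = 0 := by
  have : (dem V i w hw1 hw).M i = Dem853.cutSub (V.M i) w := Dem853.demM_self _ _ _
  rw [this, Dem853.mem_cutSub]

lemma dem_Q_ne {j : ℕ} (h : j ≠ i) (h' : j + 1 ≠ i) : (dem V i w hw1 hw).Q j = V.Q j :=
  Dem853.blkP_dem_ne V.M w h h'

lemma dem_Q_self : (dem V i w hw1 hw).Q i = V.Q i - Dem853.rk1 w :=
  Dem853.blkP_dem_self (mem_of_Q hw) hw1

lemma dem_Q_pred {j : ℕ} (h : j + 1 = i) : (dem V i w hw1 hw).Q j = V.Q j + Dem853.rk1 w :=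
  Dem853.blkP_dem_pred h (mem_of_Q hw) hw1

lemma dem_H_gt {l : ℕ} (h : i < l) : (dem V i w hw1 hw).H l = V.H l :=
  Dem853.Hm_dem_gt th V.n V.M w h

lemma dem_H_self : (dem V i w hw1 hw).H i = V.H i - Dem853.rk1 w :=
  Dem853.Hm_dem_self (n := V.n) (M := V.M) (i := i) (w := w) th (lt_of_Q hw1 hw) (mem_of_Q hw) hw1

lemma dem_H_lt {l : ℕ} (h : l < i) :
    (dem V i w hw1 hw).H l = V.H l + (th ^ (i - 1 - l) - th ^ (i - l)) • Dem853.rk1 w :=
  Dem853.Hm_dem_lt (n := V.n) (M := V.M) (i := i) (l := l) (w := w) th (lt_of_Q hw1 hw) h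
    (mem_of_Q hw) hw1

lemma dem_k_ne {j : ℕ} (h : j ≠ i) (h' : j + 1 ≠ i) : (dem V i w hw1 hw).k j = V.k j :=
  Dem853.kd_dem_ne V.M w h h'

lemma dem_k_self : (dem V i w hw1 hw).k i + 1 = V.k i :=
  Dem853.kd_dem_self V.anti (mem_of_Q hw) (mem_orth_of_Q hw) hw1

lemma dem_k_pred {j : ℕ} (h : j + 1 = i) : (dem V i w hw1 hw).k j = V.k j + 1 :=
  Dem853.kd_dem_pred V.anti h (mem_of_Q hw) (mem_orth_of_Q hw) hw1

/-- above level `i` nothing changes -/
lemma dem_D_gt (p : Par) (μ : Multiset E) {l : ℕ} (h : i < l) :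
    D p (dem V i w hw1 hw) l μ = D p V l μ := by
  have hN : ∀ x, (dem V i w hw1 hw).N l x = V.N l x := by
    intro x
    unfold Flag.N
    refine Finset.sum_congr rfl fun j hj => ?_
    rw [Finset.mem_Ico] at hj
    rw [dem_Q_ne V i w hw1 hw (by omega) (by omega)]
  have hrr : (dem V i w hw1 hw).rr l = V.rr l := by
    unfold Flag.rr
    refine Finset.sum_congr rfl fun j hj => ?_
    rw [Finset.mem_Ico] at hj
    rw [dem_k_ne V i w hw1 hw (by omega) (by omega)]
  have hcap : (dem V i w hw1 hw).cap p.rho l = V.cap p.rho l := by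
    unfold Flag.cap
    ext x
    simp only [mem_ofPred_eq]
    rw [hN x, hrr, dem_M_ne V i w hw1 hw (by omega)]
  have hval : ∀ K, val p (dem V i w hw1 hw) l μ K = val p V l μ K := by
    intro K; unfold val; rw [dem_H_gt V i w hw1 hw h]
  have hadm : ∀ K, Adm p (dem V i w hw1 hw) l K ↔ Adm p V l K := by
    intro K; unfold Adm; rw [dem_H_gt V i w hw1 hw h, hcap]
  unfold D
  congr 1
  ext r
  simp only [mem_image, mem_ofPred_eq]
  constructor
  · rintro ⟨K, h1, h2⟩; exact ⟨K, (hadm K).1 h1, by rw [← hval K]; exact h2⟩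
  · rintro ⟨K, h1, h2⟩; exact ⟨K, (hadm K).2 h1, by rw [hval K]; exact h2⟩

lemma neg_log_cut {rho : ℝ} (h : 16 ≤ rho) : -Real.log (1 - 1 / rho ^ 2) ≤ 2 / rho ^ 2 := by
  have h1 : (256 : ℝ) ≤ rho ^ 2 := by nlinarith
  have h2 : 1 / rho ^ 2 ≤ 1 / 256 := one_div_le_one_div_of_le (by norm_num) h1
  have h3 : 0 < 1 / rho ^ 2 := by positivity
  have h4 : 0 < 1 - 1 / rho ^ 2 := by linarith
  have h5 : -Real.log (1 - 1 / rho ^ 2) = Real.log ((1 - 1 / rho ^ 2)⁻¹) := (Real.log_inv _).symm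
  rw [h5]
  have h6 := Real.log_le_sub_one_of_pos (inv_pos.2 h4)
  refine h6.trans ?_
  have h7 : (1 - 1 / rho ^ 2)⁻¹ - 1 = (1 / rho ^ 2) / (1 - 1 / rho ^ 2) := by
    rw [eq_div_iff h4.ne', sub_mul, inv_mul_cancel₀ h4.ne']; ring
  rw [h7, div_le_iff₀ h4]
  have h8 : 2 / rho ^ 2 = 2 * (1 / rho ^ 2) := by ring
  rw [h8]
  nlinarith

/-- a level `l < i` loses at most one cap cut -/
lemma dem_D_lt {p : Par} (hp : p.Ok) (μ : Multiset E) {l : ℕ} (h : l < i) :
    D p V l μ ≤ D p (dem V i w hw1 hw) l μ + p.lam l * (2 / p.rho ^ 2) := by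
  refine D_le_of hp fun K' hK' => ?_
  have hrho := hp.rho_ge
  have hsub : ∀ t, ‖(V.H l).adjoint t‖ ≤ ‖((dem V i w hw1 hw).H l).adjoint t‖ := by
    intro t
    have e1 : (V.H l).adjoint = V.H l := Mom764.adjoint_H th V.n l
    have e2 : ((dem V i w hw1 hw).H l).adjoint = (dem V i w hw1 hw).H l :=
      Mom764.adjoint_H th (dem V i w hw1 hw).n l
    rw [e1, e2, dem_H_lt V i w hw1 hw h]
    have hc : 0 ≤ th ^ (i - 1 - l) - th ^ (i - l) := by
      rw [sub_nonneg]
      exact pow_le_pow_of_le_one th_pos.le th_lt_one.le (by omega)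
    set c := th ^ (i - 1 - l) - th ^ (i - l) with hcdef
    have e3 : (V.H l + c • Dem853.rk1 w) t = V.H l t + (c * ⟪w, t⟫) • w := by
      simp [smul_smul]
    rw [e3]
    have e4 : ‖V.H l t + (c * ⟪w, t⟫) • w‖ ^ 2
        = ‖V.H l t‖ ^ 2 + 2 * (c * ⟪w, t⟫ * ⟪w, V.H l t⟫) + (c * ⟪w, t⟫) ^ 2 := by
      rw [norm_add_sq_real, real_inner_smul_right, real_inner_comm w (V.H l t), norm_smul, hw1,
        mul_one, Real.norm_eq_abs, sq_abs]
    have e5 := inner_w_H hw1 hw h.le t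
    rw [e5] at e4
    refine le_of_sq_le_sq ?_ (norm_nonneg _)
    rw [e4]
    have h6 : 0 ≤ th ^ (i - l) := pow_nonneg th_pos.le _
    have h7 : 0 ≤ c * ⟪w, t⟫ * (th ^ (i - l) * ⟪w, t⟫) := by
      have : c * ⟪w, t⟫ * (th ^ (i - l) * ⟪w, t⟫) = c * th ^ (i - l) * ⟪w, t⟫ ^ 2 := by ring
      rw [this]; positivity
    have h8 : 0 ≤ (c * ⟪w, t⟫) ^ 2 := sq_nonneg _
    linarith
  have h1 := AnSym853.gau_mono_symm hsub hK'.1 hK'.2.1 hK'.2.2.1
  have h1' : (gau ((dem V i w hw1 hw).H l)).real K' ≤ (gau (V.H l)).real K' :=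
    ENNReal.toReal_mono (measure_ne_top _ _) h1
  have h2 := cut_cap V l (by linarith : 0 < p.rho) hK'.1 hK'.2.1 hK'.2.2.1
  have h3 : 1 / p.rho ^ 2 ≤ 1 / 256 := one_div_le_one_div_of_le (by norm_num) (by nlinarith)
  have h4 : 0 < 1 - 1 / p.rho ^ 2 := by linarith
  have hpos' := hK'.2.2.2.2
  have h5 : (1 - 1 / p.rho ^ 2) * (gau ((dem V i w hw1 hw).H l)).real K'
      ≤ (gau (V.H l)).real (K' ∩ V.cap p.rho l) :=
    (mul_le_mul_of_nonneg_left h1' h4.le).trans h2
  have h6 : 0 < (gau (V.H l)).real (K' ∩ V.cap p.rho l) := lt_of_lt_of_le (mul_pos h4 hpos') h5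
  have hadm : Adm p V l (K' ∩ V.cap p.rho l) :=
    ⟨hK'.1.inter (cap_closed V l _), hK'.2.1.inter (cap_convex V l _),
      fun x hx => ⟨hK'.2.2.1 x hx.1, cap_neg V l _ hx.2⟩, inter_subset_right, h6⟩
  refine ⟨_, hadm, ?_⟩
  unfold val
  have h7 := Eh_mono hK' (adm_nonempty hadm) inter_subset_left μ
  have h8 := Real.log_le_log (mul_pos h4 hpos') h5
  rw [Real.log_mul h4.ne' hpos'.ne'] at h8
  have h9 := neg_log_cut hrho
  have h10 := lam_pos hp l
  have h11 : p.lam l * -Real.log ((gau (V.H l)).real (K' ∩ V.cap p.rho l))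
      ≤ p.lam l * (-Real.log ((gau ((dem V i w hw1 hw).H l)).real K') + 2 / p.rho ^ 2) :=
    mul_le_mul_of_nonneg_left (by linarith) h10.le
  nlinarith

lemma dem_rr_self : (dem V i w hw1 hw).rr i = V.rr i - 1 := by
  have hin := lt_of_Q hw1 hw
  have h1 : V.rr i = (V.k i : ℝ) + ∑ j ∈ Finset.Ico (i + 1) V.n, th ^ (j - i) * (V.k j : ℝ) := by
    unfold Flag.rr; rw [Finset.sum_eq_sum_Ico_succ_bot hin]; simp
  have h2 : (dem V i w hw1 hw).rr i
      = ((dem V i w hw1 hw).k i : ℝ) + ∑ j ∈ Finset.Ico (i + 1) V.n, th ^ (j - i) * (V.k j : ℝ) := by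
    unfold Flag.rr
    rw [Finset.sum_eq_sum_Ico_succ_bot (show i < (dem V i w hw1 hw).n from hin)]
    simp only [Nat.sub_self, pow_zero, one_mul]
    congr 1
    refine Finset.sum_congr rfl fun j hj => ?_
    rw [Finset.mem_Ico] at hj
    rw [dem_k_ne V i w hw1 hw (by omega) (by omega)]
  have h3 : ((dem V i w hw1 hw).k i : ℝ) + 1 = V.k i := by
    exact_mod_cast dem_k_self V i w hw1 hw
  rw [h1, h2]; linarith

lemma dem_N_self {x : E} (hx : ⟪w, x⟫ = 0) : (dem V i w hw1 hw).N i x = V.N i x := by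
  have hin := lt_of_Q hw1 hw
  unfold Flag.N
  refine Finset.sum_congr rfl fun j hj => ?_
  rw [Finset.mem_Ico] at hj
  rcases eq_or_ne j i with rfl | h
  · rw [dem_Q_self V j w hw1 hw]
    have : (V.Q j - Dem853.rk1 w) x = V.Q j x := by simp [hx]
    rw [this]
  · rw [dem_Q_ne V i w hw1 hw h (by omega)]

/-- bodies of the demoted flag at level `i` are admissible-shaped for `V` -/
lemma dem_cap_subset (rho : ℝ) : (dem V i w hw1 hw).cap rho i ⊆ V.cap rho i := by
  rintro x ⟨hx1, hx2⟩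
  rw [mem_dem_M] at hx1
  refine ⟨hx1.1, ?_⟩
  rw [dem_N_self V i w hw1 hw hx1.2, dem_rr_self] at hx2
  nlinarith [sq_nonneg rho]

/-- the level `i`: either the near-optimal body is thin in direction `w`, or `D` drops little -/
lemma dem_D_self {p : Par} (hp : p.Ok) {dl c' : ℝ} (hben : P_BEN E dl c') (μ : Multiset E)
    {K : Set E} {sl : ℝ} (hK : NearOpt p V i μ K sl)
    (hthick : ¬ (∫ x in K, ⟪w, x⟫ ^ 2 ∂(gau (V.H i))) ≤ (1 - c') * (gau (V.H i)).real K) :
    D p V i μ ≤ D p (dem V i w hw1 hw) i μ + (sl + 2 * (p.lam i * dl)) := by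
  refine le_of_forall_pos_le_add fun e he => ?_
  obtain ⟨K', hK', hval'⟩ := exists_near hp (dem V i w hw1 hw) i μ he
  obtain ⟨hKa, hKv⟩ := hK
  have hin := lt_of_Q hw1 hw
  set W := dem V i w hw1 hw with hW
  have hHw : V.H i w = w := by
    have := H_w hw1 hw (le_refl i); simpa using this
  have hWH : ∀ y : E, W.H i y = V.H i y - ⟪w, y⟫ • w := by
    intro y
    rw [hW, dem_H_self V i w hw1 hw]
    simp
  have hwH : ∀ y : E, ⟪w, V.H i y⟫ = ⟪w, y⟫ := by
    intro y; have := inner_w_H hw1 hw (le_refl i) y; simpa using this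
  -- the half sum
  set C := half K K' with hC
  have cKc := adm_compact hKa
  have cKc' := adm_compact hK'
  have hCcomp : IsCompact C := F6core696.mix_compact cKc cKc'
  have hCsub : C ⊆ V.cap p.rho i :=
    F6core696.mix_subset (by norm_num) (by norm_num) (cap_convex V i p.rho) hKa.2.2.2.1
      (hK'.2.2.2.1.trans (dem_cap_subset V i w hw1 hw p.rho))
  -- benefit lemma in g-space
  have hb := hben w hw1 (V.H i ⁻¹' K) (W.H i ⁻¹' K') (V.H i ⁻¹' C)
    (hKa.1.preimage (V.H i).continuous) (Dom640.pre_conv _ hKa.2.1) (Dom640.pre_symm _ hKa.2.2.1)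
    (hK'.1.preimage (W.H i).continuous) (Dom640.pre_conv _ hK'.2.1)
    (Dom640.pre_symm _ hK'.2.2.1) (hCcomp.isClosed.preimage (V.H i).continuous)
    (by
      intro x
      simp only [mem_preimage]
      have : W.H i (x - ⟪w, x⟫ • w) = W.H i x := by
        rw [hWH, hWH, map_sub, map_smul, hHw, inner_sub_right, real_inner_smul_right,
          real_inner_self_eq_norm_sq, hw1]
        simp
      rw [this])
    (by
      intro x hx y hy hwy
      simp only [mem_preimage] at hx hy ⊢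
      rw [hWH, hwy, zero_smul, sub_zero] at hy
      rw [hC, mem_half]
      exact ⟨_, hx, _, hy, by rw [map_add, map_smul, map_smul]⟩)
  have hKm := hKa.1.measurableSet
  have hb2 : Real.exp (-dl) * √((gau (V.H i)).real K * (gau (W.H i)).real K')
      ≤ (gau (V.H i)).real C := by
    rcases hb with hb | hb
    · exfalso
      apply hthick
      have e1 : (∫ x in K, ⟪w, x⟫ ^ 2 ∂(gau (V.H i)))
          = ∫ g in V.H i ⁻¹' K, ⟪w, g⟫ ^ 2 ∂(stdGaussian E) := by
        unfold gau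
        rw [setIntegral_map hKm (by fun_prop) (V.H i).continuous.aemeasurable]
        simp only [hwH]
      rw [e1, gau_real_apply _ hKm]
      exact hb
    · rw [gau_real_apply _ hKm, gau_real_apply _ hK'.1.measurableSet,
        gau_real_apply _ hCcomp.isClosed.measurableSet]
      exact hb
  have hp1 := hKa.2.2.2.2
  have hp2 := hK'.2.2.2.2
  have hpC : 0 < (gau (V.H i)).real C :=
    lt_of_lt_of_le (mul_pos (Real.exp_pos _) (Real.sqrt_pos.2 (mul_pos hp1 hp2))) hb2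
  have hCadm : Adm p V i C :=
    ⟨hCcomp.isClosed, F6core696.mix_convex hKa.2.1 hK'.2.1,
      F6core696.mix_neg hKa.2.2.1 hK'.2.2.1, hCsub, hpC⟩
  have h1 := D_le hp hCadm μ
  have hlog := Real.log_le_log (mul_pos (Real.exp_pos _) (Real.sqrt_pos.2 (mul_pos hp1 hp2))) hb2
  rw [Real.log_mul (Real.exp_pos _).ne' (Real.sqrt_pos.2 (mul_pos hp1 hp2)).ne', Real.log_exp,
    Real.log_sqrt (mul_pos hp1 hp2).le, Real.log_mul hp1.ne' hp2.ne'] at hlog
  have hEh : Eh C μ = (Eh K μ + Eh K' μ) / 2 := by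
    have h := F6core696.Eh_mix (a := 1 / 2) (by norm_num) (by norm_num) cKc cKc'
      (adm_nonempty hKa) (adm_nonempty hK') μ
    have h' : Eh C μ = (1 - 1 / 2) * Eh K μ + 1 / 2 * Eh K' μ := h
    rw [h']; ring
  unfold val at h1 hKv hval'
  rw [hEh] at h1
  have hl := lam_pos hp i
  have h2 : p.lam i * (-dl + (Real.log ((gau (V.H i)).real K) + Real.log ((gau (W.H i)).real K')) / 2)
      ≤ p.lam i * Real.log ((gau (V.H i)).real C) := mul_le_mul_of_nonneg_left hlog hl.le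
  nlinarith

/-- the penalty -/
lemma dem_penalty (hi : 1 ≤ i) (a : ℕ → ℝ) :
    ∑ j ∈ Finset.range V.n, a j * ((dem V i w hw1 hw).k j : ℝ)
      = ∑ j ∈ Finset.range V.n, a j * (V.k j : ℝ) + a (i - 1) - a i := by
  have hin := lt_of_Q hw1 hw
  obtain ⟨m, rfl⟩ : ∃ m, i = m + 1 := ⟨i - 1, by omega⟩
  have hterm : ∀ j ∈ Finset.range V.n, a j * ((dem V (m + 1) w hw1 hw).k j : ℝ)
      = a j * (V.k j : ℝ) + ((if j = m then a m else 0) - (if j = m + 1 then a (m + 1) else 0)) := by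
    intro j _
    by_cases h1 : j = m
    · subst h1
      rw [dem_k_pred V (j + 1) w hw1 hw rfl]
      simp; ring
    · by_cases h2 : j = m + 1
      · subst h2
        have h3 : ((dem V (m + 1) w hw1 hw).k (m + 1) : ℝ) + 1 = V.k (m + 1) := by
          exact_mod_cast dem_k_self V (m + 1) w hw1 hw
        rw [← h3]
        simp; ring
      · rw [dem_k_ne V (m + 1) w hw1 hw h2 (by omega)]
        simp [h1, h2]
  rw [Finset.sum_congr rfl hterm, Finset.sum_add_distrib, Finset.sum_sub_distrib,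
    Finset.sum_ite_eq', Finset.sum_ite_eq', if_pos (Finset.mem_range.2 (by omega)),
    if_pos (Finset.mem_range.2 hin)]
  simp only [Nat.add_sub_cancel]
  ring

end dem

/-- geometric sum of the levels below `i` -/
lemma sum_lam_lt {p : Par} (hp : p.Ok) (i : ℕ) :
    ∑ l ∈ Finset.range i, p.lam l ≤ (1 / 15) * p.lam i := by
  induction i with
  | zero => simp; exact (lam_pos hp 0).le
  | succ i ih =>
    rw [Finset.sum_range_succ, lam_succ]
    have h1 := hp.A_ge
    have h2 := lam_pos hp i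
    nlinarith

/-- **DEM**: every flag, level `i ≥ 1`: near-optimal bodies are thin in the block directions, or a
demoted flag is better by `kap lam_i / 2`. -/
theorem dem_or_thin {p : Par} (hp : p.Ok) {dl c' : ℝ} (hdl : 0 ≤ dl) (hdlk : 12 * dl ≤ p.kap)
    (hben : P_BEN E dl c') (W : Flag E) (μ : Multiset E) {i : ℕ} (hi : 1 ≤ i) {K : Set E}
    (hK : NearOpt p W i μ K (dl * p.lam i)) {w : E} (hw1 : ‖w‖ = 1) (hw : W.Q i w = w) :
    (∫ x in K, ⟪w, x⟫ ^ 2 ∂(gau (W.H i))) ≤ (1 - c') * (gau (W.H i)).real K ∨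
      J p W μ + p.kap / 2 * p.lam i ≤ J p (dem W i w hw1 hw) μ := by
  by_cases hthin : (∫ x in K, ⟪w, x⟫ ^ 2 ∂(gau (W.H i))) ≤ (1 - c') * (gau (W.H i)).real K
  · exact Or.inl hthin
  right
  have hin := lt_of_Q hw1 hw
  have hself := dem_D_self W i w hw1 hw hp hben μ hK hthin
  have hlam := lam_pos hp i
  -- sum of the D's
  have hD : ∑ l ∈ Finset.range W.n, D p W l μ ≤ ∑ l ∈ Finset.range W.n, D p (dem W i w hw1 hw) l μ
      + (3 * (dl * p.lam i) + 2 / p.rho ^ 2 * ∑ l ∈ Finset.range i, p.lam l) := by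
    have hterm : ∀ l ∈ Finset.range W.n, D p W l μ ≤ D p (dem W i w hw1 hw) l μ
        + ((if l = i then 3 * (dl * p.lam i) else 0)
          + (if l ∈ Finset.range i then 2 / p.rho ^ 2 * p.lam l else 0)) := by
      intro l _
      rcases lt_trichotomy l i with h | h | h
      · have := dem_D_lt W i w hw1 hw hp μ h
        rw [if_neg (by omega), if_pos (Finset.mem_range.2 h)]
        linarith
      · subst h
        rw [if_pos rfl, if_neg (by simp)]
        linarith
      · rw [if_neg (by omega), if_neg (by simp; omega), dem_D_gt W i w hw1 hw p μ h]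
        simp
    refine (Finset.sum_le_sum hterm).trans (le_of_eq ?_)
    rw [Finset.sum_add_distrib, Finset.sum_add_distrib, Finset.sum_ite_eq',
      if_pos (Finset.mem_range.2 hin), ← Finset.sum_filter, Finset.mul_sum]
    congr 2
    refine Finset.sum_congr ?_ fun _ _ => rfl
    ext l
    simp only [Finset.mem_filter, Finset.mem_range]
    omega
  have hpen := dem_penalty W i w hw1 hw hi (fun j => p.kap * p.lam j)
  have hJ : J p W μ = ∑ l ∈ Finset.range W.n, D p W l μ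
      - ∑ j ∈ Finset.range W.n, p.kap * p.lam j * (W.k j : ℝ) := by
    unfold J; rw [Finset.sum_sub_distrib]
  have hJ' : J p (dem W i w hw1 hw) μ = ∑ l ∈ Finset.range W.n, D p (dem W i w hw1 hw) l μ
      - ∑ j ∈ Finset.range W.n, p.kap * p.lam j * ((dem W i w hw1 hw).k j : ℝ) := by
    have : J p (dem W i w hw1 hw) μ
      = ∑ l ∈ Finset.range W.n, (D p (dem W i w hw1 hw) l μ
        - p.kap * p.lam l * ((dem W i w hw1 hw).k l : ℝ)) := rfl
    rw [this, Finset.sum_sub_distrib]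
  rw [hJ, hJ', hpen]
  have hlow := sum_lam_lt hp i
  have hkap := hp.kap_pos
  have hrho : 2 / p.rho ^ 2 ≤ p.kap / 8 := by
    have h1 := hp.kap_rho
    have h2 := hp.rho_ge
    have h3 : 0 < p.rho ^ 2 := by positivity
    rw [div_le_iff₀ h3]
    linarith
  have hrho0 : 0 ≤ 2 / p.rho ^ 2 := by positivity
  have hpred : p.lam i = p.A * p.lam (i - 1) := by
    obtain ⟨m, rfl⟩ : ∃ m, i = m + 1 := ⟨i - 1, by omega⟩
    rw [lam_succ]; simp
  have hA := hp.A_ge
  have hlp := lam_pos hp (i - 1)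
  have hpred2 : p.lam (i - 1) ≤ p.lam i / 16 := by
    rw [hpred]; nlinarith
  have h1 : 2 / p.rho ^ 2 * ∑ l ∈ Finset.range i, p.lam l ≤ p.kap / 8 * (1 / 15 * p.lam i) :=
    mul_le_mul hrho hlow (Finset.sum_nonneg fun l _ => (lam_pos hp l).le) (by positivity)
  have h2 : 3 * (dl * p.lam i) ≤ p.kap / 4 * p.lam i := by nlinarith
  have h3 : p.kap * p.lam (i - 1) ≤ p.kap * (p.lam i / 16) :=
    mul_le_mul_of_nonneg_left hpred2 hkap.le
  nlinarith

/-- **F4** -/
theorem target_THIN_of_BEN (hB : Target_BEN) : Target_THIN := by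
  intro kap hk _
  obtain ⟨c', h0, h1, hben⟩ := hB (kap / 12) (by positivity)
  refine ⟨c', kap / 12, 0, h0, h1, by positivity, fun d p hp hpk _ => ?_⟩
  intro V μ i hi hmax K hK w hw1 hw
  rcases dem_or_thin hp (by positivity) (by rw [hpk]; linarith) (hben d) V μ hi hK hw1 hw with h | h
  · exact h
  · exfalso
    have h2 := hmax (dem V i w hw1 hw)
    have h3 := lam_pos hp i
    rw [hpk] at h
    nlinarith

/-- **Target_THIN** -/
theorem target_THIN : Target_THIN := target_THIN_of_BEN Ben949.target_BEN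

end Crest.Agent.R239.Thin450
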