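import Crest.Agent.R239.Thin_597
import Crest.Agent.R239.BenT_331

/-! R239 (S0370), helper597: `Target_THIN`, unconditional. -/

namespace Crest.Agent.R239.ThinT597

theorem target_THIN : FD.Target_THIN := Thin597.target_THIN Ben331.target_BEN

end Crest.Agent.R239.ThinT597
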