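import Crest.Agent.R239.Dem3_853
import Crest.Agent.R239.BenT_331

/-! R239, block F4 (helper853): THIN.  `dem_or_thin` for an arbitrary flag and `target_THIN`. -/

set_option autoImplicit false
set_option linter.unusedSectionVars false
open MeasureTheory ProbabilityTheory Set Filter Topology Metric Module
open scoped RealInnerProductSpace ENNReal NNReal InnerProduct Pointwise

namespace Crest.Agent.R239.Dem853

open Crest.Agent.R239 Crest.Agent.R239.FD

variable {E : Type*} [NormedAddCommGroup E] [InnerProductSpace ℝ E] [FiniteDimensional ℝ E]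
  [MeasurableSpace E] [BorelSpace E]

/-- half sum of two bodies -/
def half (K L : Set E) : Set E := (fun q : E × E => (1/2:ℝ) • q.1 + (1/2:ℝ) • q.2) '' (K ×ˢ L)

lemma half_compact {K L : Set E} (hK : IsCompact K) (hL : IsCompact L) : IsCompact (half K L) :=
  (hK.prod hL).image (by fun_prop)

lemma mem_half {K L : Set E} {x y : E} (hx : x ∈ K) (hy : y ∈ L) :
    (1/2:ℝ) • x + (1/2:ℝ) • y ∈ half K L := ⟨(x, y), ⟨hx, hy⟩, rfl⟩

lemma half_convex {K L : Set E} (hK : Convex ℝ K) (hL : Convex ℝ L) : Convex ℝ (half K L) := by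
  rintro _ ⟨⟨x, y⟩, ⟨hx, hy⟩, rfl⟩ _ ⟨⟨x', y'⟩, ⟨hx', hy'⟩, rfl⟩ a b ha hb hab
  refine ⟨(a • x + b • x', a • y + b • y'), ⟨hK hx hx' ha hb hab, hL hy hy' ha hb hab⟩, ?_⟩
  simp only [smul_add, smul_smul]
  rw [mul_comm a, mul_comm b]
  abel

lemma half_neg {K L : Set E} (hK : ∀ x ∈ K, -x ∈ K) (hL : ∀ x ∈ L, -x ∈ L) :
    ∀ x ∈ half K L, -x ∈ half K L := by
  rintro _ ⟨⟨x, y⟩, ⟨hx, hy⟩, rfl⟩
  refine ⟨(-x, -y), ⟨hK x hx, hL y hy⟩, ?_⟩
  simp only [smul_neg]
  abel

lemma half_subset {K L C : Set E} (hC : Convex ℝ C) (hK : K ⊆ C) (hL : L ⊆ C) : half K L ⊆ C := by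
  rintro _ ⟨⟨x, y⟩, ⟨hx, hy⟩, rfl⟩
  exact hC (hK hx) (hL hy) (by norm_num) (by norm_num) (by norm_num)

lemma compact_of_cap {V : Flag E} {rho : ℝ} {i : ℕ} {K : Set E} (hK : IsClosed K)
    (h : K ⊆ V.cap rho i) : IsCompact K := by
  refine (isCompact_closedBall (0:E) (|rho| * √(V.rr i))).of_isClosed_subset hK fun x hx => ?_
  rw [mem_closedBall, dist_zero_right]
  exact cap_bounded V rho i (h hx)

lemma hs_half {V : Flag E} {rho : ℝ} {i : ℕ} {K L : Set E} (hK : K ⊆ V.cap rho i)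
    (hL : L ⊆ V.cap rho i) (hKn : K.Nonempty) (hLn : L.Nonempty) (z : E) :
    hs (half K L) z ≤ 1/2 * hs K z + 1/2 * hs L z := by
  unfold hs
  apply csSup_le
  · obtain ⟨x, hx⟩ := hKn
    obtain ⟨y, hy⟩ := hLn
    exact ⟨_, ⟨_, mem_half hx hy, rfl⟩⟩
  · rintro _ ⟨_, ⟨⟨x, y⟩, ⟨hx, hy⟩, rfl⟩, rfl⟩
    simp only [inner_add_left, inner_smul_left, conj_trivial]
    have h1 : ⟪x, z⟫ ≤ sSup ((fun x : E => ⟪x, z⟫) '' K) :=
      le_csSup (bddAbove_of_cap hK z) ⟨x, hx, rfl⟩
    have h2 : ⟪y, z⟫ ≤ sSup ((fun x : E => ⟪x, z⟫) '' L) :=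
      le_csSup (bddAbove_of_cap hL z) ⟨y, hy, rfl⟩
    linarith

lemma Eh_half {V : Flag E} {rho : ℝ} {i : ℕ} {K L : Set E} (hK : K ⊆ V.cap rho i)
    (hL : L ⊆ V.cap rho i) (hKn : K.Nonempty) (hLn : L.Nonempty) (μ : Multiset E) :
    Eh (half K L) μ ≤ 1/2 * Eh K μ + 1/2 * Eh L μ := by
  unfold Eh
  rw [← Multiset.sum_map_mul_left, ← Multiset.sum_map_mul_left, ← Multiset.sum_map_add]
  exact Multiset.sum_map_le_sum_map _ _ fun z _ => hs_half hK hL hKn hLn z

/-- **(DEMB)** thin or removable, arbitrary flag. -/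
theorem dem_or_thin {p : Par} (hp : p.Ok) {dl c' sl : ℝ} (hB : P_BEN E dl c')
    (hsl : 0 < sl) (hdl : 2 * (sl + dl) ≤ 3 / 8 * p.kap) (V : Flag E) (μ : Multiset E) (i : ℕ)
    (hi : 1 ≤ i) {K : Set E} (hK : NearOpt p V i μ K (sl * p.lam i)) {w : E} (hn : ‖w‖ = 1)
    (hQ : V.Q i w = w) :
    (∫ x in K, ⟪w, x⟫ ^ 2 ∂(gau (V.H i))) ≤ (1 - c') * (gau (V.H i)).real K ∨
      ∃ W : Flag E, J p V μ + p.kap / 2 * p.lam i ≤ J p W μ := by
  have hlam := lam_pos hp i
  obtain ⟨hw, hw'⟩ := mem_of_Q hQ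
  obtain ⟨W, hWH, hWcap, hWorth, hWJ⟩ := exists_dem hp V i hi w hn hQ
  obtain ⟨L, hL⟩ := exists_near hp W i μ (mul_pos hsl hlam)
  obtain ⟨⟨cK, vK, sK, capK, posK⟩, nK⟩ := hK
  obtain ⟨⟨cL, vL, sL, capL, posL⟩, nL⟩ := hL
  have neK : K.Nonempty := adm_nonempty (p := p) (V := V) (i := i) ⟨cK, vK, sK, capK, posK⟩
  have neL : L.Nonempty := adm_nonempty (p := p) (V := W) (i := i) ⟨cL, vL, sL, capL, posL⟩
  have capL' : L ⊆ V.cap p.rho i := capL.trans hWcap
  set C : Set E := half K L with hC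
  have kC : IsCompact C := half_compact (compact_of_cap cK capK) (compact_of_cap cL capL')
  have cC : IsClosed C := kC.isClosed
  have hben := hB w hn (V.H i ⁻¹' K) (W.H i ⁻¹' L) (V.H i ⁻¹' C)
    (cK.preimage (V.H i).continuous) (vK.is_linear_preimage (V.H i).toLinearMap.isLinear)
    (fun x hx => by change V.H i (-x) ∈ K; rw [map_neg]; exact sK _ hx)
    (cL.preimage (W.H i).continuous) (vL.is_linear_preimage (W.H i).toLinearMap.isLinear)
    (fun x hx => by change W.H i (-x) ∈ L; rw [map_neg]; exact sL _ hx)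
    (cC.preimage (V.H i).continuous)
    (fun x => by
      change W.H i x ∈ L ↔ W.H i (x - ⟪w, x⟫ • w) ∈ L
      rw [hWH, hWH (x - ⟪w, x⟫ • w), inner_sub_right, inner_smul_right,
        real_inner_self_eq_norm_sq, hn]
      simp)
    (fun x hx y hy hwy => by
      change V.H i ((1/2:ℝ) • x + (1/2:ℝ) • y) ∈ C
      have hy' : W.H i y ∈ L := hy
      rw [hWH, hwy, zero_smul, sub_zero] at hy'
      rw [map_add, map_smul, map_smul]
      exact mem_half hx hy')
  rcases hben with h | h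
  · left
    have e1 : ∫ x in K, ⟪w, x⟫ ^ 2 ∂(gau (V.H i)) = ∫ g in V.H i ⁻¹' K, ⟪w, g⟫ ^ 2 ∂(stdGaussian E) := by
      unfold gau
      rw [setIntegral_map cK.measurableSet (by fun_prop) (V.H i).continuous.aemeasurable]
      refine integral_congr_ae (Eventually.of_forall fun g => ?_)
      have : ⟪w, V.H i g⟫ = ⟪w, g⟫ := by
        rw [H_eq, ← inner_Hm_left, ← H_eq, H_dir_self V hw' hw hn]
      simp only [this]
    rw [e1, gau_real_apply _ cK.measurableSet]
    exact h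
  · right
    refine ⟨W, ?_⟩
    have hpos : 0 < √((gau (V.H i)).real K * (gau (W.H i)).real L) := by positivity
    rw [← gau_real_apply _ cK.measurableSet, ← gau_real_apply _ cL.measurableSet,
      ← gau_real_apply _ cC.measurableSet] at h
    have hposC : 0 < (gau (V.H i)).real C := lt_of_lt_of_le (mul_pos (Real.exp_pos _) hpos) h
    have admC : Adm p V i C := ⟨cC, half_convex vK vL, half_neg sK sL,
      half_subset (convex_cap V _ i) capK capL', hposC⟩
    have h1 := D_le hp μ admC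
    have h2 := Eh_half capK capL' neK neL μ
    have h3 : -dl + 1/2 * (Real.log ((gau (V.H i)).real K) + Real.log ((gau (W.H i)).real L))
        ≤ Real.log ((gau (V.H i)).real C) := by
      have h4 := Real.log_le_log (mul_pos (Real.exp_pos _) hpos) h
      rw [Real.log_mul (Real.exp_pos _).ne' hpos.ne', Real.log_exp, Real.log_sqrt (by positivity),
        Real.log_mul posK.ne' posL.ne'] at h4
      linarith
    have h5 := mul_le_mul_of_nonneg_left h3 hlam.le
    have h6 := hWJ μ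
    have h7 : D p V i μ ≤ D p W i μ + 2 * (sl + dl) * p.lam i := by
      unfold val at h1 nK nL
      rw [← hC] at h2
      nlinarith
    have h8 : 2 * (sl + dl) * p.lam i ≤ 3 / 8 * p.kap * p.lam i :=
      mul_le_mul_of_nonneg_right hdl hlam.le
    nlinarith

/-- **THIN** -/
theorem target_THIN : Target_THIN := by
  intro kap hk0 hk1
  obtain ⟨c', hc0, hc1, hB⟩ := Ben331.target_BEN (kap / 16) (by positivity)
  refine ⟨c', kap / 16, 16, hc0, hc1, by positivity, ?_⟩
  intro d p hp hpk _ V μ i hi hmax K hK w hn hQ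
  rcases dem_or_thin hp (hB d) (by positivity : 0 < kap / 16) (by rw [hpk]; linarith) V μ i hi hK
    hn hQ with h | ⟨W, hW⟩
  · exact h
  · exfalso
    have h1 := hmax W
    have hlam := lam_pos hp i
    rw [hpk] at hW
    nlinarith [mul_pos hk0 hlam]

end Crest.Agent.R239.Dem853
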