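import Crest.Agent.R239.InsCut_488
import Crest.Agent.R239.AnSym_853
import Crest.Agent.R239.DemLin_853
import Crest.Agent.R239.AdmHalf_606
import Crest.Agent.R239.BenT_331
import Crest.Agent.R239.F6b_696

/-! R239 (helper230): `Target_THIN` in one hand: the demoted flag, the levels below, the half sum. -/

set_option autoImplicit false
set_option linter.unusedSectionVars false
open MeasureTheory ProbabilityTheory Set
open scoped RealInnerProductSpace InnerProduct

namespace Crest.Agent.R239.Thin230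

open Crest.Agent.R239 Crest.Agent.R239.FD Crest.Agent.R239.AdmHalf606

variable {E : Type*} [NormedAddCommGroup E] [InnerProductSpace ℝ E] [FiniteDimensional ℝ E]
  [MeasurableSpace E] [BorelSpace E]

/-! ### basics -/

lemma k_cast (V : Flag E) (j : ℕ) :
    (V.k j : ℝ) = (Module.finrank ℝ (V.M j) : ℝ) - (Module.finrank ℝ (V.M (j + 1)) : ℝ) := by
  unfold Flag.k
  rw [Nat.cast_sub (Submodule.finrank_mono (V.anti (Nat.le_succ j)))]

lemma capcut (V : Flag E) (i : ℕ) {rho : ℝ} (hrho : 0 < rho) {K : Set E} (hK : IsClosed K)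
    (cK : Convex ℝ K) (sK : ∀ x ∈ K, -x ∈ K) :
    (1 - 1 / rho ^ 2) * (gau (V.H i)).real K ≤ (gau (V.H i)).real (K ∩ V.cap rho i) := by
  have h := Ins488.cut_ell (M := V.M) V.anti th_pos hrho V.n i cK hK.measurableSet sK
  rw [gau_real_apply _ hK.measurableSet,
    gau_real_apply _ (hK.inter (cap_closed V i rho)).measurableSet]
  have e : (V.H i) ⁻¹' (K ∩ V.cap rho i) = {g | Ins556.Hc V.M th V.n i g ∈ K ∧
        ∑ j ∈ Finset.Ico i V.n, (th⁻¹) ^ (j - i) * ‖Ins556.Qp V.M j (Ins556.Hc V.M th V.n i g)‖ ^ 2 ≤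
          rho ^ 2 * ∑ j ∈ Finset.Ico i V.n, th ^ (j - i) *
            ((Module.finrank ℝ ↥(V.M j) : ℝ) - (Module.finrank ℝ ↥(V.M (j + 1)) : ℝ))} := by
    ext g
    have hr : V.rr i = ∑ j ∈ Finset.Ico i V.n, th ^ (j - i) *
            ((Module.finrank ℝ ↥(V.M j) : ℝ) - (Module.finrank ℝ ↥(V.M (j + 1)) : ℝ)) := by
      unfold Flag.rr
      refine Finset.sum_congr rfl fun j _ => ?_
      rw [k_cast]
    constructor
    · rintro ⟨h1, h2, h3⟩
      refine ⟨h1, ?_⟩
      rw [← hr]
      exact h3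
    · rintro ⟨h1, h3⟩
      refine ⟨h1, H_mem V i g, ?_⟩
      rw [hr]
      exact h3
  rw [e]
  exact h

lemma rho_facts {p : Par} (hp : p.Ok) : 0 < p.rho ∧ 0 < 1 - 1 / p.rho ^ 2 ∧
    -Real.log (1 - 1 / p.rho ^ 2) ≤ 2 / p.rho ^ 2 := by
  have h16 := hp.rho_ge
  have h0 : 0 < p.rho := by linarith
  have h1 : 1 / p.rho ^ 2 ≤ 1 / 256 := by
    apply one_div_le_one_div_of_le (by norm_num)
    nlinarith
  have h1' : 0 < 1 / p.rho ^ 2 := by positivity
  refine ⟨h0, by linarith, ?_⟩
  have hx : 0 < 1 - 1 / p.rho ^ 2 := by linarith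
  have h2 := Real.one_sub_inv_le_log_of_pos hx
  have h3 : (1 - 1 / p.rho ^ 2)⁻¹ - 1 ≤ 2 * (1 / p.rho ^ 2) := by
    rw [inv_eq_one_div, sub_le_iff_le_add, div_le_iff₀ hx]
    nlinarith
  have h4 : 2 / p.rho ^ 2 = 2 * (1 / p.rho ^ 2) := by ring
  rw [h4]
  linarith

lemma lam_pos {p : Par} (hp : p.Ok) (i : ℕ) : 0 < p.lam i := by
  unfold Par.lam
  have := hp.tau_pos
  have := hp.A_ge
  have : 0 < p.A := by linarith
  positivity

lemma lam_succ (p : Par) (i : ℕ) : p.lam (i + 1) = p.A * p.lam i := by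
  unfold Par.lam; rw [pow_succ]; ring

/-- `15 Σ_{l<i} lam l ≤ lam i` -/
lemma sum_lam {p : Par} (hp : p.Ok) (i : ℕ) :
    15 * ∑ l ∈ Finset.range i, p.lam l ≤ p.lam i := by
  induction i with
  | zero => simpa using (lam_pos hp 0).le
  | succ i ih =>
    rw [Finset.sum_range_succ, lam_succ]
    have h1 := lam_pos hp i
    have h2 := hp.A_ge
    nlinarith

lemma cap_adm {p : Par} (hp : p.Ok) (V : Flag E) (i : ℕ) : Adm p V i (V.cap p.rho i) := by
  obtain ⟨h0, h1, _⟩ := rho_facts hp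
  refine ⟨cap_closed V i p.rho, cap_convex V i p.rho, fun x hx => cap_neg V i p.rho hx,
    subset_rfl, ?_⟩
  have h := capcut V i h0 (K := univ) isClosed_univ convex_univ (fun x _ => mem_univ _)
  have h2 : (gau (V.H i)).real (univ : Set E) = 1 := by simp
  rw [h2, mul_one, univ_inter] at h
  linarith

lemma D_nonempty {p : Par} (hp : p.Ok) (V : Flag E) (i : ℕ) (μ : Multiset E) :
    (val p V i μ '' {K | Adm p V i K}).Nonempty :=
  ⟨_, V.cap p.rho i, cap_adm hp V i, rfl⟩

lemma exists_near {p : Par} (hp : p.Ok) (V : Flag E) (i : ℕ) (μ : Multiset E) {e : ℝ} (he : 0 < e) :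
    ∃ K, Adm p V i K ∧ val p V i μ K < D p V i μ + e := by
  obtain ⟨_, ⟨K, hK, rfl⟩, h⟩ := exists_lt_of_csInf_lt (D_nonempty hp V i μ)
    (show sInf (val p V i μ '' {K | Adm p V i K}) < D p V i μ + e by
      have : sInf (val p V i μ '' {K | Adm p V i K}) = D p V i μ := rfl
      linarith)
  exact ⟨K, hK, h⟩

lemma D_le {p : Par} (hp : p.Ok) {V : Flag E} {i : ℕ} {μ : Multiset E}
    {K : Set E} (h : Adm p V i K) : D p V i μ ≤ val p V i μ K :=
  F6b696.D_le_val (fun i => (lam_pos hp i).le) h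

lemma H_adj (V : Flag E) (i : ℕ) : (V.H i).adjoint = V.H i := by
  symm
  rw [ContinuousLinearMap.eq_adjoint_iff]
  intro x y
  rw [H_eq]
  exact FlagAlg557.inner_comb_comm i V.n _ x y

/-! ### the demoted flag -/

/-- the demoted flag -/
noncomputable def dem (V : Flag E) (i : ℕ) (w : E) (hw : w ∈ (V.M (i + 1))ᗮ) : Flag E where
  n := V.n
  M := Dem853.demM V.M i w
  anti := Dem853.demM_anti V.anti hw
  bot := fun j hj => by
    have := Dem853.demM_le V.M i w j
    rw [V.bot j hj] at this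
    exact le_bot_iff.1 this

section dem

variable {V : Flag E} {i : ℕ} {w : E} (hw1 : w ∈ V.M i) (hw2 : w ∈ (V.M (i + 1))ᗮ) (hn : ‖w‖ = 1)

lemma dem_H_gt {l : ℕ} (h : i < l) : (dem V i w hw2).H l = V.H l :=
  Dem853.Hm_dem_gt th V.n V.M w h

lemma dem_Q_ne {j : ℕ} (h : j ≠ i) (h' : j + 1 ≠ i) : (dem V i w hw2).Q j = V.Q j :=
  Dem853.blkP_dem_ne V.M w h h'

lemma dem_k_ne {j : ℕ} (h : j ≠ i) (h' : j + 1 ≠ i) : (dem V i w hw2).k j = V.k j :=
  Dem853.kd_dem_ne V.M w h h'

include hw1 hn in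
lemma dem_k_self : (dem V i w hw2).k i + 1 = V.k i :=
  Dem853.kd_dem_self V.anti hw1 hw2 hn

include hw1 hn in
lemma dem_k_pred {j : ℕ} (hj : j + 1 = i) : (dem V i w hw2).k j = V.k j + 1 :=
  Dem853.kd_dem_pred V.anti hj hw1 hw2 hn

include hw1 hn in
lemma dem_Q_self : (dem V i w hw2).Q i = V.Q i - Dem853.rk1 w :=
  Dem853.blkP_dem_self hw1 hn

include hw1 hn in
lemma dem_H_self (hin : i < V.n) : (dem V i w hw2).H i = V.H i - Dem853.rk1 w :=
  Dem853.Hm_dem_self th hin hw1 hn

include hw1 hn in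
lemma dem_H_lt (hin : i < V.n) {l : ℕ} (hl : l < i) :
    (dem V i w hw2).H l = V.H l + (th ^ (i - 1 - l) - th ^ (i - l)) • Dem853.rk1 w :=
  Dem853.Hm_dem_lt th hin hl hw1 hn

lemma dem_M_ne {l : ℕ} (h : l ≠ i) : (dem V i w hw2).M l = V.M l := Dem853.demM_ne V.M w h

lemma dem_N_gt {l : ℕ} (h : i < l) (x : E) : (dem V i w hw2).N l x = V.N l x := by
  unfold Flag.N
  refine Finset.sum_congr rfl fun j hj => ?_
  have := Finset.mem_Ico.1 hj
  rw [dem_Q_ne hw2 (by omega) (by omega)]

lemma dem_rr_gt {l : ℕ} (h : i < l) : (dem V i w hw2).rr l = V.rr l := by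
  unfold Flag.rr
  refine Finset.sum_congr rfl fun j hj => ?_
  have := Finset.mem_Ico.1 hj
  rw [dem_k_ne hw2 (by omega) (by omega)]

lemma dem_cap_gt {l : ℕ} (h : i < l) (rho : ℝ) : (dem V i w hw2).cap rho l = V.cap rho l := by
  unfold Flag.cap
  rw [dem_M_ne hw2 (by omega), dem_rr_gt hw2 h]
  simp only [dem_N_gt hw2 h]

/-- nothing changes at the levels above `i` -/
lemma dem_D_gt {l : ℕ} (h : i < l) (p : Par) (μ : Multiset E) :
    D p (dem V i w hw2) l μ = D p V l μ := by
  unfold D val Adm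
  rw [dem_cap_gt hw2 h, dem_H_gt hw2 h]

include hw1 hw2 hn in
lemma Q_w : V.Q i w = w := by
  have h1 : V.P i w = w := FlagAlg557.P_of_mem (M := V.M) hw1
  have h2 : V.P (i + 1) w = 0 := by
    unfold Flag.P
    exact (Submodule.starProjection_apply_eq_zero_iff _).2 hw2
  show V.P i w - V.P (i + 1) w = w
  rw [h1, h2, sub_zero]

include hw1 hw2 hn in
lemma H_w (hin : i < V.n) {l : ℕ} (hl : l ≤ i) : V.H l w = th ^ (i - l) • w := by
  have h := FlagAlg557.comb_Q (M := V.M) V.anti (i := l) (n := V.n) (j := i)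
    (Finset.mem_Ico.2 ⟨hl, hin⟩) (fun j => th ^ (j - l)) w
  have e : FlagAlg557.Q V.M i w = w := Q_w hw1 hw2 hn
  rw [e] at h
  exact h

include hw1 hn in
/-- levels below `i` -/
lemma dem_D_lt {p : Par} (hp : p.Ok) (hin : i < V.n) {l : ℕ} (hl : l < i) (μ : Multiset E) :
    D p V l μ ≤ D p (dem V i w hw2) l μ + p.lam l * (2 / p.rho ^ 2) := by
  obtain ⟨h0, h1, h2⟩ := rho_facts hp
  have hlam := lam_pos hp l
  suffices hs : ∀ K, Adm p (dem V i w hw2) l K →
      D p V l μ ≤ val p (dem V i w hw2) l μ K + p.lam l * (2 / p.rho ^ 2) by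
    have : D p V l μ - p.lam l * (2 / p.rho ^ 2) ≤ D p (dem V i w hw2) l μ := by
      refine le_csInf (D_nonempty hp _ l μ) ?_
      rintro _ ⟨K, hK, rfl⟩
      have := hs K hK
      linarith
    linarith
  intro K hK
  obtain ⟨cl, cv, sy, hcap, hpos⟩ := hK
  -- covariance monotonicity
  have hmono : (gau ((dem V i w hw2).H l)).real K ≤ (gau (V.H l)).real K := by
    have hle : gau ((dem V i w hw2).H l) K ≤ gau (V.H l) K := by
      refine AnSym853.gau_mono_symm (fun t => ?_) cl cv sy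
      rw [H_adj, H_adj, dem_H_lt hw1 hw2 hn hin hl]
      set c := th ^ (i - 1 - l) - th ^ (i - l) with hc
      have hc0 : 0 ≤ c := by
        rw [hc]
        have : th ^ (i - l) ≤ th ^ (i - 1 - l) :=
          pow_le_pow_of_le_one th_pos.le th_lt_one.le (by omega)
        linarith
      have e1 : ⟪V.H l t, w⟫ = th ^ (i - l) * ⟪w, t⟫ := by
        rw [← ContinuousLinearMap.adjoint_inner_right, H_adj, H_w hw1 hw2 hn hin hl.le,
          inner_smul_right, real_inner_comm]
      have e2 : ‖V.H l t‖ ^ 2 ≤ ‖(V.H l + c • Dem853.rk1 w) t‖ ^ 2 := by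
        rw [add_apply, smul_apply, Dem853.rk1_apply,
          norm_add_sq_real, inner_smul_right, inner_smul_right, e1]
        have h3 : 0 ≤ th ^ (i - l) := pow_nonneg th_pos.le _
        have h4 : 0 ≤ c * (th ^ (i - l) * ⟪w, t⟫ ^ 2) := by positivity
        nlinarith [sq_nonneg ‖c • ⟪w, t⟫ • w‖]
      exact (abs_le_of_sq_le_sq' e2 (norm_nonneg _)).2
    exact (ENNReal.toReal_le_toReal (measure_ne_top _ _) (measure_ne_top _ _)).2 hle
  have hcut := capcut V l h0 cl cv sy
  set K1 := K ∩ V.cap p.rho l with hK1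
  have hpos2 : (1 - 1 / p.rho ^ 2) * (gau ((dem V i w hw2).H l)).real K
      ≤ (gau (V.H l)).real K1 :=
    (mul_le_mul_of_nonneg_left hmono h1.le).trans hcut
  have hposl : 0 < (1 - 1 / p.rho ^ 2) * (gau ((dem V i w hw2).H l)).real K := mul_pos h1 hpos
  have hA1 : Adm p V l K1 := by
    refine ⟨cl.inter (cap_closed V l p.rho), cv.inter (cap_convex V l p.rho), ?_,
      inter_subset_right, hposl.trans_le hpos2⟩
    rintro x ⟨hx1, hx2⟩
    exact ⟨sy x hx1, cap_neg V l p.rho hx2⟩
  have hcK : IsCompact K :=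
    (cap_compact (dem V i w hw2) l p.rho).of_isClosed_subset cl hcap
  refine (D_le hp hA1).trans ?_
  unfold val
  have hE : Eh K1 μ ≤ Eh K μ := by
    unfold Eh
    apply Multiset.sum_map_le_sum_map
    intro z _
    exact F6core696.hs_mono hcK (adm_nonempty hA1) inter_subset_left z
  have hlog : Real.log (1 - 1 / p.rho ^ 2) + Real.log ((gau ((dem V i w hw2).H l)).real K)
      ≤ Real.log ((gau (V.H l)).real K1) := by
    rw [← Real.log_mul h1.ne' hpos.ne']
    exact Real.log_le_log hposl hpos2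
  nlinarith

include hw1 hn in
/-- the cap of the demoted level lies in the old cap -/
lemma dem_cap_self (hin : i < V.n) (rho : ℝ) : (dem V i w hw2).cap rho i ⊆ V.cap rho i := by
  rintro x ⟨hx1, hx2⟩
  have hx1' : x ∈ Dem853.cutSub (V.M i) w := by
    have : (dem V i w hw2).M i = Dem853.cutSub (V.M i) w := Dem853.demM_self V.M i w
    rw [this] at hx1
    exact hx1
  obtain ⟨hxM, hxw⟩ := Dem853.mem_cutSub.1 hx1'
  refine ⟨hxM, ?_⟩
  have hN : (dem V i w hw2).N i x = V.N i x := by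
    unfold Flag.N
    refine Finset.sum_congr rfl fun j hj => ?_
    have := Finset.mem_Ico.1 hj
    by_cases hji : j = i
    · subst hji
      rw [dem_Q_self hw1 hw2 hn, sub_apply, Dem853.rk1_apply, hxw, zero_smul,
        sub_zero]
    · rw [dem_Q_ne hw2 (by omega) (by omega)]
  have hr : (dem V i w hw2).rr i ≤ V.rr i := by
    unfold Flag.rr
    refine Finset.sum_le_sum fun j hj => ?_
    have := Finset.mem_Ico.1 hj
    refine mul_le_mul_of_nonneg_left ?_ (pow_nonneg th_pos.le _)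
    by_cases hji : j = i
    · subst hji
      have := dem_k_self hw1 hw2 hn
      exact_mod_cast (by omega : (dem V j w hw2).k j ≤ V.k j)
    · rw [dem_k_ne hw2 (by omega) (by omega)]
  rw [← hN]
  refine hx2.trans ?_
  exact mul_le_mul_of_nonneg_left hr (sq_nonneg _)

include hw1 hn in
/-- level `i` of the demoted flag, from near-maximality -/
lemma dem_D_self {p : Par} (hp : p.Ok) (hin : i < V.n) (hi : 1 ≤ i) {μ : Multiset E}
    {e0 : ℝ} (hV : NearMax p V μ e0) :
    D p (dem V i w hw2) i μ ≤ D p V i μ + e0 - p.kap * p.lam i * (9 / 10) := by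
  have hJ := hV (dem V i w hw2)
  unfold J at hJ
  have hn' : (dem V i w hw2).n = V.n := rfl
  rw [hn'] at hJ
  have hlam : ∀ l, 0 < p.lam l := lam_pos hp
  -- termwise lower bound
  set f : ℕ → ℝ := fun l => (D p (dem V i w hw2) l μ - p.kap * p.lam l * (dem V i w hw2).k l)
      - (D p V l μ - p.kap * p.lam l * V.k l) with hf
  have hsum : ∑ l ∈ Finset.range V.n, f l ≤ e0 := by
    rw [hf, Finset.sum_sub_distrib]; linarith
  have hsplit : ∑ l ∈ Finset.range V.n, f l
      = ∑ l ∈ Finset.range i, f l + f i + ∑ l ∈ Finset.Ico (i + 1) V.n, f l := by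
    rw [← Finset.sum_range_succ, Finset.range_eq_Ico, Finset.range_eq_Ico,
      Finset.sum_Ico_consecutive f (Nat.zero_le _) (Nat.succ_le_of_lt hin)]
  have hhigh : ∑ l ∈ Finset.Ico (i + 1) V.n, f l = 0 := by
    refine Finset.sum_eq_zero fun l hl => ?_
    have := Finset.mem_Ico.1 hl
    simp only [hf]
    rw [dem_D_gt hw2 (by omega), dem_k_ne hw2 (by omega) (by omega)]
    ring
  have hself : f i = D p (dem V i w hw2) i μ - D p V i μ + p.kap * p.lam i := by
    simp only [hf]
    have h1 : ((dem V i w hw2).k i : ℝ) + 1 = V.k i := by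
      exact_mod_cast dem_k_self hw1 hw2 hn
    rw [← h1]; ring
  have hlow : ∑ l ∈ Finset.range i, (-(p.lam l * (2 / p.rho ^ 2))
      - if l + 1 = i then p.kap * p.lam l else 0) ≤ ∑ l ∈ Finset.range i, f l := by
    refine Finset.sum_le_sum fun l hl => ?_
    have hl' := Finset.mem_range.1 hl
    have h1 := dem_D_lt hw1 hw2 hn hp hin hl' μ
    simp only [hf]
    by_cases h2 : l + 1 = i
    · rw [if_pos h2]
      have h3 : ((dem V i w hw2).k l : ℝ) = V.k l + 1 := by
        exact_mod_cast dem_k_pred hw1 hw2 hn h2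
      rw [h3]
      nlinarith
    · rw [if_neg h2, dem_k_ne hw2 (by omega) h2]
      linarith
  have hlow2 : ∑ l ∈ Finset.range i, (-(p.lam l * (2 / p.rho ^ 2))
      - if l + 1 = i then p.kap * p.lam l else 0)
      = -((∑ l ∈ Finset.range i, p.lam l) * (2 / p.rho ^ 2)) - p.kap * p.lam (i - 1) := by
    rw [Finset.sum_sub_distrib, Finset.sum_neg_distrib, Finset.sum_mul]
    congr 1
    rw [Finset.sum_eq_single (i - 1)]
    · rw [if_pos (by omega)]
    · intro l hl hne
      rw [if_neg (by omega)]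
    · intro h
      exact absurd (Finset.mem_range.2 (by omega)) h
  have hs := sum_lam hp i
  have hprev : p.lam (i - 1) ≤ p.lam i / 16 := by
    have h1 := lam_succ p (i - 1)
    rw [Nat.sub_add_cancel hi] at h1
    have h2 := hp.A_ge
    have h3 := hlam (i - 1)
    rw [le_div_iff₀ (by norm_num)]
    nlinarith
  have hrho : 1 / p.rho ^ 2 ≤ p.kap / 16 := by
    have h1 := hp.kap_rho
    have h2 : 0 < p.rho ^ 2 := by have := (rho_facts hp).1; positivity
    rw [div_le_iff₀ h2]
    linarith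
  have hrho0 : 0 ≤ 1 / p.rho ^ 2 := by positivity
  have hS0 : 0 ≤ ∑ l ∈ Finset.range i, p.lam l := Finset.sum_nonneg fun l _ => (hlam l).le
  have h5 : (∑ l ∈ Finset.range i, p.lam l) * (2 / p.rho ^ 2) ≤ p.kap * p.lam i / 120 := by
    have e : (2 / p.rho ^ 2) = 2 * (1 / p.rho ^ 2) := by ring
    rw [e]
    have h6 : (∑ l ∈ Finset.range i, p.lam l) * (1 / p.rho ^ 2)
        ≤ (p.lam i / 15) * (p.kap / 16) :=
      mul_le_mul (by linarith) hrho hrho0 (by have := hlam i; positivity)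
    nlinarith
  have h7 : p.kap * p.lam (i - 1) ≤ p.kap * p.lam i / 16 := by
    have := mul_le_mul_of_nonneg_left hprev hp.kap_pos.le
    linarith
  have h8 : 0 < p.kap * p.lam i := mul_pos hp.kap_pos (hlam i)
  nlinarith

end dem

/-! ### level `i`: the half sum -/

theorem thin_of {p : Par} (hp : p.Ok) {c' : ℝ} (hBEN : P_BEN E (p.kap / 32) c') :
    P_THIN E p c' (p.kap / 16) := by
  intro V μ i hi hV K hK w hw hQ
  obtain ⟨hA, hval⟩ := hK
  have hlam := lam_pos hp i
  have hkap := hp.kap_pos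
  -- the direction lies in the block
  have hw1 : w ∈ V.M i := by
    rw [← hQ]; exact FlagAlg557.Q_mem (M := V.M) V.anti i w
  have hw2 : w ∈ (V.M (i + 1))ᗮ := by
    have h1 : V.P (i + 1) w = 0 := by
      rw [← hQ]
      exact FlagAlg557.P_Q_of_lt (M := V.M) V.anti (Nat.lt_succ_self i) w
    exact (Submodule.starProjection_apply_eq_zero_iff _).1 h1
  have hin : i < V.n := by
    by_contra hcon
    have h1 : V.M i = ⊥ := V.bot i (by omega)
    rw [h1, Submodule.mem_bot] at hw1
    rw [hw1] at hw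
    simp at hw
  obtain ⟨cl, cv, sy, hcap, hpos⟩ := hA
  have hAK : Adm p V i K := ⟨cl, cv, sy, hcap, hpos⟩
  have hself := dem_D_self hw1 hw2 hw hp hin hi hV
  set W := dem V i w hw2 with hW
  obtain ⟨K0, hA0, hval0⟩ := exists_near hp W i μ (e := p.kap * p.lam i / 16) (by positivity)
  obtain ⟨cl0, cv0, sy0, hcap0, hpos0⟩ := hA0
  have hAK0 : Adm p W i K0 := ⟨cl0, cv0, sy0, hcap0, hpos0⟩
  have hHw : V.H i w = w := by
    have := H_w hw1 hw2 hw hin le_rfl
    simpa using this
  have hHW : ∀ g, W.H i g = V.H i g - ⟪w, g⟫ • w := by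
    intro g
    rw [hW, dem_H_self hw1 hw2 hw hin, sub_apply, Dem853.rk1_apply]
  have hHinner : ∀ g, ⟪w, V.H i g⟫ = ⟪w, g⟫ := by
    intro g
    rw [← ContinuousLinearMap.adjoint_inner_left, H_adj, hHw]
  -- bodies
  have cK : IsCompact K := adm_compact hAK
  have cK0 : IsCompact K0 := adm_compact hAK0
  set C := half K K0 with hC
  have cC : IsCompact C := F6core696.mix_compact cK cK0
  have h1 := hBEN w hw ((V.H i) ⁻¹' K) ((W.H i) ⁻¹' K0) ((V.H i) ⁻¹' C)
    (cl.preimage (V.H i).continuous) (Dom640.pre_conv (V.H i) cv) (Dom640.pre_symm (V.H i) sy)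
    (cl0.preimage (W.H i).continuous) (Dom640.pre_conv (W.H i) cv0) (Dom640.pre_symm (W.H i) sy0)
    (cC.isClosed.preimage (V.H i).continuous)
    (by
      intro x
      have : W.H i (x - ⟪w, x⟫ • w) = W.H i x := by
        rw [map_sub, map_smul, hHW w, hHw, real_inner_self_eq_norm_sq, hw]
        simp
      rw [mem_preimage, mem_preimage, this])
    (by
      intro x hx y hy hxy
      rw [mem_preimage, hC, mem_half]
      refine ⟨V.H i x, hx, V.H i y, ?_, by rw [map_add, map_smul, map_smul]⟩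
      have := hHW y
      rw [hxy, zero_smul, sub_zero] at this
      rw [← this]
      exact hy)
  have hmK : (stdGaussian E).real ((V.H i) ⁻¹' K) = (gau (V.H i)).real K :=
    (gau_real_apply _ cl.measurableSet).symm
  have hmK0 : (stdGaussian E).real ((W.H i) ⁻¹' K0) = (gau (W.H i)).real K0 :=
    (gau_real_apply _ cl0.measurableSet).symm
  have hmC : (stdGaussian E).real ((V.H i) ⁻¹' C) = (gau (V.H i)).real C :=
    (gau_real_apply _ cC.isClosed.measurableSet).symm
  rw [hmK, hmK0, hmC] at h1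
  have hint : ∫ x in K, ⟪w, x⟫ ^ 2 ∂(gau (V.H i))
      = ∫ g in (V.H i) ⁻¹' K, ⟪w, g⟫ ^ 2 ∂(stdGaussian E) := by
    unfold gau
    rw [setIntegral_map cl.measurableSet (by fun_prop) (V.H i).continuous.aemeasurable]
    simp only [hHinner]
  rw [hint]
  rcases h1 with h1 | h1
  · exact h1
  · exfalso
    set a := (gau (V.H i)).real K with ha
    set b := (gau (W.H i)).real K0 with hb
    set c := (gau (V.H i)).real C with hc
    have hsq : 0 < Real.sqrt (a * b) := Real.sqrt_pos.2 (mul_pos hpos hpos0)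
    have hcpos : 0 < c := lt_of_lt_of_le (mul_pos (Real.exp_pos _) hsq) h1
    have hCA : Adm p V i C := by
      refine ⟨cC.isClosed, F6core696.mix_convex cv cv0, F6core696.mix_neg sy sy0, ?_, hcpos⟩
      exact F6core696.mix_subset (by norm_num) (by norm_num) (cap_convex V i p.rho) hcap
        (hcap0.trans (dem_cap_self hw1 hw2 hw hin p.rho))
    have hEh : Eh C μ = (Eh K μ + Eh K0 μ) / 2 := by
      have h := F6core696.Eh_mix (a := 1 / 2) (by norm_num) (by norm_num) cK cK0
        (adm_nonempty hAK) (adm_nonempty hAK0) μ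
      have h' : Eh C μ = (1 - 1 / 2) * Eh K μ + 1 / 2 * Eh K0 μ := h
      rw [h']; ring
    have hlog : -(p.kap / 32) + (Real.log a + Real.log b) / 2 ≤ Real.log c := by
      have h2 := Real.log_le_log (mul_pos (Real.exp_pos _) hsq) h1
      rw [Real.log_mul (Real.exp_pos _).ne' hsq.ne', Real.log_exp, Real.log_sqrt (mul_pos hpos hpos0).le,
        Real.log_mul hpos.ne' hpos0.ne'] at h2
      exact h2
    have hD := D_le hp hCA (μ := μ)
    have e1 : val p V i μ C = Eh C μ - p.lam i * Real.log c := rfl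
    have e2 : val p V i μ K = Eh K μ - p.lam i * Real.log a := rfl
    have e3 : val p W i μ K0 = Eh K0 μ - p.lam i * Real.log b := rfl
    rw [e1, hEh] at hD
    rw [e2] at hval
    rw [e3] at hval0
    have h5 := mul_le_mul_of_nonneg_left hlog hlam.le
    have h6 : 0 < p.kap * p.lam i := mul_pos hkap hlam
    nlinarith

theorem target_thin : Target_THIN := by
  intro kap h0 h1
  obtain ⟨c', hc0, hc1, H⟩ := Ben331.target_BEN (kap / 32) (by positivity)
  refine ⟨c', kap / 16, 0, hc0, hc1, by positivity, fun d p hp hk _ => ?_⟩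
  have := thin_of (E := EuclideanSpace ℝ (Fin d)) hp (c' := c') (by rw [hk]; exact H d)
  rw [hk] at this
  exact this

end Crest.Agent.R239.Thin230
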