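import Crest.Agent.R239.Cap_526
import Crest.Agent.R239.AnSym_853
import Crest.Agent.R239.DemLin_853
import Crest.Agent.R239.BenT_331

/-! # R239 (helper526): demotion and thinness, `Target_THIN` from `P_BEN` -/

set_option autoImplicit false
set_option linter.unusedSectionVars false
open MeasureTheory ProbabilityTheory Set
open scoped RealInnerProductSpace ENNReal

namespace Crest.Agent.R239.Thin526

open Crest.Agent.R239 Crest.Agent.R239.FD Crest.Agent.R239.Cap526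

variable {E : Type*} [NormedAddCommGroup E] [InnerProductSpace ℝ E] [FiniteDimensional ℝ E]
  [MeasurableSpace E] [BorelSpace E]

/-- the demoted flag -/
noncomputable def dem (V : Flag E) (i : ℕ) (w : E) (hw : w ∈ (V.M (i + 1))ᗮ) : Flag E where
  n := V.n
  M := Dem853.demM V.M i w
  anti := Dem853.demM_anti V.anti hw
  bot := fun j hj => le_bot_iff.1 ((Dem853.demM_le V.M i w j).trans (V.bot j hj).le)

lemma D_congr {p : Par} {V V' : Flag E} {i : ℕ} (h1 : V'.H i = V.H i)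
    (h2 : V'.cap p.rho i = V.cap p.rho i) (μ : Multiset E) : D p V' i μ = D p V i μ := by
  unfold D val Adm
  rw [h1, h2]

section block

variable {V : Flag E} {i : ℕ} {w : E}

lemma mem_of_Q (h : V.Q i w = w) : w ∈ V.M i := by
  have := F6b696.Q_mem V (le_refl i) w
  rwa [h] at this

lemma orth_of_Q (h : V.Q i w = w) : w ∈ (V.M (i + 1))ᗮ := by
  have h1 : (V.M (i + 1)).starProjection (Mom764.Q V.M i w) = 0 :=
    Mom764.P_Q_zero V.anti (Nat.lt_succ_self i) w
  have h2 : Mom764.Q V.M i w = w := h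
  rw [h2] at h1
  exact (Submodule.starProjection_apply_eq_zero_iff _).1 h1

lemma lt_n_of_Q (h : V.Q i w = w) (hw : ‖w‖ = 1) : i < V.n := by
  by_contra hn
  have h0 := mem_of_Q h
  rw [V.bot i (not_lt.1 hn), Submodule.mem_bot] at h0
  rw [h0, norm_zero] at hw
  exact zero_ne_one hw

/-- `H_l w = th^(i-l) w` for `l ≤ i` -/
lemma H_w {l : ℕ} (hl : l ≤ i) (h : V.Q i w = w) (hw : ‖w‖ = 1) :
    V.H l w = th ^ (i - l) • w := by
  rw [F6b696.H_apply, Finset.sum_eq_single_of_mem i (Finset.mem_Ico.2 ⟨hl, lt_n_of_Q h hw⟩), h]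
  intro j _ hj
  have : V.Q j w = 0 := by
    rw [← h]; exact F6b696.Q_Q_ne V hj w
  rw [this, smul_zero]

lemma H_symm (V : Flag E) (l : ℕ) (x y : E) : ⟪V.H l x, y⟫ = ⟪x, V.H l y⟫ :=
  Mom764.inner_H_left th V.n l x y

lemma H_adj (V : Flag E) (l : ℕ) : (V.H l).adjoint = V.H l := Mom764.adjoint_H th V.n l

lemma inner_w_H (h : V.Q i w = w) (hw : ‖w‖ = 1) (g : E) : ⟪w, V.H i g⟫ = ⟪w, g⟫ := by
  rw [← H_symm, H_w le_rfl h hw, Nat.sub_self, pow_zero, one_smul]

variable (V)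

lemma dem_H_eq {l : ℕ} (hw : w ∈ (V.M (i + 1))ᗮ) :
    (dem V i w hw).H l = Dem853.Hm th V.n (Dem853.demM V.M i w) l := rfl

lemma H_eq_Hm (l : ℕ) : V.H l = Dem853.Hm th V.n V.M l := rfl

lemma dem_H_gt {l : ℕ} (hw : w ∈ (V.M (i + 1))ᗮ) (hl : i < l) :
    (dem V i w hw).H l = V.H l := Dem853.Hm_dem_gt th V.n V.M w hl

lemma dem_H_self (h : V.Q i w = w) (hw1 : ‖w‖ = 1) (hw : w ∈ (V.M (i + 1))ᗮ) :
    (dem V i w hw).H i = V.H i - Dem853.rk1 w := by
  rw [dem_H_eq, H_eq_Hm]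
  exact Dem853.Hm_dem_self th (lt_n_of_Q h hw1) (mem_of_Q h) hw1

lemma dem_H_lt {l : ℕ} (hl : l < i) (h : V.Q i w = w) (hw1 : ‖w‖ = 1)
    (hw : w ∈ (V.M (i + 1))ᗮ) :
    (dem V i w hw).H l = V.H l + (th ^ (i - 1 - l) - th ^ (i - l)) • Dem853.rk1 w := by
  rw [dem_H_eq, H_eq_Hm]
  exact Dem853.Hm_dem_lt th (lt_n_of_Q h hw1) hl (mem_of_Q h) hw1

lemma dem_M_ne {l : ℕ} (hw : w ∈ (V.M (i + 1))ᗮ) (hl : l ≠ i) : (dem V i w hw).M l = V.M l :=
  Dem853.demM_ne V.M w hl

lemma dem_Q_gt {l : ℕ} (hw : w ∈ (V.M (i + 1))ᗮ) (hl : i < l) : (dem V i w hw).Q l = V.Q l :=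
  Dem853.blkP_dem_ne V.M w (by omega) (by omega)

lemma dem_k_ne {l : ℕ} (hw : w ∈ (V.M (i + 1))ᗮ) (hl : l ≠ i) (hl' : l + 1 ≠ i) :
    (dem V i w hw).k l = V.k l :=
  Dem853.kd_dem_ne V.M w hl hl'

lemma dem_cap_gt {l : ℕ} (hw : w ∈ (V.M (i + 1))ᗮ) (hl : i < l) (rho : ℝ) :
    (dem V i w hw).cap rho l = V.cap rho l := by
  have hN : ∀ x, (dem V i w hw).N l x = V.N l x := by
    intro x
    unfold Flag.N
    refine Finset.sum_congr rfl fun j hj => ?_
    rw [Finset.mem_Ico] at hj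
    rw [dem_Q_gt V hw (by omega)]
  have hr : (dem V i w hw).rr l = V.rr l := by
    unfold Flag.rr
    refine Finset.sum_congr rfl fun j hj => ?_
    rw [Finset.mem_Ico] at hj
    rw [dem_k_ne V hw (by omega) (by omega)]
  unfold Flag.cap
  rw [hr, dem_M_ne V hw (by omega)]
  simp only [hN]

lemma dem_D_gt {p : Par} {l : ℕ} (hw : w ∈ (V.M (i + 1))ᗮ) (hl : i < l) (μ : Multiset E) :
    D p (dem V i w hw) l μ = D p V l μ :=
  D_congr (dem_H_gt V hw hl) (dem_cap_gt V hw hl _) μ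

end block

lemma lam_pos {p : Par} (hp : p.Ok) (i : ℕ) : 0 < p.lam i :=
  mul_pos hp.tau_pos (pow_pos (by linarith [hp.A_ge]) _)

lemma adm_nonempty_image {p : Par} (hp : p.Ok) (V : Flag E) (i : ℕ) (μ : Multiset E) :
    (val p V i μ '' {K | Adm p V i K}).Nonempty :=
  ⟨_, V.cap p.rho i, adm_cap (by linarith [hp.rho_ge]) V i, rfl⟩

/-! ### levels below -/

lemma norm_H_le {V : Flag E} {i l : ℕ} {w : E} (hl : l < i) (h : V.Q i w = w) (hw1 : ‖w‖ = 1)
    (hw : w ∈ (V.M (i + 1))ᗮ) (t : E) : ‖V.H l t‖ ≤ ‖(dem V i w hw).H l t‖ := by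
  rw [dem_H_lt V hl h hw1 hw]
  set c : ℝ := th ^ (i - 1 - l) - th ^ (i - l) with hc
  have hc0 : 0 ≤ c := by
    have : th ^ (i - l) ≤ th ^ (i - 1 - l) :=
      pow_le_pow_of_le_one th_pos.le th_lt.le (by omega)
    linarith
  have e1 : (V.H l + c • Dem853.rk1 w) t = V.H l t + (c * ⟪w, t⟫) • w := by
    simp [Dem853.rk1, smul_smul]
  rw [e1]
  have h2 : ⟪V.H l t, w⟫ = th ^ (i - l) * ⟪w, t⟫ := by
    rw [H_symm, H_w hl.le h hw1, inner_smul_right, real_inner_comm]
  have h3 : ‖V.H l t + (c * ⟪w, t⟫) • w‖ ^ 2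
      = ‖V.H l t‖ ^ 2 + 2 * (c * th ^ (i - l)) * ⟪w, t⟫ ^ 2 + (c * ⟪w, t⟫) ^ 2 := by
    rw [norm_add_sq_real, inner_smul_right, h2, norm_smul, hw1, mul_one, Real.norm_eq_abs, sq_abs]
    ring
  have h4 : ‖V.H l t‖ ^ 2 ≤ ‖V.H l t + (c * ⟪w, t⟫) • w‖ ^ 2 := by
    rw [h3]
    have : 0 ≤ 2 * (c * th ^ (i - l)) * ⟪w, t⟫ ^ 2 := by
      have := pow_pos th_pos (i - l)
      positivity
    nlinarith [sq_nonneg (c * ⟪w, t⟫)]
  exact (sq_le_sq₀ (norm_nonneg _) (norm_nonneg _)).1 h4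

theorem dem_D_lt {p : Par} (hp : p.Ok) {V : Flag E} {i l : ℕ} {w : E} (hl : l < i)
    (h : V.Q i w = w) (hw1 : ‖w‖ = 1) (hw : w ∈ (V.M (i + 1))ᗮ) (μ : Multiset E) :
    D p V l μ - 2 / p.rho ^ 2 * p.lam l ≤ D p (dem V i w hw) l μ := by
  have hrho : 16 ≤ p.rho := hp.rho_ge
  have hlam := lam_pos hp l
  refine le_csInf (adm_nonempty_image hp _ l μ) ?_
  rintro _ ⟨K', hK', rfl⟩
  have hcK' : IsCompact K' := AdmHalf606.adm_compact hK'
  have hpos : 0 < 1 - 1 / p.rho ^ 2 := one_sub_pos (by linarith)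
  have hAn : (gau ((dem V i w hw).H l)).real K' ≤ (gau (V.H l)).real K' := by
    refine ENNReal.toReal_mono (measure_ne_top _ _) ?_
    refine AnSym853.gau_mono_symm (fun t => ?_) hK'.1 hK'.2.1 hK'.2.2.1
    rw [H_adj, H_adj]
    exact norm_H_le hl h hw1 hw t
  have hcut := cut_cap V l (rho := p.rho) (by linarith) hK'.1.measurableSet hK'.2.1 hK'.2.2.1
  have hlow : (1 - 1 / p.rho ^ 2) * (gau ((dem V i w hw).H l)).real K'
      ≤ (gau (V.H l)).real (K' ∩ V.cap p.rho l) :=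
    (mul_le_mul_of_nonneg_left hAn hpos.le).trans hcut
  have hKpos : 0 < (gau ((dem V i w hw).H l)).real K' := hK'.2.2.2.2
  have hpos2 : 0 < (gau (V.H l)).real (K' ∩ V.cap p.rho l) :=
    lt_of_lt_of_le (mul_pos hpos hKpos) hlow
  have hAdm : Adm p V l (K' ∩ V.cap p.rho l) :=
    ⟨hK'.1.inter (AdmHalf606.cap_closed V l p.rho),
      hK'.2.1.inter (AdmHalf606.cap_convex V l p.rho),
      fun x hx => ⟨hK'.2.2.1 x hx.1, AdmHalf606.cap_neg V l p.rho hx.2⟩,
      inter_subset_right, hpos2⟩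
  have hD := F6b696.D_le_val (fun i => (lam_pos hp i).le) (μ := μ) hAdm
  have hne := AdmHalf606.adm_nonempty hAdm
  have hEh : Eh (K' ∩ V.cap p.rho l) μ ≤ Eh K' μ := by
    unfold Eh
    refine Multiset.sum_map_le_sum_map _ _ fun z _ => ?_
    exact F6core696.hs_mono hcK' hne inter_subset_left z
  have hlog : Real.log (1 - 1 / p.rho ^ 2) + Real.log ((gau ((dem V i w hw).H l)).real K')
      ≤ Real.log ((gau (V.H l)).real (K' ∩ V.cap p.rho l)) := by
    rw [← Real.log_mul hpos.ne' hKpos.ne']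
    exact Real.log_le_log (mul_pos hpos hKpos) hlow
  have hnl := neg_log_le (rho := p.rho) (by linarith)
  unfold val at hD ⊢
  have h1 := mul_le_mul_of_nonneg_left hlog hlam.le
  have h2 := mul_le_mul_of_nonneg_left hnl hlam.le
  nlinarith

/-! ### the level `i` -/

theorem dem_cap_self {V : Flag E} {i : ℕ} {w : E} (h : V.Q i w = w) (hw1 : ‖w‖ = 1)
    (hw : w ∈ (V.M (i + 1))ᗮ) {rho : ℝ} :
    (dem V i w hw).cap rho i ⊆ V.cap rho i := by
  rintro x ⟨hx1, hx2⟩
  have hx1' : x ∈ V.M i ∧ ⟪w, x⟫ = 0 := by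
    have : x ∈ Dem853.cutSub (V.M i) w := by
      have h0 : (dem V i w hw).M i = Dem853.cutSub (V.M i) w := Dem853.demM_self V.M i w
      rwa [h0] at hx1
    exact Dem853.mem_cutSub.1 this
  refine ⟨hx1'.1, ?_⟩
  have hQ : ∀ j, i ≤ j → (dem V i w hw).Q j x = V.Q j x := by
    intro j hj
    rcases hj.eq_or_lt with h0 | h0
    · subst h0
      have h1 : (dem V i w hw).Q i = V.Q i - Dem853.rk1 w :=
        Dem853.blkP_dem_self (mem_of_Q h) hw1
      rw [h1, sub_apply, Dem853.rk1_apply, hx1'.2, zero_smul, sub_zero]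
    · rw [dem_Q_gt V hw h0]
  have hN : (dem V i w hw).N i x = V.N i x := by
    unfold Flag.N
    refine Finset.sum_congr rfl fun j hj => ?_
    rw [Finset.mem_Ico] at hj
    rw [hQ j hj.1]
  have hr : (dem V i w hw).rr i ≤ V.rr i := by
    unfold Flag.rr
    refine Finset.sum_le_sum fun j hj => ?_
    rw [Finset.mem_Ico] at hj
    have hk : (dem V i w hw).k j ≤ V.k j := by
      rcases hj.1.eq_or_lt with h0 | h0
      · subst h0
        have h1 := Dem853.kd_dem_self V.anti (mem_of_Q h) hw hw1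
        have h2 : (dem V i w hw).k i + 1 = V.k i := h1
        omega
      · rw [dem_k_ne V hw (by omega) (by omega)]
    exact mul_le_mul_of_nonneg_left (by exact_mod_cast hk) (pow_nonneg th_pos.le _)
  rw [← hN]
  exact hx2.trans (mul_le_mul_of_nonneg_left hr (sq_nonneg _))

theorem dem_level {p : Par} (hp : p.Ok) {dl c' : ℝ} (hdl : 0 ≤ dl) (hB : P_BEN E dl c')
    {V : Flag E} {i : ℕ} {w : E}
    (h : V.Q i w = w) (hw1 : ‖w‖ = 1) (hw : w ∈ (V.M (i + 1))ᗮ) {μ : Multiset E} {K : Set E}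
    {sl : ℝ} (hK : NearOpt p V i μ K sl)
    (hthick : ¬ (∫ x in K, ⟪w, x⟫ ^ 2 ∂(gau (V.H i))) ≤ (1 - c') * (gau (V.H i)).real K) :
    D p V i μ - (sl + 2 * dl * p.lam i) ≤ D p (dem V i w hw) i μ := by
  have hlam := lam_pos hp i
  obtain ⟨hKa, hKv⟩ := hK
  refine le_csInf (adm_nonempty_image hp _ i μ) ?_
  rintro _ ⟨K', hK', rfl⟩
  set V' := dem V i w hw with hV'
  have hcK : IsCompact K := AdmHalf606.adm_compact hKa
  have hcK' : IsCompact K' := AdmHalf606.adm_compact hK'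
  have hH' : V'.H i = V.H i - Dem853.rk1 w := dem_H_self V h hw1 hw
  have hH'x : ∀ x, V'.H i x = V.H i x - ⟪w, x⟫ • w := by
    intro x; rw [hH', sub_apply, Dem853.rk1_apply]
  have hHw : V.H i w = w := by
    have := H_w (le_refl i) h hw1
    rwa [Nat.sub_self, pow_zero, one_smul] at this
  have hH'w : V'.H i w = 0 := by
    rw [hH'x, hHw, real_inner_self_eq_norm_sq, hw1]; simp
  set C : Set E := AdmHalf606.half K K' with hC
  have hCc : IsCompact C := F6core696.mix_compact hcK hcK'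
  have hmeasK := hKa.1.measurableSet
  have hmeasK' := hK'.1.measurableSet
  have hCm := hCc.isClosed.measurableSet
  have hcyl : ∀ x, x ∈ V'.H i ⁻¹' K' ↔ x - ⟪w, x⟫ • w ∈ V'.H i ⁻¹' K' := by
    intro x
    simp only [mem_preimage, map_sub, map_smul, hH'w, smul_zero, sub_zero]
  have hhalf : ∀ x ∈ V.H i ⁻¹' K, ∀ y ∈ V'.H i ⁻¹' K', ⟪w, y⟫ = 0 →
      (1 / 2 : ℝ) • x + (1 / 2 : ℝ) • y ∈ V.H i ⁻¹' C := by
    intro x hx y hy hwy
    have h1 : V'.H i y = V.H i y := by rw [hH'x, hwy, zero_smul, sub_zero]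
    rw [mem_preimage, map_add, map_smul, map_smul, hC, AdmHalf606.mem_half]
    refine ⟨_, hx, _, hy, ?_⟩
    rw [h1]
  have hpre_sym : ∀ (L : E →L[ℝ] E) (A : Set E), (∀ x ∈ A, -x ∈ A) → ∀ x ∈ L ⁻¹' A, -x ∈ L ⁻¹' A := by
    intro L A hA x hx
    rw [mem_preimage, map_neg]
    exact hA _ hx
  have hben := hB w hw1 (V.H i ⁻¹' K) (V'.H i ⁻¹' K') (V.H i ⁻¹' C)
    (hKa.1.preimage (V.H i).continuous) (hKa.2.1.linear_preimage (V.H i).toLinearMap)
    (hpre_sym _ _ hKa.2.2.1)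
    (hK'.1.preimage (V'.H i).continuous) (hK'.2.1.linear_preimage (V'.H i).toLinearMap)
    (hpre_sym _ _ hK'.2.2.1)
    (hCc.isClosed.preimage (V.H i).continuous) hcyl hhalf
  rcases hben with hb | hb
  · exfalso
    apply hthick
    have e1 : (∫ x in K, ⟪w, x⟫ ^ 2 ∂(gau (V.H i)))
        = ∫ g in V.H i ⁻¹' K, ⟪w, g⟫ ^ 2 ∂(stdGaussian E) := by
      unfold gau
      rw [setIntegral_map hmeasK (by fun_prop) (V.H i).continuous.aemeasurable]
      refine setIntegral_congr_fun (hmeasK.preimage (V.H i).continuous.measurable) fun g _ => ?_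
      simp only [inner_w_H h hw1]
    rw [e1, gau_real_apply _ hmeasK]
    exact hb
  · have hKpos : 0 < (stdGaussian E).real (V.H i ⁻¹' K) := by
      rw [← gau_real_apply _ hmeasK]; exact hKa.2.2.2.2
    have hK'pos : 0 < (stdGaussian E).real (V'.H i ⁻¹' K') := by
      rw [← gau_real_apply _ hmeasK']; exact hK'.2.2.2.2
    have hsq : 0 < Real.sqrt ((stdGaussian E).real (V.H i ⁻¹' K)
        * (stdGaussian E).real (V'.H i ⁻¹' K')) := Real.sqrt_pos.2 (mul_pos hKpos hK'pos)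
    have hCpos : 0 < (stdGaussian E).real (V.H i ⁻¹' C) :=
      lt_of_lt_of_le (mul_pos (Real.exp_pos _) hsq) hb
    have hAdm : Adm p V i C := by
      refine ⟨hCc.isClosed, F6core696.mix_convex hKa.2.1 hK'.2.1,
        F6core696.mix_neg hKa.2.2.1 hK'.2.2.1,
        F6core696.mix_subset (by norm_num) (by norm_num) (AdmHalf606.cap_convex V i p.rho)
          hKa.2.2.2.1 (hK'.2.2.2.1.trans (dem_cap_self h hw1 hw)), ?_⟩
      rw [gau_real_apply _ hCm]; exact hCpos
    have hD := F6b696.D_le_val (fun i => (lam_pos hp i).le) (μ := μ) hAdm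
    have hEh : Eh C μ = (Eh K μ + Eh K' μ) / 2 := by
      have h0 := F6core696.Eh_mix (a := 1 / 2) (by norm_num) (by norm_num) hcK hcK'
        (AdmHalf606.adm_nonempty hKa) (AdmHalf606.adm_nonempty hK') μ
      have h' : Eh C μ = (1 - 1 / 2) * Eh K μ + 1 / 2 * Eh K' μ := h0
      rw [h']; ring
    have hlog : -dl + (Real.log ((gau (V.H i)).real K) + Real.log ((gau (V'.H i)).real K')) / 2
        ≤ Real.log ((gau (V.H i)).real C) := by
      rw [gau_real_apply _ hmeasK, gau_real_apply _ hmeasK', gau_real_apply _ hCm]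
      have h1 := Real.log_le_log (mul_pos (Real.exp_pos _) hsq) hb
      rw [Real.log_mul (Real.exp_pos _).ne' hsq.ne', Real.log_exp, Real.log_sqrt
        (mul_pos hKpos hK'pos).le, Real.log_mul hKpos.ne' hK'pos.ne'] at h1
      exact h1
    unfold val at hD hKv ⊢
    rw [hEh] at hD
    have h1 := mul_le_mul_of_nonneg_left hlog hlam.le
    nlinarith

/-! ### the sum -/

lemma sum_lam_le {p : Par} (hp : p.Ok) (i : ℕ) :
    ∑ l ∈ Finset.range i, p.lam l ≤ p.lam i / 15 := by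
  have hA := hp.A_ge
  have h1 : (∑ l ∈ Finset.range i, p.A ^ l) * (p.A - 1) = p.A ^ i - 1 := geom_sum_mul _ _
  have h2 : 0 ≤ ∑ l ∈ Finset.range i, p.A ^ l :=
    Finset.sum_nonneg fun l _ => pow_nonneg (by linarith) _
  have h3 : ∑ l ∈ Finset.range i, p.A ^ l ≤ p.A ^ i / 15 := by
    have : (∑ l ∈ Finset.range i, p.A ^ l) * 15 ≤ p.A ^ i - 1 := by
      rw [← h1]; exact mul_le_mul_of_nonneg_left (by linarith) h2
    linarith
  unfold Par.lam
  rw [← Finset.mul_sum]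
  have := mul_le_mul_of_nonneg_left h3 hp.tau_pos.le
  linarith

lemma lam_pred {p : Par} (hp : p.Ok) {i j : ℕ} (h : j + 1 = i) : p.lam j ≤ p.lam i / 16 := by
  subst h
  unfold Par.lam
  rw [pow_succ]
  have h1 : 0 < p.tau * p.A ^ j := mul_pos hp.tau_pos (pow_pos (by linarith [hp.A_ge]) _)
  nlinarith [hp.A_ge]

theorem J_dem {p : Par} (hp : p.Ok) {V : Flag E} {i : ℕ} {w : E} (hi : 1 ≤ i)
    (h : V.Q i w = w) (hw1 : ‖w‖ = 1) (hw : w ∈ (V.M (i + 1))ᗮ) {μ : Multiset E} {x : ℝ}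
    (hx : D p V i μ - x ≤ D p (dem V i w hw) i μ) :
    J p V μ + (9 / 10) * p.kap * p.lam i - x ≤ J p (dem V i w hw) μ := by
  have hlt : i < V.n := lt_n_of_Q h hw1
  obtain ⟨m, rfl⟩ : ∃ m, i = m + 1 := ⟨i - 1, by omega⟩
  set V' := dem V (m + 1) w hw with hV'
  have hkself : V'.k (m + 1) + 1 = V.k (m + 1) :=
    Dem853.kd_dem_self V.anti (mem_of_Q h) hw hw1
  have hkpred : V'.k m = V.k m + 1 := Dem853.kd_dem_pred V.anti rfl (mem_of_Q h) hw hw1
  -- termwise
  let g : ℕ → ℝ := fun l => (if l = m + 1 then p.kap * p.lam (m + 1) - x else 0)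
    - (if l < m + 1 then 2 / p.rho ^ 2 * p.lam l else 0)
    - (if l = m then p.kap * p.lam m else 0)
  have hterm : ∀ l ∈ Finset.range V.n,
      (D p V l μ - p.kap * p.lam l * V.k l) + g l ≤ D p V' l μ - p.kap * p.lam l * V'.k l := by
    intro l _
    rcases lt_trichotomy l (m + 1) with hl | hl | hl
    · have h1 := dem_D_lt hp hl h hw1 hw μ
      rcases eq_or_ne l m with hlm | hlm
      · subst hlm
        have hg : g l = - (2 / p.rho ^ 2 * p.lam l) - p.kap * p.lam l := by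
          simp [g]
        rw [hg, hkpred]
        push_cast
        nlinarith
      · have hk : V'.k l = V.k l := dem_k_ne V hw (by omega) (by omega)
        have hg : g l = - (2 / p.rho ^ 2 * p.lam l) := by
          simp only [g]
          rw [if_neg (by omega), if_pos hl, if_neg hlm]
          ring
        rw [hg, hk]
        linarith
    · subst hl
      have hg : g (m + 1) = p.kap * p.lam (m + 1) - x := by
        simp [g]
      have hk : (V.k (m + 1) : ℝ) = V'.k (m + 1) + 1 := by exact_mod_cast hkself.symm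
      rw [hg, hk]
      nlinarith
    · have hD : D p V' l μ = D p V l μ := dem_D_gt V hw hl μ
      have hk : V'.k l = V.k l := dem_k_ne V hw (by omega) (by omega)
      have hg : g l = 0 := by
        simp only [g]
        rw [if_neg (by omega), if_neg (by omega), if_neg (by omega)]
        ring
      rw [hg, hD, hk]
      linarith
  have hsum := Finset.sum_le_sum hterm
  rw [Finset.sum_add_distrib] at hsum
  have hg : ∑ l ∈ Finset.range V.n, g l
      = (p.kap * p.lam (m + 1) - x) - 2 / p.rho ^ 2 * ∑ l ∈ Finset.range (m + 1), p.lam l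
        - p.kap * p.lam m := by
    simp only [g]
    rw [Finset.sum_sub_distrib, Finset.sum_sub_distrib, Finset.sum_ite_eq', Finset.sum_ite_eq',
      if_pos (Finset.mem_range.2 hlt), if_pos (Finset.mem_range.2 (by omega))]
    congr 2
    rw [← Finset.sum_filter, Finset.mul_sum]
    refine Finset.sum_congr ?_ fun _ _ => rfl
    ext l
    simp only [Finset.mem_filter, Finset.mem_range]
    constructor
    · exact fun hl => hl.2
    · exact fun hl => ⟨by omega, hl⟩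
  rw [hg] at hsum
  have hJ : J p V μ = ∑ l ∈ Finset.range V.n, (D p V l μ - p.kap * p.lam l * V.k l) := rfl
  have hJ' : J p V' μ = ∑ l ∈ Finset.range V.n, (D p V' l μ - p.kap * p.lam l * V'.k l) := rfl
  rw [← hJ, ← hJ'] at hsum
  have h1 := sum_lam_le hp (m + 1)
  have h2 := lam_pred hp (i := m + 1) (j := m) rfl
  have hlam := lam_pos hp (m + 1)
  have hr2 : 0 < p.rho ^ 2 := by have := hp.rho_ge; positivity
  have h3 : 2 / p.rho ^ 2 ≤ p.kap / 8 := by
    rw [div_le_iff₀ hr2]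
    nlinarith [hp.kap_rho]
  have h3' : 0 ≤ 2 / p.rho ^ 2 := by positivity
  have h4 : 2 / p.rho ^ 2 * ∑ l ∈ Finset.range (m + 1), p.lam l
      ≤ p.kap / 8 * (p.lam (m + 1) / 15) :=
    mul_le_mul h3 h1 (Finset.sum_nonneg fun l _ => (lam_pos hp l).le)
      (by linarith [hp.kap_pos])
  have h5 : p.kap * p.lam m ≤ p.kap * (p.lam (m + 1) / 16) :=
    mul_le_mul_of_nonneg_left h2 hp.kap_pos.le
  nlinarith [mul_pos hp.kap_pos hlam]

/-- demotion: thin or improvable -/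
theorem thin_or {p : Par} (hp : p.Ok) {c' : ℝ} (hB : P_BEN E (p.kap / 16) c') (V : Flag E)
    (μ : Multiset E) {i : ℕ} (hi : 1 ≤ i) :
    ThinAt p V μ i c' (p.kap / 16) ∨ ∃ V' : Flag E, J p V μ + p.kap / 2 * p.lam i ≤ J p V' μ := by
  by_contra hcon
  rw [not_or] at hcon
  obtain ⟨h1, h2⟩ := hcon
  apply h1
  intro K hK w hw1 hQ
  by_contra hthick
  apply h2
  have hw := orth_of_Q hQ
  have hlev := dem_level hp (by linarith [hp.kap_pos]) hB hQ hw1 hw hK hthick
  have hJ := J_dem hp hi hQ hw1 hw hlev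
  refine ⟨dem V i w hw, ?_⟩
  have hlam := lam_pos hp i
  nlinarith [mul_pos hp.kap_pos hlam]

theorem target_THIN : Target_THIN := by
  intro kap hk hk1
  obtain ⟨c', hc0, hc1, hB⟩ := Ben331.target_BEN (kap / 16) (by positivity)
  refine ⟨c', kap / 16, 0, hc0, hc1, by positivity, ?_⟩
  intro d p hp hkap _ V μ i hi hmax
  subst hkap
  rcases thin_or hp (hB d) V μ hi with h | ⟨V', hV'⟩
  · exact h
  · exfalso
    have h1 := hmax V'
    have hlam := lam_pos hp i
    nlinarith [mul_pos hp.kap_pos hlam]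

end Crest.Agent.R239.Thin526
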