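import Crest.Agent.R239.Fl_597
import Crest.Agent.R239.DemLin_853
import Crest.Agent.R239.AnSym_853

/-! R239 (S0370), helper597: block F4, `Target_THIN` from `Target_BEN` (insurance, one hand).
Strong form `dem_or_thin`: every flag is thin at level `i ≥ 1` or the demotion of a block vector
increases `J` by `(kap/2) lam_i`. -/

set_option autoImplicit false
set_option linter.unusedSectionVars false
open MeasureTheory ProbabilityTheory Set Filter Topology
open scoped RealInnerProductSpace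

namespace Crest.Agent.R239.Thin597

open Crest.Agent.R239 Crest.Agent.R239.FD Crest.Agent.R239.Fl597

variable {E : Type*} [NormedAddCommGroup E] [InnerProductSpace ℝ E] [FiniteDimensional ℝ E]
  [MeasurableSpace E] [BorelSpace E]

/-- the demoted flag -/
noncomputable def dem (V : Flag E) (i : ℕ) (w : E) (hw' : w ∈ (V.M (i + 1))ᗮ) : Flag E where
  n := V.n
  M := Dem853.demM V.M i w
  anti := Dem853.demM_anti V.anti hw'
  bot := fun j hj => by
    rw [eq_bot_iff, ← V.bot j hj]; exact Dem853.demM_le V.M i w j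

variable {V : Flag E} {i : ℕ} {w : E}

/-! ### block vectors -/

lemma block_mem (hw : V.Q i w = w) : w ∈ V.M i := by
  have h1 : (V.M i).starProjection (Mom764.Q V.M i w) = Mom764.Q V.M i w :=
    Mom764.P_Q V.anti le_rfl w
  have h2 : Mom764.Q V.M i w = w := hw
  rw [h2] at h1
  exact Submodule.starProjection_eq_self_iff.1 h1

lemma block_perp (hw : V.Q i w = w) : w ∈ (V.M (i + 1))ᗮ := by
  have h1 : (V.M (i + 1)).starProjection (Mom764.Q V.M i w) = 0 :=
    Mom764.P_Q_zero V.anti (Nat.lt_succ_self i) w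
  have h2 : Mom764.Q V.M i w = w := hw
  rw [h2] at h1
  exact (Submodule.starProjection_apply_eq_zero_iff _).1 h1

lemma block_lt (hn : ‖w‖ = 1) (hw : V.Q i w = w) : i < V.n := by
  by_contra h
  have h1 := block_mem hw
  rw [V.bot i (not_lt.1 h)] at h1
  have : w = 0 := (Submodule.mem_bot ℝ).1 h1
  rw [this] at hn
  simp at hn

lemma H_block {l : ℕ} (hl : l ≤ i) (hi : i < V.n) (hw : V.Q i w = w) :
    V.H l w = th ^ (i - l) • w := by
  have h0 : V.H l w = ∑ j ∈ Finset.Ico l V.n, th ^ (j - l) • Mom764.Q V.M j w := by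
    rw [H_eq, Mom764.H_apply]
  have h2 : Mom764.Q V.M i w = w := hw
  rw [h0, Finset.sum_eq_single_of_mem i (Finset.mem_Ico.2 ⟨hl, hi⟩)]
  · rw [h2]
  · intro j _ hj
    rw [← h2, Mom764.Q_Q_ne V.anti hj, smul_zero]

lemma inner_H (l : ℕ) (x y : E) : ⟪V.H l x, y⟫ = ⟪x, V.H l y⟫ :=
  Mom764.inner_H_left (M := V.M) th V.n l x y

/-! ### the levels of the demoted flag -/

lemma dem_M_ne (hw' : w ∈ (V.M (i + 1))ᗮ) {l : ℕ} (h : l ≠ i) : (dem V i w hw').M l = V.M l :=
  Dem853.demM_ne V.M w h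

lemma dem_Q_gt (hw' : w ∈ (V.M (i + 1))ᗮ) {l : ℕ} (h : i < l) : (dem V i w hw').Q l = V.Q l :=
  Dem853.blkP_dem_ne V.M w (by omega) (by omega)

lemma dem_k_gt (hw' : w ∈ (V.M (i + 1))ᗮ) {l : ℕ} (h : i < l) : (dem V i w hw').k l = V.k l :=
  Dem853.kd_dem_ne V.M w (by omega) (by omega)

lemma dem_D_gt {p : Par} (hw' : w ∈ (V.M (i + 1))ᗮ) {l : ℕ} (h : i < l) (μ : Multiset E) :
    D p (dem V i w hw') l μ = D p V l μ := by
  have hH : (dem V i w hw').H l = V.H l := Dem853.Hm_dem_gt th V.n V.M w h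
  refine D_congr hH ?_ μ
  have hN : ∀ x, (dem V i w hw').N l x = V.N l x := by
    intro x
    unfold Flag.N
    refine Finset.sum_congr rfl fun j hj => ?_
    have := (Finset.mem_Ico.1 hj).1
    rw [dem_Q_gt hw' (by omega)]
  have hr : (dem V i w hw').rr l = V.rr l := by
    unfold Flag.rr
    refine Finset.sum_congr rfl fun j hj => ?_
    have := (Finset.mem_Ico.1 hj).1
    rw [dem_k_gt hw' (by omega)]
  unfold Flag.cap
  rw [hr, dem_M_ne hw' (by omega)]
  ext x
  simp only [mem_ofPred_eq, hN]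

/-- level `i`: the covariance loses `w` -/
lemma dem_H_self (hn : ‖w‖ = 1) (hw : V.Q i w = w) (hw' : w ∈ (V.M (i + 1))ᗮ) (x : E) :
    (dem V i w hw').H i x = V.H i x - ⟪w, x⟫ • w := by
  have h := Dem853.Hm_dem_self (M := V.M) th (block_lt hn hw) (block_mem hw) hn
  have h1 : (dem V i w hw').H i = V.H i - Dem853.rk1 w := h
  rw [h1]; rfl

lemma dem_cap_self {p : Par} (hn : ‖w‖ = 1) (hw : V.Q i w = w) (hw' : w ∈ (V.M (i + 1))ᗮ) :
    (dem V i w hw').cap p.rho i ⊆ V.cap p.rho i := by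
  have hin := block_lt hn hw
  rintro x ⟨h1, h2⟩
  have h1' : x ∈ V.M i ∧ ⟪w, x⟫ = 0 := by
    have : x ∈ Dem853.cutSub (V.M i) w := by
      have := h1
      change x ∈ Dem853.demM V.M i w i at this
      rwa [Dem853.demM_self] at this
    exact Dem853.mem_cutSub.1 this
  refine ⟨h1'.1, ?_⟩
  have hN : (dem V i w hw').N i x = V.N i x := by
    unfold Flag.N
    refine Finset.sum_congr rfl fun j hj => ?_
    have hj' := (Finset.mem_Ico.1 hj).1
    rcases hj'.eq_or_lt with h | h
    · subst h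
      have h3 : (dem V i w hw').Q i = V.Q i - Dem853.rk1 w := Dem853.blkP_dem_self (block_mem hw) hn
      rw [h3]
      simp [h1'.2]
    · rw [dem_Q_gt hw' h]
  have hr : (dem V i w hw').rr i + 1 = V.rr i := by
    unfold Flag.rr
    have e1 : (dem V i w hw').n = V.n := rfl
    rw [e1, Finset.sum_eq_sum_Ico_succ_bot hin, Finset.sum_eq_sum_Ico_succ_bot hin]
    have h4 : (dem V i w hw').k i + 1 = V.k i := Dem853.kd_dem_self V.anti (block_mem hw) hw' hn
    have h5 : ∑ j ∈ Finset.Ico (i + 1) V.n, th ^ (j - i) * ((dem V i w hw').k j : ℝ)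
        = ∑ j ∈ Finset.Ico (i + 1) V.n, th ^ (j - i) * (V.k j : ℝ) := by
      refine Finset.sum_congr rfl fun j hj => ?_
      rw [dem_k_gt hw' (by have := (Finset.mem_Ico.1 hj).1; omega)]
    rw [h5, ← h4]
    push_cast
    simp
    ring
  have h3 : p.rho ^ 2 * (dem V i w hw').rr i ≤ p.rho ^ 2 * V.rr i := by
    apply mul_le_mul_of_nonneg_left _ (sq_nonneg _)
    linarith
  rw [hN] at h2
  exact h2.trans h3

/-- level `l < i`: the covariance grows -/
lemma dem_H_lt (hn : ‖w‖ = 1) (hw : V.Q i w = w) (hw' : w ∈ (V.M (i + 1))ᗮ) {l : ℕ} (hl : l < i)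
    (t : E) : ‖V.H l t‖ ≤ ‖(dem V i w hw').H l t‖ := by
  have hin := block_lt hn hw
  have h := Dem853.Hm_dem_lt (M := V.M) th hin hl (block_mem hw) hn
  have h1 : (dem V i w hw').H l t = V.H l t + ((th ^ (i - 1 - l) - th ^ (i - l)) * ⟪w, t⟫) • w := by
    have : (dem V i w hw').H l = V.H l + (th ^ (i - 1 - l) - th ^ (i - l)) • Dem853.rk1 w := h
    rw [this]
    simp [smul_smul]
  set c : ℝ := th ^ (i - 1 - l) - th ^ (i - l) with hc
  have hc0 : 0 ≤ c := by
    rw [hc, sub_nonneg]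
    exact pow_le_pow_of_le_one th_pos.le th_lt_one.le (by omega)
  have h2 : ⟪w, V.H l t⟫ = th ^ (i - l) * ⟪w, t⟫ := by
    rw [← inner_H, H_block hl.le hin hw, real_inner_smul_left]
  rw [h1]
  apply le_of_sq_le_sq _ (norm_nonneg _)
  have h2' : ⟪V.H l t, w⟫ = th ^ (i - l) * ⟪w, t⟫ := by rw [real_inner_comm]; exact h2
  rw [norm_add_sq_real, norm_smul, hn, mul_one, Real.norm_eq_abs, sq_abs, real_inner_smul_right,
    h2']
  have h3 : 0 ≤ th ^ (i - l) := by have := th_pos; positivity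
  have h4 : 0 ≤ c * th ^ (i - l) * ⟪w, t⟫ ^ 2 := by positivity
  nlinarith [sq_nonneg (c * ⟪w, t⟫)]

lemma neg_log_le {x : ℝ} (h0 : 0 ≤ x) (h1 : x ≤ 1 / 2) : -Real.log (1 - x) ≤ 2 * x := by
  have h2 : 0 < 1 - x := by linarith
  have h3 := Real.one_sub_inv_le_log_of_pos h2
  have h4 : (1 - x)⁻¹ ≤ 1 + 2 * x := by
    rw [inv_le_comm₀ h2 (by linarith), ← one_div, div_le_iff₀ (by linarith)]
    nlinarith
  linarith

/-- level `l < i`: cost of one cut -/
lemma dem_D_lt {p : Par} (hp : p.Ok) (hn : ‖w‖ = 1) (hw : V.Q i w = w)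
    (hw' : w ∈ (V.M (i + 1))ᗮ) {l : ℕ} (hl : l < i) (μ : Multiset E) :
    D p V l μ ≤ D p (dem V i w hw') l μ + p.lam l * (2 * (1 / p.rho ^ 2)) := by
  have hlam := lam_pos hp l
  rw [← sub_le_iff_le_add]
  refine le_D hp fun K hK => ?_
  have mK := hK.1.measurableSet
  have h1 := cut V (one_lt_rho hp) l mK hK.2.1 hK.2.2.1
  have h2 : (gau ((dem V i w hw').H l)).real K ≤ (gau (V.H l)).real K := by
    have := AnSym853.gau_mono_symm (S := V.H l) (C := (dem V i w hw').H l)
      (fun t => by rw [adjoint_H, adjoint_H]; exact dem_H_lt hn hw hw' hl t) hK.1 hK.2.1 hK.2.2.1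
    exact ENNReal.toReal_mono (measure_ne_top _ _) this
  have h3 := adm_pos hK
  have hi1 := inv_rho_le hp
  have hi2 := inv_rho_nonneg p
  have h4 : (1 - 1 / p.rho ^ 2) * (gau ((dem V i w hw').H l)).real K
      ≤ (gau (V.H l)).real (K ∩ V.cap p.rho l) :=
    (mul_le_mul_of_nonneg_left h2 (by linarith)).trans h1
  have h5 : 0 < (1 - 1 / p.rho ^ 2) * (gau ((dem V i w hw').H l)).real K :=
    mul_pos (by linarith) h3
  have hadm : Adm p V l (K ∩ V.cap p.rho l) := by
    refine ⟨hK.1.inter (cap_closed V _ l), hK.2.1.inter (cap_convex V _ l), ?_,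
      inter_subset_right, h5.trans_le h4⟩
    rintro x ⟨hx1, hx2⟩
    exact ⟨hK.2.2.1 x hx1, cap_symm V _ l x hx2⟩
  have h6 := D_le hp hadm (μ := μ)
  have hne : (K ∩ V.cap p.rho l).Nonempty := ⟨0, adm_zero hK, cap_zero V _ l⟩
  have h7 : Eh (K ∩ V.cap p.rho l) μ ≤ Eh K μ :=
    Eh_mono (adm_compact hK) hne inter_subset_left μ
  have h8 := Real.log_le_log h5 h4
  rw [Real.log_mul (by linarith) h3.ne'] at h8
  have h9 := neg_log_le hi2 (by linarith)
  unfold val at h6 ⊢
  nlinarith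

/-! ### the sum over levels -/

lemma lam_mul (p : Par) (l : ℕ) : p.lam (l + 1) = p.A * p.lam l := by
  unfold Par.lam; ring

lemma sum_lam_le {p : Par} (hp : p.Ok) (i : ℕ) :
    ∑ l ∈ Finset.range i, p.lam l ≤ p.lam i / 15 := by
  induction i with
  | zero => have := lam_pos hp 0; simp; positivity
  | succ i ih =>
    rw [Finset.sum_range_succ, lam_mul]
    have := lam_pos hp i
    have := hp.A_ge
    nlinarith

/-- the demotion of `w` either increases `J` or `D_i` drops -/
lemma dem_J {p : Par} (hp : p.Ok) (hi : 1 ≤ i) (hn : ‖w‖ = 1) (hw : V.Q i w = w)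
    (hw' : w ∈ (V.M (i + 1))ᗮ) (μ : Multiset E) :
    J p V μ + (9 / 10 * (p.kap * p.lam i) - (D p V i μ - D p (dem V i w hw') i μ))
      ≤ J p (dem V i w hw') μ := by
  have hin := block_lt hn hw
  obtain ⟨m, rfl⟩ : ∃ m, i = m + 1 := ⟨i - 1, by omega⟩
  set V' := dem V (m + 1) w hw' with hV'
  have hk1 : V'.k (m + 1) + 1 = V.k (m + 1) := Dem853.kd_dem_self V.anti (block_mem hw) hw' hn
  have hk2 : V'.k m = V.k m + 1 := Dem853.kd_dem_pred V.anti rfl (block_mem hw) hw' hn
  have hk3 : ∀ l, l ≠ m → l ≠ m + 1 → V'.k l = V.k l := fun l h1 h2 =>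
    Dem853.kd_dem_ne V.M w h2 (by omega)
  -- termwise bound
  have hterm : ∀ l ∈ Finset.range V.n,
      (D p V l μ - p.kap * p.lam l * V.k l)
        + ((if l = m + 1 then p.kap * p.lam (m + 1) - (D p V (m + 1) μ - D p V' (m + 1) μ) else 0)
          - (if l = m then p.kap * p.lam m else 0)
          - (if l < m + 1 then p.lam l * (2 * (1 / p.rho ^ 2)) else 0))
      ≤ D p V' l μ - p.kap * p.lam l * V'.k l := by
    intro l _
    rcases lt_trichotomy l (m + 1) with h | h | h
    · have h1 := dem_D_lt hp hn hw hw' h μ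
      rw [← hV'] at h1
      rw [if_neg (by omega), if_pos h]
      by_cases h2 : l = m
      · subst h2
        rw [if_pos rfl, hk2]
        push_cast
        linarith
      · rw [if_neg h2, hk3 l h2 (by omega)]
        linarith
    · subst h
      rw [if_pos rfl, if_neg (by omega), if_neg (by omega), ← hk1]
      push_cast
      linarith
    · rw [if_neg (by omega), if_neg (by omega), if_neg (by omega), hk3 l (by omega) (by omega),
        hV', dem_D_gt hw' h]
      simp
  have hsum := Finset.sum_le_sum hterm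
  have hJ' : J p V' μ = ∑ l ∈ Finset.range V.n, (D p V' l μ - p.kap * p.lam l * V'.k l) := rfl
  have hJ : J p V μ = ∑ l ∈ Finset.range V.n, (D p V l μ - p.kap * p.lam l * V.k l) := rfl
  rw [← hJ', Finset.sum_add_distrib, ← hJ, Finset.sum_sub_distrib, Finset.sum_sub_distrib,
    Finset.sum_ite_eq', Finset.sum_ite_eq', if_pos (Finset.mem_range.2 hin),
    if_pos (Finset.mem_range.2 (by omega))] at hsum
  have h3 : ∑ l ∈ Finset.range V.n, (if l < m + 1 then p.lam l * (2 * (1 / p.rho ^ 2)) else 0)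
      ≤ p.lam (m + 1) / 15 * (2 * (1 / p.rho ^ 2)) := by
    have hi2 := inv_rho_nonneg p
    rw [← Finset.sum_filter]
    have e : (Finset.range V.n).filter (fun l => l < m + 1) = Finset.range (m + 1) := by
      ext l; simp; omega
    rw [e, ← Finset.sum_mul]
    exact mul_le_mul_of_nonneg_right (sum_lam_le hp (m + 1)) (by positivity)
  have h4 : 16 * (1 / p.rho ^ 2) ≤ p.kap := by
    have h5 := hp.kap_rho
    have h6 : 0 < p.rho ^ 2 := by have := hp.rho_ge; positivity
    rw [mul_one_div, div_le_iff₀ h6]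
    exact h5
  have h5 := lam_pos hp m
  have h6 := lam_mul p m
  have h7 := hp.A_ge
  have h8 := hp.kap_pos
  have h9 : 16 * p.lam m ≤ p.lam (m + 1) := by rw [h6]; nlinarith
  have h10 := lam_pos hp (m + 1)
  have h11 : p.kap * (16 * p.lam m) ≤ p.kap * p.lam (m + 1) := mul_le_mul_of_nonneg_left h9 h8.le
  have h12 : p.lam (m + 1) * (16 * (1 / p.rho ^ 2)) ≤ p.lam (m + 1) * p.kap :=
    mul_le_mul_of_nonneg_left h4 h10.le
  have h13 : 0 < p.kap * p.lam (m + 1) := mul_pos h8 h10
  nlinarith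

/-! ### level `i`: removable or thin -/

lemma dem_level {p : Par} (hp : p.Ok) {dl c' : ℝ} (hB : P_BEN E dl c') (hn : ‖w‖ = 1)
    (hw : V.Q i w = w) (hw' : w ∈ (V.M (i + 1))ᗮ) {μ : Multiset E} {K : Set E} {sl : ℝ}
    (hK : NearOpt p V i μ K sl) :
    (∫ x in K, ⟪w, x⟫ ^ 2 ∂(gau (V.H i))) ≤ (1 - c') * (gau (V.H i)).real K ∨
      D p V i μ - D p (dem V i w hw') i μ ≤ sl + 2 * dl * p.lam i := by
  have hin := block_lt hn hw
  have hlam := lam_pos hp i
  obtain ⟨hK, hKval⟩ := hK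
  set V' := dem V i w hw' with hV'
  have hHw : V.H i w = w := by
    rw [H_block le_rfl hin hw]; simp
  have hH' : ∀ x, V'.H i x = V.H i x - ⟪w, x⟫ • w := dem_H_self hn hw hw'
  have hH'w : V'.H i w = 0 := by
    rw [hH', hHw, real_inner_self_eq_norm_sq, hn]; simp
  by_cases hthin : (∫ x in K, ⟪w, x⟫ ^ 2 ∂(gau (V.H i))) ≤ (1 - c') * (gau (V.H i)).real K
  · exact Or.inl hthin
  right
  refine le_of_forall_pos_le_add fun e he => ?_
  obtain ⟨K', hK', hK'val⟩ := exists_near hp V' i μ he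
  have cK := adm_compact hK
  have cK' := adm_compact hK'
  have nK : K.Nonempty := ⟨0, adm_zero hK⟩
  have nK' : K'.Nonempty := ⟨0, adm_zero hK'⟩
  set C := F6core696.mix (1 / 2) K K' with hC
  have cC : IsCompact C := F6core696.mix_compact cK cK'
  have hben := hB w hn (V.H i ⁻¹' K) (V'.H i ⁻¹' K') (V.H i ⁻¹' C)
    (hK.1.preimage (V.H i).continuous) (Dom640.pre_conv (V.H i) hK.2.1)
    (Dom640.pre_symm (V.H i) hK.2.2.1)
    (hK'.1.preimage (V'.H i).continuous) (Dom640.pre_conv (V'.H i) hK'.2.1)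
    (Dom640.pre_symm (V'.H i) hK'.2.2.1) (cC.isClosed.preimage (V.H i).continuous)
    (fun x => by simp only [mem_preimage, map_sub, map_smul, hH'w, smul_zero, sub_zero])
    (by
      intro x hx y hy hwy
      simp only [mem_preimage] at hx hy ⊢
      rw [map_add, map_smul, map_smul]
      refine F6core696.mem_mix.2 ⟨V.H i x, hx, V'.H i y, hy, ?_⟩
      rw [hH' y, hwy, zero_smul, sub_zero]
      norm_num)
  have hmeasK : (stdGaussian E).real (V.H i ⁻¹' K) = (gau (V.H i)).real K :=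
    (gau_real_apply _ hK.1.measurableSet).symm
  have hmeasK' : (stdGaussian E).real (V'.H i ⁻¹' K') = (gau (V'.H i)).real K' :=
    (gau_real_apply _ hK'.1.measurableSet).symm
  have hmeasC : (stdGaussian E).real (V.H i ⁻¹' C) = (gau (V.H i)).real C :=
    (gau_real_apply _ cC.isClosed.measurableSet).symm
  rw [hmeasK, hmeasK', hmeasC] at hben
  have hint : (∫ x in K, ⟪w, x⟫ ^ 2 ∂(gau (V.H i)))
      = ∫ g in V.H i ⁻¹' K, ⟪w, g⟫ ^ 2 ∂(stdGaussian E) := by
    unfold gau
    rw [setIntegral_map hK.1.measurableSet (by fun_prop) (V.H i).continuous.aemeasurable]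
    refine integral_congr_ae (Eventually.of_forall fun g => ?_)
    show ⟪w, V.H i g⟫ ^ 2 = ⟪w, g⟫ ^ 2
    rw [← inner_H, hHw]
  rw [← hint] at hben
  rcases hben with hben | hben
  · exact absurd hben hthin
  have p1 := adm_pos hK
  have p2 := adm_pos hK'
  have hCpos : 0 < Real.exp (-dl) * Real.sqrt ((gau (V.H i)).real K * (gau (V'.H i)).real K') := by
    positivity
  have hadm : Adm p V i C := by
    refine ⟨cC.isClosed, F6core696.mix_convex hK.2.1 hK'.2.1, F6core696.mix_neg hK.2.2.1 hK'.2.2.1,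
      ?_, hCpos.trans_le hben⟩
    exact F6core696.mix_subset (by norm_num) (by norm_num) (cap_convex V _ i) hK.2.2.2.1
      (hK'.2.2.2.1.trans (dem_cap_self hn hw hw'))
  have h1 := D_le hp hadm (μ := μ)
  have h2 : Eh C μ = (1 - 1 / 2) * Eh K μ + 1 / 2 * Eh K' μ :=
    F6core696.Eh_mix (by norm_num) (by norm_num) cK cK' nK nK' μ
  have h3 := Real.log_le_log hCpos hben
  rw [Real.log_mul (Real.exp_pos _).ne' (by positivity), Real.log_exp, Real.log_sqrt (by positivity),
    Real.log_mul p1.ne' p2.ne'] at h3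
  unfold val at h1 hKval hK'val
  rw [h2] at h1
  nlinarith

/-- **strong form**: thin or demotable -/
theorem dem_or_thin {p : Par} (hp : p.Ok) {c' : ℝ} (hB : P_BEN E (p.kap / 16) c') (V : Flag E)
    (μ : Multiset E) (i : ℕ) (hi : 1 ≤ i) :
    ThinAt p V μ i c' (p.kap / 8) ∨ ∃ V' : Flag E, J p V μ + p.kap / 2 * p.lam i ≤ J p V' μ := by
  by_cases h : ThinAt p V μ i c' (p.kap / 8)
  · exact Or.inl h
  right
  unfold ThinAt at h
  push Not at h
  obtain ⟨K, hK, w, hn, hw, hlt⟩ := h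
  have hw' := block_perp hw
  refine ⟨dem V i w hw', ?_⟩
  have h1 := dem_J hp hi hn hw hw' μ
  rcases dem_level hp hB hn hw hw' hK with h2 | h2
  · exact absurd h2 (not_le.2 hlt)
  · have := lam_pos hp i
    have := hp.kap_pos
    have h3 : 0 < p.kap * p.lam i := by positivity
    nlinarith

theorem target_THIN (hBEN : Target_BEN) : Target_THIN := by
  intro kap h0 h1
  obtain ⟨c', hc0, hc1, hB⟩ := hBEN (kap / 16) (by positivity)
  refine ⟨c', kap / 8, 0, hc0, hc1, by positivity, fun d p hp hk _ => ?_⟩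
  intro V μ i hi hmax
  subst hk
  rcases dem_or_thin hp (hB d) V μ i hi with h | ⟨V', hV'⟩
  · exact h
  · exfalso
    have h2 := hmax V'
    have := lam_pos hp i
    have := hp.kap_pos
    have h3 : 0 < p.kap * p.lam i := by positivity
    nlinarith

end Crest.Agent.R239.Thin597
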