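import Crest.Agent.R239.AdmHalf_606

/-! R239, block F4b (helper787): level `i` of the demotion step.  If removing the block direction `w`
from `M i` lowers `D_i` by a fixed multiple of `lam i`, then every near-optimal body of level `i` is
thin in direction `w` (benefit lemma `P_BEN` applied to the half sum). -/

set_option autoImplicit false
set_option linter.unusedSectionVars false
open MeasureTheory ProbabilityTheory Set Filter Topology
open scoped RealInnerProductSpace

namespace Crest.Agent.R239.Thin787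

open Crest.Agent.R239 Crest.Agent.R239.FD Crest.Agent.R239.AdmHalf606

variable {E : Type*} [NormedAddCommGroup E] [InnerProductSpace ℝ E] [FiniteDimensional ℝ E]
  [MeasurableSpace E] [BorelSpace E]

/-- what is used of the demoted flag at level `i` -/
structure DemAt (V V' : Flag E) (i : ℕ) (w : E) : Prop where
  n_eq : V'.n = V.n
  Mi : V'.M i = V.M i ⊓ (ℝ ∙ w)ᗮ
  Mgt : ∀ j, i < j → V'.M j = V.M j

section lin

variable {V V' : Flag E} {i : ℕ} {w : E}

lemma mem_of_Q (hQ : V.Q i w = w) : w ∈ V.M i := by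
  rw [← hQ]
  exact FlagAlg557.Q_mem (M := V.M) V.anti i w

lemma P_succ_of_Q (hQ : V.Q i w = w) {j : ℕ} (hj : i < j) : V.P j w = 0 := by
  rw [← hQ]
  exact FlagAlg557.P_Q_of_lt (M := V.M) V.anti hj w

lemma Q_gt_of_Q (hQ : V.Q i w = w) {j : ℕ} (hj : i < j) : V.Q j w = 0 := by
  rw [← hQ]
  exact FlagAlg557.Q_Q_ne (M := V.M) V.anti (Nat.ne_of_gt hj) w

lemma lt_n (hw : ‖w‖ = 1) (hQ : V.Q i w = w) : i < V.n := by
  by_contra h
  have h1 := mem_of_Q hQ
  rw [V.bot i (by omega), Submodule.mem_bot] at h1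
  rw [h1] at hw
  simp at hw

lemma proj_cut {M : Submodule ℝ E} (hw : w ∈ M) (hn : ‖w‖ = 1) (x : E) :
    (M ⊓ (ℝ ∙ w)ᗮ).starProjection x = M.starProjection x - ⟪w, x⟫ • w := by
  have h1 : ⟪w, M.starProjection x⟫ = ⟪w, x⟫ := by
    rw [← Submodule.inner_starProjection_left_eq_right, Submodule.starProjection_eq_self_iff.2 hw]
  refine Submodule.eq_starProjection_of_mem_of_inner_eq_zero ?_ ?_
  · rw [Submodule.mem_inf, Submodule.mem_orthogonal_singleton_iff_inner_right]
    refine ⟨M.sub_mem (M.starProjection_apply_mem x) (M.smul_mem _ hw), ?_⟩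
    rw [inner_sub_right, inner_smul_right, real_inner_self_eq_norm_sq, hn, h1]
    ring
  · intro y hy
    rw [Submodule.mem_inf, Submodule.mem_orthogonal_singleton_iff_inner_right] at hy
    have h2 : ⟪x - M.starProjection x, y⟫ = 0 := M.starProjection_inner_eq_zero x y hy.1
    have h3 : x - (M.starProjection x - ⟪w, x⟫ • w) = (x - M.starProjection x) + ⟪w, x⟫ • w := by
      abel
    rw [h3, inner_add_left, h2, inner_smul_left, hy.2]
    simp

lemma P_dem_self (hd : DemAt V V' i w) (hw : ‖w‖ = 1) (hQ : V.Q i w = w) (x : E) :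
    V'.P i x = V.P i x - ⟪w, x⟫ • w := by
  have h := proj_cut (mem_of_Q hQ) hw x
  unfold Flag.P
  have e : (V'.M i).starProjection = (V.M i ⊓ (ℝ ∙ w)ᗮ).starProjection := by rw [hd.Mi]
  rw [e]; exact h

lemma starProj_congr {A B : Submodule ℝ E} (h : A = B) : A.starProjection = B.starProjection := by
  subst h; rfl

lemma P_dem_gt (hd : DemAt V V' i w) {j : ℕ} (hj : i < j) (x : E) : V'.P j x = V.P j x := by
  unfold Flag.P
  rw [starProj_congr (hd.Mgt j hj)]

lemma Q_dem_self (hd : DemAt V V' i w) (hw : ‖w‖ = 1) (hQ : V.Q i w = w) (x : E) :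
    V'.Q i x = V.Q i x - ⟪w, x⟫ • w := by
  have h1 : V'.Q i x = V'.P i x - V'.P (i + 1) x := rfl
  have h2 : V.Q i x = V.P i x - V.P (i + 1) x := rfl
  rw [h1, h2, P_dem_self hd hw hQ, P_dem_gt hd (Nat.lt_succ_self i)]
  abel

lemma Q_dem_gt (hd : DemAt V V' i w) {j : ℕ} (hj : i < j) (x : E) : V'.Q j x = V.Q j x := by
  have h1 : V'.Q j x = V'.P j x - V'.P (j + 1) x := rfl
  have h2 : V.Q j x = V.P j x - V.P (j + 1) x := rfl
  rw [h1, h2, P_dem_gt hd hj, P_dem_gt hd (Nat.lt_succ_of_lt hj)]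

lemma H_apply (V : Flag E) (i : ℕ) (x : E) :
    V.H i x = ∑ j ∈ Finset.Ico i V.n, th ^ (j - i) • V.Q j x := by
  unfold Flag.H
  rw [sum_apply]
  rfl

lemma H_dem_self (hd : DemAt V V' i w) (hw : ‖w‖ = 1) (hQ : V.Q i w = w) (x : E) :
    V'.H i x = V.H i x - ⟪w, x⟫ • w := by
  have hin := lt_n hw hQ
  rw [H_apply, H_apply, hd.n_eq, Finset.sum_eq_sum_Ico_succ_bot hin,
    Finset.sum_eq_sum_Ico_succ_bot hin, Nat.sub_self, pow_zero, one_smul, one_smul,
    Q_dem_self hd hw hQ]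
  have h : ∑ j ∈ Finset.Ico (i + 1) V.n, th ^ (j - i) • V'.Q j x
      = ∑ j ∈ Finset.Ico (i + 1) V.n, th ^ (j - i) • V.Q j x := by
    refine Finset.sum_congr rfl fun j hj => ?_
    rw [Finset.mem_Ico] at hj
    rw [Q_dem_gt hd (by omega)]
  rw [h]
  abel

lemma H_w (hw : ‖w‖ = 1) (hQ : V.Q i w = w) : V.H i w = w := by
  have hin := lt_n hw hQ
  rw [H_apply, Finset.sum_eq_sum_Ico_succ_bot hin, Nat.sub_self, pow_zero, one_smul, hQ]
  have h : ∑ j ∈ Finset.Ico (i + 1) V.n, th ^ (j - i) • V.Q j w = 0 := by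
    refine Finset.sum_eq_zero fun j hj => ?_
    rw [Finset.mem_Ico] at hj
    rw [Q_gt_of_Q hQ (by omega), smul_zero]
  rw [h, add_zero]

lemma inner_H (V : Flag E) (i : ℕ) (x y : E) : ⟪V.H i x, y⟫ = ⟪x, V.H i y⟫ := by
  have h := FlagAlg557.inner_comb_comm (M := V.M) i V.n (fun j => th ^ (j - i)) x y
  exact h

lemma inner_w_H (hw : ‖w‖ = 1) (hQ : V.Q i w = w) (x : E) : ⟪w, V.H i x⟫ = ⟪w, x⟫ := by
  rw [← inner_H, H_w hw hQ]

lemma N_dem (hd : DemAt V V' i w) (hw : ‖w‖ = 1) (hQ : V.Q i w = w) {x : E} (hx : ⟪w, x⟫ = 0) :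
    V'.N i x = V.N i x := by
  have hin := lt_n hw hQ
  unfold Flag.N
  rw [hd.n_eq]
  refine Finset.sum_congr rfl fun j hj => ?_
  rw [Finset.mem_Ico] at hj
  rcases Nat.eq_or_lt_of_le hj.1 with h | h
  · subst h
    rw [Q_dem_self hd hw hQ, hx, zero_smul, sub_zero]
  · rw [Q_dem_gt hd h]

lemma rr_dem (hd : DemAt V V' i w) : V'.rr i ≤ V.rr i := by
  unfold Flag.rr
  rw [hd.n_eq]
  refine Finset.sum_le_sum fun j hj => ?_
  rw [Finset.mem_Ico] at hj
  refine mul_le_mul_of_nonneg_left ?_ (pow_nonneg th_pos.le _)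
  have h : V'.k j ≤ V.k j := by
    unfold Flag.k
    rcases Nat.eq_or_lt_of_le hj.1 with h | h
    · subst h
      rw [hd.Mgt _ (Nat.lt_succ_self _)]
      refine Nat.sub_le_sub_right ?_ _
      rw [hd.Mi]
      exact Submodule.finrank_mono inf_le_left
    · rw [hd.Mgt _ h, hd.Mgt _ (Nat.lt_succ_of_lt h)]
  exact_mod_cast h

lemma inner_of_mem (hd : DemAt V V' i w) {x : E} (hx : x ∈ V'.M i) : x ∈ V.M i ∧ ⟪w, x⟫ = 0 := by
  rw [hd.Mi, Submodule.mem_inf, Submodule.mem_orthogonal_singleton_iff_inner_right] at hx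
  exact hx

lemma cap_dem (hd : DemAt V V' i w) (hw : ‖w‖ = 1) (hQ : V.Q i w = w) (rho : ℝ) :
    V'.cap rho i ⊆ V.cap rho i := by
  rintro x ⟨hx1, hx2⟩
  have hx := inner_of_mem hd hx1
  refine ⟨hx.1, ?_⟩
  rw [N_dem hd hw hQ hx.2] at hx2
  exact hx2.trans (mul_le_mul_of_nonneg_left (rr_dem hd) (sq_nonneg _))

end lin

section basic

variable {p : Par} {V : Flag E} {i : ℕ} {K : Set E}

lemma hs_nonneg' (h : Adm p V i K) (z : E) : 0 ≤ hs K z := by
  have h1 : ⟪(0 : E), z⟫ ≤ hs K z :=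
    le_csSup (F6core696.bdd_of_compact (adm_compact h) z) ⟨0, adm_zero h, rfl⟩
  simpa using h1

lemma Eh_nonneg' (h : Adm p V i K) (μ : Multiset E) : 0 ≤ Eh K μ := by
  unfold Eh
  refine Multiset.sum_nonneg ?_
  intro a ha
  rw [Multiset.mem_map] at ha
  obtain ⟨z, _, rfl⟩ := ha
  exact hs_nonneg' h z

lemma gau_real_le_one (A : E →L[ℝ] E) (K : Set E) : (gau A).real K ≤ 1 := by
  have : IsProbabilityMeasure (gau A) := by
    unfold gau
    exact Measure.isProbabilityMeasure_map A.continuous.aemeasurable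
  exact measureReal_le_one

lemma val_nonneg' (hl : 0 ≤ p.lam i) (h : Adm p V i K) (μ : Multiset E) : 0 ≤ val p V i μ K := by
  unfold val
  have h1 := Eh_nonneg' h μ
  have h2 : Real.log ((gau (V.H i)).real K) ≤ 0 :=
    Real.log_nonpos h.2.2.2.2.le (gau_real_le_one _ _)
  nlinarith

lemma D_le_val (hl : 0 ≤ p.lam i) (h : Adm p V i K) (μ : Multiset E) :
    D p V i μ ≤ val p V i μ K := by
  unfold D
  refine csInf_le ⟨0, ?_⟩ ⟨K, h, rfl⟩
  rintro _ ⟨K, hK, rfl⟩
  exact val_nonneg' hl hK μ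

lemma exists_near' (hne : ∃ K, Adm p V i K) (μ : Multiset E) {c : ℝ} (hc : D p V i μ < c) :
    ∃ K, Adm p V i K ∧ val p V i μ K < c := by
  obtain ⟨K0, hK0⟩ := hne
  unfold D at hc
  obtain ⟨_, ⟨K, hK, rfl⟩, h⟩ := exists_lt_of_csInf_lt (Set.Nonempty.image _ ⟨K0, hK0⟩) hc
  exact ⟨K, hK, h⟩

end basic

section main

variable {p : Par} {V V' : Flag E} {i : ℕ} {w : E}

/-- **F4b**: at a level where the demotion of `w` costs more than `2 dl lam + sl`, bodies that are
`sl`-near-optimal are thin in direction `w`. -/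
theorem thin_level {dl c' : ℝ} (hB : P_BEN E dl c') (hl : 0 ≤ p.lam i)
    (hw : ‖w‖ = 1) (hQ : V.Q i w = w) (hd : DemAt V V' i w) (hne : ∃ K', Adm p V' i K')
    {μ : Multiset E} {sl : ℝ} (hD : D p V' i μ + 2 * dl * p.lam i + sl < D p V i μ)
    {K : Set E} (hK : NearOpt p V i μ K sl) :
    (∫ x in K, ⟪w, x⟫ ^ 2 ∂(gau (V.H i))) ≤ (1 - c') * (gau (V.H i)).real K := by
  obtain ⟨hKa, hKv⟩ := hK
  set gap : ℝ := D p V i μ - D p V' i μ - 2 * dl * p.lam i - sl with hgap
  have hgap0 : 0 < gap := by rw [hgap]; linarith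
  obtain ⟨K', hK'a, hK'v⟩ := exists_near' (p := p) (V := V') (i := i) hne μ
    (c := D p V' i μ + gap / 2) (by linarith)
  -- measurability and the g-space sets
  have mK : MeasurableSet K := hKa.1.measurableSet
  have mK' : MeasurableSet K' := hK'a.1.measurableSet
  have hK'cap : K' ⊆ V.cap p.rho i := hK'a.2.2.2.1.trans (cap_dem hd hw hQ p.rho)
  have cK := adm_compact hKa
  have cK' : IsCompact K' := adm_compact hK'a
  have cC : IsCompact (half K K') := F6core696.mix_compact cK cK'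
  have hH'0 : ∀ x : E, V'.H i x = V.H i x - ⟪w, x⟫ • w := H_dem_self hd hw hQ
  have key := hB w hw (V.H i ⁻¹' K) (V'.H i ⁻¹' K') (V.H i ⁻¹' (half K K'))
    (hKa.1.preimage (V.H i).continuous)
    (hKa.2.1.is_linear_preimage ⟨map_add (V.H i), map_smul (V.H i)⟩)
    (fun x hx => by
      rw [mem_preimage, map_neg]; exact hKa.2.2.1 _ hx)
    (hK'a.1.preimage (V'.H i).continuous)
    (hK'a.2.1.is_linear_preimage ⟨map_add (V'.H i), map_smul (V'.H i)⟩)
    (fun x hx => by
      rw [mem_preimage, map_neg]; exact hK'a.2.2.1 _ hx)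
    (cC.isClosed.preimage (V.H i).continuous)
    (fun x => by
      have h1 : V'.H i (x - ⟪w, x⟫ • w) = V'.H i x := by
        rw [map_sub, map_smul]
        have h2 : V'.H i w = 0 := by
          rw [hH'0, H_w hw hQ, real_inner_self_eq_norm_sq, hw]; simp
        rw [h2]; simp
      rw [mem_preimage, mem_preimage, h1])
    (fun x hx y hy hwy => by
      rw [mem_preimage, mem_half]
      refine ⟨V.H i x, hx, V.H i y, ?_, by rw [map_add, map_smul, map_smul]⟩
      rw [mem_preimage, hH'0, hwy, zero_smul, sub_zero] at hy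
      exact hy)
  have eK : (stdGaussian E).real (V.H i ⁻¹' K) = (gau (V.H i)).real K :=
    (gau_real_apply (V.H i) mK).symm
  have eK' : (stdGaussian E).real (V'.H i ⁻¹' K') = (gau (V'.H i)).real K' :=
    (gau_real_apply (V'.H i) mK').symm
  have eC : (stdGaussian E).real (V.H i ⁻¹' (half K K')) = (gau (V.H i)).real (half K K') :=
    (gau_real_apply (V.H i) cC.measurableSet).symm
  rcases key with h | h
  · -- thin
    have eI : (∫ x in K, ⟪w, x⟫ ^ 2 ∂(gau (V.H i)))
        = ∫ g in V.H i ⁻¹' K, ⟪w, g⟫ ^ 2 ∂(stdGaussian E) := by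
      have h1 : (∫ x in K, ⟪w, x⟫ ^ 2 ∂(gau (V.H i)))
          = ∫ g in V.H i ⁻¹' K, ⟪w, V.H i g⟫ ^ 2 ∂(stdGaussian E) := by
        unfold gau
        rw [setIntegral_map mK (by fun_prop) (V.H i).continuous.aemeasurable]
      rw [h1]
      refine setIntegral_congr_fun ((V.H i).continuous.measurable mK) fun g _ => ?_
      simp only [inner_w_H hw hQ]
    rw [eI, ← eK]
    exact h
  · exfalso
    rw [eK, eK', eC] at h
    have pK : 0 < (gau (V.H i)).real K := hKa.2.2.2.2
    have pK' : 0 < (gau (V'.H i)).real K' := hK'a.2.2.2.2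
    have pC : 0 < (gau (V.H i)).real (half K K') :=
      lt_of_lt_of_le (by positivity) h
    have hlog : -dl + (Real.log ((gau (V.H i)).real K) + Real.log ((gau (V'.H i)).real K')) / 2
        ≤ Real.log ((gau (V.H i)).real (half K K')) := by
      have h2 := Real.log_le_log (by positivity) h
      rw [Real.log_mul (Real.exp_pos _).ne' (by positivity), Real.log_exp,
        Real.log_sqrt (by positivity), Real.log_mul pK.ne' pK'.ne'] at h2
      linarith
    have hAdm : Adm p V i (half K K') := by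
      refine ⟨cC.isClosed, F6core696.mix_convex hKa.2.1 hK'a.2.1,
        F6core696.mix_neg hKa.2.2.1 hK'a.2.2.1,
        F6core696.mix_subset (by norm_num) (by norm_num) (cap_convex V i p.rho) hKa.2.2.2.1 hK'cap,
        pC⟩
    have hEh : Eh (half K K') μ = (Eh K μ + Eh K' μ) / 2 := by
      have h := F6core696.Eh_mix (a := 1 / 2) (by norm_num) (by norm_num) cK cK'
        (adm_nonempty hKa) (adm_nonempty hK'a) μ
      have h' : Eh (half K K') μ = (1 - 1 / 2) * Eh K μ + 1 / 2 * Eh K' μ := h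
      rw [h']; ring
    have hDC := D_le_val hl hAdm μ
    unfold val at hDC hKv hK'v
    rw [hEh] at hDC
    have hlam := mul_le_mul_of_nonneg_left hlog hl
    have : D p V i μ ≤ (D p V i μ + sl) / 2 + (D p V' i μ + gap / 2) / 2 + dl * p.lam i := by
      nlinarith
    linarith

end main

end Crest.Agent.R239.Thin787
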