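import Crest.Agent.R239.CapE_824
import Crest.Agent.R239.DemLin_853
import Crest.Agent.R239.AnSym_853
import Crest.Agent.R239.BenT_331

/-! R239 (helper824, insurance): demotion and thinness, `target_THIN`. -/

set_option autoImplicit false
set_option linter.unusedSectionVars false
open MeasureTheory ProbabilityTheory Set
open scoped RealInnerProductSpace

namespace Crest.Agent.R239.Thin824

open Crest.Agent.R239.FD
open Crest.Agent.R239.CapE824
open Crest.Agent.R239.Dem853 (cutSub demM blkP Hm kd rk1)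
open Crest.Agent.R239 (gau gau_real_apply)

variable {E : Type*} [NormedAddCommGroup E] [InnerProductSpace ℝ E] [FiniteDimensional ℝ E]
  [MeasurableSpace E] [BorelSpace E]

/-- the demoted flag -/
noncomputable def dem (V : Flag E) (i : ℕ) (w : E) (hw' : w ∈ (V.M (i + 1))ᗮ) : Flag E where
  n := V.n
  M := demM V.M i w
  anti := Dem853.demM_anti V.anti hw'
  bot := fun j hj => by
    have h := Dem853.demM_le V.M i w j
    rw [V.bot j hj] at h
    exact le_bot_iff.1 h

section
variable {V : Flag E} {i : ℕ} {w : E} {hw' : w ∈ (V.M (i + 1))ᗮ}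

lemma dem_n : (dem V i w hw').n = V.n := rfl
lemma dem_M_ne {l : ℕ} (h : l ≠ i) : (dem V i w hw').M l = V.M l := Dem853.demM_ne V.M w h
lemma dem_M_self : (dem V i w hw').M i = cutSub (V.M i) w := Dem853.demM_self V.M i w
lemma dem_Q_ne {j : ℕ} (h : j ≠ i) (h' : j + 1 ≠ i) : (dem V i w hw').Q j = V.Q j :=
  Dem853.blkP_dem_ne V.M w h h'
lemma dem_k_ne {j : ℕ} (h : j ≠ i) (h' : j + 1 ≠ i) : (dem V i w hw').k j = V.k j :=
  Dem853.kd_dem_ne V.M w h h'

/-- two flags which agree from level `l` on have the same `D l` -/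
lemma D_congr (p : Par) {V W : Flag E} {l : ℕ} (hn : W.n = V.n) (hM : ∀ j, l ≤ j → W.M j = V.M j)
    (μ : Multiset E) : D p W l μ = D p V l μ := by
  have hQ : ∀ j, l ≤ j → W.Q j = V.Q j := by
    intro j hj
    unfold Flag.Q Flag.P
    rw [Dem853.starProj_congr (hM j hj), Dem853.starProj_congr (hM (j+1) (by omega))]
  have hk : ∀ j, l ≤ j → W.k j = V.k j := by
    intro j hj
    unfold Flag.k
    rw [hM j hj, hM (j+1) (by omega)]
  have hH : W.H l = V.H l := by
    unfold Flag.H
    rw [hn]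
    exact Finset.sum_congr rfl fun j hj => by rw [hQ j (Finset.mem_Ico.1 hj).1]
  have hN : ∀ x, W.N l x = V.N l x := by
    intro x
    unfold Flag.N
    rw [hn]
    exact Finset.sum_congr rfl fun j hj => by rw [hQ j (Finset.mem_Ico.1 hj).1]
  have hr : W.rr l = V.rr l := by
    unfold Flag.rr
    rw [hn]
    exact Finset.sum_congr rfl fun j hj => by rw [hk j (Finset.mem_Ico.1 hj).1]
  have hcap : W.cap p.rho l = V.cap p.rho l := by
    unfold Flag.cap
    ext x
    simp only [mem_ofPred_eq, hM l le_rfl, hN, hr]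
  have hA : ∀ K, Adm p W l K ↔ Adm p V l K := by
    intro K
    unfold Adm
    rw [hcap, hH]
  unfold D
  congr 1
  ext y
  simp only [mem_image, mem_ofPred_eq]
  constructor
  · rintro ⟨K, hK, rfl⟩
    exact ⟨K, (hA K).1 hK, by unfold val; rw [hH]⟩
  · rintro ⟨K, hK, rfl⟩
    exact ⟨K, (hA K).2 hK, by unfold val; rw [hH]⟩

lemma adjoint_H (V : Flag E) (l : ℕ) : (V.H l).adjoint = V.H l :=
  Mom764.adjoint_H th V.n l

lemma H_w (hin : i < V.n) (hw : w ∈ V.M i) (hw' : w ∈ (V.M (i + 1))ᗮ) {l : ℕ} (hl : l ≤ i) :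
    V.H l w = th ^ (i - l) • w := by
  have hQ : ∀ j, Mom764.Q V.M j w = if j = i then w else 0 := by
    intro j
    rw [Mom764.Q_apply]
    have hP : ∀ m, m ≤ i → (V.M m).starProjection w = w := fun m hm =>
      Submodule.starProjection_eq_self_iff.2 (V.anti hm hw)
    have hP0 : ∀ m, i < m → (V.M m).starProjection w = 0 := fun m hm => by
      rw [Submodule.starProjection_apply_eq_zero_iff]
      exact Submodule.orthogonal_le (V.anti hm) hw'
    split_ifs with h
    · subst h; rw [hP j le_rfl, hP0 (j+1) (Nat.lt_succ_self j), sub_zero]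
    · rcases lt_or_gt_of_ne h with h | h
      · rw [hP j h.le, hP (j+1) h, sub_self]
      · rw [hP0 j h, hP0 (j+1) (h.trans (Nat.lt_succ_self j)), sub_self]
  have h2 : V.H l w = ∑ j ∈ Finset.Ico l V.n, th ^ (j - l) • Mom764.Q V.M j w :=
    Mom764.H_apply th V.M V.n l w
  rw [h2, Finset.sum_eq_single_of_mem i (Finset.mem_Ico.2 ⟨hl, hin⟩)]
  · rw [hQ i, if_pos rfl]
  · intro j _ hj
    rw [hQ j, if_neg hj, smul_zero]

lemma inner_w_H (hin : i < V.n) (hw : w ∈ V.M i) (hw' : w ∈ (V.M (i + 1))ᗮ) {l : ℕ} (hl : l ≤ i)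
    (t : E) : ⟪w, V.H l t⟫ = th ^ (i - l) * ⟪w, t⟫ := by
  have h3 : ⟪w, V.H l t⟫ = ⟪V.H l w, t⟫ := (Mom764.inner_H_left th V.n l w t).symm
  rw [h3, H_w hin hw hw' hl, real_inner_smul_left]

/-- `D_l(V) ≤ D_l(dem) + 2 lam_l / rho²` for `l < i` -/
lemma D_low {p : Par} (hp : p.Ok) (hin : i < V.n) (hw : w ∈ V.M i) (hn : ‖w‖ = 1) {l : ℕ}
    (hl : l < i) (μ : Multiset E) :
    D p V l μ ≤ D p (dem V i w hw') l μ + p.lam l * (2 / p.rho ^ 2) := by
  have hr := rho_pos hp
  rw [← sub_le_iff_le_add]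
  refine le_D hp fun K' hK' => ?_
  rw [sub_le_iff_le_add]
  -- covariances
  have hcov : ∀ t, ‖(V.H l).adjoint t‖ ≤ ‖((dem V i w hw').H l).adjoint t‖ := by
    intro t
    rw [adjoint_H, adjoint_H]
    have e : (dem V i w hw').H l t = V.H l t + ((th ^ (i - 1 - l) - th ^ (i - l)) * ⟪w, t⟫) • w := by
      have h := Dem853.Hm_dem_lt (M := V.M) th hin hl hw hn
      have h2 : (dem V i w hw').H l = V.H l + (th ^ (i - 1 - l) - th ^ (i - l)) • rk1 w := h
      rw [h2]
      simp [smul_smul]
    have e2 : ⟪w, V.H l t⟫ = th ^ (i - l) * ⟪w, t⟫ := inner_w_H hin hw hw' hl.le t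
    have hc : 0 ≤ th ^ (i - 1 - l) - th ^ (i - l) := by
      have : th ^ (i - l) ≤ th ^ (i - 1 - l) :=
        pow_le_pow_of_le_one th_pos.le th_lt.le (by omega)
      linarith
    set c := th ^ (i - 1 - l) - th ^ (i - l) with hcdef
    have h5 : ‖V.H l t‖ ^ 2 ≤ ‖(dem V i w hw').H l t‖ ^ 2 := by
      rw [e, norm_add_sq_real, real_inner_smul_right, real_inner_comm w (V.H l t), e2, norm_smul, hn]
      have h6 : 0 ≤ th ^ (i - l) := pow_nonneg th_pos.le _
      have h7 : 0 ≤ 2 * (c * ⟪w, t⟫ * (th ^ (i - l) * ⟪w, t⟫)) := by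
        have : 2 * (c * ⟪w, t⟫ * (th ^ (i - l) * ⟪w, t⟫)) = 2 * (c * th ^ (i-l) * ⟪w, t⟫ ^ 2) := by
          ring
        rw [this]; positivity
      have h8 : 0 ≤ (‖c * ⟪w, t⟫‖ * 1) ^ 2 := by positivity
      linarith
    exact (sq_le_sq₀ (norm_nonneg _) (norm_nonneg _)).1 h5
  have hmono : (gau ((dem V i w hw').H l)).real K' ≤ (gau (V.H l)).real K' :=
    ENNReal.toReal_mono (measure_ne_top _ _)
      (AnSym853.gau_mono_symm hcov (Adm.closed hK') (Adm.conv hK') (Adm.symm hK'))
  have hcut := cap_cut V l hr (Adm.closed hK') (Adm.conv hK') (Adm.symm hK')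
  have hq : 1 / p.rho ^ 2 ≤ 1 / 256 := by
    apply one_div_le_one_div_of_le (by norm_num)
    nlinarith [hp.rho_ge]
  have hq0 : 0 ≤ 1 / p.rho ^ 2 := by positivity
  have hpos := Adm.pos hK'
  have hpos2 : 0 < (1 - 1 / p.rho ^ 2) * (gau ((dem V i w hw').H l)).real K' := by
    apply mul_pos (by linarith) hpos
  have hge : (1 - 1 / p.rho ^ 2) * (gau ((dem V i w hw').H l)).real K'
      ≤ (gau (V.H l)).real (K' ∩ V.cap p.rho l) :=
    (mul_le_mul_of_nonneg_left hmono (by linarith)).trans hcut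
  have hadm : Adm p V l (K' ∩ V.cap p.rho l) := by
    refine ⟨(Adm.closed hK').inter (cap_closed V hr.le l), (Adm.conv hK').inter (cap_convex V hr.le l),
      fun x hx => ⟨Adm.symm hK' x hx.1, cap_symm V _ l x hx.2⟩, inter_subset_right,
      lt_of_lt_of_le hpos2 hge⟩
  refine (D_le hp hadm μ).trans ?_
  unfold val
  have h1 : Eh (K' ∩ V.cap p.rho l) μ ≤ Eh K' μ :=
    Eh_mono (Adm.compact hr.le hK') (Adm.nonempty hadm) inter_subset_left μ
  have h2 := Real.log_le_log hpos2 hge
  rw [Real.log_mul (by linarith) hpos.ne'] at h2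
  have h3 : -(2 / p.rho ^ 2) ≤ Real.log (1 - 1 / p.rho ^ 2) := by
    have h4 := Real.one_sub_inv_le_log_of_pos (show 0 < 1 - 1 / p.rho ^ 2 by linarith)
    have h5 : (1 - 1 / p.rho ^ 2)⁻¹ ≤ 1 + 2 / p.rho ^ 2 := by
      rw [inv_le_comm₀ (by linarith) (by positivity)]
      rw [inv_le_iff_one_le_mul₀ (by positivity)]
      have e : 2 / p.rho ^ 2 = 2 * (1 / p.rho ^ 2) := by ring
      rw [e]
      nlinarith
    linarith
  have h6 := lam_pos hp l
  nlinarith [mul_le_mul_of_nonneg_left h2 h6.le, mul_le_mul_of_nonneg_left h3 h6.le]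

/-- cap of the demoted flag at level `i` -/
lemma dem_cap_sub (rho : ℝ) (hin : i < V.n) (hw : w ∈ V.M i) (hn : ‖w‖ = 1) :
    (dem V i w hw').cap rho i ⊆ V.cap rho i := by
  rintro x ⟨h1, h2⟩
  rw [dem_M_self, Dem853.mem_cutSub] at h1
  refine ⟨h1.1, ?_⟩
  have hQi : (dem V i w hw').Q i x = V.Q i x := by
    have h : (dem V i w hw').Q i = V.Q i - rk1 w := Dem853.blkP_dem_self hw hn
    rw [h]
    simp [h1.2]
  have hN : (dem V i w hw').N i x = V.N i x := by
    unfold Flag.N
    refine Finset.sum_congr rfl fun j hj => ?_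
    have hj' : i ≤ j := (Finset.mem_Ico.1 hj).1
    rcases eq_or_lt_of_le hj' with h | h
    · rw [← h, hQi]
    · rw [dem_Q_ne (by omega) (by omega)]
  have hr : (dem V i w hw').rr i ≤ V.rr i := by
    unfold Flag.rr
    refine Finset.sum_le_sum fun j hj => ?_
    have hj' : i ≤ j := (Finset.mem_Ico.1 hj).1
    have hk : (dem V i w hw').k j ≤ V.k j := by
      rcases eq_or_lt_of_le hj' with h | h
      · subst h
        have : (dem V i w hw').k i + 1 = V.k i := Dem853.kd_dem_self V.anti hw hw' hn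
        omega
      · rw [dem_k_ne (by omega) (by omega)]
    have : ((dem V i w hw').k j : ℝ) ≤ V.k j := by exact_mod_cast hk
    exact mul_le_mul_of_nonneg_left this (pow_nonneg th_pos.le _)
  rw [← hN]
  exact h2.trans (mul_le_mul_of_nonneg_left hr (sq_nonneg _))

/-- level `i`: a thick near-optimal body gives `D_i(V) ≤ D_i(dem) + slack` -/
lemma D_self {p : Par} (hp : p.Ok) {dl c' : ℝ} (hben : P_BEN E dl c') (hin : i < V.n)
    (hw : w ∈ V.M i) (hn : ‖w‖ = 1) {μ : Multiset E} {K : Set E} (hK : Adm p V i K) {sl : ℝ}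
    (hval : val p V i μ K ≤ D p V i μ + sl)
    (hthick : (1 - c') * (gau (V.H i)).real K < ∫ x in K, ⟪w, x⟫ ^ 2 ∂(gau (V.H i))) :
    D p V i μ ≤ D p (dem V i w hw') i μ + sl + 2 * dl * p.lam i := by
  have hr := rho_pos hp
  have hlam := lam_pos hp i
  have hHw : V.H i w = w := by
    have := H_w hin hw hw' le_rfl
    simpa using this
  have hdH : ∀ g, (dem V i w hw').H i g = V.H i g - ⟪w, g⟫ • w := by
    intro g
    have h : (dem V i w hw').H i = V.H i - rk1 w := Dem853.Hm_dem_self th hin hw hn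
    rw [h]; simp
  refine le_of_forall_pos_le_add fun ε hε => ?_
  obtain ⟨K', hK', hval'⟩ := exists_near hp (dem V i w hw') i μ hε
  have KC := Adm.compact hr.le hK
  have KC' := Adm.compact hr.le hK'
  set C := F6core696.mix (1/2) K K' with hC
  have hCc : IsCompact C := F6core696.mix_compact KC KC'
  have m1 : ∀ x ∈ (V.H i) ⁻¹' K, ∀ y ∈ ((dem V i w hw').H i) ⁻¹' K', ⟪w, y⟫ = 0 →
      (1 / 2 : ℝ) • x + (1 / 2 : ℝ) • y ∈ (V.H i) ⁻¹' C := by
    intro x hx y hy hwy
    have h1 : V.H i y = (dem V i w hw').H i y := by rw [hdH, hwy, zero_smul, sub_zero]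
    refine F6core696.mem_mix.2 ⟨V.H i x, hx, V.H i y, by rw [h1]; exact hy, ?_⟩
    rw [map_add, map_smul, map_smul]
    norm_num
  have hcyl : ∀ x, x ∈ ((dem V i w hw').H i) ⁻¹' K' ↔
      x - ⟪w, x⟫ • w ∈ ((dem V i w hw').H i) ⁻¹' K' := by
    intro x
    have h0 : (dem V i w hw').H i w = 0 := by
      rw [hdH, hHw, real_inner_self_eq_norm_sq, hn]; simp
    simp only [mem_preimage, map_sub, map_smul, h0, smul_zero, sub_zero]
  have hb := hben w hn ((V.H i) ⁻¹' K) (((dem V i w hw').H i) ⁻¹' K') ((V.H i) ⁻¹' C)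
    ((Adm.closed hK).preimage (V.H i).continuous)
    ((Adm.conv hK).linear_preimage (V.H i).toLinearMap)
    (fun x hx => by
      show V.H i (-x) ∈ K
      rw [map_neg]; exact Adm.symm hK _ hx)
    ((Adm.closed hK').preimage ((dem V i w hw').H i).continuous)
    ((Adm.conv hK').linear_preimage ((dem V i w hw').H i).toLinearMap)
    (fun x hx => by
      show (dem V i w hw').H i (-x) ∈ K'
      rw [map_neg]; exact Adm.symm hK' _ hx)
    (hCc.isClosed.preimage (V.H i).continuous) hcyl m1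
  have e1 := gau_real_apply (V.H i) (Adm.closed hK).measurableSet
  have e2 := gau_real_apply ((dem V i w hw').H i) (Adm.closed hK').measurableSet
  have e3 := gau_real_apply (V.H i) hCc.isClosed.measurableSet
  rcases hb with hb | hb
  · exfalso
    rw [← e1] at hb
    have h2 : ∫ x in K, ⟪w, x⟫ ^ 2 ∂(gau (V.H i))
        = ∫ g in (V.H i) ⁻¹' K, ⟪w, g⟫ ^ 2 ∂(stdGaussian E) := by
      unfold gau
      rw [setIntegral_map (Adm.closed hK).measurableSet (by fun_prop)
        (V.H i).continuous.aemeasurable]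
      congr 1
      ext g
      rw [inner_w_H hin hw hw' le_rfl]
      simp
    rw [h2] at hthick
    linarith
  · rw [← e1, ← e2, ← e3] at hb
    have p1 := Adm.pos hK
    have p2 := Adm.pos hK'
    have hs : 0 < Real.sqrt ((gau (V.H i)).real K * (gau ((dem V i w hw').H i)).real K') :=
      Real.sqrt_pos.2 (mul_pos p1 p2)
    have hlog := Real.log_le_log (by positivity) hb
    rw [Real.log_mul (Real.exp_ne_zero _) hs.ne', Real.log_exp, Real.log_sqrt (by positivity),
      Real.log_mul p1.ne' p2.ne'] at hlog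
    have hadm : Adm p V i C := by
      refine ⟨hCc.isClosed, F6core696.mix_convex (Adm.conv hK) (Adm.conv hK'),
        F6core696.mix_neg (Adm.symm hK) (Adm.symm hK'),
        F6core696.mix_subset (by norm_num) (by norm_num) (cap_convex V hr.le i) (Adm.sub hK)
          ((Adm.sub hK').trans (dem_cap_sub _ hin hw hn)), lt_of_lt_of_le (by positivity) hb⟩
    have hE : Eh C μ = (1 - 1/2) * Eh K μ + 1/2 * Eh K' μ :=
      F6core696.Eh_mix (by norm_num) (by norm_num) KC KC' (Adm.nonempty hK) (Adm.nonempty hK') μ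
    have hD := D_le hp hadm μ
    unfold val at hD hval hval'
    rw [hE] at hD
    nlinarith [mul_le_mul_of_nonneg_left hlog hlam.le]

lemma lam_succ (p : Par) (i : ℕ) : p.lam (i + 1) = p.A * p.lam i := by
  unfold Par.lam; ring

lemma sum_lam_le {p : Par} (hp : p.Ok) (i : ℕ) :
    ∑ l ∈ Finset.range i, p.lam l ≤ p.lam i / 15 := by
  induction i with
  | zero =>
    have := lam_pos hp 0
    simp; positivity
  | succ i ih =>
    rw [Finset.sum_range_succ, lam_succ]
    have h1 := lam_pos hp i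
    have h2 := hp.A_ge
    nlinarith

end

/-- **Demotion dichotomy**: either `V` is thin at level `i`, or some flag is better by
`kap/2 * lam_i`. -/
theorem dem_or_thin {p : Par} (hp : p.Ok) {c' : ℝ} (hben : P_BEN E (p.kap / 32) c') (V : Flag E)
    (μ : Multiset E) (i : ℕ) (hi : 1 ≤ i) :
    ThinAt p V μ i c' (p.kap / 32) ∨ ∃ W : Flag E, J p V μ + p.kap / 2 * p.lam i ≤ J p W μ := by
  by_cases hthin : ThinAt p V μ i c' (p.kap / 32)
  · exact Or.inl hthin
  right
  unfold ThinAt at hthin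
  push Not at hthin
  obtain ⟨K, ⟨hK, hval⟩, w, hn, hQ, hthick⟩ := hthin
  have hQ' : (V.M i).starProjection w - (V.M (i+1)).starProjection w = w := hQ
  have hw : w ∈ V.M i := by
    rw [← hQ']
    exact (V.M i).sub_mem ((V.M i).starProjection_apply_mem w)
      (V.anti (Nat.le_succ i) ((V.M (i+1)).starProjection_apply_mem w))
  have hw' : w ∈ (V.M (i+1))ᗮ := by
    rw [← Submodule.starProjection_apply_eq_zero_iff]
    rw [← hQ']
    exact Mom764.P_Q_zero V.anti (Nat.lt_succ_self i) w
  have hin : i < V.n := by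
    by_contra h
    push Not at h
    rw [V.bot i h, Submodule.mem_bot] at hw
    rw [hw, norm_zero] at hn
    exact one_ne_zero hn.symm
  refine ⟨dem V i w hw', ?_⟩
  have hlam := lam_pos hp i
  have hself := D_self (hw' := hw') hp hben hin hw hn hK hval hthick
  set W := dem V i w hw' with hWdef
  have hki : W.k i + 1 = V.k i := Dem853.kd_dem_self V.anti hw hw' hn
  have hkp : W.k (i-1) = V.k (i-1) + 1 :=
    Dem853.kd_dem_pred V.anti (by omega) hw hw' hn
  have hki' : (W.k i : ℝ) = V.k i - 1 := by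
    have : ((W.k i + 1 : ℕ) : ℝ) = V.k i := by exact_mod_cast hki
    push_cast at this; linarith
  have hkp' : (W.k (i-1) : ℝ) = V.k (i-1) + 1 := by exact_mod_cast hkp
  have hterm : ∀ l ∈ Finset.range V.n,
      (D p V l μ - p.kap * p.lam l * V.k l)
        + ((if l = i then (p.kap * p.lam i - (p.kap/32 * p.lam i + 2 * (p.kap/32) * p.lam i)) else 0)
          - (if l = i - 1 then p.kap * p.lam (i-1) else 0)
          - (if l < i then p.lam l * (2 / p.rho^2) else 0))
      ≤ D p W l μ - p.kap * p.lam l * W.k l := by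
    intro l hl
    rcases lt_trichotomy l i with h | h | h
    · have h1 := D_low (hw' := hw') hp hin hw hn h μ
      rw [if_neg h.ne, if_pos h]
      by_cases h2 : l = i - 1
      · rw [if_pos h2]
        subst h2
        rw [hkp']
        nlinarith
      · rw [if_neg h2]
        have h3 : W.k l = V.k l := dem_k_ne (by omega) (by omega)
        rw [h3]
        linarith
    · subst h
      rw [if_pos rfl, if_neg (by omega), if_neg (lt_irrefl _), hki']
      nlinarith
    · rw [if_neg (by omega), if_neg (by omega), if_neg (by omega)]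
      have h3 : W.k l = V.k l := dem_k_ne (by omega) (by omega)
      have h4 : D p W l μ = D p V l μ := by
        refine D_congr (V := V) (W := W) (l := l) p rfl (fun j hj => ?_) μ
        exact dem_M_ne (by omega)
      rw [h3, h4]
      linarith
  have hsum := Finset.sum_le_sum hterm
  have hs1 : ∑ l ∈ Finset.range V.n,
      ((if l = i then (p.kap * p.lam i - (p.kap/32 * p.lam i + 2 * (p.kap/32) * p.lam i)) else 0)
          - (if l = i - 1 then p.kap * p.lam (i-1) else 0)
          - (if l < i then p.lam l * (2 / p.rho^2) else 0))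
      = (p.kap * p.lam i - (p.kap/32 * p.lam i + 2 * (p.kap/32) * p.lam i))
        - p.kap * p.lam (i-1)
        - ∑ l ∈ Finset.range V.n, (if l < i then p.lam l * (2 / p.rho^2) else 0) := by
    rw [Finset.sum_sub_distrib, Finset.sum_sub_distrib,
      Finset.sum_ite_eq', Finset.sum_ite_eq', if_pos (Finset.mem_range.2 hin),
      if_pos (Finset.mem_range.2 (by omega : i - 1 < V.n))]
  rw [Finset.sum_add_distrib, hs1] at hsum
  have hs2 : ∑ l ∈ Finset.range V.n, (if l < i then p.lam l * (2 / p.rho^2) else 0)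
      = (∑ l ∈ Finset.range i, p.lam l) * (2 / p.rho^2) := by
    rw [← Finset.sum_filter, Finset.sum_mul]
    congr 1
    ext l
    simp only [Finset.mem_filter, Finset.mem_range]
    omega
  rw [hs2] at hsum
  have hJ1 : J p V μ = ∑ l ∈ Finset.range V.n, (D p V l μ - p.kap * p.lam l * V.k l) := rfl
  have hJ2 : J p W μ = ∑ l ∈ Finset.range V.n, (D p W l μ - p.kap * p.lam l * W.k l) := rfl
  rw [hJ1, hJ2]
  have hg := sum_lam_le hp i
  have hA : p.lam (i-1) ≤ p.lam i / 16 := by
    obtain ⟨m, rfl⟩ : ∃ m, i = m + 1 := ⟨i - 1, by omega⟩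
    rw [Nat.add_sub_cancel, lam_succ]
    have := hp.A_ge
    have := lam_pos hp m
    nlinarith
  have hk := hp.kap_pos
  have hr := rho_pos hp
  have hrho : 2 / p.rho^2 ≤ p.kap / 8 := by
    rw [div_le_div_iff₀ (by positivity) (by norm_num)]
    nlinarith [hp.kap_rho]
  have h5 : (∑ l ∈ Finset.range i, p.lam l) * (2 / p.rho^2) ≤ p.lam i / 15 * (p.kap / 8) := by
    apply mul_le_mul hg hrho (by positivity) (by positivity)
  have h6 : p.kap * p.lam (i-1) ≤ p.kap * (p.lam i / 16) := mul_le_mul_of_nonneg_left hA hk.le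
  have h7 : 0 < p.kap * p.lam i := mul_pos hk hlam
  nlinarith

theorem p_thin {p : Par} (hp : p.Ok) {c' : ℝ} (hben : P_BEN E (p.kap / 32) c') :
    P_THIN E p c' (p.kap / 32) := by
  intro V μ i hi hmax
  rcases dem_or_thin hp hben V μ i hi with h | ⟨W, h⟩
  · exact h
  · exfalso
    have h1 := hmax W
    have h2 := lam_pos hp i
    have h3 := mul_pos hp.kap_pos h2
    nlinarith

theorem target_THIN : Target_THIN := by
  intro kap hk _
  obtain ⟨c', hc0, hc1, hb⟩ := Ben331.target_BEN (kap / 32) (by positivity)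
  refine ⟨c', kap / 32, 0, hc0, hc1, by positivity, fun d p hp hpk _ => ?_⟩
  subst hpk
  exact p_thin hp (hb d)

end Crest.Agent.R239.Thin824
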