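import Mathlib

/-! R239 (S0370): the hyperplane-section class in game form, `(G) + (K) ⇒ S0370`. helper849 -/

set_option autoImplicit false

namespace Crest.Agent.R239.Win849

open Metric

section general

variable {E : Type*} [NormedAddCommGroup E] [InnerProductSpace ℝ E]

/-- Banaszczyk's operation `K * u = (K ⊖ [-u,u]) + 2[-u,u]` (lines parallel to `u`: chords of
half-length at least `‖u‖` are prolonged by `‖u‖` at both ends, the other ones are deleted). -/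
def star (K : Set E) (u : E) : Set E :=
  {x | ∃ t : ℝ, |t| ≤ 2 ∧ x + t • u + u ∈ K ∧ x + t • u - u ∈ K}

theorem star_mono {K L : Set E} (h : K ⊆ L) (u : E) : star K u ⊆ star L u := by
  rintro x ⟨t, ht, h1, h2⟩
  exact ⟨t, ht, h h1, h h2⟩

theorem star_step {K : Set E} (hK : Convex ℝ K) {u x : E} (hx : x ∈ star K u) :
    x + u ∈ K ∨ x - u ∈ K := by
  obtain ⟨t, ht, h1, h2⟩ := hx
  rw [abs_le] at ht
  by_cases h0 : 0 ≤ t
  · left
    have h := hK h1 h2 (a := 1 - t / 2) (b := t / 2) (by linarith) (by linarith) (by ring)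
    have e : (1 - t / 2) • (x + t • u + u) + (t / 2) • (x + t • u - u) = x + u := by
      module
    rwa [e] at h
  · right
    have h := hK h1 h2 (a := -t / 2) (b := 1 + t / 2) (by linarith) (by linarith) (by ring)
    have e : (-t / 2) • (x + t • u + u) + (1 + t / 2) • (x + t • u - u) = x - u := by
      module
    rwa [e] at h

theorem star_convex {K : Set E} (hK : Convex ℝ K) (u : E) : Convex ℝ (star K u) := by
  rintro x ⟨t, ht, h1, h2⟩ y ⟨s, hs, g1, g2⟩ a b ha hb hab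
  refine ⟨a * t + b * s, ?_, ?_, ?_⟩
  · calc |a * t + b * s| ≤ |a * t| + |b * s| := abs_add_le _ _
      _ = a * |t| + b * |s| := by rw [abs_mul, abs_mul, abs_of_nonneg ha, abs_of_nonneg hb]
      _ ≤ a * 2 + b * 2 := by gcongr
      _ = 2 := by rw [← add_mul, hab, one_mul]
  · have h := hK h1 g1 ha hb hab
    have e : a • (x + t • u + u) + b • (y + s • u + u)
        = a • x + b • y + (a * t + b * s) • u + (a + b) • u := by module
    rwa [e, hab, one_smul] at h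
  · have h := hK h2 g2 ha hb hab
    have e : a • (x + t • u - u) + b • (y + s • u - u)
        = a • x + b • y + (a * t + b * s) • u - (a + b) • u := by module
    rwa [e, hab, one_smul] at h

theorem star_symm {K : Set E} (hK : ∀ x ∈ K, -x ∈ K) (u : E) : ∀ x ∈ star K u, -x ∈ star K u := by
  rintro x ⟨t, ht, h1, h2⟩
  refine ⟨-t, by rwa [abs_neg], ?_, ?_⟩
  · have := hK _ h2
    convert this using 1
    module
  · have := hK _ h1
    convert this using 1
    module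

theorem star_closed {K : Set E} (hK : IsClosed K) (u : E) : IsClosed (star K u) := by
  have e : star K u = Prod.snd '' ((Set.univ : Set (Set.Icc (-2 : ℝ) 2 × E)) ∩
      {p | p.2 + (p.1 : ℝ) • u + u ∈ K ∧ p.2 + (p.1 : ℝ) • u - u ∈ K}) := by
    ext x
    simp only [star, Set.mem_ofPred_eq, Set.univ_inter, Set.mem_image, Prod.exists, exists_eq_right]
    constructor
    · rintro ⟨t, ht, h⟩
      exact ⟨⟨t, abs_le.1 ht⟩, h⟩
    · rintro ⟨⟨t, ht⟩, h⟩
      exact ⟨t, abs_le.2 ht, h⟩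
  rw [e, Set.univ_inter]
  refine isClosedMap_snd_of_compactSpace _ ?_
  refine IsClosed.inter (hK.preimage ?_) (hK.preimage ?_) <;> fun_prop

/-- The class in game form: `n` letters are left, `U` is the span of the used directions, `x` the
position.  The controller moves inside `x + Uᗮ`, then the adversary picks a unit vector of `Uᗮ`. -/
def Win (K : Set E) : ℕ → Submodule ℝ E → E → Prop
  | 0, _, x => x ∈ K
  | n + 1, U, x => ∃ y, y - x ∈ Uᗮ ∧ ∀ θ ∈ Uᗮ, ‖θ‖ = 1 → Win K n (U ⊔ (ℝ ∙ θ)) (y + θ)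

theorem Win.mono {K L : Set E} (h : K ⊆ L) :
    ∀ (n : ℕ) (U : Submodule ℝ E) (x : E), Win K n U x → Win L n U x
  | 0, _, _, hx => h hx
  | n + 1, _, _, ⟨y, hy, hw⟩ => ⟨y, hy, fun θ hθ h1 => Win.mono h n _ _ (hw θ hθ h1)⟩

/-- The position may be changed in an unused direction. -/
theorem Win.shift {K : Set E} {n : ℕ} {U : Submodule ℝ E} {x x' : E} (h : Win K (n + 1) U x)
    (hx : x' - x ∈ Uᗮ) : Win K (n + 1) U x' := by
  obtain ⟨y, hy, hw⟩ := h
  refine ⟨y, ?_, hw⟩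
  have := Uᗮ.sub_mem hy hx
  rwa [sub_sub_sub_cancel_right] at this

theorem Win.convex {K : Set E} (hK : Convex ℝ K) :
    ∀ (n : ℕ) (U : Submodule ℝ E), Convex ℝ {x | Win K n U x}
  | 0, _ => hK
  | n + 1, U => by
    rintro x ⟨y, hy, hw⟩ x' ⟨y', hy', hw'⟩ a b ha hb hab
    refine ⟨a • y + b • y', ?_, fun θ hθ h1 => ?_⟩
    · have := Uᗮ.add_mem (Uᗮ.smul_mem a hy) (Uᗮ.smul_mem b hy')
      convert this using 1
      module
    · have := Win.convex hK n (U ⊔ (ℝ ∙ θ)) (hw θ hθ h1) (hw' θ hθ h1) ha hb hab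
      have e : a • (y + θ) + b • (y' + θ) = a • y + b • y' + (a + b) • θ := by module
      rw [Set.mem_ofPred_eq, e, hab, one_smul] at this
      exact this

theorem Win.neg {K : Set E} (hK : ∀ x ∈ K, -x ∈ K) :
    ∀ (n : ℕ) (U : Submodule ℝ E) (x : E), Win K n U x → Win K n U (-x)
  | 0, _, _, hx => hK _ hx
  | n + 1, U, x, ⟨y, hy, hw⟩ => by
    refine ⟨-y, ?_, fun θ hθ h1 => ?_⟩
    · have := Uᗮ.neg_mem hy
      convert this using 1
      module
    · have := Win.neg hK n _ _ (hw (-θ) (Uᗮ.neg_mem hθ) (by rwa [norm_neg]))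
      have e : -(y + -θ) = -y + θ := by module
      have e2 : (ℝ ∙ (-θ)) = (ℝ ∙ θ) := by
        rw [← Set.neg_singleton, Submodule.span_neg]
      rwa [e, e2] at this

/-- For symmetric convex sets the centre of the first step may be taken to be `0`. -/
theorem Win.center {K : Set E} (hc : Convex ℝ K) (hK : ∀ x ∈ K, -x ∈ K) {n : ℕ}
    {x : E} (h : Win K (n + 1) ⊥ x) : ∀ θ : E, ‖θ‖ = 1 → Win K n (ℝ ∙ θ) θ := by
  obtain ⟨y, hy, hw⟩ := h
  intro θ hθ
  have h1 := hw θ (by simp) hθ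
  have h2 := Win.neg hK n _ _ (hw (-θ) (by simp) (by rwa [norm_neg]))
  have e : -(y + -θ) = -y + θ := by module
  have e2 : (ℝ ∙ (-θ)) = (ℝ ∙ θ) := by
    rw [← Set.neg_singleton, Submodule.span_neg]
  rw [e, e2, bot_sup_eq] at h2
  rw [bot_sup_eq] at h1
  have h3 := Win.convex hc n _ h1 h2 (a := 1 / 2) (b := 1 / 2) (by norm_num) (by norm_num)
    (by norm_num)
  have e3 : (1 / 2 : ℝ) • (y + θ) + (1 / 2 : ℝ) • (-y + θ) = θ := by module
  rwa [Set.mem_ofPred_eq, e3] at h3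

theorem Win.of_center {K : Set E} {n : ℕ} (h : ∀ θ : E, ‖θ‖ = 1 → Win K n (ℝ ∙ θ) θ) (x : E) :
    Win K (n + 1) ⊥ x := by
  refine ⟨0, by simp, fun θ _ hθ => ?_⟩
  rw [bot_sup_eq, zero_add]
  exact h θ hθ

theorem Win.univ : ∀ (n : ℕ) (U : Submodule ℝ E) (x : E), Win (Set.univ : Set E) n U x
  | 0, _, _ => trivial
  | n + 1, _, x => ⟨x, by simp, fun θ _ _ => Win.univ n _ _⟩

/-- The ball of radius `R` with `R² ≥ n + ‖x‖²`. -/
theorem Win.ball {R : ℝ} (hR : 0 ≤ R) : ∀ (n : ℕ) (U : Submodule ℝ E) (x : E), x ∈ U →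
    ‖x‖ ^ 2 + n ≤ R ^ 2 → Win (closedBall (0 : E) R) n U x
  | 0, _, x, _, h => by
    rw [Win, mem_closedBall_zero_iff]
    have : ‖x‖ ^ 2 ≤ R ^ 2 := by simpa using h
    exact (sq_le_sq₀ (norm_nonneg _) hR).1 this
  | n + 1, U, x, hx, h => by
    refine ⟨x, by simp, fun θ hθ h1 => Win.ball hR n _ _ ?_ ?_⟩
    · exact Submodule.add_mem_sup hx (Submodule.mem_span_singleton_self θ)
    · have h2 : inner ℝ x θ = 0 := hθ x hx
      have h3 := norm_add_sq_real x θ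
      rw [h2, h1] at h3
      rw [h3]
      push_cast at h
      linarith

theorem finrank_orth_sup [FiniteDimensional ℝ E] {U : Submodule ℝ E} {θ : E} (hθ : θ ∈ Uᗮ)
    (h1 : ‖θ‖ = 1) {n : ℕ} (hn : Module.finrank ℝ Uᗮ = n + 1) :
    Module.finrank ℝ (U ⊔ (ℝ ∙ θ) : Submodule ℝ E)ᗮ = n := by
  have a1 := Submodule.finrank_add_finrank_orthogonal U
  have a2 := Submodule.finrank_add_finrank_orthogonal (U ⊔ (ℝ ∙ θ) : Submodule ℝ E)
  have hθ0 : θ ≠ 0 := by
    rintro rfl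
    simp at h1
  have a3 : Module.finrank ℝ (ℝ ∙ θ) = 1 := finrank_span_singleton hθ0
  have a4 := Submodule.finrank_sup_add_finrank_inf_eq U (ℝ ∙ θ)
  have a5 : U ⊓ (ℝ ∙ θ) = ⊥ := by
    rw [eq_bot_iff]
    rintro z ⟨hz1, hz2⟩
    obtain ⟨c, rfl⟩ := Submodule.mem_span_singleton.1 hz2
    have : inner ℝ (c • θ) (c • θ) = 0 := (Uᗮ.smul_mem c hθ) _ hz1
    rw [Submodule.mem_bot]
    exact inner_self_eq_zero.1 this
  rw [a5, finrank_bot] at a4
  omega

theorem exists_unit [FiniteDimensional ℝ E] {U : Submodule ℝ E} {n : ℕ}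
    (hn : Module.finrank ℝ Uᗮ = n + 1) : ∃ θ ∈ Uᗮ, ‖θ‖ = 1 := by
  have : 0 < Module.finrank ℝ Uᗮ := by omega
  obtain ⟨z, hz⟩ := Module.finrank_pos_iff_exists_ne_zero.1 this
  have hz' : (z : E) ≠ 0 := by simpa using hz
  refine ⟨(‖(z : E)‖⁻¹) • (z : E), Uᗮ.smul_mem _ z.2, ?_⟩
  rw [norm_smul, norm_inv, norm_norm, inv_mul_cancel₀ (norm_ne_zero_iff.2 hz')]

theorem Win.nonempty [FiniteDimensional ℝ E] {K : Set E} :
    ∀ (n : ℕ) (U : Submodule ℝ E) (x : E), Module.finrank ℝ Uᗮ = n → Win K n U x → K.Nonempty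
  | 0, _, x, _, h => ⟨x, h⟩
  | n + 1, U, x, hn, ⟨y, hy, hw⟩ => by
    obtain ⟨θ, hθ, h1⟩ := exists_unit hn
    exact Win.nonempty n _ _ (finrank_orth_sup hθ h1 hn) (hw θ hθ h1)

/-- The backward chain of Banaszczyk steps cut with a fixed set `B`. -/
def chain (B : Set E) : (N : ℕ) → (Fin N → E) → Set E
  | 0, _ => B
  | N + 1, v => star (chain B N (Fin.tail v)) (v 0) ∩ B

theorem chain_sub (B : Set E) : ∀ (N : ℕ) (v : Fin N → E), chain B N v ⊆ B
  | 0, _ => subset_rfl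
  | _ + 1, _ => Set.inter_subset_right

theorem chain_convex {B : Set E} (hB : Convex ℝ B) :
    ∀ (N : ℕ) (v : Fin N → E), Convex ℝ (chain B N v)
  | 0, _ => hB
  | N + 1, v => (star_convex (chain_convex hB N (Fin.tail v)) (v 0)).inter hB

theorem chain_signs {B : Set E} (hB : Convex ℝ B) : ∀ (N : ℕ) (v : Fin N → E) (x : E),
    x ∈ chain B N v → ∃ ε : Fin N → ℤ, (∀ i, ε i = 1 ∨ ε i = -1) ∧
      ∀ k : ℕ, k ≤ N → x + ∑ i ∈ Finset.univ.filter (fun i : Fin N => (i : ℕ) < k),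
        (ε i : ℝ) • v i ∈ B
  | 0, _, x, hx => ⟨fun _ => 1, fun _ => Or.inl rfl, fun k _ => by
      have hx' : x ∈ B := hx
      simpa using hx'⟩
  | N + 1, v, x, hx => by
    have h1 := star_step (chain_convex hB N (Fin.tail v)) hx.1
    have h2 : ∃ e : ℤ, (e = 1 ∨ e = -1) ∧ x + (e : ℝ) • v 0 ∈ chain B N (Fin.tail v) := by
      rcases h1 with h | h
      · exact ⟨1, Or.inl rfl, by simpa using h⟩
      · exact ⟨-1, Or.inr rfl, by simpa [sub_eq_add_neg] using h⟩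
    obtain ⟨e, he, hm⟩ := h2
    obtain ⟨ε, hε, hs⟩ := chain_signs hB N (Fin.tail v) _ hm
    refine ⟨Fin.cons e ε, ?_, ?_⟩
    · intro i
      refine Fin.cases ?_ (fun j => ?_) i
      · simpa using he
      · simpa using hε j
    · intro k hk
      cases k with
      | zero => simpa using hx.2
      | succ k =>
        have h3 := hs k (by omega)
        rw [Finset.sum_filter] at h3 ⊢
        rw [Fin.sum_univ_succ]
        simp only [Fin.val_zero, Nat.zero_lt_succ, if_true, Fin.cons_zero, Fin.val_succ,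
          Nat.succ_lt_succ_iff, Fin.cons_succ]
        rw [← add_assoc]
        exact h3

end general

/-- Abstract form: a class of symmetric nonempty convex sets which contains `B = C0 √d` ball and is
closed under `K ↦ (K * u) ∩ B` for `‖u‖ ≤ c0`. -/
theorem S0370_of_class (c0 C0 : ℝ) (hc : 0 < c0)
    (𝒞 : ∀ d : ℕ, Set (Set (EuclideanSpace ℝ (Fin d))))
    (h0 : ∀ d : ℕ, closedBall (0 : EuclideanSpace ℝ (Fin d)) (C0 * Real.sqrt d) ∈ 𝒞 d)
    (h1 : ∀ (d : ℕ) (K : Set (EuclideanSpace ℝ (Fin d))), K ∈ 𝒞 d →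
      Convex ℝ K ∧ (∀ x ∈ K, -x ∈ K) ∧ K.Nonempty)
    (h2 : ∀ (d : ℕ) (K : Set (EuclideanSpace ℝ (Fin d))) (u : EuclideanSpace ℝ (Fin d)),
      K ∈ 𝒞 d → ‖u‖ ≤ c0 → star K u ∩ closedBall 0 (C0 * Real.sqrt d) ∈ 𝒞 d) :
    ∃ C : ℝ, ∀ (d N : ℕ) (v : Fin N → EuclideanSpace ℝ (Fin d)),
      (∀ i, ‖v i‖ ≤ 1) →
      ∃ ε : Fin N → ℤ, (∀ i, ε i = 1 ∨ ε i = -1) ∧
        ∀ k : ℕ, k ≤ N →
          ‖∑ i ∈ Finset.univ.filter (fun i : Fin N => (i : ℕ) < k), (ε i : ℝ) • v i‖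
            ≤ C * Real.sqrt d := by
  refine ⟨C0 / c0, fun d N v hv => ?_⟩
  have key : ∀ (N : ℕ) (w : Fin N → EuclideanSpace ℝ (Fin d)), (∀ i, ‖w i‖ ≤ c0) →
      chain (closedBall 0 (C0 * Real.sqrt d)) N w ∈ 𝒞 d := by
    intro N
    induction N with
    | zero => exact fun w _ => h0 d
    | succ N ih => exact fun w hw => h2 d _ _ (ih _ fun i => hw i.succ) (hw 0)
  have hm := h1 d _ (key N (fun i => c0 • v i) (fun i => by
    rw [norm_smul, Real.norm_of_nonneg hc.le]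
    calc c0 * ‖v i‖ ≤ c0 * 1 := by gcongr; exact hv i
      _ = c0 := mul_one _))
  obtain ⟨hconv, hsymm, z, hz⟩ := hm
  have h00 : (0 : EuclideanSpace ℝ (Fin d)) ∈
      chain (closedBall 0 (C0 * Real.sqrt d)) N (fun i => c0 • v i) := by
    have := hconv hz (hsymm z hz) (a := 1 / 2) (b := 1 / 2) (by norm_num) (by norm_num)
      (by norm_num)
    have e : (1 / 2 : ℝ) • z + (1 / 2 : ℝ) • (-z) = 0 := by module
    rwa [e] at this
  obtain ⟨ε, hε, hs⟩ := chain_signs (convex_closedBall _ _) N _ _ h00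
  refine ⟨ε, hε, fun k hk => ?_⟩
  have h3 := hs k hk
  rw [zero_add, mem_closedBall_zero_iff] at h3
  have e : ∑ i ∈ Finset.univ.filter (fun i : Fin N => (i : ℕ) < k), (ε i : ℝ) • c0 • v i
      = c0 • ∑ i ∈ Finset.univ.filter (fun i : Fin N => (i : ℕ) < k), (ε i : ℝ) • v i := by
    rw [Finset.smul_sum]
    exact Finset.sum_congr rfl fun i _ => smul_comm _ _ _
  rw [e, norm_smul, Real.norm_of_nonneg hc.le] at h3
  rw [div_mul_eq_mul_div, le_div_iff₀ hc]
  linarith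

/-- `(G) + (K) ⇒ S0370` for the hyperplane-section class. -/
theorem S0370_of_GK (c0 C0 : ℝ) (hc : 0 < c0)
    (G : ∀ (d : ℕ) (K : Set (EuclideanSpace ℝ (Fin d))) (u : EuclideanSpace ℝ (Fin d)),
      Convex ℝ K → IsClosed K → (∀ x ∈ K, -x ∈ K) → Win K d ⊥ 0 → ‖u‖ ≤ c0 →
        Win (star K u) d ⊥ 0)
    (HK : ∀ (d : ℕ) (K : Set (EuclideanSpace ℝ (Fin d))),
      Convex ℝ K → IsClosed K → (∀ x ∈ K, -x ∈ K) → Win K d ⊥ 0 →
        Win (K ∩ closedBall 0 (C0 * Real.sqrt d)) d ⊥ 0) :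
    ∃ C : ℝ, ∀ (d N : ℕ) (v : Fin N → EuclideanSpace ℝ (Fin d)),
      (∀ i, ‖v i‖ ≤ 1) →
      ∃ ε : Fin N → ℤ, (∀ i, ε i = 1 ∨ ε i = -1) ∧
        ∀ k : ℕ, k ≤ N →
          ‖∑ i ∈ Finset.univ.filter (fun i : Fin N => (i : ℕ) < k), (ε i : ℝ) • v i‖
            ≤ C * Real.sqrt d := by
  refine S0370_of_class c0 C0 hc
    (fun d => {K | Convex ℝ K ∧ IsClosed K ∧ (∀ x ∈ K, -x ∈ K) ∧ Win K d ⊥ 0}) ?_ ?_ ?_
  · intro d
    refine ⟨convex_closedBall _ _, isClosed_closedBall, fun x hx => ?_, ?_⟩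
    · rw [mem_closedBall_zero_iff] at hx ⊢
      rwa [norm_neg]
    · have := HK d Set.univ convex_univ isClosed_univ (fun _ _ => trivial) (Win.univ _ _ _)
      rwa [Set.univ_inter] at this
  · rintro d K ⟨h1, h2, h3, h4⟩
    refine ⟨h1, h3, Win.nonempty d ⊥ 0 ?_ h4⟩
    rw [Submodule.bot_orthogonal_eq_top, finrank_top, finrank_euclideanSpace_fin]
  · rintro d K u ⟨h1, h2, h3, h4⟩ hu
    refine ⟨(star_convex h1 u).inter (convex_closedBall _ _),
      (star_closed h2 u).inter isClosed_closedBall, ?_, ?_⟩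
    · rintro x ⟨hx1, hx2⟩
      refine ⟨star_symm h3 u x hx1, ?_⟩
      rw [mem_closedBall_zero_iff] at hx2 ⊢
      rwa [norm_neg]
    · exact HK d _ (star_convex h1 u) (star_closed h2 u) (star_symm h3 u) (G d K u h1 h2 h3 h4 hu)

end Crest.Agent.R239.Win849
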