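import Mathlib
import Crest.Agent.R239.Win_849

/-! R239 (S0370): bounded variants of the frame games, for which the cut `K ∩ C0 √d B` is automatic;
`(G)` alone implies the statement. helper849 -/

set_option autoImplicit false

namespace Crest.Agent.R239.Win849

open Metric

section general

variable {E : Type*} [NormedAddCommGroup E] [InnerProductSpace ℝ E]

/-- Adaptive game with bounded free component (helper942, helper524): `U` = span of the used
directions, `x ∈ U` the frozen part, the controller chooses the free part `y ∈ Uᗮ`, `‖y‖ ≤ C`, the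
adversary a unit vector `θ ∈ Uᗮ`, the new frozen part is `x + (1 + ⟪y,θ⟫) θ`. -/
def WinB (C : ℝ) (K : Set E) : ℕ → Submodule ℝ E → E → Prop
  | 0, _, x => x ∈ K
  | n + 1, U, x => ∃ y ∈ Uᗮ, ‖y‖ ≤ C ∧
      ∀ θ ∈ Uᗮ, ‖θ‖ = 1 → WinB C K n (U ⊔ (ℝ ∙ θ)) (x + (1 + inner ℝ y θ) • θ)

theorem WinB.mono {C C' : ℝ} (hC : C ≤ C') {K L : Set E} (h : K ⊆ L) :
    ∀ (n : ℕ) (U : Submodule ℝ E) (x : E), WinB C K n U x → WinB C' L n U x
  | 0, _, _, hx => h hx
  | n + 1, _, _, ⟨y, hy, hyC, hw⟩ =>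
      ⟨y, hy, hyC.trans hC, fun θ hθ h1 => WinB.mono hC h n _ _ (hw θ hθ h1)⟩

theorem WinB.convex {C : ℝ} {K : Set E} (hK : Convex ℝ K) :
    ∀ (n : ℕ) (U : Submodule ℝ E), Convex ℝ {x | WinB C K n U x}
  | 0, _ => hK
  | n + 1, U => by
    rintro x ⟨y, hy, hyC, hw⟩ x' ⟨y', hy', hyC', hw'⟩ a b ha hb hab
    refine ⟨a • y + b • y', Uᗮ.add_mem (Uᗮ.smul_mem a hy) (Uᗮ.smul_mem b hy'), ?_,
      fun θ hθ h1 => ?_⟩
    · calc ‖a • y + b • y'‖ ≤ ‖a • y‖ + ‖b • y'‖ := norm_add_le _ _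
        _ = a * ‖y‖ + b * ‖y'‖ := by
            rw [norm_smul, norm_smul, Real.norm_of_nonneg ha, Real.norm_of_nonneg hb]
        _ ≤ a * C + b * C := by gcongr
        _ = C := by rw [← add_mul, hab, one_mul]
    · have := WinB.convex hK n (U ⊔ (ℝ ∙ θ)) (hw θ hθ h1) (hw' θ hθ h1) ha hb hab
      rw [Set.mem_ofPred_eq] at this
      convert this using 1
      rw [inner_add_left, inner_smul_left, inner_smul_left]
      simp only [conj_trivial]
      have e : a • (x + (1 + inner ℝ y θ) • θ) + b • (x' + (1 + inner ℝ y' θ) • θ)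
          = a • x + b • x' + ((a + b) + (a * inner ℝ y θ + b * inner ℝ y' θ)) • θ := by module
      rw [e, hab]

theorem WinB.neg {C : ℝ} {K : Set E} (hK : ∀ x ∈ K, -x ∈ K) :
    ∀ (n : ℕ) (U : Submodule ℝ E) (x : E), WinB C K n U x → WinB C K n U (-x)
  | 0, _, _, hx => hK _ hx
  | n + 1, U, x, ⟨y, hy, hyC, hw⟩ => by
    refine ⟨-y, Uᗮ.neg_mem hy, by rwa [norm_neg], fun θ hθ h1 => ?_⟩
    have := WinB.neg hK n _ _ (hw (-θ) (Uᗮ.neg_mem hθ) (by rwa [norm_neg]))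
    have e : -(x + (1 + inner ℝ y (-θ)) • -θ) = -x + (1 + inner ℝ (-y) θ) • θ := by
      rw [inner_neg_right, inner_neg_left]
      module
    have e2 : (ℝ ∙ (-θ)) = (ℝ ∙ θ) := by
      rw [← Set.neg_singleton, Submodule.span_neg]
    rwa [e, e2] at this

theorem WinB.univ {C : ℝ} (hC : 0 ≤ C) :
    ∀ (n : ℕ) (U : Submodule ℝ E) (x : E), WinB C (Set.univ : Set E) n U x
  | 0, _, _ => trivial
  | n + 1, _, _ => ⟨0, Submodule.zero_mem _, by simpa using hC,
      fun θ _ _ => WinB.univ hC n _ _⟩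

theorem WinB.nonempty [FiniteDimensional ℝ E] {C : ℝ} {K : Set E} :
    ∀ (n : ℕ) (U : Submodule ℝ E) (x : E), Module.finrank ℝ Uᗮ = n → WinB C K n U x → K.Nonempty
  | 0, _, x, _, h => ⟨x, h⟩
  | n + 1, U, x, hn, ⟨y, hy, _, hw⟩ => by
    obtain ⟨θ, hθ, h1⟩ := exists_unit hn
    exact WinB.nonempty n _ _ (finrank_orth_sup hθ h1 hn) (hw θ hθ h1)

/-- In the bounded game every final position has norm at most `(1 + C) √d`: the cut is automatic. -/
theorem WinB.cut {C : ℝ} {K : Set E} {R : ℝ} (hR : 0 ≤ R) :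
    ∀ (n : ℕ) (U : Submodule ℝ E) (x : E), x ∈ U → WinB C K n U x →
      ‖x‖ ^ 2 + n * (1 + C) ^ 2 ≤ R ^ 2 → WinB C (K ∩ closedBall (0 : E) R) n U x
  | 0, _, x, _, h, hx => by
    refine ⟨h, ?_⟩
    rw [mem_closedBall_zero_iff]
    have : ‖x‖ ^ 2 ≤ R ^ 2 := by simpa using hx
    exact (sq_le_sq₀ (norm_nonneg _) hR).1 this
  | n + 1, U, x, hxU, ⟨y, hy, hyC, hw⟩, hx => by
    refine ⟨y, hy, hyC, fun θ hθ h1 => WinB.cut hR n _ _ ?_ (hw θ hθ h1) ?_⟩
    · exact Submodule.add_mem_sup hxU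
        (Submodule.smul_mem _ _ (Submodule.mem_span_singleton_self θ))
    · have h2 : inner ℝ x ((1 + inner ℝ y θ) • θ) = 0 :=
        (Uᗮ.smul_mem (1 + inner ℝ y θ) hθ) x hxU
      have h3 := norm_add_sq_real x ((1 + inner ℝ y θ) • θ)
      rw [h2, norm_smul, h1, mul_one, Real.norm_eq_abs, sq_abs] at h3
      have h4 : |inner ℝ y θ| ≤ C := by
        calc |inner ℝ y θ| ≤ ‖y‖ * ‖θ‖ := abs_real_inner_le_norm y θ
          _ = ‖y‖ := by rw [h1, mul_one]
          _ ≤ C := hyC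
      have h5 : (1 + inner ℝ y θ) ^ 2 ≤ (1 + C) ^ 2 := by
        rw [abs_le] at h4
        nlinarith
      push_cast at hx
      nlinarith

/-- Known frame with bounded authority (helper942): the list gives the letters in time order. -/
def WinF (T : ℝ) (K : Set E) : List E → E → Prop
  | [], x => x ∈ K
  | f :: l, x => ∃ c : ℝ, |c| ≤ T ∧ WinF T K l (x + (c + 1) • f) ∧ WinF T K l (x + (c - 1) • f)

theorem WinF.mono {T T' : ℝ} (hT : T ≤ T') {K L : Set E} (h : K ⊆ L) :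
    ∀ (l : List E) (x : E), WinF T K l x → WinF T' L l x
  | [], _, hx => h hx
  | _ :: l, _, ⟨c, hc, h1, h2⟩ =>
      ⟨c, hc.trans hT, WinF.mono hT h l _ h1, WinF.mono hT h l _ h2⟩

theorem WinF.convex {T : ℝ} {K : Set E} (hK : Convex ℝ K) :
    ∀ (l : List E), Convex ℝ {x | WinF T K l x}
  | [] => hK
  | f :: l => by
    rintro x ⟨c, hc, h1, h2⟩ x' ⟨c', hc', h1', h2'⟩ a b ha hb hab
    refine ⟨a * c + b * c', ?_, ?_, ?_⟩
    · calc |a * c + b * c'| ≤ |a * c| + |b * c'| := abs_add_le _ _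
        _ = a * |c| + b * |c'| := by rw [abs_mul, abs_mul, abs_of_nonneg ha, abs_of_nonneg hb]
        _ ≤ a * T + b * T := by gcongr
        _ = T := by rw [← add_mul, hab, one_mul]
    · have := WinF.convex hK l h1 h1' ha hb hab
      rw [Set.mem_ofPred_eq] at this
      convert this using 1
      have e : a • (x + (c + 1) • f) + b • (x' + (c' + 1) • f)
          = a • x + b • x' + ((a * c + b * c') + (a + b)) • f := by module
      rw [e, hab]
    · have := WinF.convex hK l h2 h2' ha hb hab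
      rw [Set.mem_ofPred_eq] at this
      convert this using 1
      have e : a • (x + (c - 1) • f) + b • (x' + (c' - 1) • f)
          = a • x + b • x' + ((a * c + b * c') - (a + b)) • f := by module
      rw [e, hab]

theorem WinF.neg {T : ℝ} {K : Set E} (hK : ∀ x ∈ K, -x ∈ K) :
    ∀ (l : List E) (x : E), WinF T K l x → WinF T K l (-x)
  | [], _, hx => hK _ hx
  | f :: l, x, ⟨c, hc, h1, h2⟩ => by
    refine ⟨-c, by rwa [abs_neg], ?_, ?_⟩
    · have := WinF.neg hK l _ h2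
      convert this using 1
      module
    · have := WinF.neg hK l _ h1
      convert this using 1
      module

theorem WinF.univ {T : ℝ} (hT : 0 ≤ T) : ∀ (l : List E) (x : E), WinF T (Set.univ : Set E) l x
  | [], _ => trivial
  | _ :: l, _ => ⟨0, by simpa using hT, WinF.univ hT l _, WinF.univ hT l _⟩

theorem WinF.nonempty {T : ℝ} {K : Set E} : ∀ (l : List E) (x : E), WinF T K l x → K.Nonempty
  | [], x, h => ⟨x, h⟩
  | _ :: l, _, ⟨_, _, h1, _⟩ => WinF.nonempty l _ h1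

/-- The cut is automatic for lists of orthonormal vectors. -/
theorem WinF.cut {T : ℝ} {K : Set E} {R : ℝ} (hR : 0 ≤ R) :
    ∀ (l : List E) (x : E), l.Pairwise (fun f g => inner ℝ f g = 0) → (∀ f ∈ l, ‖f‖ = 1) →
      (∀ f ∈ l, inner ℝ x f = 0) → WinF T K l x →
      ‖x‖ ^ 2 + l.length * (1 + T) ^ 2 ≤ R ^ 2 → WinF T (K ∩ closedBall (0 : E) R) l x
  | [], x, _, _, _, h, hx => by
    refine ⟨h, ?_⟩
    rw [mem_closedBall_zero_iff]
    have : ‖x‖ ^ 2 ≤ R ^ 2 := by simpa using hx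
    exact (sq_le_sq₀ (norm_nonneg _) hR).1 this
  | f :: l, x, hp, h1, h0, ⟨c, hc, ha, hb⟩, hx => by
    rw [List.pairwise_cons] at hp
    have hf1 : ‖f‖ = 1 := h1 f List.mem_cons_self
    have hxf : inner ℝ x f = 0 := h0 f List.mem_cons_self
    have key : ∀ a : ℝ, |a| ≤ 1 + T → ‖x + a • f‖ ^ 2 + l.length * (1 + T) ^ 2 ≤ R ^ 2 := by
      intro a ha
      have h3 := norm_add_sq_real x (a • f)
      rw [inner_smul_right, hxf, norm_smul, hf1, mul_one, Real.norm_eq_abs, sq_abs] at h3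
      have h5 : a ^ 2 ≤ (1 + T) ^ 2 := sq_le_sq' (by linarith [(abs_le.1 ha).1]) (abs_le.1 ha).2
      rw [List.length_cons] at hx
      push_cast at hx
      nlinarith
    have orth : ∀ a : ℝ, ∀ g ∈ l, inner ℝ (x + a • f) g = 0 := by
      intro a g hg
      rw [inner_add_left, inner_smul_left, h0 g (List.mem_cons_of_mem _ hg), hp.1 g hg]
      simp
    rw [abs_le] at hc
    exact ⟨c, abs_le.2 hc,
      WinF.cut hR l _ hp.2 (fun g hg => h1 g (List.mem_cons_of_mem _ hg)) (orth _) ha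
        (key _ (abs_le.2 ⟨by linarith, by linarith⟩)),
      WinF.cut hR l _ hp.2 (fun g hg => h1 g (List.mem_cons_of_mem _ hg)) (orth _) hb
        (key _ (abs_le.2 ⟨by linarith, by linarith⟩))⟩

end general

/-- `(G)` for the adaptive game with bounded free component implies the statement of S0370. -/
theorem S0370_of_GB (c0 C : ℝ) (hc : 0 < c0) (hC : 0 ≤ C)
    (G : ∀ (d : ℕ) (K : Set (EuclideanSpace ℝ (Fin d))) (u : EuclideanSpace ℝ (Fin d)),
      Convex ℝ K → IsCompact K → (∀ x ∈ K, -x ∈ K) → WinB C K d ⊥ 0 → ‖u‖ ≤ c0 →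
        WinB C (star K u) d ⊥ 0) :
    ∃ C : ℝ, ∀ (d N : ℕ) (v : Fin N → EuclideanSpace ℝ (Fin d)),
      (∀ i, ‖v i‖ ≤ 1) →
      ∃ ε : Fin N → ℤ, (∀ i, ε i = 1 ∨ ε i = -1) ∧
        ∀ k : ℕ, k ≤ N →
          ‖∑ i ∈ Finset.univ.filter (fun i : Fin N => (i : ℕ) < k), (ε i : ℝ) • v i‖
            ≤ C * Real.sqrt d := by
  have hR : ∀ d : ℕ, 0 ≤ (1 + C) * Real.sqrt d := fun d => by positivity
  have hcut : ∀ (d : ℕ) (K : Set (EuclideanSpace ℝ (Fin d))), WinB C K d ⊥ 0 →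
      WinB C (K ∩ closedBall 0 ((1 + C) * Real.sqrt d)) d ⊥ 0 := by
    intro d K h
    refine WinB.cut (hR d) d ⊥ 0 (Submodule.zero_mem _) h ?_
    rw [norm_zero, mul_pow, Real.sq_sqrt (Nat.cast_nonneg d)]
    nlinarith
  refine S0370_of_class c0 (1 + C) hc
    (fun d => {K | Convex ℝ K ∧ IsCompact K ∧ (∀ x ∈ K, -x ∈ K) ∧ WinB C K d ⊥ 0}) ?_ ?_ ?_
  · intro d
    refine ⟨convex_closedBall _ _, isCompact_closedBall _ _, fun x hx => ?_, ?_⟩
    · rw [mem_closedBall_zero_iff] at hx ⊢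
      rwa [norm_neg]
    · have := hcut d Set.univ (WinB.univ hC _ _ _)
      rwa [Set.univ_inter] at this
  · rintro d K ⟨h1, h2, h3, h4⟩
    refine ⟨h1, h3, WinB.nonempty d ⊥ 0 ?_ h4⟩
    rw [Submodule.bot_orthogonal_eq_top, finrank_top, finrank_euclideanSpace_fin]
  · rintro d K u ⟨h1, h2, h3, h4⟩ hu
    refine ⟨(star_convex h1 u).inter (convex_closedBall _ _),
      (isCompact_closedBall _ _).inter_left (star_closed h2.isClosed u), ?_,
      hcut d _ (G d K u h1 h2 h3 h4 hu)⟩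
    rintro x ⟨hx1, hx2⟩
    refine ⟨star_symm h3 u x hx1, ?_⟩
    rw [mem_closedBall_zero_iff] at hx2 ⊢
    rwa [norm_neg]

/-- Orthonormal lists of full length. -/
def Frame (d : ℕ) (l : List (EuclideanSpace ℝ (Fin d))) : Prop :=
  l.length = d ∧ l.Pairwise (fun f g => inner ℝ f g = 0) ∧ ∀ f ∈ l, ‖f‖ = 1

theorem exists_frame (d : ℕ) : ∃ l, Frame d l := by
  refine ⟨List.ofFn (fun i : Fin d => EuclideanSpace.single i (1 : ℝ)), by simp, ?_, ?_⟩
  · rw [List.pairwise_ofFn]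
    intro i j hij
    rw [EuclideanSpace.inner_single_left]
    simp [hij.ne]
  · intro f hf
    rw [List.mem_ofFn] at hf
    obtain ⟨i, rfl⟩ := hf
    simp

/-- `(G)` for the known-frame class with bounded authority implies the statement of S0370. -/
theorem S0370_of_GF (c0 T : ℝ) (hc : 0 < c0) (hT : 0 ≤ T)
    (G : ∀ (d : ℕ) (K : Set (EuclideanSpace ℝ (Fin d))) (u : EuclideanSpace ℝ (Fin d)),
      Convex ℝ K → IsCompact K → (∀ x ∈ K, -x ∈ K) → (∀ l, Frame d l → WinF T K l 0) →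
        ‖u‖ ≤ c0 → ∀ l, Frame d l → WinF T (star K u) l 0) :
    ∃ C : ℝ, ∀ (d N : ℕ) (v : Fin N → EuclideanSpace ℝ (Fin d)),
      (∀ i, ‖v i‖ ≤ 1) →
      ∃ ε : Fin N → ℤ, (∀ i, ε i = 1 ∨ ε i = -1) ∧
        ∀ k : ℕ, k ≤ N →
          ‖∑ i ∈ Finset.univ.filter (fun i : Fin N => (i : ℕ) < k), (ε i : ℝ) • v i‖
            ≤ C * Real.sqrt d := by
  have hR : ∀ d : ℕ, 0 ≤ (1 + T) * Real.sqrt d := fun d => by positivity
  have hcut : ∀ (d : ℕ) (K : Set (EuclideanSpace ℝ (Fin d))) (l), Frame d l → WinF T K l 0 →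
      WinF T (K ∩ closedBall 0 ((1 + T) * Real.sqrt d)) l 0 := by
    intro d K l hl h
    refine WinF.cut (hR d) l 0 hl.2.1 hl.2.2 (fun f _ => inner_zero_left f) h ?_
    rw [norm_zero, mul_pow, Real.sq_sqrt (Nat.cast_nonneg d), hl.1]
    nlinarith
  refine S0370_of_class c0 (1 + T) hc
    (fun d => {K | Convex ℝ K ∧ IsCompact K ∧ (∀ x ∈ K, -x ∈ K) ∧
      ∀ l, Frame d l → WinF T K l 0}) ?_ ?_ ?_
  · intro d
    refine ⟨convex_closedBall _ _, isCompact_closedBall _ _, fun x hx => ?_, fun l hl => ?_⟩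
    · rw [mem_closedBall_zero_iff] at hx ⊢
      rwa [norm_neg]
    · have := hcut d Set.univ l hl (WinF.univ hT _ _)
      rwa [Set.univ_inter] at this
  · rintro d K ⟨h1, h2, h3, h4⟩
    obtain ⟨l, hl⟩ := exists_frame d
    exact ⟨h1, h3, WinF.nonempty l 0 (h4 l hl)⟩
  · rintro d K u ⟨h1, h2, h3, h4⟩ hu
    refine ⟨(star_convex h1 u).inter (convex_closedBall _ _),
      (isCompact_closedBall _ _).inter_left (star_closed h2.isClosed u), ?_,
      fun l hl => hcut d _ l hl (G d K u h1 h2 h3 h4 hu l hl)⟩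
    rintro x ⟨hx1, hx2⟩
    refine ⟨star_symm h3 u x hx1, ?_⟩
    rw [mem_closedBall_zero_iff] at hx2 ⊢
    rwa [norm_neg]

end Crest.Agent.R239.Win849
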