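import Mathlib
import Crest.Agent.R239.WinB_849

/-! R239 (S0370): predictable adaptive frames with bounded authority; `(G)` alone implies the
statement. helper849 -/

set_option autoImplicit false

namespace Crest.Agent.R239.Win849

open Metric

section general

variable {E : Type*} [NormedAddCommGroup E] [InnerProductSpace ℝ E]

/-- Predictable adaptive game (224, 607, 942): `U` = span of the used directions, `x ∈ U` the
position; the adversary shows a unit vector `θ ∈ Uᗮ`, the controller chooses `c` with `|c| ≤ T`,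
then the adversary chooses the sign: `x` becomes `x + (c ± 1) θ`. -/
def WinP (T : ℝ) (K : Set E) : ℕ → Submodule ℝ E → E → Prop
  | 0, _, x => x ∈ K
  | n + 1, U, x => ∀ θ ∈ Uᗮ, ‖θ‖ = 1 → ∃ c : ℝ, |c| ≤ T ∧
      WinP T K n (U ⊔ (ℝ ∙ θ)) (x + (c + 1) • θ) ∧ WinP T K n (U ⊔ (ℝ ∙ θ)) (x + (c - 1) • θ)

theorem WinP.mono {T T' : ℝ} (hT : T ≤ T') {K L : Set E} (h : K ⊆ L) :
    ∀ (n : ℕ) (U : Submodule ℝ E) (x : E), WinP T K n U x → WinP T' L n U x
  | 0, _, _, hx => h hx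
  | n + 1, _, _, hw => fun θ hθ h1 => by
      obtain ⟨c, hc, ha, hb⟩ := hw θ hθ h1
      exact ⟨c, hc.trans hT, WinP.mono hT h n _ _ ha, WinP.mono hT h n _ _ hb⟩

theorem WinP.convex {T : ℝ} {K : Set E} (hK : Convex ℝ K) :
    ∀ (n : ℕ) (U : Submodule ℝ E), Convex ℝ {x | WinP T K n U x}
  | 0, _ => hK
  | n + 1, U => by
    rintro x hw x' hw' a b ha hb hab θ hθ h1
    obtain ⟨c, hc, h1a, h1b⟩ := hw θ hθ h1
    obtain ⟨c', hc', h2a, h2b⟩ := hw' θ hθ h1
    refine ⟨a * c + b * c', ?_, ?_, ?_⟩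
    · calc |a * c + b * c'| ≤ |a * c| + |b * c'| := abs_add_le _ _
        _ = a * |c| + b * |c'| := by rw [abs_mul, abs_mul, abs_of_nonneg ha, abs_of_nonneg hb]
        _ ≤ a * T + b * T := by gcongr
        _ = T := by rw [← add_mul, hab, one_mul]
    · have := WinP.convex hK n _ h1a h2a ha hb hab
      rw [Set.mem_ofPred_eq] at this
      convert this using 1
      have e : a • (x + (c + 1) • θ) + b • (x' + (c' + 1) • θ)
          = a • x + b • x' + ((a * c + b * c') + (a + b)) • θ := by module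
      rw [e, hab]
    · have := WinP.convex hK n _ h1b h2b ha hb hab
      rw [Set.mem_ofPred_eq] at this
      convert this using 1
      have e : a • (x + (c - 1) • θ) + b • (x' + (c' - 1) • θ)
          = a • x + b • x' + ((a * c + b * c') - (a + b)) • θ := by module
      rw [e, hab]

theorem WinP.neg {T : ℝ} {K : Set E} (hK : ∀ x ∈ K, -x ∈ K) :
    ∀ (n : ℕ) (U : Submodule ℝ E) (x : E), WinP T K n U x → WinP T K n U (-x)
  | 0, _, _, hx => hK _ hx
  | n + 1, U, x, hw => by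
    intro θ hθ h1
    obtain ⟨c, hc, ha, hb⟩ := hw θ hθ h1
    refine ⟨-c, by rwa [abs_neg], ?_, ?_⟩
    · have := WinP.neg hK n _ _ hb
      convert this using 1
      module
    · have := WinP.neg hK n _ _ ha
      convert this using 1
      module

theorem WinP.univ {T : ℝ} (hT : 0 ≤ T) :
    ∀ (n : ℕ) (U : Submodule ℝ E) (x : E), WinP T (Set.univ : Set E) n U x
  | 0, _, _ => trivial
  | n + 1, _, _ => fun _ _ _ => ⟨0, by simpa using hT, WinP.univ hT n _ _, WinP.univ hT n _ _⟩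

theorem WinP.nonempty [FiniteDimensional ℝ E] {T : ℝ} {K : Set E} :
    ∀ (n : ℕ) (U : Submodule ℝ E) (x : E), Module.finrank ℝ Uᗮ = n → WinP T K n U x → K.Nonempty
  | 0, _, x, _, h => ⟨x, h⟩
  | n + 1, U, x, hn, hw => by
    obtain ⟨θ, hθ, h1⟩ := exists_unit hn
    obtain ⟨c, _, ha, _⟩ := hw θ hθ h1
    exact WinP.nonempty n _ _ (finrank_orth_sup hθ h1 hn) ha

/-- The cut is automatic. -/
theorem WinP.cut {T : ℝ} {K : Set E} {R : ℝ} (hR : 0 ≤ R) :
    ∀ (n : ℕ) (U : Submodule ℝ E) (x : E), x ∈ U → WinP T K n U x →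
      ‖x‖ ^ 2 + n * (1 + T) ^ 2 ≤ R ^ 2 → WinP T (K ∩ closedBall (0 : E) R) n U x
  | 0, _, x, _, h, hx => by
    refine ⟨h, ?_⟩
    rw [mem_closedBall_zero_iff]
    have : ‖x‖ ^ 2 ≤ R ^ 2 := by simpa using hx
    exact (sq_le_sq₀ (norm_nonneg _) hR).1 this
  | n + 1, U, x, hxU, hw, hx => by
    intro θ hθ h1
    obtain ⟨c, hc, ha, hb⟩ := hw θ hθ h1
    have hxθ : inner ℝ x θ = 0 := hθ x hxU
    have key : ∀ a : ℝ, |a| ≤ 1 + T → ‖x + a • θ‖ ^ 2 + n * (1 + T) ^ 2 ≤ R ^ 2 := by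
      intro a ha
      have h3 := norm_add_sq_real x (a • θ)
      rw [inner_smul_right, hxθ, norm_smul, h1, mul_one, Real.norm_eq_abs, sq_abs] at h3
      have h5 : a ^ 2 ≤ (1 + T) ^ 2 := sq_le_sq' (by linarith [(abs_le.1 ha).1]) (abs_le.1 ha).2
      push_cast at hx
      nlinarith
    have mem : ∀ a : ℝ, x + a • θ ∈ U ⊔ (ℝ ∙ θ) := fun a =>
      Submodule.add_mem_sup hxU
        (Submodule.smul_mem _ _ (Submodule.mem_span_singleton_self θ))
    rw [abs_le] at hc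
    exact ⟨c, abs_le.2 hc,
      WinP.cut hR n _ _ (mem _) ha (key _ (abs_le.2 ⟨by linarith, by linarith⟩)),
      WinP.cut hR n _ _ (mem _) hb (key _ (abs_le.2 ⟨by linarith, by linarith⟩))⟩

end general

/-- `(G)` for the predictable adaptive game with bounded authority implies the statement of
S0370. -/
theorem S0370_of_GP (c0 T : ℝ) (hc : 0 < c0) (hT : 0 ≤ T)
    (G : ∀ (d : ℕ) (K : Set (EuclideanSpace ℝ (Fin d))) (u : EuclideanSpace ℝ (Fin d)),
      Convex ℝ K → IsCompact K → (∀ x ∈ K, -x ∈ K) → WinP T K d ⊥ 0 → ‖u‖ ≤ c0 →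
        WinP T (star K u) d ⊥ 0) :
    ∃ C : ℝ, ∀ (d N : ℕ) (v : Fin N → EuclideanSpace ℝ (Fin d)),
      (∀ i, ‖v i‖ ≤ 1) →
      ∃ ε : Fin N → ℤ, (∀ i, ε i = 1 ∨ ε i = -1) ∧
        ∀ k : ℕ, k ≤ N →
          ‖∑ i ∈ Finset.univ.filter (fun i : Fin N => (i : ℕ) < k), (ε i : ℝ) • v i‖
            ≤ C * Real.sqrt d := by
  have hR : ∀ d : ℕ, 0 ≤ (1 + T) * Real.sqrt d := fun d => by positivity
  have hcut : ∀ (d : ℕ) (K : Set (EuclideanSpace ℝ (Fin d))), WinP T K d ⊥ 0 →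
      WinP T (K ∩ closedBall 0 ((1 + T) * Real.sqrt d)) d ⊥ 0 := by
    intro d K h
    refine WinP.cut (hR d) d ⊥ 0 (Submodule.zero_mem _) h ?_
    rw [norm_zero, mul_pow, Real.sq_sqrt (Nat.cast_nonneg d)]
    nlinarith
  refine S0370_of_class c0 (1 + T) hc
    (fun d => {K | Convex ℝ K ∧ IsCompact K ∧ (∀ x ∈ K, -x ∈ K) ∧ WinP T K d ⊥ 0}) ?_ ?_ ?_
  · intro d
    refine ⟨convex_closedBall _ _, isCompact_closedBall _ _, fun x hx => ?_, ?_⟩
    · rw [mem_closedBall_zero_iff] at hx ⊢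
      rwa [norm_neg]
    · have := hcut d Set.univ (WinP.univ hT _ _ _)
      rwa [Set.univ_inter] at this
  · rintro d K ⟨h1, h2, h3, h4⟩
    refine ⟨h1, h3, WinP.nonempty d ⊥ 0 ?_ h4⟩
    rw [Submodule.bot_orthogonal_eq_top, finrank_top, finrank_euclideanSpace_fin]
  · rintro d K u ⟨h1, h2, h3, h4⟩ hu
    refine ⟨(star_convex h1 u).inter (convex_closedBall _ _),
      (isCompact_closedBall _ _).inter_left (star_closed h2.isClosed u), ?_,
      hcut d _ (G d K u h1 h2 h3 h4 hu)⟩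
    rintro x ⟨hx1, hx2⟩
    refine ⟨star_symm h3 u x hx1, ?_⟩
    rw [mem_closedBall_zero_iff] at hx2 ⊢
    rwa [norm_neg]

end Crest.Agent.R239.Win849
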