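import Crest.Agent.R239.Fin504
import Crest.Agent.R239.T1_689
import Crest.Agent.R239.Gr5_435
import Crest.Agent.R239.F2b_227
import Crest.Agent.R239.TIns_556
import Crest.Agent.R239.ThinT_853

/-! R239 / S0370: kernel check of the chain (helper322): everything is proved from `Target_LEV`. -/

set_option autoImplicit false

namespace Crest.Agent.R239.Wire322

open Crest.Agent.R239.FD

/-- the literal conclusion of S0370 from the one-level comparison `Target_LEV` -/
theorem s0370_of_lev (hL : Target_LEV) :
    ∃ C : ℝ, ∀ (d N : ℕ) (v : Fin N → EuclideanSpace ℝ (Fin d)),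
      (∀ i, ‖v i‖ ≤ 1) →
      ∃ ε : Fin N → ℤ, (∀ i, ε i = 1 ∨ ε i = -1) ∧
        ∀ k : ℕ, k ≤ N →
          ‖∑ i ∈ Finset.univ.filter (fun i : Fin N => (i : ℕ) < k), (ε i : ℝ) • v i‖
            ≤ C * Real.sqrt d :=
  Fin504.S0370_of_targets
    (Fin504.target_U3 Gr5435.target_growth (T1689.target_t1 Dem853.target_THIN hL)
      Ins556.target_ins FD.target_U2) FD.target_U2

end Crest.Agent.R239.Wire322

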