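import Mathlib
import Crest.Agent.R239.FDef
import Crest.Agent.R239.L0_942

/-! R239 / S0370, wiring check (helper518): `Target_U3 → Target_U2 → S0370`. -/

set_option autoImplicit false
open MeasureTheory ProbabilityTheory
open scoped RealInnerProductSpace

namespace Crest.Agent.R239.Wire518

open Crest.Agent.R239 (gau)
open Crest.Agent.R239.FD

variable {E : Type*} [NormedAddCommGroup E] [InnerProductSpace ℝ E] [FiniteDimensional ℝ E]
  [MeasurableSpace E] [BorelSpace E]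

/-- the zero flag -/
noncomputable def zeroFlag (E : Type*) [NormedAddCommGroup E] [InnerProductSpace ℝ E] : Flag E where
  n := 0
  M := fun _ => ⊥
  anti := fun _ _ _ => le_rfl
  bot := fun _ _ => rfl

theorem J_le (p : Par) {C : ℝ} (hU2 : P_U2 E p C) (hJ0 : P_J0 E p) (V : Flag E)
    (μ : Multiset E) :
    J p V μ ≤ (μ.map fun z => C * Real.sqrt (Module.finrank ℝ E) * ‖z‖).sum := by
  induction μ using Multiset.induction_on with
  | empty => simpa using hJ0 V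
  | cons z μ ih =>
    have h := hU2 V z μ
    rw [Multiset.map_cons, Multiset.sum_cons]
    linarith

theorem bdd (p : Par) {C : ℝ} (hU2 : P_U2 E p C) (hJ0 : P_J0 E p) (μ : Multiset E) :
    BddAbove (Set.range fun V : Flag E => J p V μ) := by
  refine ⟨(μ.map fun z => C * Real.sqrt (Module.finrank ℝ E) * ‖z‖).sum, ?_⟩
  rintro _ ⟨V, rfl⟩
  exact J_le p hU2 hJ0 V μ

theorem Ut_nonneg (p : Par) {C : ℝ} (hU2 : P_U2 E p C) (hJ0 : P_J0 E p) (μ : Multiset E) :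
    0 ≤ Ut p μ := by
  have h : J p (zeroFlag E) μ = 0 := by simp [J, zeroFlag]
  calc (0 : ℝ) = J p (zeroFlag E) μ := h.symm
    _ ≤ Ut p μ := le_csSup (bdd p hU2 hJ0 μ) ⟨zeroFlag E, rfl⟩

theorem Ut_lip (p : Par) {C : ℝ} (hU2 : P_U2 E p C) (hJ0 : P_J0 E p) (z : E) (μ : Multiset E) :
    Ut p (z ::ₘ μ) ≤ Ut p μ + C * Real.sqrt (Module.finrank ℝ E) * ‖z‖ := by
  refine csSup_le ⟨_, zeroFlag E, rfl⟩ ?_
  rintro _ ⟨V, rfl⟩
  have h1 := hU2 V z μ
  have h2 : J p V μ ≤ Ut p μ := le_csSup (bdd p hU2 hJ0 μ) ⟨V, rfl⟩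
  simp only
  linarith

theorem Ut_mono (p : Par) {C : ℝ} (hU2 : P_U2 E p C) (hJ0 : P_J0 E p) (hm : P_D_mono E p)
    (s : Multiset (E × E)) :
    Ut p (s.map fun q => q.1 + q.2) ≤ Ut p (s.map Prod.fst + s.map Prod.snd) := by
  refine csSup_le ⟨_, zeroFlag E, rfl⟩ ?_
  rintro _ ⟨V, rfl⟩
  refine le_trans ?_ (le_csSup (bdd p hU2 hJ0 _) ⟨V, rfl⟩)
  refine Finset.sum_le_sum fun i _ => ?_
  have := hm V i s
  linarith



/-- (U3) of `L0_942` from `P_U3t` -/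
theorem U3_of (p : Par) (hp : p.Ok) (ht : p.tau = 1) {C1 eta c C : ℝ} (hC1 : 1 ≤ C1) (heta : 0 < eta)
    (hc : 0 < c) (hU2 : P_U2 E p C) (hJ0 : P_J0 E p) (hm : P_D_mono E p)
    (h3 : P_U3t E p C1 eta c) (v : E) (s : Multiset (E × E)) (hv : ‖v‖ = 1) :
    c * (L0.S (L0.spl s) v - 2 * L0.S (L0.mrg s) v) - c / (C1 * eta)
      ≤ Ut p (L0.spl s) - Ut p (L0.mrg s) := by
  have hmono : Ut p (L0.mrg s) ≤ Ut p (L0.spl s) := Ut_mono p hU2 hJ0 hm s
  have hS : 0 ≤ L0.S (L0.mrg s) v := L0.S_nonneg _ _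
  have hS' : 0 ≤ L0.S (L0.spl s) v := L0.S_nonneg _ _
  have hC0 : 0 < C1 := by linarith
  have hCe : 0 < C1 * eta := mul_pos hC0 heta
  have hd : 0 < c / (C1 * eta) := div_pos hc hCe
  rcases lt_or_ge (2 * L0.S (L0.mrg s) v) (L0.S (L0.spl s) v) with h | h
  · rcases lt_or_ge (C1 * eta * L0.S (L0.spl s) v) 1 with h1 | h1
    · have h2 : L0.S (L0.spl s) v ≤ 1 / (C1 * eta) := by
        rw [le_div_iff₀ hCe]
        linarith
      have h4 : c * L0.S (L0.spl s) v ≤ c / (C1 * eta) := by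
        calc c * L0.S (L0.spl s) v ≤ c * (1 / (C1 * eta)) := mul_le_mul_of_nonneg_left h2 hc.le
          _ = c / (C1 * eta) := by ring
      nlinarith
    · have hA : 1 < p.A := by linarith [hp.A_ge]
      obtain ⟨I, hI1, hI2⟩ := exists_nat_pow_near h1 hA
      have e1 : p.lam I = p.A ^ I := by simp [Par.lam, ht]
      have h4 := h3 I v s hv h (by rw [e1]; exact hI1)
        (by rw [e1, ← pow_succ']; exact hI2)
      change Ut p (L0.mrg s) + c * L0.S (L0.spl s) v ≤ Ut p (L0.spl s) at h4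
      nlinarith
  · nlinarith

theorem S0370_of (h3 : Target_U3) (h2 : Target_U2) :
    ∃ C : ℝ, ∀ (d N : ℕ) (v : Fin N → EuclideanSpace ℝ (Fin d)),
      (∀ i, ‖v i‖ ≤ 1) →
      ∃ ε : Fin N → ℤ, (∀ i, ε i = 1 ∨ ε i = -1) ∧
        ∀ k : ℕ, k ≤ N →
          ‖∑ i ∈ Finset.univ.filter (fun i : Fin N => (i : ℕ) < k), (ε i : ℝ) • v i‖
            ≤ C * Real.sqrt d := by
  obtain ⟨C1, eta, c, p, hC1, heta, hc, hp, ht, h3⟩ := h3
  obtain ⟨C, hC, h2⟩ := h2 p hp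
  refine L0.S0370_of_U C c (c / (C1 * eta)) hc (fun d μ => Ut p μ) ?_ ?_ ?_ ?_
  · intro d m
    exact Ut_nonneg p (h2 d).1 (h2 d).2.1 m
  · intro d s
    exact Ut_mono p (h2 d).1 (h2 d).2.1 (h2 d).2.2 s
  · intro d z m
    have := Ut_lip p (h2 d).1 (h2 d).2.1 z m
    simpa using this
  · intro d v s hv
    exact U3_of p hp ht hC1 heta hc (h2 d).1 (h2 d).2.1 (h2 d).2.2 (h3 d) v s hv

end Crest.Agent.R239.Wire518
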