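import Mathlib
import Crest.Agent.R239.FDef
import Crest.Agent.R239.L0_942

/-! R239 / S0370: the literal conclusion from `Target_U2` and `Target_U3` (helper934, insurance). -/

set_option autoImplicit false
set_option linter.unusedSectionVars false
open scoped RealInnerProductSpace

namespace Crest.Agent.R239.Wire934

open Crest.Agent.R239.FD

section
variable {E : Type*} [NormedAddCommGroup E] [InnerProductSpace ℝ E] [FiniteDimensional ℝ E]
  [MeasurableSpace E] [BorelSpace E]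

/-- the zero flag -/
def zflag (E : Type*) [NormedAddCommGroup E] [InnerProductSpace ℝ E] : Flag E where
  n := 0
  M _ := ⊥
  anti := fun _ _ _ => le_refl _
  bot := fun _ _ => rfl

lemma J_zflag (p : Par) (μ : Multiset E) : J p (zflag E) μ = 0 := by
  simp [J, zflag]

/-- sum of the norms -/
noncomputable def nsum (μ : Multiset E) : ℝ := (μ.map fun z => ‖z‖).sum

lemma J_le (p : Par) (C : ℝ) (h0 : P_J0 E p) (h2 : P_U2 E p C) (V : Flag E) (μ : Multiset E) :
    J p V μ ≤ C * Real.sqrt (Module.finrank ℝ E) * nsum μ := by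
  induction μ using Multiset.induction_on with
  | empty => simpa [nsum] using h0 V
  | cons z m ih =>
    have h := h2 V z m
    have e : nsum (z ::ₘ m) = ‖z‖ + nsum m := by simp [nsum]
    rw [e]
    nlinarith [h, ih]

lemma bdd (p : Par) (C : ℝ) (h0 : P_J0 E p) (h2 : P_U2 E p C) (μ : Multiset E) :
    BddAbove (Set.range fun V : Flag E => J p V μ) := by
  refine ⟨C * Real.sqrt (Module.finrank ℝ E) * nsum μ, ?_⟩
  rintro _ ⟨V, rfl⟩
  exact J_le p C h0 h2 V μ

lemma J_le_Ut (p : Par) (C : ℝ) (h0 : P_J0 E p) (h2 : P_U2 E p C) (V : Flag E) (μ : Multiset E) :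
    J p V μ ≤ Ut p μ := le_csSup (bdd p C h0 h2 μ) ⟨V, rfl⟩

lemma Ut_nonneg (p : Par) (C : ℝ) (h0 : P_J0 E p) (h2 : P_U2 E p C) (μ : Multiset E) :
    0 ≤ Ut p μ := by
  have h := J_le_Ut p C h0 h2 (zflag E) μ
  rwa [J_zflag] at h

lemma Ut_mono (p : Par) (C : ℝ) (h0 : P_J0 E p) (h2 : P_U2 E p C) (h1 : P_D_mono E p)
    (s : Multiset (E × E)) :
    Ut p (s.map fun q => q.1 + q.2) ≤ Ut p (s.map Prod.fst + s.map Prod.snd) := by
  refine csSup_le ⟨_, ⟨zflag E, rfl⟩⟩ ?_
  rintro _ ⟨V, rfl⟩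
  refine le_trans ?_ (J_le_Ut p C h0 h2 V _)
  unfold J
  refine Finset.sum_le_sum fun i _ => ?_
  have := h1 V i s
  linarith

lemma Ut_cons (p : Par) (C : ℝ) (h0 : P_J0 E p) (h2 : P_U2 E p C) (z : E) (μ : Multiset E) :
    Ut p (z ::ₘ μ) ≤ Ut p μ + C * Real.sqrt (Module.finrank ℝ E) * ‖z‖ := by
  refine csSup_le ⟨_, ⟨zflag E, rfl⟩⟩ ?_
  rintro _ ⟨V, rfl⟩
  have h := h2 V z μ
  have h' := J_le_Ut p C h0 h2 V μ
  show J p V (z ::ₘ μ) ≤ _
  linarith

lemma S_nonneg (μ : Multiset E) (v : E) : 0 ≤ S μ v := by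
  unfold S
  refine Multiset.sum_nonneg ?_
  intro x hx
  obtain ⟨z, _, rfl⟩ := Multiset.mem_map.1 hx
  exact abs_nonneg _

/-- the level of a letter -/
lemma exists_level (p : Par) (hA : 1 < p.A) (ht : p.tau = 1) {x : ℝ} (hx : 1 ≤ x) :
    ∃ I : ℕ, p.lam I ≤ x ∧ x < p.A * p.lam I := by
  obtain ⟨I, h1, h2⟩ := exists_nat_pow_near hx hA
  refine ⟨I, ?_, ?_⟩
  · simpa [Par.lam, ht] using h1
  · have : p.A * p.lam I = p.A ^ (I + 1) := by simp [Par.lam, ht, pow_succ, mul_comm]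
    rw [this]; exact h2

lemma U3_form (p : Par) (C C1 eta c : ℝ) (hC1 : 1 ≤ C1) (heta : 0 < eta) (hc : 0 < c) (hp : p.Ok)
    (ht : p.tau = 1) (h0 : P_J0 E p) (h2 : P_U2 E p C) (h1 : P_D_mono E p)
    (h3 : P_U3t E p C1 eta c) (v : E) (hv : ‖v‖ = 1) (s : Multiset (E × E)) :
    c * (S (s.map Prod.fst + s.map Prod.snd) v - 2 * S (s.map fun q => q.1 + q.2) v) - c / (C1 * eta)
      ≤ Ut p (s.map Prod.fst + s.map Prod.snd) - Ut p (s.map fun q => q.1 + q.2) := by
  have hm := Ut_mono p C h0 h2 h1 s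
  have hS0 := S_nonneg (s.map fun q => q.1 + q.2) v
  have hS1 := S_nonneg (s.map Prod.fst + s.map Prod.snd) v
  have hCe : 0 < C1 * eta := by positivity
  have hd : 0 < c / (C1 * eta) := by positivity
  rcases le_or_gt (S (s.map Prod.fst + s.map Prod.snd) v) (2 * S (s.map fun q => q.1 + q.2) v) with
    h | h
  · have : c * (S (s.map Prod.fst + s.map Prod.snd) v - 2 * S (s.map fun q => q.1 + q.2) v) ≤ 0 :=
      mul_nonpos_of_nonneg_of_nonpos hc.le (by linarith)
    linarith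
  · rcases le_or_gt 1 (C1 * eta * S (s.map Prod.fst + s.map Prod.snd) v) with hx | hx
    · have hA : 1 < p.A := lt_of_lt_of_le (by norm_num) hp.A_ge
      obtain ⟨I, hI1, hI2⟩ := exists_level p hA ht hx
      have h4 := h3 I v s hv h hI1 hI2
      have : c * (S (s.map Prod.fst + s.map Prod.snd) v - 2 * S (s.map fun q => q.1 + q.2) v)
          ≤ c * S (s.map Prod.fst + s.map Prod.snd) v :=
        mul_le_mul_of_nonneg_left (by linarith) hc.le
      linarith
    · have h5 : S (s.map Prod.fst + s.map Prod.snd) v ≤ 1 / (C1 * eta) := by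
        rw [le_div_iff₀ hCe]; linarith
      have h6 : c * S (s.map Prod.fst + s.map Prod.snd) v ≤ c / (C1 * eta) := by
        calc c * S (s.map Prod.fst + s.map Prod.snd) v ≤ c * (1 / (C1 * eta)) :=
              mul_le_mul_of_nonneg_left h5 hc.le
          _ = c / (C1 * eta) := by ring
      have : c * (S (s.map Prod.fst + s.map Prod.snd) v - 2 * S (s.map fun q => q.1 + q.2) v)
          ≤ c * S (s.map Prod.fst + s.map Prod.snd) v :=
        mul_le_mul_of_nonneg_left (by linarith) hc.le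
      linarith

end

/-- **S0370 from the two targets.** -/
theorem s0370_of_targets (hU2 : Target_U2) (hU3 : Target_U3) :
    ∃ C : ℝ, ∀ (d N : ℕ) (v : Fin N → EuclideanSpace ℝ (Fin d)),
      (∀ i, ‖v i‖ ≤ 1) →
      ∃ ε : Fin N → ℤ, (∀ i, ε i = 1 ∨ ε i = -1) ∧
        ∀ k : ℕ, k ≤ N →
          ‖∑ i ∈ Finset.univ.filter (fun i : Fin N => (i : ℕ) < k), (ε i : ℝ) • v i‖
            ≤ C * Real.sqrt d := by
  obtain ⟨C1, eta, c, p, hC1, heta, hc, hp, ht, h3⟩ := hU3
  obtain ⟨C, hC, h⟩ := hU2 p hp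
  refine L0.S0370_of_U C c (c / (C1 * eta)) hc (fun d μ => Ut p μ) ?_ ?_ ?_ ?_
  · intro d m
    exact Ut_nonneg p C (h d).2.1 (h d).1 m
  · intro d s
    exact Ut_mono p C (h d).2.1 (h d).1 (h d).2.2 s
  · intro d z m
    have := Ut_cons p C (h d).2.1 (h d).1 z m
    simpa using this
  · intro d v s hv
    exact U3_form p C C1 eta c hC1 heta hc hp ht (h d).2.1 (h d).1 (h d).2.2 (h3 d) v hv s

end Crest.Agent.R239.Wire934
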