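import Crest.Agent.R239.FDef
import Crest.Agent.R239.Mom_764
import Crest.Agent.R239.Dom_640
import Crest.Agent.R239.Cmp_142
import Crest.Agent.R239.CmpR_174
import Crest.Agent.R239.F6core_696

/-! R239 / S0370, line 733 (one-step form of (U3), doc 2444, with the one-body lemma of 613 / 875).
Part a: linear algebra of flags over `FDef`. -/

set_option autoImplicit false
set_option linter.unusedSectionVars false
set_option linter.unusedVariables false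
open MeasureTheory ProbabilityTheory
open scoped RealInnerProductSpace

namespace Crest.Agent.R239.Z733

open Crest.Agent.R239 Crest.Agent.R239.FD

variable {E : Type*} [NormedAddCommGroup E] [InnerProductSpace ℝ E] [FiniteDimensional ℝ E]

/-! ### Abel summation -/

lemma abel {G : Type*} [AddCommGroup G] [Module ℝ G] (c : ℕ → ℝ) (f : ℕ → G) {a N : ℕ}
    (ha : 1 ≤ a) (h : a ≤ N) (hf : f N = 0) :
    ∑ j ∈ Finset.Ico a N, (c j - c (j - 1)) • f j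
      = ∑ l ∈ Finset.Ico a N, (c l - c (a - 1)) • (f l - f (l + 1)) := by
  have key : ∀ N, a ≤ N → ∑ j ∈ Finset.Ico a N, (c j - c (j - 1)) • f j
      = ∑ l ∈ Finset.Ico a N, (c l - c (a - 1)) • (f l - f (l + 1))
        + (c (N - 1) - c (a - 1)) • f N := by
    intro N hN
    induction N, hN using Nat.le_induction with
    | base => simp
    | succ N hN ih =>
      rw [Finset.sum_Ico_succ_top hN, Finset.sum_Ico_succ_top hN, ih]
      have : N + 1 - 1 = N := by omega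
      rw [this]
      module
  rw [key N h, hf, smul_zero, add_zero]

lemma abel_real (c f : ℕ → ℝ) {i N : ℕ} (h : i ≤ N) (hf : f N = 0) :
    ∑ l ∈ Finset.Ico i N, c l * (f l - f (l + 1))
      = c i * f i + ∑ j ∈ Finset.Ico (i + 1) N, (c j - c (j - 1)) * f j := by
  rcases eq_or_lt_of_le h with rfl | h'
  · simp [hf]
  · have h1 := abel c f (a := i + 1) (N := N) (by omega) (by omega) hf
    simp only [smul_eq_mul, Nat.add_sub_cancel] at h1
    rw [h1, Finset.sum_eq_sum_Ico_succ_bot h']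
    have h2 : ∑ l ∈ Finset.Ico (i + 1) N, (f l - f (l + 1)) = f (i + 1) := by
      have := Finset.sum_Ico_sub (fun j => f j) (show i + 1 ≤ N by omega)
      have h3 : ∑ l ∈ Finset.Ico (i + 1) N, (f l - f (l + 1))
          = -∑ l ∈ Finset.Ico (i + 1) N, (f (l + 1) - f l) := by
        rw [← Finset.sum_neg_distrib]
        exact Finset.sum_congr rfl fun _ _ => by ring
      rw [h3, this, hf]; ring
    have h4 : ∑ l ∈ Finset.Ico (i + 1) N, (c l - c i) * (f l - f (l + 1))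
        = ∑ l ∈ Finset.Ico (i + 1) N, c l * (f l - f (l + 1))
          - c i * ∑ l ∈ Finset.Ico (i + 1) N, (f l - f (l + 1)) := by
      rw [Finset.mul_sum, ← Finset.sum_sub_distrib]
      exact Finset.sum_congr rfl fun _ _ => by ring
    rw [h4, h2]; ring

/-! ### Flags -/

section flag

variable (V : Flag E)

lemma H_eq (i : ℕ) : V.H i = Mom764.H th V.M V.n i := rfl

lemma Hi_eq (i : ℕ) : V.Hi i = Mom764.Hi th V.M V.n i := rfl

lemma Q_apply (j : ℕ) (x : E) : V.Q j x = V.P j x - V.P (j + 1) x := rfl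

lemma th_pos : (0 : ℝ) < th := by unfold th; norm_num

lemma th_lt : th < 1 := by unfold th; norm_num

lemma P_zero {i : ℕ} (h : V.M i = ⊥) (x : E) : V.P i x = 0 := by
  have h1 : V.P i x ∈ V.M i := (V.M i).starProjection_apply_mem x
  rw [h] at h1
  exact (Submodule.mem_bot ℝ).1 h1

lemma P_zero' {i : ℕ} (h : V.n ≤ i) (x : E) : V.P i x = 0 := P_zero V (V.bot i h) x

lemma P_mem (j : ℕ) (x : E) : V.P j x ∈ V.M j := (V.M j).starProjection_apply_mem x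

lemma P_of_mem {j : ℕ} {x : E} (h : x ∈ V.M j) : V.P j x = x :=
  Submodule.starProjection_eq_self_iff.2 h

lemma inner_P (j : ℕ) (x y : E) : ⟪V.P j x, y⟫ = ⟪x, V.P j y⟫ :=
  Submodule.inner_starProjection_left_eq_right (V.M j) x y

lemma P_P {i j : ℕ} (h : i ≤ j) (x : E) : V.P i (V.P j x) = V.P j x :=
  P_of_mem V (V.anti h (P_mem V j x))

lemma P_P' {i j : ℕ} (h : i ≤ j) (x : E) : V.P j (V.P i x) = V.P j x := by
  apply ext_inner_right ℝ
  intro y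
  rw [inner_P, inner_P, P_P V h, inner_P]

lemma norm_P_sq (j : ℕ) (x : E) : ‖V.P j x‖ ^ 2 = ⟪V.P j x, x⟫ := by
  rw [← real_inner_self_eq_norm_sq, inner_P, P_P V le_rfl, ← inner_P]

lemma norm_Q_sq (j : ℕ) (x : E) : ‖V.Q j x‖ ^ 2 = ‖V.P j x‖ ^ 2 - ‖V.P (j + 1) x‖ ^ 2 :=
  Mom764.norm_Q_sq V.anti j x

lemma norm_Q_sq_le (j : ℕ) (x : E) : ‖V.Q j x‖ ^ 2 ≤ ‖V.P j x‖ ^ 2 := by
  rw [norm_Q_sq]; nlinarith [sq_nonneg ‖V.P (j + 1) x‖]

lemma norm_P_sq_anti {i j : ℕ} (h : i ≤ j) (x : E) : ‖V.P j x‖ ^ 2 ≤ ‖V.P i x‖ ^ 2 := by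
  rw [← P_P' V h x]
  have := (V.M j).norm_starProjection_apply_le (V.P i x)
  change ‖V.P j (V.P i x)‖ ≤ _ at this
  gcongr

lemma norm_P_sq_le (i : ℕ) (x : E) : ‖V.P i x‖ ^ 2 ≤ ‖x‖ ^ 2 := by
  have := (V.M i).norm_starProjection_apply_le x
  change ‖V.P i x‖ ≤ _ at this
  gcongr

lemma H_mem (i : ℕ) (x : E) : V.H i x ∈ V.M i := Mom764.H_mem V.anti th V.n i x

lemma inner_H (i : ℕ) (x y : E) : ⟪V.H i x, y⟫ = ⟪x, V.H i y⟫ :=
  Mom764.inner_H_left th V.n i x y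

lemma Hi_H (i : ℕ) (x : E) : V.Hi i (V.H i x) = V.P i x := by
  rcases le_or_gt i V.n with h | h
  · exact Mom764.Hi_H V.anti th_pos.ne' h (V.bot V.n le_rfl) x
  · have h1 : V.H i = 0 := by
      unfold FD.Flag.H
      rw [Finset.Ico_eq_empty (by omega)]; simp
    rw [h1, P_zero' V h.le]; simp

lemma H_Hi (i : ℕ) (x : E) : V.H i (V.Hi i x) = V.P i x := by
  rcases le_or_gt i V.n with h | h
  · exact Mom764.H_Hi V.anti th_pos.ne' h (V.bot V.n le_rfl) x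
  · have h1 : V.H i = 0 := by
      unfold FD.Flag.H
      rw [Finset.Ico_eq_empty (by omega)]; simp
    rw [h1, P_zero' V h.le]; simp

lemma norm_H_sq (i : ℕ) (x : E) :
    ‖V.H i x‖ ^ 2 = ∑ j ∈ Finset.Ico i V.n, th ^ (2 * (j - i)) * ‖V.Q j x‖ ^ 2 :=
  Mom764.norm_H_sq V.anti th V.n i x

lemma norm_Hi_sq (i : ℕ) (x : E) :
    ‖V.Hi i x‖ ^ 2 = ∑ j ∈ Finset.Ico i V.n, (th⁻¹) ^ (2 * (j - i)) * ‖V.Q j x‖ ^ 2 :=
  Mom764.norm_H_sq V.anti th⁻¹ V.n i x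

/-- weighted forms -/
noncomputable def fc (c : ℕ → ℝ) (i : ℕ) (x : E) : ℝ :=
  ∑ j ∈ Finset.Ico i V.n, c j * ‖V.Q j x‖ ^ 2

lemma fc_eq (c : ℕ → ℝ) (i : ℕ) {N : ℕ} (hN : V.n ≤ N) (x : E) :
    fc V c i x = c i * ‖V.P i x‖ ^ 2
      + ∑ j ∈ Finset.Ico (i + 1) N, (c j - c (j - 1)) * ‖V.P j x‖ ^ 2 := by
  rcases le_or_gt i V.n with h | h
  · have h1 := abel_real c (fun j => ‖V.P j x‖ ^ 2) h (by simp [P_zero' V le_rfl])
    have h2 : fc V c i x = ∑ l ∈ Finset.Ico i V.n, c l * (‖V.P l x‖ ^ 2 - ‖V.P (l + 1) x‖ ^ 2) :=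
      Finset.sum_congr rfl fun j _ => by rw [norm_Q_sq]
    rw [h2, h1]
    congr 1
    rcases le_or_gt (i + 1) V.n with h3 | h3
    · rw [← Finset.sum_Ico_consecutive _ h3 hN]
      have : ∑ j ∈ Finset.Ico V.n N, (c j - c (j - 1)) * ‖V.P j x‖ ^ 2 = 0 :=
        Finset.sum_eq_zero fun j hj => by
          rw [P_zero' V (Finset.mem_Ico.1 hj).1]; simp
      rw [this, add_zero]
    · rw [Finset.Ico_eq_empty (by omega), Finset.sum_empty]
      symm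
      exact Finset.sum_eq_zero fun j hj => by
        rw [P_zero' V (by have := (Finset.mem_Ico.1 hj).1; omega)]; simp
  · unfold fc
    rw [Finset.Ico_eq_empty (by omega), Finset.sum_empty, P_zero' V h.le]
    symm
    have : ∑ j ∈ Finset.Ico (i + 1) N, (c j - c (j - 1)) * ‖V.P j x‖ ^ 2 = 0 :=
      Finset.sum_eq_zero fun j hj => by
        rw [P_zero' V (by have := (Finset.mem_Ico.1 hj).1; omega)]; simp
    rw [this]; simp

lemma norm_Hi_sq_fc (i : ℕ) (x : E) :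
    ‖V.Hi i x‖ ^ 2 = fc V (fun j => (th⁻¹) ^ (2 * (j - i))) i x := norm_Hi_sq V i x

lemma N_fc (i : ℕ) (x : E) : V.N i x = fc V (fun j => (th⁻¹) ^ (j - i)) i x := rfl

/-- sums of `Q` -/
lemma sum_Q_vec (c : ℕ → ℝ) {a N : ℕ} (ha : 1 ≤ a) (h : a ≤ N) (hN : V.n ≤ N) (v : E) :
    ∑ j ∈ Finset.Ico a N, (c j - c (j - 1)) • V.P j v
      = ∑ l ∈ Finset.Ico a N, (c l - c (a - 1)) • V.Q l v :=
  abel c (fun j => V.P j v) ha h (P_zero' V hN v)

lemma Q_mem (j : ℕ) (x : E) : V.Q j x ∈ V.M j :=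
  (V.M j).sub_mem (P_mem V j x) (V.anti (Nat.le_succ j) (P_mem V (j + 1) x))

lemma Q_zero' {j : ℕ} (h : V.n ≤ j) (x : E) : V.Q j x = 0 := by
  rw [Q_apply, P_zero' V h, P_zero' V (h.trans (Nat.le_succ j)), sub_zero]

lemma inner_Q (j : ℕ) (x y : E) : ⟪V.Q j x, y⟫ = ⟪x, V.Q j y⟫ := Mom764.inner_Q_left j x y

lemma Q_Q (j : ℕ) (x : E) : V.Q j (V.Q j x) = V.Q j x := Mom764.Q_Q V.anti j x

lemma Q_Q_ne {j l : ℕ} (h : j ≠ l) (x : E) : V.Q j (V.Q l x) = 0 := Mom764.Q_Q_ne V.anti h x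

lemma inner_Q_Q_ne {j l : ℕ} (h : j ≠ l) (x y : E) : ⟪V.Q j x, V.Q l y⟫ = 0 :=
  Mom764.inner_Q_Q_ne V.anti h x y

lemma inner_Q_self (j : ℕ) (x : E) : ⟪V.Q j x, x⟫ = ‖V.Q j x‖ ^ 2 := by
  rw [← real_inner_self_eq_norm_sq, inner_Q, inner_Q, Q_Q]

lemma Q_sum {s : Finset ℕ} (c : ℕ → ℝ) {l : ℕ} (hl : l ∈ s) (v : E) :
    V.Q l (∑ j ∈ s, c j • V.Q j v) = c l • V.Q l v := by
  rw [map_sum, Finset.sum_eq_single_of_mem l hl]
  · rw [map_smul, Q_Q]
  · intro j _ hj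
    rw [map_smul, Q_Q_ne V hj.symm, smul_zero]

lemma Q_sum_not {s : Finset ℕ} (c : ℕ → ℝ) {l : ℕ} (hl : l ∉ s) (v : E) :
    V.Q l (∑ j ∈ s, c j • V.Q j v) = 0 := by
  rw [map_sum]
  refine Finset.sum_eq_zero fun j hj => ?_
  rw [map_smul, Q_Q_ne V (by rintro rfl; exact hl hj), smul_zero]

/-- norm of `H i` applied to a sum of blocks `≥ a ≥ i` -/
lemma norm_H_sum_sq (c : ℕ → ℝ) {i a N : ℕ} (hia : i ≤ a) (v : E) :
    ‖V.H i (∑ l ∈ Finset.Ico a N, c l • V.Q l v)‖ ^ 2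
      ≤ ∑ l ∈ Finset.Ico a N, th ^ (2 * (l - i)) * (c l ^ 2 * ‖V.Q l v‖ ^ 2) := by
  rw [norm_H_sq]
  have h1 : ∀ j ∈ Finset.Ico i V.n, th ^ (2 * (j - i)) * ‖V.Q j (∑ l ∈ Finset.Ico a N, c l • V.Q l v)‖ ^ 2
      = if j ∈ Finset.Ico a N then th ^ (2 * (j - i)) * (c j ^ 2 * ‖V.Q j v‖ ^ 2) else 0 := by
    intro j _
    split_ifs with hj
    · rw [Q_sum V c hj, norm_smul, mul_pow, Real.norm_eq_abs, sq_abs]
    · rw [Q_sum_not V c hj]; simp
  rw [Finset.sum_congr rfl h1, ← Finset.sum_filter]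
  refine Finset.sum_le_sum_of_subset_of_nonneg ?_ ?_
  · intro j hj
    exact (Finset.mem_filter.1 hj).2
  · intro j _ _
    have := th_pos
    positivity

lemma norm_H_sq_le (i : ℕ) (x : E) : ‖V.H i x‖ ^ 2 ≤ ‖V.P i x‖ ^ 2 := by
  rw [norm_H_sq]
  have h1 := fc_eq V (fun _ => 1) i (le_refl V.n) x
  simp only [sub_self, zero_mul, Finset.sum_const_zero, add_zero, one_mul] at h1
  rw [← h1]
  unfold fc
  refine Finset.sum_le_sum fun j _ => ?_
  have h2 : th ^ (2 * (j - i)) ≤ 1 := pow_le_one₀ th_pos.le th_lt.le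
  rw [one_mul]
  nlinarith [sq_nonneg ‖V.Q j x‖]

lemma norm_H_le_norm (i : ℕ) (x : E) : ‖V.H i x‖ ^ 2 ≤ ‖x‖ ^ 2 :=
  (norm_H_sq_le V i x).trans (norm_P_sq_le V i x)

lemma norm_H_P_sq_le {i j : ℕ} (h : i ≤ j) (v : E) :
    ‖V.H i (V.P j v)‖ ^ 2 ≤ th ^ (2 * (j - i)) * ‖V.P j v‖ ^ 2 := by
  have h1 : V.H i (V.P j v) = th ^ (j - i) • V.H j v := Mom764.H_P V.anti h v
  rw [h1, norm_smul, mul_pow, Real.norm_eq_abs, sq_abs, ← pow_mul, mul_comm (j - i) 2]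
  exact mul_le_mul_of_nonneg_left (norm_H_sq_le V j v) (by have := th_pos; positivity)

lemma H_Q (i : ℕ) (v : E) : V.H i (V.Q i v) = V.Q i v := by
  rcases lt_or_ge i V.n with h | h
  · have h1 : V.H i (V.Q i v) = ∑ j ∈ Finset.Ico i V.n, th ^ (j - i) • V.Q j (V.Q i v) := by
      unfold FD.Flag.H
      simp
    rw [h1, Finset.sum_eq_single_of_mem i (Finset.mem_Ico.2 ⟨le_rfl, h⟩)]
    · simp [Q_Q]
    · intro j _ hj
      rw [Q_Q_ne V hj, smul_zero]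
  · rw [Q_zero' V h]; simp

lemma H_sub_P (i : ℕ) (v : E) : V.H i (v - V.P i v) = 0 := by
  apply ext_inner_right ℝ
  intro y
  rw [inner_H, inner_sub_left, inner_P, P_of_mem V (H_mem V i y), sub_self, inner_zero_left]

end flag

end Crest.Agent.R239.Z733
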