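import Crest.Agent.R239.Za_733

/-! R239 / S0370, line 733. Part b: the flag `W` of doc 2444. -/

set_option autoImplicit false
set_option linter.unusedSectionVars false
set_option linter.unusedVariables false
open MeasureTheory ProbabilityTheory
open scoped RealInnerProductSpace

namespace Crest.Agent.R239.Z733

open Crest.Agent.R239 Crest.Agent.R239.FD

variable {E : Type*} [NormedAddCommGroup E] [InnerProductSpace ℝ E] [FiniteDimensional ℝ E]

section nu

variable (M : Submodule ℝ E) (v : E)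

/-- the unit vector of `v - P_M v`, or zero -/
noncomputable def nu : E := ‖v - M.starProjection v‖⁻¹ • (v - M.starProjection v)

lemma inner_sub_P_mem {m : E} (hm : m ∈ M) (x : E) : ⟪x - M.starProjection x, m⟫ = 0 := by
  rw [inner_sub_left, Submodule.inner_starProjection_left_eq_right,
    Submodule.starProjection_eq_self_iff.2 hm, sub_self]

lemma inner_nu_mem {m : E} (hm : m ∈ M) : ⟪nu M v, m⟫ = 0 := by
  rw [nu, inner_smul_left, inner_sub_P_mem M hm]; simp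

lemma r_smul_nu : ‖v - M.starProjection v‖ • nu M v = v - M.starProjection v := by
  rw [nu, smul_smul]
  rcases eq_or_ne ‖v - M.starProjection v‖ 0 with h | h
  · rw [h, norm_eq_zero.1 h]; simp
  · rw [mul_inv_cancel₀ h, one_smul]

lemma norm_nu_le : ‖nu M v‖ ≤ 1 := by
  rw [nu, norm_smul, norm_inv, norm_norm]
  exact inv_mul_le_one

lemma norm_nu_cases : ‖nu M v‖ = 0 ∧ v ∈ M ∨ ‖nu M v‖ = 1 := by
  rcases eq_or_ne (v - M.starProjection v) 0 with h | h
  · left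
    refine ⟨by rw [nu, h]; simp, ?_⟩
    have : v = M.starProjection v := sub_eq_zero.1 h
    rw [this]; exact M.starProjection_apply_mem v
  · right
    rw [nu, norm_smul, norm_inv, norm_norm, inv_mul_cancel₀ (norm_ne_zero_iff.2 h)]

lemma nu_of_mem (h : v ∈ M) : nu M v = 0 := by
  rw [nu, Submodule.starProjection_eq_self_iff.2 h, sub_self]; simp

lemma r_inner_nu (x : E) :
    ‖v - M.starProjection v‖ * ⟪nu M v, x⟫ = ⟪v, x⟫ - ⟪M.starProjection v, x⟫ := by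
  have h := congrArg (fun y => ⟪y, x⟫) (r_smul_nu M v)
  simp only [inner_smul_left, inner_sub_left, conj_trivial] at h
  exact h

lemma inner_nu_v : ⟪nu M v, v⟫ = ‖v - M.starProjection v‖ := by
  have h1 : ⟪v - M.starProjection v, v⟫ = ‖v - M.starProjection v‖ ^ 2 := by
    rw [← real_inner_self_eq_norm_sq]
    conv_rhs => rw [inner_sub_right]
    rw [inner_sub_P_mem M (M.starProjection_apply_mem v), sub_zero]
  rw [nu, inner_smul_left, h1]
  simp only [conj_trivial]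
  rcases eq_or_ne ‖v - M.starProjection v‖ 0 with h | h
  · rw [h]; simp
  · field_simp

lemma r_sq (hv : ‖v‖ = 1) : ‖v - M.starProjection v‖ ^ 2 = 1 - ‖M.starProjection v‖ ^ 2 := by
  have h1 : ⟪v - M.starProjection v, M.starProjection v⟫ = 0 :=
    inner_sub_P_mem M (M.starProjection_apply_mem v) v
  have h2 : ‖v‖ ^ 2 = ‖v - M.starProjection v‖ ^ 2 + ‖M.starProjection v‖ ^ 2 := by
    have : v = (v - M.starProjection v) + M.starProjection v := by abel
    conv_lhs => rw [this]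
    rw [norm_add_sq_real, h1]; ring
  rw [hv] at h2
  linarith

/-- (F1) first formula -/
lemma proj_sup (x : E) : (M ⊔ (ℝ ∙ v)).starProjection x
    = M.starProjection x + ⟪nu M v, x⟫ • nu M v := by
  have hnu : nu M v ∈ M ⊔ (ℝ ∙ v) := by
    rw [nu]
    refine Submodule.smul_mem _ _ (Submodule.sub_mem _ ?_ ?_)
    · exact Submodule.mem_sup_right (Submodule.mem_span_singleton_self v)
    · exact Submodule.mem_sup_left (M.starProjection_apply_mem v)
  refine Submodule.eq_starProjection_of_mem_of_inner_eq_zero ?_ ?_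
  · exact Submodule.add_mem _ (Submodule.mem_sup_left (M.starProjection_apply_mem x))
      (Submodule.smul_mem _ _ hnu)
  · intro w hw
    obtain ⟨m, hm, y, hy, rfl⟩ := Submodule.mem_sup.1 hw
    obtain ⟨a, rfl⟩ := Submodule.mem_span_singleton.1 hy
    have e1 : ⟪x - (M.starProjection x + ⟪nu M v, x⟫ • nu M v), m⟫ = 0 := by
      rw [← sub_sub, inner_sub_left, inner_sub_P_mem M hm, inner_smul_left, inner_nu_mem M v hm]
      simp
    have e2 : ⟪x - (M.starProjection x + ⟪nu M v, x⟫ • nu M v), v⟫ = 0 := by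
      rw [← sub_sub, inner_sub_left, inner_smul_left, inner_nu_v, inner_sub_left,
        Submodule.inner_starProjection_left_eq_right]
      have := r_inner_nu M v x
      simp only [conj_trivial]
      rw [real_inner_comm v x, real_inner_comm (M.starProjection v) x]
      linarith
    rw [inner_add_right, inner_smul_right, e1, e2]; simp

lemma mem_map_iff (hv : ‖v‖ = 1) {y : E} (hy : y ∈ M ⊔ (ℝ ∙ v)) (h0 : ⟪v, y⟫ = 0) :
    y ∈ M.map (Ts v 1).toLinearMap := by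
  obtain ⟨m, hm, z, hz, rfl⟩ := Submodule.mem_sup.1 hy
  obtain ⟨a, rfl⟩ := Submodule.mem_span_singleton.1 hz
  refine Submodule.mem_map.2 ⟨m, hm, ?_⟩
  change Ts v 1 m = _
  rw [Ts_apply]
  rw [inner_add_right, inner_smul_right, real_inner_self_eq_norm_sq, hv] at h0
  have : a = -⟪v, m⟫ := by linarith
  rw [this]; module

/-- (F1) second formula -/
lemma proj_map (hv : ‖v‖ = 1) (x : E) : (M.map (Ts v 1).toLinearMap).starProjection x
    = M.starProjection x + ⟪nu M v, x⟫ • nu M v - ⟪v, x⟫ • v := by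
  have hnu : nu M v ∈ M ⊔ (ℝ ∙ v) := by
    rw [nu]
    refine Submodule.smul_mem _ _ (Submodule.sub_mem _ ?_ ?_)
    · exact Submodule.mem_sup_right (Submodule.mem_span_singleton_self v)
    · exact Submodule.mem_sup_left (M.starProjection_apply_mem v)
  have hperp : ⟪v, M.starProjection x + ⟪nu M v, x⟫ • nu M v - ⟪v, x⟫ • v⟫ = 0 := by
    rw [inner_sub_right, inner_add_right, inner_smul_right, inner_smul_right,
      real_inner_self_eq_norm_sq, hv, real_inner_comm (nu M v) v, inner_nu_v,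
      ← Submodule.inner_starProjection_left_eq_right]
    have := r_inner_nu M v x
    linarith
  refine Submodule.eq_starProjection_of_mem_of_inner_eq_zero ?_ ?_
  · refine mem_map_iff M v hv (Submodule.sub_mem _ (Submodule.add_mem _ ?_ ?_) ?_) hperp
    · exact Submodule.mem_sup_left (M.starProjection_apply_mem x)
    · exact Submodule.smul_mem _ _ hnu
    · exact Submodule.smul_mem _ _ (Submodule.mem_sup_right (Submodule.mem_span_singleton_self v))
  · intro w hw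
    obtain ⟨m, hm, rfl⟩ := Submodule.mem_map.1 hw
    change ⟪_, Ts v 1 m⟫ = 0
    rw [Ts_apply, inner_sub_right, inner_smul_right]
    have e1 : ⟪x - (M.starProjection x + ⟪nu M v, x⟫ • nu M v - ⟪v, x⟫ • v), v⟫ = ⟪v, x⟫ := by
      rw [inner_sub_left, real_inner_comm v (M.starProjection x + ⟪nu M v, x⟫ • nu M v - ⟪v, x⟫ • v),
        hperp, real_inner_comm]; ring
    have e2 : ⟪x - (M.starProjection x + ⟪nu M v, x⟫ • nu M v - ⟪v, x⟫ • v), m⟫
        = ⟪v, x⟫ * ⟪v, m⟫ := by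
      have : x - (M.starProjection x + ⟪nu M v, x⟫ • nu M v - ⟪v, x⟫ • v)
          = (x - M.starProjection x) - ⟪nu M v, x⟫ • nu M v + ⟪v, x⟫ • v := by abel
      rw [this, inner_add_left, inner_sub_left, inner_sub_P_mem M hm, inner_smul_left,
        inner_nu_mem M v hm, inner_smul_left]
      simp
    rw [e1, e2]; ring

lemma norm_proj_sup (x : E) : ‖(M ⊔ (ℝ ∙ v)).starProjection x‖ ^ 2
    = ‖M.starProjection x‖ ^ 2 + ⟪nu M v, x⟫ ^ 2 := by
  have h : ∀ U : Submodule ℝ E, ‖U.starProjection x‖ ^ 2 = ⟪U.starProjection x, x⟫ := by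
    intro U
    rw [← real_inner_self_eq_norm_sq, Submodule.inner_starProjection_left_eq_right,
      Submodule.starProjection_eq_self_iff.2 (U.starProjection_apply_mem x), real_inner_comm]
  rw [h, h, proj_sup, inner_add_left, inner_smul_left]
  simp only [conj_trivial]; ring

lemma norm_proj_map (hv : ‖v‖ = 1) (x : E) :
    ‖(M.map (Ts v 1).toLinearMap).starProjection x‖ ^ 2
      = ‖M.starProjection x‖ ^ 2 + ⟪nu M v, x⟫ ^ 2 - ⟪v, x⟫ ^ 2 := by
  have h : ∀ U : Submodule ℝ E, ‖U.starProjection x‖ ^ 2 = ⟪U.starProjection x, x⟫ := by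
    intro U
    rw [← real_inner_self_eq_norm_sq, Submodule.inner_starProjection_left_eq_right,
      Submodule.starProjection_eq_self_iff.2 (U.starProjection_apply_mem x), real_inner_comm]
  rw [h, h, proj_map M v hv, inner_sub_left, inner_add_left, inner_smul_left, inner_smul_left]
  simp only [conj_trivial]; ring

/-- (F2) -/
lemma nu_sq (hv : ‖v‖ = 1) (x : E) : ⟪nu M v, x⟫ ^ 2 - ⟪v, x⟫ ^ 2
    = -2 * ⟪v, x⟫ * ⟪M.starProjection v, x⟫ + ⟪M.starProjection v, x⟫ ^ 2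
      + ‖M.starProjection v‖ ^ 2 * ⟪nu M v, x⟫ ^ 2 := by
  have h1 := r_inner_nu M v x
  have h2 := r_sq M v hv
  have h3 : (1 - ‖M.starProjection v‖ ^ 2) * ⟪nu M v, x⟫ ^ 2
      = (⟪v, x⟫ - ⟪M.starProjection v, x⟫) ^ 2 := by
    rw [← h1, ← h2]; ring
  nlinarith [h3]

end nu

/-! ### the flag W -/

/-- the flag `W` of doc 2444 -/
noncomputable def Wf (V : Flag E) (v : E) (I : ℕ) : Flag E where
  n := max V.n (I + 1)
  M j := if j ≤ I then V.M j ⊔ (ℝ ∙ v) else (V.M j).map (Ts v 1).toLinearMap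
  anti := by
    refine antitone_nat_of_succ_le fun j => ?_
    have hanti : V.M (j + 1) ≤ V.M j := V.anti (Nat.le_succ j)
    by_cases h1 : j + 1 ≤ I
    · rw [if_pos h1, if_pos (by omega)]
      exact sup_le_sup_right hanti _
    · rw [if_neg h1]
      by_cases h2 : j ≤ I
      · rw [if_pos h2]
        rintro _ ⟨m, hm, rfl⟩
        change Ts v 1 m ∈ _
        rw [Ts_apply]
        exact Submodule.sub_mem _ (Submodule.mem_sup_left (hanti hm))
          (Submodule.smul_mem _ _ (Submodule.mem_sup_right (Submodule.mem_span_singleton_self v)))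
      · rw [if_neg h2]
        exact Submodule.map_mono hanti
  bot := by
    intro i hi
    rw [if_neg (by have := le_max_right V.n (I + 1); omega),
      V.bot i ((le_max_left _ _).trans hi), Submodule.map_bot]

section W

variable (V : Flag E) (v : E) (I : ℕ)

lemma Wf_n : V.n ≤ (Wf V v I).n := le_max_left _ _

lemma Wf_n' : I + 1 ≤ (Wf V v I).n := le_max_right _ _

lemma Wf_M_lo {j : ℕ} (h : j ≤ I) : (Wf V v I).M j = V.M j ⊔ (ℝ ∙ v) := if_pos h

lemma Wf_M_hi {j : ℕ} (h : I < j) : (Wf V v I).M j = (V.M j).map (Ts v 1).toLinearMap :=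
  if_neg (by omega)

lemma star_congr {A B : Submodule ℝ E} (h : A = B) (x : E) :
    A.starProjection x = B.starProjection x := by subst h; rfl

lemma P_star (j : ℕ) (x : E) : V.P j x = (V.M j).starProjection x := rfl

lemma Wf_P_lo {j : ℕ} (h : j ≤ I) (x : E) :
    (Wf V v I).P j x = V.P j x + ⟪nu (V.M j) v, x⟫ • nu (V.M j) v := by
  rw [P_star, star_congr (Wf_M_lo V v I h), proj_sup]; rfl

lemma Wf_P_hi (hv : ‖v‖ = 1) {j : ℕ} (h : I < j) (x : E) :
    (Wf V v I).P j x = V.P j x + ⟪nu (V.M j) v, x⟫ • nu (V.M j) v - ⟪v, x⟫ • v := by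
  rw [P_star, star_congr (Wf_M_hi V v I h), proj_map _ _ hv]; rfl

lemma norm_WP_lo {j : ℕ} (h : j ≤ I) (x : E) :
    ‖(Wf V v I).P j x‖ ^ 2 = ‖V.P j x‖ ^ 2 + ⟪nu (V.M j) v, x⟫ ^ 2 := by
  rw [P_star, star_congr (Wf_M_lo V v I h), norm_proj_sup]; rfl

lemma norm_WP_hi (hv : ‖v‖ = 1) {j : ℕ} (h : I < j) (x : E) :
    ‖(Wf V v I).P j x‖ ^ 2 = ‖V.P j x‖ ^ 2 + ⟪nu (V.M j) v, x⟫ ^ 2 - ⟪v, x⟫ ^ 2 := by
  rw [P_star, star_congr (Wf_M_hi V v I h), norm_proj_map _ _ hv]; rfl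

lemma WP_v (hv : ‖v‖ = 1) {j : ℕ} (h : I < j) : (Wf V v I).P j v = 0 := by
  rw [Wf_P_hi V v I hv h, inner_nu_v, real_inner_self_eq_norm_sq, hv]
  have := r_smul_nu (V.M j) v
  change _ = v - V.P j v at this
  rw [this]; simp

lemma WP_Ts (hv : ‖v‖ = 1) {j : ℕ} (h : I < j) (x : E) :
    (Wf V v I).P j (Ts v 1 x) = (Wf V v I).P j x := by
  rw [Ts_apply, map_sub, map_smul, WP_v V v I hv h]; simp

/-- (F1)+(F2) for `j > I` -/
lemma norm_WP_hi' (hv : ‖v‖ = 1) {j : ℕ} (h : I < j) (x : E) :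
    ‖(Wf V v I).P j (Ts v 1 x)‖ ^ 2 = ‖V.P j x‖ ^ 2 - 2 * ⟪v, x⟫ * ⟪V.P j v, x⟫
      + (⟪V.P j v, x⟫ ^ 2 + ‖V.P j v‖ ^ 2 * ⟪nu (V.M j) v, x⟫ ^ 2) := by
  rw [WP_Ts V v I hv h, norm_WP_hi V v I hv h]
  have := nu_sq (V.M j) v hv x
  change _ = -2 * ⟪v, x⟫ * ⟪V.P j v, x⟫ + ⟪V.P j v, x⟫ ^ 2
      + ‖V.P j v‖ ^ 2 * ⟪nu (V.M j) v, x⟫ ^ 2 at this
  linarith

/-- levels `i > I` -/
lemma fcW_hi (hv : ‖v‖ = 1) (c : ℕ → ℝ) {i : ℕ} (hi : I < i) (hc : c i = 1) {x : E}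
    (hx : x ∈ V.M i) :
    fc (Wf V v I) c i (Ts v 1 x) = fc V c i x
      - ⟪v + ∑ j ∈ Finset.Ico (i + 1) (Wf V v I).n, (c j - c (j - 1)) • V.P j v, x⟫ ^ 2
      + ⟪∑ j ∈ Finset.Ico (i + 1) (Wf V v I).n, (c j - c (j - 1)) • V.P j v, x⟫ ^ 2
      + ∑ j ∈ Finset.Ico (i + 1) (Wf V v I).n, (c j - c (j - 1)) *
          (⟪V.P j v, x⟫ ^ 2 + ‖V.P j v‖ ^ 2 * ⟪nu (V.M j) v, x⟫ ^ 2) := by
  set N := (Wf V v I).n with hN
  rw [fc_eq (Wf V v I) c i (le_refl _), fc_eq V c i (Wf_n V v I), ← hN, hc]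
  have e0 : ‖(Wf V v I).P i (Ts v 1 x)‖ ^ 2 = ‖V.P i x‖ ^ 2 - ⟪v, x⟫ ^ 2 := by
    rw [norm_WP_hi' V v I hv hi, inner_nu_mem _ _ hx]
    have : ⟪V.P i v, x⟫ = ⟪v, x⟫ := by rw [inner_P, P_of_mem V hx]
    rw [this]; ring
  have e1 : ∑ j ∈ Finset.Ico (i + 1) N, (c j - c (j - 1)) * ‖(Wf V v I).P j (Ts v 1 x)‖ ^ 2
      = ∑ j ∈ Finset.Ico (i + 1) N, (c j - c (j - 1)) * ‖V.P j x‖ ^ 2
        - 2 * ⟪v, x⟫ * ⟪∑ j ∈ Finset.Ico (i + 1) N, (c j - c (j - 1)) • V.P j v, x⟫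
        + ∑ j ∈ Finset.Ico (i + 1) N, (c j - c (j - 1)) *
          (⟪V.P j v, x⟫ ^ 2 + ‖V.P j v‖ ^ 2 * ⟪nu (V.M j) v, x⟫ ^ 2) := by
    rw [sum_inner, Finset.mul_sum, ← Finset.sum_sub_distrib, ← Finset.sum_add_distrib]
    refine Finset.sum_congr rfl fun j hj => ?_
    rw [norm_WP_hi' V v I hv (by have := (Finset.mem_Ico.1 hj).1; omega), inner_smul_left]
    simp only [conj_trivial]; ring
  rw [e0, e1, inner_add_left]
  ring

/-- levels `i ≤ I` -/
lemma fcW_lo (hv : ‖v‖ = 1) (c : ℕ → ℝ) {i : ℕ} (hi : i ≤ I) {x : E}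
    (hx : x ∈ V.M i) :
    fc (Wf V v I) c i x = fc V c i x
      + ∑ j ∈ Finset.Ico (i + 1) (I + 1), (c j - c (j - 1)) * ⟪nu (V.M j) v, x⟫ ^ 2
      - 2 * ⟪v, x⟫ * ⟪∑ j ∈ Finset.Ico (I + 1) (Wf V v I).n, (c j - c (j - 1)) • V.P j v, x⟫
      + ∑ j ∈ Finset.Ico (I + 1) (Wf V v I).n, (c j - c (j - 1)) *
          (⟪V.P j v, x⟫ ^ 2 + ‖V.P j v‖ ^ 2 * ⟪nu (V.M j) v, x⟫ ^ 2) := by
  have hN' := Wf_n' V v I
  set N := (Wf V v I).n with hN
  rw [fc_eq (Wf V v I) c i (le_refl _), fc_eq V c i (Wf_n V v I), ← hN]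
  have e0 : ‖(Wf V v I).P i x‖ ^ 2 = ‖V.P i x‖ ^ 2 := by
    rw [norm_WP_lo V v I hi, inner_nu_mem _ _ hx]; ring
  rw [e0, ← Finset.sum_Ico_consecutive _ (show i + 1 ≤ I + 1 by omega) hN',
    ← Finset.sum_Ico_consecutive (fun j => (c j - c (j - 1)) * ‖V.P j x‖ ^ 2)
      (show i + 1 ≤ I + 1 by omega) hN']
  have e1 : ∑ j ∈ Finset.Ico (i + 1) (I + 1), (c j - c (j - 1)) * ‖(Wf V v I).P j x‖ ^ 2
      = ∑ j ∈ Finset.Ico (i + 1) (I + 1), (c j - c (j - 1)) * ‖V.P j x‖ ^ 2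
        + ∑ j ∈ Finset.Ico (i + 1) (I + 1), (c j - c (j - 1)) * ⟪nu (V.M j) v, x⟫ ^ 2 := by
    rw [← Finset.sum_add_distrib]
    refine Finset.sum_congr rfl fun j hj => ?_
    rw [norm_WP_lo V v I (by have := (Finset.mem_Ico.1 hj).2; omega)]; ring
  have e2 : ∑ j ∈ Finset.Ico (I + 1) N, (c j - c (j - 1)) * ‖(Wf V v I).P j x‖ ^ 2
      = ∑ j ∈ Finset.Ico (I + 1) N, (c j - c (j - 1)) * ‖V.P j x‖ ^ 2
        - 2 * ⟪v, x⟫ * ⟪∑ j ∈ Finset.Ico (I + 1) N, (c j - c (j - 1)) • V.P j v, x⟫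
        + ∑ j ∈ Finset.Ico (I + 1) N, (c j - c (j - 1)) *
          (⟪V.P j v, x⟫ ^ 2 + ‖V.P j v‖ ^ 2 * ⟪nu (V.M j) v, x⟫ ^ 2) := by
    rw [sum_inner, Finset.mul_sum, ← Finset.sum_sub_distrib, ← Finset.sum_add_distrib]
    refine Finset.sum_congr rfl fun j hj => ?_
    have hj' : I < j := by have := (Finset.mem_Ico.1 hj).1; omega
    have := norm_WP_hi' V v I hv hj' x
    rw [WP_Ts V v I hv hj'] at this
    rw [this, inner_smul_left]
    simp only [conj_trivial]; ring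
  rw [e1, e2]
  ring

/-! dimensions -/

lemma finrank_W_lo {j : ℕ} (h : j ≤ I) :
    (Module.finrank ℝ ((Wf V v I).M j) : ℝ)
      = Module.finrank ℝ (V.M j) + ‖nu (V.M j) v‖ ^ 2 := by
  borelize E
  have b := stdOrthonormalBasis ℝ E
  rw [← Mom764.sum_norm_starProjection b, ← Mom764.sum_norm_starProjection b,
    Mom764.norm_sq_eq_sum b (nu (V.M j) v), ← Finset.sum_add_distrib]
  refine Finset.sum_congr rfl fun a _ => ?_
  have := norm_WP_lo V v I h (b a)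
  unfold FD.Flag.P at this
  rw [this, real_inner_comm (nu (V.M j) v) (b a)]

lemma finrank_W_hi (hv : ‖v‖ = 1) {j : ℕ} (h : I < j) :
    (Module.finrank ℝ ((Wf V v I).M j) : ℝ)
      = Module.finrank ℝ (V.M j) + ‖nu (V.M j) v‖ ^ 2 - 1 := by
  borelize E
  have b := stdOrthonormalBasis ℝ E
  have h1 : (1 : ℝ) = ‖v‖ ^ 2 := by rw [hv]; norm_num
  rw [h1, ← Mom764.sum_norm_starProjection b, ← Mom764.sum_norm_starProjection b,
    Mom764.norm_sq_eq_sum b (nu (V.M j) v), Mom764.norm_sq_eq_sum b v,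
    ← Finset.sum_add_distrib, ← Finset.sum_sub_distrib]
  refine Finset.sum_congr rfl fun a _ => ?_
  have := norm_WP_hi V v I hv h (b a)
  unfold FD.Flag.P at this
  rw [this, real_inner_comm (nu (V.M j) v) (b a), real_inner_comm v (b a)]

lemma k_real (j : ℕ) : (V.k j : ℝ)
    = (Module.finrank ℝ (V.M j) : ℝ) - Module.finrank ℝ (V.M (j + 1)) := by
  unfold FD.Flag.k
  rw [Nat.cast_sub (Submodule.finrank_mono (V.anti (Nat.le_succ j)))]

lemma kW_hi (hv : ‖v‖ = 1) {j : ℕ} (h : I < j) : ((Wf V v I).k j : ℝ) ≤ V.k j := by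
  rw [k_real, k_real, finrank_W_hi V v I hv h, finrank_W_hi V v I hv (by omega : I < j + 1)]
  have h1 : ‖nu (V.M j) v‖ ^ 2 ≤ ‖nu (V.M (j + 1)) v‖ ^ 2 := by
    rcases norm_nu_cases (V.M (j + 1)) v with ⟨h0, hm⟩ | h0
    · have : nu (V.M j) v = 0 := nu_of_mem _ _ (V.anti (Nat.le_succ j) hm)
      rw [this]; simp
    · rw [h0]
      have := norm_nu_le (V.M j) v
      gcongr
  linarith

end W

end Crest.Agent.R239.Z733
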