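import Crest.Agent.R239.Zb_733

/-! R239 / S0370, line 733. Part c: comparison of the levels of `V` and `W` (linear algebra + CMP). -/

set_option autoImplicit false
set_option linter.unusedSectionVars false
set_option linter.unusedVariables false
open MeasureTheory ProbabilityTheory
open scoped RealInnerProductSpace

namespace Crest.Agent.R239.Z733

open Crest.Agent.R239 Crest.Agent.R239.FD

variable {E : Type*} [NormedAddCommGroup E] [InnerProductSpace ℝ E] [FiniteDimensional ℝ E]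

/-! ### weights -/

/-- weights of the precision form -/
noncomputable def cB (i : ℕ) (j : ℕ) : ℝ := (th⁻¹) ^ (2 * (j - i))

/-- weights of the cap form -/
noncomputable def cN (i : ℕ) (j : ℕ) : ℝ := (th⁻¹) ^ (j - i)

lemma thi_ge : (1 : ℝ) ≤ th⁻¹ := by unfold th; norm_num

lemma cB_self (i : ℕ) : cB i i = 1 := by simp [cB]
lemma cN_self (i : ℕ) : cN i i = 1 := by simp [cN]

lemma cB_ge (i j : ℕ) : 1 ≤ cB i j := one_le_pow₀ thi_ge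
lemma cN_ge (i j : ℕ) : 1 ≤ cN i j := one_le_pow₀ thi_ge

lemma cB_pos (i j : ℕ) : 0 < cB i j := lt_of_lt_of_le one_pos (cB_ge i j)
lemma cN_pos (i j : ℕ) : 0 < cN i j := lt_of_lt_of_le one_pos (cN_ge i j)

lemma cB_mono (i : ℕ) {j l : ℕ} (h : j ≤ l) : cB i j ≤ cB i l :=
  pow_le_pow_right₀ thi_ge (by omega)
lemma cN_mono (i : ℕ) {j l : ℕ} (h : j ≤ l) : cN i j ≤ cN i l :=
  pow_le_pow_right₀ thi_ge (by omega)

lemma cN_le_cB (i j : ℕ) : cN i j ≤ cB i j := pow_le_pow_right₀ thi_ge (by omega)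

lemma dB_nonneg (i j : ℕ) : 0 ≤ cB i j - cB i (j - 1) := sub_nonneg.2 (cB_mono i (Nat.sub_le j 1))
lemma dN_nonneg (i j : ℕ) : 0 ≤ cN i j - cN i (j - 1) := sub_nonneg.2 (cN_mono i (Nat.sub_le j 1))

lemma dB_le (i j : ℕ) : cB i j - cB i (j - 1) ≤ cB i j := by
  have := cB_pos i (j - 1); linarith

lemma th_cB (i j : ℕ) : th ^ (2 * (j - i)) * cB i j = 1 := by
  rw [cB, ← mul_pow, mul_inv_cancel₀ th_pos.ne', one_pow]

/-! ### the one-direction stretch -/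

/-- `S x = x + ε <u,x> u` -/
noncomputable def Su (ε : ℝ) (u : E) : E →L[ℝ] E :=
  ContinuousLinearMap.id ℝ E + ε • (innerSL ℝ u).smulRight u

lemma Su_apply (ε : ℝ) (u x : E) : Su ε u x = x + (ε * ⟪u, x⟫) • u := by
  simp [Su, smul_smul]

lemma inner_Su (ε : ℝ) (u x y : E) : ⟪Su ε u x, y⟫ = ⟪x, Su ε u y⟫ := by
  rw [Su_apply, Su_apply, inner_add_left, inner_add_right, inner_smul_left, inner_smul_right,
    real_inner_comm u x]
  simp only [conj_trivial]; ring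

lemma norm_Su_sq_le {ε : ℝ} {u : E} (h0 : 0 ≤ ε) (h1 : ε ≤ 1 / 8) (hu : ‖u‖ ≤ 1) {x : E}
    (hx : ‖x‖ ^ 2 ≤ 1) : ‖Su ε u x‖ ^ 2 ≤ 2 := by
  have h2 : ‖Su ε u x‖ ≤ 9 / 8 := by
    rw [Su_apply]
    have hx1 : ‖x‖ ≤ 1 := by nlinarith [norm_nonneg x]
    have h3 : |⟪u, x⟫| ≤ 1 := by
      refine (abs_real_inner_le_norm u x).trans ?_
      nlinarith [norm_nonneg u, norm_nonneg x]
    have h4 : ‖(ε * ⟪u, x⟫) • u‖ ≤ 1 / 8 := by
      rw [norm_smul, Real.norm_eq_abs, abs_mul, abs_of_nonneg h0]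
      have : ε * |⟪u, x⟫| ≤ 1 / 8 := by nlinarith [abs_nonneg ⟪u, x⟫]
      have h5 : 0 ≤ ε * |⟪u, x⟫| := by positivity
      nlinarith [norm_nonneg u]
    exact (norm_add_le _ _).trans (by linarith)
  nlinarith [norm_nonneg (Su ε u x)]

section cmp

variable [MeasurableSpace E] [BorelSpace E]

/-- (CMP) in the shape used below -/
theorem cmp4 {K : Set E} (mK : MeasurableSet K) (cK : Convex ℝ K) (sK : ∀ x ∈ K, -x ∈ K)
    (t : Finset ℕ) (R : E →L[ℝ] E) (r1 r2 : E) (w1 w2 : ℕ → E) (a1 a2 : ℕ → ℝ)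
    (ha1 : ∀ j ∈ t, 0 ≤ a1 j) (ha2 : ∀ j ∈ t, 0 ≤ a2 j)
    (h : ∀ g, ‖R g‖ ^ 2 ≤ ‖g‖ ^ 2 + ⟪r1, g⟫ ^ 2 + ⟪r2, g⟫ ^ 2
      + ∑ j ∈ t, (a1 j * ⟪w1 j, g⟫ ^ 2 + a2 j * ⟪w2 j, g⟫ ^ 2)) {T : ℝ}
    (hT : ‖r1‖ ^ 2 + ‖r2‖ ^ 2 + ∑ j ∈ t, (a1 j * ‖w1 j‖ ^ 2 + a2 j * ‖w2 j‖ ^ 2) ≤ T) :
    Real.exp (-T / 2) * (stdGaussian E).real K ≤ (stdGaussian E).real (R ⁻¹' K) := by
  let s : Finset ((Unit ⊕ Unit) ⊕ (ℕ ⊕ ℕ)) :=
    (({()} : Finset Unit).disjSum ({()} : Finset Unit)).disjSum (t.disjSum t)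
  let w : (Unit ⊕ Unit) ⊕ (ℕ ⊕ ℕ) → E := Sum.elim (Sum.elim (fun _ => r1) (fun _ => r2))
    (Sum.elim (fun j => √(a1 j) • w1 j) (fun j => √(a2 j) • w2 j))
  have hs : ∀ f : E → ℝ, ∑ k ∈ s, f (w k)
      = (f r1 + f r2) + (∑ j ∈ t, f (√(a1 j) • w1 j) + ∑ j ∈ t, f (√(a2 j) • w2 j)) := by
    intro f
    simp only [s, w, Finset.sum_disjSum, Sum.elim_inl, Sum.elim_inr, Finset.sum_singleton]
  have h1 := Cmp142.cmp_sum_real mK cK sK s R w (fun g => by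
    have e := hs (fun z => ⟪z, g⟫ ^ 2)
    rw [e]
    have e1 : ∑ j ∈ t, ⟪√(a1 j) • w1 j, g⟫ ^ 2 = ∑ j ∈ t, a1 j * ⟪w1 j, g⟫ ^ 2 :=
      Finset.sum_congr rfl fun j hj => by
        rw [inner_smul_left]; simp only [conj_trivial]
        rw [mul_pow, Real.sq_sqrt (ha1 j hj)]
    have e2 : ∑ j ∈ t, ⟪√(a2 j) • w2 j, g⟫ ^ 2 = ∑ j ∈ t, a2 j * ⟪w2 j, g⟫ ^ 2 :=
      Finset.sum_congr rfl fun j hj => by
        rw [inner_smul_left]; simp only [conj_trivial]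
        rw [mul_pow, Real.sq_sqrt (ha2 j hj)]
    rw [e1, e2, ← Finset.sum_add_distrib]
    have := h g
    linarith)
  have e := hs (fun z => ‖z‖ ^ 2)
  rw [e] at h1
  have e1 : ∑ j ∈ t, ‖√(a1 j) • w1 j‖ ^ 2 = ∑ j ∈ t, a1 j * ‖w1 j‖ ^ 2 :=
    Finset.sum_congr rfl fun j hj => by
      rw [norm_smul, mul_pow, Real.norm_eq_abs, sq_abs, Real.sq_sqrt (ha1 j hj)]
  have e2 : ∑ j ∈ t, ‖√(a2 j) • w2 j‖ ^ 2 = ∑ j ∈ t, a2 j * ‖w2 j‖ ^ 2 :=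
    Finset.sum_congr rfl fun j hj => by
      rw [norm_smul, mul_pow, Real.norm_eq_abs, sq_abs, Real.sq_sqrt (ha2 j hj)]
  rw [e1, e2, ← Finset.sum_add_distrib] at h1
  refine le_trans ?_ h1
  gcongr

end cmp

section hi

variable (V : Flag E) (v : E) (I : ℕ)

/-- `X_i = Σ_{l > i} θ^{-2(l-i)} b_l` (sum up to `N`) -/
noncomputable def XX (i a N : ℕ) : ℝ := ∑ l ∈ Finset.Ico a N, cB i l * ‖V.P l v‖ ^ 2

lemma P_sum_Q {a N : ℕ} (h : a ≤ N) (hN : V.n ≤ N) :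
    V.P a v = ∑ l ∈ Finset.Ico a N, V.Q l v := by
  have h1 : ∑ l ∈ Finset.Ico a N, V.Q l v = V.P a v - V.P N v := Mom764.sum_Q h v
  rw [h1, P_zero' V hN, sub_zero]

lemma inner_Q_mem {i : ℕ} {y : E} (hy : y ∈ V.M (i + 1)) : ⟪V.Q i v, y⟫ = 0 := by
  rw [inner_Q, Q_apply, P_of_mem V hy, P_of_mem V (V.anti (Nat.le_succ i) hy), sub_self,
    inner_zero_right]

lemma H_mem' {i : ℕ} {y : E} (hy : y ∈ V.M (i + 1)) : V.H i y ∈ V.M (i + 1) := by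
  have h1 : V.H i (V.P (i + 1) y) = th ^ (i + 1 - i) • V.H (i + 1) y :=
    Mom764.H_P V.anti (Nat.le_succ i) y
  rw [P_of_mem V hy] at h1
  rw [h1]
  exact Submodule.smul_mem _ _ (H_mem V (i + 1) y)

/-- the vector `Σ (c_j - c_{j-1}) P_j v` -/
noncomputable def wZ (c : ℕ → ℝ) (a N : ℕ) : E := ∑ j ∈ Finset.Ico a N, (c j - c (j - 1)) • V.P j v

lemma wZ_mem (c : ℕ → ℝ) {a b N : ℕ} (h : b ≤ a) : wZ V v c a N ∈ V.M b := by
  refine Submodule.sum_mem _ fun j hj => Submodule.smul_mem _ _ ?_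
  exact V.anti (h.trans (Finset.mem_Ico.1 hj).1) (P_mem V j v)

lemma wZ_eq (c : ℕ → ℝ) {a N : ℕ} (ha : 1 ≤ a) (h : a ≤ N) (hN : V.n ≤ N) :
    wZ V v c a N = ∑ l ∈ Finset.Ico a N, (c l - c (a - 1)) • V.Q l v :=
  sum_Q_vec V c ha h hN v

/-- bound for `‖H_i Σ d_l Q_l v‖²`, `|d_l| ≤ c_l` -/
lemma norm_H_le_XX {d : ℕ → ℝ} {i a N : ℕ} (hia : i ≤ a) (hd : ∀ l ∈ Finset.Ico a N, d l ^ 2 ≤ cB i l ^ 2) :
    ‖V.H i (∑ l ∈ Finset.Ico a N, d l • V.Q l v)‖ ^ 2 ≤ XX V v i a N := by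
  refine (norm_H_sum_sq V d hia v).trans (Finset.sum_le_sum fun l hl => ?_)
  have h1 := hd l hl
  have h2 := th_cB i l
  have h3 : 0 < th ^ (2 * (l - i)) := by have := th_pos; positivity
  have h4 := norm_Q_sq_le V l v
  calc th ^ (2 * (l - i)) * (d l ^ 2 * ‖V.Q l v‖ ^ 2)
      ≤ th ^ (2 * (l - i)) * (cB i l ^ 2 * ‖V.Q l v‖ ^ 2) := by gcongr
    _ = cB i l * ‖V.Q l v‖ ^ 2 := by
        rw [pow_two (cB i l), ← mul_assoc, ← mul_assoc, h2, one_mul]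
    _ ≤ cB i l * ‖V.P l v‖ ^ 2 := mul_le_mul_of_nonneg_left h4 (cB_pos i l).le

/-- the map of the levels `i > I` -/
noncomputable def Rhi (ε : ℝ) (i : ℕ) : E →L[ℝ] E :=
  (Wf V v I).Hi i ∘L Ts v 1 ∘L V.H i ∘L Su ε (V.Q i v)

lemma Ts_mem_W {i : ℕ} (hi : I < i) {x : E} (hx : x ∈ V.M i) : Ts v 1 x ∈ (Wf V v I).M i := by
  rw [Wf_M_hi V v I hi]
  exact Submodule.mem_map_of_mem hx

lemma H_Rhi (ε : ℝ) {i : ℕ} (hi : I < i) (g : E) :
    (Wf V v I).H i (Rhi V v I ε i g) = Ts v 1 (V.H i (Su ε (V.Q i v) g)) := by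
  change (Wf V v I).H i ((Wf V v I).Hi i (Ts v 1 (V.H i (Su ε (V.Q i v) g)))) = _
  rw [H_Hi, P_of_mem _ (Ts_mem_W V v I hi (H_mem V i _))]

theorem Rhi_le (hv : ‖v‖ = 1) {ε : ℝ} (h0 : 0 ≤ ε) (h1 : ε ≤ 1 / 8) {i : ℕ} (hi : I < i)
    (g : E) :
    ‖Rhi V v I ε i g‖ ^ 2 ≤ ‖g‖ ^ 2
      + ⟪V.H i (V.P (i + 1) v + wZ V v (cB i) (i + 1) (Wf V v I).n), g⟫ ^ 2
      + ⟪V.H i (wZ V v (cB i) (i + 1) (Wf V v I).n), g⟫ ^ 2
      + ∑ j ∈ Finset.Ico (i + 1) (Wf V v I).n,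
          ((cB i j - cB i (j - 1)) * ⟪V.H i (V.P j v), g⟫ ^ 2
          + (cB i j - cB i (j - 1)) * ‖V.P j v‖ ^ 2
            * ⟪Su ε (V.Q i v) (V.H i (nu (V.M j) v)), g⟫ ^ 2) := by
  set N := (Wf V v I).n with hN
  set u := V.Q i v with hu
  set z := wZ V v (cB i) (i + 1) N with hz
  set x := V.H i (Su ε u g) with hx
  have hxm : x ∈ V.M i := H_mem V i _
  have hzm : z ∈ V.M (i + 1) := wZ_mem V v _ le_rfl
  -- functionals
  have hS : ∀ y ∈ V.M (i + 1), Su ε u (V.H i y) = V.H i y := by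
    intro y hy
    rw [Su_apply, hu, inner_Q_mem V v (H_mem' V hy)]; simp
  have hf : ∀ y : E, ⟪y, x⟫ = ⟪Su ε u (V.H i y), g⟫ := by
    intro y
    rw [inner_Su, inner_H]
  have hf' : ∀ y ∈ V.M (i + 1), ⟪y, x⟫ = ⟪V.H i y, g⟫ := by
    intro y hy
    rw [hf, hS y hy]
  have hHv : V.H i (v + z) = u + V.H i (V.P (i + 1) v + z) := by
    have e1 : V.H i v = V.H i (V.P i v) := by
      have := H_sub_P V i v
      rw [map_sub, sub_eq_zero] at this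
      exact this
    have e2 : V.P i v = u + V.P (i + 1) v := by rw [hu, Q_apply]; abel
    rw [map_add, e1, e2, map_add, map_add, hu, H_Q]; abel
  have hρm : V.H i (V.P (i + 1) v + z) ∈ V.M (i + 1) :=
    H_mem' V (Submodule.add_mem _ (P_mem V _ v) hzm)
  have hl : ⟪v + z, x⟫ = (1 + ε * ‖u‖ ^ 2) * ⟪u, g⟫ + ⟪V.H i (V.P (i + 1) v + z), g⟫ := by
    rw [hf, hHv, Su_apply, inner_add_right, real_inner_self_eq_norm_sq]
    rw [hu, inner_Q_mem V v hρm, ← hu]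
    rw [inner_add_left, inner_add_left, inner_smul_left]
    simp only [conj_trivial]; ring
  -- the norm
  have e0 : ‖Rhi V v I ε i g‖ ^ 2 = fc (Wf V v I) (cB i) i (Ts v 1 x) := norm_Hi_sq_fc _ i _
  have e1 := fcW_hi V v I hv (cB i) hi (cB_self i) hxm
  have e2 : fc V (cB i) i x = ‖V.P i (Su ε u g)‖ ^ 2 := by
    have : fc V (cB i) i x = ‖V.Hi i x‖ ^ 2 := (norm_Hi_sq_fc V i x).symm
    rw [this, hx, Hi_H]
  have e3 : ‖V.P i (Su ε u g)‖ ^ 2 = ‖V.P i g‖ ^ 2 + (2 * ε + ε ^ 2 * ‖u‖ ^ 2) * ⟪u, g⟫ ^ 2 := by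
    have hPu : V.P i u = u := P_of_mem V (Q_mem V i v)
    rw [Su_apply, map_add, map_smul, hPu, norm_add_sq_real, inner_smul_right, inner_P, hPu,
      real_inner_comm u g, norm_smul, mul_pow, Real.norm_eq_abs, sq_abs]
    ring
  have hPg := norm_P_sq_le V i g
  have hu1 : ‖u‖ ^ 2 ≤ 1 := by
    have := (norm_Q_sq_le V i v).trans (norm_P_sq_le V i v)
    rw [hv] at this; simpa using this
  have hzx : ⟪z, x⟫ = ⟪V.H i z, g⟫ := hf' z hzm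
  rw [e0, e1, e2, e3]
  change ‖V.P i g‖ ^ 2 + (2 * ε + ε ^ 2 * ‖u‖ ^ 2) * ⟪u, g⟫ ^ 2 - ⟪v + z, x⟫ ^ 2 + ⟪z, x⟫ ^ 2 + _ ≤ _
  rw [hl, hzx]
  have e4 : ∑ j ∈ Finset.Ico (i + 1) N, (cB i j - cB i (j - 1)) *
        (⟪V.P j v, x⟫ ^ 2 + ‖V.P j v‖ ^ 2 * ⟪nu (V.M j) v, x⟫ ^ 2)
      = ∑ j ∈ Finset.Ico (i + 1) N, ((cB i j - cB i (j - 1)) * ⟪V.H i (V.P j v), g⟫ ^ 2
          + (cB i j - cB i (j - 1)) * ‖V.P j v‖ ^ 2
            * ⟪Su ε u (V.H i (nu (V.M j) v)), g⟫ ^ 2) := by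
    refine Finset.sum_congr rfl fun j hj => ?_
    rw [hf' (V.P j v) (V.anti (Finset.mem_Ico.1 hj).1 (P_mem V j v)), hf (nu (V.M j) v)]
    ring
  rw [e4]
  set α := (1 + ε * ‖u‖ ^ 2) * ⟪u, g⟫ with hα
  set β := ⟪V.H i (V.P (i + 1) v + z), g⟫ with hβ
  have h5 : α ^ 2 / 2 - β ^ 2 ≤ (α + β) ^ 2 := by nlinarith [sq_nonneg (α + 2 * β)]
  have h6 : (2 * ε + ε ^ 2 * ‖u‖ ^ 2) * ⟪u, g⟫ ^ 2 ≤ α ^ 2 / 2 := by
    rw [hα, mul_pow]
    have h7 : 2 * ε + ε ^ 2 * ‖u‖ ^ 2 ≤ (1 + ε * ‖u‖ ^ 2) ^ 2 / 2 := by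
      have h8 : 0 ≤ ε * ‖u‖ ^ 2 := by positivity
      have h9 : ε ^ 2 * ‖u‖ ^ 2 ≤ 1 / 64 := by nlinarith [sq_nonneg ‖u‖]
      nlinarith
    nlinarith [mul_le_mul_of_nonneg_right h7 (sq_nonneg ⟪u, g⟫)]
  linarith

/-- trace of the loss at the levels `i > I` -/
theorem Thi_le (hv : ‖v‖ = 1) {ε : ℝ} (h0 : 0 ≤ ε) (h1 : ε ≤ 1 / 8) {i : ℕ} (hin : i < V.n) :
    ‖V.H i (V.P (i + 1) v + wZ V v (cB i) (i + 1) (Wf V v I).n)‖ ^ 2
      + ‖V.H i (wZ V v (cB i) (i + 1) (Wf V v I).n)‖ ^ 2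
      + ∑ j ∈ Finset.Ico (i + 1) (Wf V v I).n,
          ((cB i j - cB i (j - 1)) * ‖V.H i (V.P j v)‖ ^ 2
          + (cB i j - cB i (j - 1)) * ‖V.P j v‖ ^ 2
            * ‖Su ε (V.Q i v) (V.H i (nu (V.M j) v))‖ ^ 2)
      ≤ 5 * XX V v i (i + 1) (Wf V v I).n := by
  have hN := Wf_n V v I
  set N := (Wf V v I).n with hNd
  have hiN : i + 1 ≤ N := by omega
  have ez := wZ_eq V v (cB i) (a := i + 1) (by omega) hiN hN
  simp only [Nat.add_sub_cancel, cB_self] at ez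
  have hcs : ∀ l, (cB i l - 1) ^ 2 ≤ cB i l ^ 2 := fun l => by
    have := cB_ge i l
    nlinarith
  have t1 : ‖V.H i (V.P (i + 1) v + wZ V v (cB i) (i + 1) N)‖ ^ 2 ≤ XX V v i (i + 1) N := by
    have e : V.P (i + 1) v + wZ V v (cB i) (i + 1) N = ∑ l ∈ Finset.Ico (i + 1) N, cB i l • V.Q l v := by
      rw [ez, P_sum_Q V v hiN hN, ← Finset.sum_add_distrib]
      refine Finset.sum_congr rfl fun l _ => ?_
      module
    rw [e]
    exact norm_H_le_XX V v (Nat.le_succ i) fun l _ => le_rfl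
  have t2 : ‖V.H i (wZ V v (cB i) (i + 1) N)‖ ^ 2 ≤ XX V v i (i + 1) N := by
    rw [ez]
    exact norm_H_le_XX V v (Nat.le_succ i) fun l _ => hcs l
  have hu1 : ‖V.Q i v‖ ≤ 1 := by
    have := (norm_Q_sq_le V i v).trans (norm_P_sq_le V i v)
    rw [hv] at this
    nlinarith [norm_nonneg (V.Q i v)]
  have t3 : ∑ j ∈ Finset.Ico (i + 1) N,
          ((cB i j - cB i (j - 1)) * ‖V.H i (V.P j v)‖ ^ 2
          + (cB i j - cB i (j - 1)) * ‖V.P j v‖ ^ 2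
            * ‖Su ε (V.Q i v) (V.H i (nu (V.M j) v))‖ ^ 2) ≤ 3 * XX V v i (i + 1) N := by
    unfold XX
    rw [Finset.mul_sum]
    refine Finset.sum_le_sum fun j hj => ?_
    have hij : i ≤ j := by have := (Finset.mem_Ico.1 hj).1; omega
    have a1 := norm_H_P_sq_le V hij v
    have a2 := th_cB i j
    have a3 := dB_nonneg i j
    have a4 := dB_le i j
    have a5 := cB_ge i j
    have a6 : ‖Su ε (V.Q i v) (V.H i (nu (V.M j) v))‖ ^ 2 ≤ 2 := by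
      refine norm_Su_sq_le h0 h1 hu1 ((norm_H_le_norm V i _).trans ?_)
      have := norm_nu_le (V.M j) v
      nlinarith [norm_nonneg (nu (V.M j) v)]
    have b1 : (cB i j - cB i (j - 1)) * ‖V.H i (V.P j v)‖ ^ 2 ≤ cB i j * ‖V.P j v‖ ^ 2 := by
      calc (cB i j - cB i (j - 1)) * ‖V.H i (V.P j v)‖ ^ 2
          ≤ cB i j * (th ^ (2 * (j - i)) * ‖V.P j v‖ ^ 2) := by gcongr
        _ = ‖V.P j v‖ ^ 2 := by rw [← mul_assoc, mul_comm (cB i j), a2, one_mul]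
        _ ≤ _ := by nlinarith [sq_nonneg ‖V.P j v‖]
    have b2 : (cB i j - cB i (j - 1)) * ‖V.P j v‖ ^ 2
            * ‖Su ε (V.Q i v) (V.H i (nu (V.M j) v))‖ ^ 2 ≤ cB i j * ‖V.P j v‖ ^ 2 * 2 := by
      gcongr
    linarith
  linarith

/-- **(CMP at the levels `i > I`)** -/
theorem cmp_hi [MeasurableSpace E] [BorelSpace E] (hv : ‖v‖ = 1) {ε : ℝ} (h0 : 0 ≤ ε)
    (h1 : ε ≤ 1 / 8) {i : ℕ} (hi : I < i) (hin : i < V.n) {K : Set E} (mK : MeasurableSet K)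
    (cK : Convex ℝ K) (sK : ∀ x ∈ K, -x ∈ K) :
    Real.exp (-(5 * XX V v i (i + 1) (Wf V v I).n) / 2) * (gau ((Wf V v I).H i)).real K
      ≤ (gau (V.H i ∘L Su ε (V.Q i v))).real (Ts v 1 ⁻¹' K) := by
  have h := cmp4 (K := (Wf V v I).H i ⁻¹' K) ((Wf V v I).H i |>.continuous.measurable mK)
    (cK.linear_preimage ((Wf V v I).H i : E →ₗ[ℝ] E))
    (by intro x hx; simp only [Set.mem_preimage, map_neg]; exact sK _ hx)
    (Finset.Ico (i + 1) (Wf V v I).n) (Rhi V v I ε i)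
    (V.H i (V.P (i + 1) v + wZ V v (cB i) (i + 1) (Wf V v I).n))
    (V.H i (wZ V v (cB i) (i + 1) (Wf V v I).n))
    (fun j => V.H i (V.P j v)) (fun j => Su ε (V.Q i v) (V.H i (nu (V.M j) v)))
    (fun j => cB i j - cB i (j - 1)) (fun j => (cB i j - cB i (j - 1)) * ‖V.P j v‖ ^ 2)
    (fun j _ => dB_nonneg i j) (fun j _ => mul_nonneg (dB_nonneg i j) (sq_nonneg _))
    (fun g => Rhi_le V v I hv h0 h1 hi g) (Thi_le V v I hv h0 h1 hin)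
  rw [gau_real_apply _ mK, gau_real_apply _ ((Ts v 1).continuous.measurable mK)]
  convert h using 2
  ext g
  simp only [Set.mem_preimage]
  rw [H_Rhi V v I ε hi]
  rfl

end hi

section lo

variable (V : Flag E) (v : E) (I : ℕ)

/-- the map of the levels `i ≤ I` -/
noncomputable def Rlo (i : ℕ) : E →L[ℝ] E := (Wf V v I).Hi i ∘L V.H i

lemma H_Rlo {i : ℕ} (hi : i ≤ I) (g : E) : (Wf V v I).H i (Rlo V v I i g) = V.H i g := by
  change (Wf V v I).H i ((Wf V v I).Hi i (V.H i g)) = _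
  rw [H_Hi, P_of_mem]
  rw [Wf_M_lo V v I hi]
  exact Submodule.mem_sup_left (H_mem V i g)

theorem Rlo_le (hv : ‖v‖ = 1) {e : ℝ} (he : 0 < e) {i : ℕ} (hi : i ≤ I) (g : E) :
    ‖Rlo V v I i g‖ ^ 2 ≤ ‖g‖ ^ 2
      + ⟪√e • V.H i v, g⟫ ^ 2
      + ⟪√(1 / e) • V.H i (wZ V v (cB i) (I + 1) (Wf V v I).n), g⟫ ^ 2
      + ∑ j ∈ Finset.Ico (i + 1) (Wf V v I).n,
          ((if j ≤ I then 0 else cB i j - cB i (j - 1)) * ⟪V.H i (V.P j v), g⟫ ^ 2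
          + (if j ≤ I then cB i j - cB i (j - 1) else (cB i j - cB i (j - 1)) * ‖V.P j v‖ ^ 2)
            * ⟪V.H i (nu (V.M j) v), g⟫ ^ 2) := by
  have hN' := Wf_n' V v I
  set N := (Wf V v I).n with hN
  set x := V.H i g with hx
  have hxm : x ∈ V.M i := H_mem V i _
  have hf : ∀ y : E, ⟪y, x⟫ = ⟪V.H i y, g⟫ := by
    intro y
    rw [inner_H]
  have e0 : ‖Rlo V v I i g‖ ^ 2 = fc (Wf V v I) (cB i) i x := norm_Hi_sq_fc _ i _
  have e1 := fcW_lo V v I hv (cB i) hi hxm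
  have e2 : fc V (cB i) i x = ‖V.P i g‖ ^ 2 := by
    have : fc V (cB i) i x = ‖V.Hi i x‖ ^ 2 := (norm_Hi_sq_fc V i x).symm
    rw [this, hx, Hi_H]
  have hPg := norm_P_sq_le V i g
  rw [e0, e1, e2]
  rw [← Finset.sum_Ico_consecutive (fun j =>
      ((if j ≤ I then 0 else cB i j - cB i (j - 1)) * ⟪V.H i (V.P j v), g⟫ ^ 2
          + (if j ≤ I then cB i j - cB i (j - 1) else (cB i j - cB i (j - 1)) * ‖V.P j v‖ ^ 2)
            * ⟪V.H i (nu (V.M j) v), g⟫ ^ 2)) (show i + 1 ≤ I + 1 by omega) hN']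
  have e3 : ∑ j ∈ Finset.Ico (i + 1) (I + 1),
      ((if j ≤ I then 0 else cB i j - cB i (j - 1)) * ⟪V.H i (V.P j v), g⟫ ^ 2
          + (if j ≤ I then cB i j - cB i (j - 1) else (cB i j - cB i (j - 1)) * ‖V.P j v‖ ^ 2)
            * ⟪V.H i (nu (V.M j) v), g⟫ ^ 2)
      = ∑ j ∈ Finset.Ico (i + 1) (I + 1), (cB i j - cB i (j - 1)) * ⟪nu (V.M j) v, x⟫ ^ 2 := by
    refine Finset.sum_congr rfl fun j hj => ?_
    have : j ≤ I := by have := (Finset.mem_Ico.1 hj).2; omega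
    rw [if_pos this, if_pos this, hf]; ring
  have e4 : ∑ j ∈ Finset.Ico (I + 1) N,
      ((if j ≤ I then 0 else cB i j - cB i (j - 1)) * ⟪V.H i (V.P j v), g⟫ ^ 2
          + (if j ≤ I then cB i j - cB i (j - 1) else (cB i j - cB i (j - 1)) * ‖V.P j v‖ ^ 2)
            * ⟪V.H i (nu (V.M j) v), g⟫ ^ 2)
      = ∑ j ∈ Finset.Ico (I + 1) N, (cB i j - cB i (j - 1)) *
          (⟪V.P j v, x⟫ ^ 2 + ‖V.P j v‖ ^ 2 * ⟪nu (V.M j) v, x⟫ ^ 2) := by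
    refine Finset.sum_congr rfl fun j hj => ?_
    have : ¬ j ≤ I := by have := (Finset.mem_Ico.1 hj).1; omega
    rw [if_neg this, if_neg this, hf, hf]; ring
  rw [e3, e4]
  change ‖V.P i g‖ ^ 2 + _ - 2 * ⟪v, x⟫ * ⟪wZ V v (cB i) (I + 1) N, x⟫ + _ ≤ _
  set z := wZ V v (cB i) (I + 1) N with hz
  have e5 : ⟪√e • V.H i v, g⟫ ^ 2 = e * ⟪v, x⟫ ^ 2 := by
    rw [inner_smul_left, ← hf]; simp only [conj_trivial]
    rw [mul_pow, Real.sq_sqrt he.le]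
  have e6 : ⟪√(1 / e) • V.H i z, g⟫ ^ 2 = 1 / e * ⟪z, x⟫ ^ 2 := by
    rw [inner_smul_left, ← hf]; simp only [conj_trivial]
    rw [mul_pow, Real.sq_sqrt (by positivity)]
  rw [e5, e6]
  have h7 : -(2 * ⟪v, x⟫ * ⟪z, x⟫) ≤ e * ⟪v, x⟫ ^ 2 + 1 / e * ⟪z, x⟫ ^ 2 := by
    have : e * ⟪v, x⟫ ^ 2 + 1 / e * ⟪z, x⟫ ^ 2 + 2 * ⟪v, x⟫ * ⟪z, x⟫
        = (e * ⟪v, x⟫ + ⟪z, x⟫) ^ 2 / e := by field_simp; ring
    have h8 : 0 ≤ (e * ⟪v, x⟫ + ⟪z, x⟫) ^ 2 / e := by positivity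
    linarith
  linarith

theorem Tlo_le (hv : ‖v‖ = 1) {e : ℝ} (he : 0 < e) {i : ℕ} (hi : i ≤ I) (hin : i < V.n) :
    ‖√e • V.H i v‖ ^ 2 + ‖√(1 / e) • V.H i (wZ V v (cB i) (I + 1) (Wf V v I).n)‖ ^ 2
      + ∑ j ∈ Finset.Ico (i + 1) (Wf V v I).n,
          ((if j ≤ I then 0 else cB i j - cB i (j - 1)) * ‖V.H i (V.P j v)‖ ^ 2
          + (if j ≤ I then cB i j - cB i (j - 1) else (cB i j - cB i (j - 1)) * ‖V.P j v‖ ^ 2)
            * ‖V.H i (nu (V.M j) v)‖ ^ 2)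
      ≤ (cB i I - 1) + e + (2 + 1 / e) * XX V v i (I + 1) (Wf V v I).n := by
  have hN := Wf_n V v I
  have hN' := Wf_n' V v I
  set N := (Wf V v I).n with hNd
  have ez := wZ_eq V v (cB i) (a := I + 1) (by omega) hN' hN
  simp only [Nat.add_sub_cancel] at ez
  have hcs : ∀ l ∈ Finset.Ico (I + 1) N, (cB i l - cB i I) ^ 2 ≤ cB i l ^ 2 := fun l hl => by
    have h1 := cB_mono i (show I ≤ l by have := (Finset.mem_Ico.1 hl).1; omega)
    have h2 := cB_pos i I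
    nlinarith
  have t1 : ‖√e • V.H i v‖ ^ 2 ≤ e := by
    rw [norm_smul, mul_pow, Real.norm_eq_abs, sq_abs, Real.sq_sqrt he.le]
    have := norm_H_le_norm V i v
    rw [hv] at this
    nlinarith
  have t2 : ‖√(1 / e) • V.H i (wZ V v (cB i) (I + 1) N)‖ ^ 2 ≤ 1 / e * XX V v i (I + 1) N := by
    rw [norm_smul, mul_pow, Real.norm_eq_abs, sq_abs, Real.sq_sqrt (by positivity), ez]
    exact mul_le_mul_of_nonneg_left (norm_H_le_XX V v (by omega) hcs) (by positivity)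
  have hnu : ∀ j, ‖V.H i (nu (V.M j) v)‖ ^ 2 ≤ 1 := fun j => by
    refine (norm_H_le_norm V i _).trans ?_
    have := norm_nu_le (V.M j) v
    nlinarith [norm_nonneg (nu (V.M j) v)]
  rw [← Finset.sum_Ico_consecutive _ (show i + 1 ≤ I + 1 by omega) hN']
  have t3 : ∑ j ∈ Finset.Ico (i + 1) (I + 1),
          ((if j ≤ I then 0 else cB i j - cB i (j - 1)) * ‖V.H i (V.P j v)‖ ^ 2
          + (if j ≤ I then cB i j - cB i (j - 1) else (cB i j - cB i (j - 1)) * ‖V.P j v‖ ^ 2)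
            * ‖V.H i (nu (V.M j) v)‖ ^ 2) ≤ cB i I - 1 := by
    have h1 : ∑ j ∈ Finset.Ico (i + 1) (I + 1), (cB i j - cB i (j - 1)) = cB i I - 1 := by
      have h2 : ∀ m, i ≤ m → ∑ j ∈ Finset.Ico (i + 1) (m + 1), (cB i j - cB i (j - 1)) = cB i m - 1 := by
        intro m hm
        induction m, hm using Nat.le_induction with
        | base => simp [cB_self]
        | succ m hm ih =>
          rw [Finset.sum_Ico_succ_top (by omega), ih]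
          simp
      exact h2 I hi
    rw [← h1]
    refine Finset.sum_le_sum fun j hj => ?_
    have : j ≤ I := by have := (Finset.mem_Ico.1 hj).2; omega
    rw [if_pos this, if_pos this]
    nlinarith [hnu j, dB_nonneg i j]
  have t4 : ∑ j ∈ Finset.Ico (I + 1) N,
          ((if j ≤ I then 0 else cB i j - cB i (j - 1)) * ‖V.H i (V.P j v)‖ ^ 2
          + (if j ≤ I then cB i j - cB i (j - 1) else (cB i j - cB i (j - 1)) * ‖V.P j v‖ ^ 2)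
            * ‖V.H i (nu (V.M j) v)‖ ^ 2) ≤ 2 * XX V v i (I + 1) N := by
    unfold XX
    rw [Finset.mul_sum]
    refine Finset.sum_le_sum fun j hj => ?_
    have hIj : ¬ j ≤ I := by have := (Finset.mem_Ico.1 hj).1; omega
    rw [if_neg hIj, if_neg hIj]
    have hij : i ≤ j := by omega
    have a1 := norm_H_P_sq_le V hij v
    have a2 := th_cB i j
    have a3 := dB_nonneg i j
    have a4 := dB_le i j
    have a5 := cB_ge i j
    have b1 : (cB i j - cB i (j - 1)) * ‖V.H i (V.P j v)‖ ^ 2 ≤ cB i j * ‖V.P j v‖ ^ 2 := by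
      calc (cB i j - cB i (j - 1)) * ‖V.H i (V.P j v)‖ ^ 2
          ≤ cB i j * (th ^ (2 * (j - i)) * ‖V.P j v‖ ^ 2) := by gcongr
        _ = ‖V.P j v‖ ^ 2 := by rw [← mul_assoc, mul_comm (cB i j), a2, one_mul]
        _ ≤ _ := by nlinarith [sq_nonneg ‖V.P j v‖]
    have b2 : (cB i j - cB i (j - 1)) * ‖V.P j v‖ ^ 2 * ‖V.H i (nu (V.M j) v)‖ ^ 2
        ≤ cB i j * ‖V.P j v‖ ^ 2 * 1 := by
      have := hnu j
      gcongr
    linarith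
  have : (2 + 1 / e) * XX V v i (I + 1) N
      = 2 * XX V v i (I + 1) N + 1 / e * XX V v i (I + 1) N := by ring
  linarith

/-- **(CMP at the levels `i ≤ I`)** -/
theorem cmp_lo [MeasurableSpace E] [BorelSpace E] (hv : ‖v‖ = 1) {e : ℝ} (he : 0 < e)
    {i : ℕ} (hi : i ≤ I) (hin : i < V.n) {K : Set E} (mK : MeasurableSet K)
    (cK : Convex ℝ K) (sK : ∀ x ∈ K, -x ∈ K) :
    Real.exp (-((cB i I - 1) + e + (2 + 1 / e) * XX V v i (I + 1) (Wf V v I).n) / 2)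
        * (gau ((Wf V v I).H i)).real K
      ≤ (gau (V.H i)).real K := by
  have h := cmp4 (K := (Wf V v I).H i ⁻¹' K) ((Wf V v I).H i |>.continuous.measurable mK)
    (cK.linear_preimage ((Wf V v I).H i : E →ₗ[ℝ] E))
    (by intro x hx; simp only [Set.mem_preimage, map_neg]; exact sK _ hx)
    (Finset.Ico (i + 1) (Wf V v I).n) (Rlo V v I i)
    (√e • V.H i v) (√(1 / e) • V.H i (wZ V v (cB i) (I + 1) (Wf V v I).n))
    (fun j => V.H i (V.P j v)) (fun j => V.H i (nu (V.M j) v))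
    (fun j => if j ≤ I then 0 else cB i j - cB i (j - 1))
    (fun j => if j ≤ I then cB i j - cB i (j - 1) else (cB i j - cB i (j - 1)) * ‖V.P j v‖ ^ 2)
    (fun j _ => by split_ifs; exacts [le_rfl, dB_nonneg i j])
    (fun j _ => by
      split_ifs
      exacts [dB_nonneg i j, mul_nonneg (dB_nonneg i j) (sq_nonneg _)])
    (fun g => Rlo_le V v I hv he hi g) (Tlo_le V v I hv he hi hin)
  rw [gau_real_apply _ mK, gau_real_apply _ mK]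
  convert h using 2
  ext g
  simp only [Set.mem_preimage]
  rw [H_Rlo V v I hi]

end lo

/-! ### the cap form -/

section capform

variable (V : Flag E) (v : E) (I : ℕ)

/-- `h_i = Σ_{l ≥ i} θ^{-(l-i)} |Q_l v|²` -/
noncomputable def hh (i : ℕ) : ℝ := V.N i v

lemma N_nonneg (i : ℕ) (x : E) : 0 ≤ V.N i x := by
  unfold FD.Flag.N
  refine Finset.sum_nonneg fun j _ => ?_
  have := th_pos
  positivity

lemma hh_nonneg (i : ℕ) : 0 ≤ hh V v i := N_nonneg V i v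

lemma N_eq (i : ℕ) (x : E) : V.N i x = fc V (cN i) i x := rfl

/-- pointwise comparison of the caps at the levels `i > I` -/
theorem cap_hi (hv : ‖v‖ = 1) {i : ℕ} (hi : I < i) (hin : i < V.n) {x : E} (hx : x ∈ V.M i) :
    (1 - hh V v i) * V.N i x ≤ (Wf V v I).N i (Ts v 1 x) := by
  have hN := Wf_n V v I
  set N := (Wf V v I).n with hNd
  have hiN : i + 1 ≤ N := by omega
  rw [N_eq (Wf V v I), fcW_hi V v I hv (cN i) hi (cN_self i) hx, ← N_eq V]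
  change _ ≤ V.N i x - ⟪v + wZ V v (cN i) (i + 1) N, x⟫ ^ 2 + ⟪wZ V v (cN i) (i + 1) N, x⟫ ^ 2
    + ∑ j ∈ Finset.Ico (i + 1) N, _
  have ez := wZ_eq V v (cN i) (a := i + 1) (by omega) hiN hN
  simp only [Nat.add_sub_cancel, cN_self] at ez
  have e1 : ⟪v + wZ V v (cN i) (i + 1) N, x⟫
      = ∑ l ∈ Finset.Ico i V.n, cN i l * ⟪V.Q l v, V.Q l x⟫ := by
    have e2 : ⟪v, x⟫ = ⟪∑ l ∈ Finset.Ico i N, V.Q l v, x⟫ := by
      rw [← P_sum_Q V v (by omega) hN, inner_P, P_of_mem V hx]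
    have e3 : ∑ l ∈ Finset.Ico i V.n, cN i l * ⟪V.Q l v, V.Q l x⟫
        = ∑ l ∈ Finset.Ico i N, cN i l * ⟪V.Q l v, V.Q l x⟫ := by
      rw [← Finset.sum_Ico_consecutive _ hin.le hN]
      have : ∑ l ∈ Finset.Ico V.n N, cN i l * ⟪V.Q l v, V.Q l x⟫ = 0 :=
        Finset.sum_eq_zero fun l hl => by
          rw [Q_zero' V (Finset.mem_Ico.1 hl).1]; simp
      rw [this, add_zero]
    rw [e3, inner_add_left, e2, ez, sum_inner, sum_inner,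
      Finset.sum_eq_sum_Ico_succ_bot (by omega : i < N),
      Finset.sum_eq_sum_Ico_succ_bot (by omega : i < N), cN_self, add_assoc,
      ← Finset.sum_add_distrib]
    have e4 : ∀ l, ⟪V.Q l v, V.Q l x⟫ = ⟪V.Q l v, x⟫ := fun l => by
      rw [← inner_Q, Q_Q]
    congr 1
    · rw [e4]; ring
    · refine Finset.sum_congr rfl fun l _ => ?_
      rw [inner_smul_left, e4]
      simp only [conj_trivial]; ring
  have e5 : ⟪v + wZ V v (cN i) (i + 1) N, x⟫ ^ 2 ≤ hh V v i * V.N i x := by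
    rw [e1]
    have h1 : |∑ l ∈ Finset.Ico i V.n, cN i l * ⟪V.Q l v, V.Q l x⟫|
        ≤ ∑ l ∈ Finset.Ico i V.n, cN i l * (‖V.Q l v‖ * ‖V.Q l x‖) := by
      refine (Finset.abs_sum_le_sum_abs _ _).trans (Finset.sum_le_sum fun l _ => ?_)
      rw [abs_mul, abs_of_pos (cN_pos i l)]
      exact mul_le_mul_of_nonneg_left (abs_real_inner_le_norm _ _) (cN_pos i l).le
    have h2 : (∑ l ∈ Finset.Ico i V.n, cN i l * (‖V.Q l v‖ * ‖V.Q l x‖)) ^ 2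
        ≤ (∑ l ∈ Finset.Ico i V.n, cN i l * ‖V.Q l v‖ ^ 2)
          * ∑ l ∈ Finset.Ico i V.n, cN i l * ‖V.Q l x‖ ^ 2 := by
      refine Finset.sum_sq_le_sum_mul_sum_of_sq_le_mul _ (fun l _ => ?_) (fun l _ => ?_)
        (fun l _ => le_of_eq (by ring))
      · have := cN_pos i l; positivity
      · have := cN_pos i l; positivity
    calc _ = |∑ l ∈ Finset.Ico i V.n, cN i l * ⟪V.Q l v, V.Q l x⟫| ^ 2 := (sq_abs _).symm
      _ ≤ (∑ l ∈ Finset.Ico i V.n, cN i l * (‖V.Q l v‖ * ‖V.Q l x‖)) ^ 2 := by gcongr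
      _ ≤ _ := h2
  have h3 : 0 ≤ ∑ j ∈ Finset.Ico (i + 1) N, (cN i j - cN i (j - 1)) *
      (⟪V.P j v, x⟫ ^ 2 + ‖V.P j v‖ ^ 2 * ⟪nu (V.M j) v, x⟫ ^ 2) :=
    Finset.sum_nonneg fun j _ => mul_nonneg (dN_nonneg i j) (by positivity)
  nlinarith [sq_nonneg ⟪wZ V v (cN i) (i + 1) N, x⟫]

/-- `h_i ≤ b_i + X_i` -/
lemma hh_le {i : ℕ} (hin : i < V.n) {N : ℕ} (hN : V.n ≤ N) :
    hh V v i ≤ ‖V.P i v‖ ^ 2 + XX V v i (i + 1) N := by
  unfold hh FD.Flag.N XX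
  rw [Finset.sum_eq_sum_Ico_succ_bot hin]
  have h1 : (th⁻¹) ^ (i - i) * ‖V.Q i v‖ ^ 2 ≤ ‖V.P i v‖ ^ 2 := by
    simp only [Nat.sub_self, pow_zero, one_mul]
    exact norm_Q_sq_le V i v
  have h2 : ∑ j ∈ Finset.Ico (i + 1) V.n, (th⁻¹) ^ (j - i) * ‖V.Q j v‖ ^ 2
      ≤ ∑ l ∈ Finset.Ico (i + 1) N, cB i l * ‖V.P l v‖ ^ 2 := by
    calc ∑ j ∈ Finset.Ico (i + 1) V.n, (th⁻¹) ^ (j - i) * ‖V.Q j v‖ ^ 2
        ≤ ∑ j ∈ Finset.Ico (i + 1) V.n, cB i j * ‖V.P j v‖ ^ 2 := by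
          refine Finset.sum_le_sum fun j _ => ?_
          exact mul_le_mul (cN_le_cB i j) (norm_Q_sq_le V j v) (sq_nonneg _) (cB_pos i j).le
      _ ≤ _ := by
          refine Finset.sum_le_sum_of_subset_of_nonneg (Finset.Ico_subset_Ico_right hN) ?_
          intro j _ _
          have := cB_pos i j
          positivity
  linarith

end capform

end Crest.Agent.R239.Z733
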